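import Crest.Agent.R138.WDef_188
import Crest.Agent.R138.Wpk5_685

/-!
# R138 / R139: localisation between two packet scales (helper878).

`ρ ≤ ρ'` (long tubes / short tubes), frame `z`.  The energy of the short packets of
`tr h z g` in a selection `S'` is controlled by the energy of the long packets of `g` which pass
through `S'` (`loc_le`), and conversely (`loc_ge`).
-/

set_option autoImplicit false
set_option linter.unusedSectionVars false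

open MeasureTheory FourierTransform
open scoped ContDiff ENNReal

namespace Crest.Agent.R138.Loc878

open Crest.Agent.R138.Defs Crest.Agent.R138.Wpk685
open Crest.Agent.R138.Wf448 (wE sl)
open Crest.Agent.R138.W188 (tr)







theorem win_kbound (N : ℕ) : ∃ K : ℝ, 0 < K ∧ ∀ (ρ ρ' : ℝ), 0 < ρ → ρ ≤ ρ' → ∀ (m : ℤ × ℤ),
    ∀ j ≤ N, ∀ ξ, ‖iteratedFDeriv ℝ j (cap win (cen ρ' m) ρ') ξ‖ ≤ K * (ρ⁻¹) ^ j := by
  obtain ⟨Aw, hAw, hwin⟩ := exists_win win_contDiff (fun ζ hζ => win_zero' (by linarith)) N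
  refine ⟨Aw + 1, by linarith, ?_⟩
  intro ρ ρ' hρ hρ' m j hj ξ
  have h1 := norm_iteratedFDeriv_cap_le win_contDiff (cen ρ' m) (lt_of_lt_of_le hρ hρ') j
    (hwin.bd j hj) ξ
  refine h1.trans ?_
  have h2 : ρ'⁻¹ ≤ ρ⁻¹ := inv_anti₀ hρ hρ'
  have h3 : 0 ≤ ρ'⁻¹ := inv_nonneg.2 (hρ.le.trans hρ')
  gcongr
  linarith

/-- the caps `m` of scale `ρ` near the cap `m'` of scale `ρ'`. -/
def Near (ρ ρ' : ℝ) (m' m : ℤ × ℤ) : Prop := ‖cen ρ m - cen ρ' m'‖ < 3 * ρ'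

open Classical in
/-- the caps of scale `ρ` near `m'`. -/
noncomputable def nearL (ρ ρ' : ℝ) (m' : ℤ × ℤ) : Finset (ℤ × ℤ) := (caps ρ).filter (Near ρ ρ' m')

open Classical in
/-- the caps of scale `ρ'` near `m`. -/
noncomputable def nearS (ρ ρ' : ℝ) (m : ℤ × ℤ) : Finset (ℤ × ℤ) :=
  (caps ρ').filter (fun m' => Near ρ ρ' m' m)

theorem mem_nearL {ρ ρ' : ℝ} {m m' : ℤ × ℤ} : m ∈ nearL ρ ρ' m' ↔ m ∈ caps ρ ∧ Near ρ ρ' m' m := by
  classical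
  simp [nearL]

theorem mem_nearS {ρ ρ' : ℝ} {m m' : ℤ × ℤ} : m' ∈ nearS ρ ρ' m ↔ m' ∈ caps ρ' ∧ Near ρ ρ' m' m := by
  classical
  simp [nearS]

theorem card_nearS {ρ ρ' : ℝ} (hρ' : 0 < ρ') (m : ℤ × ℤ) : (nearS ρ ρ' m).card ≤ 36 := by
  have h := card_near hρ' (cen ρ m) (fun m' => m' ∈ nearS ρ ρ' m)
    (fun m' hm' => (mem_nearS.1 hm').2)
  have e : {m' | m' ∈ nearS ρ ρ' m} = ((nearS ρ ρ' m : Finset (ℤ × ℤ)) : Set (ℤ × ℤ)) := rfl
  rwa [e, Set.ncard_coe_finset] at h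

theorem capwin_prod {ρ ρ' : ℝ} (hρ : 0 < ρ) (hρ' : ρ ≤ ρ') {m m' : ℤ × ℤ}
    (hm : ¬ Near ρ ρ' m' m) (ξ : E2) : cap win (cen ρ m) ρ ξ * cap win (cen ρ' m') ρ' ξ = 0 := by
  by_contra hne
  have h1 := capwin_supp hρ m ξ (left_ne_zero_of_mul hne)
  have h2 := capwin_supp (lt_of_lt_of_le hρ hρ') m' ξ (right_ne_zero_of_mul hne)
  apply hm
  unfold Near
  have h3 : ‖cen ρ m - cen ρ' m'‖ ≤ ‖ξ - cen ρ m‖ + ‖ξ - cen ρ' m'‖ := by
    have : cen ρ m - cen ρ' m' = -(ξ - cen ρ m) + (ξ - cen ρ' m') := by abel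
    rw [this]
    exact (norm_add_le _ _).trans (by rw [norm_neg])
  have h4 : 0 < ρ' := lt_of_lt_of_le hρ hρ'
  linarith

/-- a function supported in the ball of radius `2` and in the cap `m'` is the sum of its pieces in
the near caps. -/
theorem sum_nearL {ρ ρ' : ℝ} (hρ : 0 < ρ) (hρ' : ρ ≤ ρ') {g : E2 → ℂ}
    (hg : ∀ ξ, 2 < ‖ξ‖ → g ξ = 0) (m' : ℤ × ℤ) (ξ : E2) :
    ∑ m ∈ nearL ρ ρ' m', cap win (cen ρ m) ρ ξ * (cap win (cen ρ' m') ρ' ξ * g ξ) =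
      cap win (cen ρ' m') ρ' ξ * g ξ := by
  classical
  have h1 := sum_win hρ (g := fun ξ => cap win (cen ρ' m') ρ' ξ * g ξ)
    (fun ξ hξ => by rw [hg ξ hξ, mul_zero]) ξ
  refine Eq.trans ?_ h1
  unfold nearL
  rw [Finset.sum_filter_of_ne]
  intro m _ hne
  by_contra hc
  apply hne
  rw [← mul_assoc, capwin_prod hρ hρ' hc, zero_mul]

theorem um_lint (ρ : ℝ) (g : E2 → ℂ) (m : ℤ × ℤ) (w : E2 → ℝ) :
    ∫⁻ y, ENNReal.ofReal (w y) * ‖um ρ g m y‖ₑ ^ 2 =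
      WE w (fun ξ => cap win (cen ρ m) ρ ξ * g ξ) := rfl


/-! ### splitting a weighted energy along a set -/



theorem sum_near_le {ρ ρ' : ℝ} (hρ' : 0 < ρ') (a : ℤ × ℤ → ℝ≥0∞) :
    ∑ m' ∈ caps ρ', ∑ m ∈ nearL ρ ρ' m', a m ≤ 36 * ∑ m ∈ caps ρ, a m := by
  have h1 : ∑ m' ∈ caps ρ', ∑ m ∈ nearL ρ ρ' m', a m = ∑ m ∈ caps ρ, ∑ m' ∈ nearS ρ ρ' m, a m := by
    refine Finset.sum_comm' fun m' m => ?_
    rw [mem_nearL, mem_nearS]
    tauto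
  rw [h1, Finset.mul_sum]
  refine Finset.sum_le_sum fun m _ => ?_
  rw [Finset.sum_const, nsmul_eq_mul]
  refine mul_le_mul' ?_ le_rfl
  exact_mod_cast card_nearS hρ' m


/-! ### the converse -/



theorem tr_int {h : E2 → ℝ} (hhc : Continuous h) {g : E2 → ℂ} (hg : Integrable g) (z : E2 × ℝ) :
    Integrable (tr h z g) := by
  have hwt : Continuous (fun ξ : E2 => ee (inner ℝ z.1 ξ + z.2 * h ξ)) :=
    contDiff_ee.continuous.comp ((continuous_const.inner continuous_id).add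
      (continuous_const.mul hhc))
  unfold tr
  exact hg.mul_bdd (c := 1) hwt.aestronglyMeasurable
    (Filter.Eventually.of_forall fun ξ => (norm_ee _).le)

theorem enorm_tr (h : E2 → ℝ) (g : E2 → ℂ) (z : E2 × ℝ) (ξ : E2) : ‖tr h z g ξ‖ₑ = ‖g ξ‖ₑ := by
  have h1 : ‖tr h z g ξ‖ = ‖g ξ‖ := by
    unfold tr
    rw [norm_mul]
    have h2 : ‖ee (inner ℝ z.1 ξ + z.2 * h ξ)‖ = 1 := norm_ee _
    rw [h2, mul_one]
  rw [← ofReal_norm, ← ofReal_norm, h1]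

theorem tr_l2 {h : E2 → ℝ} (hhc : Continuous h) {g : E2 → ℂ} (hg2 : MemLp g 2) (z : E2 × ℝ) :
    MemLp (tr h z g) 2 := by
  have hwt : Continuous (fun ξ : E2 => ee (inner ℝ z.1 ξ + z.2 * h ξ)) :=
    contDiff_ee.continuous.comp ((continuous_const.inner continuous_id).add
      (continuous_const.mul hhc))
  unfold tr
  refine MemLp.of_le hg2 (hg2.1.mul hwt.aestronglyMeasurable) (Filter.Eventually.of_forall
    fun ξ => ?_)
  rw [norm_mul]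
  have h2 : ‖ee (inner ℝ z.1 ξ + z.2 * h ξ)‖ = 1 := norm_ee _
  rw [h2, mul_one]

theorem tr_zero {h : E2 → ℝ} {g : E2 → ℂ} (z : E2 × ℝ) {ξ : E2} (hg : g ξ = 0) :
    tr h z g ξ = 0 := by
  unfold tr; rw [hg, zero_mul]





end Crest.Agent.R138.Loc878
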