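import Crest.Agent.R138.Pm_926
import Crest.Agent.R138.FM_501

/-!
# R138: from dense line/height configurations to 501's F-model (helper926)

* `near_card`: counts in centred boxes from the profile of the coordinate family.
* `exists_fmodel`: every dense sequence of configurations has a sub-configuration which is an
  `FModel` (the counting exponents are the profile of the coordinate family).
-/

set_option autoImplicit false
set_option linter.unusedSectionVars false
set_option linter.unusedVariables false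

open Filter Topology MeasureTheory
open scoped NNReal

namespace Crest.Agent.R138.Ex926

section Near

open Finset

variable {m : ℕ} (B : Base) {ι γ : ℕ → Type*} [∀ n, DecidableEq (ι n)] [∀ n, DecidableEq (γ n)]

theorem Base.ev_rpow_small (B : Base) {η c : ℝ} (hη : 0 < η) (hc : 0 < c) :
    ∀ᶠ n in (U : Filter ℕ), B.d n ^ η ≤ c := by
  have h1 := B.lim0.rpow_const (p := η) (Or.inr hη.le)
  rw [Real.zero_rpow hη.ne'] at h1
  exact (h1.eventually_lt_const hc).mono fun n hn => hn.le

open Classical in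
/-- **centred boxes versus dyadic cells.** -/
theorem near_card (I : ∀ n, Finset (ι n)) (g : ∀ n, ι n → γ n) (x : ∀ n, ι n → Fin m → ℝ)
    {ν : (Fin m → ℝ) → ℝ} {R K : ℝ} (hK : 0 ≤ K)
    (hν : IsProfile B I (cfam B g x) (Set.Icc 0 (fun _ => R + 1)) ν)
    (hlip : ∀ p ∈ Set.Icc (0 : Fin m → ℝ) (fun _ => R + 1), ∀ q ∈ Set.Icc (0 : Fin m → ℝ)
      (fun _ => R + 1), |ν p - ν q| ≤ K * ‖p - q‖) :
    ∀ ε : ℝ, 0 < ε → ∀ᶠ n in (U : Filter ℕ), ∀ p ∈ Set.Icc (0 : Fin m → ℝ) (fun _ => R),
      ∀ i ∈ I n,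
      B.d n ^ (-ν p + ε) ≤ (((I n).filter fun i' => g n i' = g n i ∧
        ∀ j, |x n i' j - x n i j| ≤ B.d n ^ p j).card : ℝ) ∧
      (((I n).filter fun i' => g n i' = g n i ∧
        ∀ j, |x n i' j - x n i j| ≤ B.d n ^ p j).card : ℝ) ≤ B.d n ^ (-ν p - ε) := by
  intro ε hε
  set η : ℝ := min 1 (ε / (4 * (K + 1))) with hη
  have hη0 : 0 < η := lt_min one_pos (by positivity)
  have hη1 : η ≤ 1 := min_le_left _ _
  have hKη : K * η ≤ ε / 4 := by
    have h1 : η ≤ ε / (4 * (K + 1)) := min_le_right _ _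
    rw [le_div_iff₀ (by positivity)] at h1
    nlinarith
  have hexp : ∀ n t, B.d n ^ t = Real.exp (-(t * B.L n)) := by
    intro n t
    rw [Real.rpow_def_of_pos (B.pos n)]; congr 1; simp only [Base.L]; ring
  filter_upwards [hν (ε / 2) (by positivity), B.ev_rpow_small hη0 (c := 1 / 2) (by norm_num),
    B.ev_rpow_small (η := ε / 2) (c := 1 / 3 ^ m) (by positivity) (by positivity)] with
    n h1 h2 h3 p hp i hi
  have hL := B.L_pos n
  have hd := B.pos n
  have hp0 : ∀ j, 0 ≤ p j := fun j => hp.1 j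
  have hpP : p ∈ Set.Icc (0 : Fin m → ℝ) (fun _ => R + 1) :=
    ⟨hp.1, fun j => (hp.2 j).trans (by simp)⟩
  set N := (I n).filter fun i' => g n i' = g n i ∧ ∀ j, |x n i' j - x n i j| ≤ B.d n ^ p j with hN
  constructor
  · -- lower bound
    set p' : Fin m → ℝ := fun j => p j + η with hp'
    have hp'P : p' ∈ Set.Icc (0 : Fin m → ℝ) (fun _ => R + 1) :=
      ⟨fun j => by simp only [hp', Pi.zero_apply]; linarith [hp0 j],
        fun j => by simp only [hp']; linarith [hp.2 j]⟩
    have hsub : cls (I n) (cfam B g x n p') i ⊆ N := by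
      intro y hy
      obtain ⟨y1, y2⟩ := mem_cls.1 hy
      simp only [cfam, Prod.mk.injEq] at y2
      rw [hN, mem_filter]
      refine ⟨y1, y2.1, fun j => ?_⟩
      have e1 := congrFun y2.2 j
      simp only [dcell] at e1
      have e2 := Int.abs_sub_lt_one_of_floor_eq_floor e1
      rw [← sub_mul, abs_mul, abs_of_pos (by positivity : (0:ℝ) < 2 ^ (B.lev n (p' j)))] at e2
      have e3 := B.lt_pow_lev n (p' j)
      rw [pow_succ] at e3
      have e4 : B.d n ^ (-(p' j)) = B.d n ^ (-(p j)) * B.d n ^ (-η) := by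
        rw [← Real.rpow_add hd]; congr 1; simp only [hp']; ring
      have e5 : 2 ≤ B.d n ^ (-η) := by
        rw [Real.rpow_neg hd.le]
        have h4 := Real.rpow_pos_of_pos hd η
        rw [le_inv_comm₀ (by norm_num) h4]
        linarith
      have hdp := Real.rpow_pos_of_pos hd (-(p j))
      have e6 : B.d n ^ (-(p j)) ≤ 2 ^ (B.lev n (p' j)) := by
        rw [e4] at e3
        nlinarith
      have e7 : B.d n ^ (-(p j)) * B.d n ^ (p j) = 1 := by
        rw [← Real.rpow_add hd]; simp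
      have hdp2 := Real.rpow_pos_of_pos hd (p j)
      by_contra hcon
      push Not at hcon
      have e8 : 1 < |x n y j - x n i j| * 2 ^ (B.lev n (p' j)) := by
        calc (1 : ℝ) = B.d n ^ (p j) * B.d n ^ (-(p j)) := by rw [mul_comm]; exact e7.symm
          _ < |x n y j - x n i j| * B.d n ^ (-(p j)) := by gcongr
          _ ≤ |x n y j - x n i j| * 2 ^ (B.lev n (p' j)) := by gcongr
      linarith
    have hcard : ((cls (I n) (cfam B g x n p') i).card : ℝ) ≤ N.card := by
      exact_mod_cast card_le_card hsub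
    refine le_trans ?_ hcard
    have e1 := (abs_le.1 (h1 p' hp'P i hi)).1
    have e2 := (abs_le.1 (hlip p' hp'P p hpP)).1
    have e3 : ‖p' - p‖ ≤ η := by
      refine (pi_norm_le_iff_of_nonneg hη0.le).2 fun j => ?_
      simp only [hp', Pi.sub_apply, add_sub_cancel_left, Real.norm_eq_abs]
      rw [abs_of_pos hη0]
    have e4 : K * ‖p' - p‖ ≤ ε / 4 := (mul_le_mul_of_nonneg_left e3 hK).trans hKη
    have e5 : (1 : ℝ) ≤ (cls (I n) (cfam B g x n p') i).card := cls_card_pos hi
    rw [hexp, ← Real.le_log_iff_exp_le (by linarith)]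
    have e6 : ν p - ε ≤ Real.log ((cls (I n) (cfam B g x n p') i).card) / B.L n := by linarith
    rw [le_div_iff₀ hL] at e6
    linarith
  · -- upper bound
    have hiN : (N.image (cfam B g x n p)).card ≤ 3 ^ m := by
      set z : Fin m → ℤ := dcell (fun j => B.lev n (p j)) (x n i) with hz
      have hsub : N.image (cfam B g x n p) ⊆
          (Fintype.piFinset fun j => Finset.Icc (z j - 1) (z j + 1)).image fun c => (g n i, c) := by
        intro c hc
        obtain ⟨y, hy, rfl⟩ := mem_image.1 hc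
        obtain ⟨y1, y2, y3⟩ := mem_filter.1 hy
        refine mem_image.2 ⟨dcell (fun j => B.lev n (p j)) (x n y), ?_, by simp only [cfam, y2]⟩
        rw [Fintype.mem_piFinset]
        intro j
        have e1 := B.pow_lev_le n (hp0 j)
        have e2 : |x n y j * 2 ^ (B.lev n (p j)) - x n i j * 2 ^ (B.lev n (p j))| ≤ 1 := by
          rw [← sub_mul, abs_mul, abs_of_pos (by positivity : (0:ℝ) < 2 ^ (B.lev n (p j)))]
          calc |x n y j - x n i j| * 2 ^ (B.lev n (p j))
              ≤ B.d n ^ p j * B.d n ^ (-(p j)) := by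
                refine mul_le_mul (y3 j) e1 (by positivity) (Real.rpow_pos_of_pos hd _).le
            _ = 1 := by rw [← Real.rpow_add hd]; simp
        obtain ⟨e3, e4⟩ := abs_le.1 e2
        rw [Finset.mem_Icc]
        simp only [hz, dcell]
        constructor
        · have h6 : ⌊x n i j * 2 ^ (B.lev n (p j))⌋ - 1 ≤ ⌊x n y j * 2 ^ (B.lev n (p j))⌋ := by
            rw [Int.le_floor]
            push_cast
            have := Int.floor_le (x n i j * 2 ^ (B.lev n (p j)))
            linarith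
          exact h6
        · have h6 : ⌊x n y j * 2 ^ (B.lev n (p j))⌋ < ⌊x n i j * 2 ^ (B.lev n (p j))⌋ + 2 := by
            rw [Int.floor_lt]
            push_cast
            have := Int.lt_floor_add_one (x n i j * 2 ^ (B.lev n (p j)))
            linarith
          omega
      refine (card_le_card hsub).trans (card_image_le.trans (le_of_eq ?_))
      rw [Fintype.card_piFinset]
      have : ∀ j, (Finset.Icc (z j - 1) (z j + 1)).card = 3 := by
        intro j
        rw [Int.card_Icc]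
        have : z j + 1 + 1 - (z j - 1) = 3 := by ring
        rw [this]; rfl
      simp [this]
    have hc := le_count_mul N (fun _ => (1 : ℝ)) (cfam B g x n p)
      (m := Real.exp ((ν p + ε / 2) * B.L n)) (fun y hy => by
        rw [sum_const, nsmul_eq_mul, mul_one]
        have y1 : y ∈ I n := (mem_filter.1 hy).1
        have e1 : ((cls N (cfam B g x n p) y).card : ℝ) ≤ (cls (I n) (cfam B g x n p) y).card := by
          exact_mod_cast card_le_card (cls_mono (filter_subset _ _) _ _)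
        refine e1.trans ?_
        have e2 := (abs_le.1 (h1 p hpP y y1)).2
        have e3 : (1 : ℝ) ≤ (cls (I n) (cfam B g x n p) y).card := cls_card_pos y1
        rw [← Real.log_le_iff_le_exp (by linarith), ← div_le_iff₀ hL]
        linarith)
    rw [sum_const, nsmul_eq_mul, mul_one] at hc
    have h4 : ((N.image (cfam B g x n p)).card : ℝ) ≤ 3 ^ m := by exact_mod_cast hiN
    have h5 : (3 : ℝ) ^ m ≤ Real.exp (ε / 2 * B.L n) := by
      rw [hexp] at h3
      have h6 : (3 : ℝ) ^ m * Real.exp (-(ε / 2 * B.L n)) ≤ 1 := by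
        have h7 : (0 : ℝ) < 3 ^ m := by positivity
        rw [le_div_iff₀ h7] at h3
        linarith
      rw [Real.exp_neg, ← div_eq_mul_inv, div_le_one (Real.exp_pos _)] at h6
      exact h6
    calc (N.card : ℝ) ≤ Real.exp ((ν p + ε / 2) * B.L n) * ((N.image (cfam B g x n p)).card : ℝ) := hc
      _ ≤ Real.exp ((ν p + ε / 2) * B.L n) * Real.exp (ε / 2 * B.L n) :=
          mul_le_mul_of_nonneg_left (h4.trans h5) (Real.exp_pos _).le
      _ = B.d n ^ (-ν p - ε) := by
          rw [← Real.exp_add, hexp]; congr 1; ring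

end Near

section FModelSec

open Finset FM501

/-- raw data for an F-model: a dense configuration without any uniformity. -/
structure RawM (B : Base) (G : ℕ → Cfg) (σ R : ℝ) : Prop where
  base : ∀ n, (G n).ρ = B.d n
  sub : ∀ n, (G n).I ⊆ (G n).L ×ˢ (G n).Z
  nonempty : ∀ n, (G n).I.Nonempty
  bd : ∀ n, (G n).Bd
  R_pos : 0 < R
  σ_nonneg : 0 ≤ σ
  σ_le : σ ≤ 1
  pb : ∃ C : ℝ, 0 ≤ C ∧ ∀ᶠ n in (U : Filter ℕ),
    ((G n).L.card : ℝ) * (G n).Z.card ≤ B.d n ^ (-C)
  dense : ∀ ε : ℝ, 0 < ε → ∀ᶠ n in (U : Filter ℕ),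
    B.d n ^ ε * (((G n).L.card : ℝ) * (G n).Z.card) ≤ (G n).I.card
  frost : ∀ x : ℝ, 0 ≤ x → x ≤ R → ∀ ε : ℝ, 0 < ε → ∀ᶠ n in (U : Filter ℕ), ∀ k ∈ (G n).Z,
    (((G n).hbox x k).card : ℝ) ≤ B.d n ^ (σ * x - ε) * ((G n).Z.card : ℝ)

/-- `G'` is a sub-configuration of `G`. -/
structure SubCfg (G' G : Cfg) : Prop where
  ρ : G'.ρ = G.ρ
  a : G'.a = G.a
  b : G'.b = G.b
  c : G'.c = G.c
  d : G'.d = G.d
  z : G'.z = G.z
  f : G'.f = G.f
  I : G'.I ⊆ G.I
  L : G'.L ⊆ G.L
  Z : G'.Z ⊆ G.Z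

/-- the coordinate family of a sequence of configurations -/
noncomputable def gfam (B : Base) (G : ℕ → Cfg) (n : ℕ) (p : Fin 4 → ℝ) (i : ℕ × ℕ) :
    ℕ × (Fin 4 → ℤ) :=
  cfam (ι := fun _ => ℕ × ℕ) (γ := fun _ => ℕ) B (fun _ i => i.2)
    (fun n i => (G n).co i.2 i.1) n p i

open Classical in
theorem card_box_eq (G : Cfg) (hsub : G.I ⊆ G.L ×ˢ G.Z) (p : Fin 4 → ℝ) (i k : ℕ) :
    (G.box p i k).card = ((G.I).filter fun i' => i'.2 = k ∧
      ∀ j, |G.co i'.2 i'.1 j - G.co k i j| ≤ G.ρ ^ p j).card := by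
  have h1 : G.box p i k = (((G.I).filter fun i' => i'.2 = k ∧
      ∀ j, |G.co i'.2 i'.1 j - G.co k i j| ≤ G.ρ ^ p j).image Prod.fst) := by
    ext y
    constructor
    · intro hy
      have h1 := mem_filter.1 hy
      have h2 := mem_filter.1 h1.1
      exact mem_image.2 ⟨(y, k), mem_filter.2 ⟨h2.2, rfl, h1.2⟩, rfl⟩
    · intro hy
      obtain ⟨⟨u, v⟩, h, h4⟩ := mem_image.1 hy
      obtain ⟨h1, h2, h3⟩ := mem_filter.1 h
      simp only at h2 h4 h3
      subst h2; subst h4
      exact mem_filter.2 ⟨mem_filter.2 ⟨(mem_product.1 (hsub h1)).1, h1⟩, h3⟩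
  rw [h1, card_image_of_injOn]
  intro x hx y hy hxy
  have e1 := (mem_filter.1 hx).2.1
  have e2 := (mem_filter.1 hy).2.1
  exact Prod.ext hxy (e1.trans e2.symm)

theorem card_hts_eq (G : Cfg) (hsub : G.I ⊆ G.L ×ˢ G.Z) (i k : ℕ) :
    (G.hts i).card = (cls G.I Prod.fst (i, k)).card := by
  have h1 : G.hts i = (cls G.I Prod.fst (i, k)).image Prod.snd := by
    ext y
    simp only [Cfg.hts, mem_filter, mem_image, mem_cls]
    constructor
    · rintro ⟨h1, h2⟩
      exact ⟨(i, y), ⟨h2, rfl⟩, rfl⟩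
    · rintro ⟨⟨u, v⟩, ⟨h1, h2⟩, h4⟩
      simp only at h2 h4
      subst h2; subst h4
      exact ⟨(mem_product.1 (hsub h1)).2, h1⟩
  rw [h1, card_image_of_injOn]
  intro x hx y hy hxy
  have e1 := (mem_cls.1 hx).2
  have e2 := (mem_cls.1 hy).2
  exact Prod.ext (e1.trans e2.symm) hxy

theorem card_slice_eq (G : Cfg) (hsub : G.I ⊆ G.L ×ˢ G.Z) (i k : ℕ) :
    (G.slice k).card = (cls G.I Prod.snd (i, k)).card := by
  have h1 : G.slice k = (cls G.I Prod.snd (i, k)).image Prod.fst := by
    ext y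
    simp only [Cfg.slice, mem_filter, mem_image, mem_cls]
    constructor
    · rintro ⟨h1, h2⟩
      exact ⟨(y, k), ⟨h2, rfl⟩, rfl⟩
    · rintro ⟨⟨u, v⟩, ⟨h1, h2⟩, h4⟩
      simp only at h2 h4
      subst h2; subst h4
      exact ⟨(mem_product.1 (hsub h1)).1, h1⟩
  rw [h1, card_image_of_injOn]
  intro x hx y hy hxy
  have e1 := (mem_cls.1 hx).2
  have e2 := (mem_cls.1 hy).2
  exact Prod.ext hxy (e1.trans e2.symm)


end FModelSec

end Crest.Agent.R138.Ex926
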