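import Crest.Agent.R138.Ex_926

-- ▼ part R138/Sup_926
section

/-!
# R138: suprema of exponents are attained; transfer principle (helper926)
-/

set_option autoImplicit false

open Filter Topology

namespace Crest.Agent.R138.Ex926

/-- The base sequence of a sequence of configurations. -/
noncomputable def Base.of {α : Type*} (d : α → ℝ) (hd : ∀ a, 0 < d a ∧ d a < 1) (a : ℕ → α)
    (hl : Tendsto (fun n => d (a n)) U (𝓝 0)) : Base where
  d n := d (a n)
  pos _ := (hd _).1
  lt _ := (hd _).2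
  lim0 := hl

/-- A sequence of configurations is admissible if the scale tends to `0` and each of the countably
many conditions `P k` holds almost everywhere. -/
structure Adm {α : Type*} (d : α → ℝ) (P : ℕ → α → Prop) (a : ℕ → α) : Prop where
  lim : Tendsto (fun n => d (a n)) U (𝓝 0)
  cond : ∀ k, ∀ᶠ n in (U : Filter ℕ), P k (a n)

theorem one_div_add_one_tendsto :
    Tendsto (fun n : ℕ => 1 / ((n : ℝ) + 1)) U (𝓝 0) :=
  tendsto_one_div_add_atTop_nhds_zero_nat.mono_left U_le_atTop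




/-- **Transfer principle.** If the exponent inequality `ex (X/Y) ≤ 0` holds for every sequence of
configurations with scale tending to `0`, then `X ≤ C_ε d^{-ε} Y` for all configurations. -/
theorem transfer {α : Type*} (d : α → ℝ) (hd : ∀ a, 0 < d a ∧ d a < 1) (Q : α → Prop)
    (X Y : α → ℝ) (hY : ∀ a, Q a → 0 < Y a) {K : ℝ}
    (hK : ∀ a, Q a → X a ≤ d a ^ (-K) * Y a)
    (h : ∀ (a : ℕ → α) (hl : Tendsto (fun n => d (a n)) U (𝓝 0)), (∀ n, Q (a n)) →
      (∀ n, 0 < X (a n)) → (Base.of d hd a hl).PB (fun n => X (a n) / Y (a n)) →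
      (Base.of d hd a hl).ex (fun n => X (a n) / Y (a n)) ≤ 0) :
    ∀ ε : ℝ, 0 < ε → ∃ C : ℝ, 0 < C ∧ ∀ a, Q a → X a ≤ C * d a ^ (-ε) * Y a := by
  intro ε hε
  by_contra hcon
  push Not at hcon
  have hsel : ∀ n : ℕ, ∃ a, Q a ∧ ((n : ℝ) + 1) * d a ^ (-ε) * Y a < X a := by
    intro n
    exact hcon ((n : ℝ) + 1) (by positivity)
  choose a hQ ha using hsel
  have hrat : ∀ n : ℕ, ((n : ℝ) + 1) * d (a n) ^ (-ε) < X (a n) / Y (a n) := by
    intro n
    rw [lt_div_iff₀ (hY _ (hQ n))]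
    exact ha n
  have hup : ∀ n : ℕ, X (a n) / Y (a n) ≤ d (a n) ^ (-K) := by
    intro n
    rw [div_le_iff₀ (hY _ (hQ n))]
    exact hK _ (hQ n)
  have hXpos : ∀ n, 0 < X (a n) := by
    intro n
    refine lt_of_le_of_lt ?_ (ha n)
    have := hY _ (hQ n)
    have h2 := Real.rpow_pos_of_pos (hd (a n)).1 (-ε)
    positivity
  have hlim : Tendsto (fun n => d (a n)) U (𝓝 0) := by
    -- (n+1) < d^{-(K-ε)}
    have hKe : ∀ n : ℕ, ((n : ℝ) + 1) < d (a n) ^ (-(K - ε)) := by
      intro n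
      have h1 := lt_of_lt_of_le (hrat n) (hup n)
      have h2 := Real.rpow_pos_of_pos (hd (a n)).1 (-ε)
      have h3 : d (a n) ^ (-K) = d (a n) ^ (-(K - ε)) * d (a n) ^ (-ε) := by
        rw [← Real.rpow_add (hd (a n)).1]; congr 1; ring
      rw [h3] at h1
      exact lt_of_mul_lt_mul_right h1 h2.le
    by_cases hKE : K - ε ≤ 0
    · exfalso
      have h1 := hKe 0
      have h2 : d (a 0) ^ (-(K - ε)) ≤ 1 :=
        Real.rpow_le_one (hd _).1.le (hd _).2.le (by linarith)
      have h3 : (1 : ℝ) ≤ ((0 : ℕ) : ℝ) + 1 := by simp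
      linarith
    · push Not at hKE
      have hp : 0 < K - ε := hKE
      have hle : ∀ n : ℕ, d (a n) ≤ (1 / ((n : ℝ) + 1)) ^ (1 / (K - ε)) := by
        intro n
        have hdp := (hd (a n)).1
        have h1 := hKe n
        have h4 : d (a n) ^ (K - ε) ≤ 1 / ((n : ℝ) + 1) := by
          rw [le_div_iff₀ (by positivity)]
          have h5 : d (a n) ^ (-(K - ε)) * d (a n) ^ (K - ε) = 1 := by
            rw [← Real.rpow_add hdp]; simp
          have h6 := Real.rpow_pos_of_pos hdp (K - ε)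
          nlinarith
        calc d (a n) = (d (a n) ^ (K - ε)) ^ (1 / (K - ε)) := by
              rw [← Real.rpow_mul hdp.le]
              rw [mul_one_div_cancel hp.ne', Real.rpow_one]
          _ ≤ _ := Real.rpow_le_rpow (Real.rpow_nonneg hdp.le _) h4 (by positivity)
      have hz : Tendsto (fun n : ℕ => (1 / ((n : ℝ) + 1)) ^ (1 / (K - ε))) U (𝓝 0) := by
        have h7 : (0 : ℝ) < 1 / (K - ε) := by positivity
        have := one_div_add_one_tendsto.rpow_const (p := 1 / (K - ε)) (Or.inr h7.le)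
        rwa [Real.zero_rpow h7.ne'] at this
      exact squeeze_zero (fun n => (hd _).1.le) hle hz
  set B := Base.of d hd a hlim with hB
  have hPB : B.PB (fun n => X (a n) / Y (a n)) := by
    refine Base.PB.of_le_of_le (Base.PB.const one_pos) (Base.PB.dpow (-K)) ?_ ?_
    · refine Eventually.of_forall fun n => ?_
      have h1 := hrat n
      have h2 : 1 ≤ d (a n) ^ (-ε) :=
        Real.one_le_rpow_of_pos_of_le_one_of_nonpos (hd _).1 (hd _).2.le (by linarith)
      have h3 : (1 : ℝ) ≤ (n : ℝ) + 1 := by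
        have : (0 : ℝ) ≤ n := Nat.cast_nonneg n
        linarith
      nlinarith
    · exact Eventually.of_forall fun n => hup n
  have h1 := h a hlim hQ hXpos hPB
  have h2 : ε ≤ B.ex (fun n => X (a n) / Y (a n)) := by
    refine Base.le_ex_of_dpow hPB (Eventually.of_forall fun n => ?_)
    have h1 := hrat n
    have h3 : (1 : ℝ) ≤ (n : ℝ) + 1 := by
      have : (0 : ℝ) ≤ n := Nat.cast_nonneg n
      linarith
    have h4 := Real.rpow_pos_of_pos (hd (a n)).1 (-ε)
    change d (a n) ^ (-ε) ≤ _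
    nlinarith
  linarith


end Crest.Agent.R138.Ex926
namespace Crest.Agent.R138.Ex926.Adm
end Crest.Agent.R138.Ex926.Adm
end

-- ▼ part R138/Zoom_926

/-!
# R138: the generic zoom lemma (helper926)

* `unif_of_lip`: pointwise limits along `U` of asymptotically equi-Lipschitz functions on a compact
  set are uniform.
* `exists_zoom`: countably many such families of functions, whose limits are differentiable at a
  point `x₀`: there is a slow scale `w n → 0` such that after rescaling by `w` all of them are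
  exactly linear in the limit.
* `exists_generic`: a common point of differentiability of countably many Lipschitz functions.
* `sub_le_sub_of_ae_deriv_le`, `exists_generic_deriv_gt`: integration of a.e. differential
  inequalities.
-/

set_option autoImplicit false

open Filter Topology MeasureTheory
open scoped NNReal

namespace Crest.Agent.R138.Ex926

/-- `φ n` is asymptotically `K`-Lipschitz on `S`: Lipschitz up to an additive error `s n → 0`. -/
def ALip {E : Type*} [PseudoMetricSpace E] (S : Set E) (K : ℝ) (φ : ℕ → E → ℝ) : Prop :=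
  ∀ ε : ℝ, 0 < ε → ∀ᶠ n in (U : Filter ℕ), ∀ x ∈ S, ∀ y ∈ S,
    |φ n x - φ n y| ≤ K * dist x y + ε

theorem ALip.mono {E : Type*} [PseudoMetricSpace E] {S T : Set E} {K : ℝ} {φ : ℕ → E → ℝ}
    (h : ALip S K φ) (hT : T ⊆ S) : ALip T K φ := fun ε hε =>
  (h ε hε).mono fun _ hn x hx y hy => hn x (hT hx) y (hT hy)

theorem ALip.limit {E : Type*} [PseudoMetricSpace E] {S : Set E} {K : ℝ} {φ : ℕ → E → ℝ}
    {ψ : E → ℝ} (h : ALip S K φ) (hψ : ∀ x ∈ S, Tendsto (fun n => φ n x) U (𝓝 (ψ x))) :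
    ∀ x ∈ S, ∀ y ∈ S, |ψ x - ψ y| ≤ K * dist x y := by
  intro x hx y hy
  refine le_of_forall_pos_le_add fun ε hε => ?_
  have h1 : Tendsto (fun n => |φ n x - φ n y|) U (𝓝 |ψ x - ψ y|) :=
    ((hψ x hx).sub (hψ y hy)).abs
  exact le_of_tendsto h1 ((h ε hε).mono fun n hn => hn x hx y hy)

theorem unif_of_lip {E : Type*} [PseudoMetricSpace E] {S : Set E} (hS : IsCompact S) {K : ℝ}
    (hK : 0 ≤ K) {φ : ℕ → E → ℝ} {ψ : E → ℝ} (h : ALip S K φ)
    (hψ : ∀ x ∈ S, Tendsto (fun n => φ n x) U (𝓝 (ψ x))) {ε : ℝ} (hε : 0 < ε) :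
    ∀ᶠ n in (U : Filter ℕ), ∀ x ∈ S, |φ n x - ψ x| ≤ ε := by
  classical
  have hl := h.limit hψ
  set r : ℝ := ε / (8 * (K + 1)) with hr
  have hrp : 0 < r := by positivity
  obtain ⟨t, htS, ht⟩ := hS.finite_cover_balls hrp
  obtain ⟨htf, ht⟩ := ht
  have h1 : ∀ᶠ n in (U : Filter ℕ), ∀ y ∈ htf.toFinset, |φ n y - ψ y| < ε / 4 := by
    rw [Filter.eventually_all_finset]
    intro y hy
    have := (Metric.tendsto_nhds.1 (hψ y (htS (htf.mem_toFinset.1 hy)))) (ε / 4) (by positivity)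
    simpa [Real.dist_eq] using this
  filter_upwards [h1, h (ε / 4) (by positivity)] with n h1 h2 x hx
  obtain ⟨y, hy, hxy⟩ : ∃ y ∈ t, dist x y < r := by
    have := ht hx
    simp only [Set.mem_iUnion, Metric.mem_ball, exists_prop] at this
    exact this
  have a1 := h1 y (htf.mem_toFinset.2 hy)
  have a2 := h2 x hx y (htS hy)
  have a3 := hl y (htS hy) x hx
  have e1 : K * dist x y ≤ ε / 8 := by
    have : K * dist x y ≤ (K + 1) * r := by
      have hd := dist_nonneg (x := x) (y := y)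
      nlinarith
    refine this.trans (le_of_eq ?_)
    rw [hr]; field_simp
  rw [dist_comm] at a3
  have : φ n x - ψ x = (φ n x - φ n y) + (φ n y - ψ y) + (ψ y - ψ x) := by ring
  rw [this]
  refine (abs_add_three _ _ _).trans ?_
  linarith

/-- **Generic zoom.** `φ j n` (`j` countable) asymptotically Lipschitz functions on a ball around
`x₀`, with limits `ψ j`, differentiable at `x₀` with derivative `ψ' j`. There is `k n → ∞` such that
for every slower `k' → ∞`, with `w = 1/(k'+1)`, the rescaled functions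
`v ↦ (φ j n (x₀ + w v) - φ j n x₀)/w` converge to the linear function `ψ' j`, uniformly on bounded
sets. -/
theorem exists_zoom {E : Type*} [NormedAddCommGroup E] [NormedSpace ℝ E] [FiniteDimensional ℝ E]
    {x₀ : E} {r : ℝ} (hr : 0 < r) (K : ℕ → ℝ) (hK : ∀ j, 0 ≤ K j)
    (φ : ℕ → ℕ → E → ℝ) (ψ : ℕ → E → ℝ) (ψ' : ℕ → E →L[ℝ] ℝ)
    (hφ : ∀ j, ALip (Metric.closedBall x₀ r) (K j) (φ j))
    (hψ : ∀ j, ∀ x ∈ Metric.closedBall x₀ r, Tendsto (fun n => φ j n x) U (𝓝 (ψ j x)))
    (hd : ∀ j, HasFDerivAt (ψ j) (ψ' j) x₀) :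
    ∃ k : ℕ → ℕ, Tendsto k U atTop ∧ ∀ k' : ℕ → ℕ, Tendsto k' U atTop →
      (∀ᶠ n in (U : Filter ℕ), k' n ≤ k n) → ∀ (j : ℕ) (C ε : ℝ), 0 < ε →
        ∀ᶠ n in (U : Filter ℕ), ∀ v : E, ‖v‖ ≤ C →
          |(φ j n (x₀ + (1 / ((k' n : ℝ) + 1)) • v) - φ j n x₀) / (1 / ((k' n : ℝ) + 1)) - ψ' j v|
            ≤ ε := by
  have hcomp : IsCompact (Metric.closedBall x₀ r) := isCompact_closedBall x₀ r
  obtain ⟨k, hk, hk2⟩ := exists_diag
    (fun m n => ∀ j ≤ m, ∀ x ∈ Metric.closedBall x₀ r,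
      |φ j n x - ψ j x| ≤ 1 / ((m : ℝ) + 1) ^ 2) (by
    intro m
    have : ∀ᶠ n in (U : Filter ℕ), ∀ j ∈ Finset.range (m + 1), ∀ x ∈ Metric.closedBall x₀ r,
        |φ j n x - ψ j x| ≤ 1 / ((m : ℝ) + 1) ^ 2 := by
      rw [Filter.eventually_all_finset]
      intro j _
      exact unif_of_lip hcomp (hK j) (hφ j) (hψ j) (by positivity)
    filter_upwards [this] with n hn j hj
    exact hn j (Finset.mem_range.2 (Nat.lt_succ_of_le hj)))
  refine ⟨k, hk, fun k' hk' hle j C ε hε => ?_⟩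
  -- differentiability of `ψ j`
  set C' : ℝ := max C 1 with hC'
  have hC'p : 0 < C' := lt_of_lt_of_le one_pos (le_max_right _ _)
  have hdj := (hd j).isLittleO
  rw [Asymptotics.isLittleO_iff] at hdj
  have hdj2 := hdj (c := ε / (2 * C')) (by positivity)
  rw [Metric.eventually_nhds_iff] at hdj2
  obtain ⟨ρ, hρ, hdj3⟩ := hdj2
  -- choose `n` large
  have hw : Tendsto (fun n => 1 / ((k' n : ℝ) + 1)) U (𝓝 0) :=
    tendsto_one_div_add_atTop_nhds_zero_nat.comp hk'
  have hmin : 0 < min (ε / 4) (min r ρ / (2 * C')) := by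
    have : 0 < min r ρ := lt_min hr hρ
    positivity
  have hw2 := hw.eventually_lt_const hmin
  have hj2 : ∀ᶠ n in (U : Filter ℕ), j ≤ k' n := hk'.eventually_ge_atTop j
  filter_upwards [hk2, hle, hw2, hj2] with n h1 h2 h3 h4 v hv
  set w : ℝ := 1 / ((k' n : ℝ) + 1) with hwdef
  have hwp : 0 < w := by positivity
  have hv' : ‖v‖ ≤ C' := hv.trans (le_max_left _ _)
  have hw4 : w ≤ ε / 4 := (h3.trans_le (min_le_left _ _)).le
  have hw5 : w < min r ρ / (2 * C') := h3.trans_le (min_le_right _ _)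
  have hwv : ‖w • v‖ < min r ρ := by
    rw [norm_smul, Real.norm_of_nonneg hwp.le]
    have hm : 0 < min r ρ := lt_min hr hρ
    calc w * ‖v‖ ≤ w * C' := by gcongr
      _ ≤ (min r ρ / (2 * C')) * C' := by gcongr
      _ = min r ρ / 2 := by field_simp
      _ < min r ρ := by linarith
  have hx : x₀ + w • v ∈ Metric.closedBall x₀ r := by
    rw [Metric.mem_closedBall, dist_eq_norm]
    simpa using (hwv.le.trans (min_le_left _ _))
  have hx0 : x₀ ∈ Metric.closedBall x₀ r := Metric.mem_closedBall_self hr.le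
  have a1 := h1 (k' n) h2 j h4 _ hx
  have a2 := h1 (k' n) h2 j h4 _ hx0
  have hww : 1 / ((k' n : ℝ) + 1) ^ 2 = w ^ 2 := by rw [hwdef, one_div_pow]
  rw [hww] at a1 a2
  have a3 := hdj3 (y := x₀ + w • v) (by
    rw [dist_eq_norm]; simpa using (hwv.trans_le (min_le_right _ _)))
  have hsub : x₀ + w • v - x₀ = w • v := by abel
  rw [hsub, Real.norm_eq_abs, norm_smul, Real.norm_of_nonneg hwp.le, map_smul, smul_eq_mul] at a3
  have a4 : |ψ j (x₀ + w • v) - ψ j x₀ - w * ψ' j v| ≤ w * (ε / 2) := by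
    refine a3.trans ?_
    calc ε / (2 * C') * (w * ‖v‖) ≤ ε / (2 * C') * (w * C') := by gcongr
      _ = w * (ε / 2) := by field_simp
  have key : |φ j n (x₀ + w • v) - φ j n x₀ - w * ψ' j v| ≤ 2 * w ^ 2 + w * (ε / 2) := by
    have : φ j n (x₀ + w • v) - φ j n x₀ - w * ψ' j v =
        (φ j n (x₀ + w • v) - ψ j (x₀ + w • v)) + -(φ j n x₀ - ψ j x₀) +
          (ψ j (x₀ + w • v) - ψ j x₀ - w * ψ' j v) := by ring
    rw [this]
    refine (abs_add_three _ _ _).trans ?_
    rw [abs_neg]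
    linarith
  have : (φ j n (x₀ + w • v) - φ j n x₀) / w - ψ' j v =
      (φ j n (x₀ + w • v) - φ j n x₀ - w * ψ' j v) / w := by
    field_simp
  rw [this, abs_div, abs_of_pos hwp, div_le_iff₀ hwp]
  refine key.trans ?_
  nlinarith


/-- slowing down two speeds simultaneously. -/
theorem exists_min_speed {k₁ k₂ : ℕ → ℕ} (h₁ : Tendsto k₁ U atTop) (h₂ : Tendsto k₂ U atTop) :
    Tendsto (fun n => min (k₁ n) (k₂ n)) U atTop := by
  rw [tendsto_atTop] at *
  intro b
  filter_upwards [h₁ b, h₂ b] with n a1 a2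
  exact le_min a1 a2

/-! ### generic points -/


theorem lip_of_abs {f : ℝ → ℝ} {K : ℝ} {S : Set ℝ} (hK : 0 ≤ K)
    (h : ∀ x ∈ S, ∀ y ∈ S, |f x - f y| ≤ K * |x - y|) : LipschitzOnWith K.toNNReal f S := by
  refine LipschitzOnWith.of_dist_le_mul fun x hx y hy => ?_
  rw [Real.coe_toNNReal _ hK, Real.dist_eq, Real.dist_eq]
  exact h x hx y hy

/-- Integration of an a.e. differential inequality. -/
theorem sub_le_sub_of_ae_deriv_le {f g : ℝ → ℝ} {K : ℝ≥0} {a b : ℝ} (hab : a ≤ b)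
    (hf : LipschitzOnWith K f (Set.Icc a b)) (hg : LipschitzOnWith K g (Set.Icc a b))
    (h : ∀ᵐ x, x ∈ Set.Ioo a b → DifferentiableAt ℝ f x → DifferentiableAt ℝ g x →
      deriv f x ≤ deriv g x) : f b - f a ≤ g b - g a := by
  have huIcc : Set.uIcc a b = Set.Icc a b := Set.uIcc_of_le hab
  have hf' : AbsolutelyContinuousOnInterval f a b :=
    LipschitzOnWith.absolutelyContinuousOnInterval (K := K) (by rwa [huIcc])
  have hg' : AbsolutelyContinuousOnInterval g a b :=
    LipschitzOnWith.absolutelyContinuousOnInterval (K := K) (by rwa [huIcc])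
  rw [← hf'.integral_deriv_eq_sub, ← hg'.integral_deriv_eq_sub]
  have hdf : ∀ᵐ x, x ∈ Set.Icc a b → DifferentiableWithinAt ℝ f (Set.Icc a b) x :=
    hf.ae_differentiableWithinAt_of_mem
  have hdg : ∀ᵐ x, x ∈ Set.Icc a b → DifferentiableWithinAt ℝ g (Set.Icc a b) x :=
    hg.ae_differentiableWithinAt_of_mem
  refine intervalIntegral.integral_mono_ae_restrict hab hf'.intervalIntegrable_deriv
    hg'.intervalIntegrable_deriv ?_
  rw [EventuallyLE, ae_restrict_iff' measurableSet_Icc]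
  have hne : ∀ᵐ x : ℝ, x ≠ a ∧ x ≠ b := by
    have h1 : ∀ᵐ x : ℝ, x ≠ a := by simp [ae_iff]
    have h2 : ∀ᵐ x : ℝ, x ≠ b := by simp [ae_iff]
    filter_upwards [h1, h2] with x h1 h2 using ⟨h1, h2⟩
  filter_upwards [h, hdf, hdg, hne] with x h1 h2 h3 h4 hx
  have hxo : x ∈ Set.Ioo a b :=
    ⟨lt_of_le_of_ne hx.1 (Ne.symm h4.1), lt_of_le_of_ne hx.2 h4.2⟩
  have hn : Set.Icc a b ∈ 𝓝 x := Icc_mem_nhds hxo.1 hxo.2
  exact h1 hxo ((h2 hx).differentiableAt hn) ((h3 hx).differentiableAt hn)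


end Crest.Agent.R138.Ex926
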