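import Crest.Agent.R138.Qf2_926
import Crest.Agent.R138.Zoom_926
import Crest.Agent.R138.Flg2_101
import Crest.Agent.R138.FM_501
import Crest.Agent.R138.Fm_926

-- ▼ part R138/Qf3_926
section

/-!
# R138: zoom of profiles along blow-up sequences (helper926)

`IsTan P D ν x h lam` : along the sequence `x l` with scales `h l → 0`, the rescaled increments of
`ν` converge to `lam`, uniformly on the bounded subsets of the cone `D`.

`exists_qzoom` : finitely many profiles, one blow-up sequence: there is a speed `k → ∞` such that at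
every slower speed `k'` the new base `d' = d ^ h (k' n)` sees the tangent functions `lam j` as
profiles (`ZProf`) and all given sub-polynomial losses are still sub-polynomial.
-/

set_option autoImplicit false
set_option linter.unusedSectionVars false
set_option linter.unusedVariables false

open Filter Topology MeasureTheory
open scoped NNReal

namespace Crest.Agent.R138.Ex926

open Finset

variable {B : Base} {ι κ : ℕ → Type*} [∀ n, DecidableEq (ι n)] [∀ n, DecidableEq (κ n)] {m : ℕ}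

/-- `lam` is the tangent function of `ν` along `(x l, h l)`, uniformly on bounded subsets of the
cone `D` -/
def IsTan {V : Type*} [NormedAddCommGroup V] [NormedSpace ℝ V] (P D : Set V) (ν : V → ℝ)
    (x : ℕ → V) (h : ℕ → ℝ) (lam : V → ℝ) : Prop :=
  ∀ C ε : ℝ, 0 < ε → ∀ᶠ l in (atTop : Filter ℕ), ∀ c ∈ D, ‖c‖ ≤ C →
    x l + h l • c ∈ P ∧ |ν (x l + h l • c) - ν (x l) - h l * lam c| ≤ ε * h l

/-- **Zoomed profile**: `T n` = size of the class at the origin, the class of size parameter `c`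
has size `T n * d ^ (-lam c)`. -/
structure ZProf (B : Base) {ι κ : ℕ → Type*} [∀ n, DecidableEq (ι n)] [∀ n, DecidableEq (κ n)]
    {V : Type*} [LE V] [Norm V] (I : ∀ n, Finset (ι n)) (g : ∀ n, V → ι n → κ n) (D : Set V)
    (T : ℕ → ℝ) (lam : V → ℝ) : Prop where
  up : ∀ C ε : ℝ, 0 < ε → ∀ᶠ n in (U : Filter ℕ), ∀ c ∈ D, ‖c‖ ≤ C → ∀ i ∈ I n,
    ((cls (I n) (g n c) i).card : ℝ) ≤ T n * B.d n ^ (-(lam c + ε))
  num : ∀ C ε : ℝ, 0 < ε → ∀ᶠ n in (U : Filter ℕ), ∀ c ∈ D, ‖c‖ ≤ C → ∀ c' ∈ D, ‖c'‖ ≤ C →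
    c ≤ c' → ∀ i ∈ I n,
    (((cls (I n) (g n c) i).image (g n c')).card : ℝ) ≤ B.d n ^ (-(lam c - lam c' + ε))
  root : ∀ C ε : ℝ, 0 < ε → ∀ᶠ n in (U : Filter ℕ), ∀ c ∈ D, ‖c‖ ≤ C →
    (((I n).image (g n c)).card : ℝ) * T n ≤ (I n).card * B.d n ^ (lam c - ε)

theorem exists_qzoom (B : Base) {J : Type*} [Finite J] {I : ∀ n, Finset (ι n)}
    {κ : J → ℕ → Type*} [∀ j n, DecidableEq (κ j n)]
    {f : ∀ (j : J) (n : ℕ), (Fin m → ℝ) → ι n → κ j n} {P D : J → Set (Fin m → ℝ)}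
    {ν lam : J → (Fin m → ℝ) → ℝ} (hν : ∀ j, QProf B I (f j) (P j) (ν j))
    {x : ℕ → (Fin m → ℝ)} {h : ℕ → ℝ} (hpos : ∀ l, 0 < h l)
    (hD : ∀ j, 0 ∈ D j) (htan : ∀ j, IsTan (P j) (D j) (ν j) x h (lam j))
    (s : ℕ → ℕ → ℝ) (hs : ∀ i, B.Sub (s i)) :
    ∃ k : ℕ → ℕ, Tendsto k U atTop ∧ ∀ k' : ℕ → ℕ, Tendsto k' U atTop →
      (∀ᶠ n in (U : Filter ℕ), k' n ≤ k n) → ∃ B' : Base,
        (∀ n, B'.d n = B.d n ^ h (k' n)) ∧ (∀ n, B'.L n = h (k' n) * B.L n) ∧
        (∀ i, B'.Sub (s i)) ∧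
        ∀ j, ZProf B' I (fun n c => f j n (x (k' n) + h (k' n) • c)) (D j)
          (fun n => B.d n ^ (-(ν j (x (k' n))))) (lam j) := by
  classical
  set e : ℕ → ℝ := fun l => h l / ((l : ℝ) + 1) with he
  have he0 : ∀ l, 0 < e l := fun l => div_pos (hpos l) (by positivity)
  obtain ⟨k, hk, hk2⟩ := exists_diag (fun l n =>
    ((l : ℝ) ≤ h l * B.L n) ∧ (∀ i ≤ l, 0 < s i n ∧ |B.lg (s i) n| ≤ e l) ∧
    (∀ j, (∀ p ∈ P j, ∀ i ∈ I n,
        ((cls (I n) (f j n p) i).card : ℝ) ≤ B.d n ^ (-(ν j p + e l))) ∧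
      (∀ q ∈ P j, ∀ p ∈ P j, q ≤ p → ∀ i ∈ I n,
        (((cls (I n) (f j n q) i).image (f j n p)).card : ℝ) ≤ B.d n ^ (-(ν j q - ν j p + e l))) ∧
      (∀ p ∈ P j, (((I n).image (f j n p)).card : ℝ) ≤ (I n).card * B.d n ^ (ν j p - e l)))) (by
    intro l
    have h1 : ∀ᶠ n in (U : Filter ℕ), ∀ i ∈ Finset.range (l + 1), 0 < s i n ∧ |B.lg (s i) n| ≤ e l := by
      rw [Filter.eventually_all_finset]
      intro i _
      obtain ⟨a1, a2⟩ := Base.Sub.iff.1 (hs i)
      have a3 := (Metric.tendsto_nhds.1 a2) (e l) (he0 l)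
      filter_upwards [a1, a3] with n b1 b2
      rw [Real.dist_eq, sub_zero] at b2
      exact ⟨b1, b2.le⟩
    have h2 : ∀ᶠ n in (U : Filter ℕ), (l : ℝ) ≤ h l * B.L n := by
      filter_upwards [B.ev_L_ge ((l : ℝ) / h l)] with n hn
      rw [div_le_iff₀ (hpos l)] at hn
      linarith
    have h3 := Filter.eventually_all.2 fun j => ((hν j).up (e l) (he0 l)).and
      (((hν j).num (e l) (he0 l)).and ((hν j).root (e l) (he0 l)))
    filter_upwards [h1, h2, h3] with n a1 a2 a3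
    exact ⟨a2, fun i hi => a1 i (Finset.mem_range.2 (Nat.lt_succ_of_le hi)), a3⟩)
  refine ⟨k, hk, fun k' hk' hle => ?_⟩
  have hev : ∀ᶠ n in (U : Filter ℕ), (((k' n : ℕ) : ℝ) ≤ h (k' n) * B.L n) ∧
      (∀ i ≤ k' n, 0 < s i n ∧ |B.lg (s i) n| ≤ e (k' n)) ∧
    (∀ j, (∀ p ∈ P j, ∀ i ∈ I n,
        ((cls (I n) (f j n p) i).card : ℝ) ≤ B.d n ^ (-(ν j p + e (k' n)))) ∧
      (∀ q ∈ P j, ∀ p ∈ P j, q ≤ p → ∀ i ∈ I n,
        (((cls (I n) (f j n q) i).image (f j n p)).card : ℝ) ≤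
          B.d n ^ (-(ν j q - ν j p + e (k' n)))) ∧
      (∀ p ∈ P j, (((I n).image (f j n p)).card : ℝ) ≤
        (I n).card * B.d n ^ (ν j p - e (k' n)))) := by
    filter_upwards [hk2, hle] with n h1 h2
    exact h1 _ h2
  have hL : Tendsto (fun n => h (k' n) * B.L n) U atTop := by
    have h1 : Tendsto (fun n => (k' n : ℝ)) U atTop := tendsto_natCast_atTop_atTop.comp hk'
    exact tendsto_atTop_mono' _ (hev.mono fun n hn => hn.1) h1
  set B' : Base := B.chg (fun n => h (k' n)) (fun n => hpos _) hL with hB'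
  have hsm : ∀ ε : ℝ, 0 < ε → ∀ᶠ n in (U : Filter ℕ), e (k' n) ≤ ε * h (k' n) := by
    intro ε hε
    obtain ⟨N, hN⟩ := exists_nat_gt (1 / ε)
    filter_upwards [hk'.eventually_ge_atTop N] with n hn
    have h2 : (N : ℝ) ≤ k' n := by exact_mod_cast hn
    have h3 : 1 / ((k' n : ℝ) + 1) ≤ ε := by
      rw [div_le_iff₀ (by positivity)]
      rw [div_lt_iff₀ hε] at hN
      nlinarith
    have h4 := mul_le_mul_of_nonneg_right h3 (hpos (k' n)).le
    calc e (k' n) = 1 / ((k' n : ℝ) + 1) * h (k' n) := by rw [he]; simp only; ring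
      _ ≤ _ := h4
  have hd' : ∀ n t, B'.d n ^ t = B.d n ^ (h (k' n) * t) := by
    intro n t
    show (B.d n ^ h (k' n)) ^ t = _
    rw [← Real.rpow_mul (B.pos n).le]
  have hmon : ∀ n {a b : ℝ}, a ≤ b → B.d n ^ b ≤ B.d n ^ a := fun n a b hab =>
    Real.rpow_le_rpow_of_exponent_ge (B.pos n) (B.lt n).le hab
  refine ⟨B', fun n => rfl, fun n => B.chg_L _ _ hL n, fun i => ?_, fun j => ⟨?_, ?_, ?_⟩⟩
  · rw [Base.Sub.iff]
    refine ⟨(hs i).1.pos, ?_⟩
    rw [Metric.tendsto_nhds]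
    intro ε hε
    filter_upwards [hev, hsm (ε / 2) (by positivity), hk'.eventually_ge_atTop i] with n h1 h2 h3
    rw [Real.dist_eq, sub_zero, hB', Base.chg_lg, abs_div, abs_of_pos (hpos _),
      div_lt_iff₀ (hpos _)]
    have h4 := (h1.2.1 i h3).2
    have h5 := hpos (k' n)
    nlinarith
  · intro C ε hε
    have ht := hk'.eventually (htan j (max C 0) (ε / 2) (by positivity))
    filter_upwards [hev, hsm (ε / 2) (by positivity), ht] with n h1 h2 h3 c hc hcC i hi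
    obtain ⟨a1, a2⟩ := h3 c hc (hcC.trans (le_max_left _ _))
    refine ((h1.2.2 j).1 _ a1 i hi).trans ?_
    rw [hd', ← Real.rpow_add (B.pos n)]
    refine hmon n ?_
    obtain ⟨b1, b2⟩ := abs_le.1 a2
    nlinarith
  · intro C ε hε
    have ht := hk'.eventually (htan j (max C 0) (ε / 3) (by positivity))
    filter_upwards [hev, hsm (ε / 3) (by positivity), ht] with n h1 h2 h3 c hc hcC c' hc' hcC' hcc i hi
    obtain ⟨a1, a2⟩ := h3 c hc (hcC.trans (le_max_left _ _))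
    obtain ⟨a1', a2'⟩ := h3 c' hc' (hcC'.trans (le_max_left _ _))
    have hord : x (k' n) + h (k' n) • c ≤ x (k' n) + h (k' n) • c' := by
      intro a
      have := mul_le_mul_of_nonneg_left (hcc a) (hpos (k' n)).le
      simp only [Pi.add_apply, Pi.smul_apply, smul_eq_mul]
      linarith
    refine ((h1.2.2 j).2.1 _ a1 _ a1' hord i hi).trans ?_
    rw [hd']
    refine hmon n ?_
    obtain ⟨b1, b2⟩ := abs_le.1 a2
    obtain ⟨b1', b2'⟩ := abs_le.1 a2'
    nlinarith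
  · intro C ε hε
    have ht := hk'.eventually (htan j (max C 0) (ε / 2) (by positivity))
    filter_upwards [hev, hsm (ε / 2) (by positivity), ht] with n h1 h2 h3 c hc hcC
    obtain ⟨a1, a2⟩ := h3 c hc (hcC.trans (le_max_left _ _))
    have h4 := (h1.2.2 j).2.2 _ a1
    have hdp := Real.rpow_pos_of_pos (B.pos n) (-(ν j (x (k' n))))
    calc _ ≤ ((I n).card * B.d n ^ (ν j (x (k' n) + h (k' n) • c) - e (k' n))) *
          B.d n ^ (-(ν j (x (k' n)))) := mul_le_mul_of_nonneg_right h4 hdp.le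
      _ = (I n).card * B.d n ^ (ν j (x (k' n) + h (k' n) • c) - e (k' n) - ν j (x (k' n))) := by
          rw [mul_assoc, ← Real.rpow_add (B.pos n)]; congr 2
      _ ≤ (I n).card * B'.d n ^ (lam j c - ε) := by
          refine mul_le_mul_of_nonneg_left ?_ (Nat.cast_nonneg _)
          rw [hd']
          refine hmon n ?_
          obtain ⟨b1, b2⟩ := abs_le.1 a2
          nlinarith

end Crest.Agent.R138.Ex926
end

-- ▼ part R138/Flg3_101
section

/-!
# R138 (helper101): the literal configuration (`FM501.Cfg`) of one class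

All incidences of `I` lie in one class of the natural box `nat4 i₀ j₀ t` over one flagged cell of
level `(i₀, j₀)`.  Fat lines = classes of `lab i₀ j₀ pr`, heights = flagged cells of level
`(i₁, j₁)`, incidences = the pairs met by `I`.  The affine rescaling is exact.
-/

set_option autoImplicit false
set_option linter.unusedVariables false
set_option linter.unusedSectionVars false

open Finset

namespace Crest.Agent.R138.Flg101

open Inc Crest.Agent.R138.Ex926 Crest.Agent.R138.FM501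

/-- natural box over a flagged cell of level `(i, j)`, lateral velocity level `t` -/
def nat4 (i j t : ℕ) : Fin 4 → ℕ := ![t + i + j, t + j, t, t + i]


theorem card_image_le_mul {α β γ : Type*} [DecidableEq β] [DecidableEq γ] {A : Finset α}
    {f : α → β} {g : α → γ} {K : ℕ}
    (h : ∀ a ∈ A, ((A.filter fun b => f b = f a).image g).card ≤ K) :
    (A.image g).card ≤ K * (A.image f).card := by
  classical
  have hsub : A.image g ⊆ (A.image f).biUnion fun c => (A.filter fun b => f b = c).image g := by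
    intro c hc
    obtain ⟨a, ha, rfl⟩ := mem_image.1 hc
    exact mem_biUnion.2 ⟨f a, mem_image_of_mem _ ha,
      mem_image_of_mem _ (mem_filter.2 ⟨ha, rfl⟩)⟩
  refine (card_le_card hsub).trans (card_biUnion_le.trans ?_)
  rw [mul_comm]
  refine (sum_le_card_nsmul _ _ K fun c hc => ?_).trans (le_of_eq (by simp))
  obtain ⟨a, ha, rfl⟩ := mem_image.1 hc
  exact h a ha

/-- zoom data: incidences inside one natural class -/
structure ZD (ι : Type*) where
  I : Finset ι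
  x : ι → Inc
  s₀ : ι
  i₀ : ℕ
  j₀ : ℕ
  t : ℕ
  i₁ : ℕ
  j₁ : ℕ
  pr : Fin 4 → ℕ
  ρ : ℝ

namespace ZD

variable {ι : Type*} [DecidableEq ι] (D : ZD ι)

/-- code of the fat line of an incidence -/
noncomputable def lcode (w : Inc) : ℕ := Encodable.encode (w.lab D.i₀ D.j₀ D.pr)
/-- code of the flagged cell of an incidence -/
noncomputable def zcode (w : Inc) : ℕ := Encodable.encode (w.cell D.i₁ D.j₁)

open Classical in
/-- representative of a fat line -/
noncomputable def lrep (l : ℕ) : Inc :=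
  if h : ∃ s ∈ D.I, D.lcode (D.x s) = l then D.x h.choose else D.x D.s₀

open Classical in
/-- representative of a flagged cell -/
noncomputable def zrep (k : ℕ) : Inc :=
  if h : ∃ s ∈ D.I, D.zcode (D.x s) = k then D.x h.choose else D.x D.s₀

/-- corner height of the flagged cell `k` -/
noncomputable def zc (k : ℕ) : ℝ := (D.zrep k).zQ D.i₁
/-- corner slope of the flagged cell `k` -/
noncomputable def fc (k : ℕ) : ℝ := (D.zrep k).fQ D.j₁
/-- corner of the big cell -/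
noncomputable def z0 : ℝ := (D.x D.s₀).zQ D.i₀
/-- corner slope of the big cell -/
noncomputable def f0 : ℝ := (D.x D.s₀).fQ D.j₀

/-- the literal configuration -/
noncomputable def cfg : Cfg where
  ρ := D.ρ
  L := D.I.image fun s => D.lcode (D.x s)
  Z := D.I.image fun s => D.zcode (D.x s)
  I := D.I.image fun s => (D.lcode (D.x s), D.zcode (D.x s))
  a l := ((D.lrep l).X D.z0 - (D.x D.s₀).X D.z0) * 2 ^ (D.t + D.i₀) / 8
  b l := ((D.lrep l).N D.z0 D.f0 - (D.x D.s₀).N D.z0 D.f0) * 2 ^ (D.t + D.i₀ + D.j₀) / 8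
  c l := ((D.lrep l).c - (D.x D.s₀).c) * 2 ^ D.t / 8
  d l := ((D.lrep l).P D.f0 - (D.x D.s₀).P D.f0) * 2 ^ (D.t + D.j₀) / 8
  z k := (D.zc k - D.z0) * 2 ^ D.i₀
  f k := (D.fc k - D.f0) * 2 ^ D.j₀

/-- the standing hypotheses -/
structure Ok : Prop where
  mem : D.s₀ ∈ D.I
  cls : ∀ s ∈ D.I, (D.x s).lab D.i₀ D.j₀ (nat4 D.i₀ D.j₀ D.t) =
    (D.x D.s₀).lab D.i₀ D.j₀ (nat4 D.i₀ D.j₀ D.t)
  hi : D.i₀ ≤ D.i₁
  hj : D.j₀ ≤ D.j₁
  wall : Wall D.i₀ D.j₀ D.pr
  ρ0 : 0 < D.ρ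

variable {D}

theorem lrep_spec {l : ℕ} (h : l ∈ D.cfg.L) : ∃ s ∈ D.I, D.lrep l = D.x s ∧
    D.lcode (D.x s) = l := by
  classical
  have hex : ∃ s ∈ D.I, D.lcode (D.x s) = l := by
    simpa [cfg] using h
  refine ⟨hex.choose, hex.choose_spec.1, ?_, hex.choose_spec.2⟩
  unfold lrep; rw [dif_pos hex]

theorem zrep_spec {k : ℕ} (h : k ∈ D.cfg.Z) : ∃ s ∈ D.I, D.zrep k = D.x s ∧
    D.zcode (D.x s) = k := by
  classical
  have hex : ∃ s ∈ D.I, D.zcode (D.x s) = k := by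
    simpa [cfg] using h
  refine ⟨hex.choose, hex.choose_spec.1, ?_, hex.choose_spec.2⟩
  unfold zrep; rw [dif_pos hex]

theorem lcode_eq {w w' : Inc} (h : D.lcode w = D.lcode w') :
    w.lab D.i₀ D.j₀ D.pr = w'.lab D.i₀ D.j₀ D.pr := Encodable.encode_injective h

theorem zcode_eq {w w' : Inc} (h : D.zcode w = D.zcode w') :
    w.cell D.i₁ D.j₁ = w'.cell D.i₁ D.j₁ := Encodable.encode_injective h

theorem mem_I {l k : ℕ} : (l, k) ∈ D.cfg.I ↔ ∃ s ∈ D.I, D.lcode (D.x s) = l ∧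
    D.zcode (D.x s) = k := by
  simp [cfg]

theorem sub : D.cfg.I ⊆ D.cfg.L ×ˢ D.cfg.Z := by
  intro ⟨l, k⟩ h
  obtain ⟨s, hs, h1, h2⟩ := mem_I.1 h
  rw [mem_product]
  exact ⟨by rw [← h1]; exact mem_image_of_mem _ hs, by rw [← h2]; exact mem_image_of_mem _ hs⟩

theorem Ok.nonempty (h : D.Ok) : D.cfg.I.Nonempty := ⟨_, mem_image_of_mem _ h.mem⟩

/-- corners of the cell of an incidence -/
theorem zc_eq {s : ι} (hs : s ∈ D.I) : D.zc (D.zcode (D.x s)) = (D.x s).zQ D.i₁ := by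
  obtain ⟨s', hs', e1, e2⟩ := zrep_spec (D := D) (k := D.zcode (D.x s)) (mem_image_of_mem _ hs)
  unfold zc; rw [e1]
  exact zQ_eq (j := D.j₁) (zcode_eq e2)

theorem fc_eq {s : ι} (hs : s ∈ D.I) : D.fc (D.zcode (D.x s)) = (D.x s).fQ D.j₁ := by
  obtain ⟨s', hs', e1, e2⟩ := zrep_spec (D := D) (k := D.zcode (D.x s)) (mem_image_of_mem _ hs)
  unfold fc; rw [e1]
  exact fQ_eq (i := D.i₁) (zcode_eq e2)

/-- **exactness of the rescaling** -/
theorem co_cfg (k l : ℕ) (j : Fin 4) :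
    8 * (1 / 2) ^ (nat4 D.i₀ D.j₀ D.t j) * D.cfg.co k l j =
      (D.lrep l).cr (D.zc k) (D.fc k) j - (D.x D.s₀).cr (D.zc k) (D.fc k) j := by
  have h1 : ((1:ℝ) / 2) ^ D.t * 2 ^ D.t = 1 := by rw [← mul_pow]; norm_num
  have h2 : ((1:ℝ) / 2) ^ D.i₀ * 2 ^ D.i₀ = 1 := by rw [← mul_pow]; norm_num
  have h3 : ((1:ℝ) / 2) ^ D.j₀ * 2 ^ D.j₀ = 1 := by rw [← mul_pow]; norm_num
  set A := ((1:ℝ) / 2) ^ D.t with hA
  set A' := (2:ℝ) ^ D.t with hA'
  set B := ((1:ℝ) / 2) ^ D.i₀ with hB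
  set B' := (2:ℝ) ^ D.i₀ with hB'
  set C := ((1:ℝ) / 2) ^ D.j₀ with hC
  set C' := (2:ℝ) ^ D.j₀ with hC'
  set w := D.lrep l
  set w0 := D.x D.s₀
  fin_cases j
  · simp only [nat4, Cfg.co, Inc.cr, Matrix.cons_val_zero, Fin.zero_eta, Cfg.N, Cfg.X, cfg,
      Inc.N, Inc.P, Inc.X, Inc.Y, pow_add, ← hA, ← hA', ← hB, ← hB', ← hC, ← hC']
    have e1 : ∀ a b c d : ℝ, 8 * (A * B * C) * (a * (A' * B' * C') / 8 +
        b * (A' * C') / 8 * (c * B') - d * C' * 0) = (A * A') * (B * B') * (C * C') * a +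
        (A * A') * (B * B') * (C * C') * (b * c) := by intro a b c d; ring
    have : ∀ a b u g x v : ℝ, 8 * (A * B * C) * (a * (A' * B' * C') / 8 + b * (A' * C') / 8 * (u * B')
        - g * C' * (x * (A' * B') / 8 + v * A' / 8 * (u * B'))) =
        (A * A') * (B * B') * (C * C') * (a + b * u - g * (x + v * u)) := by
      intro a b u g x v; ring
    rw [this, h1, h2, h3]
    ring
  · simp only [nat4, Cfg.co, Inc.cr, Matrix.cons_val_one, Matrix.cons_val_zero, Fin.mk_one,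
      Cfg.P, cfg, Inc.P, pow_add, ← hA, ← hA', ← hC, ← hC']
    have : ∀ b g v : ℝ, 8 * (A * C) * (b * (A' * C') / 8 - g * C' * (v * A' / 8)) =
        (A * A') * (C * C') * (b - g * v) := by intro b g v; ring
    rw [this, h1, h3]
    ring
  · have : ∀ v : ℝ, 8 * A * (v * A' / 8) = (A * A') * v := by intro v; ring
    have key : 8 * A * ((w.c - w0.c) * A' / 8) = w.c - w0.c := by rw [this, h1]; ring
    exact key
  · have : ∀ x u v : ℝ, 8 * (A * B) * (x * (A' * B') / 8 + v * A' / 8 * (u * B')) =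
        (A * A') * (B * B') * (x + v * u) := by intro x u v; ring
    have key : 8 * (A * B) * (((w.a + w.c * D.z0) - (w0.a + w0.c * D.z0)) * (A' * B') / 8 +
        (w.c - w0.c) * A' / 8 * ((D.zc k - D.z0) * B')) =
        (w.a + w.c * D.zc k) - (w0.a + w0.c * D.zc k) := by
      rw [this, h1, h2]; ring
    have e2 : ((1:ℝ) / 2) ^ (D.t + D.i₀) = A * B := by rw [pow_add]
    have e3 : (2:ℝ) ^ (D.t + D.i₀) = A' * B' := by rw [pow_add]
    change 8 * (1 / 2) ^ (D.t + D.i₀) * (((w.a + w.c * D.z0) - (w0.a + w0.c * D.z0)) *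
        2 ^ (D.t + D.i₀) / 8 + (w.c - w0.c) * A' / 8 * ((D.zc k - D.z0) * B')) =
        (w.a + w.c * D.zc k) - (w0.a + w0.c * D.zc k)
    rw [e2, e3]
    exact key

theorem cell0 (h : D.Ok) {s : ι} (hs : s ∈ D.I) : (D.x s).cell D.i₀ D.j₀ =
    (D.x D.s₀).cell D.i₀ D.j₀ := (lab_eq_iff.1 (h.cls s hs)).1

theorem cr0 (h : D.Ok) {s : ι} (hs : s ∈ D.I) (j : Fin 4) :
    |(D.x s).cr D.z0 D.f0 j - (D.x D.s₀).cr D.z0 D.f0 j| ≤ (1 / 2) ^ nat4 D.i₀ D.j₀ D.t j := by
  have h1 := dist_of_floor ((lab_eq_iff.1 (h.cls s hs)).2 j)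
  rw [co_eq_cr, co_eq_cr, zQ_eq (cell0 h hs), fQ_eq (cell0 h hs)] at h1
  exact h1


/-- corners of the small cells lie in the big cell -/
theorem zc_close (h : D.Ok) {k : ℕ} (hk : k ∈ D.cfg.Z) : |D.zc k - D.z0| ≤ (1 / 2) ^ D.i₀ := by
  obtain ⟨s, hs, e1, e2⟩ := zrep_spec hk
  unfold zc z0; rw [e1, ← zQ_eq (cell0 h hs), abs_sub_comm]
  exact zQ_dist h.hi _

theorem fc_close (h : D.Ok) {k : ℕ} (hk : k ∈ D.cfg.Z) : |D.fc k - D.f0| ≤ (1 / 2) ^ D.j₀ := by
  obtain ⟨s, hs, e1, e2⟩ := zrep_spec hk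
  unfold fc f0; rw [e1, ← fQ_eq (cell0 h hs), abs_sub_comm]
  exact fQ_dist h.hj _

theorem half_mul_two_pow (n : ℕ) : ((1:ℝ) / 2) ^ n * 2 ^ n = 1 := by rw [← mul_pow]; norm_num

/-- bounds -/
theorem Ok.bd (h : D.Ok) : D.cfg.Bd := by
  have key : ∀ (n : ℕ) (y : ℝ), |y| ≤ (1 / 2) ^ n → |y * 2 ^ n / 8| ≤ 1 / 8 := by
    intro n y hy
    rw [abs_div, abs_mul, abs_of_pos (by positivity : (0:ℝ) < 2 ^ n),
      abs_of_pos (by norm_num : (0:ℝ) < 8)]
    have : |y| * 2 ^ n ≤ 1 := by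
      calc |y| * 2 ^ n ≤ (1 / 2) ^ n * 2 ^ n := by gcongr
        _ = 1 := half_mul_two_pow n
    linarith
  have key2 : ∀ (n : ℕ) (y : ℝ), |y| ≤ (1 / 2) ^ n → |y * 2 ^ n| ≤ 1 := by
    intro n y hy
    rw [abs_mul, abs_of_pos (by positivity : (0:ℝ) < 2 ^ n)]
    calc |y| * 2 ^ n ≤ (1 / 2) ^ n * 2 ^ n := by gcongr
      _ = 1 := half_mul_two_pow n
  refine ⟨fun l hl => ?_, fun l hl => ?_, fun l hl => ?_, fun l hl => ?_, fun k hk => ?_,
    fun k hk => ?_⟩
  · obtain ⟨s, hs, e1, _⟩ := lrep_spec hl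
    have := cr0 h hs 3
    simp only [Inc.cr, nat4, Matrix.cons_val] at this
    simp only [cfg]; rw [e1]
    exact key _ _ this
  · obtain ⟨s, hs, e1, _⟩ := lrep_spec hl
    have := cr0 h hs 0
    simp only [Inc.cr, nat4, Matrix.cons_val_zero] at this
    simp only [cfg]; rw [e1]
    exact key _ _ this
  · obtain ⟨s, hs, e1, _⟩ := lrep_spec hl
    have := cr0 h hs 2
    simp only [Inc.cr, nat4, Matrix.cons_val] at this
    simp only [cfg]; rw [e1]
    exact key _ _ this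
  · obtain ⟨s, hs, e1, _⟩ := lrep_spec hl
    have := cr0 h hs 1
    simp only [Inc.cr, nat4, Matrix.cons_val_one, Matrix.cons_val_zero] at this
    simp only [cfg]; rw [e1]
    exact key _ _ this
  · exact key2 _ _ (zc_close h hk)
  · exact key2 _ _ (fc_close h hk)

/-- nearness in the configuration, in the original coordinates -/
theorem near_iff {p : Fin 4 → ℝ} {k l l' : ℕ} : D.cfg.near p k l l' ↔ ∀ j,
    |(D.lrep l').cr (D.zc k) (D.fc k) j - (D.lrep l).cr (D.zc k) (D.fc k) j| ≤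
      8 * (1 / 2) ^ (nat4 D.i₀ D.j₀ D.t j) * D.ρ ^ p j := by
  unfold Cfg.near
  refine forall_congr' fun j => ?_
  have hpos : (0:ℝ) < 8 * (1 / 2) ^ (nat4 D.i₀ D.j₀ D.t j) := by positivity
  have e : (D.lrep l').cr (D.zc k) (D.fc k) j - (D.lrep l).cr (D.zc k) (D.fc k) j =
      8 * (1 / 2) ^ (nat4 D.i₀ D.j₀ D.t j) * (D.cfg.co k l' j - D.cfg.co k l j) := by
    rw [mul_sub, co_cfg, co_cfg]; ring
  rw [e, abs_mul, abs_of_pos hpos, mul_le_mul_iff_right₀ hpos]
  rfl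

/-- the representative of the fat line and the incidence are close at the corner of the cell -/
theorem rep_close (h : D.Ok) {s : ι} (hs : s ∈ D.I) (j : Fin 4) :
    |(D.lrep (D.lcode (D.x s))).cr (D.zc (D.zcode (D.x s))) (D.fc (D.zcode (D.x s))) j -
      (D.x s).co D.i₁ D.j₁ j| ≤ K4 j * (1 / 2) ^ D.pr j := by
  obtain ⟨s', hs', e1, e2⟩ := lrep_spec (D := D) (l := D.lcode (D.x s)) (mem_image_of_mem _ hs)
  have e3 := lab_eq_iff.1 (lcode_eq e2)
  rw [e1, zc_eq hs, fc_eq hs, co_eq_cr]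
  have hk : D.zcode (D.x s) ∈ D.cfg.Z := mem_image_of_mem _ hs
  have d1 := zc_close h hk
  have d2 := fc_close h hk
  rw [zc_eq hs] at d1
  rw [fc_eq hs] at d2
  have := cr_close (h := D.z0) (h' := (D.x s).zQ D.i₁) (f := D.f0) (f' := (D.x s).fQ D.j₁)
    (w := D.x s') (w' := D.x s) (M := 1) h.wall d1 d2 (fun j => by
      have h1 := dist_of_floor (e3.2 j)
      rw [co_eq_cr, co_eq_cr, zQ_eq (cell0 h hs), fQ_eq (cell0 h hs), zQ_eq (cell0 h hs'),
        fQ_eq (cell0 h hs')] at h1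
      simpa [z0, f0] using h1) j
  simpa using this

/-! ### counts -/

theorem card_L : D.cfg.L.card = (D.I.image fun s => (D.x s).lab D.i₀ D.j₀ D.pr).card := by
  have : D.cfg.L = (D.I.image fun s => (D.x s).lab D.i₀ D.j₀ D.pr).image Encodable.encode := by
    rw [image_image]; rfl
  rw [this, card_image_of_injective _ Encodable.encode_injective]

theorem card_Z : D.cfg.Z.card = (D.I.image fun s => (D.x s).cell D.i₁ D.j₁).card := by
  have : D.cfg.Z = (D.I.image fun s => (D.x s).cell D.i₁ D.j₁).image Encodable.encode := by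
    rw [image_image]; rfl
  rw [this, card_image_of_injective _ Encodable.encode_injective]


theorem le_card_I (h : D.Ok) :
    (D.I.image fun s => (D.x s).lab D.i₁ D.j₁ D.pr).card ≤ 675 * D.cfg.I.card := by
  refine card_image_le_mul fun s hs => ?_
  rw [← prod_K4]
  refine card_lab_le _ D.x (D.x s) (fun s' hs' => ?_) (fun s' hs' j => ?_)
  · have := (mem_filter.1 hs').2
    rw [Prod.mk.injEq] at this
    exact zcode_eq this.2
  · have := (mem_filter.1 hs').2
    rw [Prod.mk.injEq] at this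
    exact co_fine_close h.hi h.hj h.wall (zcode_eq this.2) (lcode_eq this.1) j

/-- heights versus classes of `lab i₁ j₁ q` (`q` with walls, coarser than the class of `I`) -/
theorem card_Z_le {q : Fin 4 → ℕ} :
    D.cfg.Z.card ≤ (D.I.image fun s => (D.x s).lab D.i₁ D.j₁ q).card := by
  rw [card_Z]
  have : (D.I.image fun s => (D.x s).cell D.i₁ D.j₁) =
      (D.I.image fun s => (D.x s).lab D.i₁ D.j₁ q).image Prod.fst := by
    rw [image_image]; rfl
  rw [this]
  exact card_image_le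

theorem le_card_Z (h : D.Ok) {q : Fin 4 → ℕ} (hw : Wall D.i₀ D.j₀ q)
    (hq : ∀ s ∈ D.I, (D.x s).lab D.i₀ D.j₀ q = (D.x D.s₀).lab D.i₀ D.j₀ q) :
    (D.I.image fun s => (D.x s).lab D.i₁ D.j₁ q).card ≤ 675 * D.cfg.Z.card := by
  refine card_image_le_mul fun s hs => ?_
  rw [← prod_K4]
  refine card_lab_le _ D.x (D.x s) (fun s' hs' => ?_) (fun s' hs' j => ?_)
  · exact zcode_eq (mem_filter.1 hs').2
  · obtain ⟨h1, h2⟩ := mem_filter.1 hs'
    exact co_fine_close h.hi h.hj hw (zcode_eq h2) ((hq s' h1).trans (hq s hs).symm) j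

/-- **upper bound for box counts** by class counts -/
theorem box_le (h : D.Ok) {p : Fin 4 → ℝ} {q : Fin 4 → ℕ} (hq : ∀ j, q j ≤ D.pr j)
    (hp : ∀ j, (1 / 2) ^ (nat4 D.i₀ D.j₀ D.t j) * D.ρ ^ p j ≤ (1 / 2) ^ q j) {M : ℕ}
    (hM : ∀ s ∈ D.I, ((cls D.I (fun s => (D.x s).lab D.i₁ D.j₁ q) s).image
      fun s => (D.x s).lab D.i₁ D.j₁ D.pr).card ≤ M) {l k : ℕ} (hlk : (l, k) ∈ D.cfg.I) :
    (D.cfg.box p l k).card ≤ 675 * (M * 433125) := by
  classical
  obtain ⟨s, hs, rfl, rfl⟩ := mem_I.1 hlk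
  set K : Fin 4 → ℕ := fun j => 8 + 2 * K4 j with hK
  set A := D.I.filter fun s' => D.zcode (D.x s') = D.zcode (D.x s) ∧
    ∀ j, |(D.x s').co D.i₁ D.j₁ j - (D.x s).co D.i₁ D.j₁ j| ≤ K j * (1 / 2) ^ q j with hA
  have hsub : D.cfg.box p (D.lcode (D.x s)) (D.zcode (D.x s)) ⊆ A.image fun s => D.lcode (D.x s) := by
    intro l' hl'
    rw [Cfg.box, mem_filter, Cfg.slice, mem_filter] at hl'
    obtain ⟨⟨_, hl2⟩, hl3⟩ := hl'
    obtain ⟨s', hs', e1, e2⟩ := mem_I.1 hl2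
    refine mem_image.2 ⟨s', ?_, e1⟩
    rw [hA, mem_filter]
    refine ⟨hs', e2, fun j => ?_⟩
    rw [near_iff] at hl3
    have h1 := hl3 j
    have h2 := rep_close h hs j
    have h3 := rep_close h hs' j
    rw [e1, e2] at h3
    have h4 : ((1:ℝ) / 2) ^ D.pr j ≤ (1 / 2) ^ q j :=
      pow_le_pow_of_le_one (by norm_num) (by norm_num) (hq j)
    have h5 := hp j
    have h6 : (0:ℝ) ≤ K4 j := Nat.cast_nonneg _
    have h7 : (K4 j : ℝ) * (1 / 2) ^ D.pr j ≤ K4 j * (1 / 2) ^ q j := by gcongr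
    simp only [hK]; push_cast
    rw [abs_le] at *
    constructor <;> linarith [h1.1, h1.2, h2.1, h2.2, h3.1, h3.2]
  refine (card_le_card hsub).trans ?_
  have hprod : ∏ j, (2 * K j + 1) = 433125 := by
    simp [Fin.prod_univ_four, K4, hK]
  have s1 : (A.image fun s => (D.x s).lab D.i₁ D.j₁ q).card ≤ 433125 := by
    rw [← hprod]
    refine card_lab_le A D.x (D.x s) (fun s' hs' => ?_) (fun s' hs' j => ?_)
    · exact zcode_eq (mem_filter.1 hs').2.1
    · exact (mem_filter.1 hs').2.2 j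
  have s2 : (A.image fun s => (D.x s).lab D.i₁ D.j₁ D.pr).card ≤
      M * (A.image fun s => (D.x s).lab D.i₁ D.j₁ q).card := by
    refine card_image_le_mul fun s' hs' => ?_
    refine le_trans (card_le_card (image_subset_image ?_)) (hM s' (mem_filter.1 hs').1)
    intro s'' h''
    obtain ⟨h1, h2⟩ := mem_filter.1 h''
    exact mem_cls.2 ⟨(mem_filter.1 h1).1, h2⟩
  have s3 : (A.image fun s => D.lcode (D.x s)).card ≤
      675 * (A.image fun s => (D.x s).lab D.i₁ D.j₁ D.pr).card := by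
    refine card_image_le_mul fun s' hs' => ?_
    have h1 := card_coarse_le A D.x h.hi h.hj (p := D.pr) (p' := D.pr) (fun _ => le_rfl) h.wall s'
    set A' := A.filter fun b => (D.x b).lab D.i₁ D.j₁ D.pr = (D.x s').lab D.i₁ D.j₁ D.pr
    have h2 : (A'.image fun s => D.lcode (D.x s)) ⊆
        (A'.image fun s => (D.x s).lab D.i₀ D.j₀ D.pr).image Encodable.encode := by
      intro c hc
      obtain ⟨s', hs', rfl⟩ := mem_image.1 hc
      exact mem_image.2 ⟨_, mem_image_of_mem _ hs', rfl⟩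
    exact (card_le_card h2).trans (card_image_le.trans h1)
  calc (A.image fun s => D.lcode (D.x s)).card
      ≤ 675 * (A.image fun s => (D.x s).lab D.i₁ D.j₁ D.pr).card := s3
    _ ≤ 675 * (M * (A.image fun s => (D.x s).lab D.i₁ D.j₁ q).card) := Nat.mul_le_mul_left _ s2
    _ ≤ 675 * (M * 433125) := Nat.mul_le_mul_left _ (Nat.mul_le_mul_left _ s1)


theorem floor_fl {i i' : ℕ} (hi : i ≤ i') (x : ℝ) : ⌊(2:ℝ) ^ i * Inc.fl i' x⌋ = ⌊(2:ℝ) ^ i * x⌋ := by
  obtain ⟨k, rfl⟩ := Nat.exists_eq_add_of_le hi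
  refine le_antisymm (Int.floor_le_floor (by gcongr; exact fl_le _ _)) ?_
  rw [Int.le_floor]
  unfold Inc.fl
  have h1 := (Finset.mem_Ico.1 (floor_child (i := i) (k := k) (x := x))).1
  have h' : ((⌊(2:ℝ) ^ i * x⌋ : ℤ) : ℝ) * 2 ^ k ≤ ((⌊(2:ℝ) ^ (i + k) * x⌋ : ℤ) : ℝ) := by
    exact_mod_cast h1
  rw [mul_div_assoc', le_div_iff₀ (by positivity)]
  calc ((⌊(2:ℝ) ^ i * x⌋ : ℤ) : ℝ) * 2 ^ (i + k)
      = 2 ^ i * (((⌊(2:ℝ) ^ i * x⌋ : ℤ) : ℝ) * 2 ^ k) := by rw [pow_add]; ring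
    _ ≤ 2 ^ i * ((⌊(2:ℝ) ^ (i + k) * x⌋ : ℤ) : ℝ) := by gcongr

/-- **height intervals** versus `z`-cells -/
theorem hbox_le (h : D.Ok) {y : ℝ} {i : ℕ} (hi : i ≤ D.i₁)
    (hy : (1 / 2) ^ D.i₀ * D.ρ ^ y ≤ (1 / 2) ^ i) {M : ℕ}
    (hM : ∀ s ∈ D.I, ((cls D.I (fun s => (D.x s).cell i D.j₀) s).image
      fun s => (D.x s).cell D.i₁ D.j₁).card ≤ M) {k : ℕ} (hk : k ∈ D.cfg.Z) :
    (D.cfg.hbox y k).card ≤ M * 3 := by
  classical
  obtain ⟨s, hs, rfl⟩ := mem_image.1 hk
  set A := D.I.filter fun s' => |⌊(2:ℝ) ^ i * (D.x s').z⌋ - ⌊(2:ℝ) ^ i * (D.x s).z⌋| ≤ 1 with hA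
  have hsub : D.cfg.hbox y (D.zcode (D.x s)) ⊆ A.image fun s => D.zcode (D.x s) := by
    intro k' hk'
    rw [Cfg.hbox, mem_filter] at hk'
    obtain ⟨hk1, hk2⟩ := hk'
    obtain ⟨s', hs', rfl⟩ := mem_image.1 hk1
    refine mem_image.2 ⟨s', ?_, rfl⟩
    rw [hA, mem_filter]
    refine ⟨hs', ?_⟩
    have e1 : D.cfg.z (D.zcode (D.x s')) - D.cfg.z (D.zcode (D.x s)) =
        ((D.x s').zQ D.i₁ - (D.x s).zQ D.i₁) * 2 ^ D.i₀ := by
      simp only [cfg]; rw [zc_eq hs, zc_eq hs']; ring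
    rw [e1, abs_mul, abs_of_pos (by positivity : (0:ℝ) < 2 ^ D.i₀)] at hk2
    have h1 : |(D.x s').zQ D.i₁ - (D.x s).zQ D.i₁| ≤ ((1:ℕ):ℝ) * (1 / 2) ^ i := by
      have h2 : |(D.x s').zQ D.i₁ - (D.x s).zQ D.i₁| =
          (1 / 2) ^ D.i₀ * (|(D.x s').zQ D.i₁ - (D.x s).zQ D.i₁| * 2 ^ D.i₀) := by
        have := half_mul_two_pow D.i₀
        calc |(D.x s').zQ D.i₁ - (D.x s).zQ D.i₁|
            = |(D.x s').zQ D.i₁ - (D.x s).zQ D.i₁| * ((1 / 2) ^ D.i₀ * 2 ^ D.i₀) := by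
              rw [this, mul_one]
          _ = _ := by ring
      rw [h2]
      refine le_trans (mul_le_mul_of_nonneg_left hk2 (by positivity)) ?_
      simpa [cfg] using hy
    have h3 := floor_of_dist h1
    have e2 : ∀ w : Inc, ⌊(2:ℝ) ^ i * w.zQ D.i₁⌋ = ⌊(2:ℝ) ^ i * w.z⌋ := fun w => floor_fl hi w.z
    rw [e2, e2] at h3
    exact_mod_cast h3
  have s1 : (A.image fun s => (D.x s).cell i D.j₀).card ≤ 3 := by
    have hsub2 : (A.image fun s => (D.x s).cell i D.j₀) ⊆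
        (Finset.Icc (⌊(2:ℝ) ^ i * (D.x s).z⌋ - 1) (⌊(2:ℝ) ^ i * (D.x s).z⌋ + 1)).image fun m =>
          (m, ⌊(2:ℝ) ^ D.j₀ * (D.x s).θ⌋) := by
      intro c hc
      obtain ⟨s', hs', rfl⟩ := mem_image.1 hc
      obtain ⟨h1, h2⟩ := mem_filter.1 hs'
      rw [abs_le] at h2
      refine mem_image.2 ⟨⌊(2:ℝ) ^ i * (D.x s').z⌋, ?_, ?_⟩
      · rw [Finset.mem_Icc]; constructor <;> linarith [h2.1, h2.2]
      · have e1 := cell0 h h1
        have e2 := cell0 h hs
        unfold Inc.cell at e1 e2 ⊢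
        rw [Prod.mk.injEq] at e1 e2
        rw [e1.2, e2.2]
    refine (card_le_card hsub2).trans (card_image_le.trans ?_)
    rw [Int.card_Icc]
    have : ⌊(2:ℝ) ^ i * (D.x s).z⌋ + 1 + 1 - (⌊(2:ℝ) ^ i * (D.x s).z⌋ - 1) = 3 := by ring
    rw [this]; rfl
  have s2 : (A.image fun s => (D.x s).cell D.i₁ D.j₁).card ≤
      M * (A.image fun s => (D.x s).cell i D.j₀).card := by
    refine card_image_le_mul fun s' hs' => ?_
    refine le_trans (card_le_card (image_subset_image ?_)) (hM s' (mem_filter.1 hs').1)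
    intro s'' h''
    obtain ⟨h1, h2⟩ := mem_filter.1 h''
    exact mem_cls.2 ⟨(mem_filter.1 h1).1, h2⟩
  have s3 : (A.image fun s => D.zcode (D.x s)).card ≤
      (A.image fun s => (D.x s).cell D.i₁ D.j₁).card := by
    have : (A.image fun s => D.zcode (D.x s)) =
        (A.image fun s => (D.x s).cell D.i₁ D.j₁).image Encodable.encode := by
      rw [image_image]; rfl
    rw [this]; exact card_image_le
  calc (D.cfg.hbox y (D.zcode (D.x s))).card ≤ (A.image fun s => D.zcode (D.x s)).card :=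
        card_le_card hsub
    _ ≤ (A.image fun s => (D.x s).cell D.i₁ D.j₁).card := s3
    _ ≤ M * (A.image fun s => (D.x s).cell i D.j₀).card := s2
    _ ≤ M * 3 := Nat.mul_le_mul_left _ s1

end ZD

end Crest.Agent.R138.Flg101
end

-- ▼ part R138/Qf4_926
section

/-!
# R138: the configuration of one class, asymptotically (helper926)

101's `ZD.cfg` at a natural point `X6 v r t`, fat lines of relative resolution `Rp`, heights
(flagged cells) of relative levels `(R4, R5)`.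

* levels: `QL`, `flab_dir`, comparison with `nat4`;
* counts of fat lines, heights, incidences; Frostman bound;
* `rawM_of_class` : `RawM` for the sequence of configurations of one class;
* `fmodel_ident` : the exponents of every F-model inside it.
-/

set_option autoImplicit false
set_option linter.unusedSectionVars false
set_option linter.unusedVariables false

open Filter Topology MeasureTheory
open scoped NNReal

namespace Crest.Agent.R138.Ex926

open Finset Flg101 FM501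

/-- the natural point with levels `v` (height), `r` (slope), `t` (lateral velocity) -/
def X6 (v r t : ℝ) : Fin 6 → ℝ := ![t + v + r, t + r, t, t + v, v, r]

/-- the direction with box part `p` and cell part `(a, b)` -/
def dir (p : Fin 4 → ℝ) (a b : ℝ) : Fin 6 → ℝ := ![p 0, p 1, p 2, p 3, a, b]

/-- nonnegative legal directions -/
def D6 : Set (Fin 6 → ℝ) := {c | (∀ a, 0 ≤ c a) ∧ c 0 ≤ c 1 + c 4 ∧ c 3 ≤ c 2 + c 4 ∧
  c 0 ≤ c 5 + c 3 ∧ c 1 ≤ c 5 + c 2}

theorem zero_mem_D6 : (0 : Fin 6 → ℝ) ∈ D6 := by simp [D6]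

theorem dir_mem_D6 {p : Fin 4 → ℝ} {a b M : ℝ} (hp : ∀ j, 0 ≤ p j ∧ p j ≤ M) (ha : M ≤ a)
    (hb : M ≤ b) : dir p a b ∈ D6 := by
  have h0 := hp 0
  have h1 := hp 1
  have h2 := hp 2
  have h3 := hp 3
  have e0 : dir p a b 0 = p 0 := rfl
  have e1 : dir p a b 1 = p 1 := rfl
  have e2 : dir p a b 2 = p 2 := rfl
  have e3 : dir p a b 3 = p 3 := rfl
  have e4 : dir p a b 4 = a := rfl
  have e5 : dir p a b 5 = b := rfl
  refine ⟨fun i => ?_, ?_, ?_, ?_, ?_⟩
  · fin_cases i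
    · exact h0.1
    · exact h1.1
    · exact h2.1
    · exact h3.1
    · show 0 ≤ a; linarith [h0.1, h0.2]
    · show 0 ≤ b; linarith [h0.1, h0.2]
  · rw [e0, e1, e4]; linarith [h0.2, h1.1]
  · rw [e3, e2, e4]; linarith [h3.2, h2.1]
  · rw [e0, e5, e3]; linarith [h0.2, h3.1]
  · rw [e1, e5, e2]; linarith [h1.2, h2.1]

theorem dir_const_mem_D6 {R a b : ℝ} (hR : 0 ≤ R) (ha : 0 ≤ a) (hb : 0 ≤ b) :
    dir (fun _ => R) a b ∈ D6 := by
  refine ⟨fun i => ?_, ?_, ?_, ?_, ?_⟩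
  · fin_cases i
    · exact hR
    · exact hR
    · exact hR
    · exact hR
    · exact ha
    · exact hb
  · show R ≤ R + a; linarith
  · show R ≤ R + a; linarith
  · show R ≤ b + R; linarith
  · show R ≤ b + R; linarith

theorem norm_dir_le {p : Fin 4 → ℝ} {a b C : ℝ} (hp : ∀ j, |p j| ≤ C) (ha : |a| ≤ C)
    (hb : |b| ≤ C) : ‖dir p a b‖ ≤ C := by
  have hC : 0 ≤ C := (abs_nonneg _).trans ha
  refine (pi_norm_le_iff_of_nonneg hC).2 fun i => ?_
  rw [Real.norm_eq_abs]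
  fin_cases i
  · exact hp 0
  · exact hp 1
  · exact hp 2
  · exact hp 3
  · exact ha
  · exact hb

theorem dir_mono {p p' : Fin 4 → ℝ} {a b a' b' : ℝ} (hp : ∀ j, p j ≤ p' j) (ha : a ≤ a')
    (hb : b ≤ b') : dir p a b ≤ dir p' a' b' := by
  intro i
  fin_cases i
  · exact hp 0
  · exact hp 1
  · exact hp 2
  · exact hp 3
  · exact ha
  · exact hb

theorem zero_eq_dir : (0 : Fin 6 → ℝ) = dir 0 0 0 := by
  funext i; fin_cases i <;> rfl

/-- box levels at the natural point, displaced by `w p` -/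
noncomputable def QL (B : Base) (n : ℕ) (v r t w : ℝ) (p : Fin 4 → ℝ) : Fin 4 → ℕ :=
  ![B.lev n (t + v + r + w * p 0), B.levc n (t + r + w * p 1), B.levc n (t + w * p 2),
    B.lev n (t + v + w * p 3)]

theorem flab_dir (B : Base) {ι : ℕ → Type*} (x : ∀ n, ι n → Inc) (n : ℕ) (v r t w : ℝ)
    (p : Fin 4 → ℝ) (a b : ℝ) : flab B x n (X6 v r t + w • dir p a b) =
      fun i => (x n i).lab (B.levc n (v + w * a)) (B.levc n (r + w * b)) (QL B n v r t w p) := rfl

theorem QL_mono (B : Base) (n : ℕ) {v r t w : ℝ} (hw : 0 ≤ w) {p p' : Fin 4 → ℝ}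
    (h : ∀ j, p j ≤ p' j) (j : Fin 4) : QL B n v r t w p j ≤ QL B n v r t w p' j := by
  have hj := fun j => mul_le_mul_of_nonneg_left (h j) hw
  fin_cases j
  · exact B.lev_mono n (by linarith [hj 0])
  · exact B.levc_mono n (by linarith [hj 1])
  · exact B.levc_mono n (by linarith [hj 2])
  · exact B.lev_mono n (by linarith [hj 3])

/-- first four coordinates of the natural point -/
def X4 (v r t : ℝ) : Fin 4 → ℝ := ![t + v + r, t + r, t, t + v]

theorem levc_add_le (B : Base) (n : ℕ) (s t : ℝ) : B.levc n (s + t) ≤ B.levc n s + B.levc n t := by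
  unfold Base.levc
  rw [Nat.ceil_le]
  push_cast
  have h1 := Nat.le_ceil (s * B.L n / Real.log 2)
  have h2 := Nat.le_ceil (t * B.L n / Real.log 2)
  rw [add_mul, add_div]
  linarith

theorem lev_le_levc (B : Base) (n : ℕ) (t : ℝ) : B.lev n t ≤ B.levc n t := by
  unfold Base.levc Base.lev
  exact Nat.floor_le_ceil _

theorem QL_zero_le_nat4 (B : Base) (n : ℕ) (v r t w : ℝ) (j : Fin 4) :
    QL B n v r t w 0 j ≤ nat4 (B.levc n v) (B.levc n r) (B.levc n t) j := by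
  fin_cases j
  · show B.lev n (t + v + r + w * 0) ≤ B.levc n t + B.levc n v + B.levc n r
    rw [mul_zero, add_zero]
    refine (lev_le_levc B n _).trans ((levc_add_le B n _ _).trans ?_)
    have := levc_add_le B n t v
    omega
  · show B.levc n (t + r + w * 0) ≤ B.levc n t + B.levc n r
    rw [mul_zero, add_zero]
    exact levc_add_le B n _ _
  · show B.levc n (t + w * 0) ≤ B.levc n t
    rw [mul_zero, add_zero]
  · show B.lev n (t + v + w * 0) ≤ B.levc n t + B.levc n v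
    rw [mul_zero, add_zero]
    exact (lev_le_levc B n _).trans (levc_add_le B n _ _)

theorem half_pow_levc_le (B : Base) (n : ℕ) (t : ℝ) : ((1 : ℝ) / 2) ^ (B.levc n t) ≤ B.d n ^ t := by
  have h1 := B.le_pow_levc n t
  rw [one_div, inv_pow, inv_le_comm₀ (by positivity) (Real.rpow_pos_of_pos (B.pos n) _),
    ← Real.rpow_neg (B.pos n).le]
  exact h1

theorem le_half_pow_levc (B : Base) (n : ℕ) {t : ℝ} (ht : 0 ≤ t) :
    B.d n ^ t / 2 ≤ ((1 : ℝ) / 2) ^ (B.levc n t) := by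
  have h1 := B.pow_levc_le n ht
  have hp := Real.rpow_pos_of_pos (B.pos n) t
  rw [one_div, inv_pow, le_inv_comm₀ (by positivity) (by positivity)]
  refine h1.trans (le_of_eq ?_)
  rw [Real.rpow_neg (B.pos n).le]
  field_simp

theorem half_pow_lev_le (B : Base) (n : ℕ) (t : ℝ) : ((1 : ℝ) / 2) ^ (B.lev n t) ≤ 2 * B.d n ^ t := by
  have h1 := B.lt_pow_lev n t
  have hp := Real.rpow_pos_of_pos (B.pos n) t
  rw [pow_succ, Real.rpow_neg (B.pos n).le] at h1
  have h2 : (0 : ℝ) < 2 ^ (B.lev n t) := by positivity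
  have h3 : ((1 : ℝ) / 2) ^ (B.lev n t) * 2 ^ (B.lev n t) = 1 := by rw [← mul_pow]; norm_num
  have h4 : (B.d n ^ t)⁻¹ * B.d n ^ t = 1 := inv_mul_cancel₀ hp.ne'
  have h5 : 1 ≤ 2 ^ (B.lev n t) * (2 * B.d n ^ t) := by nlinarith
  have h6 : (0 : ℝ) < (1 / 2) ^ (B.lev n t) := by positivity
  nlinarith

theorem le_half_pow_lev (B : Base) (n : ℕ) {t : ℝ} (ht : 0 ≤ t) :
    B.d n ^ t ≤ ((1 : ℝ) / 2) ^ (B.lev n t) := by
  have h1 := B.pow_lev_le n ht
  have hp := Real.rpow_pos_of_pos (B.pos n) t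
  rw [one_div, inv_pow, le_inv_comm₀ hp (by positivity), ← Real.rpow_neg (B.pos n).le]
  exact h1

theorem rp (B : Base) (n : ℕ) (s t : ℝ) : B.d n ^ (s + t) = B.d n ^ s * B.d n ^ t :=
  Real.rpow_add (B.pos n) s t

/-- sides of the natural box -/
theorem half_nat4_le (B : Base) (n : ℕ) (v r t : ℝ) (j : Fin 4) :
    ((1 : ℝ) / 2) ^ (nat4 (B.levc n v) (B.levc n r) (B.levc n t) j) ≤ B.d n ^ X4 v r t j := by
  have hv := half_pow_levc_le B n v
  have hr := half_pow_levc_le B n r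
  have ht := half_pow_levc_le B n t
  have pv := Real.rpow_pos_of_pos (B.pos n) v
  have pr := Real.rpow_pos_of_pos (B.pos n) r
  have pt := Real.rpow_pos_of_pos (B.pos n) t
  fin_cases j
  · show ((1 : ℝ) / 2) ^ (B.levc n t + B.levc n v + B.levc n r) ≤ B.d n ^ (t + v + r)
    rw [pow_add, pow_add, rp, rp]; gcongr
  · show ((1 : ℝ) / 2) ^ (B.levc n t + B.levc n r) ≤ B.d n ^ (t + r)
    rw [pow_add, rp]; gcongr
  · exact ht
  · show ((1 : ℝ) / 2) ^ (B.levc n t + B.levc n v) ≤ B.d n ^ (t + v)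
    rw [pow_add, rp]; gcongr

theorem le_half_nat4 (B : Base) (n : ℕ) {v r t : ℝ} (hv0 : 0 ≤ v) (hr0 : 0 ≤ r) (ht0 : 0 ≤ t)
    (j : Fin 4) :
    B.d n ^ X4 v r t j / 8 ≤ ((1 : ℝ) / 2) ^ (nat4 (B.levc n v) (B.levc n r) (B.levc n t) j) := by
  have hv := le_half_pow_levc B n hv0
  have hr := le_half_pow_levc B n hr0
  have ht := le_half_pow_levc B n ht0
  have pv := Real.rpow_pos_of_pos (B.pos n) v
  have pr := Real.rpow_pos_of_pos (B.pos n) r
  have pt := Real.rpow_pos_of_pos (B.pos n) t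
  fin_cases j
  · show B.d n ^ (t + v + r) / 8 ≤ ((1 : ℝ) / 2) ^ (B.levc n t + B.levc n v + B.levc n r)
    rw [pow_add, pow_add, rp, rp]
    calc B.d n ^ t * B.d n ^ v * B.d n ^ r / 8 = (B.d n ^ t / 2) * (B.d n ^ v / 2) *
          (B.d n ^ r / 2) := by ring
      _ ≤ _ := by gcongr
  · show B.d n ^ (t + r) / 8 ≤ ((1 : ℝ) / 2) ^ (B.levc n t + B.levc n r)
    rw [pow_add, rp]
    calc B.d n ^ t * B.d n ^ r / 8 ≤ (B.d n ^ t / 2) * (B.d n ^ r / 2) := by
          have := mul_pos pt pr; linarith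
      _ ≤ _ := by gcongr
  · show B.d n ^ t / 8 ≤ ((1 : ℝ) / 2) ^ (B.levc n t)
    linarith
  · show B.d n ^ (t + v) / 8 ≤ ((1 : ℝ) / 2) ^ (B.levc n t + B.levc n v)
    rw [pow_add, rp]
    calc B.d n ^ t * B.d n ^ v / 8 ≤ (B.d n ^ t / 2) * (B.d n ^ v / 2) := by
          have := mul_pos pt pv; linarith
      _ ≤ _ := by gcongr

theorem le_half_QL (B : Base) (n : ℕ) {v r t w : ℝ} {p : Fin 4 → ℝ} (hv0 : 0 ≤ v) (hr0 : 0 ≤ r)
    (ht0 : 0 ≤ t) (hw : 0 ≤ w) (hp : ∀ j, 0 ≤ p j) (j : Fin 4) :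
    B.d n ^ (X4 v r t j + w * p j) / 2 ≤ ((1 : ℝ) / 2) ^ (QL B n v r t w p j) := by
  have hj : ∀ j, 0 ≤ w * p j := fun j => mul_nonneg hw (hp j)
  have hpos : ∀ s : ℝ, 0 < B.d n ^ s := fun s => Real.rpow_pos_of_pos (B.pos n) s
  fin_cases j
  · show B.d n ^ (t + v + r + w * p 0) / 2 ≤ ((1 : ℝ) / 2) ^ (B.lev n (t + v + r + w * p 0))
    have := le_half_pow_lev B n (t := t + v + r + w * p 0) (by linarith [hj 0])
    linarith [hpos (t + v + r + w * p 0)]
  · show B.d n ^ (t + r + w * p 1) / 2 ≤ ((1 : ℝ) / 2) ^ (B.levc n (t + r + w * p 1))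
    exact le_half_pow_levc B n (by linarith [hj 1])
  · show B.d n ^ (t + w * p 2) / 2 ≤ ((1 : ℝ) / 2) ^ (B.levc n (t + w * p 2))
    exact le_half_pow_levc B n (by linarith [hj 2])
  · show B.d n ^ (t + v + w * p 3) / 2 ≤ ((1 : ℝ) / 2) ^ (B.lev n (t + v + w * p 3))
    have := le_half_pow_lev B n (t := t + v + w * p 3) (by linarith [hj 3])
    linarith [hpos (t + v + w * p 3)]

theorem half_QL_le (B : Base) (n : ℕ) (v r t w : ℝ) (p : Fin 4 → ℝ) (j : Fin 4) :
    ((1 : ℝ) / 2) ^ (QL B n v r t w p j) ≤ 2 * B.d n ^ (X4 v r t j + w * p j) := by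
  have hpos : ∀ s : ℝ, 0 < B.d n ^ s := fun s => Real.rpow_pos_of_pos (B.pos n) s
  fin_cases j
  · exact half_pow_lev_le B n _
  · show ((1 : ℝ) / 2) ^ (B.levc n (t + r + w * p 1)) ≤ 2 * B.d n ^ (t + r + w * p 1)
    have := half_pow_levc_le B n (t + r + w * p 1)
    linarith [hpos (t + r + w * p 1)]
  · show ((1 : ℝ) / 2) ^ (B.levc n (t + w * p 2)) ≤ 2 * B.d n ^ (t + w * p 2)
    have := half_pow_levc_le B n (t + w * p 2)
    linarith [hpos (t + w * p 2)]
  · exact half_pow_lev_le B n _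

theorem wall_QL (B : Base) (n : ℕ) {v r t w : ℝ} {p : Fin 4 → ℝ} {a b : ℝ} (hv0 : 0 ≤ v)
    (hr0 : 0 ≤ r) (ht0 : 0 ≤ t) (hw : 0 ≤ w) (hc : dir p a b ∈ D6) :
    Wall (B.levc n (v + w * a)) (B.levc n (r + w * b)) (QL B n v r t w p) := by
  obtain ⟨h0, h1, h2, h3, h4⟩ := hc
  have e0 : ∀ i, 0 ≤ w * dir p a b i := fun i => mul_nonneg hw (h0 i)
  have hmem : X6 v r t + w • dir p a b ∈ LEG (t + v + r + ‖X6 v r t + w • dir p a b‖) := by
    rw [mem_LEG]
    refine ⟨fun i => ⟨?_, ?_⟩, ?_, ?_, ?_, ?_⟩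
    · have : 0 ≤ X6 v r t i := by
        fin_cases i
        · show 0 ≤ t + v + r; positivity
        · show 0 ≤ t + r; positivity
        · exact ht0
        · show 0 ≤ t + v; positivity
        · exact hv0
        · exact hr0
      have h := e0 i
      show 0 ≤ X6 v r t i + w * dir p a b i
      linarith
    · have := norm_le_pi_norm (X6 v r t + w • dir p a b) i
      rw [Real.norm_eq_abs] at this
      have h := le_abs_self ((X6 v r t + w • dir p a b) i)
      linarith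
    · show t + v + r + w * dir p a b 0 ≤ (t + r + w * dir p a b 1) + (v + w * dir p a b 4)
      nlinarith [mul_le_mul_of_nonneg_left h1 hw]
    · show t + v + w * dir p a b 3 ≤ (t + w * dir p a b 2) + (v + w * dir p a b 4)
      nlinarith [mul_le_mul_of_nonneg_left h2 hw]
    · show t + v + r + w * dir p a b 0 ≤ (r + w * dir p a b 5) + (t + v + w * dir p a b 3)
      nlinarith [mul_le_mul_of_nonneg_left h3 hw]
    · show t + r + w * dir p a b 1 ≤ (r + w * dir p a b 5) + (t + w * dir p a b 2)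
      nlinarith [mul_le_mul_of_nonneg_left h4 hw]
  exact wall_of_LEG B n hmem

end Crest.Agent.R138.Ex926
end

-- ▼ part R138/Qf5_926
section

/-!
# R138: the configurations of a sequence of classes are raw F-models (helper926)
-/

set_option autoImplicit false
set_option linter.unusedSectionVars false
set_option linter.unusedVariables false

open Filter Topology MeasureTheory
open scoped NNReal

namespace Crest.Agent.R138.Ex926

open Finset Flg101 FM501

variable {ι : ℕ → Type*} [∀ n, DecidableEq (ι n)]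

/-- big classes at natural points, seen in the base `B' = B ^ w` -/
structure ClsSeq (B B' : Base) (I : ∀ n, Finset (ι n)) (x : ∀ n, ι n → Inc) (v r t w : ℕ → ℝ)
    (T : ℕ → ℝ) (lam : (Fin 6 → ℝ) → ℝ) (C : ∀ n, Finset (ι n)) (s₀ : ∀ n, ι n) : Prop where
  v0 : ∀ n, 0 ≤ v n
  r0 : ∀ n, 0 ≤ r n
  t0 : ∀ n, 0 ≤ t n
  w0 : ∀ n, 0 < w n
  dd : ∀ n, B'.d n = B.d n ^ w n
  prof : ZProf B' I (fun n c => flab B x n (X6 (v n) (r n) (t n) + w n • c)) D6 T lam
  lam0 : lam 0 = 0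
  Tpos : ∀ n, 0 < T n
  cls : ∀ᶠ n in (U : Filter ℕ), C n ⊆ I n ∧ s₀ n ∈ C n ∧ ∀ s ∈ C n,
    (x n s).lab (B.levc n (v n)) (B.levc n (r n))
      (nat4 (B.levc n (v n)) (B.levc n (r n)) (B.levc n (t n))) =
    (x n (s₀ n)).lab (B.levc n (v n)) (B.levc n (r n))
      (nat4 (B.levc n (v n)) (B.levc n (r n)) (B.levc n (t n)))
  big : ∀ ε : ℝ, 0 < ε → ∀ᶠ n in (U : Filter ℕ), T n * B'.d n ^ ε ≤ ((C n).card : ℝ)

/-- the zoom data of the class at `n` -/
noncomputable def zdat (B B' : Base) (x : ∀ n, ι n → Inc) (v r t w : ℕ → ℝ)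
    (C : ∀ n, Finset (ι n)) (s₀ : ∀ n, ι n) (Rp R4 R5 : ℝ) (n : ℕ) : ZD (ι n) where
  I := C n
  x := x n
  s₀ := s₀ n
  i₀ := B.levc n (v n)
  j₀ := B.levc n (r n)
  t := B.levc n (t n)
  i₁ := B.levc n (v n + w n * R4)
  j₁ := B.levc n (r n + w n * R5)
  pr := QL B n (v n) (r n) (t n) (w n) (fun _ => Rp)
  ρ := B'.d n

section

variable {B B' : Base} {I : ∀ n, Finset (ι n)} {x : ∀ n, ι n → Inc} {v r t w T : ℕ → ℝ}
  {lam : (Fin 6 → ℝ) → ℝ} {C : ∀ n, Finset (ι n)} {s₀ : ∀ n, ι n} {Rp R4 R5 : ℝ}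

theorem ClsSeq.ok (h : ClsSeq B B' I x v r t w T lam C s₀) (hRp : 0 ≤ Rp) (hR4 : 0 ≤ R4)
    (hR5 : 0 ≤ R5) : ∀ᶠ n in (U : Filter ℕ), (zdat B B' x v r t w C s₀ Rp R4 R5 n).Ok := by
  filter_upwards [h.cls] with n h1
  have hw := (h.w0 n).le
  have hwall := wall_QL B n (h.v0 n) (h.r0 n) (h.t0 n) hw
    (dir_const_mem_D6 hRp le_rfl le_rfl : dir (fun _ => Rp) 0 0 ∈ D6)
  rw [mul_zero, add_zero, add_zero] at hwall
  exact
    { mem := h1.2.1
      cls := h1.2.2
      hi := B.levc_mono n (by nlinarith [mul_nonneg hw hR4])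
      hj := B.levc_mono n (by nlinarith [mul_nonneg hw hR5])
      wall := hwall
      ρ0 := B'.pos n }

/-- the class lies in one class of the profile at the origin -/
theorem ClsSeq.sub_cls (h : ClsSeq B B' I x v r t w T lam C s₀) : ∀ᶠ n in (U : Filter ℕ),
    s₀ n ∈ I n ∧ C n ⊆ Ex926.cls (I n) (flab B x n (X6 (v n) (r n) (t n) + w n • (0 : Fin 6 → ℝ)))
      (s₀ n) := by
  filter_upwards [h.cls] with n h1
  obtain ⟨h2, h3, h4⟩ := h1
  refine ⟨h2 h3, fun s hs => mem_cls.2 ⟨h2 hs, ?_⟩⟩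
  rw [zero_eq_dir, flab_dir, mul_zero, add_zero, add_zero]
  exact lab_nested (fun k => QL_zero_le_nat4 B n _ _ _ _ k) (h4 s hs)

theorem ClsSeq.up_count (h : ClsSeq B B' I x v r t w T lam C s₀) (M : ℝ) {ε : ℝ} (hε : 0 < ε) :
    ∀ᶠ n in (U : Filter ℕ), ∀ c ∈ D6, ‖c‖ ≤ M →
      (((C n).image (flab B x n (X6 (v n) (r n) (t n) + w n • c))).card : ℝ) ≤
        B'.d n ^ (lam c - ε) := by
  filter_upwards [h.sub_cls, h.prof.num (max M 0) ε hε] with n h1 h2 c hc hcM
  have h3 := h2 0 zero_mem_D6 (by rw [norm_zero]; exact le_max_right _ _) c hc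
    (hcM.trans (le_max_left _ _)) hc.1 (s₀ n) h1.1
  rw [h.lam0] at h3
  refine le_trans ?_ (h3.trans (le_of_eq ?_))
  · exact_mod_cast card_le_card (image_subset_image h1.2)
  · congr 1; ring

theorem ClsSeq.low_count (h : ClsSeq B B' I x v r t w T lam C s₀) (M : ℝ) {ε : ℝ} (hε : 0 < ε) :
    ∀ᶠ n in (U : Filter ℕ), ∀ c ∈ D6, ‖c‖ ≤ M →
      B'.d n ^ (lam c + ε) ≤
        (((C n).image (flab B x n (X6 (v n) (r n) (t n) + w n • c))).card : ℝ) := by
  filter_upwards [h.cls, h.prof.up M (ε / 2) (by positivity), h.big (ε / 2) (by positivity)] with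
    n h1 h2 h3 c hc hcM
  have h4 := le_count_mul (C n) (fun _ => (1 : ℝ))
    (flab B x n (X6 (v n) (r n) (t n) + w n • c)) (m := T n * B'.d n ^ (-(lam c + ε / 2)))
    (fun s hs => by
      rw [sum_const, nsmul_eq_mul, mul_one]
      refine le_trans ?_ (h2 c hc hcM s (h1.1 hs))
      exact_mod_cast card_le_card (cls_mono h1.1 _ _))
  rw [sum_const, nsmul_eq_mul, mul_one] at h4
  have hT := h.Tpos n
  have hd := Real.rpow_pos_of_pos (B'.pos n) (lam c + ε / 2)
  have h5 : T n * B'.d n ^ (ε / 2) ≤ T n * (B'.d n ^ (-(lam c + ε / 2)) *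
      (((C n).image (flab B x n (X6 (v n) (r n) (t n) + w n • c))).card : ℝ)) := by
    rw [← mul_assoc]; exact h3.trans h4
  have h6 := le_of_mul_le_mul_left h5 hT
  have h7 := mul_le_mul_of_nonneg_left h6 hd.le
  have e1 : B'.d n ^ (lam c + ε / 2) * B'.d n ^ (ε / 2) = B'.d n ^ (lam c + ε) := by
    rw [← rp]; congr 1; ring
  have e2 : B'.d n ^ (lam c + ε / 2) * (B'.d n ^ (-(lam c + ε / 2)) *
      (((C n).image (flab B x n (X6 (v n) (r n) (t n) + w n • c))).card : ℝ)) =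
      (((C n).image (flab B x n (X6 (v n) (r n) (t n) + w n • c))).card : ℝ) := by
    rw [← mul_assoc, ← rp]; simp
  rw [e1, e2] at h7
  exact h7

theorem ClsSeq.child_count (h : ClsSeq B B' I x v r t w T lam C s₀) (M : ℝ) {ε : ℝ} (hε : 0 < ε) :
    ∀ᶠ n in (U : Filter ℕ), ∀ c ∈ D6, ‖c‖ ≤ M → ∀ c' ∈ D6, ‖c'‖ ≤ M → c ≤ c' → ∀ s ∈ C n,
      (((Ex926.cls (C n) (flab B x n (X6 (v n) (r n) (t n) + w n • c)) s).image
        (flab B x n (X6 (v n) (r n) (t n) + w n • c'))).card : ℝ) ≤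
        B'.d n ^ (-(lam c - lam c' + ε)) := by
  filter_upwards [h.cls, h.prof.num M ε hε] with n h1 h2 c hc hcM c' hc' hcM' hcc s hs
  refine le_trans ?_ (h2 c hc hcM c' hc' hcM' hcc s (h1.1 hs))
  exact_mod_cast card_le_card (image_subset_image (cls_mono h1.1 _ _))

/-! ### the three cardinalities -/

theorem ClsSeq.card_L_le (h : ClsSeq B B' I x v r t w T lam C s₀) (hRp : 0 ≤ Rp) {ε : ℝ}
    (hε : 0 < ε) : ∀ᶠ n in (U : Filter ℕ),
      ((zdat B B' x v r t w C s₀ Rp R4 R5 n).cfg.L.card : ℝ) ≤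
        B'.d n ^ (lam (dir (fun _ => Rp) 0 0) - ε) := by
  filter_upwards [h.up_count Rp hε] with n h1
  have h2 := h1 (dir (fun _ => Rp) 0 0) (dir_const_mem_D6 hRp le_rfl le_rfl)
    (norm_dir_le (fun _ => (abs_of_nonneg hRp).le) (by simpa) (by simpa))
  rw [flab_dir, mul_zero, add_zero, add_zero] at h2
  rw [ZD.card_L]
  exact h2

theorem ClsSeq.card_Z_le (h : ClsSeq B B' I x v r t w T lam C s₀) (hR4 : 0 ≤ R4) (hR5 : 0 ≤ R5)
    {ε : ℝ} (hε : 0 < ε) : ∀ᶠ n in (U : Filter ℕ),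
      ((zdat B B' x v r t w C s₀ Rp R4 R5 n).cfg.Z.card : ℝ) ≤
        B'.d n ^ (lam (dir 0 R4 R5) - ε) := by
  filter_upwards [h.up_count (max R4 R5) hε] with n h1
  have h2 := h1 (dir 0 R4 R5) (dir_const_mem_D6 le_rfl hR4 hR5)
    (norm_dir_le (fun _ => by simp [hR4]) (by rw [abs_of_nonneg hR4]; exact le_max_left _ _)
      (by rw [abs_of_nonneg hR5]; exact le_max_right _ _))
  rw [flab_dir] at h2
  refine le_trans ?_ h2
  exact_mod_cast ZD.card_Z_le

theorem ClsSeq.le_card_Z (h : ClsSeq B B' I x v r t w T lam C s₀) (hRp : 0 ≤ Rp) (hR4 : 0 ≤ R4)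
    (hR5 : 0 ≤ R5) {ε : ℝ} (hε : 0 < ε) : ∀ᶠ n in (U : Filter ℕ),
      B'.d n ^ (lam (dir 0 R4 R5) + ε) ≤
        675 * ((zdat B B' x v r t w C s₀ Rp R4 R5 n).cfg.Z.card : ℝ) := by
  filter_upwards [h.low_count (max R4 R5) hε, h.ok hRp hR4 hR5, h.cls] with n h1 h3 h4
  have h2 := h1 (dir 0 R4 R5) (dir_const_mem_D6 le_rfl hR4 hR5)
    (norm_dir_le (fun _ => by simp [hR4]) (by rw [abs_of_nonneg hR4]; exact le_max_left _ _)
      (by rw [abs_of_nonneg hR5]; exact le_max_right _ _))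
  rw [flab_dir] at h2
  refine h2.trans ?_
  have hwall := wall_QL B n (h.v0 n) (h.r0 n) (h.t0 n) (h.w0 n).le
    (dir_const_mem_D6 le_rfl le_rfl le_rfl : dir (fun _ => (0 : ℝ)) 0 0 ∈ D6)
  rw [mul_zero, add_zero, add_zero] at hwall
  have := ZD.le_card_Z h3 (q := QL B n (v n) (r n) (t n) (w n) 0) hwall (fun s hs =>
    lab_nested (fun k => QL_zero_le_nat4 B n _ _ _ _ k) (h4.2.2 s hs))
  exact_mod_cast this

theorem ClsSeq.le_card_I (h : ClsSeq B B' I x v r t w T lam C s₀) (hRp : 0 ≤ Rp) (hR4 : 0 ≤ R4)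
    (hR5 : 0 ≤ R5) {ε : ℝ} (hε : 0 < ε) : ∀ᶠ n in (U : Filter ℕ),
      B'.d n ^ (lam (dir (fun _ => Rp) R4 R5) + ε) ≤
        675 * ((zdat B B' x v r t w C s₀ Rp R4 R5 n).cfg.I.card : ℝ) := by
  filter_upwards [h.low_count (max Rp (max R4 R5)) hε, h.ok hRp hR4 hR5] with n h1 h3
  have h2 := h1 (dir (fun _ => Rp) R4 R5) (dir_const_mem_D6 hRp hR4 hR5)
    (norm_dir_le (fun _ => by rw [abs_of_nonneg hRp]; exact le_max_left _ _)
      (by rw [abs_of_nonneg hR4]; exact (le_max_left _ _).trans (le_max_right _ _))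
      (by rw [abs_of_nonneg hR5]; exact (le_max_right _ _).trans (le_max_right _ _)))
  rw [flab_dir] at h2
  refine h2.trans ?_
  exact_mod_cast ZD.le_card_I h3

/-! ### the Frostman bound -/

theorem ClsSeq.hbox_le (h : ClsSeq B B' I x v r t w T lam C s₀) (hRp : 0 ≤ Rp) (hR4 : 0 ≤ R4)
    (hR5 : 0 ≤ R5) {y δ : ℝ} (hy0 : 0 ≤ y) (hyR : y ≤ R4) (hδ : 0 < δ) {ε : ℝ} (hε : 0 < ε) :
    ∀ᶠ n in (U : Filter ℕ), ∀ k ∈ (zdat B B' x v r t w C s₀ Rp R4 R5 n).cfg.Z,
      (((zdat B B' x v r t w C s₀ Rp R4 R5 n).cfg.hbox y k).card : ℝ) ≤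
        2025 * B'.d n ^ (-(lam (dir 0 (max (y - δ) 0) 0) - lam (dir 0 R4 R5) + ε)) := by
  set y' : ℝ := max (y - δ) 0 with hy'
  have hy'0 : 0 ≤ y' := le_max_right _ _
  have hy'R : y' ≤ R4 := max_le (by linarith) hR4
  filter_upwards [h.child_count (max R4 R5) hε, h.ok hRp hR4 hR5, h.cls,
    B'.ev_rpow_small hδ (c := 1 / 2) (by norm_num)] with n h1 h3 h4 h5 k hk
  set D := zdat B B' x v r t w C s₀ Rp R4 R5 n with hD
  have hw := h.w0 n
  have hM0 : |R4| ≤ max R4 R5 := by rw [abs_of_nonneg hR4]; exact le_max_left _ _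
  have hM1 : |R5| ≤ max R4 R5 := by rw [abs_of_nonneg hR5]; exact le_max_right _ _
  have hmx : 0 ≤ max R4 R5 := hR4.trans (le_max_left _ _)
  have hch := h1 (dir 0 y' 0) (dir_const_mem_D6 le_rfl hy'0 le_rfl)
    (norm_dir_le (fun _ => by simp [hR4]) (by
      rw [abs_of_nonneg hy'0]; exact hy'R.trans (le_max_left _ _)) (by rw [abs_zero]; exact hmx))
    (dir 0 R4 R5) (dir_const_mem_D6 le_rfl hR4 hR5) (norm_dir_le (fun _ => by simp [hR4]) hM0 hM1)
    (dir_mono (fun _ => le_rfl) hy'R hR5)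
  rw [flab_dir, flab_dir, mul_zero, add_zero] at hch
  set b : ℝ := B'.d n ^ (-(lam (dir 0 y' 0) - lam (dir 0 R4 R5) + ε)) with hb
  have hbpos : 0 < b := Real.rpow_pos_of_pos (B'.pos n) _
  have hwall := wall_QL B n (h.v0 n) (h.r0 n) (h.t0 n) hw.le
    (dir_const_mem_D6 le_rfl le_rfl le_rfl : dir (fun _ => (0 : ℝ)) 0 0 ∈ D6)
  rw [mul_zero, add_zero, add_zero] at hwall
  have hlev : B.levc n (v n) ≤ B.levc n (v n + w n * y') :=
    B.levc_mono n (by nlinarith [mul_nonneg hw.le hy'0])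
  have hMr : ∀ s ∈ C n, (((Ex926.cls (C n) (fun s => (x n s).cell (B.levc n (v n + w n * y'))
      (B.levc n (r n))) s).image fun s => (x n s).cell (B.levc n (v n + w n * R4))
      (B.levc n (r n + w n * R5))).card : ℝ) ≤ 675 * b := by
    intro s hs
    set A := Ex926.cls (C n) (fun s => (x n s).cell (B.levc n (v n + w n * y'))
      (B.levc n (r n))) s with hA
    have a1 : (A.image fun s => (x n s).cell (B.levc n (v n + w n * R4))
        (B.levc n (r n + w n * R5))).card ≤ (A.image fun i => (x n i).lab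
        (B.levc n (v n + w n * R4)) (B.levc n (r n + w n * R5))
        (QL B n (v n) (r n) (t n) (w n) 0)).card := by
      have : (A.image fun s => (x n s).cell (B.levc n (v n + w n * R4))
        (B.levc n (r n + w n * R5))) = (A.image fun i => (x n i).lab
        (B.levc n (v n + w n * R4)) (B.levc n (r n + w n * R5))
        (QL B n (v n) (r n) (t n) (w n) 0)).image Prod.fst := by
        rw [image_image]; rfl
      rw [this]; exact card_image_le
    have a2 : (A.image fun i => (x n i).lab (B.levc n (v n + w n * y')) (B.levc n (r n))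
        (QL B n (v n) (r n) (t n) (w n) 0)).card ≤ 675 := by
      rw [← prod_K4]
      refine card_lab_le _ (x n) (x n s) (fun s' hs' => (mem_cls.1 hs').2) (fun s' hs' j => ?_)
      obtain ⟨c1, c2⟩ := mem_cls.1 hs'
      refine co_fine_close hlev le_rfl hwall c2 ?_ j
      exact (lab_nested (fun k => QL_zero_le_nat4 B n _ _ _ _ k) (h4.2.2 s' c1)).trans
        (lab_nested (fun k => QL_zero_le_nat4 B n _ _ _ _ k) (h4.2.2 s hs)).symm
    have a3 : ((A.image fun i => (x n i).lab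
        (B.levc n (v n + w n * R4)) (B.levc n (r n + w n * R5))
        (QL B n (v n) (r n) (t n) (w n) 0)).card : ℝ) ≤ b *
        (A.image fun i => (x n i).lab (B.levc n (v n + w n * y')) (B.levc n (r n))
        (QL B n (v n) (r n) (t n) (w n) 0)).card := by
      refine Ex926.card_image_le_mul A _ _ fun s' hs' => ?_
      have c1 := (mem_cls.1 hs').1
      refine le_trans ?_ (hch s' c1)
      exact_mod_cast card_le_card (image_subset_image (cls_mono (cls_subset _ _ _) _ _))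
    have a1' : ((A.image fun s => (x n s).cell (B.levc n (v n + w n * R4))
        (B.levc n (r n + w n * R5))).card : ℝ) ≤ (A.image fun i => (x n i).lab
        (B.levc n (v n + w n * R4)) (B.levc n (r n + w n * R5))
        (QL B n (v n) (r n) (t n) (w n) 0)).card := by exact_mod_cast a1
    have a2' : ((A.image fun i => (x n i).lab (B.levc n (v n + w n * y')) (B.levc n (r n))
        (QL B n (v n) (r n) (t n) (w n) 0)).card : ℝ) ≤ 675 := by exact_mod_cast a2
    calc _ ≤ _ := a1'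
      _ ≤ _ := a3
      _ ≤ b * 675 := mul_le_mul_of_nonneg_left a2' hbpos.le
      _ = 675 * b := by ring
  have hM : ∀ s ∈ D.I, ((Ex926.cls D.I (fun s => (D.x s).cell (B.levc n (v n + w n * y')) D.j₀) s).image
      fun s => (D.x s).cell D.i₁ D.j₁).card ≤ ⌊675 * b⌋₊ := fun s hs => Nat.le_floor (hMr s hs)
  have hyy : ((1 : ℝ) / 2) ^ D.i₀ * D.ρ ^ y ≤ (1 / 2) ^ (B.levc n (v n + w n * y')) := by
    have hρ : D.ρ = B'.d n := rfl
    have hi0 : D.i₀ = B.levc n (v n) := rfl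
    rw [hρ, hi0]
    rcases le_total y δ with hyd | hyd
    · have : y' = 0 := by rw [hy']; exact max_eq_right (by linarith)
      rw [this, mul_zero, add_zero]
      have e1 : B'.d n ^ y ≤ 1 := Real.rpow_le_one (B'.pos n).le (B'.lt n).le hy0
      exact mul_le_of_le_one_right (by positivity) e1
    · have e0 : y' = y - δ := by rw [hy']; exact max_eq_left (by linarith)
      have e1 := half_pow_levc_le B n (v n)
      have e2 := le_half_pow_levc B n (t := v n + w n * y')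
        (by have := h.v0 n; nlinarith [mul_nonneg hw.le hy'0])
      refine le_trans ?_ e2
      have e3 : B.d n ^ (v n + w n * y') = B.d n ^ (v n) * B'.d n ^ y' := by
        rw [rp, h.dd n, ← Real.rpow_mul (B.pos n).le]
      have e4 : B'.d n ^ y = B'.d n ^ y' * B'.d n ^ δ := by
        rw [← rp]; congr 1; linarith
      rw [e3, e4]
      have p1 := Real.rpow_pos_of_pos (B.pos n) (v n)
      have p2 := Real.rpow_pos_of_pos (B'.pos n) y'
      have p3 := Real.rpow_pos_of_pos (B'.pos n) δ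
      calc _ ≤ B.d n ^ (v n) * (B'.d n ^ y' * (1 / 2)) := by gcongr
        _ = _ := by ring
  have := ZD.hbox_le h3 (y := y) (i := B.levc n (v n + w n * y'))
    (B.levc_mono n (by nlinarith [mul_le_mul_of_nonneg_left hy'R hw.le])) hyy hM hk
  have h6 : ((D.cfg.hbox y k).card : ℝ) ≤ (⌊675 * b⌋₊ : ℝ) * 3 := by exact_mod_cast this
  have h7 : (⌊675 * b⌋₊ : ℝ) ≤ 675 * b := Nat.floor_le (by positivity)
  linarith

/-- a trivial configuration -/
def dummyCfg (ρ : ℝ) : Cfg where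
  ρ := ρ
  L := {0}
  Z := {0}
  I := {(0, 0)}
  a _ := 0
  b _ := 0
  c _ := 0
  d _ := 0
  z _ := 0
  f _ := 0

theorem dummyCfg.bd (ρ : ℝ) : (dummyCfg ρ).Bd := by
  constructor <;> intro i hi <;> simp [dummyCfg]

open Classical in
/-- the sequence of configurations of the classes -/
noncomputable def clsCfg (B B' : Base) (x : ∀ n, ι n → Inc) (v r t w : ℕ → ℝ)
    (C : ∀ n, Finset (ι n)) (s₀ : ∀ n, ι n) (Rp R4 R5 : ℝ) (n : ℕ) : Cfg :=
  if (zdat B B' x v r t w C s₀ Rp R4 R5 n).Ok then (zdat B B' x v r t w C s₀ Rp R4 R5 n).cfg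
  else dummyCfg (B'.d n)

theorem ClsSeq.cfg_eq (h : ClsSeq B B' I x v r t w T lam C s₀) (hRp : 0 ≤ Rp) (hR4 : 0 ≤ R4)
    (hR5 : 0 ≤ R5) : ∀ᶠ n in (U : Filter ℕ), clsCfg B B' x v r t w C s₀ Rp R4 R5 n =
      (zdat B B' x v r t w C s₀ Rp R4 R5 n).cfg := by
  filter_upwards [h.ok hRp hR4 hR5] with n hn
  unfold clsCfg; rw [if_pos hn]

/-- **Raw F-model of a sequence of classes.** Hypotheses on the tangent function `lam`: separation
of (fat lines) and (heights), Frostman bound for the heights. -/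
theorem rawM_of_class (h : ClsSeq B B' I x v r t w T lam C s₀) {R σ : ℝ} (hR : 0 < R)
    (hRp : 0 ≤ Rp) (hR4 : R ≤ R4) (hR5 : 0 ≤ R5) (hσ0 : 0 ≤ σ) (hσ1 : σ ≤ 1)
    (hdens : lam (dir (fun _ => Rp) R4 R5) ≤ lam (dir (fun _ => Rp) 0 0) + lam (dir 0 R4 R5))
    (hfrost : ∀ y, 0 ≤ y → y ≤ R → lam (dir 0 y 0) ≤ -(σ * y)) :
    RawM B' (clsCfg B B' x v r t w C s₀ Rp R4 R5) σ R := by
  have hR4' : 0 ≤ R4 := hR.le.trans hR4
  have heq := h.cfg_eq hRp hR4' hR5
  refine
    { base := fun n => ?_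
      sub := fun n => ?_
      nonempty := fun n => ?_
      bd := fun n => ?_
      R_pos := hR
      σ_nonneg := hσ0
      σ_le := hσ1
      pb := ?_
      dense := fun ε hε => ?_
      frost := fun y hy0 hyR ε hε => ?_ }
  · unfold clsCfg; split_ifs <;> rfl
  · unfold clsCfg
    split_ifs with hok
    · exact ZD.sub
    · simp [dummyCfg]
  · unfold clsCfg
    split_ifs with hok
    · exact hok.nonempty
    · simp [dummyCfg]
  · unfold clsCfg
    split_ifs with hok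
    · exact hok.bd
    · exact dummyCfg.bd _
  · refine ⟨max (-(lam (dir (fun _ => Rp) 0 0) + lam (dir 0 R4 R5) - 2)) 0, le_max_right _ _, ?_⟩
    filter_upwards [heq, h.card_L_le (R4 := R4) (R5 := R5) hRp one_pos,
      h.card_Z_le (Rp := Rp) hR4' hR5 one_pos] with n h1 h2 h3
    rw [h1]
    have e1 : B'.d n ^ (lam (dir (fun _ => Rp) 0 0) - 1) * B'.d n ^ (lam (dir 0 R4 R5) - 1) =
        B'.d n ^ (lam (dir (fun _ => Rp) 0 0) + lam (dir 0 R4 R5) - 2) := by
      rw [← rp]; congr 1; ring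
    calc _ ≤ B'.d n ^ (lam (dir (fun _ => Rp) 0 0) - 1) * B'.d n ^ (lam (dir 0 R4 R5) - 1) :=
          mul_le_mul h2 h3 (Nat.cast_nonneg _) (Real.rpow_pos_of_pos (B'.pos n) _).le
      _ = B'.d n ^ (lam (dir (fun _ => Rp) 0 0) + lam (dir 0 R4 R5) - 2) := e1
      _ ≤ _ := by
        refine Real.rpow_le_rpow_of_exponent_ge (B'.pos n) (B'.lt n).le ?_
        have := le_max_left (-(lam (dir (fun _ => Rp) 0 0) + lam (dir 0 R4 R5) - 2)) 0
        linarith
  · have hε4 : 0 < ε / 4 := by positivity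
    filter_upwards [heq, h.card_L_le (R4 := R4) (R5 := R5) hRp hε4,
      h.card_Z_le (Rp := Rp) hR4' hR5 hε4, h.le_card_I hRp hR4' hR5 hε4,
      B'.ev_rpow_small hε4 (c := 1 / 675) (by norm_num)] with n h1 h2 h3 h4 h5
    rw [h1]
    have hp : ∀ s : ℝ, 0 < B'.d n ^ s := fun s => Real.rpow_pos_of_pos (B'.pos n) s
    have e1 : B'.d n ^ ε * (B'.d n ^ (lam (dir (fun _ => Rp) 0 0) - ε / 4) *
        B'.d n ^ (lam (dir 0 R4 R5) - ε / 4)) =
        B'.d n ^ (lam (dir (fun _ => Rp) 0 0) + lam (dir 0 R4 R5) + ε / 4) * B'.d n ^ (ε / 4) := by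
      rw [← rp, ← rp, ← rp]; congr 1; ring
    have e2 : B'.d n ^ (lam (dir (fun _ => Rp) 0 0) + lam (dir 0 R4 R5) + ε / 4) ≤
        B'.d n ^ (lam (dir (fun _ => Rp) R4 R5) + ε / 4) :=
      Real.rpow_le_rpow_of_exponent_ge (B'.pos n) (B'.lt n).le (by linarith)
    calc _ ≤ B'.d n ^ ε * (B'.d n ^ (lam (dir (fun _ => Rp) 0 0) - ε / 4) *
          B'.d n ^ (lam (dir 0 R4 R5) - ε / 4)) := by
          refine mul_le_mul_of_nonneg_left ?_ (hp _).le
          exact mul_le_mul h2 h3 (Nat.cast_nonneg _) (hp _).le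
      _ = _ := e1
      _ ≤ (675 * ((zdat B B' x v r t w C s₀ Rp R4 R5 n).cfg.I.card : ℝ)) * (1 / 675) := by
          refine mul_le_mul (e2.trans h4) h5 (hp _).le (by positivity)
      _ = _ := by ring
  · set δ : ℝ := ε / (4 * (σ + 1)) with hδdef
    have hδ : 0 < δ := by positivity
    have hσδ : σ * δ ≤ ε / 4 := by
      have : δ * (4 * (σ + 1)) = ε := by rw [hδdef]; field_simp
      nlinarith
    have hε4 : 0 < ε / 8 := by positivity
    filter_upwards [heq, h.hbox_le (R5 := R5) hRp hR4' hR5 hy0 (hyR.trans hR4) hδ hε4,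
      h.le_card_Z hRp hR4' hR5 hε4, B'.ev_rpow_small hε4 (c := 1 / (2025 * 675)) (by norm_num)] with
      n h1 h2 h3 h4 k hk
    rw [h1] at hk ⊢
    refine (h2 k hk).trans ?_
    set y' := max (y - δ) 0 with hy'
    have hy'0 : 0 ≤ y' := le_max_right _ _
    have hy'R : y' ≤ R := max_le (by linarith) hR.le
    have hfr := hfrost y' hy'0 hy'R
    have hyy : y - δ ≤ y' := le_max_left _ _
    have hp : ∀ s : ℝ, 0 < B'.d n ^ s := fun s => Real.rpow_pos_of_pos (B'.pos n) s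
    set Zc : ℝ := ((zdat B B' x v r t w C s₀ Rp R4 R5 n).cfg.Z.card : ℝ) with hZc
    have e1 : B'.d n ^ (-(lam (dir 0 y' 0) - lam (dir 0 R4 R5) + ε / 8)) =
        B'.d n ^ (-(lam (dir 0 y' 0)) - 3 * (ε / 8)) * B'.d n ^ (ε / 8) *
          B'.d n ^ (lam (dir 0 R4 R5) + ε / 8) := by
      rw [← rp, ← rp]; congr 1; ring
    have e2 : B'.d n ^ (-(lam (dir 0 y' 0)) - 3 * (ε / 8)) ≤ B'.d n ^ (σ * y - ε) := by
      refine Real.rpow_le_rpow_of_exponent_ge (B'.pos n) (B'.lt n).le ?_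
      have := mul_le_mul_of_nonneg_left hyy hσ0
      nlinarith
    calc 2025 * B'.d n ^ (-(lam (dir 0 y' 0) - lam (dir 0 R4 R5) + ε / 8))
        = 2025 * (B'.d n ^ (-(lam (dir 0 y' 0)) - 3 * (ε / 8)) * B'.d n ^ (ε / 8) *
          B'.d n ^ (lam (dir 0 R4 R5) + ε / 8)) := by rw [e1]
      _ ≤ 2025 * (B'.d n ^ (σ * y - ε) * (1 / (2025 * 675)) * (675 * Zc)) := by
          refine mul_le_mul_of_nonneg_left ?_ (by norm_num)
          refine mul_le_mul (mul_le_mul e2 h4 (hp _).le (hp _).le) h3 (hp _).le ?_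
          exact mul_nonneg (hp _).le (by norm_num)
      _ = B'.d n ^ (σ * y - ε) * Zc := by ring

end

end Crest.Agent.R138.Ex926
end

-- ▼ part R138/Qf6_926
section

/-!
# R138: exponents of the F-models inside one class (helper926)

`fmodel_ident` : for every F-model `G'` inside the configurations of a sequence of classes which
keeps a sub-polynomial part of the incidences, `ν' p = lam (p; R4, R5) - lam (Rp; R4, R5)`.
-/

set_option autoImplicit false
set_option linter.unusedSectionVars false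
set_option linter.unusedVariables false

open Filter Topology MeasureTheory
open scoped NNReal

namespace Crest.Agent.R138.Ex926

open Finset Flg101 FM501

theorem SubCfg.co {G' G : Cfg} (h : SubCfg G' G) (k i : ℕ) : G'.co k i = G.co k i := by
  simp only [Cfg.co, Cfg.N, Cfg.P, Cfg.X, h.a, h.b, h.c, h.d, h.z, h.f]

theorem SubCfg.near {G' G : Cfg} (h : SubCfg G' G) (p : Fin 4 → ℝ) (k i i' : ℕ) :
    G'.near p k i i' ↔ G.near p k i i' := by
  simp only [Cfg.near, h.co, h.ρ]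

theorem SubCfg.box_sub {G' G : Cfg} (h : SubCfg G' G) (p : Fin 4 → ℝ) (i k : ℕ) :
    G'.box p i k ⊆ G.box p i k := by
  intro y hy
  simp only [Cfg.box, Cfg.slice, mem_filter] at hy ⊢
  exact ⟨⟨h.L hy.1.1, h.I hy.1.2⟩, (h.near p k i y).1 hy.2⟩

/-- two incidences in the same class of level `(i₁, j₁; q)` have near fat lines -/
theorem ZD_near {α : Type*} [DecidableEq α] {D : ZD α} (h : D.Ok) {p : Fin 4 → ℝ} {q : Fin 4 → ℕ}
    (hq : ∀ j, q j ≤ D.pr j)
    (hp : ∀ j, 9 * (1 / 2) ^ q j ≤ 8 * (1 / 2) ^ (nat4 D.i₀ D.j₀ D.t j) * D.ρ ^ p j)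
    {s s' : α} (hs : s ∈ D.I) (hs' : s' ∈ D.I)
    (hlab : (D.x s').lab D.i₁ D.j₁ q = (D.x s).lab D.i₁ D.j₁ q) :
    D.zcode (D.x s') = D.zcode (D.x s) ∧
      D.cfg.near p (D.zcode (D.x s)) (D.lcode (D.x s)) (D.lcode (D.x s')) := by
  have h3 := lab_eq_iff.1 hlab
  have hz : D.zcode (D.x s') = D.zcode (D.x s) := by unfold ZD.zcode; rw [h3.1]
  refine ⟨hz, ?_⟩
  rw [ZD.near_iff]
  intro j
  have h4 := ZD.rep_close h hs j
  have h5 := ZD.rep_close h hs' j
  rw [hz] at h5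
  have h6 := dist_of_floor (h3.2 j)
  have h7 : ((1:ℝ) / 2) ^ D.pr j ≤ (1 / 2) ^ q j :=
    pow_le_pow_of_le_one (by norm_num) (by norm_num) (hq j)
  have h8 : (K4 j : ℝ) ≤ 4 := by fin_cases j <;> simp [K4] <;> norm_num
  have h9 : (K4 j : ℝ) * (1 / 2) ^ D.pr j ≤ 4 * (1 / 2) ^ q j := by gcongr
  have h10 := hp j
  refine le_trans ?_ h10
  rw [abs_le] at *
  constructor <;> linarith [h4.1, h4.2, h5.1, h5.2, h6.1, h6.2]

variable {ι : ℕ → Type*} [∀ n, DecidableEq (ι n)]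
variable {B B' : Base} {I : ∀ n, Finset (ι n)} {x : ∀ n, ι n → Inc} {v r t w T : ℕ → ℝ}
  {lam : (Fin 6 → ℝ) → ℝ} {C : ∀ n, Finset (ι n)} {s₀ : ∀ n, ι n} {Rp R4 R5 : ℝ}

/-- comparison of sides, upper form -/
theorem ClsSeq.side_up (h : ClsSeq B B' I x v r t w T lam C s₀) {δ : ℝ} (hδ : 0 < δ) :
    ∀ᶠ n in (U : Filter ℕ), ∀ p : Fin 4 → ℝ, (∀ j, 0 ≤ p j) → ∀ j,
      ((1 : ℝ) / 2) ^ (nat4 (B.levc n (v n)) (B.levc n (r n)) (B.levc n (t n)) j) *
        B'.d n ^ p j ≤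
      (1 / 2) ^ (QL B n (v n) (r n) (t n) (w n) (fun j => max (p j - δ) 0) j) := by
  filter_upwards [B'.ev_rpow_small hδ (c := 1 / 2) (by norm_num)] with n h5 p hp j
  have hw := h.w0 n
  set p' : Fin 4 → ℝ := fun j => max (p j - δ) 0 with hp'
  rcases le_total (p j) δ with hyd | hyd
  · have e0 : p' j = 0 := by simp only [hp']; exact max_eq_right (by linarith)
    have e1 : B'.d n ^ p j ≤ 1 := Real.rpow_le_one (B'.pos n).le (B'.lt n).le (hp j)
    refine (mul_le_of_le_one_right (by positivity) e1).trans ?_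
    refine pow_le_pow_of_le_one (by norm_num) (by norm_num) ?_
    refine le_trans (le_of_eq ?_) (QL_zero_le_nat4 B n (v n) (r n) (t n) (w n) j)
    revert e0
    fin_cases j
    · intro e0; exact congrArg (fun s => B.lev n (t n + v n + r n + w n * s)) e0
    · intro e0; exact congrArg (fun s => B.levc n (t n + r n + w n * s)) e0
    · intro e0; exact congrArg (fun s => B.levc n (t n + w n * s)) e0
    · intro e0; exact congrArg (fun s => B.lev n (t n + v n + w n * s)) e0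
  · have e0 : p' j = p j - δ := by simp only [hp']; exact max_eq_left (by linarith)
    have e1 := half_nat4_le B n (v n) (r n) (t n) j
    have e2 := le_half_QL B n (p := p') (h.v0 n) (h.r0 n) (h.t0 n) hw.le
      (fun j => le_max_right _ _) j
    refine le_trans ?_ e2
    have e3 : B.d n ^ (X4 (v n) (r n) (t n) j + w n * p' j) =
        B.d n ^ (X4 (v n) (r n) (t n) j) * B'.d n ^ p' j := by
      rw [rp, h.dd n, ← Real.rpow_mul (B.pos n).le]
    have e4 : B'.d n ^ p j = B'.d n ^ p' j * B'.d n ^ δ := by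
      rw [← rp, e0]; congr 1; ring
    rw [e3, e4]
    have p1 := Real.rpow_pos_of_pos (B.pos n) (X4 (v n) (r n) (t n) j)
    have p2 := Real.rpow_pos_of_pos (B'.pos n) (p' j)
    have p3 := Real.rpow_pos_of_pos (B'.pos n) δ
    calc _ ≤ B.d n ^ (X4 (v n) (r n) (t n) j) * (B'.d n ^ p' j * (1 / 2)) := by gcongr
      _ = _ := by ring

/-- comparison of sides, lower form -/
theorem ClsSeq.side_low (h : ClsSeq B B' I x v r t w T lam C s₀) {δ : ℝ} (hδ : 0 < δ) :
    ∀ᶠ n in (U : Filter ℕ), ∀ p : Fin 4 → ℝ, (∀ j, 0 ≤ p j) → ∀ j,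
      9 * ((1 : ℝ) / 2) ^ (QL B n (v n) (r n) (t n) (w n) (fun j => p j + δ) j) ≤
      8 * (1 / 2) ^ (nat4 (B.levc n (v n)) (B.levc n (r n)) (B.levc n (t n)) j) *
        B'.d n ^ p j := by
  filter_upwards [B'.ev_rpow_small hδ (c := 1 / 18) (by norm_num)] with n h5 p hp j
  have e1 := le_half_nat4 B n (h.v0 n) (h.r0 n) (h.t0 n) j
  have e2 := half_QL_le B n (v n) (r n) (t n) (w n) (fun j => p j + δ) j
  have e3 : B.d n ^ (X4 (v n) (r n) (t n) j + w n * (p j + δ)) =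
      B.d n ^ (X4 (v n) (r n) (t n) j) * (B'.d n ^ p j * B'.d n ^ δ) := by
    rw [← rp B' n, rp, h.dd n, ← Real.rpow_mul (B.pos n).le]
  rw [e3] at e2
  have p1 := Real.rpow_pos_of_pos (B.pos n) (X4 (v n) (r n) (t n) j)
  have p2 := Real.rpow_pos_of_pos (B'.pos n) (p j)
  have p3 := Real.rpow_pos_of_pos (B'.pos n) δ
  calc 9 * ((1 : ℝ) / 2) ^ (QL B n (v n) (r n) (t n) (w n) (fun j => p j + δ) j)
      ≤ 9 * (2 * (B.d n ^ (X4 (v n) (r n) (t n) j) * (B'.d n ^ p j * B'.d n ^ δ))) := by gcongr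
    _ ≤ 9 * (2 * (B.d n ^ (X4 (v n) (r n) (t n) j) * (B'.d n ^ p j * (1 / 18)))) := by gcongr
    _ = 8 * (B.d n ^ (X4 (v n) (r n) (t n) j) / 8) * B'.d n ^ p j := by ring
    _ ≤ _ := by gcongr

/-- **identification of the exponents** -/
theorem fmodel_ident (h : ClsSeq B B' I x v r t w T lam C s₀) {R σ K : ℝ} (hR : 0 < R)
    (hRp : R < Rp) (hR4 : Rp ≤ R4) (hR5 : Rp ≤ R5) (hK : 0 ≤ K)
    (hlip : ∀ c ∈ D6, ∀ c' ∈ D6, |lam c - lam c'| ≤ K * ‖c - c'‖)
    {G' : ℕ → Cfg} {ν' : (Fin 4 → ℝ) → ℝ} {S : ℕ → ℝ} (hF : FModel B' G' σ R ν')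
    (hsub : ∀ n, SubCfg (G' n) (clsCfg B B' x v r t w C s₀ Rp R4 R5 n)) (hS : B'.Sub S)
    (hcard : ∀ᶠ n in (U : Filter ℕ),
      ((clsCfg B B' x v r t w C s₀ Rp R4 R5 n).I.card : ℝ) ≤ S n * (G' n).I.card)
    {p : Fin 4 → ℝ} (hp : ∀ j, 0 ≤ p j ∧ p j ≤ R) :
    ν' p = lam (dir p R4 R5) - lam (dir (fun _ => Rp) R4 R5) := by
  have hRp0 : 0 ≤ Rp := hR.le.trans hRp.le
  have hR40 : 0 ≤ R4 := hRp0.trans hR4
  have hR50 : 0 ≤ R5 := hRp0.trans hR5
  have heq := h.cfg_eq hRp0 hR40 hR50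
  have hok := h.ok hRp0 hR40 hR50
  set Mx : ℝ := max R4 R5 with hMx
  have hMp : ∀ q : Fin 4 → ℝ, (∀ j, 0 ≤ q j ∧ q j ≤ Rp) → ‖dir q R4 R5‖ ≤ Mx := fun q hq =>
    norm_dir_le (fun j => by
      rw [abs_of_nonneg (hq j).1]; exact (hq j).2.trans (hR4.trans (le_max_left _ _)))
      (by rw [abs_of_nonneg hR40]; exact le_max_left _ _)
      (by rw [abs_of_nonneg hR50]; exact le_max_right _ _)
  have hcI : dir (fun _ => Rp) R4 R5 ∈ D6 := dir_const_mem_D6 hRp0 hR40 hR50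
  have hdn : ∀ {q : Fin 4 → ℝ} {η : ℝ}, (∀ j, |q j - p j| ≤ η) → 0 ≤ η →
      ‖dir q R4 R5 - dir p R4 R5‖ ≤ η := by
    intro q η hq hη
    refine (pi_norm_le_iff_of_nonneg hη).2 fun i => ?_
    rw [Real.norm_eq_abs]
    fin_cases i
    · exact hq 0
    · exact hq 1
    · exact hq 2
    · exact hq 3
    · show |R4 - R4| ≤ η; simpa using hη
    · show |R5 - R5| ≤ η; simpa using hη
  have hlt : ∀ {a b : ℝ}, (∃ᶠ n in (U : Filter ℕ), B'.d n ^ a ≤ B'.d n ^ b) → b ≤ a := by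
    intro a b hab
    obtain ⟨n, hn⟩ := hab.exists
    by_contra hcon
    push Not at hcon
    exact absurd hn (not_le.2 (Real.rpow_lt_rpow_of_exponent_gt (B'.pos n) (B'.lt n) hcon))
  refine le_antisymm ?_ ?_
  · -- upper bound for `ν'`
    refine le_of_forall_pos_le_add fun ε hε => ?_
    set δ : ℝ := ε / (4 * (K + 1)) with hδdef
    have hδ : 0 < δ := by positivity
    have hKδ : K * δ ≤ ε / 4 := by
      have : δ * (4 * (K + 1)) = ε := by rw [hδdef]; field_simp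
      nlinarith
    have hε4 : 0 < ε / 4 := by positivity
    set p' : Fin 4 → ℝ := fun j => max (p j - δ) 0 with hp'
    have hp'0 : ∀ j, 0 ≤ p' j ∧ p' j ≤ Rp := fun j =>
      ⟨le_max_right _ _, max_le (by linarith [(hp j).2]) hRp0⟩
    have hp'D : dir p' R4 R5 ∈ D6 := dir_mem_D6 hp'0 hR4 hR5
    have hpD : dir p R4 R5 ∈ D6 :=
      dir_mem_D6 (fun j => ⟨(hp j).1, (hp j).2.trans hRp.le⟩) hR4 hR5
    have hl := hlip _ hp'D _ hpD
    have hn : ‖dir p' R4 R5 - dir p R4 R5‖ ≤ δ := hdn (fun j => by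
      simp only [hp']
      rcases le_total (p j - δ) 0 with h1 | h1
      · rw [max_eq_right h1, zero_sub, abs_neg, abs_of_nonneg (hp j).1]; linarith
      · rw [max_eq_left h1]; rw [abs_le]; constructor <;> linarith) hδ.le
    have hl2 := (abs_le.1 hl).2
    have hl3 := mul_le_mul_of_nonneg_left hn hK
    have hfreq : ∀ᶠ n in (U : Filter ℕ), B'.d n ^ (-ν' p + ε / 4) ≤
        B'.d n ^ (-(lam (dir p' R4 R5) - lam (dir (fun _ => Rp) R4 R5) + ε / 4) - ε / 4) := by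
      filter_upwards [heq, hok, h.child_count Mx hε4, h.side_up hδ, hF.unif p hp (ε / 4) hε4,
        B'.ev_rpow_small hε4 (c := 1 / (675 * 433125)) (by norm_num)] with n h1 h2 h3 h4 h5 h6
      obtain ⟨⟨l, k⟩, hlk⟩ := hF.nonempty n
      have a1 := (h5 l k hlk).1
      have hlk' : (l, k) ∈ (zdat B B' x v r t w C s₀ Rp R4 R5 n).cfg.I := by
        rw [← h1]; exact (hsub n).I hlk
      set b : ℝ := B'.d n ^ (-(lam (dir p' R4 R5) - lam (dir (fun _ => Rp) R4 R5) + ε / 4)) with hb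
      have hbpos : 0 < b := Real.rpow_pos_of_pos (B'.pos n) _
      have a2 := ZD.box_le h2 (p := p) (q := QL B n (v n) (r n) (t n) (w n) p')
        (fun j => QL_mono B n (h.w0 n).le (fun j => (hp'0 j).2) j)
        (fun j => h4 p (fun j => (hp j).1) j) (M := ⌊b⌋₊) (fun s hs => by
          refine Nat.le_floor ?_
          have := h3 (dir p' R4 R5) hp'D (hMp p' hp'0) (dir (fun _ => Rp) R4 R5) hcI
            (hMp _ fun _ => ⟨hRp0, le_rfl⟩) (dir_mono (fun j => (hp'0 j).2) le_rfl le_rfl) s hs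
          rw [flab_dir, flab_dir] at this
          exact this) hlk'
      have a3 : (((G' n).box p l k).card : ℝ) ≤ 675 * (b * 433125) := by
        have e1 : (((G' n).box p l k).card : ℝ) ≤
            ((zdat B B' x v r t w C s₀ Rp R4 R5 n).cfg.box p l k).card := by
          rw [← h1]; exact_mod_cast card_le_card ((hsub n).box_sub p l k)
        have e2 : (((zdat B B' x v r t w C s₀ Rp R4 R5 n).cfg.box p l k).card : ℝ) ≤
            675 * ((⌊b⌋₊ : ℝ) * 433125) := by exact_mod_cast a2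
        have e3 : (⌊b⌋₊ : ℝ) ≤ b := Nat.floor_le hbpos.le
        linarith
      refine a1.trans (a3.trans ?_)
      have p4 := Real.rpow_pos_of_pos (B'.pos n) (ε / 4)
      have e4 : B'.d n ^ (-(lam (dir p' R4 R5) - lam (dir (fun _ => Rp) R4 R5) + ε / 4) - ε / 4) *
          B'.d n ^ (ε / 4) = b := by rw [hb, ← rp]; congr 1; ring
      have p5 := Real.rpow_pos_of_pos (B'.pos n)
        (-(lam (dir p' R4 R5) - lam (dir (fun _ => Rp) R4 R5) + ε / 4) - ε / 4)
      calc 675 * (b * 433125) = b * (675 * 433125) := by ring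
        _ = B'.d n ^ (-(lam (dir p' R4 R5) - lam (dir (fun _ => Rp) R4 R5) + ε / 4) - ε / 4) *
            (B'.d n ^ (ε / 4) * (675 * 433125)) := by rw [← e4]; ring
        _ ≤ B'.d n ^ (-(lam (dir p' R4 R5) - lam (dir (fun _ => Rp) R4 R5) + ε / 4) - ε / 4) *
            (1 / (675 * 433125) * (675 * 433125)) := by gcongr
        _ = _ := by norm_num
    have := hlt hfreq.frequently
    linarith
  · -- lower bound for `ν'`
    refine le_of_forall_pos_le_add fun ε hε => ?_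
    set δ : ℝ := min (ε / (4 * (K + 1))) (Rp - R) with hδdef
    have hδ : 0 < δ := lt_min (by positivity) (by linarith)
    have hKδ : K * δ ≤ ε / 4 := by
      have h1 : δ ≤ ε / (4 * (K + 1)) := min_le_left _ _
      rw [le_div_iff₀ (by positivity)] at h1
      nlinarith
    have hδR : δ ≤ Rp - R := min_le_right _ _
    have hε4 : 0 < ε / 8 := by positivity
    set p' : Fin 4 → ℝ := fun j => p j + δ with hp'
    have hp'0 : ∀ j, 0 ≤ p' j ∧ p' j ≤ Rp := fun j => by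
      simp only [hp']; exact ⟨by linarith [(hp j).1], by linarith [(hp j).2]⟩
    have hp'D : dir p' R4 R5 ∈ D6 := dir_mem_D6 hp'0 hR4 hR5
    have hpD : dir p R4 R5 ∈ D6 :=
      dir_mem_D6 (fun j => ⟨(hp j).1, (hp j).2.trans hRp.le⟩) hR4 hR5
    have hl := hlip _ hp'D _ hpD
    have hn : ‖dir p' R4 R5 - dir p R4 R5‖ ≤ δ := hdn (fun j => by
      simp only [hp', add_sub_cancel_left]; rw [abs_of_pos hδ]) hδ.le
    have hl2 := (abs_le.1 hl).1
    have hl3 := mul_le_mul_of_nonneg_left hn hK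
    have hfreq : ∀ᶠ n in (U : Filter ℕ),
        B'.d n ^ (lam (dir (fun _ => Rp) R4 R5) + ε / 8) ≤
        B'.d n ^ (-ν' p + lam (dir p' R4 R5) - 4 * (ε / 8)) := by
      filter_upwards [heq, hok, h.up_count Mx hε4, h.side_low hδ, hF.unif p hp (ε / 8) hε4,
        B'.ev_rpow_small hε4 (c := 1 / 675) (by norm_num), h.le_card_I hRp0 hR40 hR50 hε4, hcard,
        hS.ev_le hε4] with n h1 h2 h3 h4 h5 h6 h7 h8 h9
      set D := zdat B B' x v r t w C s₀ Rp R4 R5 n with hD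
      have hGI : ∀ π ∈ (G' n).I, ∃ s ∈ C n, D.lcode (D.x s) = π.1 ∧ D.zcode (D.x s) = π.2 := by
        intro π hπ
        have : π ∈ D.cfg.I := by rw [← h1]; exact (hsub n).I hπ
        exact ZD.mem_I.1 this
      have hne : ∃ s : ι n, s ∈ C n := ⟨_, h2.mem⟩
      classical
      set sel : ℕ × ℕ → ι n := fun π => if hh : π ∈ (G' n).I then (hGI π hh).choose else hne.choose
        with hsel
      have hselp : ∀ π ∈ (G' n).I, sel π ∈ C n ∧ D.lcode (D.x (sel π)) = π.1 ∧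
          D.zcode (D.x (sel π)) = π.2 := by
        intro π hπ
        simp only [hsel, dif_pos hπ]
        exact (hGI π hπ).choose_spec
      set F : ℕ × ℕ → (ℤ × ℤ) × (Fin 4 → ℤ) := fun π => (D.x (sel π)).lab D.i₁ D.j₁
        (QL B n (v n) (r n) (t n) (w n) p') with hFdef
      -- fibres are boxes
      have hfib : ∀ π ∈ (G' n).I, ((Ex926.cls (G' n).I F π).card : ℝ) ≤ B'.d n ^ (-ν' p - ε / 8) := by
        intro π hπ
        have b1 := (h5 π.1 π.2 hπ).2
        refine le_trans ?_ b1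
        have hinj : Set.InjOn Prod.fst (Ex926.cls (G' n).I F π : Set (ℕ × ℕ)) := by
          intro a ha b hb hab
          have ha' := mem_cls.1 (mem_coe.1 ha)
          have hb' := mem_cls.1 (mem_coe.1 hb)
          have c1 := (ZD_near h2 (p := p) (q := QL B n (v n) (r n) (t n) (w n) p')
            (fun j => QL_mono B n (h.w0 n).le (fun j => (hp'0 j).2) j)
            (fun j => h4 p (fun j => (hp j).1) j) (hselp π hπ).1 (hselp a ha'.1).1 ha'.2).1
          have c2 := (ZD_near h2 (p := p) (q := QL B n (v n) (r n) (t n) (w n) p')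
            (fun j => QL_mono B n (h.w0 n).le (fun j => (hp'0 j).2) j)
            (fun j => h4 p (fun j => (hp j).1) j) (hselp π hπ).1 (hselp b hb'.1).1 hb'.2).1
          rw [(hselp a ha'.1).2.2] at c1
          rw [(hselp b hb'.1).2.2] at c2
          exact Prod.ext hab (c1.trans c2.symm)
        have hsubs : (Ex926.cls (G' n).I F π).image Prod.fst ⊆ (G' n).box p π.1 π.2 := by
          intro l hl
          obtain ⟨a, ha, rfl⟩ := mem_image.1 hl
          have ha' := mem_cls.1 ha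
          have c1 := ZD_near h2 (p := p) (q := QL B n (v n) (r n) (t n) (w n) p')
            (fun j => QL_mono B n (h.w0 n).le (fun j => (hp'0 j).2) j)
            (fun j => h4 p (fun j => (hp j).1) j) (hselp π hπ).1 (hselp a ha'.1).1 ha'.2
          rw [(hselp a ha'.1).2.1, (hselp a ha'.1).2.2, (hselp π hπ).2.1, (hselp π hπ).2.2] at c1
          have hmem := mem_product.1 (hF.sub n ha'.1)
          simp only [Cfg.box, Cfg.slice, mem_filter]
          refine ⟨⟨hmem.1, ?_⟩, ?_⟩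
          · rw [← c1.1]; exact ha'.1
          · rw [(hsub n).near, h1]; exact c1.2
        have := card_le_card hsubs
        rw [card_image_of_injOn hinj] at this
        exact_mod_cast this
      have hcnt := le_count_mul (G' n).I (fun _ => (1 : ℝ)) F (m := B'.d n ^ (-ν' p - ε / 8))
        (fun π hπ => by rw [sum_const, nsmul_eq_mul, mul_one]; exact hfib π hπ)
      rw [sum_const, nsmul_eq_mul, mul_one] at hcnt
      have himg : (((G' n).I.image F).card : ℝ) ≤ B'.d n ^ (lam (dir p' R4 R5) - ε / 8) := by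
        have c1 := h3 (dir p' R4 R5) hp'D (hMp p' hp'0)
        rw [flab_dir] at c1
        refine le_trans ?_ c1
        have : (G' n).I.image F ⊆ (C n).image (fun i => (x n i).lab (B.levc n (v n + w n * R4))
            (B.levc n (r n + w n * R5)) (QL B n (v n) (r n) (t n) (w n) p')) := by
          intro y hy
          obtain ⟨π, hπ, rfl⟩ := mem_image.1 hy
          exact mem_image.2 ⟨sel π, (hselp π hπ).1, rfl⟩
        exact_mod_cast card_le_card this
      have hpos : ∀ s : ℝ, 0 < B'.d n ^ s := fun s => Real.rpow_pos_of_pos (B'.pos n) s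
      rw [h1] at h8
      have hSn : S n ≤ B'.d n ^ (-(ε / 8)) := by
        rw [← B'.exp_eq, ← Real.log_le_iff_le_exp h9.1]; exact h9.2
      calc B'.d n ^ (lam (dir (fun _ => Rp) R4 R5) + ε / 8) ≤ 675 * (D.cfg.I.card : ℝ) := h7
        _ ≤ 675 * (S n * (G' n).I.card) := by gcongr
        _ ≤ 675 * (B'.d n ^ (-(ε / 8)) * (B'.d n ^ (-ν' p - ε / 8) *
            B'.d n ^ (lam (dir p' R4 R5) - ε / 8))) := by
            refine mul_le_mul_of_nonneg_left ?_ (by norm_num)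
            refine mul_le_mul hSn (hcnt.trans ?_) (Nat.cast_nonneg _) (hpos _).le
            exact mul_le_mul_of_nonneg_left himg (hpos _).le
        _ = 675 * (B'.d n ^ (ε / 8) * B'.d n ^ (-ν' p + lam (dir p' R4 R5) - 4 * (ε / 8))) := by
            rw [← rp, ← rp, ← rp]; congr 2; ring
        _ ≤ 675 * (1 / 675 * B'.d n ^ (-ν' p + lam (dir p' R4 R5) - 4 * (ε / 8))) := by
            refine mul_le_mul_of_nonneg_left ?_ (by norm_num)
            exact mul_le_mul_of_nonneg_right h6 (hpos _).le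
        _ = _ := by ring
    have := hlt hfreq.frequently
    linarith

end Crest.Agent.R138.Ex926
end

-- ▼ part R138/Qf7_926

/-!
# R138: choice of the class, own profiles, algebra of tangents (helper926)

* `exists_big_cls`, `exists_clsSeq` : a sequence of big classes inside any given half of `I`;
* `QProf.own_le` : a class has at least as many sub-cells as one line;
* `IsTan.zero`, `IsTan.lip`, `IsTan.anti`, `IsTan.submod`, `IsTan.mono_le`.
-/

set_option autoImplicit false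
set_option linter.unusedSectionVars false
set_option linter.unusedVariables false

open Filter Topology MeasureTheory
open scoped NNReal

namespace Crest.Agent.R138.Ex926

open Finset Flg101 FM501

/-- the points in small classes are few -/
theorem card_small_cls {α β : Type*} [DecidableEq α] [DecidableEq β] (I : Finset α) (g : α → β)
    {s : ℝ} (hs0 : 0 ≤ s) : (((I.filter fun i => ((cls I g i).card : ℝ) < s)).card : ℝ) ≤
      s * ((I.image g).card : ℝ) := by
  classical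
  set A := I.filter fun i => ((cls I g i).card : ℝ) < s with hA
  have h1 := le_count_mul A (fun _ => (1 : ℝ)) g (m := s) (fun i hi => by
    rw [sum_const, nsmul_eq_mul, mul_one]
    have h2 := (mem_filter.1 hi).2
    have h3 : ((cls A g i).card : ℝ) ≤ (cls I g i).card := by
      exact_mod_cast card_le_card (cls_mono (filter_subset _ _) _ _)
    linarith)
  rw [sum_const, nsmul_eq_mul, mul_one] at h1
  refine h1.trans (mul_le_mul_of_nonneg_left ?_ hs0)
  exact_mod_cast card_le_card (image_subset_image (filter_subset _ _))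

theorem exists_big_cls {α β : Type*} [DecidableEq α] [DecidableEq β] (I : Finset α) (g : α → β)
    {s : ℝ} (hs0 : 0 ≤ s) (h : s * ((I.image g).card : ℝ) < (I.card : ℝ)) :
    ∃ i ∈ I, s ≤ ((cls I g i).card : ℝ) := by
  classical
  by_contra hcon
  push Not at hcon
  have h1 := card_small_cls I g hs0
  have h2 : (I.filter fun i => ((cls I g i).card : ℝ) < s) = I :=
    filter_true_of_mem fun i hi => hcon i hi
  rw [h2] at h1
  linarith

/-- number of `nat4` classes versus classes of the profile -/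
theorem nat4_sub_QL (B : Base) (n : ℕ) {v r t : ℝ} (hv : 0 ≤ v) (hr : 0 ≤ r) (ht : 0 ≤ t) (w : ℝ) :
    ∑ k, (nat4 (B.levc n v) (B.levc n r) (B.levc n t) k - QL B n v r t w 0 k) ≤ 9 := by
  have hl2 : 0 < Real.log 2 := Real.log_pos (by norm_num)
  have hL := B.L_pos n
  have cu : ∀ {s : ℝ}, 0 ≤ s → (B.levc n s : ℝ) < s * B.L n / Real.log 2 + 1 := fun {s} hs =>
    Nat.ceil_lt_add_one (by positivity)
  have fl : ∀ s : ℝ, s * B.L n / Real.log 2 < (B.lev n s : ℝ) + 1 := fun s => Nat.lt_floor_add_one _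
  have cl : ∀ s : ℝ, s * B.L n / Real.log 2 ≤ (B.levc n s : ℝ) := fun s => Nat.le_ceil _
  have ad : ∀ a b : ℝ, (a + b) * B.L n / Real.log 2 = a * B.L n / Real.log 2 + b * B.L n / Real.log 2 :=
    fun a b => by rw [add_mul, add_div]
  rw [Fin.sum_univ_four]
  have k0 : nat4 (B.levc n v) (B.levc n r) (B.levc n t) 0 - QL B n v r t w 0 0 ≤ 3 := by
    show B.levc n t + B.levc n v + B.levc n r - B.lev n (t + v + r + w * 0) ≤ 3
    rw [mul_zero, add_zero]
    have h1 := fl (t + v + r)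
    rw [ad, ad] at h1
    have : ((B.levc n t + B.levc n v + B.levc n r : ℕ) : ℝ) < ((B.lev n (t + v + r) + 4 : ℕ) : ℝ) := by
      push_cast; linarith [cu hv, cu hr, cu ht]
    have : B.levc n t + B.levc n v + B.levc n r < B.lev n (t + v + r) + 4 := by exact_mod_cast this
    omega
  have k1 : nat4 (B.levc n v) (B.levc n r) (B.levc n t) 1 - QL B n v r t w 0 1 ≤ 2 := by
    show B.levc n t + B.levc n r - B.levc n (t + r + w * 0) ≤ 2
    rw [mul_zero, add_zero]
    have h1 := cl (t + r)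
    rw [ad] at h1
    have : ((B.levc n t + B.levc n r : ℕ) : ℝ) < ((B.levc n (t + r) + 3 : ℕ) : ℝ) := by
      push_cast; linarith [cu hr, cu ht]
    have : B.levc n t + B.levc n r < B.levc n (t + r) + 3 := by exact_mod_cast this
    omega
  have k2 : nat4 (B.levc n v) (B.levc n r) (B.levc n t) 2 - QL B n v r t w 0 2 ≤ 0 := by
    show B.levc n t - B.levc n (t + w * 0) ≤ 0
    rw [mul_zero, add_zero, Nat.sub_self]
  have k3 : nat4 (B.levc n v) (B.levc n r) (B.levc n t) 3 - QL B n v r t w 0 3 ≤ 3 := by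
    show B.levc n t + B.levc n v - B.lev n (t + v + w * 0) ≤ 3
    rw [mul_zero, add_zero]
    have h1 := fl (t + v)
    rw [ad] at h1
    have : ((B.levc n t + B.levc n v : ℕ) : ℝ) < ((B.lev n (t + v) + 4 : ℕ) : ℝ) := by
      push_cast; linarith [cu hv, cu ht]
    have : B.levc n t + B.levc n v < B.lev n (t + v) + 4 := by exact_mod_cast this
    omega
  omega

variable {ι : ℕ → Type*} [∀ n, DecidableEq (ι n)]
variable {B B' : Base} {I : ∀ n, Finset (ι n)} {x : ∀ n, ι n → Inc} {v r t w T : ℕ → ℝ}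
  {lam : (Fin 6 → ℝ) → ℝ}

/-- the label of the `nat4` box at `n` -/
noncomputable def natlab (B : Base) (x : ∀ n, ι n → Inc) (v r t : ℕ → ℝ) (n : ℕ) (i : ι n) :
    (ℤ × ℤ) × (Fin 4 → ℤ) :=
  (x n i).lab (B.levc n (v n)) (B.levc n (r n))
    (nat4 (B.levc n (v n)) (B.levc n (r n)) (B.levc n (t n)))

theorem card_natlab_le (hv : ∀ n, 0 ≤ v n) (hr : ∀ n, 0 ≤ r n) (ht : ∀ n, 0 ≤ t n) (n : ℕ)
    (A : Finset (ι n)) (w : ℕ → ℝ) (hw : 0 < w n) :
    ((A.image (natlab B x v r t n)).card : ℝ) ≤ (675 * 2 ^ 9) *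
      ((A.image (flab B x n (X6 (v n) (r n) (t n) + w n • (0 : Fin 6 → ℝ)))).card : ℝ) := by
  rw [zero_eq_dir, flab_dir, mul_zero, add_zero, add_zero]
  refine card_image_le_mul A _ _ fun i hi => ?_
  have hwall := wall_QL B n (hv n) (hr n) (ht n) hw.le
    (dir_const_mem_D6 le_rfl le_rfl le_rfl : dir (fun _ => (0 : ℝ)) 0 0 ∈ D6)
  rw [mul_zero, add_zero, add_zero] at hwall
  have h1 := card_fine_le A (x n) (i := B.levc n (v n)) (j := B.levc n (r n))
    (i' := B.levc n (v n)) (j' := B.levc n (r n)) (p := QL B n (v n) (r n) (t n) (w n) 0)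
    (p' := nat4 (B.levc n (v n)) (B.levc n (r n)) (B.levc n (t n))) le_rfl le_rfl
    (fun k => QL_zero_le_nat4 B n _ _ _ _ k) hwall i
  have h2 := nat4_sub_QL B n (hv n) (hr n) (ht n) (w n)
  have h3 : 675 * 2 ^ ((B.levc n (v n) - B.levc n (v n)) + (B.levc n (r n) - B.levc n (r n)) +
      ∑ k, (nat4 (B.levc n (v n)) (B.levc n (r n)) (B.levc n (t n)) k -
        QL B n (v n) (r n) (t n) (w n) 0 k)) ≤ 675 * 2 ^ 9 := by
    refine Nat.mul_le_mul_left _ (Nat.pow_le_pow_right (by norm_num) ?_)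
    omega
  have h4 := h1.trans h3
  exact_mod_cast h4

/-- **Choice of the classes**: inside every half `Gd` of `I` there is a sequence of big classes at
the natural points. -/
theorem exists_clsSeq (hv : ∀ n, 0 ≤ v n) (hr : ∀ n, 0 ≤ r n) (ht : ∀ n, 0 ≤ t n)
    (hw : ∀ n, 0 < w n) (hdd : ∀ n, B'.d n = B.d n ^ w n)
    (hprof : ZProf B' I (fun n c => flab B x n (X6 (v n) (r n) (t n) + w n • c)) D6 T lam)
    (hlam0 : lam 0 = 0) (hT : ∀ n, 0 < T n) {Gd : ∀ n, Finset (ι n)} (i₀ : ∀ n, ι n) {c : ℝ}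
    (hc : 0 < c)
    (hGd : ∀ᶠ n in (U : Filter ℕ), Gd n ⊆ I n ∧ (Gd n).Nonempty ∧
      c * ((I n).card : ℝ) ≤ (Gd n).card) :
    ∃ s₀ : ∀ n, ι n, (∀ᶠ n in (U : Filter ℕ), s₀ n ∈ Gd n) ∧
      ClsSeq B B' I x v r t w T lam
        (fun n => cls (Gd n) (natlab B x v r t n) (s₀ n)) s₀ := by
  classical
  have hbigk : ∀ l : ℕ, ∀ᶠ n in (U : Filter ℕ), ∃ s ∈ Gd n,
      T n * B'.d n ^ (1 / ((l : ℝ) + 1)) ≤ ((cls (Gd n) (natlab B x v r t n) s).card : ℝ) := by
    intro l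
    set ε : ℝ := 1 / ((l : ℝ) + 1) with hε
    have hε0 : 0 < ε := by positivity
    filter_upwards [hGd, hprof.root 0 (ε / 2) (by positivity),
      B'.ev_rpow_small (η := ε / 2) (c := c / (2 * (675 * 2 ^ 9))) (by positivity) (by positivity)] with
      n h1 h2 h3
    refine exists_big_cls (Gd n) (natlab B x v r t n)
      (mul_pos (hT n) (Real.rpow_pos_of_pos (B'.pos n) _)).le ?_
    have h4 := h2 0 zero_mem_D6 (by rw [norm_zero])
    rw [hlam0] at h4
    have hTn := hT n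
    have hp : ∀ s : ℝ, 0 < B'.d n ^ s := fun s => Real.rpow_pos_of_pos (B'.pos n) s
    have h5 := card_natlab_le (B := B) (x := x) hv hr ht n (Gd n) w (hw n)
    have h6 : (((Gd n).image (flab B x n (X6 (v n) (r n) (t n) + w n • (0 : Fin 6 → ℝ)))).card : ℝ) ≤
        (((I n).image (flab B x n (X6 (v n) (r n) (t n) + w n • (0 : Fin 6 → ℝ)))).card : ℝ) := by
      exact_mod_cast card_le_card (image_subset_image h1.1)
    have hGpos : (0 : ℝ) < (Gd n).card := by exact_mod_cast card_pos.2 h1.2.1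
    have hIn : ((I n).card : ℝ) ≤ (Gd n).card / c := by
      rw [le_div_iff₀ hc, mul_comm]; exact h1.2.2
    have e1 : B'.d n ^ ε * B'.d n ^ (0 - ε / 2) = B'.d n ^ (ε / 2) := by
      rw [← rp]; congr 1; ring
    calc T n * B'.d n ^ ε * (((Gd n).image (natlab B x v r t n)).card : ℝ)
        ≤ T n * B'.d n ^ ε * ((675 * 2 ^ 9) *
          (((I n).image (flab B x n (X6 (v n) (r n) (t n) + w n • (0 : Fin 6 → ℝ)))).card : ℝ)) := by
          refine mul_le_mul_of_nonneg_left ?_ (mul_pos hTn (hp _)).le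
          exact h5.trans (mul_le_mul_of_nonneg_left h6 (by norm_num))
      _ = (675 * 2 ^ 9) * B'.d n ^ ε *
          ((((I n).image (flab B x n (X6 (v n) (r n) (t n) + w n • (0 : Fin 6 → ℝ)))).card : ℝ) *
            T n) := by ring
      _ ≤ (675 * 2 ^ 9) * B'.d n ^ ε * ((I n).card * B'.d n ^ (0 - ε / 2)) := by
          refine mul_le_mul_of_nonneg_left h4 ?_
          exact mul_nonneg (by norm_num) (hp _).le
      _ = (675 * 2 ^ 9) * (I n).card * (B'.d n ^ ε * B'.d n ^ (0 - ε / 2)) := by ring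
      _ = (675 * 2 ^ 9) * (I n).card * B'.d n ^ (ε / 2) := by rw [e1]
      _ ≤ (675 * 2 ^ 9) * ((Gd n).card / c) * (c / (2 * (675 * 2 ^ 9))) := by
          refine mul_le_mul (mul_le_mul_of_nonneg_left hIn (by norm_num)) h3 (hp _).le ?_
          positivity
      _ = (Gd n).card / 2 := by field_simp
      _ < (Gd n).card := by linarith
  obtain ⟨k, hk, hk2⟩ := exists_diag _ hbigk
  have hex : ∀ᶠ n in (U : Filter ℕ), ∃ s ∈ Gd n,
      T n * B'.d n ^ (1 / (((k n : ℕ) : ℝ) + 1)) ≤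
        ((cls (Gd n) (natlab B x v r t n) s).card : ℝ) := hk2.mono fun n hn => hn _ le_rfl
  set s₀ : ∀ n, ι n := fun n => if h : ∃ s ∈ Gd n,
      T n * B'.d n ^ (1 / (((k n : ℕ) : ℝ) + 1)) ≤
        ((cls (Gd n) (natlab B x v r t n) s).card : ℝ) then h.choose else i₀ n with hs₀
  have hspec : ∀ᶠ n in (U : Filter ℕ), s₀ n ∈ Gd n ∧
      T n * B'.d n ^ (1 / (((k n : ℕ) : ℝ) + 1)) ≤
        ((cls (Gd n) (natlab B x v r t n) (s₀ n)).card : ℝ) := by
    filter_upwards [hex] with n hn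
    simp only [hs₀, dif_pos hn]
    exact hn.choose_spec
  refine ⟨s₀, hspec.mono fun n hn => hn.1,
    { v0 := hv, r0 := hr, t0 := ht, w0 := hw, dd := hdd, prof := hprof, lam0 := hlam0, Tpos := hT
      cls := ?_
      big := fun ε hε => ?_ }⟩
  · filter_upwards [hspec, hGd] with n h1 h2
    exact ⟨(cls_subset _ _ _).trans h2.1, self_mem_cls h1.1, fun s hs => (mem_cls.1 hs).2⟩
  · obtain ⟨N, hN⟩ := exists_nat_gt (1 / ε)
    filter_upwards [hspec, hk.eventually_ge_atTop N] with n h1 h2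
    refine le_trans ?_ h1.2
    refine mul_le_mul_of_nonneg_left ?_ (hT n).le
    refine Real.rpow_le_rpow_of_exponent_ge (B'.pos n) (B'.lt n).le ?_
    have h3 : (N : ℝ) ≤ k n := by exact_mod_cast h2
    rw [div_le_iff₀ (by positivity)]
    rw [div_lt_iff₀ hε] at hN
    nlinarith

/-! ### own profiles -/

/-- **a class has at least as many sub-cells as one line**: `g q` = own classes (inside the
`f p`-classes), an `f p'`-class and a `g q`-class determine the `g q'`-class. -/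
theorem QProf.own_le {κ κ' : ℕ → Type*} [∀ n, DecidableEq (κ n)] [∀ n, DecidableEq (κ' n)]
    {V V' : Type*} [LE V] [LE V'] {f : ∀ n, V → ι n → κ n} {g : ∀ n, V' → ι n → κ' n}
    {P : Set V} {Q : Set V'} {ν : V → ℝ} {τ : V' → ℝ} (hν : QProf B I f P ν)
    (hτ : QProf B I g Q τ) (hne : ∀ᶠ n in (U : Filter ℕ), (I n).Nonempty) {p p' : V} (hp : p ∈ P)
    (hp' : p' ∈ P) (hpp : p ≤ p') {q q' : V'} (hq : q ∈ Q) (hq' : q' ∈ Q)
    (h1 : ∀ᶠ n in (U : Filter ℕ), ∀ i ∈ I n, ∀ j ∈ I n, g n q i = g n q j → f n p i = f n p j)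
    (h2 : ∀ᶠ n in (U : Filter ℕ), ∀ i ∈ I n, ∀ j ∈ I n, g n q i = g n q j →
      f n p' i = f n p' j → g n q' i = g n q' j) : τ q - τ q' ≤ ν p - ν p' := by
  classical
  refine le_of_forall_pos_le_add fun ε hε => ?_
  have hε3 : 0 < ε / 3 := by positivity
  obtain ⟨n, a1, a2, a3, a4, a5⟩ := ((hτ.ev_big hne hε3).and ((hτ.up _ hε3).and
    ((hν.num _ hε3).and (h1.and h2)))).exists
  obtain ⟨i, hi, hbig⟩ := a1 q hq
  have hL := B.L_pos n
  set O := cls (I n) (g n q) i with hO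
  have hiO : i ∈ O := self_mem_cls hi
  have c1 : (O.card : ℝ) ≤ B.d n ^ (-(τ q' + ε / 3)) * (O.image (g n q')).card := by
    have := le_count_mul O (fun _ => (1 : ℝ)) (g n q') (m := B.d n ^ (-(τ q' + ε / 3)))
      (fun s hs => by
        rw [sum_const, nsmul_eq_mul, mul_one]
        refine le_trans ?_ (a2 q' hq' s (mem_cls.1 hs).1)
        exact_mod_cast card_le_card (cls_mono (cls_subset _ _ _) _ _))
    rwa [sum_const, nsmul_eq_mul, mul_one] at this
  have c2 : (O.image (g n q')).card ≤ (O.image (f n p')).card := by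
    refine card_image_le_card_image _ _ _ fun a ha b hb hab => ?_
    have ha' := mem_cls.1 ha
    have hb' := mem_cls.1 hb
    exact a5 a ha'.1 b hb'.1 (ha'.2.trans hb'.2.symm) hab
  have c3 : (O.image (f n p')).card ≤ ((cls (I n) (f n p) i).image (f n p')).card := by
    refine card_le_card (image_subset_image fun s hs => ?_)
    have hs' := mem_cls.1 hs
    exact mem_cls.2 ⟨hs'.1, a4 s hs'.1 i hi hs'.2⟩
  have c4 := a3 p hp p' hp' hpp i hi
  have c5 : ((O.image (g n q')).card : ℝ) ≤ B.d n ^ (-(ν p - ν p' + ε / 3)) := by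
    refine le_trans ?_ c4
    exact_mod_cast c2.trans c3
  have hp0 : ∀ s : ℝ, 0 < B.d n ^ s := fun s => Real.rpow_pos_of_pos (B.pos n) s
  have c6 : (O.card : ℝ) ≤ B.d n ^ (-(τ q' + ε / 3)) * B.d n ^ (-(ν p - ν p' + ε / 3)) :=
    c1.trans (mul_le_mul_of_nonneg_left c5 (hp0 _).le)
  have hO1 : (1 : ℝ) ≤ O.card := cls_card_pos hi
  have l1 := Real.log_le_log (by linarith) c6
  rw [Real.log_mul (hp0 _).ne' (hp0 _).ne', Real.log_rpow (B.pos n), Real.log_rpow (B.pos n),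
    B.log_d] at l1
  have : (τ q - τ q') * B.L n ≤ (ν p - ν p' + ε) * B.L n := by linarith
  exact le_of_mul_le_mul_right this hL

/-! ### algebra of tangents -/

section Tan

variable {V : Type*} [NormedAddCommGroup V] [NormedSpace ℝ V] {P D : Set V} {ν lam : V → ℝ}
  {y : ℕ → V} {h : ℕ → ℝ}

theorem IsTan.ev (ht : IsTan P D ν y h lam) {c : V} (hc : c ∈ D) {ε : ℝ} (hε : 0 < ε) :
    ∀ᶠ l in (atTop : Filter ℕ), y l + h l • c ∈ P ∧
      |ν (y l + h l • c) - ν (y l) - h l * lam c| ≤ ε * h l :=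
  (ht ‖c‖ ε hε).mono fun l hl => hl c hc le_rfl

theorem IsTan.zero (ht : IsTan P D ν y h lam) (hpos : ∀ l, 0 < h l) (h0 : (0 : V) ∈ D) :
    lam 0 = 0 := by
  by_contra hne
  have hp : 0 < |lam 0| / 2 := by positivity
  obtain ⟨l, -, hl⟩ := (ht.ev h0 hp).exists
  rw [smul_zero, add_zero, sub_self, zero_sub, abs_neg, abs_mul, abs_of_pos (hpos l)] at hl
  have h1 := hpos l
  have h2 : 0 < |lam 0| := abs_pos.2 hne
  nlinarith

theorem IsTan.lip (ht : IsTan P D ν y h lam) (hpos : ∀ l, 0 < h l) {K : ℝ}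
    (hν : ∀ p ∈ P, ∀ q ∈ P, |ν p - ν q| ≤ K * ‖p - q‖) :
    ∀ c ∈ D, ∀ c' ∈ D, |lam c - lam c'| ≤ K * ‖c - c'‖ := by
  intro c hc c' hc'
  refine le_of_forall_pos_le_add fun ε hε => ?_
  obtain ⟨l, ⟨h1, h2⟩, ⟨h3, h4⟩⟩ := ((ht.ev hc (ε := ε / 2) (by positivity)).and
    (ht.ev hc' (ε := ε / 2) (by positivity))).exists
  have h5 := hν _ h1 _ h3
  have e1 : y l + h l • c - (y l + h l • c') = h l • (c - c') := by rw [smul_sub]; abel
  rw [e1, norm_smul, Real.norm_of_nonneg (hpos l).le] at h5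
  have hl := hpos l
  have key : h l * |lam c - lam c'| ≤ h l * (K * ‖c - c'‖ + ε) := by
    rw [← abs_of_pos hl, ← abs_mul, abs_of_pos hl, mul_sub, abs_le]
    rw [abs_le] at h2 h4 h5
    constructor <;> nlinarith
  exact le_of_mul_le_mul_left key hl

theorem IsTan.anti [LE V] (ht : IsTan P D ν y h lam) (hpos : ∀ l, 0 < h l)
    (hmono : ∀ (l : ℕ) (c c' : V), c ≤ c' → y l + h l • c ≤ y l + h l • c')
    (hν : ∀ p ∈ P, ∀ q ∈ P, p ≤ q → ν q ≤ ν p) :
    ∀ c ∈ D, ∀ c' ∈ D, c ≤ c' → lam c' ≤ lam c := by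
  intro c hc c' hc' hcc
  refine le_of_forall_pos_le_add fun ε hε => ?_
  obtain ⟨l, ⟨h1, h2⟩, ⟨h3, h4⟩⟩ := ((ht.ev hc (ε := ε / 2) (by positivity)).and
    (ht.ev hc' (ε := ε / 2) (by positivity))).exists
  have h5 := hν _ h1 _ h3 (hmono l c c' hcc)
  have hl := hpos l
  have key : h l * lam c' ≤ h l * (lam c + ε) := by
    rw [abs_le] at h2 h4
    nlinarith
  exact le_of_mul_le_mul_left key hl

theorem smul_sup_pi {m : ℕ} {a : ℝ} (ha : 0 ≤ a) (y c c' : Fin m → ℝ) :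
    (y + a • c) ⊔ (y + a • c') = y + a • (c ⊔ c') := by
  funext i
  simp only [Pi.sup_apply, Pi.add_apply, Pi.smul_apply, smul_eq_mul]
  rcases le_total (c i) (c' i) with h | h
  · rw [sup_eq_right.2 h, sup_eq_right.2 (by gcongr)]
  · rw [sup_eq_left.2 h, sup_eq_left.2 (by gcongr)]

theorem smul_inf_pi {m : ℕ} {a : ℝ} (ha : 0 ≤ a) (y c c' : Fin m → ℝ) :
    (y + a • c) ⊓ (y + a • c') = y + a • (c ⊓ c') := by
  funext i
  simp only [Pi.inf_apply, Pi.add_apply, Pi.smul_apply, smul_eq_mul]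
  rcases le_total (c i) (c' i) with h | h
  · rw [inf_eq_left.2 h, inf_eq_left.2 (by gcongr)]
  · rw [inf_eq_right.2 h, inf_eq_right.2 (by gcongr)]

theorem IsTan.submod {m : ℕ} {P D : Set (Fin m → ℝ)} {ν lam : (Fin m → ℝ) → ℝ}
    {y : ℕ → (Fin m → ℝ)} (ht : IsTan P D ν y h lam) (hpos : ∀ l, 0 < h l)
    (hν : ∀ p ∈ P, ∀ q ∈ P, p ⊓ q ∈ P → p ⊔ q ∈ P → ν p + ν q ≤ ν (p ⊔ q) + ν (p ⊓ q))
    {c c' : Fin m → ℝ} (hc : c ∈ D) (hc' : c' ∈ D) (hi : c ⊓ c' ∈ D) (hs : c ⊔ c' ∈ D) :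
    lam c + lam c' ≤ lam (c ⊔ c') + lam (c ⊓ c') := by
  refine le_of_forall_pos_le_add fun ε hε => ?_
  have hε4 : 0 < ε / 4 := by positivity
  obtain ⟨l, ⟨h1, h2⟩, ⟨h3, h4⟩, ⟨h5, h6⟩, ⟨h7, h8⟩⟩ := ((ht.ev hc hε4).and
    ((ht.ev hc' hε4).and ((ht.ev hi hε4).and (ht.ev hs hε4)))).exists
  have hl := hpos l
  have h9 := hν _ h1 _ h3 (by rw [smul_inf_pi hl.le]; exact h5) (by rw [smul_sup_pi hl.le]; exact h7)
  rw [smul_inf_pi hl.le, smul_sup_pi hl.le] at h9
  have key : h l * (lam c + lam c') ≤ h l * (lam (c ⊔ c') + lam (c ⊓ c') + ε) := by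
    rw [abs_le] at h2 h4 h6 h8
    nlinarith
  exact le_of_mul_le_mul_left key hl

end Tan

end Crest.Agent.R138.Ex926
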