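import Mathlib
import Crest.Agent.R138.Pf_926

/-!
# R138, deep level, part 1 (helper76): the concentration exponent

Abstract lemma: a family of shapes `mem n a s` (scale exponent `a`, shape `s`), cells `g n`.
There is a largest exponent `a*` such that a `d^{o(1)}`-dense part of the incidences has each cell
contained in ONE shape of exponent `a n → a*`; after removing bad cells no shape of exponent
`a > a*` contains more than a `d^c`-part of a cell.
-/

set_option autoImplicit false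
set_option linter.unusedVariables false

open Filter Topology Finset

namespace Crest.Agent.R138.Dp76

open Crest.Agent.R138.Ex926

/-- `J` is a sub-polynomially dense part of `I`. -/
def Dense (B : Base) {ι : ℕ → Type*} (J I : ∀ n, Finset (ι n)) : Prop :=
  (∀ᶠ n in (U : Filter ℕ), J n ⊆ I n) ∧
    ∀ η : ℝ, 0 < η → ∀ᶠ n in (U : Filter ℕ), B.d n ^ η * ((I n).card : ℝ) ≤ ((J n).card : ℝ)

theorem dpow_pos (B : Base) (n : ℕ) (a : ℝ) : 0 < B.d n ^ a := Real.rpow_pos_of_pos (B.pos n) a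

theorem dpow_add (B : Base) (n : ℕ) (a b : ℝ) : B.d n ^ (a + b) = B.d n ^ a * B.d n ^ b :=
  Real.rpow_add (B.pos n) a b

theorem dpow_le (B : Base) (n : ℕ) {a b : ℝ} (h : a ≤ b) : B.d n ^ b ≤ B.d n ^ a :=
  Real.rpow_le_rpow_of_exponent_ge (B.pos n) (B.lt n).le h

theorem dpow_le_one (B : Base) (n : ℕ) {a : ℝ} (h : 0 ≤ a) : B.d n ^ a ≤ 1 :=
  Real.rpow_le_one (B.pos n).le (B.lt n).le h

theorem Dense.refl (B : Base) {ι : ℕ → Type*} (I : ∀ n, Finset (ι n)) : Dense B I I := by
  refine ⟨Eventually.of_forall fun n => Finset.Subset.refl _, fun η hη => Eventually.of_forall fun n => ?_⟩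
  have h1 := dpow_le_one B n hη.le
  have h2 : (0 : ℝ) ≤ (I n).card := Nat.cast_nonneg _
  nlinarith

theorem Dense.trans {B : Base} {ι : ℕ → Type*} {K J I : ∀ n, Finset (ι n)}
    (h1 : Dense B K J) (h2 : Dense B J I) : Dense B K I := by
  refine ⟨?_, fun η hη => ?_⟩
  · filter_upwards [h1.1, h2.1] with n a b using a.trans b
  · filter_upwards [h1.2 (η / 2) (by linarith), h2.2 (η / 2) (by linarith)] with n a b
    have e : B.d n ^ η = B.d n ^ (η / 2) * B.d n ^ (η / 2) := by rw [← dpow_add]; congr 1; ring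
    have hp := dpow_pos B n (η / 2)
    calc B.d n ^ η * ((I n).card : ℝ) = B.d n ^ (η / 2) * (B.d n ^ (η / 2) * (I n).card) := by
          rw [e]; ring
      _ ≤ B.d n ^ (η / 2) * (J n).card := mul_le_mul_of_nonneg_left b hp.le
      _ ≤ (K n).card := a

theorem Dense.nonempty {B : Base} {ι : ℕ → Type*} {J I : ∀ n, Finset (ι n)} (h : Dense B J I)
    (hI : ∀ᶠ n in (U : Filter ℕ), (I n).Nonempty) : ∀ᶠ n in (U : Filter ℕ), (J n).Nonempty := by
  filter_upwards [h.2 1 one_pos, hI] with n h1 h2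
  have h3 : (0 : ℝ) < (I n).card := by exact_mod_cast card_pos.2 h2
  have h4 := mul_pos (dpow_pos B n 1) h3
  have h5 : (0 : ℝ) < (J n).card := lt_of_lt_of_le h4 h1
  exact card_pos.1 (by exact_mod_cast h5)

theorem dense_of_sub {B : Base} {ι : ℕ → Type*} {J I : ∀ n, Finset (ι n)} {S : ℕ → ℝ}
    (hS : B.Sub S) (h : ∀ᶠ n in (U : Filter ℕ), J n ⊆ I n ∧ ((I n).card : ℝ) ≤ S n * (J n).card) :
    Dense B J I := by
  refine ⟨h.mono fun n hn => hn.1, fun η hη => ?_⟩
  have h1 : ∀ᶠ n in (U : Filter ℕ), S n < B.d n ^ (-η) :=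
    Base.ex_lt_iff_dpow hS.1 (by rw [hS.2]; exact hη)
  filter_upwards [h, h1] with n h2 h3
  have hp := dpow_pos B n η
  have h4 : (0 : ℝ) ≤ (J n).card := Nat.cast_nonneg _
  have e : B.d n ^ η * B.d n ^ (-η) = 1 := by rw [← dpow_add]; simp
  calc B.d n ^ η * ((I n).card : ℝ) ≤ B.d n ^ η * (S n * (J n).card) :=
        mul_le_mul_of_nonneg_left h2.2 hp.le
    _ ≤ B.d n ^ η * (B.d n ^ (-η) * (J n).card) := by
        apply mul_le_mul_of_nonneg_left _ hp.le
        exact mul_le_mul_of_nonneg_right h3.le h4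
    _ = (J n).card := by rw [← mul_assoc, e, one_mul]

section Conc

variable {B : Base} {ι κ σ : ℕ → Type*} [∀ n, DecidableEq (ι n)] [∀ n, DecidableEq (κ n)]

/-- each cell of `J` is contained in one shape of exponent `a n`. -/
def InShape (g : ∀ n, ι n → κ n) (mem : ∀ n, ℝ → σ n → ι n → Prop) (J : ∀ n, Finset (ι n))
    (a : ℕ → ℝ) : Prop :=
  ∀ᶠ n in (U : Filter ℕ), ∀ i ∈ J n, ∃ s : σ n, ∀ i' ∈ cls (J n) (g n) i, mem n (a n) s i'

open Classical in
/-- the elements of `J` whose cell has more than a `d^c`-part in one shape of exponent `a`. -/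
noncomputable def bad (B : Base) (g : ∀ n, ι n → κ n) (mem : ∀ n, ℝ → σ n → ι n → Prop)
    (J : ∀ n, Finset (ι n)) (a c : ℝ) (n : ℕ) : Finset (ι n) :=
  (J n).filter fun i => ∃ s : σ n, B.d n ^ c * ((cls (J n) (g n) i).card : ℝ) <
    (((cls (J n) (g n) i).filter fun i' => mem n a s i').card : ℝ)

theorem bad_cell {g : ∀ n, ι n → κ n} {mem : ∀ n, ℝ → σ n → ι n → Prop}
    {J : ∀ n, Finset (ι n)} {a c : ℝ} {n : ℕ} {i i' : ι n} (hi' : i' ∈ J n)
    (h : g n i' = g n i) (hb : i ∈ bad B g mem J a c n) : i' ∈ bad B g mem J a c n := by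
  classical
  unfold bad at hb ⊢
  rw [mem_filter] at hb ⊢
  refine ⟨hi', ?_⟩
  rw [cls_congr h]
  exact hb.2

open Classical in
/-- If for every `c > 0` the bad set has more than a `d^c`-part, then a dense part has every cell
in one shape of exponent `a`. -/
theorem exists_of_bad {g : ∀ n, ι n → κ n} {mem : ∀ n, ℝ → σ n → ι n → Prop}
    {J : ∀ n, Finset (ι n)} {a : ℝ}
    (h : ∀ c : ℝ, 0 < c → ∀ᶠ n in (U : Filter ℕ),
      B.d n ^ c * ((J n).card : ℝ) < ((bad B g mem J a c n).card : ℝ)) :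
    ∃ J' : ∀ n, Finset (ι n), Dense B J' J ∧ InShape g mem J' (fun _ => a) := by
  obtain ⟨k, hk, hk2⟩ := exists_diag (fun k n => B.d n ^ (1 / ((k : ℝ) + 1)) * ((J n).card : ℝ) <
    ((bad B g mem J a (1 / ((k : ℝ) + 1)) n).card : ℝ)) (fun k => h _ (by positivity))
  set c : ℕ → ℝ := fun n => 1 / ((k n : ℝ) + 1) with hc
  have hcpos : ∀ n, 0 < c n := fun n => by rw [hc]; positivity
  have hc0 : Tendsto c U (𝓝 0) := tendsto_one_div_add_atTop_nhds_zero_nat.comp hk
  -- choose the shape of every cell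
  have hsh : ∀ n (x : κ n), ∃ s : σ n ⊕ Unit, ∀ i ∈ bad B g mem J a (c n) n, g n i = x →
      ∃ s' : σ n, s = Sum.inl s' ∧ B.d n ^ c n * ((cls (J n) (g n) i).card : ℝ) <
        (((cls (J n) (g n) i).filter fun i' => mem n a s' i').card : ℝ) := by
    intro n x
    by_cases hx : ∃ i ∈ bad B g mem J a (c n) n, g n i = x
    · obtain ⟨i, hi, hix⟩ := hx
      obtain ⟨s, hs⟩ := (mem_filter.1 hi).2
      refine ⟨Sum.inl s, fun i' hi' hx' => ⟨s, rfl, ?_⟩⟩
      rw [cls_congr (hx'.trans hix.symm)]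
      exact hs
    · refine ⟨Sum.inr (), fun i' hi' hx' => absurd ⟨i', hi', hx'⟩ hx⟩
  choose sh hsh using hsh
  set J' : ∀ n, Finset (ι n) := fun n => (bad B g mem J a (c n) n).filter fun i =>
    ∃ s', sh n (g n i) = Sum.inl s' ∧ mem n a s' i with hJ'
  have hcls : ∀ n, ∀ i ∈ bad B g mem J a (c n) n,
      B.d n ^ c n * ((cls (bad B g mem J a (c n) n) (g n) i).card : ℝ) ≤
        ((cls (J' n) (g n) i).card : ℝ) := by
    intro n i hi
    obtain ⟨s', hs1, hs2⟩ := hsh n (g n i) i hi rfl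
    have e1 : cls (bad B g mem J a (c n) n) (g n) i = cls (J n) (g n) i := by
      ext i'
      rw [mem_cls, mem_cls]
      constructor
      · rintro ⟨h1, h2⟩; exact ⟨(mem_filter.1 h1).1, h2⟩
      · rintro ⟨h1, h2⟩; exact ⟨bad_cell h1 h2 hi, h2⟩
    have e2 : cls (J' n) (g n) i = (cls (J n) (g n) i).filter fun i' => mem n a s' i' := by
      ext i'
      rw [mem_filter, mem_cls, mem_cls, hJ']
      simp only [mem_filter]
      constructor
      · rintro ⟨⟨h1, s'', h3, h4⟩, h2⟩
        rw [h2, hs1] at h3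
        have : s'' = s' := by simpa using h3.symm
        subst this
        exact ⟨⟨(mem_filter.1 h1).1, h2⟩, h4⟩
      · rintro ⟨⟨h1, h2⟩, h3⟩
        exact ⟨⟨bad_cell h1 h2 hi, s', by rw [h2, hs1], h3⟩, h2⟩
    rw [e1, e2]
    exact hs2.le
  have hsub : ∀ n, J' n ⊆ bad B g mem J a (c n) n := fun n => filter_subset _ _
  have hcard : ∀ n, B.d n ^ c n * ((bad B g mem J a (c n) n).card : ℝ) ≤ ((J' n).card : ℝ) := by
    intro n
    have f1 : ((bad B g mem J a (c n) n).card : ℝ) =
        ∑ x ∈ (bad B g mem J a (c n) n).image (g n),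
          (((bad B g mem J a (c n) n).filter fun i => g n i = x).card : ℝ) := by
      rw [card_eq_sum_card_image (g n) (bad B g mem J a (c n) n)]
      push_cast
      rfl
    have f2 : ∑ x ∈ (bad B g mem J a (c n) n).image (g n),
          (((J' n).filter fun i => g n i = x).card : ℝ) = ((J' n).card : ℝ) := by
      have := card_eq_sum_card_fiberwise (f := g n) (s := J' n)
        (t := (bad B g mem J a (c n) n).image (g n))
        (fun i hi => mem_coe.2 (mem_image_of_mem _ (hsub n hi)))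
      rw [this]; push_cast; rfl
    rw [f1, ← f2, mul_sum]
    refine sum_le_sum fun x hx => ?_
    obtain ⟨i, hi, rfl⟩ := mem_image.1 hx
    exact hcls n i hi
  refine ⟨J', ⟨Eventually.of_forall fun n => (hsub n).trans (filter_subset _ _), fun η hη => ?_⟩, ?_⟩
  · filter_upwards [hk2, hc0.eventually_lt_const (show (0 : ℝ) < η / 2 by linarith)] with n h1 h2
    have h3 := h1 (k n) le_rfl
    have h3' : B.d n ^ c n * ((J n).card : ℝ) < ((bad B g mem J a (c n) n).card : ℝ) := h3
    have h4 : B.d n ^ η ≤ B.d n ^ c n * B.d n ^ c n := by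
      rw [← dpow_add]; exact dpow_le B n (by linarith)
    have h5 := dpow_pos B n (c n)
    calc B.d n ^ η * ((J n).card : ℝ) ≤ (B.d n ^ c n * B.d n ^ c n) * (J n).card :=
          mul_le_mul_of_nonneg_right h4 (Nat.cast_nonneg _)
      _ = B.d n ^ c n * (B.d n ^ c n * (J n).card) := by ring
      _ ≤ B.d n ^ c n * (bad B g mem J a (c n) n).card := mul_le_mul_of_nonneg_left h3'.le h5.le
      _ ≤ _ := hcard n
  · refine Eventually.of_forall fun n i hi => ?_
    rw [hJ'] at hi
    simp only [mem_filter] at hi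
    obtain ⟨h1, s', h2, h3⟩ := hi
    refine ⟨s', fun i' hi' => ?_⟩
    rw [mem_cls, hJ'] at hi'
    simp only [mem_filter] at hi'
    obtain ⟨⟨h4, s'', h5, h6⟩, h7⟩ := hi'
    rw [h7, h2] at h5
    have : s'' = s' := by simpa using h5.symm
    subst this
    exact h6



end Conc

end Crest.Agent.R138.Dp76
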