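import Crest.Agent.R138.RR5_323
import Crest.Agent.R138.DecC_685

/-!
# R138 / R139, wave side: DOMINATION (helper878)

The label `k` dominates at the phase point `(m, y)` if `|u_m(H k)(y)|` is maximal. Since
`f = ∑_k H k + e`, the packet energy of `f` on a selection dominated by `k` is at most
`2 n² ·` the one of `H k` (+ rest). Consequence for plate systems (`dom_core`).
-/

set_option autoImplicit false

open MeasureTheory FourierTransform
open scoped ContDiff ENNReal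

namespace Crest.Agent.R138.Dom878

open Crest.Agent.R138.Defs Crest.Agent.R138.Bil882 Crest.Agent.R138.W188
open Crest.Agent.R138.Wpk685 Crest.Agent.R138.W323

/-- `k` dominates at the phase point `(m, y)`. -/
def Dom (ρ : ℝ) (H : ℕ → E2 → ℂ) (Λ : Finset ℕ) (k : ℕ) (m : ℤ × ℤ) (y : E2) : Prop :=
  ∀ k' ∈ Λ, ‖um ρ (H k') m y‖ ≤ ‖um ρ (H k) m y‖

/-- the labels in increasing order. -/
noncomputable def lbl (Λ : Finset ℕ) (i : ℕ) : ℕ := (Λ.sort (· ≤ ·)).getD i 0

theorem lbl_mem {Λ : Finset ℕ} {i : ℕ} (hi : i < Λ.card) : lbl Λ i ∈ Λ := by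
  unfold lbl
  have h1 : i < (Λ.sort (· ≤ ·)).length := by rwa [Finset.length_sort]
  rw [List.getD_eq_getElem _ _ h1]
  exact (Finset.mem_sort (· ≤ ·)).1 (List.getElem_mem h1)

theorem lbl_surj {Λ : Finset ℕ} {k : ℕ} (hk : k ∈ Λ) : ∃ i < Λ.card, lbl Λ i = k := by
  have h1 := (Finset.mem_sort (· ≤ ·)).2 hk
  obtain ⟨i, hi, h2⟩ := List.getElem_of_mem h1
  refine ⟨i, by rwa [Finset.length_sort] at hi, ?_⟩
  unfold lbl
  rw [List.getD_eq_getElem _ _ hi, h2]

open Classical in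
/-- index of the first dominating label. -/
noncomputable def argi (ρ : ℝ) (H : ℕ → E2 → ℂ) (Λ : Finset ℕ) (m : ℤ × ℤ) (y : E2) : ℕ :=
  if h : ∃ i, i < Λ.card ∧ Dom ρ H Λ (lbl Λ i) m y then Nat.find h else 0

theorem exists_dom (ρ : ℝ) (H : ℕ → E2 → ℂ) {Λ : Finset ℕ} (hΛ : Λ.Nonempty) (m : ℤ × ℤ) (y : E2) :
    ∃ i, i < Λ.card ∧ Dom ρ H Λ (lbl Λ i) m y := by
  obtain ⟨k, hk, hmax⟩ := Finset.exists_max_image Λ (fun k => ‖um ρ (H k) m y‖) hΛ
  obtain ⟨i, hi, rfl⟩ := lbl_surj hk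
  exact ⟨i, hi, hmax⟩

theorem argi_lt (ρ : ℝ) (H : ℕ → E2 → ℂ) {Λ : Finset ℕ} {n : ℕ} (hn : 0 < n) (hΛ : Λ.card ≤ n)
    (m : ℤ × ℤ) (y : E2) : argi ρ H Λ m y < n := by
  classical
  unfold argi
  split_ifs with h
  · exact (Nat.find_spec h).1.trans_le hΛ
  · exact hn

theorem argi_dom (ρ : ℝ) (H : ℕ → E2 → ℂ) {Λ : Finset ℕ} (hΛ : Λ.Nonempty)
    (m : ℤ × ℤ) (y : E2) : Dom ρ H Λ (lbl Λ (argi ρ H Λ m y)) m y := by
  classical
  unfold argi
  rw [dif_pos (exists_dom ρ H hΛ m y)]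
  exact (Nat.find_spec (exists_dom ρ H hΛ m y)).2

theorem isClosed_dom {ρ : ℝ} {H : ℕ → E2 → ℂ} {Λ : Finset ℕ} {k : ℕ}
    (hH : ∀ k ∈ Λ, Integrable (H k)) (hk : k ∈ Λ) (m : ℤ × ℤ) :
    MeasurableSet {y | Dom ρ H Λ k m y} := by
  have h1 : {y | Dom ρ H Λ k m y} =
      ⋂ k' ∈ Λ, {y | ‖um ρ (H k') m y‖ ≤ ‖um ρ (H k) m y‖} := by
    ext y
    simp [Dom]
  rw [h1]
  refine Finset.measurableSet_biInter Λ fun k' hk' => ?_
  exact measurableSet_le (continuous_um (hH k' hk') m).norm.measurable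
    (continuous_um (hH k hk) m).norm.measurable

theorem measurable_argi {ρ : ℝ} {H : ℕ → E2 → ℂ} {Λ : Finset ℕ}
    (hH : ∀ k ∈ Λ, Integrable (H k)) (m : ℤ × ℤ) : Measurable (argi ρ H Λ m) := by
  classical
  rcases Λ.eq_empty_or_nonempty with hΛ | hΛ
  · have : argi ρ H Λ m = fun _ => 0 := by
      funext y
      unfold argi
      rw [dif_neg]
      rintro ⟨i, hi, -⟩
      rw [hΛ] at hi
      simp at hi
    rw [this]
    exact measurable_const
  · refine measurable_to_countable' fun n => ?_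
    have hset : ∀ i, MeasurableSet {y | i < Λ.card ∧ Dom ρ H Λ (lbl Λ i) m y} := by
      intro i
      by_cases hi : i < Λ.card
      · simp only [hi, true_and]
        exact isClosed_dom hH (lbl_mem hi) m
      · simp [hi]
    have h1 : argi ρ H Λ m ⁻¹' {n} = {y | n < Λ.card ∧ Dom ρ H Λ (lbl Λ n) m y} \
        ⋃ i ∈ Finset.range n, {y | i < Λ.card ∧ Dom ρ H Λ (lbl Λ i) m y} := by
      ext y
      have hex := exists_dom ρ H hΛ m y
      have e1 : argi ρ H Λ m y = Nat.find hex := by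
        unfold argi
        rw [dif_pos hex]
      simp only [Set.mem_preimage, Set.mem_singleton_iff, e1, Nat.find_eq_iff, Set.mem_sdiff,
        Set.mem_ofPred_eq, Set.mem_iUnion, Finset.mem_range, exists_prop, not_exists, not_and]
    rw [h1]
    exact (hset n).diff (Finset.measurableSet_biUnion _ fun i _ => hset i)




end Crest.Agent.R138.Dom878
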