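import Mathlib

/-!
# R138 / R139, WAVE side, leaf W10 of doc 1979 (helper298): the real-number assembly

One label sequence, levels `0 .. n`, numbers `S j` (resp. `x j = log S j / log X`, `X = 1/dl`).
Flags: `gain j` (thick / dropped / misaligned), `nar j` (narrow label); all other levels are wide,
thin and aligned.
-/

set_option autoImplicit false

namespace Crest.Agent.R138.W298

/-- telescoping with a constant rate. -/
theorem tele (x : ℕ → ℝ) (g : ℝ) (a : ℕ) : ∀ m : ℕ,
    (∀ j, a ≤ j → j < a + m → x (j + 1) ≤ x j + g) → x (a + m) ≤ x a + m * g := by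
  intro m
  induction m with
  | zero => intro _; simp
  | succ m ih =>
    intro h
    have h1 := ih (fun j hj hj' => h j hj (by omega))
    have h2 := h (a + m) (by omega) (by omega)
    have e : a + (m + 1) = a + m + 1 := by ring
    rw [e]
    push_cast
    linarith

/-- telescoping with a potential. -/
theorem tele_pot (x s : ℕ → ℝ) (g : ℝ) (a m : ℕ)
    (h : ∀ j, a ≤ j → j < a + m → x (j + 1) ≤ x j + g + (s j - s (j + 1)) / 2) :
    x (a + m) ≤ x a + m * g + (s a - s (a + m)) / 2 := by
  have := tele (fun j => x j + s j / 2) g a m (fun j h1 h2 => by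
    have := h j h1 h2
    linarith)
  linarith




/-! ### multiplicative form -/

section mul

variable {X E : ℝ}

/-- logarithm in base `X`. -/
theorem log_step {a b u : ℝ} (hX : 1 < X) (hE : 1 ≤ E) (ha : 0 < a) (hb : 0 < b)
    (h : b ≤ E * X ^ u * a) :
    Real.log b / Real.log X ≤ Real.log a / Real.log X + u + Real.log E / Real.log X := by
  have hX0 : 0 < X := by linarith
  have hE0 : 0 < E := by linarith
  have hl : 0 < Real.log X := Real.log_pos hX
  have h1 : Real.log b ≤ Real.log (E * X ^ u * a) := Real.log_le_log hb h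
  rw [Real.log_mul (by positivity) ha.ne', Real.log_mul hE0.ne' (by positivity),
    Real.log_rpow hX0] at h1
  rw [div_le_iff₀ hl, add_mul, add_mul, div_mul_cancel₀ _ hl.ne', div_mul_cancel₀ _ hl.ne']
  linarith

theorem log_step_pot {a b u p p' : ℝ} (hX : 1 < X) (hE : 1 ≤ E) (ha : 0 < a) (hb : 0 < b)
    (hp : 0 < p) (hp' : 0 < p') (h : b ≤ E * X ^ u * (p / p') ^ (1 / 2 : ℝ) * a) :
    Real.log b / Real.log X ≤ Real.log a / Real.log X + u +
      (Real.log p / Real.log X - Real.log p' / Real.log X) / 2 + Real.log E / Real.log X := by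
  have hX0 : 0 < X := by linarith
  have hE0 : 0 < E := by linarith
  have hl : 0 < Real.log X := Real.log_pos hX
  have h1 : Real.log b ≤ Real.log (E * X ^ u * (p / p') ^ (1 / 2 : ℝ) * a) := Real.log_le_log hb h
  rw [Real.log_mul (by positivity) ha.ne', Real.log_mul (by positivity) (by positivity),
    Real.log_mul hE0.ne' (by positivity), Real.log_rpow hX0, Real.log_rpow (by positivity),
    Real.log_div hp.ne' hp'.ne'] at h1
  have e1 : Real.log a / Real.log X + u +
      (Real.log p / Real.log X - Real.log p' / Real.log X) / 2 + Real.log E / Real.log X =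
      (Real.log E + u * Real.log X + 1 / 2 * (Real.log p - Real.log p') + Real.log a) /
        Real.log X := by
    field_simp
    ring
  rw [e1]
  exact div_le_div_of_nonneg_right h1 hl.le

theorem log_pot {p u : ℝ} (hX : 1 < X) (hE : 1 ≤ E) (hp : 1 ≤ p) (h : p ≤ E * X ^ u) :
    0 ≤ Real.log p / Real.log X ∧
      Real.log p / Real.log X ≤ u + Real.log E / Real.log X := by
  have hX0 : 0 < X := by linarith
  have hE0 : 0 < E := by linarith
  have hl : 0 < Real.log X := Real.log_pos hX
  refine ⟨div_nonneg (Real.log_nonneg hp) hl.le, ?_⟩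
  have h1 : Real.log p ≤ Real.log (E * X ^ u) := Real.log_le_log (by linarith) h
  rw [Real.log_mul hE0.ne' (by positivity), Real.log_rpow hX0] at h1
  rw [div_le_iff₀ hl, add_mul, div_mul_cancel₀ _ hl.ne']
  linarith

theorem exp_back {a b u : ℝ} {N : ℕ} (hX : 1 < X) (hE : 1 ≤ E) (ha : 0 < a) (hb : 0 < b)
    (h : Real.log b / Real.log X ≤ Real.log a / Real.log X + u +
      N * (Real.log E / Real.log X)) : b ≤ E ^ N * X ^ u * a := by
  have hX0 : 0 < X := by linarith
  have hE0 : 0 < E := by linarith
  have hl : 0 < Real.log X := Real.log_pos hX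
  have h1 : Real.log b ≤ Real.log (E ^ N * X ^ u * a) := by
    rw [Real.log_mul (by positivity) ha.ne', Real.log_mul (by positivity) (by positivity),
      Real.log_rpow hX0, Real.log_pow]
    have e1 : Real.log a / Real.log X + u + N * (Real.log E / Real.log X) =
        (N * Real.log E + u * Real.log X + Real.log a) / Real.log X := by
      field_simp
      ring
    rw [e1] at h
    exact (div_le_div_iff_of_pos_right hl).1 h
  exact (Real.log_le_log_iff hb (by positivity)).1 h1



end mul

end Crest.Agent.R138.W298
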