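import Mathlib
import Crest.Agent.R138.Fq3_665
import Crest.Agent.R138.Fr1_665
import Crest.Agent.R138.Fq2_665

-- ▼ part R138/Fq4_665
section

/-! The slice formula: `T f` is a superposition of extensions of one surface. -/

set_option autoImplicit false

open MeasureTheory Filter Topology
open scoped ENNReal FourierTransform ContDiff

noncomputable section

namespace Crest.Agent.R138.Fq665

open Crest.Agent.R138.Defs
open Crest.Agent.R138.Fr665 (cv)

theorem norm_ee (t : ℝ) : ‖ee t‖ = 1 := by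
  unfold ee
  exact Complex.norm_exp_ofReal_mul_I _

theorem ee_add (s t : ℝ) : ee (s + t) = ee s * ee t := by
  unfold ee
  rw [← Complex.exp_add]
  congr 1
  push_cast
  ring

theorem continuous_ee : Continuous ee := by
  unfold ee
  fun_prop

theorem fourierInv_eq_ee (G : V → ℂ) (x : V) : 𝓕⁻ G x = ∫ ξ, G ξ * ee (inner ℝ x ξ) := by
  rw [Real.fourierInv_eq']
  refine integral_congr_ae (Eventually.of_forall fun ξ => ?_)
  simp only [smul_eq_mul, ee]
  rw [mul_comm, real_inner_comm]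

theorem fourier_eq_ee (f : V → ℂ) (ξ : V) : 𝓕 f ξ = ∫ y, f y * ee (-inner ℝ y ξ) := by
  rw [Real.fourier_eq']
  refine integral_congr_ae (Eventually.of_forall fun y => ?_)
  simp only [smul_eq_mul, ee]
  rw [mul_comm]
  congr 3
  ring_nf

theorem cv_eq {G f : V → ℂ} (hG : Integrable G) (hf : Integrable f) (x : V) :
    cv (𝓕⁻ G) f x = ∫ ξ, G ξ * 𝓕 f ξ * ee (inner ℝ x ξ) := by
  unfold cv
  have h1 : ∀ y, 𝓕⁻ G (x - y) * f y = ∫ ξ, G ξ * ee (inner ℝ (x - y) ξ) * f y := by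
    intro y
    rw [fourierInv_eq_ee, ← integral_mul_const]
  simp only [h1]
  rw [integral_integral_swap]
  · refine integral_congr_ae (Eventually.of_forall fun ξ => ?_)
    simp only
    rw [fourier_eq_ee, mul_right_comm, ← integral_const_mul]
    refine integral_congr_ae (Eventually.of_forall fun y => ?_)
    simp only
    rw [inner_sub_left, sub_eq_add_neg, ee_add]
    ring
  · have h2 : Integrable (fun p : V × V => f p.1 * G p.2) (volume.prod volume) := hf.mul_prod hG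
    have h3 : AEStronglyMeasurable (fun p : V × V => ee (inner ℝ (x - p.1) p.2))
        (volume.prod volume) :=
      (continuous_ee.comp (by fun_prop : Continuous fun p : V × V => (inner ℝ (x - p.1) p.2 : ℝ))
        ).aestronglyMeasurable
    have h4 := h2.bdd_mul (c := 1) h3 (Eventually.of_forall fun p => (norm_ee _).le)
    refine h4.congr (Eventually.of_forall fun p => ?_)
    simp only [Function.uncurry]
    ring

/-- the density on the slice `τ`. -/
def gs (J : PR ≃ₗᵢ[ℝ] V) (H : E2 → ℝ) (ρ : ℝ) (G f : V → ℂ) (τ : ℝ) (η : E2) : ℂ :=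
  G (up J (ρ • η) (1 - ρ ^ 2 * H η + τ)) * 𝓕 f (up J (ρ • η) (1 - ρ ^ 2 * H η + τ))

variable (J : PR ≃ₗᵢ[ℝ] V) {H : E2 → ℝ} {ρ : ℝ}

/-- the change of variables. -/
def cw (J : PR ≃ₗᵢ[ℝ] V) (H : E2 → ℝ) (ρ : ℝ) (q : ℝ × E2) : V :=
  up J (ρ • q.2) (1 - ρ ^ 2 * H q.2 + q.1)

theorem continuous_cw (hH : Continuous H) : Continuous (cw J H ρ) := by
  unfold cw
  exact (continuous_up J).comp (by fun_prop :
    Continuous fun q : ℝ × E2 => ((ρ • q.2, 1 - ρ ^ 2 * H q.2 + q.1) : E2 × ℝ))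

/-- lower Lebesgue version of the change of variables. -/
theorem lintegral_cw (hH : Continuous H) (hρ : 0 < ρ) {u : V → ℝ≥0∞} (hu : Measurable u) :
    ∫⁻ q : ℝ × E2, u (cw J H ρ q) = ENNReal.ofReal (ρ⁻¹ ^ 2) * ∫⁻ v, u v := by
  have hm : Measurable fun q : ℝ × E2 => u (cw J H ρ q) := hu.comp (continuous_cw J hH).measurable
  have hup : Measurable fun p : E2 × ℝ => u (up J p.1 p.2) := hu.comp (continuous_up J).measurable
  rw [Measure.volume_eq_prod, lintegral_prod_symm _ hm.aemeasurable]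
  have h1 : ∀ η : E2, ∫⁻ τ : ℝ, u (cw J H ρ (τ, η)) = ∫⁻ τ : ℝ, u (up J (ρ • η) τ) := by
    intro η
    exact lintegral_add_left_eq_self (fun τ => u (up J (ρ • η) τ)) (1 - ρ ^ 2 * H η)
  simp only [h1]
  have h2 : ∫⁻ η : E2, ∫⁻ τ : ℝ, u (up J (ρ • η) τ) =
      ENNReal.ofReal (ρ⁻¹ ^ 2) * ∫⁻ ξ : E2, ∫⁻ τ : ℝ, u (up J ξ τ) := by
    have hd : Module.finrank ℝ E2 = 2 := by simp
    have := Measure.map_addHaar_smul (volume : Measure E2) hρ.ne'
    have hms : Measurable fun ξ : E2 => ∫⁻ τ : ℝ, u (up J ξ τ) :=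
      Measurable.lintegral_prod_right' hup
    calc ∫⁻ η : E2, ∫⁻ τ : ℝ, u (up J (ρ • η) τ)
        = ∫⁻ ξ, (∫⁻ τ : ℝ, u (up J ξ τ)) ∂(Measure.map (ρ • · ) (volume : Measure E2)) := by
          rw [lintegral_map hms (measurable_const_smul ρ)]
      _ = _ := by
          rw [this, lintegral_smul_measure, hd]
          congr 2
          rw [abs_of_nonneg (by positivity)]
          simp
  rw [h2, lintegral_up J u hu, Measure.volume_eq_prod, lintegral_prod _ hup.aemeasurable]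

end Crest.Agent.R138.Fq665
end
end

-- ▼ part R138/Fq5_665
section

/-! The slice formula: pointwise identity and the `L³` bound. -/

set_option autoImplicit false

open MeasureTheory Filter Topology
open scoped ENNReal FourierTransform ContDiff

noncomputable section

namespace Crest.Agent.R138.Fq665

open Crest.Agent.R138.Defs
open Crest.Agent.R138.Fr665 (cv)

variable (J : PR ≃ₗᵢ[ℝ] V) {H : E2 → ℝ} {ρ : ℝ}

theorem map_cw (hH : Continuous H) (hρ : 0 < ρ) :
    Measure.map (cw J H ρ) volume = ENNReal.ofReal (ρ⁻¹ ^ 2) • (volume : Measure V) := by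
  ext s hs
  rw [Measure.map_apply (continuous_cw J hH).measurable hs]
  have := lintegral_cw J hH hρ (u := s.indicator 1) (measurable_one.indicator hs)
  rw [lintegral_indicator_one hs] at this
  rw [Measure.smul_apply, smul_eq_mul, ← this]
  rw [← lintegral_indicator_one ((continuous_cw J hH).measurable hs)]
  rfl

theorem integral_cw (hH : Continuous H) (hρ : 0 < ρ) {F : V → ℂ} (hF : Integrable F) :
    ∫ v, F v = (ρ ^ 2 : ℝ) • ∫ τ : ℝ, ∫ η : E2, F (cw J H ρ (τ, η)) := by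
  have hc := (continuous_cw J (H := H) (ρ := ρ) hH)
  have hm := map_cw J hH hρ
  have hF' : Integrable F (Measure.map (cw J H ρ) volume) := by
    rw [hm]; exact hF.smul_measure (by simp)
  have hi : Integrable (fun q : ℝ × E2 => F (cw J H ρ q)) volume :=
    (integrable_map_measure hF'.1 hc.measurable.aemeasurable).1 hF'
  have h1 : ∫ q : ℝ × E2, F (cw J H ρ q) = (ρ⁻¹ ^ 2 : ℝ) • ∫ v, F v := by
    rw [← integral_map hc.measurable.aemeasurable hF'.1, hm, integral_smul_measure,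
      ENNReal.toReal_ofReal (by positivity)]
  rw [Measure.volume_eq_prod, integral_prod _ hi] at h1
  rw [h1, smul_smul]
  have : ρ ^ 2 * ρ⁻¹ ^ 2 = 1 := by field_simp
  rw [this, one_smul]

theorem continuous_fourier {f : V → ℂ} (hf : Integrable f) : Continuous (𝓕 f) := by
  simpa using! VectorFourier.fourierIntegral_continuous (V := V) (W := V)
    Real.continuous_fourierChar (L := innerₗ V) continuous_inner hf

theorem cv_eq_slices (hH : Continuous H) (hρ : 0 < ρ) {G f : V → ℂ} (hGc : Continuous G)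
    (hGs : HasCompactSupport G) (hf : Integrable f) (x : E2) (t : ℝ) :
    cv (𝓕⁻ G) f (up J x t) = (ρ ^ 2 : ℝ) • ∫ τ : ℝ,
      ee (t * (1 + τ)) * ext H (gs J H ρ G f τ) (ρ • x) (-(ρ ^ 2 * t)) := by
  have hG : Integrable G := hGc.integrable_of_hasCompactSupport hGs
  rw [cv_eq hG hf]
  have hcf := continuous_fourier hf
  have hF : Integrable fun ξ => G ξ * 𝓕 f ξ * ee (inner ℝ (up J x t) ξ) := by
    apply Continuous.integrable_of_hasCompactSupport
    · exact (hGc.mul hcf).mul (continuous_ee.comp (by fun_prop))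
    · exact (hGs.mul_right).mul_right
  rw [integral_cw J hH hρ hF]
  congr 1
  refine integral_congr_ae (Eventually.of_forall fun τ => ?_)
  simp only
  unfold ext
  rw [← integral_const_mul]
  refine integral_congr_ae (Eventually.of_forall fun η => ?_)
  simp only [cw, gs]
  have he : inner ℝ (up J x t) (up J (ρ • η) (1 - ρ ^ 2 * H η + τ)) =
      t * (1 + τ) + (inner ℝ (ρ • x) η + -(ρ ^ 2 * t) * H η) := by
    rw [inner_up, inner_smul_right, inner_smul_left]
    simp only [conj_trivial]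
    ring
  rw [he, ee_add]
  ring

theorem measurable_ext_slices (hH : Continuous H) {G f : V → ℂ} (hGc : Continuous G)
    (hf : Integrable f) :
    Measurable fun q : ℝ × (E2 × ℝ) => ext H (gs J H ρ G f q.1) q.2.1 q.2.2 := by
  have hcf := continuous_fourier hf
  have hc : Continuous fun z : (ℝ × (E2 × ℝ)) × E2 =>
      gs J H ρ G f z.1.1 z.2 * ee (inner ℝ z.1.2.1 z.2 + z.1.2.2 * H z.2) := by
    unfold gs
    have h1 : Continuous fun z : (ℝ × (E2 × ℝ)) × E2 => cw J H ρ (z.1.1, z.2) :=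
      (continuous_cw J hH).comp (by fun_prop)
    exact ((hGc.comp h1).mul (hcf.comp h1)).mul (continuous_ee.comp (by fun_prop))
  exact (StronglyMeasurable.integral_prod_right' (ν := (volume : Measure E2))
    hc.stronglyMeasurable).measurable

/-- anisotropic scaling. -/
theorem lintegral_scale (hρ : 0 < ρ) {u : E2 × ℝ → ℝ≥0∞} (hu : Measurable u) :
    ∫⁻ p : E2 × ℝ, u (ρ • p.1, -(ρ ^ 2 * p.2)) = ENNReal.ofReal (ρ⁻¹ ^ 4) * ∫⁻ p, u p := by
  have hm : Measurable fun p : E2 × ℝ => u (ρ • p.1, -(ρ ^ 2 * p.2)) :=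
    hu.comp (by fun_prop)
  rw [Measure.volume_eq_prod, lintegral_prod _ hm.aemeasurable]
  have hd : Module.finrank ℝ E2 = 2 := by simp
  have h1 : ∀ x : E2, ∫⁻ t : ℝ, u (ρ • x, -(ρ ^ 2 * t)) =
      ENNReal.ofReal (ρ⁻¹ ^ 2) * ∫⁻ t : ℝ, u (ρ • x, t) := by
    intro x
    have hr : -(ρ ^ 2) ≠ 0 := by
      have : (0:ℝ) < ρ ^ 2 := by positivity
      linarith
    have h2 := Measure.map_addHaar_smul (volume : Measure ℝ) hr
    have hms : Measurable fun t : ℝ => u (ρ • x, t) := hu.comp (by fun_prop)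
    calc ∫⁻ t : ℝ, u (ρ • x, -(ρ ^ 2 * t))
        = ∫⁻ t, u (ρ • x, t) ∂(Measure.map ((-(ρ ^ 2)) • · ) (volume : Measure ℝ)) := by
          rw [lintegral_map hms (measurable_const_smul _)]
          refine lintegral_congr fun t => ?_
          congr 2
          simp
      _ = _ := by
          rw [h2, lintegral_smul_measure]
          congr 2
          simp only [Module.finrank_self, pow_one, inv_neg, abs_neg]
          rw [abs_of_nonneg (by positivity)]
          simp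
  simp only [h1]
  have hms : Measurable fun x : E2 => ∫⁻ t : ℝ, u (x, t) := Measurable.lintegral_prod_right' hu
  rw [lintegral_const_mul (f := fun x : E2 => ∫⁻ t : ℝ, u (ρ • x, t)) _
    (hms.comp (measurable_const_smul ρ))]
  have h2 : ∫⁻ x : E2, ∫⁻ t : ℝ, u (ρ • x, t) =
      ENNReal.ofReal (ρ⁻¹ ^ 2) * ∫⁻ x : E2, ∫⁻ t : ℝ, u (x, t) := by
    have := Measure.map_addHaar_smul (volume : Measure E2) hρ.ne'
    calc ∫⁻ x : E2, ∫⁻ t : ℝ, u (ρ • x, t)
        = ∫⁻ x, (∫⁻ t : ℝ, u (x, t)) ∂(Measure.map (ρ • · ) (volume : Measure E2)) := by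
          rw [lintegral_map hms (measurable_const_smul ρ)]
      _ = _ := by
          rw [this, lintegral_smul_measure, hd]
          congr 2
          rw [abs_of_nonneg (by positivity)]
          simp
  rw [h2, lintegral_prod _ hu.aemeasurable, ← mul_assoc, ← ENNReal.ofReal_mul (by positivity)]
  congr 2
  ring

theorem measurableSet_cyl (R : ℝ) : MeasurableSet (cyl R) := by
  unfold cyl
  exact (measurableSet_le (continuous_fst.norm.measurable) measurable_const).inter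
    (measurableSet_le (continuous_snd.abs.measurable) measurable_const)

/-- the cube of an integral over a short interval. -/
theorem lint_cube_le {T : ℝ} (hT : 0 ≤ T) {u : ℝ → ℝ≥0∞} (hu : Measurable u)
    (h0 : ∀ τ, T < |τ| → u τ = 0) :
    (∫⁻ τ, u τ) ^ 3 ≤ ENNReal.ofReal ((2 * T) ^ 2) * ∫⁻ τ, u τ ^ 3 := by
  set I : ℝ → ℝ≥0∞ := (Set.Icc (-T) T).indicator 1 with hI
  have hIm : Measurable I := measurable_one.indicator measurableSet_Icc
  have hII : ∫⁻ τ, I τ = ENNReal.ofReal (2 * T) := by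
    rw [hI, lintegral_indicator_one measurableSet_Icc, Real.volume_Icc]
    congr 1; ring
  have h1 : ∀ τ, u τ = I τ ^ (2/3 : ℝ) * (u τ ^ 3) ^ (1/3 : ℝ) := by
    intro τ
    have h3 : (u τ ^ 3) ^ (1/3 : ℝ) = u τ := by
      rw [← ENNReal.rpow_natCast, ← ENNReal.rpow_mul]; norm_num
    rw [h3]
    by_cases hτ : |τ| ≤ T
    · have : τ ∈ Set.Icc (-T) T := abs_le.1 hτ
      simp [hI, this]
    · push Not at hτ
      simp [h0 τ hτ]
  have h2 : ∫⁻ τ, u τ ≤ (∫⁻ τ, I τ) ^ (2/3 : ℝ) * (∫⁻ τ, u τ ^ 3) ^ (1/3 : ℝ) := by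
    calc ∫⁻ τ, u τ = ∫⁻ τ, I τ ^ (2/3 : ℝ) * (u τ ^ 3) ^ (1/3 : ℝ) := lintegral_congr h1
      _ ≤ _ := ENNReal.lintegral_mul_norm_pow_le hIm.aemeasurable (hu.pow_const 3).aemeasurable
        (by norm_num) (by norm_num) (by norm_num)
  calc (∫⁻ τ, u τ) ^ 3 ≤ ((∫⁻ τ, I τ) ^ (2/3 : ℝ) * (∫⁻ τ, u τ ^ 3) ^ (1/3 : ℝ)) ^ 3 := by
        gcongr
    _ = _ := by
        rw [mul_pow, ← ENNReal.rpow_natCast, ← ENNReal.rpow_mul, ← ENNReal.rpow_natCast,
          ← ENNReal.rpow_mul, hII, ENNReal.ofReal_pow (by positivity), ← ENNReal.rpow_natCast]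
        norm_num

/-- **the `L³` bound by slices.** -/
theorem slices_bound (hH : Continuous H) (hρ : 0 < ρ) (hρ1 : ρ ≤ 1) {G f : V → ℂ}
    (hGc : Continuous G) (hGs : HasCompactSupport G) (hf : Integrable f) {T : ℝ} (hT : 0 ≤ T)
    (hG0 : ∀ τ η, T < |τ| → G (cw J H ρ (τ, η)) = 0) (R : ℝ) :
    ∫⁻ p in cyl R, ‖cv (𝓕⁻ G) f (up J p.1 p.2)‖ₑ ^ 3 ≤
      ENNReal.ofReal (ρ ^ 2 * (2 * T) ^ 2) *
        ∫⁻ τ : ℝ, ∫⁻ p in cyl R, ‖ext H (gs J H ρ G f τ) p.1 p.2‖ₑ ^ 3 := by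
  have hm := measurable_ext_slices (ρ := ρ) J hH hGc hf
  have hg0 : ∀ τ, T < |τ| → gs J H ρ G f τ = 0 := by
    intro τ hτ; ext η
    have := hG0 τ η hτ
    simp only [cw] at this
    simp [gs, this]
  have hpt : ∀ p : E2 × ℝ, ‖cv (𝓕⁻ G) f (up J p.1 p.2)‖ₑ ^ 3 ≤
      ENNReal.ofReal (ρ ^ 6 * (2 * T) ^ 2) *
        ∫⁻ τ : ℝ, ‖ext H (gs J H ρ G f τ) (ρ • p.1) (-(ρ ^ 2 * p.2))‖ₑ ^ 3 := by
    intro p
    rw [cv_eq_slices J hH hρ hGc hGs hf, enorm_smul]
    have h1 : ‖∫ τ : ℝ, ee (p.2 * (1 + τ)) *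
        ext H (gs J H ρ G f τ) (ρ • p.1) (-(ρ ^ 2 * p.2))‖ₑ ≤
        ∫⁻ τ : ℝ, ‖ext H (gs J H ρ G f τ) (ρ • p.1) (-(ρ ^ 2 * p.2))‖ₑ := by
      refine (enorm_integral_le_lintegral_enorm _).trans_eq ?_
      refine lintegral_congr fun τ => ?_
      rw [enorm_mul]
      have : ‖ee (p.2 * (1 + τ))‖ₑ = 1 := by
        rw [← ofReal_norm, norm_ee, ENNReal.ofReal_one]
      rw [this, one_mul]
    have h2 := lint_cube_le hT
      (u := fun τ => ‖ext H (gs J H ρ G f τ) (ρ • p.1) (-(ρ ^ 2 * p.2))‖ₑ)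
      ((hm.comp (by fun_prop : Measurable fun τ : ℝ => (τ, (ρ • p.1, -(ρ ^ 2 * p.2))))).enorm)
      (fun τ hτ => by simp [hg0 τ hτ, ext])
    calc (‖(ρ ^ 2 : ℝ)‖ₑ * ‖∫ τ : ℝ, ee (p.2 * (1 + τ)) *
        ext H (gs J H ρ G f τ) (ρ • p.1) (-(ρ ^ 2 * p.2))‖ₑ) ^ 3
        ≤ (‖(ρ ^ 2 : ℝ)‖ₑ * ∫⁻ τ : ℝ,
            ‖ext H (gs J H ρ G f τ) (ρ • p.1) (-(ρ ^ 2 * p.2))‖ₑ) ^ 3 := by gcongr
      _ = ‖(ρ ^ 2 : ℝ)‖ₑ ^ 3 * (∫⁻ τ : ℝ,
            ‖ext H (gs J H ρ G f τ) (ρ • p.1) (-(ρ ^ 2 * p.2))‖ₑ) ^ 3 := by rw [mul_pow]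
      _ ≤ ‖(ρ ^ 2 : ℝ)‖ₑ ^ 3 * (ENNReal.ofReal ((2 * T) ^ 2) * ∫⁻ τ : ℝ,
            ‖ext H (gs J H ρ G f τ) (ρ • p.1) (-(ρ ^ 2 * p.2))‖ₑ ^ 3) := by gcongr
      _ = _ := by
        rw [← mul_assoc]
        congr 1
        rw [← ofReal_norm, Real.norm_of_nonneg (by positivity), ← ENNReal.ofReal_pow (by positivity),
          ← ENNReal.ofReal_mul (by positivity)]
        congr 1
        ring
  have hm2 : Measurable fun q : ℝ × (E2 × ℝ) =>
      ‖ext H (gs J H ρ G f q.1) (ρ • q.2.1) (-(ρ ^ 2 * q.2.2))‖ₑ ^ 3 :=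
    ((hm.comp (by fun_prop : Measurable fun q : ℝ × (E2 × ℝ) =>
      (q.1, (ρ • q.2.1, -(ρ ^ 2 * q.2.2))))).enorm).pow_const 3
  calc ∫⁻ p in cyl R, ‖cv (𝓕⁻ G) f (up J p.1 p.2)‖ₑ ^ 3
      ≤ ∫⁻ p in cyl R, ENNReal.ofReal (ρ ^ 6 * (2 * T) ^ 2) *
        ∫⁻ τ : ℝ, ‖ext H (gs J H ρ G f τ) (ρ • p.1) (-(ρ ^ 2 * p.2))‖ₑ ^ 3 :=
        lintegral_mono fun p => hpt p
    _ = ENNReal.ofReal (ρ ^ 6 * (2 * T) ^ 2) * ∫⁻ p in cyl R,
        ∫⁻ τ : ℝ, ‖ext H (gs J H ρ G f τ) (ρ • p.1) (-(ρ ^ 2 * p.2))‖ₑ ^ 3 := by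
        rw [lintegral_const_mul]
        exact Measurable.lintegral_prod_left' (f := fun q : ℝ × (E2 × ℝ) =>
          ‖ext H (gs J H ρ G f q.1) (ρ • q.2.1) (-(ρ ^ 2 * q.2.2))‖ₑ ^ 3) hm2
    _ = ENNReal.ofReal (ρ ^ 6 * (2 * T) ^ 2) * ∫⁻ τ : ℝ, ∫⁻ p in cyl R,
        ‖ext H (gs J H ρ G f τ) (ρ • p.1) (-(ρ ^ 2 * p.2))‖ₑ ^ 3 := by
        congr 1
        rw [lintegral_lintegral_swap]
        exact (hm2.comp measurable_swap).aemeasurable
    _ ≤ ENNReal.ofReal (ρ ^ 6 * (2 * T) ^ 2) * ∫⁻ τ : ℝ, ENNReal.ofReal (ρ⁻¹ ^ 4) *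
        ∫⁻ p in cyl R, ‖ext H (gs J H ρ G f τ) p.1 p.2‖ₑ ^ 3 := by
        gcongr with τ
        set u : E2 × ℝ → ℝ≥0∞ := (cyl R).indicator fun p => ‖ext H (gs J H ρ G f τ) p.1 p.2‖ₑ ^ 3
        have hu : Measurable u :=
          (((hm.comp (by fun_prop : Measurable fun p : E2 × ℝ => (τ, p))).enorm).pow_const
            3).indicator (measurableSet_cyl R)
        rw [← lintegral_indicator (measurableSet_cyl R), ← lintegral_indicator (measurableSet_cyl R),
          ← lintegral_scale hρ hu]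
        refine lintegral_mono fun p => ?_
        by_cases hp : p ∈ cyl R
        · have hp' : (ρ • p.1, -(ρ ^ 2 * p.2)) ∈ cyl R := by
            obtain ⟨h1, h2⟩ := hp
            refine ⟨?_, ?_⟩
            · simp only [norm_smul, Real.norm_eq_abs, abs_of_pos hρ]
              calc ρ * ‖p.1‖ ≤ 1 * ‖p.1‖ := by gcongr
                _ ≤ R := by linarith
            · simp only [abs_neg, abs_mul, abs_of_nonneg (sq_nonneg ρ)]
              have : ρ ^ 2 ≤ 1 := by nlinarith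
              calc ρ ^ 2 * |p.2| ≤ 1 * |p.2| := by gcongr
                _ ≤ R := by linarith
          simp only [u, Set.indicator_of_mem hp, Set.indicator_of_mem hp']
          rfl
        · simp [Set.indicator_of_notMem hp]
    _ = _ := by
        rw [lintegral_const_mul, ← mul_assoc, ← ENNReal.ofReal_mul (by positivity)]
        · congr 2
          field_simp
        · exact Measurable.lintegral_prod_right' (f := fun q : ℝ × (E2 × ℝ) =>
            ‖ext H (gs J H ρ G f q.1) q.2.1 q.2.2‖ₑ ^ 3) (hm.enorm.pow_const 3)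

end Crest.Agent.R138.Fq665
end
end

-- ▼ part R138/Fq6_665
section

/-! Energy of the slices and the consumption of the extension estimate. -/

set_option autoImplicit false

open MeasureTheory Filter Topology
open scoped ENNReal FourierTransform ContDiff

noncomputable section

namespace Crest.Agent.R138.Fq665

open Crest.Agent.R138.Defs
open Crest.Agent.R138.Fr665 (cv)

variable (J : PR ≃ₗᵢ[ℝ] V) {H : E2 → ℝ} {ρ : ℝ}

theorem continuous_gs (hH : Continuous H) {G f : V → ℂ} (hGc : Continuous G) (hf : Integrable f)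
    (τ : ℝ) : Continuous (gs J H ρ G f τ) := by
  have hcf := continuous_fourier hf
  have h1 : Continuous fun η : E2 => cw J H ρ (τ, η) := (continuous_cw J hH).comp (by fun_prop)
  exact (hGc.comp h1).mul (hcf.comp h1)

/-- energy of the slices. -/
theorem energy_slices (hH : Continuous H) (hρ : 0 < ρ) {G f : V → ℂ} (hGc : Continuous G)
    (hf : Integrable f) (hf2 : MemLp f 2) {M : ℝ} (hM : ∀ ξ, ‖G ξ‖ ≤ M) :
    ∫⁻ τ : ℝ, ∫⁻ η, ‖gs J H ρ G f τ η‖ₑ ^ 2 ≤
      ENNReal.ofReal (ρ⁻¹ ^ 2 * M ^ 2) * ∫⁻ v, ‖f v‖ₑ ^ 2 := by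
  have hM0 : 0 ≤ M := (norm_nonneg _).trans (hM 0)
  have hcf := continuous_fourier hf
  have hm : Measurable fun v => ‖G v * 𝓕 f v‖ₑ ^ 2 := ((hGc.mul hcf).measurable.enorm).pow_const 2
  have h1 := lintegral_cw J (ρ := ρ) hH hρ hm
  have hm' : Measurable fun q : ℝ × E2 => ‖G (cw J H ρ q) * 𝓕 f (cw J H ρ q)‖ₑ ^ 2 :=
    hm.comp (continuous_cw J hH).measurable
  have h2 := lintegral_prod (μ := (volume : Measure ℝ)) (ν := (volume : Measure E2)) _
    hm'.aemeasurable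
  rw [← Measure.volume_eq_prod] at h2
  replace h1 := h2.symm.trans h1
  calc ∫⁻ τ : ℝ, ∫⁻ η, ‖gs J H ρ G f τ η‖ₑ ^ 2
      = ENNReal.ofReal (ρ⁻¹ ^ 2) * ∫⁻ v, ‖G v * 𝓕 f v‖ₑ ^ 2 := h1
    _ ≤ ENNReal.ofReal (ρ⁻¹ ^ 2) * ∫⁻ v, ENNReal.ofReal (M ^ 2) * ‖𝓕 f v‖ₑ ^ 2 := by
        gcongr with v
        rw [enorm_mul, mul_pow, ENNReal.ofReal_pow hM0]
        gcongr
        rw [← ofReal_norm]
        exact ENNReal.ofReal_le_ofReal (hM v)
    _ = _ := by
        rw [lintegral_const_mul _ ((hcf.measurable.enorm).pow_const 2), plancherel hf hf2, ← mul_assoc,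
          ← ENNReal.ofReal_mul (by positivity)]

/-- consumption of the extension estimate. -/
theorem slices_consume (hH : Continuous H) (hρ : 0 < ρ) (hρ1 : ρ ≤ 1) {G f : V → ℂ}
    (hGc : Continuous G) (hGs : HasCompactSupport G) (hf : Integrable f) (hf2 : MemLp f 2)
    {M : ℝ} (hM : ∀ ξ, ‖G ξ‖ ≤ M) {T : ℝ} (hT : 0 ≤ T)
    (hG0 : ∀ τ η, T < |τ| → G (cw J H ρ (τ, η)) = 0)
    (hG1 : ∀ τ η, |τ| ≤ T → 1 < ‖η‖ → G (cw J H ρ (τ, η)) = 0) {R A : ℝ} (hA : 0 ≤ A)
    (hE : ∀ τ, |τ| ≤ T → ∫⁻ p in cyl R, ‖ext H (gs J H ρ G f τ) p.1 p.2‖ₑ ^ 3 ≤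
      ENNReal.ofReal (A * ∫ ξ, ‖gs J H ρ G f τ ξ‖ ^ 2)) :
    ∫⁻ p in cyl R, ‖cv (𝓕⁻ G) f (up J p.1 p.2)‖ₑ ^ 3 ≤
      ENNReal.ofReal ((2 * T) ^ 2 * A * M ^ 2) * ∫⁻ v, ‖f v‖ₑ ^ 2 := by
  have hM0 : 0 ≤ M := (norm_nonneg _).trans (hM 0)
  refine (slices_bound J hH hρ hρ1 hGc hGs hf hT hG0 R).trans ?_
  have h1 : ∀ τ : ℝ, ∫⁻ p in cyl R, ‖ext H (gs J H ρ G f τ) p.1 p.2‖ₑ ^ 3 ≤
      ENNReal.ofReal A * ∫⁻ η, ‖gs J H ρ G f τ η‖ₑ ^ 2 := by
    intro τ
    by_cases hτ : |τ| ≤ T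
    · refine (hE τ hτ).trans (le_of_eq ?_)
      rw [ENNReal.ofReal_mul hA]
      congr 1
      rw [ofReal_integral_eq_lintegral_ofReal]
      · refine lintegral_congr fun η => ?_
        rw [ENNReal.ofReal_pow (norm_nonneg _), ofReal_norm]
      · have hc := continuous_gs J (ρ := ρ) hH hGc hf τ
        apply Continuous.integrable_of_hasCompactSupport (hc.norm.pow 2)
        apply HasCompactSupport.of_support_subset_isCompact (isCompact_closedBall (0 : E2) 1)
        intro η hη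
        by_contra hη'
        simp only [Metric.mem_closedBall, dist_zero_right, not_le] at hη'
        apply hη
        have := hG1 τ η hτ hη'
        simp only [cw] at this
        simp [gs, this]
      · exact Eventually.of_forall fun η => by positivity
    · push Not at hτ
      have hg0 : gs J H ρ G f τ = 0 := by
        ext η
        have := hG0 τ η hτ
        simp only [cw] at this
        simp [gs, this]
      simp [hg0, ext]
  calc ENNReal.ofReal (ρ ^ 2 * (2 * T) ^ 2) *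
        ∫⁻ τ : ℝ, ∫⁻ p in cyl R, ‖ext H (gs J H ρ G f τ) p.1 p.2‖ₑ ^ 3
      ≤ ENNReal.ofReal (ρ ^ 2 * (2 * T) ^ 2) *
        ∫⁻ τ : ℝ, ENNReal.ofReal A * ∫⁻ η, ‖gs J H ρ G f τ η‖ₑ ^ 2 := by
        gcongr with τ; exact h1 τ
    _ ≤ ENNReal.ofReal (ρ ^ 2 * (2 * T) ^ 2) * (ENNReal.ofReal A *
        (ENNReal.ofReal (ρ⁻¹ ^ 2 * M ^ 2) * ∫⁻ v, ‖f v‖ₑ ^ 2)) := by
        rw [lintegral_const_mul' _ _ ENNReal.ofReal_ne_top]
        gcongr
        exact energy_slices J hH hρ hGc hf hf2 hM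
    _ = _ := by
        rw [← mul_assoc, ← mul_assoc, ← ENNReal.ofReal_mul (by positivity),
          ← ENNReal.ofReal_mul (by positivity)]
        congr 2
        field_simp

end Crest.Agent.R138.Fq665
end
end

-- ▼ part R138/Fq7_665

/-! Volumes of rectangles, near and far parts: the box bound from kernel decay. -/

set_option autoImplicit false

open MeasureTheory Filter Topology
open scoped ENNReal FourierTransform ContDiff

noncomputable section

namespace Crest.Agent.R138.Fq665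

open Crest.Agent.R138.Defs
open Crest.Agent.R138.Fr665 (cv)

/-- a rectangle in the plane. -/
def rect (b : OrthonormalBasis (Fin 2) ℝ E2) (p : E2) (r : Fin 2 → ℝ) : Set E2 :=
  {x : E2 | ∀ i, |inner ℝ (x - p) (b i)| ≤ r i}


theorem vol_rect (b : OrthonormalBasis (Fin 2) ℝ E2) (p : E2) (r : Fin 2 → ℝ)
    (hr : ∀ i, 0 ≤ r i) : volume (rect b p r) = ENNReal.ofReal (4 * (r 0 * r 1)) := by
  set f : E2 → (Fin 2 → ℝ) := fun x => WithLp.ofLp (b.repr (x - p)) with hf
  have hmp : MeasurePreserving f volume volume := by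
    have h1 : MeasurePreserving (fun x : E2 => x - p) volume volume :=
      measurePreserving_sub_right volume p
    have h2 : MeasurePreserving b.repr volume volume := b.repr.measurePreserving
    have h3 : MeasurePreserving (WithLp.ofLp : E2 → (Fin 2 → ℝ)) volume volume :=
      PiLp.volume_preserving_ofLp (Fin 2)
    exact h3.comp (h2.comp h1)
  have hs : rect b p r = f ⁻¹' (Set.univ.pi fun i => Set.Icc (-r i) (r i)) := by
    ext x
    simp only [rect, Set.mem_ofPred_eq, Set.mem_preimage, Set.mem_pi, Set.mem_univ, true_imp_iff,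
      Set.mem_Icc, hf, abs_le]
    refine forall_congr' fun i => ?_
    rw [OrthonormalBasis.repr_apply_apply, real_inner_comm]
  rw [hs, hmp.measure_preimage (MeasurableSet.univ_pi fun i => measurableSet_Icc).nullMeasurableSet,
    volume_pi_pi]
  simp only [Real.volume_Icc, Fin.prod_univ_two]
  rw [← ENNReal.ofReal_mul (by have := hr 0; linarith)]
  congr 1
  ring

/-- the plank as a family of rectangles. -/
theorem plank_slice (c : E2) (b : OrthonormalBasis (Fin 2) ℝ E2) (s : Fin 2 → ℝ) (R : ℝ) (x0 : E2)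
    (t0 t : ℝ) (x : E2) : (x, t) ∈ plank c b s R x0 t0 ↔
      |t - t0| ≤ R ∧ x ∈ rect b (x0 - (t - t0) • c) (fun i => s i * R) := by
  simp only [plank, rect, Set.mem_ofPred_eq]
  have : x - x0 + (t - t0) • c = x - (x0 - (t - t0) • c) := by abel
  rw [this]

theorem measurableSet_plank (c : E2) (b : OrthonormalBasis (Fin 2) ℝ E2) (s : Fin 2 → ℝ) (R : ℝ)
    (x0 : E2) (t0 : ℝ) : MeasurableSet (plank c b s R x0 t0) := by
  unfold plank
  rw [Set.ofPred_and, Set.ofPred_forall]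
  refine (measurableSet_le (by fun_prop) measurable_const).inter
    (MeasurableSet.iInter fun i => measurableSet_le (by fun_prop) measurable_const)

/-- volume of a family of rectangles over an interval. -/
theorem vol_fam_le (b : OrthonormalBasis (Fin 2) ℝ E2) (c x0 : E2) (r : Fin 2 → ℝ)
    (hr : ∀ i, 0 ≤ r i) (t0 t1 L : ℝ) (hL : 0 ≤ L) (S : Set (E2 × ℝ)) (hS : MeasurableSet S)
    (h : ∀ x t, (x, t) ∈ S → |t - t1| ≤ L ∧ x ∈ rect b (x0 - (t - t0) • c) r) :
    volume S ≤ ENNReal.ofReal (2 * L * (4 * (r 0 * r 1))) := by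
  rw [Measure.volume_eq_prod, Measure.prod_apply_symm hS]
  calc ∫⁻ t : ℝ, volume ((fun x : E2 => (x, t)) ⁻¹' S)
      ≤ ∫⁻ t : ℝ, (Set.Icc (t1 - L) (t1 + L)).indicator
          (fun _ => ENNReal.ofReal (4 * (r 0 * r 1))) t := by
        refine lintegral_mono fun t => ?_
        by_cases ht : t ∈ Set.Icc (t1 - L) (t1 + L)
        · rw [Set.indicator_of_mem ht, ← vol_rect b (x0 - (t - t0) • c) r hr]
          exact measure_mono fun x hx => (h x t hx).2
        · have : (fun x : E2 => (x, t)) ⁻¹' S = ∅ := by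
            ext x
            simp only [Set.mem_preimage, Set.mem_empty_iff_false, iff_false]
            intro hx
            have h1 := (h x t hx).1
            rw [abs_le] at h1
            exact ht ⟨by linarith, by linarith⟩
          rw [this]; simp
    _ = _ := by
        rw [lintegral_indicator measurableSet_Icc, lintegral_const, Measure.restrict_apply_univ,
          Real.volume_Icc, mul_comm, ← ENNReal.ofReal_mul (by linarith)]
        congr 1
        ring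

theorem vol_plank_le (c : E2) (b : OrthonormalBasis (Fin 2) ℝ E2) (s : Fin 2 → ℝ)
    (hs : ∀ i, 0 ≤ s i) {R : ℝ} (hR : 0 ≤ R) (x0 : E2) (t0 : ℝ) :
    volume (plank c b s R x0 t0) ≤ ENNReal.ofReal (8 * (s 0 * s 1 * R ^ 3)) := by
  refine (vol_fam_le b c x0 (fun i => s i * R) (fun i => mul_nonneg (hs i) hR) t0 t0 R hR _
    (measurableSet_plank c b s R x0 t0) fun x t hx => (plank_slice c b s R x0 t0 t x).1 hx).trans
    (le_of_eq ?_)
  congr 1
  ring

end Crest.Agent.R138.Fq665
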