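import Mathlib
import Crest.Agent.R138.Fq7_665
import Crest.Agent.R138.Loc_665
import Crest.Agent.R138.Defs_665
import Crest.Agent.R138.ShDefs_200
import Crest.Agent.R138.Ker7_858

-- ▼ part R138/Fq8_665
section

/-! Near and far parts of `ext H (κ · Ft F)`. -/

set_option autoImplicit false

open MeasureTheory Filter Topology
open scoped ENNReal FourierTransform ContDiff

noncomputable section

namespace Crest.Agent.R138.Fq665

open Crest.Agent.R138.Defs
open Crest.Agent.R138.Fr665 (cv)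

/-- adjoint extension. -/
def Ft (H : E2 → ℝ) (F : E2 × ℝ → ℂ) (η : E2) : ℂ :=
  ∫ w : E2 × ℝ, F w * ee (-(inner ℝ w.1 η + w.2 * H η))

variable {H : E2 → ℝ}

theorem ext_Ft (hH : Continuous H) {κ : E2 → ℂ} (hκ : Integrable κ) {F : E2 × ℝ → ℂ}
    (hF : Integrable F) (x : E2) (t : ℝ) :
    ext H (fun η => κ η * Ft H F η) x t = ∫ w : E2 × ℝ, F w * ext H κ (x - w.1) (t - w.2) := by
  unfold ext Ft
  have h1 : ∀ η, κ η * (∫ w : E2 × ℝ, F w * ee (-(inner ℝ w.1 η + w.2 * H η))) *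
      ee (inner ℝ x η + t * H η) = ∫ w : E2 × ℝ, κ η * F w *
        ee (inner ℝ (x - w.1) η + (t - w.2) * H η) := by
    intro η
    rw [mul_assoc, ← integral_mul_const, ← integral_const_mul]
    refine integral_congr_ae (Eventually.of_forall fun w => ?_)
    simp only
    have : (inner ℝ (x - w.1) η + (t - w.2) * H η : ℝ) = -(inner ℝ w.1 η + w.2 * H η) +
        (inner ℝ x η + t * H η) := by rw [inner_sub_left]; ring
    rw [this, ee_add (-(inner ℝ w.1 η + w.2 * H η)) (inner ℝ x η + t * H η)]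
    ring
  simp only [h1]
  rw [integral_integral_swap]
  · refine integral_congr_ae (Eventually.of_forall fun w => ?_)
    simp only
    rw [← integral_const_mul]
    refine integral_congr_ae (Eventually.of_forall fun η => ?_)
    simp only
    ring
  · have h2 : Integrable (fun p : E2 × (E2 × ℝ) => κ p.1 * F p.2) (volume.prod volume) :=
      hκ.mul_prod hF
    have h3 : AEStronglyMeasurable (fun p : E2 × (E2 × ℝ) =>
        ee (inner ℝ (x - p.2.1) p.1 + (t - p.2.2) * H p.1)) (volume.prod volume) :=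
      (continuous_ee.comp (by fun_prop : Continuous fun p : E2 × (E2 × ℝ) =>
        (inner ℝ (x - p.2.1) p.1 + (t - p.2.2) * H p.1 : ℝ))).aestronglyMeasurable
    have h4 := h2.bdd_mul (c := 1) h3 (Eventually.of_forall fun p => (norm_ee _).le)
    refine h4.congr (Eventually.of_forall fun p => ?_)
    simp only [Function.uncurry]
    ring

/-- convolution in the plane with the kernel of a bounded multiplier. -/
theorem plane_l2 (hH : Continuous H) {κ : E2 → ℂ} (hκ : Continuous κ) (hκs : HasCompactSupport κ)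
    {M : ℝ} (hM : ∀ η, ‖κ η‖ ≤ M) {u : E2 → ℂ} (hu : Integrable u) (hu2 : MemLp u 2) (t : ℝ) :
    ∫⁻ x : E2, ‖∫ w : E2, u w * ext H κ (x - w) t‖ₑ ^ 2 ≤
      ENNReal.ofReal (M ^ 2) * ∫⁻ w, ‖u w‖ₑ ^ 2 := by
  have hM0 : 0 ≤ M := (norm_nonneg _).trans (hM 0)
  have hcu : Continuous (𝓕 u) := by
    simpa using! VectorFourier.fourierIntegral_continuous (V := E2) (W := E2)
      Real.continuous_fourierChar (L := innerₗ E2) continuous_inner hu
  set g : E2 → ℂ := fun η => κ η * ee (t * H η) * 𝓕 u η with hg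
  have hgc : Continuous g := (hκ.mul (continuous_ee.comp (by fun_prop))).mul hcu
  have hgs : HasCompactSupport g := (hκs.mul_right).mul_right
  have hg1 : Integrable g := hgc.integrable_of_hasCompactSupport hgs
  have hg2 : MemLp g 2 := hgc.memLp_of_hasCompactSupport hgs
  have hkey : ∀ x, ∫ w : E2, u w * ext H κ (x - w) t = 𝓕⁻ g x := by
    intro x
    rw [Real.fourierInv_eq']
    unfold ext
    have h1 : ∀ w, u w * ∫ ξ, κ ξ * ee (inner ℝ (x - w) ξ + t * H ξ) =
        ∫ ξ, u w * (κ ξ * ee (inner ℝ (x - w) ξ + t * H ξ)) := by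
      intro w; rw [integral_const_mul]
    simp only [h1]
    rw [integral_integral_swap]
    · refine integral_congr_ae (Eventually.of_forall fun ξ => ?_)
      simp only [hg, smul_eq_mul]
      have hfu : 𝓕 u ξ = ∫ w, u w * ee (-inner ℝ w ξ) := by
        rw [Real.fourier_eq']
        refine integral_congr_ae (Eventually.of_forall fun y => ?_)
        simp only [smul_eq_mul, ee]
        rw [mul_comm]
        congr 3
        ring_nf
      rw [hfu, ← integral_const_mul, ← integral_const_mul]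
      refine integral_congr_ae (Eventually.of_forall fun w => ?_)
      simp only
      have e1 : Complex.exp (((2 * Real.pi * inner ℝ ξ x : ℝ) : ℂ) * Complex.I) =
          ee (inner ℝ x ξ) := by rw [ee, real_inner_comm]
      have e2 : ee (inner ℝ (x - w) ξ + t * H ξ) = ee (inner ℝ x ξ) * ee (-inner ℝ w ξ) *
          ee (t * H ξ) := by
        rw [← ee_add, ← ee_add, inner_sub_left]; congr 1
      rw [e1, e2]
      ring
    · have h2 : Integrable (fun p : E2 × E2 => u p.1 * κ p.2) (volume.prod volume) :=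
        hu.mul_prod (hκ.integrable_of_hasCompactSupport hκs)
      have h3 : AEStronglyMeasurable (fun p : E2 × E2 =>
          ee (inner ℝ (x - p.1) p.2 + t * H p.2)) (volume.prod volume) :=
        (continuous_ee.comp (by fun_prop : Continuous fun p : E2 × E2 =>
          (inner ℝ (x - p.1) p.2 + t * H p.2 : ℝ))).aestronglyMeasurable
      have h4 := h2.bdd_mul (c := 1) h3 (Eventually.of_forall fun p => (norm_ee _).le)
      refine h4.congr (Eventually.of_forall fun p => ?_)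
      simp only [Function.uncurry]
      ring
  simp only [hkey]
  rw [plancherel_inv hg1 hg2]
  calc ∫⁻ η, ‖g η‖ₑ ^ 2 ≤ ∫⁻ η, ENNReal.ofReal (M ^ 2) * ‖𝓕 u η‖ₑ ^ 2 := by
        refine lintegral_mono fun η => ?_
        simp only [hg]
        rw [enorm_mul, enorm_mul, mul_pow, ENNReal.ofReal_pow hM0, mul_pow]
        have : ‖ee (t * H η)‖ₑ = 1 := by rw [← ofReal_norm, norm_ee, ENNReal.ofReal_one]
        rw [this, one_pow, mul_one]
        gcongr
        rw [← ofReal_norm]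
        exact ENNReal.ofReal_le_ofReal (hM η)
    _ = _ := by
        rw [lintegral_const_mul _ ((hcu.measurable.enorm).pow_const 2), plancherel hu hu2]

/-- the square of an integral over a short interval. -/
theorem lint_sq_le {T : ℝ} {u : ℝ → ℝ≥0∞} (hu : Measurable u)
    (h0 : ∀ τ, T < |τ| → u τ = 0) :
    (∫⁻ τ, u τ) ^ 2 ≤ ENNReal.ofReal (2 * T) * ∫⁻ τ, u τ ^ 2 := by
  set I : ℝ → ℝ≥0∞ := (Set.Icc (-T) T).indicator 1 with hI
  have hIm : Measurable I := measurable_one.indicator measurableSet_Icc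
  have hII : ∫⁻ τ, I τ = ENNReal.ofReal (2 * T) := by
    rw [hI, lintegral_indicator_one measurableSet_Icc, Real.volume_Icc]
    congr 1; ring
  have h1 : ∀ τ, u τ = I τ ^ (1/2 : ℝ) * (u τ ^ 2) ^ (1/2 : ℝ) := by
    intro τ
    have h3 : (u τ ^ 2) ^ (1/2 : ℝ) = u τ := by
      rw [← ENNReal.rpow_natCast, ← ENNReal.rpow_mul]; norm_num
    rw [h3]
    by_cases hτ : |τ| ≤ T
    · have : τ ∈ Set.Icc (-T) T := abs_le.1 hτ
      simp [hI, this]
    · push Not at hτ
      simp [h0 τ hτ]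
  have h2 : ∫⁻ τ, u τ ≤ (∫⁻ τ, I τ) ^ (1/2 : ℝ) * (∫⁻ τ, u τ ^ 2) ^ (1/2 : ℝ) := by
    calc ∫⁻ τ, u τ = ∫⁻ τ, I τ ^ (1/2 : ℝ) * (u τ ^ 2) ^ (1/2 : ℝ) := lintegral_congr h1
      _ ≤ _ := ENNReal.lintegral_mul_norm_pow_le hIm.aemeasurable (hu.pow_const 2).aemeasurable
        (by norm_num) (by norm_num) (by norm_num)
  calc (∫⁻ τ, u τ) ^ 2 ≤ ((∫⁻ τ, I τ) ^ (1/2 : ℝ) * (∫⁻ τ, u τ ^ 2) ^ (1/2 : ℝ)) ^ 2 := by
        gcongr
    _ = _ := by
        rw [mul_pow, ← ENNReal.rpow_natCast, ← ENNReal.rpow_mul, ← ENNReal.rpow_natCast,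
          ← ENNReal.rpow_mul, hII]
        norm_num

/-- the class of the sources. -/
structure Src (L : ℝ) (F : E2 × ℝ → ℂ) : Prop where
  meas : Measurable F
  le_one : ∀ w, ‖F w‖ ≤ 1
  supp : ∀ w, (L < ‖w.1‖ ∨ L < |w.2|) → F w = 0

theorem Src.slice_int {L : ℝ} {F : E2 × ℝ → ℂ} (h : Src L F) (t : ℝ) :
    Integrable (fun x : E2 => F (x, t)) ∧ MemLp (fun x : E2 => F (x, t)) 2 := by
  have hm : Measurable fun x : E2 => F (x, t) := h.meas.comp (by fun_prop)
  have h1 : MemLp (fun x : E2 => F (x, t)) ⊤ := memLp_top_of_bound hm.aestronglyMeasurable 1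
    (Eventually.of_forall fun x => h.le_one _)
  have hs : Function.support (fun x : E2 => F (x, t)) ⊆ Metric.closedBall 0 L := by
    intro x hx
    by_contra hx'
    simp only [Metric.mem_closedBall, dist_zero_right, not_le] at hx'
    exact hx (h.supp _ (Or.inl hx'))
  have hfin : volume (Metric.closedBall (0 : E2) L) ≠ ⊤ := measure_closedBall_lt_top.ne
  have key : ∀ p : ℝ≥0∞, MemLp (fun x : E2 => F (x, t)) p := by
    intro p
    have h2 : MemLp (fun x : E2 => F (x, t)) p (volume.restrict (Metric.closedBall (0 : E2) L)) :=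
      haveI : IsFiniteMeasure (volume.restrict (Metric.closedBall (0 : E2) L)) :=
        ⟨by rw [Measure.restrict_apply_univ]; exact hfin.lt_top⟩
      (h1.restrict _).mono_exponent le_top
    have h3 := (memLp_indicator_iff_restrict Metric.isClosed_closedBall.measurableSet).2 h2
    rwa [Set.indicator_eq_self.2 hs] at h3
  exact ⟨memLp_one_iff_integrable.1 (key 1), key 2⟩

theorem Src.int {L : ℝ} {F : E2 × ℝ → ℂ} (h : Src L F) : Integrable F := by
  have h1 : MemLp F ⊤ (volume : Measure (E2 × ℝ)) := memLp_top_of_bound h.meas.aestronglyMeasurable 1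
    (Eventually.of_forall fun x => h.le_one _)
  have hs : Function.support F ⊆ Metric.closedBall 0 L := by
    intro w hw
    by_contra hw'
    simp only [Metric.mem_closedBall, dist_zero_right, not_le, Prod.norm_def, lt_sup_iff,
      Real.norm_eq_abs] at hw'
    exact hw (h.supp _ hw')
  have h2 : MemLp F 1 (volume.restrict (Metric.closedBall (0 : E2 × ℝ) L)) :=
    haveI : IsFiniteMeasure (volume.restrict (Metric.closedBall (0 : E2 × ℝ) L)) :=
      ⟨by rw [Measure.restrict_apply_univ]; exact measure_closedBall_lt_top⟩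
    (h1.restrict _).mono_exponent le_top
  have h3 := (memLp_indicator_iff_restrict Metric.isClosed_closedBall.measurableSet).2 h2
  rw [Set.indicator_eq_self.2 hs] at h3
  exact memLp_one_iff_integrable.1 h3

end Crest.Agent.R138.Fq665
end
end

-- ▼ part R138/Fq9_665
section

/-! Near and far parts of `ext H (κ · Ft F)`; the box bound. -/

set_option autoImplicit false

open MeasureTheory Filter Topology
open scoped ENNReal FourierTransform ContDiff

noncomputable section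

namespace Crest.Agent.R138.Fq665

open Crest.Agent.R138.Defs
open Crest.Agent.R138.Fr665 (cv)

variable {H : E2 → ℝ}

theorem measurable_ext (hH : Continuous H) {κ : E2 → ℂ} (hκ : Continuous κ) :
    Measurable fun q : E2 × ℝ => ext H κ q.1 q.2 := by
  have hc : Continuous fun z : (E2 × ℝ) × E2 =>
      κ z.2 * ee (inner ℝ z.1.1 z.2 + z.1.2 * H z.2) := by
    exact (hκ.comp continuous_snd).mul (continuous_ee.comp (by fun_prop))
  exact (StronglyMeasurable.integral_prod_right' (ν := (volume : Measure E2))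
    hc.stronglyMeasurable).measurable

theorem measurable_ext_comp {α : Type*} [MeasurableSpace α] (hH : Continuous H) {κ : E2 → ℂ}
    (hκ : Continuous κ) {a : α → E2} {b : α → ℝ} (ha : Measurable a) (hb : Measurable b) :
    Measurable fun z => ext H κ (a z) (b z) := by
  have h1 := measurable_ext hH hκ
  have h2 : Measurable fun z => (a z, b z) := ha.prodMk hb
  have h3 := h1.comp h2
  exact h3

theorem norm_ext_le (H : E2 → ℝ) (κ : E2 → ℂ) (x : E2) (t : ℝ) : ‖ext H κ x t‖ ≤ ∫ η, ‖κ η‖ := by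
  unfold ext
  refine (norm_integral_le_integral_norm _).trans (le_of_eq ?_)
  refine integral_congr_ae (Eventually.of_forall fun η => ?_)
  simp [norm_ee]

theorem near_le (hH : Continuous H) {κ : E2 → ℂ} (hκ : Continuous κ) (hκs : HasCompactSupport κ)
    {M : ℝ} (hM : ∀ η, ‖κ η‖ ≤ M) {L : ℝ} (hL : 0 ≤ L) {F : E2 × ℝ → ℂ} (hF : Src L F) (t : ℝ) :
    ∫⁻ x : E2, ‖ext H (fun η => κ η * Ft H F η) x t‖ₑ ^ 2 ≤
      ENNReal.ofReal (2 * L * M ^ 2) * ∫⁻ w, ‖F w‖ₑ ^ 2 := by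
  have hκi := hκ.integrable_of_hasCompactSupport (μ := volume) hκs
  have hme := measurable_ext hH hκ
  have hint : ∀ x : E2, Integrable (fun w : E2 × ℝ => F w * ext H κ (x - w.1) (t - w.2)) := by
    intro x
    have h3 : Measurable fun w : E2 × ℝ => ext H κ (x - w.1) (t - w.2) :=
      measurable_ext_comp hH hκ (by fun_prop) (by fun_prop)
    have := hF.int.bdd_mul (c := ∫ η, ‖κ η‖) h3.aestronglyMeasurable
      (Eventually.of_forall fun w => norm_ext_le H κ _ _)
    refine this.congr (Eventually.of_forall fun p => ?_)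
    simp only
    ring
  set u : E2 → ℝ → ℝ≥0∞ := fun x s => ‖∫ y : E2, F (y, s) * ext H κ (x - y) (t - s)‖ₑ with hu
  have hum : Measurable fun q : E2 × ℝ => u q.1 q.2 := by
    have hm : Measurable fun z : (E2 × ℝ) × E2 =>
        F (z.2, z.1.2) * ext H κ (z.1.1 - z.2) (t - z.1.2) := by
      apply Measurable.mul
      · exact hF.meas.comp (by fun_prop)
      · exact measurable_ext_comp hH hκ (by fun_prop) (by fun_prop)
    exact (StronglyMeasurable.integral_prod_right' (ν := (volume : Measure E2))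
      hm.stronglyMeasurable).measurable.enorm
  have h1 : ∀ x : E2, ‖ext H (fun η => κ η * Ft H F η) x t‖ₑ ≤ ∫⁻ s, u x s := by
    intro x
    rw [ext_Ft hH hκi hF.int, Measure.volume_eq_prod, integral_prod_symm _ (hint x)]
    exact enorm_integral_le_lintegral_enorm _
  have h0 : ∀ x s, L < |s| → u x s = 0 := by
    intro x s hs
    simp only [hu]
    have : ∀ y : E2, F (y, s) * ext H κ (x - y) (t - s) = 0 := by
      intro y
      rw [hF.supp (y, s) (Or.inr hs), zero_mul]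
    simp [this]
  calc ∫⁻ x : E2, ‖ext H (fun η => κ η * Ft H F η) x t‖ₑ ^ 2
      ≤ ∫⁻ x : E2, ENNReal.ofReal (2 * L) * ∫⁻ s, u x s ^ 2 := by
        refine lintegral_mono fun x => ?_
        have hux : Measurable (u x) := by
          have h2 : Measurable fun s : ℝ => ((x, s) : E2 × ℝ) := by fun_prop
          have h3 := hum.comp h2
          exact h3
        calc ‖ext H (fun η => κ η * Ft H F η) x t‖ₑ ^ 2 ≤ (∫⁻ s, u x s) ^ 2 := by
              gcongr; exact h1 x
          _ ≤ _ := lint_sq_le hux (h0 x)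
    _ = ENNReal.ofReal (2 * L) * ∫⁻ s : ℝ, ∫⁻ x : E2, u x s ^ 2 := by
        rw [lintegral_const_mul' _ _ ENNReal.ofReal_ne_top, lintegral_lintegral_swap]
        exact (hum.pow_const 2).aemeasurable
    _ ≤ ENNReal.ofReal (2 * L) * ∫⁻ s : ℝ, ENNReal.ofReal (M ^ 2) *
          ∫⁻ y : E2, ‖F (y, s)‖ₑ ^ 2 := by
        gcongr with s
        obtain ⟨h2, h3⟩ := hF.slice_int s
        exact plane_l2 hH hκ hκs hM h2 h3 (t - s)
    _ = _ := by
        rw [lintegral_const_mul' _ _ ENNReal.ofReal_ne_top, ← mul_assoc,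
          ← ENNReal.ofReal_mul (by positivity), Measure.volume_eq_prod,
          lintegral_prod_symm _ ((hF.meas.enorm.pow_const 2).aemeasurable)]

theorem vol_src_le {L : ℝ} (hL : 0 ≤ L) {F : E2 × ℝ → ℂ} (hF : Src L F) :
    volume {w | F w ≠ 0} ≤ ENNReal.ofReal (8 * L ^ 3) := by
  have hm : MeasurableSet {w | F w ≠ 0} := (hF.meas (measurableSet_singleton 0)).compl
  refine (vol_fam_le (EuclideanSpace.basisFun (Fin 2) ℝ) 0 0 (fun _ => L) (fun _ => hL) 0 0 L hL _
    hm fun x t hx => ?_).trans (le_of_eq ?_)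
  · have h1 : ¬ (L < ‖x‖ ∨ L < |t|) := fun h => hx (hF.supp (x, t) h)
    push Not at h1
    refine ⟨by simpa using h1.2, fun i => ?_⟩
    simp only [smul_zero, sub_zero]
    refine (abs_real_inner_le_norm _ _).trans ?_
    rw [OrthonormalBasis.norm_eq_one, mul_one]
    exact h1.1
  · congr 1
    ring

theorem far_le (hH : Continuous H) {κ : E2 → ℂ} (hκi : Integrable κ)
    {L : ℝ} (hL : 0 ≤ L) {F : E2 × ℝ → ℂ} (hF : Src L F) {x : E2} {t : ℝ} {Q : ℝ}
    (hQ : ∀ w, F w ≠ 0 → ‖ext H κ (x - w.1) (t - w.2)‖ ≤ Q) :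
    ‖ext H (fun η => κ η * Ft H F η) x t‖ₑ ≤ ENNReal.ofReal (8 * L ^ 3 * Q) := by
  rw [ext_Ft hH hκi hF.int]
  refine (enorm_integral_le_lintegral_enorm _).trans ?_
  have hm : MeasurableSet {w | F w ≠ 0} := (hF.meas (measurableSet_singleton 0)).compl
  calc ∫⁻ w : E2 × ℝ, ‖F w * ext H κ (x - w.1) (t - w.2)‖ₑ
      ≤ ∫⁻ w, {w | F w ≠ 0}.indicator (fun _ => ENNReal.ofReal Q) w := by
        refine lintegral_mono fun w => ?_
        by_cases hw : F w ≠ 0
        · have : w ∈ {w | F w ≠ 0} := hw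
          rw [Set.indicator_of_mem this, ← ofReal_norm, norm_mul]
          apply ENNReal.ofReal_le_ofReal
          calc ‖F w‖ * ‖ext H κ (x - w.1) (t - w.2)‖ ≤ 1 * Q :=
                mul_le_mul (hF.le_one w) (hQ w hw) (norm_nonneg _) zero_le_one
            _ = Q := one_mul _
        · push Not at hw
          simp [hw]
    _ = ENNReal.ofReal Q * volume {w | F w ≠ 0} := by
        rw [lintegral_indicator hm, lintegral_const, Measure.restrict_apply_univ]
    _ ≤ ENNReal.ofReal Q * ENNReal.ofReal (8 * L ^ 3) := by gcongr; exact vol_src_le hL hF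
    _ = _ := by
        rw [mul_comm, ← ENNReal.ofReal_mul (by positivity)]

end Crest.Agent.R138.Fq665
end
end

-- ▼ part R138/Fq10_665
section

/-! The box bound from kernel decay. -/

set_option autoImplicit false

open MeasureTheory Filter Topology
open scoped ENNReal FourierTransform ContDiff

noncomputable section

namespace Crest.Agent.R138.Fq665

open Crest.Agent.R138.Defs
open Crest.Agent.R138.Fr665 (cv)

variable {H : E2 → ℝ}

theorem continuous_chi (hH : ContDiff ℝ ∞ H) (c : E2) (b : OrthonormalBasis (Fin 2) ℝ E2)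
    (s : Fin 2 → ℝ) {N : ℕ} {ψ : E2 → ℂ} (hψ : Adm N ψ) : Continuous (chi H c b s ψ) := by
  have hg : Continuous (gradient H) := by
    unfold gradient
    exact (InnerProductSpace.toDual ℝ E2).symm.continuous.comp (hH.continuous_fderiv (by simp))
  have h1 : Continuous fun ξ : E2 => (fun i => inner ℝ (gradient H ξ - c) (b i) / s i) := by
    refine continuous_pi fun i => ?_
    exact ((hg.sub continuous_const).inner continuous_const).div_const _
  exact hψ.1.continuous.comp ((PiLp.continuous_toLp 2 (fun _ : Fin 2 => ℝ)).comp h1)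

theorem norm_chi_le (c : E2) (b : OrthonormalBasis (Fin 2) ℝ E2)
    (s : Fin 2 → ℝ) {N : ℕ} {ψ : E2 → ℂ} (hψ : Adm N ψ) (ξ : E2) : ‖chi H c b s ψ ξ‖ ≤ 1 := by
  have := hψ.2.2 0 (Nat.zero_le _) (WithLp.toLp 2 fun i => inner ℝ (gradient H ξ - c) (b i) / s i)
  rwa [norm_iteratedFDeriv_zero] at this

theorem Src.indicator {L : ℝ} {F : E2 × ℝ → ℂ} (h : Src L F) {S : Set (E2 × ℝ)}
    (hS : MeasurableSet S) : Src L (S.indicator F) where
  meas := h.meas.indicator hS
  le_one w := (norm_indicator_le_norm_self _ _).trans (h.le_one w)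
  supp w hw := by
    by_cases hs : w ∈ S
    · rw [Set.indicator_of_mem hs, h.supp w hw]
    · rw [Set.indicator_of_notMem hs]

theorem Ft_add {L : ℝ} (hH : Continuous H) {F F' : E2 × ℝ → ℂ} (h : Src L F) (h' : Src L F')
    (η : E2) : Ft H (fun w => F w + F' w) η = Ft H F η + Ft H F' η := by
  have key : ∀ {F : E2 × ℝ → ℂ}, Src L F →
      Integrable fun w : E2 × ℝ => F w * ee (-(inner ℝ w.1 η + w.2 * H η)) := by
    intro F hF
    have h3 : AEStronglyMeasurable (fun w : E2 × ℝ => ee (-(inner ℝ w.1 η + w.2 * H η))) volume :=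
      (continuous_ee.comp (by fun_prop)).aestronglyMeasurable
    have h4 := hF.int.bdd_mul (c := 1) h3 (Eventually.of_forall fun p => (norm_ee _).le)
    refine h4.congr (Eventually.of_forall fun p => ?_)
    simp only
    ring
  unfold Ft
  rw [← integral_add (key h) (key h')]
  refine integral_congr_ae (Eventually.of_forall fun w => ?_)
  simp only
  ring

theorem ext_add (hH : Continuous H) {g g' : E2 → ℂ} (h : Integrable g) (h' : Integrable g')
    (x : E2) (t : ℝ) : ext H (fun η => g η + g' η) x t = ext H g x t + ext H g' x t := by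
  have key : ∀ {g : E2 → ℂ}, Integrable g →
      Integrable fun η : E2 => g η * ee (inner ℝ x η + t * H η) := by
    intro g hg
    have h3 : AEStronglyMeasurable (fun η : E2 => ee (inner ℝ x η + t * H η)) volume :=
      (continuous_ee.comp (by fun_prop)).aestronglyMeasurable
    have h4 := hg.bdd_mul (c := 1) h3 (Eventually.of_forall fun p => (norm_ee _).le)
    refine h4.congr (Eventually.of_forall fun p => ?_)
    simp only
    ring
  unfold ext
  rw [← integral_add (key h) (key h')]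
  refine integral_congr_ae (Eventually.of_forall fun w => ?_)
  simp only
  ring

theorem continuous_Ft (hH : Continuous H) {F : E2 × ℝ → ℂ} (hF : Integrable F) :
    Continuous (Ft H F) := by
  unfold Ft
  refine continuous_of_dominated (bound := fun w => ‖F w‖) (fun η => ?_) (fun η => ?_) hF.norm ?_
  · exact hF.1.mul (continuous_ee.comp (by fun_prop)).aestronglyMeasurable
  · refine Eventually.of_forall fun w => ?_
    rw [norm_mul, norm_ee, mul_one]
  · refine Eventually.of_forall fun w => ?_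
    exact continuous_const.mul (continuous_ee.comp (by fun_prop))

theorem enorm_add_sq (a b : ℂ) : ‖a + b‖ₑ ^ 2 ≤ 2 * (‖a‖ₑ ^ 2 + ‖b‖ₑ ^ 2) := by
  calc ‖a + b‖ₑ ^ 2 ≤ (‖a‖ₑ + ‖b‖ₑ) ^ 2 := by gcongr; exact enorm_add_le _ _
    _ ≤ _ := by
      have := ENNReal.rpow_add_le_mul_rpow_add_rpow ‖a‖ₑ ‖b‖ₑ (p := 2) (by norm_num)
      norm_num at this
      exact this

/-- integral over a plank. -/
theorem lint_plank_le (c : E2) (b : OrthonormalBasis (Fin 2) ℝ E2) (s : Fin 2 → ℝ) {R : ℝ}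
    (x0 : E2) (t0 : ℝ) {u : E2 × ℝ → ℝ≥0∞} (hu : Measurable u) {B : ℝ≥0∞}
    (hB : ∀ t : ℝ, ∫⁻ x : E2, u (x, t) ≤ B) :
    ∫⁻ p in plank c b s R x0 t0, u p ≤ ENNReal.ofReal (2 * R) * B := by
  set I : ℝ → ℝ≥0∞ := (Set.Icc (t0 - R) (t0 + R)).indicator 1 with hI
  have hIm : Measurable I := measurable_one.indicator measurableSet_Icc
  have hmu : Measurable fun p : E2 × ℝ => I p.2 * u p := (hIm.comp measurable_snd).mul hu
  calc ∫⁻ p in plank c b s R x0 t0, u p ≤ ∫⁻ p : E2 × ℝ, I p.2 * u p := by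
        rw [← lintegral_indicator (measurableSet_plank c b s R x0 t0)]
        refine lintegral_mono fun p => ?_
        by_cases hp : p ∈ plank c b s R x0 t0
        · rw [Set.indicator_of_mem hp]
          have : p.2 ∈ Set.Icc (t0 - R) (t0 + R) := by
            have := hp.1
            rw [abs_le] at this
            exact ⟨by linarith, by linarith⟩
          simp [hI, this]
        · rw [Set.indicator_of_notMem hp]; exact zero_le
    _ = ∫⁻ t : ℝ, I t * ∫⁻ x : E2, u (x, t) := by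
        rw [Measure.volume_eq_prod, lintegral_prod_symm _ hmu.aemeasurable]
        refine lintegral_congr fun t => ?_
        simp only
        rw [lintegral_const_mul]
        exact hu.comp (by fun_prop)
    _ ≤ ∫⁻ t : ℝ, I t * B := by
        gcongr with t; exact hB t
    _ = _ := by
        rw [lintegral_mul_const _ hIm, hI, lintegral_indicator_one measurableSet_Icc,
          Real.volume_Icc]
        congr 2
        ring

/-- **the box bound from kernel decay.** -/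
theorem box_of_decay (hH : ContDiff ℝ ∞ H) {β : E2 → ℂ} (hβ : Continuous β)
    (hβs : HasCompactSupport β) {M : ℝ} (hM : ∀ η, ‖β η‖ ≤ M) {L : ℝ} (hL : 0 ≤ L)
    {F : E2 × ℝ → ℂ} (hF : Src L F) {R lam Q L0 : ℝ} (hR : 1 ≤ R) (hlam : 1 ≤ lam) (hQ0 : 0 ≤ Q)
    {N : ℕ}
    (hdec : ∀ (c : E2) (b : OrthonormalBasis (Fin 2) ℝ E2) (s : Fin 2 → ℝ),
      (∀ i, R ^ (-(1/2) : ℝ) ≤ s i ∧ s i ≤ 1) → ∀ ψ, Adm N ψ → ∀ (y : E2) (u : ℝ),
      |u| ≤ L0 * R + R + L → (∃ i, 3 * lam * (s i * R) ≤ |inner ℝ (y + u • c) (b i)|) →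
      ‖ext H (fun η => β η * chi H c b s ψ η) y u‖ ≤ Q) :
    BoxBoundL L0 N H (fun η => β η * Ft H F η) R
      (1024 * (M ^ 2 * lam ^ 2 * L ^ 2 + L ^ 6 * Q ^ 2)) := by
  intro c b s hs ψ hψ x0 t0 hx0 ht0
  have hHc : Continuous H := hH.continuous
  have hM0 : 0 ≤ M := (norm_nonneg _).trans (hM 0)
  have hR0 : 0 < R := by linarith
  have hs0 : ∀ i, 0 ≤ s i := fun i => (Real.rpow_nonneg hR0.le _).trans (hs i).1
  set κ : E2 → ℂ := fun η => β η * chi H c b s ψ η with hκ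
  have hκc : Continuous κ := hβ.mul (continuous_chi hH c b s hψ)
  have hκs : HasCompactSupport κ := hβs.mul_right
  have hκM : ∀ η, ‖κ η‖ ≤ M := by
    intro η
    rw [hκ, norm_mul]
    calc ‖β η‖ * ‖chi H c b s ψ η‖ ≤ M * 1 :=
          mul_le_mul (hM η) (norm_chi_le c b s hψ η) (norm_nonneg _) hM0
      _ = M := mul_one M
  have hκi : Integrable κ := hκc.integrable_of_hasCompactSupport hκs
  set S : Set (E2 × ℝ) := {w | ∀ i, |inner ℝ (w.1 - x0 + (w.2 - t0) • c) (b i)| ≤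
    4 * lam * (s i * R)} with hS
  have hSm : MeasurableSet S := by
    rw [hS, Set.ofPred_forall]
    exact MeasurableSet.iInter fun i => measurableSet_le (by fun_prop) measurable_const
  set Fn := S.indicator F with hFn
  set Ff := Sᶜ.indicator F with hFf
  have hFn' : Src L Fn := hF.indicator hSm
  have hFf' : Src L Ff := hF.indicator hSm.compl
  have hsplit : F = fun w => Fn w + Ff w := by
    ext w
    rw [hFn, hFf]
    exact (congrFun (Set.indicator_self_add_compl S F) w).symm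
  have hcn : Continuous fun η => κ η * Ft H Fn η := hκc.mul (continuous_Ft hHc hFn'.int)
  have hcf : Continuous fun η => κ η * Ft H Ff η := hκc.mul (continuous_Ft hHc hFf'.int)
  have hin : Integrable fun η => κ η * Ft H Fn η :=
    hcn.integrable_of_hasCompactSupport hκs.mul_right
  have hif : Integrable fun η => κ η * Ft H Ff η :=
    hcf.integrable_of_hasCompactSupport hκs.mul_right
  have hU : ∀ x t, ext H (fun ξ => β ξ * Ft H F ξ * chi H c b s ψ ξ) x t =
      ext H (fun η => κ η * Ft H Fn η) x t + ext H (fun η => κ η * Ft H Ff η) x t := by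
    intro x t
    rw [← ext_add hHc hin hif]
    congr 1
    ext η
    have : Ft H F η = Ft H Fn η + Ft H Ff η := by
      rw [← Ft_add hHc hFn' hFf']
      congr 1
    rw [this, hκ]
    ring
  have hmn : Measurable fun p : E2 × ℝ => ‖ext H (fun η => κ η * Ft H Fn η) p.1 p.2‖ₑ ^ 2 :=
    ((measurable_ext hHc hcn).enorm).pow_const 2
  have hmf : Measurable fun p : E2 × ℝ => ‖ext H (fun η => κ η * Ft H Ff η) p.1 p.2‖ₑ ^ 2 :=
    ((measurable_ext hHc hcf).enorm).pow_const 2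
  -- near
  have hvol : ∫⁻ w, ‖Fn w‖ₑ ^ 2 ≤ ENNReal.ofReal (2 * L * (4 * ((4 * lam * (s 0 * R)) *
      (4 * lam * (s 1 * R))))) := by
    have hFm : MeasurableSet {w | Fn w ≠ 0} := (hFn'.meas (measurableSet_singleton 0)).compl
    calc ∫⁻ w, ‖Fn w‖ₑ ^ 2 ≤ ∫⁻ w, {w | Fn w ≠ 0}.indicator 1 w := by
          refine lintegral_mono fun w => ?_
          by_cases hw : Fn w ≠ 0
          · have : w ∈ {w | Fn w ≠ 0} := hw
            rw [Set.indicator_of_mem this, Pi.one_apply]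
            have h1 : ‖Fn w‖ₑ ≤ 1 := by
              rw [← ofReal_norm, ← ENNReal.ofReal_one]
              exact ENNReal.ofReal_le_ofReal (hFn'.le_one w)
            exact pow_le_one₀ zero_le h1
          · push Not at hw
            simp [hw]
      _ = volume {w | Fn w ≠ 0} := lintegral_indicator_one hFm
      _ ≤ _ := by
          refine vol_fam_le b c x0 (fun i => 4 * lam * (s i * R))
            (fun i => by have := hs0 i; positivity) t0 0 L hL _ hFm fun x t hx => ?_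
          have h1 : ¬ (L < ‖x‖ ∨ L < |t|) := fun h => hx (hFn'.supp (x, t) h)
          push Not at h1
          refine ⟨by simpa using h1.2, ?_⟩
          have h2 : (x, t) ∈ S := by
            by_contra h
            exact hx (Set.indicator_of_notMem h F)
          intro i
          have := h2 i
          simp only at this
          have e : x - x0 + (t - t0) • c = x - (x0 - (t - t0) • c) := by abel
          rwa [e] at this
  have hnear : ∫⁻ p in plank c b s R x0 t0, ‖ext H (fun η => κ η * Ft H Fn η) p.1 p.2‖ₑ ^ 2 ≤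
      ENNReal.ofReal (512 * (M ^ 2 * lam ^ 2 * L ^ 2) * (s 0 * s 1 * R ^ 3)) := by
    refine (lint_plank_le c b s x0 t0 hmn fun t => near_le hHc hκc hκs hκM hL hFn' t).trans ?_
    calc ENNReal.ofReal (2 * R) * (ENNReal.ofReal (2 * L * M ^ 2) * ∫⁻ w, ‖Fn w‖ₑ ^ 2)
        ≤ ENNReal.ofReal (2 * R) * (ENNReal.ofReal (2 * L * M ^ 2) *
          ENNReal.ofReal (2 * L * (4 * ((4 * lam * (s 0 * R)) * (4 * lam * (s 1 * R)))))) := by
          gcongr
      _ = _ := by
          rw [← ENNReal.ofReal_mul (by positivity), ← ENNReal.ofReal_mul (by positivity)]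
          congr 1
          ring
  -- far
  have hfar : ∫⁻ p in plank c b s R x0 t0, ‖ext H (fun η => κ η * Ft H Ff η) p.1 p.2‖ₑ ^ 2 ≤
      ENNReal.ofReal (512 * (L ^ 6 * Q ^ 2) * (s 0 * s 1 * R ^ 3)) := by
    calc ∫⁻ p in plank c b s R x0 t0, ‖ext H (fun η => κ η * Ft H Ff η) p.1 p.2‖ₑ ^ 2
        ≤ ∫⁻ _p in plank c b s R x0 t0, ENNReal.ofReal (8 * L ^ 3 * Q) ^ 2 := by
          refine setLIntegral_mono measurable_const fun p hp => ?_
          gcongr
          refine far_le hHc hκi hL hFf' fun w hw => ?_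
          have hwS : w ∉ S := by
            intro h
            exact hw (Set.indicator_of_notMem (by simpa using h) F)
          have h1 : ¬ (L < ‖w.1‖ ∨ L < |w.2|) := fun h => hw (hFf'.supp w h)
          push Not at h1
          have hS' : ∃ i, 4 * lam * (s i * R) < |inner ℝ (w.1 - x0 + (w.2 - t0) • c) (b i)| := by
            by_contra h
            push Not at h
            exact hwS h
          obtain ⟨i, hi⟩ := hS'
          refine hdec c b s hs ψ hψ _ _ ?_ ⟨i, ?_⟩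
          · have h2 := hp.1
            have h3 := h1.2
            rw [abs_le] at h2 h3 ht0 ⊢
            constructor <;> linarith [h2.1, h2.2, h3.1, h3.2, ht0.1, ht0.2]
          · have h2 := hp.2 i
            have e : p.1 - w.1 + (p.2 - w.2) • c = (p.1 - x0 + (p.2 - t0) • c) -
                (w.1 - x0 + (w.2 - t0) • c) := by
              rw [sub_smul, sub_smul, sub_smul]; abel
            rw [e, inner_sub_left]
            have h4 := abs_sub_abs_le_abs_sub (inner ℝ (w.1 - x0 + (w.2 - t0) • c) (b i))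
              (inner ℝ (p.1 - x0 + (p.2 - t0) • c) (b i))
            rw [abs_sub_comm] at h4
            have h5 : s i * R ≤ lam * (s i * R) :=
              le_mul_of_one_le_left (mul_nonneg (hs0 i) hR0.le) hlam
            linarith
      _ = ENNReal.ofReal (8 * L ^ 3 * Q) ^ 2 * volume (plank c b s R x0 t0) := by
          rw [setLIntegral_const]
      _ ≤ ENNReal.ofReal (8 * L ^ 3 * Q) ^ 2 * ENNReal.ofReal (8 * (s 0 * s 1 * R ^ 3)) := by
          gcongr; exact vol_plank_le c b s hs0 hR0.le x0 t0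
      _ = _ := by
          rw [← ENNReal.ofReal_pow (by positivity), ← ENNReal.ofReal_mul (by positivity)]
          congr 1
          ring
  calc ∫⁻ p in plank c b s R x0 t0,
        ‖ext H (fun ξ => β ξ * Ft H F ξ * chi H c b s ψ ξ) p.1 p.2‖ₑ ^ 2
      ≤ ∫⁻ p in plank c b s R x0 t0, 2 * (‖ext H (fun η => κ η * Ft H Fn η) p.1 p.2‖ₑ ^ 2 +
          ‖ext H (fun η => κ η * Ft H Ff η) p.1 p.2‖ₑ ^ 2) := by
        refine lintegral_mono fun p => ?_
        simp only
        rw [hU]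
        exact enorm_add_sq _ _
    _ = 2 * ((∫⁻ p in plank c b s R x0 t0, ‖ext H (fun η => κ η * Ft H Fn η) p.1 p.2‖ₑ ^ 2) +
          ∫⁻ p in plank c b s R x0 t0, ‖ext H (fun η => κ η * Ft H Ff η) p.1 p.2‖ₑ ^ 2) := by
        rw [← lintegral_add_left hmn]
        exact lintegral_const_mul _ (hmn.add hmf)
    _ ≤ 2 * (ENNReal.ofReal (512 * (M ^ 2 * lam ^ 2 * L ^ 2) * (s 0 * s 1 * R ^ 3)) +
          ENNReal.ofReal (512 * (L ^ 6 * Q ^ 2) * (s 0 * s 1 * R ^ 3))) := by gcongr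
    _ = _ := by
        have h0 := hs0 0
        have h1 := hs0 1
        rw [← ENNReal.ofReal_add (by positivity) (by positivity),
          show (2 : ℝ≥0∞) = ENNReal.ofReal 2 by simp, ← ENNReal.ofReal_mul (by norm_num)]
        congr 1
        ring

end Crest.Agent.R138.Fq665
end
end

-- ▼ part R138/Fq11_665
section

/-! The Fourier transform of `f` along the slices as `Ft H F`. -/

set_option autoImplicit false

open MeasureTheory Filter Topology
open scoped ENNReal FourierTransform ContDiff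

noncomputable section

namespace Crest.Agent.R138.Fq665

open Crest.Agent.R138.Defs
open Crest.Agent.R138.Fr665 (cv)

variable (J : PR ≃ₗᵢ[ℝ] V) {H : E2 → ℝ} {ρ : ℝ}

/-- anisotropic dilation. -/
def sc (ρ : ℝ) (p : E2 × ℝ) : E2 × ℝ := (ρ • p.1, -(ρ ^ 2 * p.2))

theorem continuous_sc : Continuous (sc ρ) := by
  unfold sc; fun_prop

theorem map_sc (hρ : 0 < ρ) :
    Measure.map (sc ρ) volume = ENNReal.ofReal (ρ⁻¹ ^ 4) • (volume : Measure (E2 × ℝ)) := by
  ext s hs
  rw [Measure.map_apply continuous_sc.measurable hs]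
  have := lintegral_scale hρ (u := s.indicator 1) (measurable_one.indicator hs)
  rw [lintegral_indicator_one hs] at this
  rw [Measure.smul_apply, smul_eq_mul, ← this]
  rw [← lintegral_indicator_one (continuous_sc.measurable hs)]
  rfl

theorem integral_sc (hρ : 0 < ρ) {Φ : E2 × ℝ → ℂ} (hΦ : Measurable Φ) :
    ∫ p, Φ (sc ρ p) = (ρ⁻¹ ^ 4 : ℝ) • ∫ p, Φ p := by
  rw [← integral_map continuous_sc.measurable.aemeasurable hΦ.aestronglyMeasurable, map_sc hρ,
    integral_smul_measure, ENNReal.toReal_ofReal (by positivity)]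

/-- the source. -/
def src (ρ : ℝ) (f : V → ℂ) (τ : ℝ) (w : E2 × ℝ) : ℂ :=
  f (up J (ρ⁻¹ • w.1) (-(ρ⁻¹ ^ 2 * w.2))) * ee (ρ⁻¹ ^ 2 * w.2 * (1 + τ))

theorem measurable_src {f : V → ℂ} (hf : Measurable f) (τ : ℝ) : Measurable (src J ρ f τ) := by
  unfold src
  refine Measurable.mul ?_ (continuous_ee.comp (by fun_prop)).measurable
  have h2 : Measurable fun w : E2 × ℝ => ((ρ⁻¹ • w.1, -(ρ⁻¹ ^ 2 * w.2)) : E2 × ℝ) := by fun_prop
  exact hf.comp ((continuous_up J).measurable.comp h2)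

theorem Src_src (hρ : 0 < ρ) (hρ1 : ρ ≤ 1) {f : V → ℂ} (hf : Measurable f) (h1 : ∀ v, ‖f v‖ ≤ 1)
    {L : ℝ} (h0 : ∀ v, L < ‖v‖ → f v = 0) (τ : ℝ) : Src L (src J ρ f τ) where
  meas := measurable_src J hf τ
  le_one w := by
    unfold src
    rw [norm_mul, norm_ee, mul_one]
    exact h1 _
  supp w hw := by
    unfold src
    rw [h0, zero_mul]
    have hi : 1 ≤ ρ⁻¹ := (one_le_inv₀ hρ).2 hρ1
    have hi2 : 1 ≤ ρ⁻¹ ^ 2 := one_le_pow₀ hi
    have hn := norm_up_sq J (ρ⁻¹ • w.1) (-(ρ⁻¹ ^ 2 * w.2))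
    rcases hw with hw | hw
    · have h3 : ‖w.1‖ ≤ ‖ρ⁻¹ • w.1‖ := by
        rw [norm_smul, Real.norm_eq_abs, abs_of_pos (by positivity)]
        exact le_mul_of_one_le_left (norm_nonneg _) hi
      have h4 : ‖w.1‖ ^ 2 ≤ ‖up J (ρ⁻¹ • w.1) (-(ρ⁻¹ ^ 2 * w.2))‖ ^ 2 := by
        rw [hn]
        have : ‖w.1‖ ^ 2 ≤ ‖ρ⁻¹ • w.1‖ ^ 2 := by gcongr
        nlinarith [sq_nonneg (-(ρ⁻¹ ^ 2 * w.2))]
      exact hw.trans_le (le_of_sq_le_sq h4 (norm_nonneg _))
    · have h3 : |w.2| ≤ |-(ρ⁻¹ ^ 2 * w.2)| := by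
        rw [abs_neg, abs_mul, abs_of_nonneg (by positivity : (0:ℝ) ≤ ρ⁻¹ ^ 2)]
        exact le_mul_of_one_le_left (abs_nonneg _) hi2
      have h4 : |w.2| ^ 2 ≤ ‖up J (ρ⁻¹ • w.1) (-(ρ⁻¹ ^ 2 * w.2))‖ ^ 2 := by
        rw [hn]
        have : |w.2| ^ 2 ≤ |-(ρ⁻¹ ^ 2 * w.2)| ^ 2 := by gcongr
        rw [sq_abs (-(ρ⁻¹ ^ 2 * w.2))] at this
        nlinarith [sq_nonneg ‖ρ⁻¹ • w.1‖]
      exact hw.trans_le (le_of_sq_le_sq h4 (norm_nonneg _))

theorem fourier_cw (hρ : 0 < ρ) {f : V → ℂ} (hf : Measurable f) (τ : ℝ)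
    (η : E2) : 𝓕 f (cw J H ρ (τ, η)) = (ρ⁻¹ ^ 4 : ℝ) • Ft H (src J ρ f τ) η := by
  rw [fourier_eq_ee, integral_up J]
  unfold Ft
  rw [← integral_sc hρ]
  · refine integral_congr_ae (Eventually.of_forall fun p => ?_)
    simp only [cw, sc, src]
    have e1 : ρ⁻¹ • ρ • p.1 = p.1 := by rw [smul_smul, inv_mul_cancel₀ hρ.ne', one_smul]
    have e2 : -(ρ⁻¹ ^ 2 * -(ρ ^ 2 * p.2)) = p.2 := by field_simp
    have e3 : ρ⁻¹ ^ 2 * -(ρ ^ 2 * p.2) = -p.2 := by field_simp
    rw [e1, e2, e3, mul_assoc, ← ee_add, inner_up, inner_smul_left, inner_smul_right]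
    congr 2
    simp only [conj_trivial]
    ring
  · exact (measurable_src J hf τ).mul (continuous_ee.comp (by fun_prop)).measurable

theorem gs_eq (hρ : 0 < ρ) (G : V → ℂ) {f : V → ℂ} (hf : Measurable f) (τ : ℝ) :
    gs J H ρ G f τ = fun η => ((ρ⁻¹ ^ 4 : ℝ) : ℂ) * G (cw J H ρ (τ, η)) *
      Ft H (src J ρ f τ) η := by
  ext η
  have h1 := fourier_cw J (H := H) hρ hf τ η
  have h2 : gs J H ρ G f τ η = G (cw J H ρ (τ, η)) * 𝓕 f (cw J H ρ (τ, η)) := rfl
  rw [h2, h1, Complex.real_smul]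
  ring

end Crest.Agent.R138.Fq665
end
end

-- ▼ part R138/Fq1_665
section

set_option autoImplicit false

open MeasureTheory
open scoped ContDiff

namespace Crest.Agent.R138.Fq665

open Crest.Agent.R138.Defs

/-- a cut-off on the line. -/
noncomputable def kap : ContDiffBump (0 : ℝ) := ⟨1/4, 1/2, by norm_num, by norm_num⟩

/-- a cut-off on the plane. -/
noncomputable def th : ContDiffBump (0 : E2) := ⟨2, 3, by norm_num, by norm_num⟩

noncomputable def qq (u : ℝ) : ℝ := Real.sqrt (1 - u * kap u)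

theorem qq_pos' (u : ℝ) : 0 < 1 - u * kap u := by
  have h0 : 0 ≤ kap u := kap.nonneg
  have h1 : kap u ≤ 1 := kap.le_one
  by_cases hu : u ≤ 0
  · nlinarith
  · push Not at hu
    by_cases hu2 : u < 1/2
    · nlinarith
    · have : kap u = 0 := by
        apply kap.zero_of_le_dist
        simp only [Real.dist_eq, sub_zero]
        rw [abs_of_pos hu]
        push Not at hu2
        exact hu2
      rw [this]; norm_num

theorem contDiff_qq : ContDiff ℝ ∞ qq := by
  unfold qq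
  apply ContDiff.sqrt
  · exact contDiff_const.sub (contDiff_id.mul kap.contDiff)
  · intro u; exact (qq_pos' u).ne'

noncomputable def GG (u : ℝ) : ℝ := 1 / (2 * (1 + qq u) ^ 2)

theorem contDiff_GG : ContDiff ℝ ∞ GG := by
  unfold GG
  apply ContDiff.div contDiff_const
  · exact contDiff_const.mul ((contDiff_const.add contDiff_qq).pow 2)
  · intro u
    have : 0 ≤ qq u := Real.sqrt_nonneg _
    positivity

/-- the perturbation. -/
noncomputable def PP (z : ℝ × E2) : ℝ := th z.2 * (‖z.2‖ ^ 2) ^ 2 * GG (z.1 ^ 2 * ‖z.2‖ ^ 2)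

theorem contDiff_PP : ContDiff ℝ ∞ PP := by
  unfold PP
  have h1 : ContDiff ℝ ∞ fun z : ℝ × E2 => ‖z.2‖ ^ 2 := (contDiff_norm_sq ℝ).comp contDiff_snd
  have h2 : ContDiff ℝ ∞ fun z : ℝ × E2 => th z.2 := th.contDiff.comp contDiff_snd
  exact (h2.mul (h1.pow 2)).mul (contDiff_GG.comp ((contDiff_fst.pow 2).mul h1))

/-- The rescaled sphere. -/
noncomputable def Hr (ρ : ℝ) (η : E2) : ℝ := ‖η‖ ^ 2 / 2 + ρ ^ 2 * PP (ρ, η)

theorem contDiff_Hr (ρ : ℝ) : ContDiff ℝ ∞ (Hr ρ) := by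
  unfold Hr
  have h1 : ContDiff ℝ ∞ fun z : E2 => ‖z‖ ^ 2 := contDiff_norm_sq ℝ
  have h2 : ContDiff ℝ ∞ fun η : E2 => PP (ρ, η) :=
    contDiff_PP.comp (contDiff_const.prodMk contDiff_id)
  exact (h1.div_const 2).add (contDiff_const.mul h2)

theorem Hr_eq {ρ : ℝ} (hρ : 0 < ρ) (hρ1 : ρ ≤ 1/8) {η : E2} (hη : ‖η‖ ≤ 2) :
    Hr ρ η = (1 - Real.sqrt (1 - ρ ^ 2 * ‖η‖ ^ 2)) / ρ ^ 2 := by
  have hth : th η = 1 := th.one_of_mem_closedBall (by simpa [th] using hη)
  set u := ρ ^ 2 * ‖η‖ ^ 2 with hu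
  have hu0 : 0 ≤ u := by positivity
  have hu1 : u ≤ 1/16 := by
    have : ρ ^ 2 ≤ (1/8) ^ 2 := by gcongr
    have h2 : ‖η‖ ^ 2 ≤ 2 ^ 2 := by gcongr
    calc u ≤ (1/8) ^ 2 * 2 ^ 2 := by rw [hu]; gcongr
      _ = 1/16 := by norm_num
  have hk : kap u = 1 := by
    apply kap.one_of_mem_closedBall
    simp only [Metric.mem_closedBall, Real.dist_eq, sub_zero]
    rw [abs_of_nonneg hu0]
    exact hu1.trans (by simp [kap]; norm_num)
  have hq : qq u = Real.sqrt (1 - u) := by simp [qq, hk]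
  set q := Real.sqrt (1 - u) with hqd
  have hq0 : 0 ≤ q := Real.sqrt_nonneg _
  have hq2 : q ^ 2 = 1 - u := Real.sq_sqrt (by linarith)
  have hη2 : ‖η‖ ^ 2 = u / ρ ^ 2 := by rw [hu]; field_simp
  simp only [Hr, PP, hth, one_mul]
  rw [← hu, GG, hq, hη2]
  have h3 : (1 + q) ≠ 0 := by positivity
  have hρ2 : ρ ≠ 0 := hρ.ne'
  have hu' : u = 1 - q ^ 2 := by linarith
  rw [hu']
  field_simp
  ring

/-- the derivatives of a slice are bounded by the derivatives of the joint function. -/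
theorem norm_iteratedFDeriv_slice {F : ℝ × E2 → ℝ} (hF : ContDiff ℝ ∞ F) (k : ℕ) (ρ : ℝ) (η : E2) :
    ‖iteratedFDeriv ℝ k (fun η => F (ρ, η)) η‖ ≤ ‖iteratedFDeriv ℝ k F (ρ, η)‖ := by
  set L : E2 →L[ℝ] ℝ × E2 := ContinuousLinearMap.inr ℝ ℝ E2
  have h1 : (fun η => F (ρ, η)) = (fun z => F ((ρ, 0) + z)) ∘ L := by
    ext η; simp [L]
  have hF' : ContDiff ℝ ∞ (fun z : ℝ × E2 => F ((ρ, 0) + z)) :=
    hF.comp (contDiff_const.add contDiff_id)
  rw [h1, ContinuousLinearMap.iteratedFDeriv_comp_right L hF' η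
    (i := k) (mod_cast le_top), iteratedFDeriv_comp_add_left]
  refine (ContinuousMultilinearMap.norm_compContinuousLinearMap_le _ _).trans ?_
  have hL : ‖L‖ ≤ 1 := ContinuousLinearMap.norm_inr_le_one ℝ ℝ E2
  have : ∏ _i : Fin k, ‖L‖ ≤ 1 := Finset.prod_le_one (fun _ _ => norm_nonneg _) fun _ _ => hL
  calc _ ≤ ‖iteratedFDeriv ℝ k F ((ρ, 0) + L η)‖ * 1 := by gcongr
    _ = _ := by simp [L]

theorem exists_bound (k : ℕ) : ∃ C : ℝ, 0 ≤ C ∧ ∀ ρ : ℝ, 0 ≤ ρ → ρ ≤ 1 → ∀ η : E2,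
    ‖iteratedFDeriv ℝ k (fun η => PP (ρ, η)) η‖ ≤ C := by
  have hc : Continuous fun z => iteratedFDeriv ℝ k PP z :=
    contDiff_PP.continuous_iteratedFDeriv (mod_cast le_top)
  obtain ⟨C, hC⟩ := ((isCompact_Icc (a := (0:ℝ)) (b := 1)).prod
    (isCompact_closedBall (0 : E2) 4)).exists_bound_of_continuousOn hc.continuousOn
  refine ⟨max C 0, le_max_right _ _, fun ρ h0 h1 η => ?_⟩
  by_cases hη : ‖η‖ ≤ 4
  · exact (norm_iteratedFDeriv_slice contDiff_PP k ρ η).trans
      ((hC (ρ, η) ⟨⟨h0, h1⟩, by simpa using hη⟩).trans (le_max_left _ _))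
  · have hz : iteratedFDeriv ℝ k (fun η => PP (ρ, η)) η = 0 := by
      have hη' : η ∉ tsupport (fun η => PP (ρ, η)) := by
        intro hmem
        have hsub : tsupport (fun η => PP (ρ, η)) ⊆ Metric.closedBall 0 3 := by
          apply closure_minimal _ Metric.isClosed_closedBall
          intro x hx
          by_contra hx'
          apply hx
          have : th x = 0 := by
            apply th.zero_of_le_dist
            simp only [Metric.mem_closedBall, not_le] at hx'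
            exact hx'.le
          simp [PP, this]
        have := hsub hmem
        simp only [Metric.mem_closedBall, dist_zero_right] at this
        linarith
      have := support_iteratedFDeriv_subset (𝕜 := ℝ) k (f := fun η => PP (ρ, η))
      by_contra hne
      exact hη' (this hne)
    rw [hz, norm_zero]
    exact le_max_right _ _

theorem exists_par (c0 : ℝ) (hc0 : 0 < c0) (K : ℕ) : ∃ ρ0 : ℝ, 0 < ρ0 ∧ ρ0 ≤ 1/8 ∧
    ∀ ρ : ℝ, 0 < ρ → ρ ≤ ρ0 → Par c0 K (Hr ρ) := by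
  choose C hC0 hC using exists_bound
  set B := ∑ k ∈ Finset.range (K + 1), C k with hB
  have hB0 : 0 ≤ B := Finset.sum_nonneg fun k _ => hC0 k
  refine ⟨min (1/8) (Real.sqrt (c0 / (B + 1))), lt_min (by norm_num) (by positivity),
    min_le_left _ _, fun ρ hρ hρ1 => ⟨contDiff_Hr ρ, fun k _ hkK ξ => ?_⟩⟩
  have h8 : ρ ≤ 1/8 := hρ1.trans (min_le_left _ _)
  have hs : ρ ^ 2 ≤ c0 / (B + 1) := by
    have h2 : ρ ≤ Real.sqrt (c0 / (B + 1)) := hρ1.trans (min_le_right _ _)
    calc ρ ^ 2 ≤ Real.sqrt (c0 / (B + 1)) ^ 2 := by gcongr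
      _ = _ := Real.sq_sqrt (by positivity)
  have he : (fun ξ : E2 => Hr ρ ξ - ‖ξ‖ ^ 2 / 2) = fun ξ => (ρ ^ 2) • PP (ρ, ξ) := by
    ext ξ; simp [Hr]
  have hcd : ContDiff ℝ ∞ fun η : E2 => PP (ρ, η) :=
    contDiff_PP.comp (contDiff_const.prodMk contDiff_id)
  rw [he, iteratedFDeriv_const_smul_apply' (hcd.contDiffAt.of_le (mod_cast le_top)), norm_smul,
    Real.norm_eq_abs, abs_of_nonneg (sq_nonneg ρ)]
  have hk : C k ≤ B := Finset.single_le_sum (fun k _ => hC0 k) (by simp; omega)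
  calc ρ ^ 2 * ‖iteratedFDeriv ℝ k (fun η => PP (ρ, η)) ξ‖
      ≤ c0 / (B + 1) * (B + 1) := by
        gcongr
        exact ((hC k ρ hρ.le (by linarith) ξ).trans hk).trans (by linarith)
    _ = c0 := by field_simp

theorem exists_parB (c0 : ℝ) (hc0 : 0 < c0) (K : ℕ) : ∃ ρ0 : ℝ, 0 < ρ0 ∧ ρ0 ≤ 1/8 ∧
    ∀ ρ : ℝ, 0 < ρ → ρ ≤ ρ0 → ∃ B : ℕ → ℝ, (∀ k, 2 ≤ k → k ≤ K → B k ≤ c0) ∧ ParB B (Hr ρ) := by
  obtain ⟨ρ0, h0, h1, h2⟩ := exists_par c0 hc0 K
  choose C hC0 hC using exists_bound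
  refine ⟨ρ0, h0, h1, fun ρ hρ hρ1 => ⟨fun k => if k ≤ K then c0 else ρ ^ 2 * C k,
    fun k _ hk => by simp [hk], contDiff_Hr ρ, fun k hk ξ => ?_⟩⟩
  by_cases hkK : k ≤ K
  · simp only [hkK, if_true]
    exact (h2 ρ hρ hρ1).2 k hk hkK ξ
  · simp only [hkK, if_false]
    have he : (fun ξ : E2 => Hr ρ ξ - ‖ξ‖ ^ 2 / 2) = fun ξ => (ρ ^ 2) • PP (ρ, ξ) := by
      ext ξ; simp [Hr]
    have hcd : ContDiff ℝ ∞ fun η : E2 => PP (ρ, η) :=
      contDiff_PP.comp (contDiff_const.prodMk contDiff_id)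
    rw [he, iteratedFDeriv_const_smul_apply' (hcd.contDiffAt.of_le (mod_cast le_top)), norm_smul,
      Real.norm_eq_abs, abs_of_nonneg (sq_nonneg ρ)]
    gcongr
    exact hC k ρ hρ.le (by linarith) ξ

end Crest.Agent.R138.Fq665
end

-- ▼ part R138/Fq12_665
section

/-! Amplitudes on the slices: support and uniform bounds of the derivatives. -/

set_option autoImplicit false

open MeasureTheory Filter Topology
open scoped ENNReal FourierTransform ContDiff

noncomputable section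

namespace Crest.Agent.R138.Fq665

open Crest.Agent.R138.Defs
open Crest.Agent.R138.Fr665 (cv)
open Crest.Agent.R138.Sh200 (mR KR)

theorem norm_iteratedFDeriv_slice_gen {P : Type*} [NormedAddCommGroup P] [NormedSpace ℝ P]
    {F : P × E2 → ℂ} (hF : ContDiff ℝ ∞ F) (k : ℕ) (p : P) (η : E2) :
    ‖iteratedFDeriv ℝ k (fun η => F (p, η)) η‖ ≤ ‖iteratedFDeriv ℝ k F (p, η)‖ := by
  set L : E2 →L[ℝ] P × E2 := ContinuousLinearMap.inr ℝ P E2
  have h1 : (fun η => F (p, η)) = (fun z => F ((p, 0) + z)) ∘ L := by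
    ext η; simp [L]
  have hF' : ContDiff ℝ ∞ (fun z : P × E2 => F ((p, 0) + z)) :=
    hF.comp (contDiff_const.add contDiff_id)
  rw [h1, ContinuousLinearMap.iteratedFDeriv_comp_right L hF' η
    (i := k) (mod_cast le_top), iteratedFDeriv_comp_add_left]
  refine (ContinuousMultilinearMap.norm_compContinuousLinearMap_le _ _).trans ?_
  have hL : ‖L‖ ≤ 1 := ContinuousLinearMap.norm_inr_le_one ℝ P E2
  have : ∏ _i : Fin k, ‖L‖ ≤ 1 := Finset.prod_le_one (fun _ _ => norm_nonneg _) fun _ _ => hL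
  calc _ ≤ ‖iteratedFDeriv ℝ k F ((p, 0) + L η)‖ * 1 := by gcongr
    _ = _ := by simp [L]

theorem exists_bound_gen {P : Type*} [NormedAddCommGroup P] [NormedSpace ℝ P]
    {F : P × E2 → ℂ} (hF : ContDiff ℝ ∞ F) {K : Set P} (hK : IsCompact K)
    (h0 : ∀ p ∈ K, ∀ η : E2, 1 < ‖η‖ → F (p, η) = 0) (k : ℕ) : ∃ C : ℝ, 0 ≤ C ∧ ∀ p ∈ K,
      ∀ η : E2, ‖iteratedFDeriv ℝ k (fun η => F (p, η)) η‖ ≤ C := by
  have hc : Continuous fun z => iteratedFDeriv ℝ k F z :=
    hF.continuous_iteratedFDeriv (mod_cast le_top)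
  obtain ⟨C, hC⟩ := (hK.prod (isCompact_closedBall (0 : E2) 2)).exists_bound_of_continuousOn
    hc.continuousOn
  refine ⟨max C 0, le_max_right _ _, fun p hp η => ?_⟩
  by_cases hη : ‖η‖ ≤ 2
  · exact (norm_iteratedFDeriv_slice_gen hF k p η).trans
      ((hC (p, η) ⟨hp, by simpa using hη⟩).trans (le_max_left _ _))
  · have hz : iteratedFDeriv ℝ k (fun η => F (p, η)) η = 0 := by
      have hη' : η ∉ tsupport (fun η => F (p, η)) := by
        intro hmem
        have hsub : tsupport (fun η => F (p, η)) ⊆ Metric.closedBall 0 1 := by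
          apply closure_minimal _ Metric.isClosed_closedBall
          intro x hx
          by_contra hx'
          simp only [Metric.mem_closedBall, dist_zero_right, not_le] at hx'
          exact hx (h0 p hp x hx')
        have := hsub hmem
        simp only [Metric.mem_closedBall, dist_zero_right] at this
        linarith
      have := support_iteratedFDeriv_subset (𝕜 := ℝ) k (f := fun η => F (p, η))
      by_contra hne
      exact hη' (this hne)
    rw [hz, norm_zero]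
    exact le_max_right _ _

variable (J : PR ≃ₗᵢ[ℝ] V)

/-- cut-offs of the sector. -/
structure Sec (J : PR ≃ₗᵢ[ℝ] V) (ρ : ℝ) (a : V → ℂ) : Prop where
  smooth : ContDiff ℝ ∞ a
  supp : ∀ v, a v ≠ 0 → ‖v - up J 0 1‖ ≤ ρ / 2

/-- profile supported in `[-Λ, Λ]`. -/
structure Prof (Λ : ℝ) (φ : ℝ → ℝ) : Prop where
  smooth : ContDiff ℝ ∞ φ
  supp : ∀ u, φ u ≠ 0 → |u| ≤ Λ

theorem norm_cw_sub (H : E2 → ℝ) (ρ τ : ℝ) (η : E2) : ‖cw J H ρ (τ, η) - up J 0 1‖ ^ 2 =
    ρ ^ 2 * ‖η‖ ^ 2 + (τ - ρ ^ 2 * H η) ^ 2 := by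
  unfold cw
  rw [up_sub, norm_up_sq]
  simp only [sub_zero, norm_smul, Real.norm_eq_abs]
  rw [mul_pow, sq_abs]
  ring

theorem Sec.loc {J : PR ≃ₗᵢ[ℝ] V} {ρ : ℝ} (hρ : 0 < ρ) {a : V → ℂ} (ha : Sec J ρ a) {H : E2 → ℝ}
    {τ : ℝ} {η : E2} (h : a (cw J H ρ (τ, η)) ≠ 0) : ‖η‖ ≤ 1/2 ∧ |τ - ρ ^ 2 * H η| ≤ ρ / 2 := by
  have h1 := ha.supp _ h
  have h2 := norm_cw_sub J H ρ τ η
  have h3 : ρ ^ 2 * ‖η‖ ^ 2 + (τ - ρ ^ 2 * H η) ^ 2 ≤ (ρ / 2) ^ 2 := by
    rw [← h2]; gcongr
  constructor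
  · have h4 : (ρ * ‖η‖) ^ 2 ≤ (ρ / 2) ^ 2 := by nlinarith [sq_nonneg (τ - ρ ^ 2 * H η)]
    have h5 := le_of_sq_le_sq h4 (by positivity)
    have : ρ * ‖η‖ ≤ ρ * (1/2) := by linarith
    exact le_of_mul_le_mul_left this hρ
  · apply abs_le_of_sq_le_sq _ (by positivity)
    nlinarith [mul_nonneg (sq_nonneg ρ) (sq_nonneg ‖η‖)]

/-- geometry of the sphere. -/
theorem sphere_eq {ρ : ℝ} (hρ : 0 < ρ) (hρ1 : ρ ≤ 1/8) {η : E2} (hη : ‖η‖ ≤ 2) :
    (1 - ρ ^ 2 * Hr ρ η) ^ 2 = 1 - ρ ^ 2 * ‖η‖ ^ 2 ∧ 0 ≤ 1 - ρ ^ 2 * Hr ρ η := by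
  have h1 := Hr_eq hρ hρ1 hη
  have h2 : 1 - ρ ^ 2 * Hr ρ η = Real.sqrt (1 - ρ ^ 2 * ‖η‖ ^ 2) := by
    rw [h1]; field_simp; ring
  rw [h2]
  refine ⟨Real.sq_sqrt ?_, Real.sqrt_nonneg _⟩
  have : ρ ^ 2 ≤ (1/8) ^ 2 := by gcongr
  have h2 : ‖η‖ ^ 2 ≤ 2 ^ 2 := by gcongr
  have : ρ ^ 2 * ‖η‖ ^ 2 ≤ (1/8) ^ 2 * 2 ^ 2 := by gcongr
  nlinarith

theorem norm_cw {ρ : ℝ} (hρ : 0 < ρ) (hρ1 : ρ ≤ 1/8) {η : E2} (hη : ‖η‖ ≤ 2) (τ : ℝ) :
    1 - ‖cw J (Hr ρ) ρ (τ, η)‖ ^ 2 = -(τ * (2 * (1 - ρ ^ 2 * Hr ρ η) + τ)) := by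
  unfold cw
  rw [norm_up_sq]
  have h := (sphere_eq hρ hρ1 hη).1
  simp only [norm_smul, Real.norm_eq_abs]
  rw [mul_pow, sq_abs]
  have : (1 - ρ ^ 2 * Hr ρ η + τ) ^ 2 = (1 - ρ ^ 2 * Hr ρ η) ^ 2 +
    2 * (1 - ρ ^ 2 * Hr ρ η) * τ + τ ^ 2 := by ring
  rw [this, h]
  ring

/-- the joint amplitude. -/
def amp (J : PR ≃ₗᵢ[ℝ] V) (ρ : ℝ) (a : V → ℂ) (φ : ℝ → ℝ) (z : (ℝ × ℝ) × E2) : ℂ :=
  ((ρ⁻¹ ^ 4 : ℝ) : ℂ) * (a (cw J (Hr ρ) ρ (z.1.1, z.2)) *
    ((φ (-(z.1.2 * (2 * (1 - ρ ^ 2 * Hr ρ z.2) + z.1.1))) : ℝ) : ℂ))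

theorem contDiff_cw {H : E2 → ℝ} (hH : ContDiff ℝ ∞ H) (ρ : ℝ) : ContDiff ℝ ∞ (cw J H ρ) := by
  unfold cw
  have h1 : ContDiff ℝ ∞ fun q : ℝ × E2 => ((ρ • q.2, 1 - ρ ^ 2 * H q.2 + q.1) : E2 × ℝ) := by
    refine ContDiff.prodMk (contDiff_snd.const_smul ρ) ?_
    exact (contDiff_const.sub (contDiff_const.mul (hH.comp contDiff_snd))).add contDiff_fst
  exact (contDiff_up J).comp h1

theorem contDiff_amp {ρ Λ : ℝ} {a : V → ℂ} (ha : Sec J ρ a) {φ : ℝ → ℝ} (hφ : Prof Λ φ) :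
    ContDiff ℝ ∞ (amp J ρ a φ) := by
  unfold amp
  refine contDiff_const.mul (ContDiff.mul ?_ ?_)
  · have h1 : ContDiff ℝ ∞ fun z : (ℝ × ℝ) × E2 => ((z.1.1, z.2) : ℝ × E2) :=
      (contDiff_fst.comp contDiff_fst).prodMk contDiff_snd
    exact ha.smooth.comp ((contDiff_cw J (contDiff_Hr ρ) ρ).comp h1)
  · refine Complex.ofRealCLM.contDiff.comp (hφ.smooth.comp ?_)
    have h2 : ContDiff ℝ ∞ fun z : (ℝ × ℝ) × E2 => Hr ρ z.2 := (contDiff_Hr ρ).comp contDiff_snd
    have h3 : ContDiff ℝ ∞ fun z : (ℝ × ℝ) × E2 => z.1.1 := contDiff_fst.comp contDiff_fst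
    have h4 : ContDiff ℝ ∞ fun z : (ℝ × ℝ) × E2 => z.1.2 := contDiff_snd.comp contDiff_fst
    exact (h4.mul ((contDiff_const.mul (contDiff_const.sub (contDiff_const.mul h2))).add h3)).neg

theorem amp_eq {ρ : ℝ} (hρ : 0 < ρ) (hρ1 : ρ ≤ 1/8) {a : V → ℂ} (ha : Sec J ρ a) (φ : ℝ → ℝ)
    (R τ : ℝ) (η : E2) : amp J ρ a φ ((τ, R * τ), η) = ((ρ⁻¹ ^ 4 : ℝ) : ℂ) *
      (a (cw J (Hr ρ) ρ (τ, η)) * mR φ R (cw J (Hr ρ) ρ (τ, η))) := by
  unfold amp mR
  by_cases h : a (cw J (Hr ρ) ρ (τ, η)) = 0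
  · simp [h]
  · have h1 := (ha.loc hρ h).1
    have h2 := norm_cw J hρ hρ1 (η := η) (by linarith) τ
    simp only
    rw [h2]
    congr 5
    ring

theorem amp_supp {ρ : ℝ} (hρ : 0 < ρ) {a : V → ℂ} (ha : Sec J ρ a) (φ : ℝ → ℝ)
    (p : ℝ × ℝ) (η : E2) (hη : 1/2 < ‖η‖) : amp J ρ a φ (p, η) = 0 := by
  unfold amp
  by_cases h : a (cw J (Hr ρ) ρ (p.1, η)) = 0
  · simp [h]
  · exact absurd (ha.loc hρ h).1 (not_le.2 hη)

theorem G_supp_tau {ρ Λ : ℝ} (hρ : 0 < ρ) (hρ1 : ρ ≤ 1/8) {a : V → ℂ} (ha : Sec J ρ a) {φ : ℝ → ℝ}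
    (hφ : Prof Λ φ) {R : ℝ} (hR : 0 < R) {τ : ℝ} {η : E2} (hτ : Λ / R < |τ|) :
    a (cw J (Hr ρ) ρ (τ, η)) * mR φ R (cw J (Hr ρ) ρ (τ, η)) = 0 := by
  by_contra h
  have h1 : a (cw J (Hr ρ) ρ (τ, η)) ≠ 0 := left_ne_zero_of_mul h
  have h2 : mR φ R (cw J (Hr ρ) ρ (τ, η)) ≠ 0 := right_ne_zero_of_mul h
  obtain ⟨h3, h4⟩ := ha.loc hρ h1
  have h5 := norm_cw J hρ hρ1 (η := η) (by linarith) τ
  have h6 : φ (R * (1 - ‖cw J (Hr ρ) ρ (τ, η)‖ ^ 2)) ≠ 0 := by
    intro h0; apply h2; simp [mR, h0]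
  have h7 := hφ.supp _ h6
  obtain ⟨h8, h9⟩ := sphere_eq hρ hρ1 (η := η) (by linarith)
  rw [h5] at h7
  set q := 1 - ρ ^ 2 * Hr ρ η with hq
  have h10 : 1/2 ≤ q := by
    have : ρ ^ 2 ≤ (1/8) ^ 2 := by gcongr
    have h2 : ‖η‖ ^ 2 ≤ (1/2) ^ 2 := by gcongr
    have : ρ ^ 2 * ‖η‖ ^ 2 ≤ (1/8) ^ 2 * (1/2) ^ 2 := by gcongr
    nlinarith
  have h11 : 1/2 ≤ q + τ := by
    rw [abs_le] at h4
    have : q + τ = 1 + (τ - ρ ^ 2 * Hr ρ η) := by rw [hq]; ring
    rw [this]; linarith [h4.1]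
  have h12 : R * |τ| ≤ Λ := by
    calc R * |τ| = R * |τ| * 1 := by ring
      _ ≤ R * |τ| * (2 * q + τ) := by gcongr; linarith
      _ = |R * -(τ * (2 * q + τ))| := by
        rw [abs_mul, abs_of_pos hR, abs_neg, abs_mul, abs_of_pos (by linarith : 0 < 2 * q + τ)]
        ring
      _ ≤ Λ := h7
  have : |τ| ≤ Λ / R := by rw [le_div_iff₀ hR]; linarith
  linarith

theorem G_supp_eta {ρ : ℝ} (hρ : 0 < ρ) {a : V → ℂ} (ha : Sec J ρ a) (φ : ℝ → ℝ)
    (R : ℝ) {τ : ℝ} {η : E2} (hη : 1 < ‖η‖) :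
    a (cw J (Hr ρ) ρ (τ, η)) * mR φ R (cw J (Hr ρ) ρ (τ, η)) = 0 := by
  by_contra h
  have h1 : a (cw J (Hr ρ) ρ (τ, η)) ≠ 0 := left_ne_zero_of_mul h
  have := (ha.loc hρ h1).1
  linarith

end Crest.Agent.R138.Fq665
end
end

-- ▼ part R138/Fq13_665
section

/-! The box bound for the slices. -/

set_option autoImplicit false

open MeasureTheory Filter Topology
open scoped ENNReal FourierTransform ContDiff

noncomputable section

namespace Crest.Agent.R138.Fq665

open Crest.Agent.R138.Defs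
open Crest.Agent.R138.Fr665 (cv)
open Crest.Agent.R138.Sh200 (mR KR)
open Crest.Agent.R138.Ker858 (kernel_bound_parB)

variable (J : PR ≃ₗᵢ[ℝ] V)

theorem decay_ext (N : ℕ) {B : ℕ → ℝ} (hB2 : B 2 ≤ 1 / 16) {h : E2 → ℝ} (hh : ParB B h)
    (L1 : ℝ) (hL1 : 1 ≤ L1) : ∃ C : ℝ, 0 ≤ C ∧ ∀ (Cb : ℝ), 0 < Cb → ∀ β : E2 → ℂ,
      ContDiff ℝ ∞ β → (∀ m ≤ N, ∀ ξ, ‖iteratedFDeriv ℝ m β ξ‖ ≤ Cb) → ∀ R lam : ℝ, 1 ≤ R →
      1 ≤ lam → ∀ (c : E2) (b : OrthonormalBasis (Fin 2) ℝ E2) (s : Fin 2 → ℝ),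
      (∀ i, R ^ (-(1/2) : ℝ) ≤ s i ∧ s i ≤ 1) → ∀ ψ, Adm N ψ → ∀ (y : E2) (u : ℝ),
      |u| ≤ L1 * R → (∃ i, 3 * lam * (s i * R) ≤ |inner ℝ (y + u • c) (b i)|) →
      ‖ext h (fun η => β η * chi h c b s ψ η) y u‖ ≤ Cb * (C * (lam ^ N)⁻¹) := by
  obtain ⟨C, hC, H⟩ := kernel_bound_parB N B hB2
  refine ⟨C * (L1 / 3) ^ N, by positivity, ?_⟩
  rintro Cb hCb β hβ hβd R lam hR hlam c b s hs ψ hψ y u hu ⟨i, hi⟩
  have hR0 : 0 < R := by linarith
  have hlam0 : 0 < lam := by linarith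
  have hL0 : 0 < L1 := by linarith
  have hLR : R ≤ L1 * R := le_mul_of_one_le_left hR0.le hL1
  have hs' : ∀ a, (L1 * R) ^ (-(1/2) : ℝ) ≤ s a ∧ s a ≤ 1 := by
    intro a
    refine ⟨le_trans ?_ (hs a).1, (hs a).2⟩
    exact Real.rpow_le_rpow_of_nonpos hR0 hLR (by norm_num)
  have hs0 : ∀ a, 0 < s a := fun a => (Real.rpow_pos_of_pos hR0 _).trans_le (hs a).1
  set am : E2 → ℂ := fun ξ => ((Cb⁻¹ : ℝ) : ℂ) * β ξ with ham
  have ham_eq : am = fun ξ => (Cb⁻¹ : ℝ) • β ξ := by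
    ext ξ; rw [ham]; simp [Complex.real_smul]
  have hamd : ∀ m ≤ N, ∀ ξ, ‖iteratedFDeriv ℝ m am ξ‖ ≤ 1 := by
    intro m hm ξ
    rw [ham_eq, iteratedFDeriv_const_smul_apply' (hβ.contDiffAt.of_le (mod_cast le_top)), norm_smul,
      Real.norm_eq_abs, abs_of_pos (by positivity)]
    calc Cb⁻¹ * ‖iteratedFDeriv ℝ m β ξ‖ ≤ Cb⁻¹ * Cb := by gcongr; exact hβd m hm ξ
      _ = 1 := inv_mul_cancel₀ hCb.ne'
  have hamc : ContDiff ℝ ∞ am := contDiff_const.mul hβ
  have h1 := H h hh (L1 * R) (hR.trans hLR) c b s hs' ψ hψ am hamc (fun m hm ξ _ => hamd m hm ξ) y u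
    hu i
  have h2 : ext h (fun η => β η * chi h c b s ψ η) y u =
      ((Cb : ℝ) : ℂ) * ∫ ξ, chi h c b s ψ ξ * am ξ * ee (inner ℝ y ξ + u * h ξ) := by
    unfold ext
    rw [← integral_const_mul]
    refine integral_congr_ae (Eventually.of_forall fun ξ => ?_)
    simp only [ham]
    have : ((Cb : ℝ) : ℂ) * ((Cb⁻¹ : ℝ) : ℂ) = 1 := by
      rw [← Complex.ofReal_mul, mul_inv_cancel₀ hCb.ne', Complex.ofReal_one]
    calc β ξ * chi h c b s ψ ξ * ee (inner ℝ y ξ + u * h ξ)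
        = (((Cb : ℝ) : ℂ) * ((Cb⁻¹ : ℝ) : ℂ)) * (β ξ * chi h c b s ψ ξ *
          ee (inner ℝ y ξ + u * h ξ)) := by rw [this, one_mul]
      _ = _ := by ring
  rw [h2, norm_mul, Complex.norm_real, Real.norm_eq_abs, abs_of_pos hCb]
  refine mul_le_mul_of_nonneg_left (h1.trans ?_) hCb.le
  have h3 : 3 * lam / L1 ≤ 1 + |inner ℝ (y + u • c) (b i)| / (s i * (L1 * R)) := by
    have hp : 0 < s i * (L1 * R) := mul_pos (hs0 i) (by positivity)
    have h4 : 3 * lam / L1 ≤ |inner ℝ (y + u • c) (b i)| / (s i * (L1 * R)) := by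
      rw [div_le_div_iff₀ hL0 hp]
      calc 3 * lam * (s i * (L1 * R)) = 3 * lam * (s i * R) * L1 := by ring
        _ ≤ _ := by gcongr
    linarith
  have h5 : ((1 + |inner ℝ (y + u • c) (b i)| / (s i * (L1 * R))) ^ N)⁻¹ ≤
      (L1 / 3) ^ N * (lam ^ N)⁻¹ := by
    have h6 : (3 * lam / L1) ^ N ≤ (1 + |inner ℝ (y + u • c) (b i)| / (s i * (L1 * R))) ^ N := by
      gcongr
    refine (inv_anti₀ (by positivity) h6).trans (le_of_eq ?_)
    rw [div_pow, div_pow, mul_pow]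
    field_simp
  have h7 : s 0 * s 1 ≤ 1 := mul_le_one₀ (hs 0).2 (hs0 1).le (hs 1).2
  calc C * (s 0 * s 1) * ((1 + |inner ℝ (y + u • c) (b i)| / (s i * (L1 * R))) ^ N)⁻¹
      ≤ C * 1 * ((L1 / 3) ^ N * (lam ^ N)⁻¹) := by
        have h8 : 0 ≤ 1 + |inner ℝ (y + u • c) (b i)| / (s i * (L1 * R)) :=
          le_trans (by positivity) h3
        exact mul_le_mul (mul_le_mul_of_nonneg_left h7 hC) h5 (inv_nonneg.2 (pow_nonneg h8 _))
          (by positivity)
    _ = _ := by ring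

/-- **box bound for the slices.** -/
theorem box_gs {ρ : ℝ} (hρ : 0 < ρ) (hρ1 : ρ ≤ 1/8) {B : ℕ → ℝ} (hB2 : B 2 ≤ 1 / 16)
    (hh : ParB B (Hr ρ)) {a : V → ℂ} (ha : Sec J ρ a) {φ : ℝ → ℝ} {Λ : ℝ} (hφ : Prof Λ φ)
    (N : ℕ) {L0 : ℝ} (hL0 : 0 ≤ L0) :
    ∃ M C : ℝ, 0 ≤ M ∧ 0 ≤ C ∧ ∀ R : ℝ, 1 ≤ R → ∀ τ : ℝ, |τ| ≤ Λ / R → ∀ R' lam : ℝ, 1 ≤ R' →
      1 ≤ lam → ∀ f : V → ℂ, Measurable f → (∀ v, ‖f v‖ ≤ 1) → (∀ v, 2 * R' < ‖v‖ → f v = 0) →
      BoxBoundL L0 N (Hr ρ) (gs J (Hr ρ) ρ (fun v => a v * mR φ R v) f τ) R'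
        (1024 * (M ^ 2 * lam ^ 2 * (2 * R') ^ 2 + (2 * R') ^ 6 * (C * (lam ^ N)⁻¹) ^ 2)) := by
  set K : Set (ℝ × ℝ) := Set.Icc (-Λ) Λ ×ˢ Set.Icc (-Λ) Λ with hK
  have hKc : IsCompact K := isCompact_Icc.prod isCompact_Icc
  have hamp := contDiff_amp J ha hφ
  have h0 : ∀ p ∈ K, ∀ η : E2, 1 < ‖η‖ → amp J ρ a φ (p, η) = 0 :=
    fun p _ η hη => amp_supp J hρ ha φ p η (by linarith)
  choose Ck hCk0 hCk using fun k => exists_bound_gen hamp hKc h0 k
  set Cb : ℝ := 1 + ∑ k ∈ Finset.range (N + 1), Ck k with hCb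
  have hCb0 : 0 < Cb := by
    have : 0 ≤ ∑ k ∈ Finset.range (N + 1), Ck k := Finset.sum_nonneg fun k _ => hCk0 k
    linarith
  obtain ⟨C, hC, hdec⟩ := decay_ext N hB2 hh (L0 + 3) (by linarith)
  refine ⟨Cb, Cb * C, hCb0.le, by positivity, ?_⟩
  intro R hR τ hτ R' lam hR' hlam f hf hf1 hf0
  have hR0 : 0 < R := by linarith
  have hΛ : 0 ≤ Λ := by
    have : 0 ≤ Λ / R := (abs_nonneg τ).trans hτ
    by_contra h
    push Not at h
    have := div_neg_of_neg_of_pos h hR0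
    linarith
  have hmem : (τ, R * τ) ∈ K := by
    have h1 : |τ| ≤ Λ := hτ.trans (div_le_self hΛ hR)
    have h2 : |R * τ| ≤ Λ := by
      rw [abs_mul, abs_of_pos hR0]
      rw [le_div_iff₀ hR0] at hτ
      linarith
    exact ⟨abs_le.1 h1, abs_le.1 h2⟩
  set β : E2 → ℂ := fun η => amp J ρ a φ ((τ, R * τ), η) with hβ
  have hβc : ContDiff ℝ ∞ β := hamp.comp (contDiff_const.prodMk contDiff_id)
  have hβd : ∀ m ≤ N, ∀ ξ, ‖iteratedFDeriv ℝ m β ξ‖ ≤ Cb := by
    intro m hm ξ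
    refine (hCk m _ hmem ξ).trans ?_
    have := Finset.single_le_sum (f := Ck) (s := Finset.range (N + 1)) (fun k _ => hCk0 k)
      (Finset.mem_range.2 (by omega : m < N + 1))
    linarith
  have hβM : ∀ η, ‖β η‖ ≤ Cb := by
    intro η
    have := hβd 0 (Nat.zero_le _) η
    rwa [norm_iteratedFDeriv_zero] at this
  have hβs : HasCompactSupport β := by
    apply HasCompactSupport.of_support_subset_isCompact (isCompact_closedBall (0 : E2) 1)
    intro η hη
    by_contra hη'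
    simp only [Metric.mem_closedBall, dist_zero_right, not_le] at hη'
    exact hη (h0 _ hmem η hη')
  have hgs : gs J (Hr ρ) ρ (fun v => a v * mR φ R v) f τ =
      fun η => β η * Ft (Hr ρ) (src J ρ f τ) η := by
    rw [gs_eq J hρ _ hf]
    ext η
    simp only [hβ]
    rw [amp_eq J hρ hρ1 ha]
  rw [hgs]
  have hS : Src (2 * R') (src J ρ f τ) := Src_src J hρ (by linarith) hf hf1 hf0 τ
  have key := box_of_decay (H := Hr ρ) (contDiff_Hr ρ) hβc.continuous hβs hβM (L := 2 * R')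
    (by linarith) hS (R := R') (lam := lam) (Q := Cb * (C * (lam ^ N)⁻¹)) (L0 := L0) hR' hlam
    (by positivity) (N := N) ?_
  · intro c b s hs ψ hψ x0 t0 hx0 ht0
    refine (key c b s hs ψ hψ x0 t0 hx0 ht0).trans (le_of_eq ?_)
    congr 2
    ring
  · intro c b s hs ψ hψ y u hu hi
    exact hdec Cb hCb0 β hβc hβd R' lam hR' hlam c b s hs ψ hψ y u
      (by linarith) hi

end Crest.Agent.R138.Fq665
end
end

-- ▼ part R138/Fq14_665
section

/-! `EBn → LocSec`. -/

set_option autoImplicit false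

open MeasureTheory Filter Topology
open scoped ENNReal FourierTransform ContDiff

noncomputable section

namespace Crest.Agent.R138.Fq665

open Crest.Agent.R138.Defs
open Crest.Agent.R138.Fr665 (cv)
open Crest.Agent.R138.Sh200 (mR KR)

theorem Hr_zero (ρ : ℝ) : Hr ρ 0 = 0 := by
  simp [Hr, PP]

theorem Hr_neg (ρ : ℝ) (η : E2) : Hr ρ (-η) = Hr ρ η := by
  simp [Hr, PP, ContDiffBump.neg]

theorem fderiv_Hr_zero (ρ : ℝ) : fderiv ℝ (Hr ρ) 0 = 0 := by
  have hd : DifferentiableAt ℝ (Hr ρ) 0 := (contDiff_Hr ρ).differentiable (by simp) 0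
  have h1 := hd.hasFDerivAt
  have h2 : HasFDerivAt (fun η : E2 => Hr ρ (-η)) ((fderiv ℝ (Hr ρ) 0).comp
      (-ContinuousLinearMap.id ℝ E2)) 0 := by
    have h3 : HasFDerivAt (fun η : E2 => -η) (-ContinuousLinearMap.id ℝ E2) 0 :=
      (hasFDerivAt_id 0).neg
    have h4 : HasFDerivAt (Hr ρ) (fderiv ℝ (Hr ρ) 0) (-(0 : E2)) := by rw [neg_zero]; exact h1
    exact HasFDerivAt.comp 0 h4 h3
  simp only [Hr_neg] at h2
  have h3 := h1.unique h2
  ext v
  have h4 := congrArg (fun L : E2 →L[ℝ] ℝ => L v) h3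
  simp only [ContinuousLinearMap.comp_apply, neg_apply,
    ContinuousLinearMap.id_apply, map_neg] at h4
  simp only [zero_apply]
  linarith

theorem measurable_cv {K f : V → ℂ} (hK : Measurable K) (hf : Measurable f) :
    Measurable (cv K f) := by
  unfold cv
  have hm : Measurable fun p : V × V => K (p.1 - p.2) * f p.2 := by fun_prop
  exact (StronglyMeasurable.integral_prod_right' (ν := (volume : Measure V))
    hm.stronglyMeasurable).measurable

theorem continuous_fourierInv {G : V → ℂ} (hG : Integrable G) : Continuous (𝓕⁻ G) := by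
  have h := continuous_fourier hG
  have : 𝓕⁻ G = fun x => 𝓕 G (-x) := by
    ext x; rw [Real.fourierInv_eq_fourier_neg]
  rw [this]
  exact h.comp continuous_neg

theorem bdd_memLp {f : V → ℂ} (hf : Measurable f) (h1 : ∀ v, ‖f v‖ ≤ 1) {L : ℝ}
    (h0 : ∀ v, L < ‖v‖ → f v = 0) : Integrable f ∧ MemLp f 2 := by
  have ht : MemLp f ⊤ (volume : Measure V) := memLp_top_of_bound hf.aestronglyMeasurable 1
    (Eventually.of_forall fun x => h1 _)
  have hs : Function.support f ⊆ Metric.closedBall 0 L := by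
    intro x hx
    by_contra hx'
    simp only [Metric.mem_closedBall, dist_zero_right, not_le] at hx'
    exact hx (h0 _ hx')
  have key : ∀ p : ℝ≥0∞, MemLp f p := by
    intro p
    have h2 : MemLp f p (volume.restrict (Metric.closedBall (0 : V) L)) :=
      haveI : IsFiniteMeasure (volume.restrict (Metric.closedBall (0 : V) L)) :=
        ⟨by rw [Measure.restrict_apply_univ]; exact measure_closedBall_lt_top⟩
      (ht.restrict _).mono_exponent le_top
    have h3 := (memLp_indicator_iff_restrict Metric.isClosed_closedBall.measurableSet).2 h2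
    rwa [Set.indicator_eq_self.2 hs] at h3
  exact ⟨memLp_one_iff_integrable.1 (key 1), key 2⟩

theorem mR_continuous {φ : ℝ → ℝ} (hφ : Continuous φ) (R : ℝ) : Continuous (mR φ R) := by
  unfold mR
  fun_prop

theorem ball_le_cyl (J : PR ≃ₗᵢ[ℝ] V) {u : V → ℝ≥0∞} (hu : Measurable u) {R : ℝ} (hR : 0 ≤ R) :
    ∫⁻ v in Metric.closedBall (0 : V) R, u v ≤ ∫⁻ p in cyl R, u (up J p.1 p.2) := by
  have hm : MeasurableSet (Metric.closedBall (0 : V) R) := Metric.isClosed_closedBall.measurableSet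
  rw [← lintegral_indicator hm, lintegral_up J _ (hu.indicator hm),
    ← lintegral_indicator (measurableSet_cyl R)]
  refine lintegral_mono fun p => ?_
  by_cases hp : up J p.1 p.2 ∈ Metric.closedBall (0 : V) R
  · have hn := norm_up_sq J p.1 p.2
    have h1 : ‖up J p.1 p.2‖ ≤ R := by simpa using hp
    have h2 : ‖up J p.1 p.2‖ ^ 2 ≤ R ^ 2 := by gcongr
    have hp' : p ∈ cyl R := by
      constructor
      · apply le_of_sq_le_sq _ hR
        nlinarith [sq_nonneg p.2]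
      · apply abs_le_of_sq_le_sq _ hR
        nlinarith [sq_nonneg ‖p.1‖]
    simp only [Set.indicator_of_mem hp']
    exact Set.indicator_le_self _ _ _
  · rw [Set.indicator_of_notMem hp]
    exact zero_le

theorem numer {R δ Λ CE Mp sD D1 : ℝ} (hR : 1 ≤ R) (hδ : 0 < δ) (hδ1 : δ ≤ 1)
    (hCE : 0 ≤ CE) (hD1 : 0 ≤ D1)
    (hsD : sD ≤ D1 * (R ^ (1 + δ) * (R ^ (1 + δ)) ^ δ)) :
    (2 * (Λ / R)) ^ 2 * (CE * (R ^ (1 + δ)) ^ δ * R ^ (1 + δ) * sD) * Mp ^ 2 ≤
      4 * Λ ^ 2 * CE * D1 * Mp ^ 2 * R ^ (6 * δ) := by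
  have hR0 : 0 < R := by linarith
  have e0 : (R ^ (1 + δ)) ^ δ = R ^ ((1 + δ) * δ) := by rw [← Real.rpow_mul hR0.le]
  rw [e0] at hsD ⊢
  have e4 : (R ^ 2)⁻¹ = R ^ (-2 : ℝ) := by
    rw [Real.rpow_neg hR0.le]; norm_num
  have e3 : R ^ ((1 + δ) * δ) * R ^ (1 + δ) * (R ^ (1 + δ) * R ^ ((1 + δ) * δ)) =
      R ^ (2 * (1 + δ) ^ 2) := by
    rw [← Real.rpow_add hR0, ← Real.rpow_add hR0, ← Real.rpow_add hR0]
    congr 1
    ring
  have e2 : (R ^ 2)⁻¹ * (R ^ ((1 + δ) * δ) * R ^ (1 + δ) * (R ^ (1 + δ) * R ^ ((1 + δ) * δ))) ≤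
      R ^ (6 * δ) := by
    rw [e3, e4, ← Real.rpow_add hR0]
    exact Real.rpow_le_rpow_of_exponent_le hR (by nlinarith)
  have hP1 : 0 ≤ R ^ ((1 + δ) * δ) := Real.rpow_nonneg hR0.le _
  have hP2 : 0 ≤ R ^ (1 + δ) := Real.rpow_nonneg hR0.le _
  have h1 : (2 * (Λ / R)) ^ 2 * (CE * R ^ ((1 + δ) * δ) * R ^ (1 + δ) * sD) * Mp ^ 2 =
      4 * Λ ^ 2 * CE * Mp ^ 2 * (R ^ 2)⁻¹ * (R ^ ((1 + δ) * δ) * R ^ (1 + δ)) * sD := by
    rw [div_eq_mul_inv, mul_pow, mul_pow, inv_pow]
    ring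
  rw [h1]
  calc 4 * Λ ^ 2 * CE * Mp ^ 2 * (R ^ 2)⁻¹ * (R ^ ((1 + δ) * δ) * R ^ (1 + δ)) * sD
      ≤ 4 * Λ ^ 2 * CE * Mp ^ 2 * (R ^ 2)⁻¹ * (R ^ ((1 + δ) * δ) * R ^ (1 + δ)) *
        (D1 * (R ^ (1 + δ) * R ^ ((1 + δ) * δ))) := by
        gcongr
    _ = 4 * Λ ^ 2 * CE * D1 * Mp ^ 2 *
        ((R ^ 2)⁻¹ * (R ^ ((1 + δ) * δ) * R ^ (1 + δ) * (R ^ (1 + δ) * R ^ ((1 + δ) * δ)))) := by
        ring
    _ ≤ _ := by gcongr

set_option maxHeartbeats 1000000 in
theorem LocSec_of_EBn (h : EBn) : LocSec := by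
  obtain ⟨c0, hc0, K0, L0', H⟩ := h
  set L0 := max L0' 0 with hL0
  have hL00 : 0 ≤ L0 := le_max_right _ _
  obtain ⟨ρ, hρ, hρ1, hpar⟩ := exists_parB (min c0 (1/16)) (by positivity) (max K0 2)
  obtain ⟨B, hB, hParB⟩ := hpar ρ hρ le_rfl
  have hB2 : B 2 ≤ 1/16 := (hB 2 le_rfl (le_max_right _ _)).trans (min_le_right _ _)
  have hBc : ∀ k, 2 ≤ k → k ≤ K0 → B k ≤ c0 := fun k h2 hk =>
    (hB k h2 (hk.trans (le_max_left _ _))).trans (min_le_left _ _)
  refine ⟨ρ, hρ, hρ1, ?_⟩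
  intro J a hac has φ hφ hφs δ hδ hδ1
  have ha : Sec J ρ a := ⟨hac, has⟩
  -- profile
  obtain ⟨Λ', hΛ'⟩ := (hφs : IsCompact (tsupport φ)).isBounded.exists_norm_le
  set Λ := max Λ' 0 with hΛ
  have hΛ0 : 0 ≤ Λ := le_max_right _ _
  have hprof : Prof Λ φ := ⟨hφ, fun u hu => by
    have := hΛ' u (subset_tsupport _ hu)
    rw [Real.norm_eq_abs] at this
    exact this.trans (le_max_left _ _)⟩
  -- bounds of the multiplier
  have hacs : HasCompactSupport a := by
    apply HasCompactSupport.of_support_subset_isCompact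
      (isCompact_closedBall (up J 0 1) (ρ / 2))
    intro v hv
    rw [Metric.mem_closedBall, dist_eq_norm]
    exact has v hv
  obtain ⟨Ma, hMa⟩ := hac.continuous.bounded_above_of_compact_support hacs
  obtain ⟨Mφ, hMφ⟩ := hφ.continuous.bounded_above_of_compact_support hφs
  have hMa0 : 0 ≤ Ma := (norm_nonneg _).trans (hMa 0)
  have hMφ0 : 0 ≤ Mφ := (norm_nonneg _).trans (hMφ 0)
  set N : ℕ := ⌈2 / δ⌉₊ with hN
  have hNδ : 2 ≤ δ * N := by
    have := Nat.le_ceil (2 / δ)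
    rw [div_le_iff₀ hδ] at this
    linarith
  obtain ⟨CE, hCE, HE⟩ := H B hBc δ hδ N
  obtain ⟨M, C, hM, hC, hbox⟩ := box_gs J hρ hρ1 hB2 hParB ha hprof N hL00
  set D1 : ℝ := Real.sqrt (1024 * (4 * M ^ 2 + 64 * C ^ 2)) with hD1
  have hD10 : 0 ≤ D1 := Real.sqrt_nonneg _
  refine ⟨4 * Λ ^ 2 * CE * D1 * (Ma * Mφ) ^ 2, by positivity, ?_⟩
  intro R hR f hf hf1 hf0
  have hR0 : 0 < R := by linarith
  set R' := R ^ (1 + δ) with hR'
  have hR'1 : 1 ≤ R' := Real.one_le_rpow hR (by linarith)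
  have hR'0 : 0 < R' := by linarith
  set lam := R' ^ δ with hlam
  have hlam1 : 1 ≤ lam := Real.one_le_rpow hR'1 hδ.le
  have hlam0 : 0 < lam := by linarith
  set G : V → ℂ := fun v => a v * mR φ R v with hG
  have hGc : Continuous G := hac.continuous.mul (mR_continuous hφ.continuous R)
  have hGs : HasCompactSupport G := hacs.mul_right
  have hGM : ∀ v, ‖G v‖ ≤ Ma * Mφ := by
    intro v
    rw [hG, norm_mul]
    refine mul_le_mul (hMa v) ?_ (norm_nonneg _) hMa0
    simp only [mR, Complex.norm_real]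
    exact hMφ _
  obtain ⟨hfi, hf2⟩ := bdd_memLp hf hf1 hf0
  set T : ℝ := Λ / R with hT
  have hT0 : 0 ≤ T := by positivity
  set D : ℝ := 1024 * (M ^ 2 * lam ^ 2 * (2 * R') ^ 2 + (2 * R') ^ 6 * (C * (lam ^ N)⁻¹) ^ 2)
    with hD
  have hD0 : 0 ≤ D := by positivity
  have hDle : Real.sqrt D ≤ D1 * (R' * lam) := by
    have h1 : R' ^ 2 ≤ lam ^ N := by
      rw [hlam, ← Real.rpow_natCast, ← Real.rpow_natCast, ← Real.rpow_mul hR'0.le]
      exact Real.rpow_le_rpow_of_exponent_le hR'1 (by push_cast; linarith)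
    have h2 : (lam ^ N)⁻¹ ≤ (R' ^ 2)⁻¹ := inv_anti₀ (by positivity) h1
    have h3 : D ≤ (1024 * (4 * M ^ 2 + 64 * C ^ 2)) * (R' * lam) ^ 2 := by
      have h4 : (2 * R') ^ 6 * (C * (lam ^ N)⁻¹) ^ 2 ≤ 64 * C ^ 2 * (R' * lam) ^ 2 := by
        calc (2 * R') ^ 6 * (C * (lam ^ N)⁻¹) ^ 2 ≤ (2 * R') ^ 6 * (C * (R' ^ 2)⁻¹) ^ 2 := by
              gcongr
          _ = 64 * C ^ 2 * (R' * 1) ^ 2 := by field_simp; ring
          _ ≤ _ := by gcongr
      rw [hD]
      nlinarith [h4]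
    calc Real.sqrt D ≤ Real.sqrt ((1024 * (4 * M ^ 2 + 64 * C ^ 2)) * (R' * lam) ^ 2) :=
          Real.sqrt_le_sqrt h3
      _ = _ := by
          rw [Real.sqrt_mul (by positivity), Real.sqrt_sq (by positivity)]
  set A : ℝ := CE * R' ^ δ * R' * Real.sqrt D with hA
  have hA0 : 0 ≤ A := by positivity
  have hHc : Continuous (Hr ρ) := (contDiff_Hr ρ).continuous
  have hG1 : ∀ τ η, |τ| ≤ T → 1 < ‖η‖ → G (cw J (Hr ρ) ρ (τ, η)) = 0 :=
    fun τ η _ hη => G_supp_eta J hρ ha φ R hη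
  have hcons := slices_consume J (H := Hr ρ) hHc hρ (by linarith) hGc hGs hfi hf2 hGM hT0
    (fun τ η hτ => G_supp_tau J hρ hρ1 ha hprof hR0 hτ) hG1 (R := R') hA0 ?_
  · have hKc : Continuous (𝓕⁻ G) :=
      continuous_fourierInv (hGc.integrable_of_hasCompactSupport hGs)
    refine (ball_le_cyl J ((measurable_cv hKc.measurable hf).enorm.pow_const 3) hR'0.le).trans ?_
    refine hcons.trans ?_
    exact mul_le_mul' (ENNReal.ofReal_le_ofReal (numer hR hδ hδ1 hCE hD10 hDle)) le_rfl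
  · intro τ hτ
    have hgc := continuous_gs J (ρ := ρ) hHc hGc hfi τ
    have hg0 : ∀ ξ : E2, 1 < ‖ξ‖ → gs J (Hr ρ) ρ G f τ ξ = 0 := by
      intro ξ hξ
      have := hG1 τ ξ hτ hξ
      simp only [cw] at this
      simp [gs, this]
    have hgs : HasCompactSupport (gs J (Hr ρ) ρ G f τ) := by
      apply HasCompactSupport.of_support_subset_isCompact (isCompact_closedBall (0 : E2) 1)
      intro η hη
      by_contra hη'
      simp only [Metric.mem_closedBall, dist_zero_right, not_le] at hη'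
      exact hη (hg0 η hη')
    obtain ⟨Mg, hMg⟩ := hgc.bounded_above_of_compact_support hgs
    have hb := hbox R hR τ hτ R' lam hR'1 hlam1 f hf hf1 hf0
    have hb' : BoxBoundL L0' N (Hr ρ) (gs J (Hr ρ) ρ G f τ) R' D := by
      intro c b s hs ψ hψ x0 t0 hx0 ht0
      exact hb c b s hs ψ hψ x0 t0 (hx0.trans (by gcongr; exact le_max_left _ _))
        (ht0.trans (by gcongr; exact le_max_left _ _))
    refine (HE (Hr ρ) hParB (Hr_zero ρ) (fderiv_Hr_zero ρ) R' D hR'1 hD0 _ hgc.measurable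
      ⟨Mg, hMg⟩ hg0 hb').trans (le_of_eq ?_)
    congr 1
    rw [hA]
    ring

end Crest.Agent.R138.Fq665
end
end

-- ▼ part R138/Fs1_665
section

/-! Decay of the kernel of one sector. -/

set_option autoImplicit false

open MeasureTheory Filter Topology
open scoped ENNReal FourierTransform ContDiff

noncomputable section

namespace Crest.Agent.R138.Fq665

open Crest.Agent.R138.Defs
open Crest.Agent.R138.Fr665 (cv)
open Crest.Agent.R138.Sh200 (mR KR)

theorem contDiff_mR {φ : ℝ → ℝ} (hφ : ContDiff ℝ ∞ φ) (R : ℝ) : ContDiff ℝ ∞ (mR φ R) := by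
  have h1 : ContDiff ℝ ∞ fun ξ : V => φ (R * (1 - ‖ξ‖ ^ 2)) :=
    hφ.comp (contDiff_const.mul (contDiff_const.sub (contDiff_norm_sq ℝ)))
  exact Complex.ofRealCLM.contDiff.comp h1

/-- derivatives of a compactly supported function are bounded. -/
theorem deriv_bdd {E F : Type*} [NormedAddCommGroup E] [NormedSpace ℝ E]
    [NormedAddCommGroup F] [NormedSpace ℝ F] {g : E → F} (hg : ContDiff ℝ ∞ g)
    (hs : HasCompactSupport g) (n : ℕ) : ∃ C : ℝ, 0 ≤ C ∧ ∀ x, ‖iteratedFDeriv ℝ n g x‖ ≤ C := by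
  have hc : Continuous (iteratedFDeriv ℝ n g) := hg.continuous_iteratedFDeriv (mod_cast le_top)
  obtain ⟨C, hC⟩ := hc.bounded_above_of_compact_support (hs.iteratedFDeriv n)
  exact ⟨C, (norm_nonneg _).trans (hC 0), hC⟩

theorem deriv_mR {φ : ℝ → ℝ} (hφ : ContDiff ℝ ∞ φ) (hφs : HasCompactSupport φ) (n : ℕ) :
    ∃ C : ℝ, 0 ≤ C ∧ ∀ R : ℝ, 1 ≤ R → ∀ v : V, ‖v‖ ≤ 2 →
      ‖iteratedFDeriv ℝ n (mR φ R) v‖ ≤ C * R ^ n := by
  set g : ℝ → ℂ := fun t => ((φ t : ℝ) : ℂ) with hg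
  have hgc : ContDiff ℝ ∞ g := Complex.ofRealCLM.contDiff.comp hφ
  have hgs : HasCompactSupport g := by
    have := hφs.comp_left (g := fun t : ℝ => (t : ℂ)) (by simp)
    exact this
  choose Cg hCg0 hCg using deriv_bdd hgc hgs
  set f : V → ℝ := fun v => 1 - ‖v‖ ^ 2 with hf
  have hfc : ContDiff ℝ ∞ f := contDiff_const.sub (contDiff_norm_sq ℝ)
  have hfb : ∀ i : ℕ, ∃ c : ℝ, 0 ≤ c ∧ ∀ v : V, ‖v‖ ≤ 2 → ‖iteratedFDeriv ℝ i f v‖ ≤ c := by
    intro i
    have hc : Continuous (iteratedFDeriv ℝ i f) := hfc.continuous_iteratedFDeriv (mod_cast le_top)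
    obtain ⟨c, hc⟩ := (isCompact_closedBall (0 : V) 2).exists_bound_of_continuousOn hc.continuousOn
    exact ⟨max c 0, le_max_right _ _, fun v hv => (hc v (by simpa using hv)).trans (le_max_left _ _)⟩
  choose cf hcf0 hcf using hfb
  set c : ℝ := 1 + ∑ i ∈ Finset.range (n + 1), cf i with hc
  have hc1 : 1 ≤ c := by
    have : 0 ≤ ∑ i ∈ Finset.range (n + 1), cf i := Finset.sum_nonneg fun i _ => hcf0 i
    linarith
  set C0 : ℝ := ∑ i ∈ Finset.range (n + 1), Cg i with hC0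
  have hC00 : 0 ≤ C0 := Finset.sum_nonneg fun i _ => hCg0 i
  refine ⟨n.factorial * C0 * c ^ n, by positivity, fun R hR v hv => ?_⟩
  have hR0 : 0 < R := by linarith
  have hu : mR φ R = g ∘ (fun v => R • f v) := by
    ext v; simp [mR, g, f]
  have huc : ContDiff ℝ ∞ fun v => R • f v := hfc.const_smul R
  rw [hu]
  have key := norm_iteratedFDeriv_comp_le (𝕜 := ℝ) (g := g) (f := fun v => R • f v) (n := n)
    (N := ∞) hgc huc (mod_cast le_top) v (C := C0) (D := R * c) ?_ ?_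
  · refine key.trans (le_of_eq ?_)
    rw [mul_pow]; ring
  · intro i hi
    refine (hCg i _).trans ?_
    exact Finset.single_le_sum (f := Cg) (fun i _ => hCg0 i) (Finset.mem_range.2 (by omega))
  · intro i hi1 hin
    rw [iteratedFDeriv_const_smul_apply' (hfc.contDiffAt.of_le (mod_cast le_top)), norm_smul,
      Real.norm_eq_abs, abs_of_pos hR0]
    have h1 : ‖iteratedFDeriv ℝ i f v‖ ≤ c := by
      refine (hcf i v hv).trans ?_
      have := Finset.single_le_sum (f := cf) (s := Finset.range (n + 1)) (fun i _ => hcf0 i)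
        (Finset.mem_range.2 (by omega : i < n + 1))
      linarith
    calc R * ‖iteratedFDeriv ℝ i f v‖ ≤ R * c := by gcongr
      _ ≤ (R * c) ^ i := by
        apply le_self_pow₀ _ (by omega)
        nlinarith

theorem sec_norm_le {ρ : ℝ} (hρ1 : ρ ≤ 1/8) {J : PR ≃ₗᵢ[ℝ] V} {a : V → ℂ} (ha : Sec J ρ a) {v : V}
    (hv : a v ≠ 0) : ‖v‖ ≤ 2 := by
  have h1 := ha.supp v hv
  have h2 := norm_up_sq J 0 1
  have h3 : ‖up J 0 1‖ = 1 := by
    have : ‖up J 0 1‖ ^ 2 = 1 := by rw [h2]; simp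
    nlinarith [norm_nonneg (up J 0 1)]
  calc ‖v‖ = ‖(v - up J 0 1) + up J 0 1‖ := by rw [sub_add_cancel]
    _ ≤ ‖v - up J 0 1‖ + ‖up J 0 1‖ := norm_add_le _ _
    _ ≤ 2 := by rw [h3]; linarith

theorem deriv_G {ρ : ℝ} (hρ1 : ρ ≤ 1/8) {J : PR ≃ₗᵢ[ℝ] V} {a : V → ℂ} (ha : Sec J ρ a)
    {φ : ℝ → ℝ} (hφ : ContDiff ℝ ∞ φ) (hφs : HasCompactSupport φ) (n : ℕ) :
    ∃ C : ℝ, 0 ≤ C ∧ ∀ R : ℝ, 1 ≤ R → ∀ v : V,
      ‖iteratedFDeriv ℝ n (fun v => a v * mR φ R v) v‖ ≤
        (Metric.closedBall (0 : V) 2).indicator (fun _ => C * R ^ n) v := by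
  have has : HasCompactSupport a := by
    apply HasCompactSupport.of_support_subset_isCompact (isCompact_closedBall (0 : V) 2)
    intro v hv
    simpa using sec_norm_le hρ1 ha hv
  choose Ca hCa0 hCa using deriv_bdd ha.smooth has
  choose Cm hCm0 hCm using deriv_mR hφ hφs
  refine ⟨∑ i ∈ Finset.range (n + 1), (n.choose i : ℝ) * Ca i * Cm (n - i),
    Finset.sum_nonneg fun i _ => by have := hCa0 i; have := hCm0 (n - i); positivity,
    fun R hR v => ?_⟩
  by_cases hv : ‖v‖ ≤ 2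
  · have hv' : v ∈ Metric.closedBall (0 : V) 2 := by simpa using hv
    rw [Set.indicator_of_mem hv']
    refine (norm_iteratedFDeriv_mul_le (N := ∞) ha.smooth (contDiff_mR hφ R) v
      (mod_cast le_top)).trans ?_
    rw [Finset.sum_mul]
    refine Finset.sum_le_sum fun i hi => ?_
    have h1 := hCa i v
    have h2 := hCm (n - i) R hR v hv
    have h3 : R ^ (n - i) ≤ R ^ n := pow_le_pow_right₀ hR (by omega)
    have h4 := hCa0 i
    have h5 := hCm0 (n - i)
    calc (n.choose i : ℝ) * ‖iteratedFDeriv ℝ i a v‖ * ‖iteratedFDeriv ℝ (n - i) (mR φ R) v‖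
        ≤ (n.choose i : ℝ) * Ca i * (Cm (n - i) * R ^ n) := by
          gcongr
          exact h2.trans (by gcongr)
      _ = _ := by ring
  · have hv' : v ∉ Metric.closedBall (0 : V) 2 := by simpa using hv
    rw [Set.indicator_of_notMem hv']
    have hz : iteratedFDeriv ℝ n (fun v => a v * mR φ R v) v = 0 := by
      by_contra hne
      have h1 := support_iteratedFDeriv_subset (𝕜 := ℝ) n (f := fun v => a v * mR φ R v) hne
      have h2 : tsupport (fun v => a v * mR φ R v) ⊆ Metric.closedBall (0 : V) 2 := by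
        apply closure_minimal _ Metric.isClosed_closedBall
        intro x hx
        simpa using sec_norm_le hρ1 ha (left_ne_zero_of_mul hx)
      exact hv' (h2 h1)
    rw [hz, norm_zero]

theorem kernel_pow {ρ : ℝ} (hρ1 : ρ ≤ 1/8) {J : PR ≃ₗᵢ[ℝ] V} {a : V → ℂ} (ha : Sec J ρ a)
    {φ : ℝ → ℝ} (hφ : ContDiff ℝ ∞ φ) (hφs : HasCompactSupport φ) (n : ℕ) :
    ∃ C : ℝ, 0 ≤ C ∧ ∀ R : ℝ, 1 ≤ R → ∀ x : V,
      ‖x‖ ^ n * ‖𝓕⁻ (fun v => a v * mR φ R v) x‖ ≤ C * R ^ n := by
  choose Cd hCd0 hCd using deriv_G hρ1 ha hφ hφs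
  set vol := (volume (Metric.closedBall (0 : V) 2)).toReal with hvol
  have hvol0 : 0 ≤ vol := ENNReal.toReal_nonneg
  refine ⟨2 ^ n * ∑ j ∈ Finset.range (n + 1), Cd j * vol, by
    have := Finset.sum_nonneg (s := Finset.range (n + 1)) fun j _ => mul_nonneg (hCd0 j) hvol0
    positivity, fun R hR x => ?_⟩
  have hR0 : 0 < R := by linarith
  set G : V → ℂ := fun v => a v * mR φ R v with hG
  have hGc : ContDiff ℝ ∞ G := ha.smooth.mul (contDiff_mR hφ R)
  have hGs : HasCompactSupport G := by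
    apply HasCompactSupport.of_support_subset_isCompact (isCompact_closedBall (0 : V) 2)
    intro v hv
    simpa using sec_norm_le hρ1 ha (left_ne_zero_of_mul hv)
  have hint : ∀ (k n : ℕ), Integrable (fun v : V ↦ ‖v‖ ^ k * ‖iteratedFDeriv ℝ n G v‖) := by
    intro k n
    apply Continuous.integrable_of_hasCompactSupport
    · exact (continuous_norm.pow k).mul
        (hGc.continuous_iteratedFDeriv (m := n) (mod_cast le_top)).norm
    · exact (hGs.iteratedFDeriv n).norm.mul_left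
  have h1 := Real.pow_mul_norm_iteratedFDeriv_fourier_le (K := 0) (N := ⊤) (f := G) (k := 0)
    (n := n) (mod_cast hGc) (fun k n _ _ => hint k n) le_rfl le_top (-x)
  rw [norm_neg, norm_iteratedFDeriv_zero, ← Real.fourierInv_eq_fourier_neg] at h1
  refine h1.trans ?_
  simp only [pow_zero, Nat.cast_zero, mul_zero, zero_add, one_mul]
  rw [Finset.sum_product, Finset.sum_range_one, mul_assoc, Finset.sum_mul]
  simp only [pow_zero, one_mul]
  gcongr with j hj
  have h2 : ∫ v, ‖iteratedFDeriv ℝ j G v‖ ≤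
      ∫ v, (Metric.closedBall (0 : V) 2).indicator (fun _ => Cd j * R ^ j) v := by
    apply integral_mono
    · simpa using hint 0 j
    · exact (integrable_indicator_iff Metric.isClosed_closedBall.measurableSet).2
        (integrableOn_const measure_closedBall_lt_top.ne)
    · intro v
      exact hCd j R hR v
  refine h2.trans ?_
  rw [integral_indicator_const _ Metric.isClosed_closedBall.measurableSet]
  have h3 : R ^ j ≤ R ^ n := pow_le_pow_right₀ hR (by simp at hj; omega)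
  have h4 := hCd0 j
  simp only [smul_eq_mul, Measure.real]
  rw [← hvol]
  calc vol * (Cd j * R ^ j) ≤ vol * (Cd j * R ^ n) := by gcongr
    _ = Cd j * vol * R ^ n := by ring

/-- the far part of the kernel is dominated by a fixed integrable function. -/
theorem kernel_tail {ρ : ℝ} (hρ1 : ρ ≤ 1/8) {J : PR ≃ₗᵢ[ℝ] V} {a : V → ℂ} (ha : Sec J ρ a)
    {φ : ℝ → ℝ} (hφ : ContDiff ℝ ∞ φ) (hφs : HasCompactSupport φ) {δ : ℝ} (hδ : 0 < δ)
    (hδ1 : δ ≤ 1) :
    ∃ C : ℝ, 0 ≤ C ∧ ∀ R : ℝ, 1 ≤ R →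
      ∫⁻ x : V, ‖({x : V | R ^ (1 + δ) < ‖x‖}.indicator (𝓕⁻ (fun v => a v * mR φ R v)) x : ℂ)‖ₑ ≤
        ENNReal.ofReal C := by
  set n : ℕ := ⌈8 / δ⌉₊ + 4 with hn
  have hn4 : 4 ≤ n := by omega
  have hnδ : 8 ≤ δ * ((n : ℝ) - 4) := by
    have := Nat.le_ceil (8 / δ)
    rw [div_le_iff₀ hδ] at this
    have h2 : (n : ℝ) - 4 = (⌈8 / δ⌉₊ : ℝ) := by rw [hn]; push_cast; ring
    rw [h2]; linarith
  obtain ⟨C, hC, hk⟩ := kernel_pow hρ1 ha hφ hφs n
  have hint : Integrable (fun x : V => (1 + ‖x‖) ^ (-(4:ℝ))) :=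
    integrable_one_add_norm (by simp; norm_num)
  refine ⟨C * 16 * ∫ x : V, (1 + ‖x‖) ^ (-(4:ℝ)), by positivity, fun R hR => ?_⟩
  have hR0 : 0 < R := by linarith
  have hpt : ∀ x : V, ‖({x : V | R ^ (1 + δ) < ‖x‖}.indicator
      (𝓕⁻ (fun v => a v * mR φ R v)) x : ℂ)‖ₑ ≤
      ENNReal.ofReal (C * 16 * (1 + ‖x‖) ^ (-(4:ℝ))) := by
    intro x
    by_cases hx : R ^ (1 + δ) < ‖x‖
    · have hx' : x ∈ {x : V | R ^ (1 + δ) < ‖x‖} := hx
      rw [Set.indicator_of_mem hx', ← ofReal_norm]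
      apply ENNReal.ofReal_le_ofReal
      have hR1 : 1 ≤ R ^ (1 + δ) := Real.one_le_rpow hR (by linarith)
      have hx1 : 1 < ‖x‖ := hR1.trans_lt hx
      have hx0 : 0 < ‖x‖ := by linarith
      have h1 := hk R hR x
      have h2 : R ^ n ≤ ‖x‖ ^ (n - 4) := by
        calc R ^ n = R ^ ((n : ℝ)) := (Real.rpow_natCast _ _).symm
          _ ≤ R ^ ((1 + δ) * ((n : ℝ) - 4)) := by
            apply Real.rpow_le_rpow_of_exponent_le hR
            nlinarith
          _ = (R ^ (1 + δ)) ^ (n - 4) := by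
            rw [Real.rpow_mul hR0.le, ← Real.rpow_natCast, Nat.cast_sub hn4]
            norm_num
          _ ≤ ‖x‖ ^ (n - 4) := by gcongr
      have h3 : ‖x‖ ^ 4 * ‖𝓕⁻ (fun v => a v * mR φ R v) x‖ ≤ C := by
        have h4 : 0 < ‖x‖ ^ (n - 4) := by positivity
        refine le_of_mul_le_mul_left ?_ h4
        calc ‖x‖ ^ (n - 4) * (‖x‖ ^ 4 * ‖𝓕⁻ (fun v => a v * mR φ R v) x‖)
            = ‖x‖ ^ n * ‖𝓕⁻ (fun v => a v * mR φ R v) x‖ := by
              rw [← mul_assoc, ← pow_add, Nat.sub_add_cancel hn4]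
          _ ≤ C * R ^ n := h1
          _ ≤ C * ‖x‖ ^ (n - 4) := by gcongr
          _ = _ := mul_comm _ _
      have h5 : (1 + ‖x‖) ^ (-(4:ℝ)) = ((1 + ‖x‖) ^ 4)⁻¹ := by
        rw [Real.rpow_neg (by positivity)]; norm_num
      rw [h5, ← div_eq_mul_inv, le_div_iff₀ (by positivity)]
      have h6 : (1 + ‖x‖) ^ 4 ≤ 16 * ‖x‖ ^ 4 := by
        calc (1 + ‖x‖) ^ 4 ≤ (2 * ‖x‖) ^ 4 := by gcongr; linarith
          _ = _ := by ring
      calc ‖𝓕⁻ (fun v => a v * mR φ R v) x‖ * (1 + ‖x‖) ^ 4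
          ≤ ‖𝓕⁻ (fun v => a v * mR φ R v) x‖ * (16 * ‖x‖ ^ 4) := by gcongr
        _ = 16 * (‖x‖ ^ 4 * ‖𝓕⁻ (fun v => a v * mR φ R v) x‖) := by ring
        _ ≤ 16 * C := by gcongr
        _ = C * 16 := by ring
    · have hx' : x ∉ {x : V | R ^ (1 + δ) < ‖x‖} := hx
      rw [Set.indicator_of_notMem hx', enorm_zero]
      exact zero_le
  refine (lintegral_mono hpt).trans ?_
  rw [← integral_const_mul, ofReal_integral_eq_lintegral_ofReal (hint.const_mul _)
    (Eventually.of_forall fun x => by positivity)]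

end Crest.Agent.R138.Fq665
end
end

-- ▼ part R138/Fs2_665

/-! From the local to the global sector estimate: averaging over balls. -/

set_option autoImplicit false

open MeasureTheory Filter Topology
open scoped ENNReal FourierTransform ContDiff

noncomputable section

namespace Crest.Agent.R138.Fq665

open Crest.Agent.R138.Defs
open Crest.Agent.R138.Fr665 (cv)
open Crest.Agent.R138.Sh200 (mR KR)

theorem enorm_add_cube (a b : ℂ) : ‖a + b‖ₑ ^ 3 ≤ 4 * (‖a‖ₑ ^ 3 + ‖b‖ₑ ^ 3) := by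
  calc ‖a + b‖ₑ ^ 3 ≤ (‖a‖ₑ + ‖b‖ₑ) ^ 3 := by gcongr; exact enorm_add_le _ _
    _ ≤ _ := by
      have := ENNReal.rpow_add_le_mul_rpow_add_rpow ‖a‖ₑ ‖b‖ₑ (p := 3) (by norm_num)
      norm_num at this
      exact this

theorem lint_cv_cube {K g : V → ℂ} (hK : Measurable K) (hg : Measurable g) :
    ∫⁻ x, ‖cv K g x‖ₑ ^ 3 ≤ (∫⁻ y, ‖K y‖ₑ) ^ 3 * ∫⁻ y, ‖g y‖ₑ ^ 3 := by
  have := Fr665.lint_cv_rpow hK hg (p := 3) (by norm_num)
  norm_cast at this

theorem cv_add {K K' g : V → ℂ} (x : V) (h : Integrable fun y => K (x - y) * g y)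
    (h' : Integrable fun y => K' (x - y) * g y) :
    cv (fun v => K v + K' v) g x = cv K g x + cv K' g x := by
  unfold cv
  rw [← integral_add h h']
  refine integral_congr_ae (Eventually.of_forall fun y => ?_)
  simp only
  ring

theorem int_cv {K g : V → ℂ} (hK : Measurable K) {M : ℝ} (hM : ∀ v, ‖K v‖ ≤ M)
    (hg : Integrable g) (x : V) : Integrable fun y => K (x - y) * g y :=
  hg.bdd_mul (c := M) (hK.comp (by fun_prop)).aestronglyMeasurable
    (Eventually.of_forall fun _ => hM _)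

/-- translation invariance. -/
theorem cv_translate (K g : V → ℂ) (b x : V) : cv K g (x + b) = cv K (fun y => g (y + b)) x := by
  unfold cv
  rw [← integral_add_right_eq_self (fun y => K (x + b - y) * g y) b]
  refine integral_congr_ae (Eventually.of_forall fun y => ?_)
  simp only
  congr 2
  abel

/-- Fubini over balls. -/
theorem lint_balls (r : ℝ) {u : V → ℝ≥0∞} (hu : Measurable u) :
    ∫⁻ b : V, ∫⁻ x in Metric.closedBall b r, u x =
      volume (Metric.closedBall (0 : V) r) * ∫⁻ x, u x := by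
  have hS : MeasurableSet {p : V × V | dist p.2 p.1 ≤ r} :=
    measurableSet_le (by fun_prop) measurable_const
  have h1 : ∀ b : V, ∫⁻ x in Metric.closedBall b r, u x =
      ∫⁻ x, {p : V × V | dist p.2 p.1 ≤ r}.indicator (fun p => u p.2) (b, x) := by
    intro b
    rw [← lintegral_indicator Metric.isClosed_closedBall.measurableSet]
    refine lintegral_congr fun x => ?_
    by_cases hx : dist x b ≤ r
    · rw [Set.indicator_of_mem (by simpa using hx : x ∈ Metric.closedBall b r),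
        Set.indicator_of_mem (by simpa using hx)]
    · rw [Set.indicator_of_notMem (by simpa using hx : x ∉ Metric.closedBall b r),
        Set.indicator_of_notMem (by simpa using hx)]
  simp only [h1]
  rw [lintegral_lintegral_swap]
  · rw [← lintegral_const_mul _ hu]
    refine lintegral_congr fun x => ?_
    have h2 : ∀ b : V, {p : V × V | dist p.2 p.1 ≤ r}.indicator (fun p => u p.2) (b, x) =
        (Metric.closedBall x r).indicator (fun _ => u x) b := by
      intro b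
      by_cases hx : dist x b ≤ r
      · rw [Set.indicator_of_mem (by simpa [dist_comm] using hx : b ∈ Metric.closedBall x r),
          Set.indicator_of_mem (by simpa using hx)]
      · rw [Set.indicator_of_notMem (by simpa [dist_comm] using hx : b ∉ Metric.closedBall x r),
          Set.indicator_of_notMem (by simpa using hx)]
    simp only [h2]
    rw [lintegral_indicator Metric.isClosed_closedBall.measurableSet, lintegral_const,
      Measure.restrict_apply_univ, mul_comm, Measure.addHaar_closedBall_center]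
  · exact ((hu.comp measurable_snd).indicator hS).aemeasurable

theorem vol_double {r : ℝ} (hr : 0 < r) : volume (Metric.closedBall (0 : V) (2 * r)) =
    8 * volume (Metric.closedBall (0 : V) r) := by
  have hd : Module.finrank ℝ V = 3 := by simp
  rw [Measure.addHaar_closedBall _ _ (by linarith), Measure.addHaar_closedBall _ _ hr.le, hd,
    ← mul_assoc]
  congr 1
  rw [mul_pow, ENNReal.ofReal_mul (by norm_num)]
  norm_num

/-- **local ⟹ global.** -/
theorem glob_of_loc {K : V → ℂ} (hK : Measurable K) {M : ℝ} (hM : ∀ v, ‖K v‖ ≤ M) {R' : ℝ}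
    (hR' : 0 < R') {Ct : ℝ≥0∞}
    (htail : ∫⁻ x : V, ‖({x : V | R' < ‖x‖}.indicator K x : ℂ)‖ₑ ≤ Ct) {Cl : ℝ≥0∞}
    (hloc : ∀ f : V → ℂ, Measurable f → (∀ v, ‖f v‖ ≤ 1) → (∀ v, 2 * R' < ‖v‖ → f v = 0) →
      ∫⁻ v in Metric.closedBall (0 : V) R', ‖cv K f v‖ₑ ^ 3 ≤ Cl * ∫⁻ v, ‖f v‖ₑ ^ 2)
    {Ω : Set V} (hΩ : MeasurableSet Ω) (hΩf : volume Ω ≠ ⊤) {f : V → ℂ} (hf : Measurable f)
    (hfΩ : ∀ x, ‖f x‖ ≤ Ω.indicator (fun _ => (1:ℝ)) x) :
    ∫⁻ x, ‖cv K f x‖ₑ ^ 3 ≤ (128 * (Cl + Ct ^ 3) + 4 * Ct ^ 3) * volume Ω := by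
  set K2 : V → ℂ := {x : V | R' < ‖x‖}.indicator K with hK2
  set K1 : V → ℂ := {x : V | R' < ‖x‖}ᶜ.indicator K with hK1
  have hSm : MeasurableSet {x : V | R' < ‖x‖} := measurableSet_lt measurable_const (by fun_prop)
  have hK2m : Measurable K2 := hK.indicator hSm
  have hK1m : Measurable K1 := hK.indicator hSm.compl
  have hM2 : ∀ v, ‖K2 v‖ ≤ M := fun v => (norm_indicator_le_norm_self _ _).trans (hM v)
  have hM1 : ∀ v, ‖K1 v‖ ≤ M := fun v => (norm_indicator_le_norm_self _ _).trans (hM v)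
  have hKs : K = fun v => K1 v + K2 v := by
    ext v
    rw [hK1, hK2, add_comm]
    exact (congrFun (Set.indicator_self_add_compl _ K) v).symm
  -- functions dominated by an indicator
  have hf1 : ∀ x, ‖f x‖ ≤ 1 := fun x => (hfΩ x).trans (Set.indicator_le_self' (by simp) x)
  have hfi : Integrable f := by
    have h1 : Integrable (Ω.indicator (fun _ => (1:ℝ))) :=
      (integrable_indicator_iff hΩ).2 (integrableOn_const hΩf)
    exact h1.mono' hf.aestronglyMeasurable (Eventually.of_forall hfΩ)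
  have hcube : ∀ S : Set V, MeasurableSet S → ∀ k : ℕ, k ≠ 0 →
      ∫⁻ x, ‖S.indicator f x‖ₑ ^ k ≤ volume (Ω ∩ S) := by
    intro S hS k hk
    rw [← lintegral_indicator_one (hΩ.inter hS)]
    refine lintegral_mono fun x => ?_
    by_cases hx : x ∈ S
    · rw [Set.indicator_of_mem hx]
      by_cases hx2 : x ∈ Ω
      · rw [Set.indicator_of_mem (Set.mem_inter hx2 hx), Pi.one_apply]
        have h1 : ‖f x‖ₑ ≤ 1 := by
          rw [← ofReal_norm, ← ENNReal.ofReal_one]
          exact ENNReal.ofReal_le_ofReal (hf1 x)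
        exact pow_le_one₀ zero_le h1
      · have h1 := hfΩ x
        rw [Set.indicator_of_notMem hx2] at h1
        have h2 : f x = 0 := norm_le_zero_iff.1 h1
        simp [h2, hk]
    · rw [Set.indicator_of_notMem hx]
      simp [hk]
  -- tail
  have htail2 : ∀ g : V → ℂ, Measurable g → ∫⁻ x, ‖cv K2 g x‖ₑ ^ 3 ≤
      Ct ^ 3 * ∫⁻ x, ‖g x‖ₑ ^ 3 := by
    intro g hg
    refine (lint_cv_cube hK2m hg).trans ?_
    gcongr
  -- one ball
  have hball : ∀ b : V, ∫⁻ x in Metric.closedBall b R', ‖cv K1 f x‖ₑ ^ 3 ≤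
      4 * (Cl + Ct ^ 3) * volume (Ω ∩ Metric.closedBall b (2 * R')) := by
    intro b
    set B := Metric.closedBall b (2 * R') with hB
    have hBm : MeasurableSet B := Metric.isClosed_closedBall.measurableSet
    set fb := B.indicator f with hfb
    have hfbm : Measurable fb := hf.indicator hBm
    have hfbi : Integrable fb := hfi.indicator hBm
    have hpt : ∀ x ∈ Metric.closedBall b R', cv K1 f x = cv K fb x + cv (fun v => -K2 v) fb x := by
      intro x hx
      have e1 : cv K1 f x = cv K1 fb x := by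
        unfold cv
        refine integral_congr_ae (Eventually.of_forall fun y => ?_)
        simp only
        by_cases hy : y ∈ B
        · rw [hfb, Set.indicator_of_mem hy]
        · rw [hfb, Set.indicator_of_notMem hy]
          have : K1 (x - y) = 0 := by
            rw [hK1]
            apply Set.indicator_of_notMem
            simp only [Set.mem_compl_iff, not_not]
            show R' < ‖x - y‖
            rw [← dist_eq_norm]
            simp only [hB, Metric.mem_closedBall, not_le] at hy hx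
            have := dist_triangle y x b
            rw [dist_comm y x] at this
            linarith
          rw [this]; ring
      rw [e1, ← cv_add (K := K) (K' := fun v => -K2 v) x (int_cv hK hM hfbi x)
        (int_cv (K := fun v => -K2 v) hK2m.neg (fun v => by simpa using hM2 v) hfbi x)]
      congr 1
      ext v
      have hv : K v = K1 v + K2 v := congrFun hKs v
      rw [hv]; ring
    have hneg : ∀ x, ‖cv (fun v => -K2 v) fb x‖ₑ = ‖cv K2 fb x‖ₑ := by
      intro x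
      have : cv (fun v => -K2 v) fb x = -cv K2 fb x := by
        unfold cv
        rw [← integral_neg]
        refine integral_congr_ae (Eventually.of_forall fun y => ?_)
        simp only
        ring
      rw [this, enorm_neg]
    have hm1 : Measurable fun x => ‖cv K fb x‖ₑ ^ 3 := (measurable_cv hK hfbm).enorm.pow_const 3
    have hloc' : ∫⁻ x in Metric.closedBall b R', ‖cv K fb x‖ₑ ^ 3 ≤
        Cl * volume (Ω ∩ B) := by
      have e2 : ∫⁻ x in Metric.closedBall b R', ‖cv K fb x‖ₑ ^ 3 =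
          ∫⁻ x in Metric.closedBall (0 : V) R', ‖cv K (fun y => fb (y + b)) x‖ₑ ^ 3 := by
        rw [← lintegral_indicator Metric.isClosed_closedBall.measurableSet,
          ← lintegral_indicator Metric.isClosed_closedBall.measurableSet,
          ← lintegral_add_right_eq_self _ b]
        refine lintegral_congr fun x => ?_
        by_cases hx : ‖x‖ ≤ R'
        · rw [Set.indicator_of_mem (by simpa [dist_eq_norm] using hx : x + b ∈
              Metric.closedBall b R'), Set.indicator_of_mem (by simpa using hx : x ∈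
              Metric.closedBall (0 : V) R'), cv_translate]
        · rw [Set.indicator_of_notMem (by simpa [dist_eq_norm] using hx : x + b ∉
              Metric.closedBall b R'), Set.indicator_of_notMem (by simpa using hx : x ∉
              Metric.closedBall (0 : V) R')]
      rw [e2]
      refine (hloc (fun y => fb (y + b)) (hfbm.comp (measurable_add_const b)) (fun v => ?_)
        (fun v hv => ?_)).trans ?_
      · exact (norm_indicator_le_norm_self _ _).trans (hf1 _)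
      · rw [hfb]
        apply Set.indicator_of_notMem
        simp only [hB, Metric.mem_closedBall, not_le, dist_eq_norm, add_sub_cancel_right]
        exact hv
      · rw [lintegral_add_right_eq_self (fun v => ‖fb v‖ₑ ^ 2) b]
        gcongr
        exact hcube B hBm 2 (by norm_num)
    calc ∫⁻ x in Metric.closedBall b R', ‖cv K1 f x‖ₑ ^ 3
        ≤ ∫⁻ x in Metric.closedBall b R', 4 * (‖cv K fb x‖ₑ ^ 3 + ‖cv K2 fb x‖ₑ ^ 3) := by
          refine setLIntegral_mono' Metric.isClosed_closedBall.measurableSet fun x hx => ?_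
          rw [hpt x hx, ← hneg x]
          exact enorm_add_cube _ _
      _ = 4 * ((∫⁻ x in Metric.closedBall b R', ‖cv K fb x‖ₑ ^ 3) +
            ∫⁻ x in Metric.closedBall b R', ‖cv K2 fb x‖ₑ ^ 3) := by
          rw [← lintegral_add_left hm1]
          exact lintegral_const_mul' _ _ (by norm_num)
      _ ≤ 4 * (Cl * volume (Ω ∩ B) + Ct ^ 3 * volume (Ω ∩ B)) := by
          gcongr
          refine (setLIntegral_le_lintegral _ _).trans ((htail2 fb hfbm).trans ?_)
          gcongr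
          exact hcube B hBm 3 (by norm_num)
      _ = _ := by ring
  -- averaging
  have hv0 : volume (Metric.closedBall (0 : V) R') ≠ 0 := by
    have : 0 < volume (Metric.closedBall (0 : V) R') :=
      Metric.measure_closedBall_pos volume 0 hR'
    exact this.ne'
  have hvt : volume (Metric.closedBall (0 : V) R') ≠ ⊤ := measure_closedBall_lt_top.ne
  have hK1b : ∫⁻ x, ‖cv K1 f x‖ₑ ^ 3 ≤ 32 * (Cl + Ct ^ 3) * volume Ω := by
    have h1 := lint_balls R' (u := fun x => ‖cv K1 f x‖ₑ ^ 3)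
      ((measurable_cv hK1m hf).enorm.pow_const 3)
    have h2 : ∫⁻ b : V, volume (Ω ∩ Metric.closedBall b (2 * R')) =
        8 * volume (Metric.closedBall (0 : V) R') * volume Ω := by
      have h3 := lint_balls (2 * R') (u := Ω.indicator 1) (measurable_one.indicator hΩ)
      rw [lintegral_indicator_one hΩ, vol_double hR'] at h3
      rw [← h3]
      refine lintegral_congr fun b => ?_
      rw [lintegral_indicator_one₀ hΩ.nullMeasurableSet, Measure.restrict_apply hΩ]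
    have h4 : volume (Metric.closedBall (0 : V) R') * ∫⁻ x, ‖cv K1 f x‖ₑ ^ 3 ≤
        volume (Metric.closedBall (0 : V) R') * (32 * (Cl + Ct ^ 3) * volume Ω) := by
      rw [← h1]
      calc ∫⁻ b : V, ∫⁻ x in Metric.closedBall b R', ‖cv K1 f x‖ₑ ^ 3
          ≤ ∫⁻ b : V, 4 * (Cl + Ct ^ 3) * volume (Ω ∩ Metric.closedBall b (2 * R')) :=
            lintegral_mono hball
        _ ≤ 4 * (Cl + Ct ^ 3) * ∫⁻ b : V, volume (Ω ∩ Metric.closedBall b (2 * R')) := by
            rw [lintegral_const_mul'']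
            have h5 : (fun b : V => volume (Ω ∩ Metric.closedBall b (2 * R'))) =
                fun b => ∫⁻ x, {p : V × V | dist p.2 p.1 ≤ 2 * R'}.indicator
                  (fun p => Ω.indicator (1 : V → ℝ≥0∞) p.2) (b, x) := by
              ext b
              rw [← lintegral_indicator_one
                (hΩ.inter Metric.isClosed_closedBall.measurableSet)]
              refine lintegral_congr fun x => ?_
              by_cases hx : dist x b ≤ 2 * R'
              · rw [Set.indicator_of_mem (show (b, x) ∈ {p : V × V | dist p.2 p.1 ≤ 2 * R'} from hx)]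
                by_cases hx2 : x ∈ Ω
                · have hx3 : x ∈ Ω ∩ Metric.closedBall b (2 * R') :=
                    Set.mem_inter hx2 (Metric.mem_closedBall.2 hx)
                  rw [Set.indicator_of_mem hx3, Set.indicator_of_mem hx2]
                · rw [Set.indicator_of_notMem (fun h => hx2 h.1), Set.indicator_of_notMem hx2]
              · rw [Set.indicator_of_notMem
                  (show (b, x) ∉ {p : V × V | dist p.2 p.1 ≤ 2 * R'} from hx),
                  Set.indicator_of_notMem (fun h => hx h.2)]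
            rw [h5]
            apply Measurable.aemeasurable
            have hS : MeasurableSet {p : V × V | dist p.2 p.1 ≤ 2 * R'} :=
              measurableSet_le (by fun_prop) measurable_const
            exact Measurable.lintegral_prod_right' (f := fun q : V × V =>
              {p : V × V | dist p.2 p.1 ≤ 2 * R'}.indicator
                  (fun p => Ω.indicator (1 : V → ℝ≥0∞) p.2) q)
              (((measurable_one.indicator hΩ).comp measurable_snd).indicator hS)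
        _ = _ := by rw [h2]; ring
    exact (ENNReal.mul_le_mul_iff_right hv0 hvt).1 h4
  calc ∫⁻ x, ‖cv K f x‖ₑ ^ 3 ≤ ∫⁻ x, 4 * (‖cv K1 f x‖ₑ ^ 3 + ‖cv K2 f x‖ₑ ^ 3) := by
        refine lintegral_mono fun x => ?_
        have : cv K f x = cv K1 f x + cv K2 f x := by
          rw [← cv_add x (int_cv hK1m hM1 hfi x) (int_cv hK2m hM2 hfi x), ← hKs]
        simp only
        rw [this]
        exact enorm_add_cube _ _
    _ = 4 * ((∫⁻ x, ‖cv K1 f x‖ₑ ^ 3) + ∫⁻ x, ‖cv K2 f x‖ₑ ^ 3) := by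
        rw [← lintegral_add_left ((measurable_cv hK1m hf).enorm.pow_const 3)]
        exact lintegral_const_mul' _ _ (by norm_num)
    _ ≤ 4 * (32 * (Cl + Ct ^ 3) * volume Ω + Ct ^ 3 * volume Ω) := by
        gcongr
        refine (htail2 f hf).trans ?_
        gcongr
        have := hcube Set.univ MeasurableSet.univ 3 (by norm_num)
        simpa using this
    _ = _ := by ring

theorem GlobSec_of_LocSec (h : LocSec) : GlobSec := by
  obtain ⟨ρ, hρ, hρ1, H⟩ := h
  refine ⟨ρ, hρ, hρ1, ?_⟩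
  intro J a hac has φ hφ hφs ε hε
  have ha : Sec J ρ a := ⟨hac, has⟩
  set δ : ℝ := min (ε / 6) 1 with hδ
  have hδ0 : 0 < δ := by positivity
  have hδ1 : δ ≤ 1 := min_le_right _ _
  have h6 : 6 * δ ≤ ε := by
    have : δ ≤ ε / 6 := min_le_left _ _
    linarith
  obtain ⟨Cl, hCl, hloc⟩ := H J a hac has φ hφ hφs δ hδ0 hδ1
  obtain ⟨Ct, hCt, htail⟩ := kernel_tail hρ1 ha hφ hφs hδ0 hδ1
  refine ⟨128 * (Cl + Ct ^ 3) + 4 * Ct ^ 3, by positivity, ?_⟩
  intro R hR Ω hΩ hΩf f hf hfΩ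
  have hR0 : 0 < R := by linarith
  set G : V → ℂ := fun v => a v * mR φ R v with hG
  have hGc : Continuous G := hac.continuous.mul (mR_continuous hφ.continuous R)
  have hGs : HasCompactSupport G := by
    apply HasCompactSupport.of_support_subset_isCompact (isCompact_closedBall (0 : V) 2)
    intro v hv
    simpa using sec_norm_le hρ1 ha (left_ne_zero_of_mul hv)
  have hGi : Integrable G := hGc.integrable_of_hasCompactSupport hGs
  have hKc : Continuous (𝓕⁻ G) := continuous_fourierInv hGi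
  have hKM : ∀ v, ‖𝓕⁻ G v‖ ≤ ∫ ξ, ‖G ξ‖ := by
    intro v
    rw [fourierInv_eq_ee]
    refine (norm_integral_le_integral_norm _).trans (le_of_eq ?_)
    refine integral_congr_ae (Eventually.of_forall fun ξ => ?_)
    simp [norm_ee]
  have key := glob_of_loc hKc.measurable hKM (R' := R ^ (1 + δ)) (by positivity) (htail R hR)
    (Cl := ENNReal.ofReal (Cl * R ^ (6 * δ))) (fun f hf h1 h0 => hloc R hR f hf h1 h0) hΩ hΩf hf hfΩ
  refine key.trans ?_
  gcongr
  rw [← ENNReal.ofReal_pow hCt, ← ENNReal.ofReal_add (by positivity) (by positivity),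
    show (128 : ℝ≥0∞) = ENNReal.ofReal 128 by simp, show (4 : ℝ≥0∞) = ENNReal.ofReal 4 by simp,
    ← ENNReal.ofReal_mul (by norm_num), ← ENNReal.ofReal_mul (by norm_num),
    ← ENNReal.ofReal_add (by positivity) (by positivity)]
  apply ENNReal.ofReal_le_ofReal
  have h1 : R ^ (6 * δ) ≤ R ^ ε := Real.rpow_le_rpow_of_exponent_le hR h6
  have h2 : 1 ≤ R ^ ε := Real.one_le_rpow hR hε.le
  have h3 : Ct ^ 3 ≤ Ct ^ 3 * R ^ ε := le_mul_of_one_le_right (by positivity) h2
  calc 128 * (Cl * R ^ (6 * δ) + Ct ^ 3) + 4 * Ct ^ 3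
      ≤ 128 * (Cl * R ^ ε + Ct ^ 3 * R ^ ε) + 4 * (Ct ^ 3 * R ^ ε) := by gcongr
    _ = _ := by ring

end Crest.Agent.R138.Fq665
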