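import Mathlib

-- ▼ part R138/Fal1_658
section

/-!
R138 (helper658): planar Falconer / Peres-Schlag L2 projection inequality, finite form.
Part 1: Gaussian Fourier identities on `ℝ × ℝ`.
-/

set_option autoImplicit false

namespace Crest.Agent.R138.Fal658

open Real MeasureTheory Finset Complex

noncomputable section

/-- one dimensional Gaussian Fourier transform, real parameters. -/
theorem ft1 {p : ℝ} (hp : 0 < p) (u : ℝ) :
    ∫ x : ℝ, cexp (-(π * p ^ 2 * x ^ 2 : ℝ)) * cexp (2 * π * u * x * I)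
      = ((p⁻¹ * rexp (-(π * u ^ 2 / p ^ 2)) : ℝ) : ℂ) := by
  have hb : 0 < ((π * p ^ 2 : ℝ) : ℂ).re := by
    rw [Complex.ofReal_re]; positivity
  have h := fourierIntegral_gaussian hb ((2 * π * u : ℝ) : ℂ)
  have e1 : (fun x : ℝ => cexp (-(π * p ^ 2 * x ^ 2 : ℝ)) * cexp (2 * π * u * x * I))
      = fun x : ℝ => cexp (I * ((2 * π * u : ℝ) : ℂ) * x) * cexp (-((π * p ^ 2 : ℝ) : ℂ) * (x : ℂ) ^ 2) := by
    funext x
    rw [mul_comm]
    congr 1
    · congr 1; push_cast; ring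
    · congr 1; push_cast; ring
  rw [e1, h]
  have e2 : ((π : ℂ) / ((π * p ^ 2 : ℝ) : ℂ)) ^ (1 / 2 : ℂ) = ((p⁻¹ : ℝ) : ℂ) := by
    have : ((π : ℂ) / ((π * p ^ 2 : ℝ) : ℂ)) = (((p⁻¹) ^ 2 : ℝ) : ℂ) := by
      have hπ : (π : ℂ) ≠ 0 := by exact_mod_cast Real.pi_ne_zero
      have hp' : (p : ℂ) ≠ 0 := by exact_mod_cast hp.ne'
      push_cast
      field_simp
    rw [this]
    have h3 : (((p⁻¹) ^ 2 : ℝ) : ℂ) ^ (1 / 2 : ℂ) = (((((p⁻¹) ^ 2 : ℝ)) ^ (1 / 2 : ℝ) : ℝ) : ℂ) := by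
      rw [Complex.ofReal_cpow (by positivity)]
      norm_num
    rw [h3]
    congr 1
    rw [← Real.sqrt_eq_rpow, Real.sqrt_sq (by positivity)]
  rw [e2]
  push_cast
  congr 1
  have hπ : (π : ℂ) ≠ 0 := by exact_mod_cast Real.pi_ne_zero
  have hp' : (p : ℂ) ≠ 0 := by exact_mod_cast hp.ne'
  congr 1
  field_simp
  ring

theorem int1 {p : ℝ} (hp : 0 < p) : Integrable (fun x : ℝ => rexp (-(π * p ^ 2 * x ^ 2))) := by
  have h := integrable_exp_neg_mul_sq (b := π * p ^ 2) (by positivity)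
  refine h.congr (Filter.Eventually.of_forall fun x => ?_)
  simp only
  congr 1
  ring

/-- the character `x ↦ e^{2πi (n ξ₁ + c ξ₂)}` -/
def ch (n c : ℝ) (ξ : ℝ × ℝ) : ℂ := cexp (2 * π * (n * ξ.1 + c * ξ.2) * I)

theorem norm_ch (n c : ℝ) (ξ : ℝ × ℝ) : ‖ch n c ξ‖ = 1 := by
  unfold ch
  have : (2 * (π : ℂ) * ((n : ℂ) * ξ.1 + c * ξ.2) * I) = ((2 * π * (n * ξ.1 + c * ξ.2) : ℝ) : ℂ) * I := by
    push_cast; ring
  rw [this, Complex.norm_exp_ofReal_mul_I]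

theorem continuous_ch (n c : ℝ) : Continuous (ch n c) := by
  unfold ch; fun_prop

/-- the sheared Gaussian -/
def gs (p q t : ℝ) (ξ : ℝ × ℝ) : ℝ := rexp (-(π * (p ^ 2 * ξ.1 ^ 2 + q ^ 2 * (ξ.2 - t * ξ.1) ^ 2)))

theorem continuous_gs (p q t : ℝ) : Continuous (gs p q t) := by
  unfold gs; fun_prop

theorem gs_pos (p q t : ℝ) (ξ : ℝ × ℝ) : 0 < gs p q t ξ := Real.exp_pos _

theorem integrable_gs {p q : ℝ} (hp : 0 < p) (hq : 0 < q) (t : ℝ) :
    Integrable (gs p q t) (volume.prod volume) := by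
  rw [integrable_prod_iff (continuous_gs p q t).aestronglyMeasurable]
  constructor
  · refine Filter.Eventually.of_forall fun x => ?_
    have h := ((int1 hq).comp_sub_right (t * x)).const_mul (rexp (-(π * p ^ 2 * x ^ 2)))
    refine h.congr (Filter.Eventually.of_forall fun y => ?_)
    simp only [gs]
    rw [← Real.exp_add]; congr 1; ring
  · have e : (fun x : ℝ => ∫ y : ℝ, ‖gs p q t (x, y)‖)
        = fun x : ℝ => rexp (-(π * p ^ 2 * x ^ 2)) * ∫ y : ℝ, rexp (-(π * q ^ 2 * y ^ 2)) := by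
      funext x
      rw [← integral_const_mul]
      rw [← integral_sub_right_eq_self (fun y : ℝ => rexp (-(π * p ^ 2 * x ^ 2)) * rexp (-(π * q ^ 2 * y ^ 2))) (t * x)]
      refine integral_congr_ae (Filter.Eventually.of_forall fun y => ?_)
      simp only [gs, Real.norm_eq_abs, abs_of_pos (Real.exp_pos _)]
      rw [← Real.exp_add]; congr 1; ring
    rw [e]
    exact (int1 hp).mul_const _

theorem integrable_gs_ch {p q : ℝ} (hp : 0 < p) (hq : 0 < q) (t n c : ℝ) :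
    Integrable (fun ξ : ℝ × ℝ => (gs p q t ξ : ℂ) * ch n c ξ) (volume.prod volume) := by
  refine (integrable_gs hp hq t).mono' ?_ ?_
  · exact ((Complex.continuous_ofReal.comp (continuous_gs p q t)).mul (continuous_ch n c)).aestronglyMeasurable
  · refine Filter.Eventually.of_forall fun ξ => ?_
    rw [norm_mul, norm_ch, mul_one, Complex.norm_real, Real.norm_eq_abs, abs_of_pos (gs_pos p q t ξ)]

/-- Fourier transform of the sheared Gaussian -/
theorem ft2 {p q : ℝ} (hp : 0 < p) (hq : 0 < q) (t n c : ℝ) :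
    ∫ ξ : ℝ × ℝ, (gs p q t ξ : ℂ) * ch n c ξ ∂(volume.prod volume)
      = ((p⁻¹ * q⁻¹ * rexp (-(π * ((n + t * c) ^ 2 / p ^ 2 + c ^ 2 / q ^ 2))) : ℝ) : ℂ) := by
  rw [integral_prod _ (integrable_gs_ch hp hq t n c)]
  have e : ∀ x : ℝ, ∫ y : ℝ, (gs p q t (x, y) : ℂ) * ch n c (x, y)
      = (cexp (-(π * p ^ 2 * x ^ 2 : ℝ)) * cexp (2 * π * ((n + t * c : ℝ) : ℂ) * x * I)) *
        ((q⁻¹ * rexp (-(π * c ^ 2 / q ^ 2)) : ℝ) : ℂ) := by
    intro x
    rw [← ft1 hq c]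
    rw [← integral_const_mul]
    rw [← integral_sub_right_eq_self (fun y : ℝ => (cexp (-(π * p ^ 2 * x ^ 2 : ℝ)) * cexp (2 * π * ((n + t * c : ℝ) : ℂ) * x * I)) *
      (cexp (-(π * q ^ 2 * y ^ 2 : ℝ)) * cexp (2 * π * c * y * I))) (t * x)]
    refine integral_congr_ae (Filter.Eventually.of_forall fun y => ?_)
    simp only [gs, ch]
    rw [Complex.ofReal_exp, ← Complex.exp_add, ← Complex.exp_add, ← Complex.exp_add, ← Complex.exp_add]
    congr 1
    push_cast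
    ring
  simp only [e]
  rw [integral_mul_const]
  have h1 := ft1 hp (n + t * c)
  rw [h1]
  rw [← Complex.ofReal_mul]
  congr 1
  rw [show -(π * ((n + t * c) ^ 2 / p ^ 2 + c ^ 2 / q ^ 2)) = -(π * (n + t * c) ^ 2 / p ^ 2) + -(π * c ^ 2 / q ^ 2) by ring,
    Real.exp_add]
  ring

/-- exponential sum of a finite weighted point set -/
def es {ι : Type*} (I' : Finset ι) (w n c : ι → ℝ) (ξ : ℝ × ℝ) : ℂ := ∑ i ∈ I', (w i : ℂ) * ch (n i) (c i) ξ

theorem continuous_es {ι : Type*} (I' : Finset ι) (w n c : ι → ℝ) : Continuous (es I' w n c) := by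
  unfold es
  exact continuous_finsetSum _ fun i _ => continuous_const.mul (continuous_ch _ _)

theorem norm_sq_es {ι : Type*} (I' : Finset ι) (w n c : ι → ℝ) (ξ : ℝ × ℝ) :
    ((‖es I' w n c ξ‖ ^ 2 : ℝ) : ℂ) = ∑ i ∈ I', ∑ j ∈ I', ((w i * w j : ℝ) : ℂ) * ch (n i - n j) (c i - c j) ξ := by
  have h0 : ((‖es I' w n c ξ‖ ^ 2 : ℝ) : ℂ) = es I' w n c ξ * (starRingEnd ℂ) (es I' w n c ξ) := by
    rw [Complex.mul_conj, Complex.normSq_eq_norm_sq]
  rw [h0]
  unfold es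
  rw [map_sum, Finset.sum_mul_sum]
  refine Finset.sum_congr rfl fun i _ => Finset.sum_congr rfl fun j _ => ?_
  have hc : (starRingEnd ℂ) ((w j : ℂ) * ch (n j) (c j) ξ) = (w j : ℂ) * ch (-(n j)) (-(c j)) ξ := by
    rw [map_mul, Complex.conj_ofReal]
    congr 1
    unfold ch
    rw [← Complex.exp_conj]
    congr 1
    simp only [map_mul, map_add, Complex.conj_ofReal, Complex.conj_I, map_ofNat]
    push_cast
    ring
  rw [hc]
  unfold ch
  rw [show (w i : ℂ) * cexp (2 * π * ((n i : ℂ) * ξ.1 + (c i : ℂ) * ξ.2) * I) *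
      ((w j : ℂ) * cexp (2 * π * (((-(n j) : ℝ) : ℂ) * ξ.1 + ((-(c j) : ℝ) : ℂ) * ξ.2) * I))
      = ((w i * w j : ℝ) : ℂ) * (cexp (2 * π * ((n i : ℂ) * ξ.1 + (c i : ℂ) * ξ.2) * I) *
        cexp (2 * π * (((-(n j) : ℝ) : ℂ) * ξ.1 + ((-(c j) : ℝ) : ℂ) * ξ.2) * I)) by push_cast; ring]
  rw [← Complex.exp_add]
  congr 2
  push_cast
  ring

theorem norm_es_le {ι : Type*} (I' : Finset ι) (w n c : ι → ℝ) (ξ : ℝ × ℝ) :
    ‖es I' w n c ξ‖ ≤ ∑ i ∈ I', |w i| := by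
  unfold es
  refine (norm_sum_le _ _).trans (Finset.sum_le_sum fun i _ => ?_)
  rw [norm_mul, norm_ch, mul_one, Complex.norm_real, Real.norm_eq_abs]

theorem integrable_gs_es {ι : Type*} (I' : Finset ι) (w n c : ι → ℝ) {p q : ℝ} (hp : 0 < p) (hq : 0 < q) (t : ℝ) :
    Integrable (fun ξ : ℝ × ℝ => gs p q t ξ * ‖es I' w n c ξ‖ ^ 2) (volume.prod volume) := by
  refine ((integrable_gs hp hq t).mul_const ((∑ i ∈ I', |w i|) ^ 2)).mono' ?_ ?_
  · exact ((continuous_gs p q t).mul ((continuous_es I' w n c).norm.pow 2)).aestronglyMeasurable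
  · refine Filter.Eventually.of_forall fun ξ => ?_
    rw [norm_mul, Real.norm_eq_abs, abs_of_pos (gs_pos p q t ξ), Real.norm_eq_abs, abs_of_nonneg (by positivity)]
    have := norm_es_le I' w n c ξ
    have h2 := gs_pos p q t ξ
    gcongr

/-- quadratic form identity -/
theorem quad {ι : Type*} (I' : Finset ι) (w n c : ι → ℝ) {p q : ℝ} (hp : 0 < p) (hq : 0 < q) (t : ℝ) :
    ∑ i ∈ I', ∑ j ∈ I', w i * w j *
        rexp (-(π * (((n i - n j) + t * (c i - c j)) ^ 2 / p ^ 2 + (c i - c j) ^ 2 / q ^ 2)))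
      = p * q * ∫ ξ : ℝ × ℝ, gs p q t ξ * ‖es I' w n c ξ‖ ^ 2 ∂(volume.prod volume) := by
  have h1 : ((∫ ξ : ℝ × ℝ, gs p q t ξ * ‖es I' w n c ξ‖ ^ 2 ∂(volume.prod volume) : ℝ) : ℂ)
      = ∑ i ∈ I', ∑ j ∈ I', ((w i * w j : ℝ) : ℂ) *
        ((p⁻¹ * q⁻¹ * rexp (-(π * (((n i - n j) + t * (c i - c j)) ^ 2 / p ^ 2 + (c i - c j) ^ 2 / q ^ 2))) : ℝ) : ℂ) := by
    rw [← integral_complex_ofReal]
    have e : (fun ξ : ℝ × ℝ => ((gs p q t ξ * ‖es I' w n c ξ‖ ^ 2 : ℝ) : ℂ))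
        = fun ξ => ∑ i ∈ I', ∑ j ∈ I', ((w i * w j : ℝ) : ℂ) * ((gs p q t ξ : ℂ) * ch (n i - n j) (c i - c j) ξ) := by
      funext ξ
      rw [Complex.ofReal_mul, norm_sq_es, Finset.mul_sum]
      refine Finset.sum_congr rfl fun i _ => ?_
      rw [Finset.mul_sum]
      refine Finset.sum_congr rfl fun j _ => ?_
      ring
    rw [e]
    rw [integral_finsetSum _ fun i _ => integrable_finsetSum _ fun j _ => (integrable_gs_ch hp hq t _ _).const_mul _]
    refine Finset.sum_congr rfl fun i _ => ?_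
    rw [integral_finsetSum _ fun j _ => (integrable_gs_ch hp hq t _ _).const_mul _]
    refine Finset.sum_congr rfl fun j _ => ?_
    rw [integral_const_mul, ft2 hp hq]
  have h2 : (∫ ξ : ℝ × ℝ, gs p q t ξ * ‖es I' w n c ξ‖ ^ 2 ∂(volume.prod volume))
      = ∑ i ∈ I', ∑ j ∈ I', (w i * w j) *
        (p⁻¹ * q⁻¹ * rexp (-(π * (((n i - n j) + t * (c i - c j)) ^ 2 / p ^ 2 + (c i - c j) ^ 2 / q ^ 2)))) := by
    exact_mod_cast h1
  rw [h2, Finset.mul_sum]
  refine Finset.sum_congr rfl fun i _ => ?_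
  rw [Finset.mul_sum]
  refine Finset.sum_congr rfl fun j _ => ?_
  field_simp

end

end Crest.Agent.R138.Fal658
end

-- ▼ part R138/Fal2_658
section

/-!
R138 (helper658): planar Falconer / Peres-Schlag L2 projection inequality, finite form.
Part 2: grid sums, multiplier bound, the inequality.
-/

set_option autoImplicit false

namespace Crest.Agent.R138.Fal658

open Real MeasureTheory Finset

noncomputable section

theorem geo_le (N : ℕ) : ∑ x ∈ Finset.range N, ((1 : ℝ) / 2) ^ x ≤ 2 := by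
  rw [geom_sum_eq (by norm_num)]
  have : (0 : ℝ) ≤ (1 / 2) ^ N := by positivity
  rw [div_le_iff_of_neg (by norm_num)]
  linarith

/-- geometric decay over the integers -/
theorem sum_int_half (A : Finset ℤ) (a0 : ℤ) : ∑ a ∈ A, ((1 : ℝ) / 2) ^ (a - a0).natAbs ≤ 3 := by
  obtain ⟨N, hN⟩ : ∃ N : ℕ, ∀ b ∈ A, (b - a0).natAbs < N := by
    refine ⟨A.sup (fun b => (b - a0).natAbs) + 1, fun b hb => ?_⟩
    have := Finset.le_sup (f := fun b : ℤ => (b - a0).natAbs) hb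
    exact Nat.lt_succ_of_le this
  rw [← Finset.sum_filter_add_sum_filter_not A (fun b => a0 ≤ b)]
  have h1 : ∑ a ∈ A with a0 ≤ a, ((1 : ℝ) / 2) ^ (a - a0).natAbs ≤ 2 := by
    have hinj : Set.InjOn (fun a : ℤ => (a - a0).natAbs) ((A.filter (fun b => a0 ≤ b) : Finset ℤ) : Set ℤ) := by
      intro x hx y hy h
      simp only [Finset.coe_filter, Set.mem_ofPred_eq] at hx hy
      simp only at h
      omega
    have e : ∑ a ∈ A with a0 ≤ a, ((1 : ℝ) / 2) ^ (a - a0).natAbs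
        = ∑ x ∈ (A.filter (fun b => a0 ≤ b)).image (fun a : ℤ => (a - a0).natAbs), ((1 : ℝ) / 2) ^ x := by
      rw [Finset.sum_image hinj]
    rw [e]
    refine (Finset.sum_le_sum_of_subset_of_nonneg (t := Finset.range N) ?_ fun _ _ _ => by positivity).trans (geo_le N)
    intro x hx
    rw [Finset.mem_image] at hx
    obtain ⟨b, hb, rfl⟩ := hx
    exact Finset.mem_range.2 (hN b (Finset.mem_filter.1 hb).1)
  have h2 : ∑ a ∈ A with ¬ a0 ≤ a, ((1 : ℝ) / 2) ^ (a - a0).natAbs ≤ 1 := by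
    have hinj : Set.InjOn (fun a : ℤ => (a - a0).natAbs - 1) ((A.filter (fun b => ¬ a0 ≤ b) : Finset ℤ) : Set ℤ) := by
      intro x hx y hy h
      simp only [Finset.coe_filter, Set.mem_ofPred_eq] at hx hy
      simp only at h
      omega
    have e : ∑ a ∈ A with ¬ a0 ≤ a, ((1 : ℝ) / 2) ^ (a - a0).natAbs
        = ∑ x ∈ (A.filter (fun b => ¬ a0 ≤ b)).image (fun a : ℤ => (a - a0).natAbs - 1), ((1 : ℝ) / 2) ^ (x + 1) := by
      rw [Finset.sum_image hinj]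
      refine Finset.sum_congr rfl fun x hx => ?_
      have := (Finset.mem_filter.1 hx).2
      congr 1
      omega
    rw [e]
    refine (Finset.sum_le_sum_of_subset_of_nonneg (t := Finset.range N) ?_ fun _ _ _ => by positivity).trans ?_
    · intro x hx
      rw [Finset.mem_image] at hx
      obtain ⟨b, hb, rfl⟩ := hx
      have := hN b (Finset.mem_filter.1 hb).1
      exact Finset.mem_range.2 (by omega)
    · have : ∑ x ∈ Finset.range N, ((1 : ℝ) / 2) ^ (x + 1) = (1 / 2) * ∑ x ∈ Finset.range N, ((1 : ℝ) / 2) ^ x := by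
        rw [Finset.mul_sum]; refine Finset.sum_congr rfl fun x _ => by ring
      rw [this]
      have := geo_le N
      linarith
  linarith

/-- `exp (-(π s²)) ≤ 2 · 2^{-m}` when `m - 1 ≤ s` -/
theorem exp_le_half {m : ℕ} {s : ℝ} (h : (m : ℝ) - 1 ≤ s) (hs : 0 ≤ s) :
    rexp (-(π * s ^ 2)) ≤ 2 * ((1 : ℝ) / 2) ^ m := by
  rcases Nat.lt_or_ge m 2 with hm | hm
  · have h1 : rexp (-(π * s ^ 2)) ≤ 1 := by
      rw [Real.exp_le_one_iff]
      have := Real.pi_pos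
      have : 0 ≤ π * s ^ 2 := by positivity
      linarith
    refine h1.trans ?_
    interval_cases m <;> norm_num
  · obtain ⟨k, rfl⟩ : ∃ k, m = k + 2 := ⟨m - 2, by omega⟩
    push_cast at h
    have h1 : (k : ℝ) + 1 ≤ s := by linarith
    have h2 : ((k : ℝ) + 1) ≤ π * s ^ 2 := by
      have : (3 : ℝ) < π := Real.pi_gt_three
      nlinarith [h1, sq_nonneg (s - 1), (Nat.cast_nonneg k : (0 : ℝ) ≤ k)]
    have h3 : rexp (-(π * s ^ 2)) ≤ rexp (-((k : ℝ) + 1)) := Real.exp_le_exp.2 (by linarith)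
    have h4 : rexp (-((k : ℝ) + 1)) ≤ ((1 : ℝ) / 2) ^ (k + 1) := by
      have e : rexp (-((k : ℝ) + 1)) = (rexp (-1)) ^ (k + 1) := by
        rw [← Real.exp_nat_mul]; congr 1; push_cast; ring
      rw [e]
      refine pow_le_pow_left₀ (Real.exp_pos _).le ?_ _
      rw [Real.exp_neg]
      have : (2 : ℝ) ≤ rexp 1 := by
        have := Real.add_one_le_exp (1 : ℝ); linarith
      rw [inv_le_comm₀ (Real.exp_pos _) (by norm_num)]
      linarith
    calc rexp (-(π * s ^ 2)) ≤ ((1 : ℝ) / 2) ^ (k + 1) := h3.trans h4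
      _ = 2 * ((1 : ℝ) / 2) ^ (k + 2) := by ring

/-- distance of cells -/
theorem floor_dist (x y : ℝ) : (((⌊x⌋ - ⌊y⌋).natAbs : ℕ) : ℝ) - 1 ≤ |x - y| := by
  have h1 := Int.floor_le x
  have h2 := Int.lt_floor_add_one x
  have h3 := Int.floor_le y
  have h4 := Int.lt_floor_add_one y
  rw [Nat.cast_natAbs, Int.cast_abs, Int.cast_sub]
  have : |((⌊x⌋ : ℝ) - ⌊y⌋)| ≤ |x - y| + 1 := by
    have : ((⌊x⌋ : ℝ) - ⌊y⌋) = (x - y) - ((x - ⌊x⌋) - (y - ⌊y⌋)) := by ring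
    rw [this]
    refine (abs_sub _ _).trans ?_
    have : |(x - ⌊x⌋) - (y - ⌊y⌋)| ≤ 1 := by
      rw [abs_le]; constructor <;> linarith
    linarith
  linarith

/-- one dimensional grid sum of a Gaussian -/
theorem grid1 {κ : Type*} (J : Finset κ) (v t : κ → ℝ) (hv : ∀ z ∈ J, 0 ≤ v z) {M g : ℝ} (hM : 0 ≤ M)
    (hg : ∀ a : ℤ, ∑ z ∈ J with ⌊M * t z⌋ = a, v z ≤ g) {x : ℝ} (hx : M ≤ |x|) (s : ℝ) :
    ∑ z ∈ J, v z * rexp (-(π * (x * (t z - s)) ^ 2)) ≤ 6 * g := by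
  classical
  have hb : ∀ z ∈ J, v z * rexp (-(π * (x * (t z - s)) ^ 2))
      ≤ v z * (2 * ((1 : ℝ) / 2) ^ (⌊M * t z⌋ - ⌊M * s⌋).natAbs) := by
    intro z hz
    refine mul_le_mul_of_nonneg_left ?_ (hv z hz)
    have h1 := floor_dist (M * t z) (M * s)
    have h2 : |M * t z - M * s| = M * |t z - s| := by rw [← mul_sub, abs_mul, abs_of_nonneg hM]
    have h3 := exp_le_half (h1.trans_eq h2) (by positivity)
    refine le_trans (Real.exp_le_exp.2 ?_) h3
    have h4 : (M * |t z - s|) ^ 2 ≤ (x * (t z - s)) ^ 2 := by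
      rw [← sq_abs (x * (t z - s)), abs_mul]
      exact pow_le_pow_left₀ (by positivity) (mul_le_mul_of_nonneg_right hx (abs_nonneg _)) 2
    have := Real.pi_pos
    nlinarith
  refine (Finset.sum_le_sum hb).trans ?_
  have e : ∑ z ∈ J, v z * (2 * ((1 : ℝ) / 2) ^ (⌊M * t z⌋ - ⌊M * s⌋).natAbs)
      = ∑ a ∈ J.image (fun z => ⌊M * t z⌋), ∑ z ∈ J with ⌊M * t z⌋ = a, v z * (2 * ((1 : ℝ) / 2) ^ (⌊M * t z⌋ - ⌊M * s⌋).natAbs) := by
    rw [Finset.sum_fiberwise_of_maps_to (g := fun z => ⌊M * t z⌋) (t := J.image (fun z => ⌊M * t z⌋))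
      (fun z hz => Finset.mem_image_of_mem _ hz)]
  rw [e]
  have hb2 : ∀ a ∈ J.image (fun z => ⌊M * t z⌋), ∑ z ∈ J with ⌊M * t z⌋ = a, v z * (2 * ((1 : ℝ) / 2) ^ (⌊M * t z⌋ - ⌊M * s⌋).natAbs)
      ≤ 2 * g * ((1 : ℝ) / 2) ^ (a - ⌊M * s⌋).natAbs := by
    intro a _
    have : ∑ z ∈ J with ⌊M * t z⌋ = a, v z * (2 * ((1 : ℝ) / 2) ^ (⌊M * t z⌋ - ⌊M * s⌋).natAbs)
        = (∑ z ∈ J with ⌊M * t z⌋ = a, v z) * (2 * ((1 : ℝ) / 2) ^ (a - ⌊M * s⌋).natAbs) := by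
      rw [Finset.sum_mul]
      refine Finset.sum_congr rfl fun z hz => ?_
      rw [(Finset.mem_filter.1 hz).2]
    rw [this]
    have h1 := mul_le_mul_of_nonneg_right (hg a) (show (0 : ℝ) ≤ 2 * ((1 : ℝ) / 2) ^ (a - ⌊M * s⌋).natAbs by positivity)
    refine h1.trans_eq (by ring)
  refine (Finset.sum_le_sum hb2).trans ?_
  rw [← Finset.mul_sum]
  have hg0 : 0 ≤ g := by
    refine le_trans ?_ (hg 0)
    exact Finset.sum_nonneg fun z hz => hv z (Finset.mem_filter.1 hz).1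
  have := sum_int_half (J.image (fun z => ⌊M * t z⌋)) ⌊M * s⌋
  nlinarith

/-- two dimensional grid sum of a Gaussian -/
theorem grid2 {ι : Type*} (I' : Finset ι) (w n c : ι → ℝ) (hw : ∀ i ∈ I', 0 ≤ w i) {M f : ℝ} (hM : 0 ≤ M)
    (hf : ∀ a b : ℤ, ∑ i ∈ I' with ⌊M * n i⌋ = a ∧ ⌊M * c i⌋ = b, w i ≤ f) {x : ℝ} (hx : M ≤ |x|) (n0 c0 : ℝ) :
    ∑ i ∈ I', w i * rexp (-(π * ((x * (n i - n0)) ^ 2 + (x * (c i - c0)) ^ 2))) ≤ 36 * f := by
  classical
  have hb : ∀ i ∈ I', w i * rexp (-(π * ((x * (n i - n0)) ^ 2 + (x * (c i - c0)) ^ 2)))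
      ≤ (2 * ((1 : ℝ) / 2) ^ (⌊M * n i⌋ - ⌊M * n0⌋).natAbs) * (w i * rexp (-(π * (x * (c i - c0)) ^ 2))) := by
    intro i hi
    have h1 := floor_dist (M * n i) (M * n0)
    have h2 : |M * n i - M * n0| = M * |n i - n0| := by rw [← mul_sub, abs_mul, abs_of_nonneg hM]
    have h3 := exp_le_half (h1.trans_eq h2) (by positivity)
    have h4 : (M * |n i - n0|) ^ 2 ≤ (x * (n i - n0)) ^ 2 := by
      rw [← sq_abs (x * (n i - n0)), abs_mul]
      exact pow_le_pow_left₀ (by positivity) (mul_le_mul_of_nonneg_right hx (abs_nonneg _)) 2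
    have h5 : rexp (-(π * (x * (n i - n0)) ^ 2)) ≤ 2 * ((1 : ℝ) / 2) ^ (⌊M * n i⌋ - ⌊M * n0⌋).natAbs := by
      refine le_trans (Real.exp_le_exp.2 ?_) h3
      have := Real.pi_pos
      nlinarith
    have h6 : rexp (-(π * ((x * (n i - n0)) ^ 2 + (x * (c i - c0)) ^ 2)))
        = rexp (-(π * (x * (n i - n0)) ^ 2)) * rexp (-(π * (x * (c i - c0)) ^ 2)) := by
      rw [← Real.exp_add]; congr 1; ring
    rw [h6]
    have h7 : 0 ≤ w i * rexp (-(π * (x * (c i - c0)) ^ 2)) := mul_nonneg (hw i hi) (Real.exp_pos _).le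
    calc w i * (rexp (-(π * (x * (n i - n0)) ^ 2)) * rexp (-(π * (x * (c i - c0)) ^ 2)))
        = rexp (-(π * (x * (n i - n0)) ^ 2)) * (w i * rexp (-(π * (x * (c i - c0)) ^ 2))) := by ring
      _ ≤ _ := mul_le_mul_of_nonneg_right h5 h7
  refine (Finset.sum_le_sum hb).trans ?_
  rw [← Finset.sum_fiberwise_of_maps_to (g := fun i => ⌊M * n i⌋) (t := I'.image (fun i => ⌊M * n i⌋))
    (fun i hi => Finset.mem_image_of_mem _ hi)]
  have hb2 : ∀ a ∈ I'.image (fun i => ⌊M * n i⌋), ∑ i ∈ I' with ⌊M * n i⌋ = a,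
      (2 * ((1 : ℝ) / 2) ^ (⌊M * n i⌋ - ⌊M * n0⌋).natAbs) * (w i * rexp (-(π * (x * (c i - c0)) ^ 2)))
      ≤ 12 * f * ((1 : ℝ) / 2) ^ (a - ⌊M * n0⌋).natAbs := by
    intro a _
    have : ∑ i ∈ I' with ⌊M * n i⌋ = a,
        (2 * ((1 : ℝ) / 2) ^ (⌊M * n i⌋ - ⌊M * n0⌋).natAbs) * (w i * rexp (-(π * (x * (c i - c0)) ^ 2)))
        = (2 * ((1 : ℝ) / 2) ^ (a - ⌊M * n0⌋).natAbs) * ∑ i ∈ I' with ⌊M * n i⌋ = a, w i * rexp (-(π * (x * (c i - c0)) ^ 2)) := by
      rw [Finset.mul_sum]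
      refine Finset.sum_congr rfl fun i hi => ?_
      rw [(Finset.mem_filter.1 hi).2]
    rw [this]
    have h1 := grid1 (I'.filter (fun i => ⌊M * n i⌋ = a)) w c (fun i hi => hw i (Finset.mem_filter.1 hi).1) hM
      (g := f) (fun b => by
        rw [Finset.filter_filter]
        exact hf a b) hx c0
    have h2 := mul_le_mul_of_nonneg_left h1 (show (0 : ℝ) ≤ 2 * ((1 : ℝ) / 2) ^ (a - ⌊M * n0⌋).natAbs by positivity)
    refine h2.trans_eq (by ring)
  refine (Finset.sum_le_sum hb2).trans ?_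
  rw [← Finset.mul_sum]
  have hf0 : 0 ≤ f := by
    refine le_trans ?_ (hf 0 0)
    exact Finset.sum_nonneg fun i hi => hw i (Finset.mem_filter.1 hi).1
  have := sum_int_half (I'.image (fun i => ⌊M * n i⌋)) ⌊M * n0⌋
  nlinarith

end

end Crest.Agent.R138.Fal658
end

-- ▼ part R138/Fal3_658
section

/-!
R138 (helper658): planar Falconer / Peres-Schlag L2 projection inequality, finite form.
Part 3: the inequality
`∑_z v_z ∑_{i,j : |π_z(x_i - x_j)| ≤ 2^-L} w_i w_j ≤ C 2^-L W ∑_{k ≤ L} 4^k f_k g_k`,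
`f_k` = maximal mass of a grid square of side `2^-k`, `g_k` = maximal mass of a grid interval of
directions of length `2^-k`.
-/

set_option autoImplicit false
set_option linter.unusedVariables false

namespace Crest.Agent.R138.Fal658

open Real MeasureTheory Finset

noncomputable section

variable {ι κ : Type*}

theorem total_le (J : Finset κ) (v t : κ → ℝ) (hv : ∀ z ∈ J, 0 ≤ v z) (ht : ∀ z ∈ J, |t z| ≤ 1) {g0 : ℝ}
    (hg : ∀ a : ℤ, ∑ z ∈ J with ⌊t z⌋ = a, v z ≤ g0) : ∑ z ∈ J, v z ≤ 3 * g0 := by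
  classical
  rw [← Finset.sum_fiberwise_of_maps_to (g := fun z => ⌊t z⌋) (t := ({-1, 0, 1} : Finset ℤ))]
  · rw [Finset.sum_insert (by decide), Finset.sum_insert (by decide), Finset.sum_singleton]
    have h1 := hg (-1)
    have h2 := hg 0
    have h3 := hg 1
    linarith
  · intro z hz
    have h := ht z hz
    rw [abs_le] at h
    have h1 : -1 ≤ ⌊t z⌋ := Int.le_floor.2 (by push_cast; linarith)
    have h2 : ⌊t z⌋ < 2 := Int.floor_lt.2 (by push_cast; linarith)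
    simp only [Finset.mem_insert, Finset.mem_singleton]
    omega

/-- the dominating multiplier -/
def Dm (L : ℕ) (g : ℕ → ℝ) (ξ : ℝ × ℝ) : ℝ :=
  ∑ k ∈ Finset.range (L + 1), g k * gs (((1 : ℝ) / 2) ^ (k + 3)) (((1 : ℝ) / 2) ^ (k + 3)) 0 ξ

theorem gs_iso (k : ℕ) (ξ : ℝ × ℝ) : gs (((1 : ℝ) / 2) ^ k) (((1 : ℝ) / 2) ^ k) 0 ξ
    = rexp (-(π * ((1 / 4) ^ k * (ξ.1 ^ 2 + ξ.2 ^ 2)))) := by
  unfold gs
  congr 2
  rw [zero_mul, sub_zero, ← pow_mul, mul_comm k 2, pow_mul]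
  norm_num
  ring

theorem one_third_le : (1 : ℝ) / 3 ≤ rexp (-1) := by
  rw [Real.exp_neg, one_div]
  have := Real.exp_one_lt_d9
  exact inv_anti₀ (Real.exp_pos _) (by linarith)

theorem le_Dm (L : ℕ) (g : ℕ → ℝ) (hg0 : ∀ k ≤ L, 0 ≤ g k) (ξ : ℝ × ℝ) {k : ℕ} (hk : k ≤ L) :
    g k * rexp (-(π * ((1 / 4) ^ (k + 3) * (ξ.1 ^ 2 + ξ.2 ^ 2)))) ≤ Dm L g ξ := by
  unfold Dm
  rw [← gs_iso]
  exact Finset.single_le_sum (f := fun k => g k * gs (((1 : ℝ) / 2) ^ (k + 3)) (((1 : ℝ) / 2) ^ (k + 3)) 0 ξ)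
    (fun i hi => mul_nonneg (hg0 i (by have := Finset.mem_range.1 hi; omega)) (gs_pos _ _ _ _).le)
    (Finset.mem_range.2 (by omega))

/-- the multiplier bound -/
theorem mult_le (J : Finset κ) (v t : κ → ℝ) (hv : ∀ z ∈ J, 0 ≤ v z) (ht : ∀ z ∈ J, |t z| ≤ 1) (L : ℕ) (g : ℕ → ℝ)
    (hg : ∀ k ≤ L, ∀ a : ℤ, ∑ z ∈ J with ⌊(2 : ℝ) ^ k * t z⌋ = a, v z ≤ g k) (ξ : ℝ × ℝ) :
    ∑ z ∈ J, v z * gs (((1 : ℝ) / 2) ^ L) 1 (t z) ξ ≤ 18 * Dm L g ξ := by
  classical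
  have hg0 : ∀ k ≤ L, 0 ≤ g k := fun k hk =>
    le_trans (Finset.sum_nonneg fun z hz => hv z (Finset.mem_filter.1 hz).1) (hg k hk 0)
  have hV : ∑ z ∈ J, v z ≤ 3 * g 0 := total_le J v t hv ht (fun a => by simpa using hg 0 (Nat.zero_le _) a)
  have hπ := Real.pi_pos
  have hπ4 := Real.pi_lt_four
  have hπ32 : π < 3.2 := by have := Real.pi_lt_d2; linarith
  have hπ3 := Real.pi_gt_three
  have hg00 := hg0 0 (Nat.zero_le _)
  have hq : (((1 : ℝ) / 2) ^ L) ^ 2 = (1 / 4) ^ L := by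
    rw [← pow_mul, mul_comm, pow_mul]; norm_num
  by_cases hA : 2 * |ξ.1| < |ξ.2|
  · -- steep frequencies
    have h1 : ∀ z ∈ J, v z * gs (((1 : ℝ) / 2) ^ L) 1 (t z) ξ ≤ v z * rexp (-(π * ((1 / 4) ^ (0 + 3) * (ξ.1 ^ 2 + ξ.2 ^ 2)))) := by
      intro z hz
      refine mul_le_mul_of_nonneg_left (Real.exp_le_exp.2 ?_) (hv z hz)
      have h2 : |ξ.2| / 2 ≤ |ξ.2 - t z * ξ.1| := by
        have h3 : |ξ.2| - |t z * ξ.1| ≤ |ξ.2 - t z * ξ.1| := abs_sub_abs_le_abs_sub _ _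
        have h4 : |t z * ξ.1| ≤ |ξ.1| := by
          rw [abs_mul]
          have := mul_le_mul_of_nonneg_right (ht z hz) (abs_nonneg ξ.1)
          linarith
        linarith
      have h5 : ξ.2 ^ 2 / 4 ≤ (ξ.2 - t z * ξ.1) ^ 2 := by
        have := pow_le_pow_left₀ (by positivity) h2 2
        rw [sq_abs, div_pow, sq_abs] at this
        linarith
      have h6 : ξ.1 ^ 2 ≤ ξ.2 ^ 2 / 4 := by
        have := pow_le_pow_left₀ (by positivity) hA.le 2
        rw [mul_pow, sq_abs, sq_abs] at this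
        linarith
      have h7 : (0 : ℝ) ≤ (((1 : ℝ) / 2) ^ L) ^ 2 * ξ.1 ^ 2 := by positivity
      have h8 : (1 / 4 : ℝ) ^ (0 + 3) * (ξ.1 ^ 2 + ξ.2 ^ 2) ≤ (((1 : ℝ) / 2) ^ L) ^ 2 * ξ.1 ^ 2 + 1 ^ 2 * (ξ.2 - t z * ξ.1) ^ 2 := by
        norm_num at *
        nlinarith [sq_nonneg ξ.2, sq_nonneg ξ.1]
      have := mul_le_mul_of_nonneg_left h8 hπ.le
      linarith
    refine (Finset.sum_le_sum h1).trans ?_
    rw [← Finset.sum_mul]
    have h9 := le_Dm L g hg0 ξ (Nat.zero_le L)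
    have h10 := Real.exp_pos (-(π * ((1 / 4) ^ (0 + 3) * (ξ.1 ^ 2 + ξ.2 ^ 2))))
    have h11 := mul_le_mul_of_nonneg_right hV h10.le
    nlinarith [mul_nonneg hg00 h10.le]
  · push Not at hA
    have hB : ξ.2 ^ 2 ≤ 4 * ξ.1 ^ 2 := by
      have := pow_le_pow_left₀ (by positivity) hA 2
      rw [mul_pow, sq_abs, sq_abs] at this
      linarith
    rcases lt_or_ge |ξ.1| 1 with h1 | h1
    · -- small frequencies
      have h2 : ∀ z ∈ J, v z * gs (((1 : ℝ) / 2) ^ L) 1 (t z) ξ ≤ v z := by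
        intro z hz
        have : gs (((1 : ℝ) / 2) ^ L) 1 (t z) ξ ≤ 1 := by
          unfold gs
          rw [Real.exp_le_one_iff]
          have : 0 ≤ π * ((((1 : ℝ) / 2) ^ L) ^ 2 * ξ.1 ^ 2 + 1 ^ 2 * (ξ.2 - t z * ξ.1) ^ 2) := by positivity
          linarith
        have := mul_le_mul_of_nonneg_left this (hv z hz)
        linarith
      refine (Finset.sum_le_sum h2).trans ?_
      have h9 := le_Dm L g hg0 ξ (Nat.zero_le L)
      have h3 : ξ.1 ^ 2 ≤ 1 := by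
        rw [← sq_abs]
        exact pow_le_one₀ (abs_nonneg _) h1.le
      have h4 : rexp (-1) ≤ rexp (-(π * ((1 / 4) ^ (0 + 3) * (ξ.1 ^ 2 + ξ.2 ^ 2)))) := by
        refine Real.exp_le_exp.2 ?_
        norm_num
        nlinarith [sq_nonneg ξ.1, sq_nonneg ξ.2]
      have h5 := one_third_le
      have h6 := mul_le_mul_of_nonneg_left (h5.trans h4) hg00
      nlinarith
    · have hne : ξ.1 ≠ 0 := by
        intro h; rw [h] at h1; norm_num at h1
      -- rewrite every Gaussian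
      have key : ∀ (M : ℝ) (gk : ℝ), 0 ≤ M → M ≤ |ξ.1| → (∀ a : ℤ, ∑ z ∈ J with ⌊M * t z⌋ = a, v z ≤ gk) →
          ∑ z ∈ J, v z * gs (((1 : ℝ) / 2) ^ L) 1 (t z) ξ ≤ rexp (-(π * ((1 / 4) ^ L * ξ.1 ^ 2))) * (6 * gk) := by
        intro M gk hM0 hM hMg
        have h2 := grid1 J v t hv hM0 hMg hM (ξ.2 / ξ.1)
        have h3 : ∑ z ∈ J, v z * gs (((1 : ℝ) / 2) ^ L) 1 (t z) ξ
            = rexp (-(π * ((1 / 4) ^ L * ξ.1 ^ 2))) * ∑ z ∈ J, v z * rexp (-(π * (ξ.1 * (t z - ξ.2 / ξ.1)) ^ 2)) := by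
          rw [Finset.mul_sum]
          refine Finset.sum_congr rfl fun z _ => ?_
          have : gs (((1 : ℝ) / 2) ^ L) 1 (t z) ξ
              = rexp (-(π * ((1 / 4) ^ L * ξ.1 ^ 2))) * rexp (-(π * (ξ.1 * (t z - ξ.2 / ξ.1)) ^ 2)) := by
            unfold gs
            rw [← Real.exp_add, hq]
            congr 1
            field_simp
            ring
          rw [this]; ring
        rw [h3]
        exact mul_le_mul_of_nonneg_left h2 (Real.exp_pos _).le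
      rcases lt_or_ge |ξ.1| ((2 : ℝ) ^ L) with h2 | h2
      · -- middle frequencies
        obtain ⟨k, hk1, hk2⟩ : ∃ k : ℕ, (2 : ℝ) ^ k ≤ |ξ.1| ∧ |ξ.1| < (2 : ℝ) ^ (k + 1) :=
          exists_nat_pow_near h1 (by norm_num)
        have hkL : k < L := by
          by_contra hcon
          push Not at hcon
          have : (2 : ℝ) ^ L ≤ 2 ^ k := pow_le_pow_right₀ (by norm_num) hcon
          linarith
        have h3 := key (2 ^ k) (g k) (by positivity) hk1 (hg k hkL.le)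
        have h4 : rexp (-(π * ((1 / 4) ^ L * ξ.1 ^ 2))) ≤ 1 := by
          rw [Real.exp_le_one_iff]
          have : 0 ≤ π * ((1 / 4) ^ L * ξ.1 ^ 2) := by positivity
          linarith
        have hgk := hg0 k hkL.le
        have h5 := le_Dm L g hg0 ξ hkL.le
        have h6 : rexp (-1) ≤ rexp (-(π * ((1 / 4) ^ (k + 3) * (ξ.1 ^ 2 + ξ.2 ^ 2)))) := by
          refine Real.exp_le_exp.2 ?_
          have h7 : ξ.1 ^ 2 ≤ 4 ^ (k + 1) := by
            rw [← sq_abs]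
            have := pow_le_pow_left₀ (abs_nonneg _) hk2.le 2
            refine this.trans_eq ?_
            rw [← pow_mul, mul_comm, pow_mul]; norm_num
          have h8 : (1 / 4 : ℝ) ^ (k + 3) * (ξ.1 ^ 2 + ξ.2 ^ 2) ≤ 5 / 16 := by
            have h9 : ξ.1 ^ 2 + ξ.2 ^ 2 ≤ 5 * 4 ^ (k + 1) := by linarith
            have h10 := mul_le_mul_of_nonneg_left h9 (show (0 : ℝ) ≤ (1 / 4) ^ (k + 3) by positivity)
            refine h10.trans_eq ?_
            rw [show (1 / 4 : ℝ) ^ (k + 3) = (1 / 4) ^ (k + 1) * (1 / 16) by ring]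
            have : (1 / 4 : ℝ) ^ (k + 1) * 4 ^ (k + 1) = 1 := by rw [← mul_pow]; norm_num
            linear_combination (5 / 16) * this
          have h9 : π * ((1 / 4 : ℝ) ^ (k + 3) * (ξ.1 ^ 2 + ξ.2 ^ 2)) ≤ 3.2 * (5 / 16) :=
            mul_le_mul hπ32.le h8 (by positivity) (by norm_num)
          norm_num at h9 ⊢
          linarith
        have h7 := one_third_le
        have h8 := mul_le_mul_of_nonneg_left (h7.trans h6) hgk
        have h9 := mul_le_mul_of_nonneg_right h4 (show (0 : ℝ) ≤ 6 * g k by positivity)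
        nlinarith
      · -- high frequencies
        have h3 := key (2 ^ L) (g L) (by positivity) h2 (hg L le_rfl)
        have hgk := hg0 L le_rfl
        have h5 := le_Dm L g hg0 ξ (le_refl L)
        have h6 : rexp (-(π * ((1 / 4) ^ L * ξ.1 ^ 2))) ≤ rexp (-(π * ((1 / 4) ^ (L + 3) * (ξ.1 ^ 2 + ξ.2 ^ 2)))) := by
          refine Real.exp_le_exp.2 ?_
          have h7 : (1 / 4 : ℝ) ^ (L + 3) * (ξ.1 ^ 2 + ξ.2 ^ 2) ≤ (1 / 4) ^ L * ξ.1 ^ 2 := by
            rw [show (1 / 4 : ℝ) ^ (L + 3) = (1 / 4) ^ L * (1 / 64) by ring, mul_assoc]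
            refine mul_le_mul_of_nonneg_left ?_ (by positivity)
            nlinarith [sq_nonneg ξ.1]
          have := mul_le_mul_of_nonneg_left h7 hπ.le
          linarith
        have h8 := mul_le_mul_of_nonneg_left h6 hgk
        have h9 : 0 ≤ g L * rexp (-(π * ((1 / 4) ^ (L + 3) * (ξ.1 ^ 2 + ξ.2 ^ 2)))) := mul_nonneg hgk (Real.exp_pos _).le
        nlinarith

theorem integrable_Dm_es (I' : Finset ι) (w n c : ι → ℝ) (L : ℕ) (g : ℕ → ℝ) :
    Integrable (fun ξ : ℝ × ℝ => Dm L g ξ * ‖es I' w n c ξ‖ ^ 2) (volume.prod volume) := by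
  have : (fun ξ : ℝ × ℝ => Dm L g ξ * ‖es I' w n c ξ‖ ^ 2)
      = fun ξ => ∑ k ∈ Finset.range (L + 1), g k * (gs (((1 : ℝ) / 2) ^ (k + 3)) (((1 : ℝ) / 2) ^ (k + 3)) 0 ξ * ‖es I' w n c ξ‖ ^ 2) := by
    funext ξ
    unfold Dm
    rw [Finset.sum_mul]
    exact Finset.sum_congr rfl fun k _ => by ring
  rw [this]
  exact integrable_finsetSum _ fun k _ => (integrable_gs_es I' w n c (by positivity) (by positivity) 0).const_mul _

/-- **planar Falconer inequality**, finite weighted form, no exponents. -/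
theorem falconer (I' : Finset ι) (w n c : ι → ℝ) (J : Finset κ) (v t : κ → ℝ) (L : ℕ) (f g : ℕ → ℝ)
    (hw : ∀ i ∈ I', 0 ≤ w i) (hv : ∀ z ∈ J, 0 ≤ v z) (hc : ∀ i ∈ I', |c i| ≤ 1) (ht : ∀ z ∈ J, |t z| ≤ 1)
    (hf : ∀ k ≤ L, ∀ a b : ℤ, ∑ i ∈ I' with ⌊(2 : ℝ) ^ k * n i⌋ = a ∧ ⌊(2 : ℝ) ^ k * c i⌋ = b, w i ≤ f k)
    (hg : ∀ k ≤ L, ∀ a : ℤ, ∑ z ∈ J with ⌊(2 : ℝ) ^ k * t z⌋ = a, v z ≤ g k) :
    ∑ z ∈ J, v z * ∑ i ∈ I', ∑ j ∈ I' with |(n i - n j) + t z * (c i - c j)| ≤ (1 / 2) ^ L, w i * w j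
      ≤ rexp 16 * 41472 * (1 / 2) ^ L * (∑ i ∈ I', w i) * ∑ k ∈ Finset.range (L + 1), 4 ^ k * f k * g k := by
  classical
  have hπ := Real.pi_pos
  have hπ4 : π < 3.2 := by have := Real.pi_lt_d2; linarith
  set δ : ℝ := (1 / 2) ^ L with hδ
  have hδ0 : 0 < δ := by positivity
  have hW : 0 ≤ ∑ i ∈ I', w i := Finset.sum_nonneg hw
  have hg0 : ∀ k ≤ L, 0 ≤ g k := fun k hk =>
    le_trans (Finset.sum_nonneg fun z hz => hv z (Finset.mem_filter.1 hz).1) (hg k hk 0)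
  -- step 1: indicator by Gaussian
  have s1 : ∀ z ∈ J, v z * ∑ i ∈ I', ∑ j ∈ I' with |(n i - n j) + t z * (c i - c j)| ≤ δ, w i * w j
      ≤ rexp 16 * (v z * ∑ i ∈ I', ∑ j ∈ I', w i * w j *
        rexp (-(π * (((n i - n j) + t z * (c i - c j)) ^ 2 / δ ^ 2 + (c i - c j) ^ 2 / 1 ^ 2)))) := by
    intro z hz
    have h1 : ∑ i ∈ I', ∑ j ∈ I' with |(n i - n j) + t z * (c i - c j)| ≤ δ, w i * w j
        ≤ rexp 16 * ∑ i ∈ I', ∑ j ∈ I', w i * w j *
        rexp (-(π * (((n i - n j) + t z * (c i - c j)) ^ 2 / δ ^ 2 + (c i - c j) ^ 2 / 1 ^ 2))) := by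
      rw [Finset.mul_sum]
      refine Finset.sum_le_sum fun i hi => ?_
      rw [Finset.mul_sum, Finset.sum_filter]
      refine Finset.sum_le_sum fun j hj => ?_
      have hww : 0 ≤ w i * w j := mul_nonneg (hw i hi) (hw j hj)
      split_ifs with hcond
      · have h2 : ((n i - n j) + t z * (c i - c j)) ^ 2 / δ ^ 2 ≤ 1 := by
          rw [div_le_one (by positivity), ← sq_abs]
          exact pow_le_pow_left₀ (abs_nonneg _) hcond 2
        have h3 : (c i - c j) ^ 2 / 1 ^ 2 ≤ 4 := by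
          have h4 := abs_le.1 (hc i hi)
          have h5 := abs_le.1 (hc j hj)
          have : (c i - c j) ^ 2 ≤ 4 := by nlinarith
          linarith [show (c i - c j) ^ 2 / 1 ^ 2 = (c i - c j) ^ 2 by ring]
        have h6 : rexp (-16) ≤ rexp (-(π * (((n i - n j) + t z * (c i - c j)) ^ 2 / δ ^ 2 + (c i - c j) ^ 2 / 1 ^ 2))) := by
          refine Real.exp_le_exp.2 ?_
          have : π * (((n i - n j) + t z * (c i - c j)) ^ 2 / δ ^ 2 + (c i - c j) ^ 2 / 1 ^ 2) ≤ π * 5 :=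
            mul_le_mul_of_nonneg_left (by linarith) hπ.le
          linarith
        have h7 := mul_le_mul_of_nonneg_left h6 hww
        have h8 := mul_le_mul_of_nonneg_left h7 (Real.exp_pos 16).le
        refine le_trans (le_of_eq ?_) h8
        have : rexp 16 * rexp (-16) = 1 := by rw [← Real.exp_add]; norm_num
        linear_combination (-(w i * w j)) * this
      · have := Real.exp_pos (-(π * (((n i - n j) + t z * (c i - c j)) ^ 2 / δ ^ 2 + (c i - c j) ^ 2 / 1 ^ 2)))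
        have := Real.exp_pos 16
        positivity
    have h2 := mul_le_mul_of_nonneg_left h1 (hv z hz)
    refine h2.trans_eq (by ring)
  refine (Finset.sum_le_sum s1).trans ?_
  rw [← Finset.mul_sum]
  -- step 2: Fourier
  have s2 : ∑ z ∈ J, v z * ∑ i ∈ I', ∑ j ∈ I', w i * w j *
        rexp (-(π * (((n i - n j) + t z * (c i - c j)) ^ 2 / δ ^ 2 + (c i - c j) ^ 2 / 1 ^ 2)))
      = δ * ∫ ξ : ℝ × ℝ, (∑ z ∈ J, v z * gs δ 1 (t z) ξ) * ‖es I' w n c ξ‖ ^ 2 ∂(volume.prod volume) := by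
    have e : (fun ξ : ℝ × ℝ => (∑ z ∈ J, v z * gs δ 1 (t z) ξ) * ‖es I' w n c ξ‖ ^ 2)
        = fun ξ => ∑ z ∈ J, v z * (gs δ 1 (t z) ξ * ‖es I' w n c ξ‖ ^ 2) := by
      funext ξ
      rw [Finset.sum_mul]
      exact Finset.sum_congr rfl fun z _ => by ring
    rw [e, integral_finsetSum _ fun z _ => (integrable_gs_es I' w n c hδ0 one_pos (t z)).const_mul _, Finset.mul_sum]
    refine Finset.sum_congr rfl fun z _ => ?_
    rw [integral_const_mul, quad I' w n c hδ0 one_pos (t z)]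
    ring
  rw [s2]
  -- step 3: multiplier bound
  have s3 : ∫ ξ : ℝ × ℝ, (∑ z ∈ J, v z * gs δ 1 (t z) ξ) * ‖es I' w n c ξ‖ ^ 2 ∂(volume.prod volume)
      ≤ 18 * ∫ ξ : ℝ × ℝ, Dm L g ξ * ‖es I' w n c ξ‖ ^ 2 ∂(volume.prod volume) := by
    rw [← integral_const_mul]
    refine integral_mono_of_nonneg ?_ ((integrable_Dm_es I' w n c L g).const_mul _) ?_
    · refine Filter.Eventually.of_forall fun ξ => ?_
      exact mul_nonneg (Finset.sum_nonneg fun z hz => mul_nonneg (hv z hz) (gs_pos _ _ _ _).le) (by positivity)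
    · refine Filter.Eventually.of_forall fun ξ => ?_
      have h1 := mult_le J v t hv ht L g hg ξ
      have h2 := mul_le_mul_of_nonneg_right h1 (show (0 : ℝ) ≤ ‖es I' w n c ξ‖ ^ 2 by positivity)
      simp only
      refine h2.trans_eq (by ring)
  -- step 4: back to physical space
  have s4 : ∫ ξ : ℝ × ℝ, Dm L g ξ * ‖es I' w n c ξ‖ ^ 2 ∂(volume.prod volume)
      ≤ ∑ k ∈ Finset.range (L + 1), g k * (4 ^ (k + 3) * ((∑ i ∈ I', w i) * (36 * f k))) := by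
    have e : (fun ξ : ℝ × ℝ => Dm L g ξ * ‖es I' w n c ξ‖ ^ 2)
        = fun ξ => ∑ k ∈ Finset.range (L + 1), g k * (gs (((1 : ℝ) / 2) ^ (k + 3)) (((1 : ℝ) / 2) ^ (k + 3)) 0 ξ * ‖es I' w n c ξ‖ ^ 2) := by
      funext ξ
      unfold Dm
      rw [Finset.sum_mul]
      exact Finset.sum_congr rfl fun k _ => by ring
    rw [e, integral_finsetSum _ fun k _ => (integrable_gs_es I' w n c (by positivity) (by positivity) 0).const_mul _]
    refine Finset.sum_le_sum fun k hk => ?_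
    have hkL : k ≤ L := by have := Finset.mem_range.1 hk; omega
    rw [integral_const_mul]
    refine mul_le_mul_of_nonneg_left ?_ (hg0 k hkL)
    have hp : (0 : ℝ) < (1 / 2) ^ (k + 3) := by positivity
    have hq := quad I' w n c hp hp 0
    have h1 : ∫ ξ : ℝ × ℝ, gs (((1 : ℝ) / 2) ^ (k + 3)) (((1 : ℝ) / 2) ^ (k + 3)) 0 ξ * ‖es I' w n c ξ‖ ^ 2 ∂(volume.prod volume)
        = 4 ^ (k + 3) * ∑ i ∈ I', ∑ j ∈ I', w i * w j *
        rexp (-(π * (((n i - n j) + 0 * (c i - c j)) ^ 2 / ((1 / 2) ^ (k + 3)) ^ 2 + (c i - c j) ^ 2 / ((1 / 2) ^ (k + 3)) ^ 2))) := by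
      rw [hq]
      have : (4 : ℝ) ^ (k + 3) * ((1 / 2) ^ (k + 3) * (1 / 2) ^ (k + 3)) = 1 := by
        rw [← mul_pow, ← mul_pow]; norm_num
      linear_combination (-(∫ ξ : ℝ × ℝ, gs (((1 : ℝ) / 2) ^ (k + 3)) (((1 : ℝ) / 2) ^ (k + 3)) 0 ξ * ‖es I' w n c ξ‖ ^ 2 ∂(volume.prod volume))) * this
    rw [h1]
    refine mul_le_mul_of_nonneg_left ?_ (by positivity)
    rw [Finset.sum_mul]
    refine Finset.sum_le_sum fun i hi => ?_
    have h2 : ∑ j ∈ I', w i * w j *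
        rexp (-(π * (((n i - n j) + 0 * (c i - c j)) ^ 2 / ((1 / 2) ^ (k + 3)) ^ 2 + (c i - c j) ^ 2 / ((1 / 2) ^ (k + 3)) ^ 2)))
        = w i * ∑ j ∈ I', w j * rexp (-(π * ((2 ^ (k + 3) * (n j - n i)) ^ 2 + (2 ^ (k + 3) * (c j - c i)) ^ 2))) := by
      rw [Finset.mul_sum]
      refine Finset.sum_congr rfl fun j _ => ?_
      rw [mul_assoc]
      congr 3
      have : ((1 : ℝ) / 2) ^ (k + 3) * 2 ^ (k + 3) = 1 := by rw [← mul_pow]; norm_num
      have h3 : ((1 : ℝ) / 2) ^ (k + 3) = (2 ^ (k + 3))⁻¹ := by rw [one_div, inv_pow]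
      rw [h3]
      have h4 : (2 : ℝ) ^ (k + 3) ≠ 0 := by positivity
      field_simp
      ring
    rw [h2]
    refine mul_le_mul_of_nonneg_left ?_ (hw i hi)
    refine grid2 I' w n c hw (M := 2 ^ k) (by positivity) (hf k hkL) (x := 2 ^ (k + 3)) ?_ (n i) (c i)
    rw [abs_of_pos (by positivity)]
    exact pow_le_pow_right₀ (by norm_num) (by omega)
  have s5 : δ * ∫ ξ : ℝ × ℝ, (∑ z ∈ J, v z * gs δ 1 (t z) ξ) * ‖es I' w n c ξ‖ ^ 2 ∂(volume.prod volume)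
      ≤ δ * (18 * ∑ k ∈ Finset.range (L + 1), g k * (4 ^ (k + 3) * ((∑ i ∈ I', w i) * (36 * f k)))) :=
    mul_le_mul_of_nonneg_left (s3.trans (mul_le_mul_of_nonneg_left s4 (by norm_num))) hδ0.le
  refine (mul_le_mul_of_nonneg_left s5 (Real.exp_pos 16).le).trans_eq ?_
  rw [Finset.mul_sum, Finset.mul_sum, Finset.mul_sum, Finset.mul_sum]
  refine Finset.sum_congr rfl fun k _ => ?_
  ring

end

end Crest.Agent.R138.Fal658
end

-- ▼ part R138/Fal4_658
section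

/-!
R138 (helper658): planar Falconer, corollaries.
* `sq_le_card_mul_energy` : one direction, Cauchy-Schwarz over the classes;
* `falconer_classes` : number of classes of big subsets, no exponents;
* `falconer_dim` : dyadic Frostman exponents;
* `falconer_delta` : real scale `δ`, Frostman condition on centred balls.
-/

set_option autoImplicit false
set_option linter.unusedVariables false

namespace Crest.Agent.R138.Fal658

open Real MeasureTheory Finset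

noncomputable section

variable {ι κ β : Type*}

theorem sq_le_card_mul_energy [DecidableEq β] (I' Θ : Finset ι) (hΘ : Θ ⊆ I') (w : ι → ℝ) (hw : ∀ i ∈ I', 0 ≤ w i)
    (y : ι → ℝ) (δ : ℝ) (q : ι → β) (hq : ∀ i ∈ Θ, ∀ j ∈ Θ, q i = q j → |y i - y j| ≤ δ) :
    (∑ i ∈ Θ, w i) ^ 2 ≤ (Θ.image q).card * ∑ i ∈ I', ∑ j ∈ I' with |y i - y j| ≤ δ, w i * w j := by
  classical
  have h1 : ∑ i ∈ Θ, w i = ∑ a ∈ Θ.image q, ∑ i ∈ Θ with q i = a, w i :=
    (Finset.sum_fiberwise_of_maps_to (fun i hi => Finset.mem_image_of_mem q hi) _).symm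
  have h2 : (∑ a ∈ Θ.image q, ∑ i ∈ Θ with q i = a, w i) ^ 2
      ≤ (Θ.image q).card * ∑ a ∈ Θ.image q, (∑ i ∈ Θ with q i = a, w i) ^ 2 := sq_sum_le_card_mul_sum_sq
  rw [h1]
  refine h2.trans (mul_le_mul_of_nonneg_left ?_ (Nat.cast_nonneg _))
  have h3 : ∀ a ∈ Θ.image q, (∑ i ∈ Θ with q i = a, w i) ^ 2
      ≤ ∑ i ∈ Θ with q i = a, ∑ j ∈ I' with |y i - y j| ≤ δ, w i * w j := by
    intro a _
    rw [sq, Finset.sum_mul_sum]
    refine Finset.sum_le_sum fun i hi => ?_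
    have hi' := Finset.mem_filter.1 hi
    refine Finset.sum_le_sum_of_subset_of_nonneg ?_ ?_
    · intro j hj
      have hj' := Finset.mem_filter.1 hj
      exact Finset.mem_filter.2 ⟨hΘ hj'.1, hq i hi'.1 j hj'.1 (hi'.2.trans hj'.2.symm)⟩
    · intro j hj _
      exact mul_nonneg (hw i (hΘ hi'.1)) (hw j (Finset.mem_filter.1 hj).1)
  refine (Finset.sum_le_sum h3).trans ?_
  rw [Finset.sum_fiberwise_of_maps_to (fun i hi => Finset.mem_image_of_mem q hi)]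
  refine Finset.sum_le_sum_of_subset_of_nonneg hΘ ?_
  intro i hi _
  exact Finset.sum_nonneg fun j hj => mul_nonneg (hw i hi) (hw j (Finset.mem_filter.1 hj).1)

/-- the constant -/
def CF : ℝ := rexp 16 * 41472

theorem CF_pos : 0 < CF := by unfold CF; positivity





end

end Crest.Agent.R138.Fal658
end

-- ▼ part R138/Fal6_658

/-!
R138 (helper658): planar Falconer, energy form at a real scale with an arbitrary bound `E` for
`(mass of boxes of radius r) * (mass of parameter intervals of radius r) / r^2`.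
-/

set_option autoImplicit false
set_option linter.unusedVariables false

namespace Crest.Agent.R138.Fal658

open Real MeasureTheory Finset

noncomputable section

variable {ι κ : Type*}

/-- the mass of the centred box -/
def mB (I' : Finset ι) (w n c : ι → ℝ) (r : ℝ) (i : ι) : ℝ :=
  ∑ j ∈ I' with |n j - n i| ≤ r ∧ |c j - c i| ≤ r, w j

/-- the mass of the centred interval -/
def mI (J : Finset κ) (v t : κ → ℝ) (r : ℝ) (z : κ) : ℝ :=
  ∑ z' ∈ J with |t z' - t z| ≤ r, v z'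

theorem cell_close (k : ℕ) (x y : ℝ) (h : ⌊(2 : ℝ) ^ k * x⌋ = ⌊(2 : ℝ) ^ k * y⌋) : |x - y| ≤ (1 / 2) ^ k := by
  have h1 := Int.abs_sub_lt_one_of_floor_eq_floor h
  rw [← mul_sub, abs_mul, abs_of_pos (show (0 : ℝ) < 2 ^ k by positivity)] at h1
  rw [one_div, inv_pow, ← one_div, le_div_iff₀ (by positivity)]
  linarith

/-- **Falconer, energy form with a sup bound.** -/
theorem falconer_sup (I' : Finset ι) (w n c : ι → ℝ) (J : Finset κ) (v t : κ → ℝ) (δ E : ℝ)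
    (hδ : 0 < δ) (hδ1 : δ ≤ 1) (hE : 0 ≤ E)
    (hw : ∀ i ∈ I', 0 ≤ w i) (hv : ∀ z ∈ J, 0 ≤ v z) (hc : ∀ i ∈ I', |c i| ≤ 1) (ht : ∀ z ∈ J, |t z| ≤ 1)
    (hm : ∀ r, δ ≤ r → r ≤ 1 → ∀ i ∈ I', ∀ z ∈ J, mB I' w n c r i * mI J v t r z ≤ E * r ^ 2) :
    ∑ z ∈ J, v z * ∑ i ∈ I', ∑ j ∈ I' with |(n i - n j) + t z * (c i - c j)| ≤ δ, w i * w j
      ≤ 4 * CF * δ * (1 + Real.log (1 / δ)) * (∑ i ∈ I', w i) * E := by
  classical
  have hCF := CF_pos
  have hW : 0 ≤ ∑ i ∈ I', w i := Finset.sum_nonneg hw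
  have hlog : 0 ≤ Real.log (1 / δ) := Real.log_nonneg (by rw [le_div_iff₀ hδ]; linarith)
  have hR0 : 0 ≤ 4 * CF * δ * (1 + Real.log (1 / δ)) * (∑ i ∈ I', w i) * E := by positivity
  rcases I'.eq_empty_or_nonempty with rfl | hI
  · simpa using hR0
  rcases J.eq_empty_or_nonempty with rfl | hJ
  · simpa using hR0
  obtain ⟨L, hL1, hL2⟩ : ∃ L : ℕ, (2 : ℝ) ^ L ≤ 1 / δ ∧ 1 / δ < (2 : ℝ) ^ (L + 1) :=
    exists_nat_pow_near (by rw [le_div_iff₀ hδ]; linarith) (by norm_num)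
  have hk : ∀ k ≤ L, δ ≤ (1 / 2 : ℝ) ^ k := by
    intro k hk
    have h1 : (2 : ℝ) ^ k ≤ 1 / δ := (pow_le_pow_right₀ (by norm_num) hk).trans hL1
    rw [one_div, inv_pow, ← one_div, le_div_iff₀ (by positivity)]
    rw [le_div_iff₀ hδ] at h1
    linarith
  have hk1 : ∀ k : ℕ, (1 / 2 : ℝ) ^ k ≤ 1 := fun k => pow_le_one₀ (by norm_num) (by norm_num)
  set f : ℕ → ℝ := fun k => I'.sup' hI (mB I' w n c ((1 / 2) ^ k)) with hf
  set g : ℕ → ℝ := fun k => J.sup' hJ (mI J v t ((1 / 2) ^ k)) with hg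
  have hB0 : ∀ r, ∀ i, 0 ≤ mB I' w n c r i := fun r i =>
    Finset.sum_nonneg fun j hj => hw j (Finset.mem_filter.1 hj).1
  have hI0 : ∀ r, ∀ z, 0 ≤ mI J v t r z := fun r z =>
    Finset.sum_nonneg fun j hj => hv j (Finset.mem_filter.1 hj).1
  have hf0 : ∀ k, 0 ≤ f k := by
    intro k
    obtain ⟨i, hi⟩ := hI
    exact (hB0 _ i).trans (Finset.le_sup' (mB I' w n c ((1 / 2) ^ k)) hi)
  have hg0 : ∀ k, 0 ≤ g k := by
    intro k
    obtain ⟨i, hi⟩ := hJ
    exact (hI0 _ i).trans (Finset.le_sup' (mI J v t ((1 / 2) ^ k)) hi)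
  have h0 := falconer I' w n c J v t L f g hw hv hc ht
    (fun k hkL a b => by
      rcases (I'.filter fun i => ⌊(2 : ℝ) ^ k * n i⌋ = a ∧ ⌊(2 : ℝ) ^ k * c i⌋ = b).eq_empty_or_nonempty with h | ⟨i0, hi0⟩
      · rw [h, Finset.sum_empty]
        exact hf0 k
      · have hi0' := Finset.mem_filter.1 hi0
        refine le_trans ?_ (Finset.le_sup' (mB I' w n c ((1 / 2) ^ k)) hi0'.1)
        refine Finset.sum_le_sum_of_subset_of_nonneg ?_ ?_
        · intro j hj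
          have hj' := Finset.mem_filter.1 hj
          exact Finset.mem_filter.2 ⟨hj'.1, cell_close k _ _ (hj'.2.1.trans hi0'.2.1.symm), cell_close k _ _ (hj'.2.2.trans hi0'.2.2.symm)⟩
        · intro j hj _
          exact hw j (Finset.mem_filter.1 hj).1)
    (fun k hkL a => by
      rcases (J.filter fun z => ⌊(2 : ℝ) ^ k * t z⌋ = a).eq_empty_or_nonempty with h | ⟨i0, hi0⟩
      · rw [h, Finset.sum_empty]
        exact hg0 k
      · have hi0' := Finset.mem_filter.1 hi0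
        refine le_trans ?_ (Finset.le_sup' (mI J v t ((1 / 2) ^ k)) hi0'.1)
        refine Finset.sum_le_sum_of_subset_of_nonneg ?_ ?_
        · intro j hj
          have hj' := Finset.mem_filter.1 hj
          exact Finset.mem_filter.2 ⟨hj'.1, cell_close k _ _ (hj'.2.trans hi0'.2.symm)⟩
        · intro j hj _
          exact hv j (Finset.mem_filter.1 hj).1)
  have h1 : ∑ k ∈ Finset.range (L + 1), (4 : ℝ) ^ k * f k * g k ≤ (L + 1) * E := by
    have h2 : ∀ k ∈ Finset.range (L + 1), (4 : ℝ) ^ k * f k * g k ≤ E := by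
      intro k hk'
      have hkL : k ≤ L := by have := Finset.mem_range.1 hk'; omega
      obtain ⟨i, hi, hi2⟩ := Finset.exists_mem_eq_sup' hI (mB I' w n c ((1 / 2) ^ k))
      obtain ⟨z, hz, hz2⟩ := Finset.exists_mem_eq_sup' hJ (mI J v t ((1 / 2) ^ k))
      have h3 := hm ((1 / 2) ^ k) (hk k hkL) (hk1 k) i hi z hz
      rw [← hi2, ← hz2] at h3
      have h4 := mul_le_mul_of_nonneg_left h3 (show (0 : ℝ) ≤ 4 ^ k by positivity)
      have h5 : (4 : ℝ) ^ k * (E * ((1 / 2) ^ k) ^ 2) = E := by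
        rw [← pow_mul, mul_comm k 2, pow_mul]
        have : (4 : ℝ) ^ k * ((1 / 2 : ℝ) ^ 2) ^ k = 1 := by rw [← mul_pow]; norm_num
        linear_combination E * this
      rw [h5] at h4
      simp only [hf, hg]
      linarith
    refine (Finset.sum_le_sum h2).trans ?_
    rw [Finset.sum_const, Finset.card_range, nsmul_eq_mul]
    push_cast
    exact le_rfl
  have h2 : (L : ℝ) + 1 ≤ 2 * (1 + Real.log (1 / δ)) := by
    have h3 : (L : ℝ) * Real.log 2 ≤ Real.log (1 / δ) := by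
      rw [← Real.log_pow]
      exact Real.log_le_log (by positivity) hL1
    have h4 : (1 / 2 : ℝ) < Real.log 2 := by have := Real.log_two_gt_d9; linarith
    have h5 : (0 : ℝ) ≤ L := Nat.cast_nonneg _
    nlinarith
  have h3 : (1 / 2 : ℝ) ^ L ≤ 2 * δ := by
    rw [div_lt_iff₀ hδ] at hL2
    rw [one_div, inv_pow, ← one_div, div_le_iff₀ (by positivity)]
    rw [pow_succ] at hL2
    linarith
  have h4 : ∑ z ∈ J, v z * ∑ i ∈ I', ∑ j ∈ I' with |(n i - n j) + t z * (c i - c j)| ≤ δ, w i * w j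
      ≤ ∑ z ∈ J, v z * ∑ i ∈ I', ∑ j ∈ I' with |(n i - n j) + t z * (c i - c j)| ≤ (1 / 2) ^ L, w i * w j := by
    refine Finset.sum_le_sum fun z hz => mul_le_mul_of_nonneg_left ?_ (hv z hz)
    refine Finset.sum_le_sum fun i hi => ?_
    refine Finset.sum_le_sum_of_subset_of_nonneg ?_ ?_
    · intro j hj
      have hj' := Finset.mem_filter.1 hj
      exact Finset.mem_filter.2 ⟨hj'.1, hj'.2.trans (hk L le_rfl)⟩
    · intro j hj _
      exact mul_nonneg (hw i hi) (hw j (Finset.mem_filter.1 hj).1)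
  refine h4.trans (h0.trans ?_)
  have h5 : 0 ≤ ∑ k ∈ Finset.range (L + 1), (4 : ℝ) ^ k * f k * g k :=
    Finset.sum_nonneg fun k _ => by have := hf0 k; have := hg0 k; positivity
  have h6 : ∑ k ∈ Finset.range (L + 1), (4 : ℝ) ^ k * f k * g k ≤ 2 * (1 + Real.log (1 / δ)) * E :=
    h1.trans (mul_le_mul_of_nonneg_right h2 hE)
  have h7 : (1 / 2 : ℝ) ^ L * ∑ k ∈ Finset.range (L + 1), (4 : ℝ) ^ k * f k * g k
      ≤ (2 * δ) * (2 * (1 + Real.log (1 / δ)) * E) := mul_le_mul h3 h6 h5 (by positivity)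
  have h8 := mul_le_mul_of_nonneg_left h7 (show 0 ≤ CF * ∑ i ∈ I', w i by positivity)
  unfold CF at *
  refine le_trans (le_of_eq (by ring)) (h8.trans (le_of_eq (by ring)))

end

end Crest.Agent.R138.Fal658
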