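import Crest.Agent.R138.Sh7_200

-- ▼ part R138/Sh8_200
section

/-!
R138, outer shell (8): `L²` bound on bounded functions by density, `Op` from `(C3)`, and the
resulting family bound for every `2 ≤ p < ∞`.
-/

set_option autoImplicit false

open MeasureTheory FourierTransform LineDeriv Set Filter
open scoped ContDiff Real SchwartzMap ENNReal Convolution Topology

namespace Crest.Agent.R138.Sh200

open Fr665 (cv)

theorem lint_eq_eLpNorm {p : ℝ} (hp : 0 < p) (g : V → ℂ) :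
    ∫⁻ x, ENNReal.ofReal (‖g x‖ ^ p) = (eLpNorm g (ENNReal.ofReal p) volume) ^ p := by
  rw [eLpNorm_eq_lintegral_rpow_enorm_toReal (by simpa using hp) ENNReal.ofReal_ne_top,
    ENNReal.toReal_ofReal hp.le, ← ENNReal.rpow_mul, one_div_mul_cancel hp.ne', ENNReal.rpow_one]
  refine lintegral_congr fun x => ?_
  rw [← ofReal_norm, ENNReal.ofReal_rpow_of_nonneg (norm_nonneg _) hp.le]

/-- pointwise Cauchy–Schwarz for the convolution. -/
theorem enorm_cv_sub_le {K f g : V → ℂ} (hK : Measurable K) (hf : Measurable f)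
    (hg : Measurable g) (hKf : ∀ x, Integrable (fun y => K (x - y) * f y))
    (hKg : ∀ x, Integrable (fun y => K (x - y) * g y)) (x : V) :
    ‖cv K f x - cv K g x‖ₑ ≤ eLpNorm K 2 volume * eLpNorm (f - g) 2 volume := by
  unfold Fr665.cv
  rw [← integral_sub (hKf x) (hKg x)]
  have h1 : ‖∫ y, (K (x - y) * f y - K (x - y) * g y)‖ₑ
      ≤ ∫⁻ y, ‖K (x - y)‖ₑ * ‖(f - g) y‖ₑ := by
    refine (enorm_integral_le_lintegral_enorm _).trans_eq ?_
    refine lintegral_congr fun y => ?_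
    rw [← mul_sub, enorm_mul]
    rfl
  refine h1.trans ?_
  have h2 := ENNReal.lintegral_mul_le_Lp_mul_Lq (volume : Measure V) Real.HolderConjugate.two_two
    (f := fun y => ‖K (x - y)‖ₑ) (g := fun y => ‖(f - g) y‖ₑ)
    (by fun_prop) (by exact (hf.sub hg).enorm.aemeasurable)
  simp only [Pi.mul_apply] at h2
  refine h2.trans (le_of_eq ?_)
  have h3 : ∀ h : V → ℂ, (∫⁻ y, ‖h y‖ₑ ^ (2:ℝ)) ^ (1 / (2:ℝ)) = eLpNorm h 2 volume := by
    intro h
    rw [eLpNorm_eq_lintegral_rpow_enorm_toReal (by norm_num) (by norm_num)]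
    simp
  rw [h3 (f - g), ← h3 K]
  congr 2
  exact lintegral_sub_left_eq_self (μ := (volume : Measure V)) (fun y => ‖K y‖ₑ ^ (2:ℝ)) x

theorem l2_eLpNorm_schwartz {φ : ℝ → ℝ} (hφ : ContDiff ℝ ∞ φ) (hφ' : HasCompactSupport φ) {C : ℝ}
    (hC : ∀ t, |φ t| ≤ C) {R : ℝ} (hR : 1 ≤ R) (g : 𝓢(V, ℂ)) :
    eLpNorm (cv (KR φ R) g) 2 volume ≤ ENNReal.ofReal C * eLpNorm g 2 volume := by
  have hC0 : 0 ≤ C := (abs_nonneg _).trans (hC 0)
  have h1 := l2_schwartz hφ hφ' hC hR g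
  have e : ∀ h : V → ℂ, ∫⁻ x, ENNReal.ofReal (‖h x‖ ^ 2) = (eLpNorm h 2 volume) ^ (2:ℝ) := by
    intro h
    have := lint_eq_eLpNorm (p := 2) two_pos h
    rw [ENNReal.ofReal_ofNat] at this
    rw [← this]
    refine lintegral_congr fun x => ?_
    norm_num
  rw [e, e, show ENNReal.ofReal (C ^ 2) = (ENNReal.ofReal C) ^ (2:ℝ) by
    rw [ENNReal.ofReal_rpow_of_nonneg hC0 (by norm_num)]; norm_num,
    ← ENNReal.mul_rpow_of_nonneg _ _ (by norm_num)] at h1
  exact (ENNReal.rpow_le_rpow_iff (by norm_num : (0:ℝ) < 2)).mp h1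

theorem l2_eLpNorm {φ : ℝ → ℝ} (hφ : ContDiff ℝ ∞ φ) (hφ' : HasCompactSupport φ) {C : ℝ}
    (hC : ∀ t, |φ t| ≤ C) {R : ℝ} (hR : 1 ≤ R) {f : V → ℂ} (hf : BM f) (hf2 : MemLp f 2 volume) :
    eLpNorm (cv (KR φ R) f) 2 volume ≤ ENNReal.ofReal C * eLpNorm f 2 volume := by
  have hC0 : 0 ≤ C := (abs_nonneg _).trans (hC 0)
  have hKi := integrable_KR hφ hφ' hR
  have hKm : Measurable (KR φ R) := (continuous_KR hφ hφ' hR).measurable
  have hK2 : eLpNorm (KR φ R) 2 volume ≠ ⊤ := by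
    rw [← kS_coe hφ hφ' hR]
    exact ((kS hφ hφ' hR).eLpNorm_lt_top 2 volume).ne
  have hex : ∀ n : ℕ, ∃ G : V → ℂ, BM G ∧ eLpNorm (f - G) 2 volume
      ≤ ENNReal.ofReal (1 / ((n:ℝ) + 1)) ∧
      eLpNorm (cv (KR φ R) G) 2 volume ≤ ENNReal.ofReal C * eLpNorm G 2 volume := by
    intro n
    obtain ⟨g, hg1, hg2, hg3⟩ := MemLp.exist_eLpNorm_sub_le (p := 2) (by norm_num) (by norm_num) hf2
      (ε := 1 / ((n:ℝ) + 1)) (by positivity)
    obtain ⟨B, hB⟩ := hg2.continuous.bounded_above_of_compact_support hg1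
    exact ⟨g, ⟨hg2.continuous.measurable, B, hB⟩, hg3,
      l2_eLpNorm_schwartz hφ hφ' hC hR (hg1.toSchwartzMap hg2)⟩
  choose g hbg hg hg2 using hex
  have hlim0 : Tendsto (fun n : ℕ => ENNReal.ofReal (1 / ((n:ℝ) + 1))) atTop (𝓝 0) := by
    have := ENNReal.tendsto_ofReal tendsto_one_div_add_atTop_nhds_zero_nat
    simpa using this
  have hpt : ∀ x, Tendsto (fun n => cv (KR φ R) (g n) x) atTop (𝓝 (cv (KR φ R) f x)) := by
    intro x
    rw [tendsto_iff_edist_tendsto_0]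
    have h1 : Tendsto (fun n : ℕ => eLpNorm (KR φ R) 2 volume * ENNReal.ofReal (1 / ((n:ℝ) + 1)))
        atTop (𝓝 0) := by
      have := ENNReal.Tendsto.const_mul hlim0 (Or.inr hK2)
      simpa using this
    refine tendsto_of_tendsto_of_tendsto_of_le_of_le tendsto_const_nhds h1 (fun n => bot_le)
      (fun n => ?_)
    rw [edist_comm, edist_eq_enorm_sub]
    refine (enorm_cv_sub_le hKm hf.meas (hbg n).meas (fun x => integrable_cv hKi hf x)
      (fun x => integrable_cv hKi (hbg n) x) x).trans ?_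
    gcongr
    exact hg n
  have h1 := Lp.eLpNorm_lim_le_liminf_eLpNorm (μ := (volume : Measure V)) (p := 2)
    (f := fun n => cv (KR φ R) (g n))
    (fun n => (measurable_cv hKm (hbg n).meas).aestronglyMeasurable) (cv (KR φ R) f)
    (Filter.Eventually.of_forall hpt)
  refine h1.trans ?_
  have h2 : ∀ n, eLpNorm (cv (KR φ R) (g n)) 2 volume
      ≤ ENNReal.ofReal C * (eLpNorm f 2 volume + ENNReal.ofReal (1 / ((n:ℝ) + 1))) := by
    intro n
    refine (hg2 n).trans ?_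
    gcongr
    calc eLpNorm (g n) 2 volume = eLpNorm (f - (f - g n)) 2 volume := by
          congr 1; funext x; simp
      _ ≤ eLpNorm f 2 volume + eLpNorm (f - g n) 2 volume :=
          eLpNorm_sub_le hf.meas.aestronglyMeasurable
            (hf.meas.sub (hbg n).meas).aestronglyMeasurable (by norm_num)
      _ ≤ _ := by gcongr; exact hg n
  have h3 : Tendsto (fun n : ℕ => ENNReal.ofReal C *
      (eLpNorm f 2 volume + ENNReal.ofReal (1 / ((n:ℝ) + 1)))) atTop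
      (𝓝 (ENNReal.ofReal C * eLpNorm f 2 volume)) := by
    have h4 := (tendsto_const_nhds (x := eLpNorm f 2 (volume : Measure V))).add hlim0
    rw [add_zero] at h4
    exact ENNReal.Tendsto.const_mul h4 (Or.inr ENNReal.ofReal_ne_top)
  rw [← h3.liminf_eq]
  exact liminf_le_liminf (Filter.Eventually.of_forall h2)

theorem strong_two {φ : ℝ → ℝ} (hφ : ContDiff ℝ ∞ φ) (hφ' : HasCompactSupport φ) {C : ℝ}
    (hC0 : 0 < C) (hC : ∀ t, |φ t| ≤ C) {R : ℝ} (hR : 1 ≤ R) :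
    Strong volume (cv (KR φ R)) 2 (C ^ (2:ℝ)) := by
  intro f hf
  have e : ∀ h : V → ℂ, ∫⁻ x, ENNReal.ofReal (‖h x‖ ^ (2:ℝ)) = (eLpNorm h 2 volume) ^ (2:ℝ) := by
    intro h
    have := lint_eq_eLpNorm (p := 2) two_pos h
    rwa [ENNReal.ofReal_ofNat] at this
  rw [e, e]
  by_cases htop : eLpNorm f 2 volume = ⊤
  · rw [htop, ENNReal.top_rpow_of_pos (by norm_num), ENNReal.mul_top]
    · exact le_top
    · rw [Ne, ENNReal.ofReal_eq_zero, not_le]; positivity
  · have h1 := l2_eLpNorm hφ hφ' hC hR hf ⟨hf.meas.aestronglyMeasurable, lt_top_iff_ne_top.mpr htop⟩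
    rw [← ENNReal.ofReal_rpow_of_nonneg hC0.le (by norm_num),
      ← ENNReal.mul_rpow_of_nonneg _ _ (by norm_num)]
    exact ENNReal.rpow_le_rpow h1 (by norm_num)

/-- the family bound for `2 ≤ p < ∞`, from `(C3)`. -/
theorem family_of_C3 (h3 : C3) {φ : ℝ → ℝ} (hφ : ContDiff ℝ ∞ φ) (hφ' : HasCompactSupport φ)
    {p : ℝ} (hp : 2 ≤ p) {ε : ℝ} (hε : 0 < ε) :
    ∃ C : ℝ, 0 < C ∧ ∀ R : ℝ, 1 ≤ R →
      Strong volume (cv (KR φ R)) p (C * R ^ (max (p - 3) 0 + ε)) := by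
  obtain ⟨C0, hC0, hb0⟩ := exists_bd hφ.continuous hφ'
  obtain ⟨A, hA, hKA⟩ := kernel_L1 hφ hφ'
  refine interp_family (fun R => cv (KR φ R)) (M := (C0 + 1) ^ (2:ℝ)) (A := A) (by positivity) hA
    (fun R hR => strong_two hφ hφ' (by positivity) (fun t => (hb0 t).trans (by linarith)) hR)
    ?_ hp hε
  intro ε hε
  obtain ⟨B, hB⟩ := h3 φ hφ hφ' ε hε
  refine ⟨max B 1, by positivity, fun R hR => ?_⟩
  have hR0 : 0 < R := by linarith
  have hKi := integrable_KR hφ hφ' hR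
  have hKm : Measurable (KR φ R) := (continuous_KR hφ hφ' hR).measurable
  refine ⟨fun f g hf hg x => cv_add hKi hf hg x, fun c f _ x => cv_smul _ c f x,
    fun f hf => measurable_cv hKm hf.meas,
    fun f C _ hC x => norm_cv_le hKm (hKA R hR) (by positivity) hC x, ?_⟩
  intro Ω hΩ hfin f hf hle
  refine (hB R hR Ω hΩ hfin f hf hle).trans ?_
  gcongr
  exact le_max_left _ _

end Crest.Agent.R138.Sh200
end

-- ▼ part R138/Sh9_200
section

/-!
R138, outer shell (9): duality `p ↔ p'`.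
-/

set_option autoImplicit false

open MeasureTheory FourierTransform LineDeriv Set Filter
open scoped ContDiff Real SchwartzMap ENNReal Convolution Topology ComplexConjugate

namespace Crest.Agent.R138.Sh200

open Fr665 (cv)

theorem KR_neg (φ : ℝ → ℝ) (R : ℝ) (x : V) : KR φ R (-x) = KR φ R x := by
  unfold KR
  have h : (fun ξ => mR φ R (-ξ)) = mR φ R := by
    funext ξ
    simp [mR, norm_neg]
  rw [Real.fourierInv_eq_fourier_neg, neg_neg, Real.fourierInv_eq_fourier_comp_neg, h]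

theorem dual_identity {K : V → ℂ} (hK : Integrable K) (heven : ∀ x, K (-x) = K x)
    {f g : V → ℂ} (hfi : Integrable f) (hg : BM g) :
    ∫ x, cv K f x * g x = ∫ y, f y * cv K g y := by
  obtain ⟨C, hC⟩ := hg.bdd
  have h0 : Integrable (fun p : V × V => f p.2 * K (p.1 - p.2)) (volume.prod volume) :=
    hfi.convolution_integrand (ContinuousLinearMap.mul ℂ ℂ) hK
  have h1 : Integrable (fun p : V × V => (f p.2 * K (p.1 - p.2)) * g p.1)
      (volume.prod volume) := by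
    refine h0.mul_bdd (c := C) ?_ (Filter.Eventually.of_forall fun p => hC p.1)
    exact (hg.meas.comp measurable_fst).aestronglyMeasurable
  have h2 : ∫ x, cv K f x * g x = ∫ x, ∫ y, (f y * K (x - y)) * g x := by
    congr 1
    funext x
    unfold Fr665.cv
    rw [← integral_mul_const]
    congr 1
    funext y
    ring
  rw [h2, integral_integral_swap h1]
  congr 1
  funext y
  unfold Fr665.cv
  rw [← integral_const_mul]
  congr 1
  funext x
  rw [← heven (y - x), neg_sub]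
  ring

theorem dual_bound {K : V → ℂ} (hK : Integrable K) (hKm : Measurable K)
    (heven : ∀ x, K (-x) = K x) {p q : ℝ} (hpq : p.HolderConjugate q) {B : ℝ}
    (hS : Strong volume (cv K) q B) {f : V → ℂ} (hf : Measurable f) (hfi : Integrable f)
    {D : ℝ} (hD : ∀ x, ‖cv K f x‖ ≤ D)
    (hfin : ∫⁻ x, ENNReal.ofReal (‖cv K f x‖ ^ p) ≠ ⊤) :
    (∫⁻ x, ENNReal.ofReal (‖cv K f x‖ ^ p)) ^ (1 / p)
      ≤ ENNReal.ofReal B ^ (1 / q) * (∫⁻ x, ENNReal.ofReal (‖f x‖ ^ p)) ^ (1 / p) := by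
  set F := cv K f with hF
  have hFm : Measurable F := measurable_cv hKm hf
  set I := ∫⁻ x, ENNReal.ofReal (‖F x‖ ^ p) with hI
  have hp1 : 1 < p := hpq.lt
  have hp0 : 0 < p := hpq.pos
  have hq0 : 0 < q := hpq.symm.pos
  have hD0 : 0 ≤ D := (norm_nonneg _).trans (hD 0)
  rcases eq_or_ne I 0 with hI0 | hI0
  · rw [hI0, ENNReal.zero_rpow_of_pos (by positivity)]
    exact bot_le
  set g : V → ℂ := fun x => conj (F x) * ((‖F x‖ ^ (p - 2) : ℝ) : ℂ) with hg
  have hgn : ∀ x, ‖g x‖ = ‖F x‖ ^ (p - 1) := by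
    intro x
    rw [hg]
    simp only [norm_mul, RCLike.norm_conj, Complex.norm_real]
    rw [Real.norm_of_nonneg (Real.rpow_nonneg (norm_nonneg _) _)]
    rcases eq_or_lt_of_le (norm_nonneg (F x)) with h0 | h0
    · rw [← h0, zero_mul, Real.zero_rpow (by linarith)]
    · nth_rw 1 [← Real.rpow_one ‖F x‖]
      rw [← Real.rpow_add h0]
      congr 1; ring
  have hgm : Measurable g := by
    rw [hg]
    apply Measurable.mul
    · exact Complex.continuous_conj.measurable.comp hFm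
    · exact Complex.measurable_ofReal.comp (hFm.norm.pow_const _)
  have hgb : BM g := by
    refine ⟨hgm, D ^ (p - 1), fun x => ?_⟩
    rw [hgn]
    exact Real.rpow_le_rpow (norm_nonneg _) (hD x) (by linarith)
  have hFg : ∀ x, F x * g x = ((‖F x‖ ^ p : ℝ) : ℂ) := by
    intro x
    rw [hg]
    simp only
    rw [← mul_assoc, Complex.mul_conj, ← Complex.ofReal_mul, Complex.normSq_eq_norm_sq]
    congr 1
    rcases eq_or_lt_of_le (norm_nonneg (F x)) with h0 | h0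
    · rw [← h0, Real.zero_rpow hp0.ne']; simp
    · rw [← Real.rpow_natCast, ← Real.rpow_add h0]
      congr 1; push_cast; ring
  have hint : Integrable (fun x => ‖F x‖ ^ p) := by
    refine ⟨(hFm.norm.pow_const p).aestronglyMeasurable, ?_⟩
    rw [hasFiniteIntegral_iff_ofReal (Filter.Eventually.of_forall fun x =>
      Real.rpow_nonneg (norm_nonneg _) _)]
    exact lt_top_iff_ne_top.mpr hfin
  have e1 : I = ‖∫ x, F x * g x‖ₑ := by
    simp_rw [hFg]
    rw [integral_complex_ofReal, ← ofReal_norm, Complex.norm_real, Real.norm_of_nonneg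
      (integral_nonneg fun x => Real.rpow_nonneg (norm_nonneg _) _),
      ofReal_integral_eq_lintegral_ofReal hint
      (Filter.Eventually.of_forall fun x => Real.rpow_nonneg (norm_nonneg _) _)]
  have e2 : I ≤ ∫⁻ y, ‖f y‖ₑ * ‖cv K g y‖ₑ := by
    rw [e1, hF, dual_identity hK heven hfi hgb]
    refine (enorm_integral_le_lintegral_enorm _).trans_eq ?_
    refine lintegral_congr fun y => ?_
    rw [enorm_mul]
  have e3 := ENNReal.lintegral_mul_le_Lp_mul_Lq (volume : Measure V) hpq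
    (f := fun y => ‖f y‖ₑ) (g := fun y => ‖cv K g y‖ₑ)
    hf.enorm.aemeasurable (measurable_cv hKm hgm).enorm.aemeasurable
  simp only [Pi.mul_apply] at e3
  have conv : ∀ (r : ℝ) (_ : 0 < r) (h : V → ℂ),
      ∫⁻ x, ‖h x‖ₑ ^ r = ∫⁻ x, ENNReal.ofReal (‖h x‖ ^ r) := by
    intro r hr h
    refine lintegral_congr fun x => ?_
    rw [← ofReal_norm, ENNReal.ofReal_rpow_of_nonneg (norm_nonneg _) hr.le]
  rw [conv p hp0, conv q hq0] at e3
  have e4 := hS g hgb
  have e5 : ∫⁻ x, ENNReal.ofReal (‖g x‖ ^ q) = I := by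
    rw [hI]
    refine lintegral_congr fun x => ?_
    rw [hgn, ← Real.rpow_mul (norm_nonneg _)]
    congr 2
    have := hpq.sub_one_mul_conj
    exact this
  rw [e5] at e4
  have e6 : I ≤ (∫⁻ x, ENNReal.ofReal (‖f x‖ ^ p)) ^ (1 / p)
      * (ENNReal.ofReal B ^ (1 / q) * I ^ (1 / q)) := by
    refine (e2.trans e3).trans ?_
    rw [← ENNReal.mul_rpow_of_nonneg _ _ (by positivity)]
    gcongr
  have e7 : I = I ^ (1 / p) * I ^ (1 / q) := by
    rw [← ENNReal.rpow_add _ _ hI0 hfin]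
    have : 1 / p + 1 / q = 1 := by
      have := hpq.inv_add_inv_eq_one
      simpa [one_div] using this
    rw [this, ENNReal.rpow_one]
  have e8 : I ^ (1 / p) * I ^ (1 / q)
      ≤ (ENNReal.ofReal B ^ (1 / q) * (∫⁻ x, ENNReal.ofReal (‖f x‖ ^ p)) ^ (1 / p))
        * I ^ (1 / q) := by
    rw [← e7]
    refine e6.trans (le_of_eq ?_)
    ring
  have hq1 : I ^ (1 / q) ≠ 0 := by
    rw [Ne, ENNReal.rpow_eq_zero_iff]
    push Not
    exact ⟨fun h => absurd h hI0, fun h => absurd h hfin⟩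
  have hq2 : I ^ (1 / q) ≠ ⊤ := ENNReal.rpow_ne_top_of_nonneg (by positivity) hfin
  exact (ENNReal.mul_le_mul_iff_left hq1 hq2).mp e8

end Crest.Agent.R138.Sh200
end

-- ▼ part R138/Sh10_200
section

/-!
R138, outer shell (10): the single-scale bound for every `1 ≤ p ≤ ∞` and Schwartz `f`.
-/

set_option autoImplicit false

open MeasureTheory FourierTransform LineDeriv Set Filter
open scoped ContDiff Real SchwartzMap ENNReal Convolution Topology ComplexConjugate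

namespace Crest.Agent.R138.Sh200

open Fr665 (cv)

/-- the critical exponent. -/
noncomputable def αp (p : ℝ≥0∞) : ℝ := max (3 * |(p⁻¹).toReal - 1 / 2| - 1 / 2) 0


theorem αp_of_real {p : ℝ} (hp : 0 < p) :
    αp (ENNReal.ofReal p) = max (3 * |1 / p - 1 / 2| - 1 / 2) 0 := by
  unfold αp
  rw [← ENNReal.ofReal_inv_of_pos hp, ENNReal.toReal_ofReal (by positivity), one_div p]

/-- the single-scale estimate. -/
def Single (φ : ℝ → ℝ) (p : ℝ≥0∞) : Prop :=
  ∀ ε : ℝ, 0 < ε → ∃ C : ℝ, 0 < C ∧ ∀ R : ℝ, 1 ≤ R → ∀ f : 𝓢(V, ℂ),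
    eLpNorm (cv (KR φ R) f) p volume
      ≤ ENNReal.ofReal (C * R ^ (αp p + ε)) * eLpNorm f p volume

theorem bm_schwartz (f : 𝓢(V, ℂ)) : BM (f : V → ℂ) :=
  ⟨f.continuous.measurable, SchwartzMap.seminorm ℝ 0 0 f, fun x =>
    SchwartzMap.norm_le_seminorm ℝ f x⟩

theorem single_ge_two (h3 : C3) {φ : ℝ → ℝ} (hφ : ContDiff ℝ ∞ φ) (hφ' : HasCompactSupport φ)
    {p : ℝ} (hp : 2 ≤ p) : Single φ (ENNReal.ofReal p) := by
  intro ε hε
  have hp0 : 0 < p := by linarith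
  obtain ⟨C, hC, hS⟩ := family_of_C3 h3 hφ hφ' hp (mul_pos hp0 hε)
  refine ⟨C ^ (1 / p), by positivity, fun R hR f => ?_⟩
  have hR0 : 0 < R := by linarith
  have h1 := hS R hR f (bm_schwartz f)
  rw [lint_eq_eLpNorm hp0, lint_eq_eLpNorm hp0] at h1
  have h2 := ENNReal.rpow_le_rpow h1 (by positivity : 0 ≤ 1 / p)
  rw [ENNReal.mul_rpow_of_nonneg _ _ (by positivity), ← ENNReal.rpow_mul, ← ENNReal.rpow_mul,
    mul_one_div_cancel hp0.ne', ENNReal.rpow_one, ENNReal.rpow_one,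
    ENNReal.ofReal_rpow_of_nonneg (by positivity) (by positivity)] at h2
  refine h2.trans (le_of_eq ?_)
  congr 2
  rw [Real.mul_rpow hC.le (by positivity), ← Real.rpow_mul hR0.le]
  congr 2
  rw [αp_of_real hp0]
  have e1 : |1 / p - 1 / 2| = 1 / 2 - 1 / p := by
    rw [abs_sub_comm, abs_of_nonneg]
    rw [sub_nonneg]
    exact one_div_le_one_div_of_le two_pos hp
  have e2 : 3 * (1 / 2 - 1 / p) - 1 / 2 = (p - 3) * (1 / p) := by field_simp; ring
  rw [e1, e2, add_mul, max_mul_of_nonneg _ _ (by positivity : 0 ≤ 1 / p), zero_mul]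
  congr 1
  field_simp

theorem single_top {φ : ℝ → ℝ} (hφ : ContDiff ℝ ∞ φ) (hφ' : HasCompactSupport φ) :
    Single φ ⊤ := by
  intro ε hε
  obtain ⟨A, hA, hKA⟩ := kernel_L1 hφ hφ'
  refine ⟨A, hA, fun R hR f => ?_⟩
  have hR0 : 0 < R := by linarith
  have hKm : Measurable (KR φ R) := (continuous_KR hφ hφ' hR).measurable
  have hα : αp ⊤ = 1 := by
    unfold αp
    rw [ENNReal.inv_top, ENNReal.toReal_zero]
    norm_num
  rw [hα, eLpNorm_exponent_top, eLpNorm_exponent_top]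
  have h1 : ∀ x, ‖cv (KR φ R) f x‖ₑ ≤ ENNReal.ofReal (A * R) * eLpNormEssSup f volume := by
    intro x
    refine (Fr665.enorm_cv_le (KR φ R) f x).trans ?_
    unfold Fr665.acv
    calc ∫⁻ y, ‖KR φ R (x - y)‖ₑ * ‖f y‖ₑ
        ≤ ∫⁻ y, ‖KR φ R (x - y)‖ₑ * eLpNormEssSup f volume := by
          apply lintegral_mono_ae
          filter_upwards [enorm_ae_le_eLpNormEssSup (f : V → ℂ) (volume : Measure V)] with y hy
          gcongr
      _ = (∫⁻ y, ‖KR φ R y‖ₑ) * eLpNormEssSup f volume := by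
          rw [lintegral_mul_const _ (by fun_prop), Fr665.lint_sub]
      _ ≤ _ := by gcongr; exact hKA R hR
  refine (eLpNormEssSup_le_of_ae_enorm_bound (Filter.Eventually.of_forall h1)).trans ?_
  gcongr
  calc R = R ^ (1:ℝ) := (Real.rpow_one R).symm
    _ ≤ R ^ (1 + ε) := Real.rpow_le_rpow_of_exponent_le hR (by linarith)

theorem single_one {φ : ℝ → ℝ} (hφ : ContDiff ℝ ∞ φ) (hφ' : HasCompactSupport φ) :
    Single φ 1 := by
  intro ε hε
  obtain ⟨A, hA, hKA⟩ := kernel_L1 hφ hφ'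
  refine ⟨A, hA, fun R hR f => ?_⟩
  have hR0 : 0 < R := by linarith
  have hKm : Measurable (KR φ R) := (continuous_KR hφ hφ' hR).measurable
  have hα : αp 1 = 1 := by
    unfold αp
    norm_num
  rw [hα, eLpNorm_one_eq_lintegral_enorm, eLpNorm_one_eq_lintegral_enorm]
  have h1 := Fr665.lint_cv_rpow hKm f.continuous.measurable (le_refl (1:ℝ))
  simp only [ENNReal.rpow_one] at h1
  refine h1.trans ?_
  gcongr
  refine (hKA R hR).trans (ENNReal.ofReal_le_ofReal ?_)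
  gcongr
  calc R = R ^ (1:ℝ) := (Real.rpow_one R).symm
    _ ≤ R ^ (1 + ε) := Real.rpow_le_rpow_of_exponent_le hR (by linarith)

theorem single_lt_two (h3 : C3) {φ : ℝ → ℝ} (hφ : ContDiff ℝ ∞ φ) (hφ' : HasCompactSupport φ)
    {p : ℝ} (hp1 : 1 < p) (hp : p < 2) : Single φ (ENNReal.ofReal p) := by
  intro ε hε
  have hp0 : 0 < p := by linarith
  set q := p.conjExponent with hq
  have hpq : p.HolderConjugate q := Real.HolderConjugate.conjExponent hp1
  have hq0 : 0 < q := hpq.symm.pos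
  have hq2 : 2 ≤ q := by
    have h1 := hpq.inv_add_inv_eq_one
    have h2 : 1 / 2 < p⁻¹ := by
      rw [one_div]; exact inv_strictAnti₀ hp0 hp
    have h3 : q⁻¹ ≤ 2⁻¹ := by
      rw [← one_div 2]; linarith
    exact (inv_le_inv₀ hq0 two_pos).mp h3
  obtain ⟨C, hC, hS⟩ := family_of_C3 h3 hφ hφ' hq2 (mul_pos hq0 hε)
  obtain ⟨A, hA, hKA⟩ := kernel_L1 hφ hφ'
  refine ⟨C ^ (1 / q), by positivity, fun R hR f => ?_⟩
  have hR0 : 0 < R := by linarith
  have hKm : Measurable (KR φ R) := (continuous_KR hφ hφ' hR).measurable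
  have hKi := integrable_KR hφ hφ' hR
  obtain ⟨D, hD⟩ := (bm_schwartz f).bdd
  have hfin : ∫⁻ x, ENNReal.ofReal (‖cv (KR φ R) f x‖ ^ p) ≠ ⊤ := by
    rw [lint_eq_eLpNorm hp0]
    apply ENNReal.rpow_ne_top_of_nonneg hp0.le
    have e : cv (KR φ R) f = SchwartzMap.convolution (ContinuousLinearMap.mul ℂ ℂ)
        (kS hφ hφ' hR) f := by
      funext x; rw [conv_eq]
    rw [e]
    exact (SchwartzMap.eLpNorm_lt_top _ _ _).ne
  have h1 := dual_bound hKi hKm (fun x => KR_neg φ R x) hpq (hS R hR) f.continuous.measurable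
    f.integrable (fun x => norm_cv_le hKm (hKA R hR) (by positivity) hD x) hfin
  rw [lint_eq_eLpNorm hp0, lint_eq_eLpNorm hp0, ← ENNReal.rpow_mul, ← ENNReal.rpow_mul,
    mul_one_div_cancel hp0.ne', ENNReal.rpow_one, ENNReal.rpow_one,
    ENNReal.ofReal_rpow_of_nonneg (by positivity) (by positivity)] at h1
  refine h1.trans (le_of_eq ?_)
  congr 2
  rw [Real.mul_rpow hC.le (by positivity), ← Real.rpow_mul hR0.le]
  congr 2
  rw [αp_of_real hp0]
  have e1 : |1 / p - 1 / 2| = 1 / 2 - 1 / q := by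
    have h5 := hpq.inv_add_inv_eq_one
    rw [← one_div, ← one_div] at h5
    have h6 : 1 / 2 < 1 / p := one_div_lt_one_div_of_lt hp0 hp
    rw [abs_of_nonneg (by linarith)]
    linarith
  have e2 : 3 * (1 / 2 - 1 / q) - 1 / 2 = (q - 3) * (1 / q) := by field_simp; ring
  rw [e1, e2, add_mul, max_mul_of_nonneg _ _ (by positivity : 0 ≤ 1 / q), zero_mul]
  congr 1
  field_simp

theorem single_all (h3 : C3) {φ : ℝ → ℝ} (hφ : ContDiff ℝ ∞ φ) (hφ' : HasCompactSupport φ)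
    {p : ℝ≥0∞} (hp : 1 ≤ p) : Single φ p := by
  rcases eq_or_ne p ⊤ with rfl | hptop
  · exact single_top hφ hφ'
  have e : p = ENNReal.ofReal p.toReal := (ENNReal.ofReal_toReal hptop).symm
  have hp1 : 1 ≤ p.toReal := by
    have := ENNReal.toReal_mono hptop hp
    simpa using this
  rw [e]
  rcases eq_or_lt_of_le hp1 with h | h
  · rw [← h, ENNReal.ofReal_one]
    exact single_one hφ hφ'
  · by_cases h2 : 2 ≤ p.toReal
    · exact single_ge_two h3 hφ hφ' h2
    · exact single_lt_two h3 hφ hφ' h (not_le.mp h2)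

end Crest.Agent.R138.Sh200
end

-- ▼ part R138/Sh11_200

/-!
R138, outer shell (11): dyadic decomposition of `(1 - |ξ|²)_+^δ` and the outer shell theorem.
-/

set_option autoImplicit false

open MeasureTheory FourierTransform LineDeriv Set Filter
open scoped ContDiff Real SchwartzMap ENNReal Convolution Topology ComplexConjugate

namespace Crest.Agent.R138.Sh200

open Fr665 (cv)

/-- cut-off: `1` for `t ≤ 1`, `0` for `t ≥ 2`. -/
noncomputable def bet (t : ℝ) : ℝ := Real.smoothTransition (2 - t)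

theorem bet_one {t : ℝ} (h : t ≤ 1) : bet t = 1 :=
  Real.smoothTransition.one_of_one_le (by linarith)

theorem bet_zero {t : ℝ} (h : 2 ≤ t) : bet t = 0 :=
  Real.smoothTransition.zero_of_nonpos (by linarith)

theorem bet_nonneg (t : ℝ) : 0 ≤ bet t := Real.smoothTransition.nonneg _

theorem bet_le_one (t : ℝ) : bet t ≤ 1 := Real.smoothTransition.le_one _

theorem contDiff_bet : ContDiff ℝ ∞ bet :=
  (Real.smoothTransition.contDiff (n := ⊤)).comp (contDiff_const.sub contDiff_id)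

/-- the fixed bump. -/
noncomputable def phd (δ t : ℝ) : ℝ := (max t 0) ^ δ * (bet t - bet (2 * t))

theorem phd_zero_of_lt {δ t : ℝ} (h : t < 1 / 2) : phd δ t = 0 := by
  unfold phd
  rw [bet_one (by linarith), bet_one (by linarith), sub_self, mul_zero]

theorem phd_zero_of_gt {δ t : ℝ} (h : 2 ≤ t) : phd δ t = 0 := by
  unfold phd
  rw [bet_zero h, bet_zero (by linarith), sub_self, mul_zero]

theorem contDiff_phd (δ : ℝ) : ContDiff ℝ ∞ (phd δ) := by
  rw [contDiff_iff_contDiffAt]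
  intro t
  by_cases ht : t < 1 / 2
  · have h1 : phd δ =ᶠ[𝓝 t] fun _ => 0 := by
      filter_upwards [isOpen_Iio.mem_nhds (show t ∈ Iio (1 / 2 : ℝ) from ht)] with s hs
      exact phd_zero_of_lt hs
    exact contDiffAt_const.congr_of_eventuallyEq h1
  · have ht0 : 0 < t := by push Not at ht; linarith
    have h1 : phd δ =ᶠ[𝓝 t] fun s => s ^ δ * (bet s - bet (2 * s)) := by
      filter_upwards [isOpen_Ioi.mem_nhds (show t ∈ Ioi (0 : ℝ) from ht0)] with s hs
      unfold phd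
      rw [max_eq_left (le_of_lt hs)]
    refine ContDiffAt.congr_of_eventuallyEq ?_ h1
    have h2 : ContDiff ℝ ∞ fun s : ℝ => bet (2 * s) :=
      contDiff_bet.comp (contDiff_const.mul contDiff_id)
    exact (Real.contDiffAt_rpow_const_of_ne ht0.ne').mul
      (contDiff_bet.contDiffAt.sub h2.contDiffAt)

theorem hasCompactSupport_phd (δ : ℝ) : HasCompactSupport (phd δ) := by
  apply HasCompactSupport.of_support_subset_isCompact (isCompact_Icc (a := (1/2 : ℝ)) (b := 2))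
  intro t ht
  rw [mem_Icc]
  constructor
  · by_contra h
    exact ht (phd_zero_of_lt (not_le.mp h))
  · by_contra h
    exact ht (phd_zero_of_gt (not_le.mp h).le)

/-- telescoping. -/
theorem sum_phd {δ : ℝ} (N : ℕ) (t : ℝ) :
    ∑ k ∈ Finset.range N, (2:ℝ) ^ (-(k * δ)) * phd δ (2 ^ k * t)
      = (max t 0) ^ δ * (bet t - bet (2 ^ N * t)) := by
  induction N with
  | zero => simp
  | succ n ih =>
    rw [Finset.sum_range_succ, ih]
    have h1 : (2:ℝ) ^ (-(n * δ)) * phd δ (2 ^ n * t)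
        = (max t 0) ^ δ * (bet (2 ^ n * t) - bet (2 ^ (n + 1) * t)) := by
      unfold phd
      have e1 : max (2 ^ n * t) 0 = 2 ^ n * max t 0 := by
        rw [mul_max_of_nonneg _ _ (by positivity : (0:ℝ) ≤ 2 ^ n), mul_zero]
      have e2 : ((2:ℝ) ^ n * max t 0) ^ δ = (2:ℝ) ^ (n * δ) * (max t 0) ^ δ := by
        rw [Real.mul_rpow (by positivity) (le_max_right _ _), ← Real.rpow_natCast,
          ← Real.rpow_mul (by norm_num)]
      have e3 : (2:ℝ) ^ (-(n * δ)) * (2:ℝ) ^ (n * δ) = 1 := by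
        rw [← Real.rpow_add (by norm_num)]; simp
      have e4 : 2 * (2 ^ n * t) = 2 ^ (n + 1) * t := by ring
      rw [e1, e2, e4]
      calc (2:ℝ) ^ (-(n * δ)) * ((2:ℝ) ^ (n * δ) * (max t 0) ^ δ *
            (bet (2 ^ n * t) - bet (2 ^ (n + 1) * t)))
          = ((2:ℝ) ^ (-(n * δ)) * (2:ℝ) ^ (n * δ)) * ((max t 0) ^ δ *
            (bet (2 ^ n * t) - bet (2 ^ (n + 1) * t))) := by ring
        _ = _ := by rw [e3, one_mul]
    rw [h1]
    ring

theorem tendsto_sum_phd {δ : ℝ} (hδ : 0 < δ) {t : ℝ} (ht : t ≤ 1) :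
    Tendsto (fun N : ℕ => ∑ k ∈ Finset.range N, (2:ℝ) ^ (-(k * δ)) * phd δ (2 ^ k * t)) atTop
      (𝓝 ((max t 0) ^ δ)) := by
  simp_rw [sum_phd]
  rcases le_or_gt t 0 with h0 | h0
  · rw [max_eq_right h0, Real.zero_rpow hδ.ne']
    simp
  · have h1 : ∀ᶠ N : ℕ in atTop, (max t 0) ^ δ * (bet t - bet (2 ^ N * t)) = (max t 0) ^ δ := by
      have h2 : Tendsto (fun N : ℕ => (2:ℝ) ^ N * t) atTop atTop :=
        (tendsto_pow_atTop_atTop_of_one_lt (by norm_num)).atTop_mul_const h0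
      filter_upwards [h2.eventually_ge_atTop 2] with N hN
      rw [bet_zero hN, bet_one ht]
      ring
    exact tendsto_const_nhds.congr' (h1.mono fun N hN => hN.symm)

theorem sum_phd_bound {δ : ℝ} (hδ : 0 < δ) {t : ℝ} (ht : t ≤ 1) (N : ℕ) :
    |∑ k ∈ Finset.range N, (2:ℝ) ^ (-(k * δ)) * phd δ (2 ^ k * t)| ≤ 1 := by
  rw [sum_phd, bet_one ht]
  have h1 : 0 ≤ max t 0 := le_max_right _ _
  have h2 : max t 0 ≤ 1 := max_le ht zero_le_one
  have h3 : 0 ≤ (max t 0) ^ δ := Real.rpow_nonneg h1 _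
  have h4 : (max t 0) ^ δ ≤ 1 := Real.rpow_le_one h1 h2 hδ.le
  have h5 := bet_nonneg (2 ^ N * t)
  have h6 := bet_le_one (2 ^ N * t)
  rw [abs_of_nonneg (mul_nonneg h3 (by linarith))]
  nlinarith

/-- the partial sums of the Bochner–Riesz operator. -/
noncomputable def SN (δ : ℝ) (f : 𝓢(V, ℂ)) (N : ℕ) : V → ℂ :=
  ∑ k ∈ Finset.range N, (((2:ℝ) ^ (-(k * δ)) : ℝ) : ℂ) • cv (KR (phd δ) (2 ^ k)) f

theorem one_le_two_pow (k : ℕ) : (1:ℝ) ≤ 2 ^ k := one_le_pow₀ (by norm_num)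

theorem SN_apply (δ : ℝ) (f : 𝓢(V, ℂ)) (N : ℕ) (x : V) :
    SN δ f N x = 𝓕⁻ (fun ξ : V => ((∑ k ∈ Finset.range N, (2:ℝ) ^ (-(k * δ)) *
      phd δ (2 ^ k * (1 - ‖ξ‖ ^ 2)) : ℝ) : ℂ) * 𝓕 (f : V → ℂ) ξ) x := by
  unfold SN
  rw [Finset.sum_apply]
  set P : ℕ → 𝓢(V, ℂ) := fun k => (((2:ℝ) ^ (-(k * δ)) : ℝ) : ℂ) •
    SchwartzMap.pairing (ContinuousLinearMap.mul ℂ ℂ)
      (mS (contDiff_phd δ) (hasCompactSupport_phd δ) (one_le_two_pow k)) (𝓕 f) with hP
  have h1 : ∀ k ∈ Finset.range N,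
      ((((2:ℝ) ^ (-(k * δ)) : ℝ) : ℂ) • cv (KR (phd δ) (2 ^ k)) f) x = (𝓕⁻ (P k)) x := by
    intro k _
    rw [hP, FourierTransform.fourierInv_smul, smul_apply, Pi.smul_apply,
      cv_schwartz (contDiff_phd δ) (hasCompactSupport_phd δ) (one_le_two_pow k),
      SchwartzMap.fourierInv_coe]
    rfl
  rw [Finset.sum_congr rfl h1, ← sum_apply, ← FourierTransform.fourierInv_sum,
    SchwartzMap.fourierInv_coe]
  refine congrArg (fun g : V → ℂ => 𝓕⁻ g x) ?_
  funext ξ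
  rw [sum_apply]
  push_cast
  rw [Finset.sum_mul]
  refine Finset.sum_congr rfl fun k _ => ?_
  rw [hP, smul_apply]
  show ((((2:ℝ) ^ (-(k * δ)) : ℝ) : ℂ)) • (mR (phd δ) (2 ^ k) ξ * 𝓕 (f : V → ℂ) ξ) = _
  unfold mR
  rw [smul_eq_mul]
  ring

/-- pointwise convergence of the partial sums. -/
theorem tendsto_SN {δ : ℝ} (hδ : 0 < δ) (f : 𝓢(V, ℂ)) (x : V) :
    Tendsto (fun N => SN δ f N x) atTop
      (𝓝 (𝓕⁻ (fun ξ : V => ((max (1 - ‖ξ‖ ^ 2) 0) ^ δ : ℝ) • 𝓕 (f : V → ℂ) ξ) x)) := by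
  simp_rw [SN_apply]
  simp_rw [Real.fourierInv_eq]
  refine tendsto_integral_of_dominated_convergence (fun ξ => ‖𝓕 (f : V → ℂ) ξ‖) ?_ ?_ ?_ ?_
  · intro N
    apply Continuous.aestronglyMeasurable
    have h1 : Continuous fun ξ : V => 𝓕 (f : V → ℂ) ξ := by
      have := (𝓕 f).continuous
      exact this
    have h2 : Continuous fun ξ : V => (𝐞 (inner ℝ ξ x) : ℂ) := by
      have := Real.continuous_fourierChar
      fun_prop
    have h3 : Continuous fun ξ : V => ((∑ k ∈ Finset.range N, (2:ℝ) ^ (-(k * δ)) *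
        phd δ (2 ^ k * (1 - ‖ξ‖ ^ 2)) : ℝ) : ℂ) := by
      have := (contDiff_phd δ).continuous
      fun_prop
    exact h2.mul (h3.mul h1)
  · exact (𝓕 f).integrable.norm
  · intro N
    refine Filter.Eventually.of_forall fun ξ => ?_
    rw [Circle.norm_smul, norm_mul, Complex.norm_real, Real.norm_eq_abs]
    have := sum_phd_bound hδ (t := 1 - ‖ξ‖ ^ 2) (by nlinarith [sq_nonneg ‖ξ‖]) N
    calc _ ≤ 1 * ‖𝓕 (f : V → ℂ) ξ‖ := by gcongr
      _ = _ := one_mul _
  · refine Filter.Eventually.of_forall fun ξ => ?_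
    have h1 := tendsto_sum_phd hδ (t := 1 - ‖ξ‖ ^ 2) (by nlinarith [sq_nonneg ‖ξ‖])
    have h2 : Tendsto (fun N : ℕ => ((∑ k ∈ Finset.range N, (2:ℝ) ^ (-(k * δ)) *
        phd δ (2 ^ k * (1 - ‖ξ‖ ^ 2)) : ℝ) : ℂ)) atTop
        (𝓝 ((((max (1 - ‖ξ‖ ^ 2) 0) ^ δ : ℝ)) : ℂ)) :=
      (Complex.continuous_ofReal.tendsto _).comp h1
    have h3 := (h2.mul_const (𝓕 (f : V → ℂ) ξ)).const_smul (𝐞 (inner ℝ ξ x))
    rw [Complex.real_smul]
    exact h3

/-- norm bound of the partial sums. -/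
theorem SN_bound {δ : ℝ} {p : ℝ≥0∞} (hp : 1 ≤ p) (hδ : αp p < δ) (hS : Single (phd δ) p) :
    ∃ C : ℝ, 0 ≤ C ∧ ∀ (f : 𝓢(V, ℂ)) (N : ℕ),
      eLpNorm (SN δ f N) p volume ≤ ENNReal.ofReal C * eLpNorm f p volume := by
  set θ := (δ - αp p) / 2 with hθ
  have hθ0 : 0 < θ := by rw [hθ]; linarith
  obtain ⟨C, hC, hSC⟩ := hS θ hθ0
  have hr1 : (2:ℝ) ^ (-θ) < 1 := Real.rpow_lt_one_of_one_lt_of_neg (by norm_num) (by linarith)
  have hr0 : 0 < (2:ℝ) ^ (-θ) := by positivity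
  refine ⟨C * (1 - 2 ^ (-θ))⁻¹, mul_nonneg hC.le (inv_nonneg.mpr (by linarith)), fun f N => ?_⟩
  have hm : ∀ k : ℕ, AEStronglyMeasurable
      ((((2:ℝ) ^ (-(k * δ)) : ℝ) : ℂ) • cv (KR (phd δ) (2 ^ k)) f) volume := by
    intro k
    have hKm : Measurable (KR (phd δ) (2 ^ k)) :=
      (continuous_KR (contDiff_phd δ) (hasCompactSupport_phd δ) (one_le_two_pow k)).measurable
    exact ((measurable_cv hKm f.continuous.measurable).const_smul _).aestronglyMeasurable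
  have h1 : ∀ k : ℕ, eLpNorm ((((2:ℝ) ^ (-(k * δ)) : ℝ) : ℂ) • cv (KR (phd δ) (2 ^ k)) f) p volume
      ≤ ENNReal.ofReal (C * ((2:ℝ) ^ (-θ)) ^ k) * eLpNorm f p volume := by
    intro k
    rw [eLpNorm_const_smul]
    have h2 := hSC (2 ^ k) (one_le_two_pow k) f
    have h3 : ‖(((2:ℝ) ^ (-(k * δ)) : ℝ) : ℂ)‖ₑ = ENNReal.ofReal ((2:ℝ) ^ (-(k * δ))) := by
      rw [← ofReal_norm, Complex.norm_real, Real.norm_of_nonneg (by positivity)]
    rw [h3]
    calc ENNReal.ofReal ((2:ℝ) ^ (-(k * δ))) * eLpNorm (cv (KR (phd δ) (2 ^ k)) f) p volume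
        ≤ ENNReal.ofReal ((2:ℝ) ^ (-(k * δ))) *
          (ENNReal.ofReal (C * ((2:ℝ) ^ k) ^ (αp p + θ)) * eLpNorm f p volume) := by gcongr
      _ = _ := by
          rw [← mul_assoc, ← ENNReal.ofReal_mul (by positivity)]
          congr 2
          have e1 : ((2:ℝ) ^ k) ^ (αp p + θ) = (2:ℝ) ^ (k * (αp p + θ)) := by
            rw [← Real.rpow_natCast, ← Real.rpow_mul (by norm_num)]
          have e2 : ((2:ℝ) ^ (-θ)) ^ k = (2:ℝ) ^ (-θ * k) := by
            rw [← Real.rpow_natCast, ← Real.rpow_mul (by norm_num)]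
          have e3 : (2:ℝ) ^ (-(k * δ)) * (2:ℝ) ^ (k * (αp p + θ)) = (2:ℝ) ^ (-θ * k) := by
            rw [← Real.rpow_add (by norm_num)]
            congr 1
            rw [hθ]; ring
          rw [e1, e2, ← e3]; ring
  calc eLpNorm (SN δ f N) p volume
      ≤ ∑ k ∈ Finset.range N,
          eLpNorm ((((2:ℝ) ^ (-(k * δ)) : ℝ) : ℂ) • cv (KR (phd δ) (2 ^ k)) f) p volume :=
        eLpNorm_sum_le (fun k _ => hm k) hp
    _ ≤ ∑ k ∈ Finset.range N, ENNReal.ofReal (C * ((2:ℝ) ^ (-θ)) ^ k) * eLpNorm f p volume :=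
        Finset.sum_le_sum fun k _ => h1 k
    _ = ENNReal.ofReal (C * ∑ k ∈ Finset.range N, ((2:ℝ) ^ (-θ)) ^ k) * eLpNorm f p volume := by
        rw [← Finset.sum_mul, ← ENNReal.ofReal_sum_of_nonneg (fun i _ => by positivity),
          Finset.mul_sum]
    _ ≤ _ := by
        gcongr
        rw [geom_sum_eq hr1.ne, ← neg_sub, ← neg_sub (1:ℝ), neg_div_neg_eq, div_eq_mul_inv]
        have h4 : (1 - ((2:ℝ) ^ (-θ)) ^ N) ≤ 1 := by
          have := pow_pos hr0 N
          linarith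
        have h5 : 0 < (1 - (2:ℝ) ^ (-θ))⁻¹ := inv_pos.mpr (by linarith)
        nlinarith

/-- the outer shell: `(C3)` implies the Bochner–Riesz bound `S0189`. -/
theorem S0189_of_C3 (h3 : C3) (p : ℝ≥0∞) (hp : 1 ≤ p)
    (δ : ℝ) (hδ : max (3 * abs ((p⁻¹).toReal - 1 / 2) - 1 / 2) 0 < δ) :
    ∃ C : ℝ, ∀ f : SchwartzMap (EuclideanSpace ℝ (Fin 3)) ℂ,
      MeasureTheory.eLpNorm
          (𝓕⁻ (fun ξ : EuclideanSpace ℝ (Fin 3) => ((max (1 - ‖ξ‖ ^ 2) 0) ^ δ : ℝ) • 𝓕 (⇑f) ξ)) p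
          MeasureTheory.volume ≤
        ENNReal.ofReal C * MeasureTheory.eLpNorm (⇑f) p MeasureTheory.volume := by
  have hδ0 : 0 < δ := lt_of_le_of_lt (le_max_right _ _) hδ
  have hS := single_all h3 (contDiff_phd δ) (hasCompactSupport_phd δ) hp
  obtain ⟨C, hC0, hC⟩ := SN_bound hp hδ hS
  refine ⟨C, fun f => ?_⟩
  have hm : ∀ N, AEStronglyMeasurable (SN δ f N) volume := by
    intro N
    unfold SN
    apply Finset.aestronglyMeasurable_sum
    intro k _
    have hKm : Measurable (KR (phd δ) (2 ^ k)) :=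
      (continuous_KR (contDiff_phd δ) (hasCompactSupport_phd δ) (one_le_two_pow k)).measurable
    exact ((measurable_cv hKm f.continuous.measurable).const_smul _).aestronglyMeasurable
  have h1 := Lp.eLpNorm_lim_le_liminf_eLpNorm (μ := (volume : Measure V)) (p := p)
    (f := fun N => SN δ f N) hm _ (Filter.Eventually.of_forall (tendsto_SN hδ0 f))
  refine h1.trans ?_
  calc liminf (fun N => eLpNorm (SN δ f N) p volume) atTop
      ≤ liminf (fun _ : ℕ => ENNReal.ofReal C * eLpNorm f p volume) atTop :=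
        liminf_le_liminf (Filter.Eventually.of_forall fun N => hC f N)
    _ = _ := by rw [liminf_const]

end Crest.Agent.R138.Sh200
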