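import Mathlib

-- ▼ part R138/MK1_877
section

/-!
# Trilinear Kakeya in R^3, part 1 (helper877)

Discrete Loomis–Whitney and the near-axis induction on scales (Guth).
-/

set_option autoImplicit false

namespace Crest.Agent.R138.MK877

open Finset

/-- Discrete Loomis–Whitney inequality. -/
lemma lw {α β γ : Type*} (s : Finset α) (t : Finset β) (u : Finset γ)
    (f : β → γ → ℝ) (g : α → γ → ℝ) (h : α → β → ℝ)
    (hf : ∀ b c, 0 ≤ f b c) (hg : ∀ a c, 0 ≤ g a c) (hh : ∀ a b, 0 ≤ h a b) :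
    ∑ a ∈ s, ∑ b ∈ t, ∑ c ∈ u, √(f b c) * √(g a c) * √(h a b) ≤
      √(∑ b ∈ t, ∑ c ∈ u, f b c) * √(∑ a ∈ s, ∑ c ∈ u, g a c) * √(∑ a ∈ s, ∑ b ∈ t, h a b) := by
  have e1 : ∑ a ∈ s, ∑ b ∈ t, ∑ c ∈ u, √(f b c) * √(g a c) * √(h a b) =
      ∑ b ∈ t, ∑ c ∈ u, √(f b c) * ∑ a ∈ s, √(g a c) * √(h a b) := by
    rw [Finset.sum_comm]
    refine Finset.sum_congr rfl fun b _ => ?_
    rw [Finset.sum_comm]
    refine Finset.sum_congr rfl fun c _ => ?_
    rw [Finset.mul_sum]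
    refine Finset.sum_congr rfl fun a _ => ?_
    ring
  rw [e1]
  have e2 : ∀ b c, ∑ a ∈ s, √(g a c) * √(h a b) ≤
      √(∑ a ∈ s, g a c) * √(∑ a ∈ s, h a b) := fun b c =>
    Real.sum_sqrt_mul_sqrt_le s (fun a => hg a c) (fun a => hh a b)
  have e3 : ∑ b ∈ t, ∑ c ∈ u, √(f b c) * ∑ a ∈ s, √(g a c) * √(h a b) ≤
      ∑ p ∈ t ×ˢ u, √(f p.1 p.2) * √((∑ a ∈ s, g a p.2) * (∑ a ∈ s, h a p.1)) := by
    rw [Finset.sum_product]
    refine Finset.sum_le_sum fun b _ => Finset.sum_le_sum fun c _ => ?_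
    refine mul_le_mul_of_nonneg_left ?_ (Real.sqrt_nonneg _)
    rw [Real.sqrt_mul (Finset.sum_nonneg fun a _ => hg a c)]
    exact e2 b c
  refine e3.trans ?_
  refine (Real.sum_sqrt_mul_sqrt_le (t ×ˢ u) (f := fun p => f p.1 p.2)
    (g := fun p => (∑ a ∈ s, g a p.2) * (∑ a ∈ s, h a p.1)) (fun p => hf p.1 p.2)
    (fun p => mul_nonneg (Finset.sum_nonneg fun a _ => hg a _)
      (Finset.sum_nonneg fun a _ => hh a _))).trans ?_
  have e4 : ∑ p ∈ t ×ˢ u, (∑ a ∈ s, g a p.2) * (∑ a ∈ s, h a p.1) =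
      (∑ a ∈ s, ∑ c ∈ u, g a c) * (∑ a ∈ s, ∑ b ∈ t, h a b) := by
    rw [Finset.sum_product, Finset.sum_comm (s := s) (t := u), Finset.sum_comm (s := s) (t := t),
      Finset.sum_mul_sum, Finset.sum_comm]
  rw [e4, Finset.sum_product, Real.sqrt_mul (Finset.sum_nonneg fun a _ =>
    Finset.sum_nonneg fun c _ => hg a c), mul_assoc]

/-- the line `p + ℝ e` passes at sup-distance `≤ r` from `x`. -/
def Near (x p e : Fin 3 → ℝ) (r : ℝ) : Prop := ∃ s : ℝ, ∀ i, |x i - p i - s * e i| ≤ r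

lemma Near.mono {x p e : Fin 3 → ℝ} {r r' : ℝ} (h : Near x p e r) (hr : r ≤ r') :
    Near x p e r' := by
  obtain ⟨s, hs⟩ := h
  exact ⟨s, fun i => (hs i).trans hr⟩

lemma Near.shift {x y p e : Fin 3 → ℝ} {r d : ℝ} (h : Near x p e r) (hd : ∀ i, |y i - x i| ≤ d) :
    Near y p e (r + d) := by
  obtain ⟨s, hs⟩ := h
  refine ⟨s, fun i => ?_⟩
  have : y i - p i - s * e i = (x i - p i - s * e i) + (y i - x i) := by ring
  rw [this]
  exact (abs_add_le _ _).trans (add_le_add (hs i) (hd i))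

/-- integer points as real vectors, scaled by `σ` -/
def pt (σ : ℝ) (k : Fin 3 → ℤ) : Fin 3 → ℝ := fun i => σ * (k i : ℝ)

/-- the parent relation -/
lemma near_parent {σ : ℝ} (hσ : 0 ≤ σ) {N : ℕ} {K : Fin 3 → ℤ} {a : Fin 3 → ℤ}
    (ha0 : ∀ i, 0 ≤ a i) (haN : ∀ i, a i < N) {p e : Fin 3 → ℝ}
    (h : Near (pt σ (fun i => N * K i + a i)) p e σ) :
    Near (pt (σ * N) K) p e (σ * N) := by
  have h1 : Near (pt (σ * N) K) p e (σ + σ * (N - 1)) := by
    refine h.shift fun i => ?_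
    simp only [pt]
    push_cast
    have : σ * N * (K i : ℝ) - σ * (N * K i + a i) = -(σ * a i) := by ring
    rw [this, abs_neg, abs_mul, abs_of_nonneg hσ]
    refine mul_le_mul_of_nonneg_left ?_ hσ
    have h0 : (0 : ℝ) ≤ a i := by exact_mod_cast ha0 i
    have h2 : (a i : ℝ) + 1 ≤ N := by exact_mod_cast haN i
    rw [abs_of_nonneg h0]
    linarith
  refine h1.mono (le_of_eq ?_)
  ring

/-- near-axis line in direction `j` -/
structure Axial (N : ℕ) (j : Fin 3) (e : Fin 3 → ℝ) : Prop where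
  one : e j = 1
  small : ∀ i, i ≠ j → |e i| ≤ 1 / (N : ℝ)

lemma column {σ : ℝ} (hσ : 0 < σ) {N : ℕ} (hN : 1 ≤ N) {j : Fin 3} {e : Fin 3 → ℝ}
    (he : Axial N j e) {p : Fin 3 → ℝ} {k k' : Fin 3 → ℤ}
    (hk : Near (pt σ k) p e σ) (hk' : Near (pt σ k') p e σ) (hj : |k j - k' j| ≤ N)
    (i : Fin 3) (hi : i ≠ j) : |k i - k' i| ≤ 5 := by
  obtain ⟨s, hs⟩ := hk
  obtain ⟨s', hs'⟩ := hk'
  have hN' : (1 : ℝ) ≤ N := by exact_mod_cast hN
  have hjR : |(k j : ℝ) - k' j| ≤ N := by exact_mod_cast hj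
  have h1 := hs j
  have h2 := hs' j
  rw [he.one] at h1 h2
  simp only [pt] at h1 h2
  have h3 : |s - s'| ≤ σ * (N + 2) := by
    have : s - s' = -(σ * k j - p j - s * 1) + (σ * k' j - p j - s' * 1) + σ * (k j - k' j) := by
      ring
    rw [this]
    refine (abs_add_le _ _).trans ?_
    have h4 := abs_add_le (-(σ * (k j : ℝ) - p j - s * 1)) (σ * (k' j : ℝ) - p j - s' * 1)
    rw [abs_neg] at h4
    have h5 : |σ * ((k j : ℝ) - k' j)| ≤ σ * N := by
      rw [abs_mul, abs_of_pos hσ]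
      exact mul_le_mul_of_nonneg_left hjR hσ.le
    nlinarith
  have g1 := hs i
  have g2 := hs' i
  simp only [pt] at g1 g2
  have h6 : |σ * ((k i : ℝ) - k' i)| ≤ σ * 5 := by
    have : σ * ((k i : ℝ) - k' i) = (σ * k i - p i - s * e i) - (σ * k' i - p i - s' * e i)
        + (s - s') * e i := by ring
    rw [this]
    refine (abs_add_le _ _).trans ?_
    have h7 := abs_sub (σ * (k i : ℝ) - p i - s * e i) (σ * k' i - p i - s' * e i)
    have h8 : |(s - s') * e i| ≤ σ * 3 := by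
      rw [abs_mul]
      calc |s - s'| * |e i| ≤ (σ * (N + 2)) * (1 / (N : ℝ)) :=
            mul_le_mul h3 (he.small i hi) (abs_nonneg _) (by positivity)
        _ ≤ σ * 3 := by
            rw [mul_assoc]
            refine mul_le_mul_of_nonneg_left ?_ hσ.le
            rw [mul_one_div, div_le_iff₀ (by linarith)]
            linarith
    linarith
  rw [abs_mul, abs_of_pos hσ] at h6
  have h9 := le_of_mul_le_mul_left h6 hσ
  exact_mod_cast h9

lemma card_close {N : ℕ} (P : ℕ → ℕ → Prop) [DecidablePred fun q : ℕ × ℕ => P q.1 q.2]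
    (h : ∀ b c b' c', b < N → c < N → b' < N → c' < N → P b c → P b' c' →
      |(b : ℤ) - b'| ≤ 5 ∧ |(c : ℤ) - c'| ≤ 5) :
    (((range N ×ˢ range N).filter fun q : ℕ × ℕ => P q.1 q.2).card : ℝ) ≤ 121 := by
  classical
  by_cases hne : ((range N ×ˢ range N).filter fun q : ℕ × ℕ => P q.1 q.2).Nonempty
  · obtain ⟨⟨b0, c0⟩, h0⟩ := hne
    simp only [mem_filter, mem_product, mem_range] at h0
    have hsub : ((range N ×ˢ range N).filter fun q : ℕ × ℕ => P q.1 q.2) ⊆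
        (Finset.Icc (b0 - 5) (b0 + 5)) ×ˢ (Finset.Icc (c0 - 5) (c0 + 5)) := by
      intro q hq
      simp only [mem_filter, mem_product, mem_range] at hq
      have := h q.1 q.2 b0 c0 hq.1.1 hq.1.2 h0.1.1 h0.1.2 hq.2 h0.2
      simp only [mem_product, mem_Icc]
      obtain ⟨h1, h2⟩ := this
      rw [abs_le] at h1 h2
      omega
    have := Finset.card_le_card hsub
    rw [Finset.card_product, Nat.card_Icc, Nat.card_Icc] at this
    have h3 : b0 + 5 + 1 - (b0 - 5) ≤ 11 := by omega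
    have h4 : c0 + 5 + 1 - (c0 - 5) ≤ 11 := by omega
    have h5 : ((range N ×ˢ range N).filter fun q : ℕ × ℕ => P q.1 q.2).card ≤ 11 * 11 :=
      this.trans (Nat.mul_le_mul h3 h4)
    calc (((range N ×ˢ range N).filter fun q : ℕ × ℕ => P q.1 q.2).card : ℝ)
        ≤ ((11 * 11 : ℕ) : ℝ) := by exact_mod_cast h5
      _ = 121 := by norm_num
  · rw [Finset.not_nonempty_iff_eq_empty] at hne
    rw [hne]
    norm_num

open Classical in
/-- total weight of the lines passing near the cube `k` at scale `σ` -/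
noncomputable def W {ι : Type*} (s : Finset ι) (p e : ι → Fin 3 → ℝ) (w : ι → ℝ) (σ : ℝ)
    (k : Fin 3 → ℤ) : ℝ :=
  ∑ l ∈ s, if Near (pt σ k) (p l) (e l) σ then w l else 0


lemma W_le {ι : Type*} (s : Finset ι) (p e : ι → Fin 3 → ℝ) (w : ι → ℝ) (hw : ∀ l ∈ s, 0 ≤ w l)
    (σ : ℝ) (k : Fin 3 → ℤ) : W s p e w σ k ≤ ∑ l ∈ s, w l := by
  classical
  refine Finset.sum_le_sum fun l hl => ?_
  split_ifs
  · exact le_rfl
  · exact hw l hl

/-- the child cube -/
def ch (N : ℕ) (K : Fin 3 → ℤ) (a b c : ℕ) : Fin 3 → ℤ :=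
  fun i => N * K i + (![(a : ℤ), b, c] i)

open Classical in
/-- abstract column count -/
lemma col_sum {ι : Type*} (s : Finset ι) (w : ι → ℝ) (hw : ∀ l ∈ s, 0 ≤ w l) (N : ℕ)
    (Q : ι → ℕ → ℕ → ℕ → Prop) (R : ι → Prop)
    (hR : ∀ l ∈ s, ∀ a b c, a < N → b < N → c < N → Q l a b c → R l)
    (hcol : ∀ l ∈ s, ∀ a b c a' b' c', a < N → b < N → c < N → a' < N → b' < N → c' < N →
      Q l a b c → Q l a' b' c' → |(b : ℤ) - b'| ≤ 5 ∧ |(c : ℤ) - c'| ≤ 5) :
    ∑ b ∈ range N, ∑ c ∈ range N, ∑ l ∈ s, (if ∃ a < N, Q l a b c then w l else 0) ≤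
      121 * ∑ l ∈ s, (if R l then w l else 0) := by
  have e1 : ∑ b ∈ range N, ∑ c ∈ range N, ∑ l ∈ s, (if ∃ a < N, Q l a b c then w l else 0) =
      ∑ l ∈ s, w l * (((range N ×ˢ range N).filter fun q : ℕ × ℕ =>
        ∃ a < N, Q l a q.1 q.2).card : ℝ) := by
    rw [← Finset.sum_product', Finset.sum_comm]
    refine Finset.sum_congr rfl fun l _ => ?_
    rw [Finset.card_filter]
    push_cast
    rw [Finset.mul_sum]
    refine Finset.sum_congr rfl fun q _ => ?_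
    split_ifs <;> simp
  rw [e1, Finset.mul_sum]
  refine Finset.sum_le_sum fun l hl => ?_
  by_cases hRl : R l
  · rw [if_pos hRl, mul_comm]
    refine mul_le_mul_of_nonneg_right ?_ (hw l hl)
    refine card_close (fun b c => ∃ a < N, Q l a b c) ?_
    rintro b c b' c' hb hc hb' hc' ⟨a, ha, h1⟩ ⟨a', ha', h2⟩
    exact hcol l hl a b c a' b' c' ha hb hc ha' hb' hc' h1 h2
  · rw [if_neg hRl]
    have : ((range N ×ˢ range N).filter fun q : ℕ × ℕ => ∃ a < N, Q l a q.1 q.2) = ∅ := by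
      rw [Finset.filter_eq_empty_iff]
      rintro ⟨b, c⟩ hq ⟨a, ha, h1⟩
      simp only [mem_product, mem_range] at hq
      exact hRl (hR l hl a b c ha hq.1 hq.2 h1)
    rw [this]
    simp

open Classical in
/-- **local step** -/
lemma local_step {ι : Type*} (s : Fin 3 → Finset ι) (p e : ι → Fin 3 → ℝ) (w : ι → ℝ)
    (hw : ∀ j, ∀ l ∈ s j, 0 ≤ w l) {N : ℕ} (hN : 1 ≤ N)
    (hax : ∀ j, ∀ l ∈ s j, Axial N j (e l)) {σ : ℝ} (hσ : 0 < σ) (K : Fin 3 → ℤ) :
    ∑ a ∈ range N, ∑ b ∈ range N, ∑ c ∈ range N,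
      √(W (s 0) p e w σ (ch N K a b c)) * √(W (s 1) p e w σ (ch N K a b c)) *
        √(W (s 2) p e w σ (ch N K a b c)) ≤
      1331 * (√(W (s 0) p e w (σ * N) K) * √(W (s 1) p e w (σ * N) K) *
        √(W (s 2) p e w (σ * N) K)) := by
  -- child nearness predicate
  set Q : ι → ℕ → ℕ → ℕ → Prop := fun l a b c => Near (pt σ (ch N K a b c)) (p l) (e l) σ with hQ
  set R : ι → Prop := fun l => Near (pt (σ * N) K) (p l) (e l) (σ * N) with hRdef
  have hR : ∀ l a b c, a < N → b < N → c < N → Q l a b c → R l := by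
    intro l a b c ha hb hc h
    refine near_parent hσ.le (a := ![(a : ℤ), b, c]) ?_ ?_ h
    · intro i; fin_cases i <;> simp
    · intro i; fin_cases i <;> simp [ha, hb, hc]
  have hclose : ∀ j, ∀ l ∈ s j, ∀ a b c a' b' c', a < N → b < N → c < N → a' < N → b' < N →
      c' < N → Q l a b c → Q l a' b' c' → ∀ i, i ≠ j →
      |(![(a : ℤ), b, c] i) - (![(a' : ℤ), b', c'] i)| ≤ 5 := by
    intro j l hl a b c a' b' c' ha hb hc ha' hb' hc' h1 h2 i hi
    have h3 := column hσ hN (hax j l hl) h1 h2 ?_ i hi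
    · have : (ch N K a b c i) - (ch N K a' b' c' i) =
        (![(a : ℤ), b, c] i) - (![(a' : ℤ), b', c'] i) := by simp [ch]
      rwa [this] at h3
    · have : (ch N K a b c j) - (ch N K a' b' c' j) =
        (![(a : ℤ), b, c] j) - (![(a' : ℤ), b', c'] j) := by simp [ch]
      rw [this, abs_le]
      fin_cases j <;> simp <;> omega
  -- the three column functions
  set g0 : ℕ → ℕ → ℝ := fun b c => ∑ l ∈ s 0, (if ∃ a < N, Q l a b c then w l else 0) with hg0
  set g1 : ℕ → ℕ → ℝ := fun a c => ∑ l ∈ s 1, (if ∃ b < N, Q l a b c then w l else 0) with hg1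
  set g2 : ℕ → ℕ → ℝ := fun a b => ∑ l ∈ s 2, (if ∃ c < N, Q l a b c then w l else 0) with hg2
  have n0 : ∀ b c, 0 ≤ g0 b c := fun b c => Finset.sum_nonneg fun l hl => by
    split_ifs; exacts [hw 0 l hl, le_rfl]
  have n1 : ∀ b c, 0 ≤ g1 b c := fun b c => Finset.sum_nonneg fun l hl => by
    split_ifs; exacts [hw 1 l hl, le_rfl]
  have n2 : ∀ b c, 0 ≤ g2 b c := fun b c => Finset.sum_nonneg fun l hl => by
    split_ifs; exacts [hw 2 l hl, le_rfl]
  have b0 : ∀ a b c, a < N → W (s 0) p e w σ (ch N K a b c) ≤ g0 b c := by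
    intro a b c ha
    refine Finset.sum_le_sum fun l hl => ?_
    by_cases h : Q l a b c
    · rw [if_pos h, if_pos ⟨a, ha, h⟩]
    · rw [if_neg h]
      split_ifs; exacts [hw 0 l hl, le_rfl]
  have b1 : ∀ a b c, b < N → W (s 1) p e w σ (ch N K a b c) ≤ g1 a c := by
    intro a b c ha
    refine Finset.sum_le_sum fun l hl => ?_
    by_cases h : Q l a b c
    · rw [if_pos h, if_pos ⟨b, ha, h⟩]
    · rw [if_neg h]
      split_ifs; exacts [hw 1 l hl, le_rfl]
  have b2 : ∀ a b c, c < N → W (s 2) p e w σ (ch N K a b c) ≤ g2 a b := by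
    intro a b c ha
    refine Finset.sum_le_sum fun l hl => ?_
    by_cases h : Q l a b c
    · rw [if_pos h, if_pos ⟨c, ha, h⟩]
    · rw [if_neg h]
      split_ifs; exacts [hw 2 l hl, le_rfl]
  have t0 : ∑ b ∈ range N, ∑ c ∈ range N, g0 b c ≤ 121 * W (s 0) p e w (σ * N) K := by
    refine col_sum (s 0) w (hw 0) N (fun l a b c => Q l a b c) R
      (fun l _ a b c ha hb hc h => hR l a b c ha hb hc h) ?_
    intro l hl a b c a' b' c' ha hb hc ha' hb' hc' h1 h2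
    exact ⟨by simpa using hclose 0 l hl a b c a' b' c' ha hb hc ha' hb' hc' h1 h2 1 (by decide),
      by simpa using hclose 0 l hl a b c a' b' c' ha hb hc ha' hb' hc' h1 h2 2 (by decide)⟩
  have t1 : ∑ a ∈ range N, ∑ c ∈ range N, g1 a c ≤ 121 * W (s 1) p e w (σ * N) K := by
    refine col_sum (s 1) w (hw 1) N (fun l b a c => Q l a b c) R
      (fun l _ b a c hb ha hc h => hR l a b c ha hb hc h) ?_
    intro l hl b a c b' a' c' hb ha hc hb' ha' hc' h1 h2
    exact ⟨by simpa using hclose 1 l hl a b c a' b' c' ha hb hc ha' hb' hc' h1 h2 0 (by decide),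
      by simpa using hclose 1 l hl a b c a' b' c' ha hb hc ha' hb' hc' h1 h2 2 (by decide)⟩
  have t2 : ∑ a ∈ range N, ∑ b ∈ range N, g2 a b ≤ 121 * W (s 2) p e w (σ * N) K := by
    refine col_sum (s 2) w (hw 2) N (fun l c a b => Q l a b c) R
      (fun l _ c a b hc ha hb h => hR l a b c ha hb hc h) ?_
    intro l hl c a b c' a' b' hc ha hb hc' ha' hb' h1 h2
    exact ⟨by simpa using hclose 2 l hl a b c a' b' c' ha hb hc ha' hb' hc' h1 h2 0 (by decide),
      by simpa using hclose 2 l hl a b c a' b' c' ha hb hc ha' hb' hc' h1 h2 1 (by decide)⟩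
  calc ∑ a ∈ range N, ∑ b ∈ range N, ∑ c ∈ range N,
      √(W (s 0) p e w σ (ch N K a b c)) * √(W (s 1) p e w σ (ch N K a b c)) *
        √(W (s 2) p e w σ (ch N K a b c))
      ≤ ∑ a ∈ range N, ∑ b ∈ range N, ∑ c ∈ range N, √(g0 b c) * √(g1 a c) * √(g2 a b) := by
        refine Finset.sum_le_sum fun a ha => Finset.sum_le_sum fun b hb =>
          Finset.sum_le_sum fun c hc => ?_
        rw [mem_range] at ha hb hc
        gcongr
        · exact b0 a b c ha
        · exact b1 a b c hb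
        · exact b2 a b c hc
    _ ≤ √(∑ b ∈ range N, ∑ c ∈ range N, g0 b c) * √(∑ a ∈ range N, ∑ c ∈ range N, g1 a c) *
          √(∑ a ∈ range N, ∑ b ∈ range N, g2 a b) := lw _ _ _ g0 g1 g2 n0 n1 n2
    _ ≤ √(121 * W (s 0) p e w (σ * N) K) * √(121 * W (s 1) p e w (σ * N) K) *
          √(121 * W (s 2) p e w (σ * N) K) := by gcongr
    _ = 1331 * (√(W (s 0) p e w (σ * N) K) * √(W (s 1) p e w (σ * N) K) *
        √(W (s 2) p e w (σ * N) K)) := by
        have h121 : √(121 : ℝ) = 11 := by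
          rw [show (121 : ℝ) = 11 ^ 2 by norm_num]
          exact Real.sqrt_sq (by norm_num)
        rw [Real.sqrt_mul (by norm_num), Real.sqrt_mul (by norm_num), Real.sqrt_mul (by norm_num),
          h121]
        ring

end Crest.Agent.R138.MK877
end

-- ▼ part R138/MK2_877
section

/-!
# Trilinear Kakeya in R^3, part 2 (helper877): multi-scale induction and linear change of variables
-/

set_option autoImplicit false

namespace Crest.Agent.R138.MK877

open Finset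

lemma sum_range_mul' (f : ℕ → ℝ) (M N : ℕ) :
    ∑ a ∈ range (M * N), f a = ∑ a1 ∈ range N, ∑ a0 ∈ range M, f (M * a1 + a0) := by
  induction N with
  | zero => simp
  | succ N ih =>
    rw [Nat.mul_succ, Finset.sum_range_add, ih, Finset.sum_range_succ]

/-- **near-axis multilinear Kakeya**, discrete boxes. -/
theorem axial_box {ι : Type*} (s : Fin 3 → Finset ι) (p e : ι → Fin 3 → ℝ) (w : ι → ℝ)
    (hw : ∀ j, ∀ l ∈ s j, 0 ≤ w l) {N : ℕ} (hN : 1 ≤ N)
    (hax : ∀ j, ∀ l ∈ s j, Axial N j (e l)) {σ : ℝ} (hσ : 0 < σ) (m : ℕ) : ∀ K : Fin 3 → ℤ,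
    ∑ a ∈ range (N ^ m), ∑ b ∈ range (N ^ m), ∑ c ∈ range (N ^ m),
      √(W (s 0) p e w σ (ch (N ^ m) K a b c)) * √(W (s 1) p e w σ (ch (N ^ m) K a b c)) *
        √(W (s 2) p e w σ (ch (N ^ m) K a b c)) ≤
      1331 ^ m * (√(W (s 0) p e w (σ * N ^ m) K) * √(W (s 1) p e w (σ * N ^ m) K) *
        √(W (s 2) p e w (σ * N ^ m) K)) := by
  induction m with
  | zero =>
    intro K
    have : ch (N ^ 0) K 0 0 0 = K := by
      funext i
      simp only [ch]
      fin_cases i <;> simp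
    simp only [pow_zero, Finset.range_one, Finset.sum_singleton, mul_one, one_mul]
    simp only [pow_zero] at this
    rw [this]
  | succ m ih =>
    intro K
    set F : (Fin 3 → ℤ) → ℝ := fun k => √(W (s 0) p e w σ k) * √(W (s 1) p e w σ k) *
        √(W (s 2) p e w σ k) with hF
    have hch : ∀ a1 b1 c1 a0 b0 c0 : ℕ, ch (N ^ (m + 1)) K (N ^ m * a1 + a0) (N ^ m * b1 + b0)
        (N ^ m * c1 + c0) = ch (N ^ m) (ch N K a1 b1 c1) a0 b0 c0 := by
      intro a1 b1 c1 a0 b0 c0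
      funext i
      simp only [ch]
      fin_cases i <;> simp <;> ring
    have e1 : ∑ a ∈ range (N ^ (m + 1)), ∑ b ∈ range (N ^ (m + 1)), ∑ c ∈ range (N ^ (m + 1)),
        F (ch (N ^ (m + 1)) K a b c) =
        ∑ a1 ∈ range N, ∑ b1 ∈ range N, ∑ c1 ∈ range N,
          ∑ a0 ∈ range (N ^ m), ∑ b0 ∈ range (N ^ m), ∑ c0 ∈ range (N ^ m),
            F (ch (N ^ m) (ch N K a1 b1 c1) a0 b0 c0) := by
      have hp : range (N ^ (m + 1)) = range (N ^ m * N) := by rw [pow_succ]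
      rw [hp, sum_range_mul' (fun a => ∑ b ∈ range (N ^ m * N), ∑ c ∈ range (N ^ m * N),
        F (ch (N ^ (m + 1)) K a b c))]
      refine Finset.sum_congr rfl fun a1 _ => ?_
      have e2 : ∀ a0, ∑ b ∈ range (N ^ m * N), ∑ c ∈ range (N ^ m * N),
          F (ch (N ^ (m + 1)) K (N ^ m * a1 + a0) b c) =
          ∑ b1 ∈ range N, ∑ c1 ∈ range N, ∑ b0 ∈ range (N ^ m), ∑ c0 ∈ range (N ^ m),
            F (ch (N ^ m) (ch N K a1 b1 c1) a0 b0 c0) := by
        intro a0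
        rw [sum_range_mul' (fun b => ∑ c ∈ range (N ^ m * N),
          F (ch (N ^ (m + 1)) K (N ^ m * a1 + a0) b c))]
        refine Finset.sum_congr rfl fun b1 _ => ?_
        refine Eq.trans ?_ Finset.sum_comm
        refine Finset.sum_congr rfl fun b0 _ => ?_
        rw [sum_range_mul' (fun c => F (ch (N ^ (m + 1)) K (N ^ m * a1 + a0) (N ^ m * b1 + b0) c))]
        refine Finset.sum_congr rfl fun c1 _ => Finset.sum_congr rfl fun c0 _ => ?_
        rw [hch]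
      rw [Finset.sum_congr rfl fun a0 _ => e2 a0]
      rw [Finset.sum_comm]
      refine Finset.sum_congr rfl fun b1 _ => ?_
      rw [Finset.sum_comm]
    rw [e1]
    calc ∑ a1 ∈ range N, ∑ b1 ∈ range N, ∑ c1 ∈ range N,
          ∑ a0 ∈ range (N ^ m), ∑ b0 ∈ range (N ^ m), ∑ c0 ∈ range (N ^ m),
            F (ch (N ^ m) (ch N K a1 b1 c1) a0 b0 c0)
        ≤ ∑ a1 ∈ range N, ∑ b1 ∈ range N, ∑ c1 ∈ range N,
            1331 ^ m * (√(W (s 0) p e w (σ * N ^ m) (ch N K a1 b1 c1)) *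
              √(W (s 1) p e w (σ * N ^ m) (ch N K a1 b1 c1)) *
              √(W (s 2) p e w (σ * N ^ m) (ch N K a1 b1 c1))) :=
          Finset.sum_le_sum fun a1 _ => Finset.sum_le_sum fun b1 _ =>
            Finset.sum_le_sum fun c1 _ => ih (ch N K a1 b1 c1)
      _ = 1331 ^ m * ∑ a1 ∈ range N, ∑ b1 ∈ range N, ∑ c1 ∈ range N,
            (√(W (s 0) p e w (σ * N ^ m) (ch N K a1 b1 c1)) *
              √(W (s 1) p e w (σ * N ^ m) (ch N K a1 b1 c1)) *
              √(W (s 2) p e w (σ * N ^ m) (ch N K a1 b1 c1))) := by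
          simp only [Finset.mul_sum]
      _ ≤ 1331 ^ m * (1331 * (√(W (s 0) p e w (σ * N ^ m * N) K) *
            √(W (s 1) p e w (σ * N ^ m * N) K) * √(W (s 2) p e w (σ * N ^ m * N) K))) := by
          refine mul_le_mul_of_nonneg_left ?_ (by positivity)
          refine local_step s p e w hw hN hax ?_ K
          have : (0 : ℝ) < N := by exact_mod_cast hN
          positivity
      _ = _ := by
          rw [show σ * (N : ℝ) ^ m * N = σ * N ^ (m + 1) by rw [pow_succ]; ring]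
          ring

/-- crude form: total weights on the right. -/
theorem axial_box' {ι : Type*} (s : Fin 3 → Finset ι) (p e : ι → Fin 3 → ℝ) (w : ι → ℝ)
    (hw : ∀ j, ∀ l ∈ s j, 0 ≤ w l) {N : ℕ} (hN : 1 ≤ N)
    (hax : ∀ j, ∀ l ∈ s j, Axial N j (e l)) {σ : ℝ} (hσ : 0 < σ) (m : ℕ) (K : Fin 3 → ℤ) :
    ∑ a ∈ range (N ^ m), ∑ b ∈ range (N ^ m), ∑ c ∈ range (N ^ m),
      √(W (s 0) p e w σ (ch (N ^ m) K a b c)) * √(W (s 1) p e w σ (ch (N ^ m) K a b c)) *
        √(W (s 2) p e w σ (ch (N ^ m) K a b c)) ≤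
      1331 ^ m * (√(∑ l ∈ s 0, w l) * √(∑ l ∈ s 1, w l) * √(∑ l ∈ s 2, w l)) := by
  refine (axial_box s p e w hw hN hax hσ m K).trans ?_
  gcongr
  · exact W_le _ _ _ _ (hw 0) _ _
  · exact W_le _ _ _ _ (hw 1) _ _
  · exact W_le _ _ _ _ (hw 2) _ _

/-- Sum over a finite set of integer points contained in a translated box. -/
theorem axial_finset {ι : Type*} (s : Fin 3 → Finset ι) (p e : ι → Fin 3 → ℝ) (w : ι → ℝ)
    (hw : ∀ j, ∀ l ∈ s j, 0 ≤ w l) {N : ℕ} (hN : 1 ≤ N)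
    (hax : ∀ j, ∀ l ∈ s j, Axial N j (e l)) {σ : ℝ} (hσ : 0 < σ) (m : ℕ)
    (q0 : ℤ) (X : Finset (Fin 3 → ℤ)) (hX : ∀ k ∈ X, ∀ i, q0 ≤ k i ∧ k i < q0 + (N ^ m : ℕ)) :
    ∑ k ∈ X, √(W (s 0) p e w σ k) * √(W (s 1) p e w σ k) * √(W (s 2) p e w σ k) ≤
      1331 ^ m * (√(∑ l ∈ s 0, w l) * √(∑ l ∈ s 1, w l) * √(∑ l ∈ s 2, w l)) := by
  classical
  -- translate the lines by `-σ q0`
  set p' : ι → Fin 3 → ℝ := fun l i => p l i - σ * q0 with hp'
  have hnear : ∀ k : Fin 3 → ℤ, ∀ l, Near (pt σ (fun i => k i - q0)) (p' l) (e l) σ ↔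
      Near (pt σ k) (p l) (e l) σ := by
    intro k l
    unfold Near
    refine exists_congr fun t => forall_congr' fun i => ?_
    simp only [pt, hp']
    push_cast
    have : σ * ((k i : ℝ) - q0) - (p l i - σ * q0) - t * e l i = σ * k i - p l i - t * e l i := by
      ring
    rw [this]
  have hW : ∀ j, ∀ k : Fin 3 → ℤ, W (s j) p' e w σ (fun i => k i - q0) = W (s j) p e w σ k := by
    intro j k
    unfold W
    refine Finset.sum_congr rfl fun l _ => ?_
    simp only [hnear k l]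
  have hbox := axial_box' s p' e w hw hN hax hσ m (fun _ => 0)
  refine le_trans ?_ hbox
  set F : (Fin 3 → ℤ) → ℝ := fun k => √(W (s 0) p' e w σ k) * √(W (s 1) p' e w σ k) *
        √(W (s 2) p' e w σ k) with hF
  have hFn : ∀ k, 0 ≤ F k := fun k => by positivity
  have e1 : ∑ k ∈ X, √(W (s 0) p e w σ k) * √(W (s 1) p e w σ k) * √(W (s 2) p e w σ k) =
      ∑ k ∈ X, F (fun i => k i - q0) := by
    refine Finset.sum_congr rfl fun k _ => ?_
    simp only [hF, hW]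
  rw [e1]
  -- the triple sum as a sum over the product
  have e2 : ∑ a ∈ range (N ^ m), ∑ b ∈ range (N ^ m), ∑ c ∈ range (N ^ m),
      F (ch (N ^ m) (fun _ => 0) a b c) =
      ∑ q ∈ range (N ^ m) ×ˢ (range (N ^ m) ×ˢ range (N ^ m)),
        F (ch (N ^ m) (fun _ => 0) q.1 q.2.1 q.2.2) := by
    rw [Finset.sum_product]
    refine Finset.sum_congr rfl fun a _ => ?_
    rw [Finset.sum_product]
  change _ ≤ ∑ a ∈ range (N ^ m), ∑ b ∈ range (N ^ m), ∑ c ∈ range (N ^ m),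
      F (ch (N ^ m) (fun _ => 0) a b c)
  rw [e2]
  -- inject X
  have hinj : Set.InjOn (fun k : Fin 3 → ℤ => ((k 0 - q0).toNat, ((k 1 - q0).toNat,
      (k 2 - q0).toNat))) (X : Set (Fin 3 → ℤ)) := by
    intro k hk k' hk' h
    simp only [Prod.mk.injEq] at h
    have a0 := hX k hk; have a1 := hX k' hk'
    funext i
    fin_cases i
    · have := (a0 0).1; have := (a1 0).1; have := h.1; simp only [Fin.zero_eta]; omega
    · have := (a0 1).1; have := (a1 1).1; have := h.2.1; simp only [Fin.mk_one]; omega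
    · have := (a0 2).1; have := (a1 2).1; have := h.2.2; simp only [Fin.reduceFinMk]; omega
  have e3 : ∑ k ∈ X, F (fun i => k i - q0) =
      ∑ q ∈ X.image (fun k : Fin 3 → ℤ => ((k 0 - q0).toNat, ((k 1 - q0).toNat,
      (k 2 - q0).toNat))), F (ch (N ^ m) (fun _ => 0) q.1 q.2.1 q.2.2) := by
    rw [Finset.sum_image hinj]
    refine Finset.sum_congr rfl fun k hk => ?_
    congr 1
    funext i
    have a0 := hX k hk
    have h0 := (a0 0).1; have h1 := (a0 1).1; have h2 := (a0 2).1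
    simp only [ch, mul_zero, zero_add]
    fin_cases i <;> simp <;> omega
  rw [e3]
  refine Finset.sum_le_sum_of_subset_of_nonneg ?_ (fun q _ _ => hFn _)
  intro q hq
  simp only [Finset.mem_image] at hq
  obtain ⟨k, hk, rfl⟩ := hq
  have a0 := hX k hk
  have h0 := (a0 0); have h1 := (a0 1); have h2 := (a0 2)
  simp only [Finset.mem_product, Finset.mem_range]
  refine ⟨?_, ?_, ?_⟩ <;> omega

end Crest.Agent.R138.MK877
end

-- ▼ part R138/MK3_877
section

/-!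
# Trilinear Kakeya in R^3, part 3 (helper877): one triple of caps (linear change of variables)
-/

set_option autoImplicit false

namespace Crest.Agent.R138.MK877

open Finset Matrix

open Classical in
/-- total weight of the lines passing within `r` of the real point `x` -/
noncomputable def Wr {ι : Type*} (s : Finset ι) (p e : ι → Fin 3 → ℝ) (w : ι → ℝ) (r : ℝ)
    (x : Fin 3 → ℝ) : ℝ :=
  ∑ l ∈ s, if Near x (p l) (e l) r then w l else 0

lemma Wr_nonneg {ι : Type*} (s : Finset ι) (p e : ι → Fin 3 → ℝ) (w : ι → ℝ)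
    (hw : ∀ l ∈ s, 0 ≤ w l) (r : ℝ) (x : Fin 3 → ℝ) : 0 ≤ Wr s p e w r x := by
  classical
  refine Finset.sum_nonneg fun l hl => ?_
  split_ifs
  · exact hw l hl
  · exact le_rfl

lemma W_eq_Wr {ι : Type*} (s : Finset ι) (p e : ι → Fin 3 → ℝ) (w : ι → ℝ) (σ : ℝ)
    (k : Fin 3 → ℤ) : W s p e w σ k = Wr s p e w σ (pt σ k) := rfl

lemma Wr_le_of_near {ι : Type*} (s : Finset ι) (p e p' e' : ι → Fin 3 → ℝ) (w : ι → ℝ)
    (hw : ∀ l ∈ s, 0 ≤ w l) (r r' : ℝ) (x x' : Fin 3 → ℝ)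
    (h : ∀ l ∈ s, Near x (p l) (e l) r → Near x' (p' l) (e' l) r') :
    Wr s p e w r x ≤ Wr s p' e' w r' x' := by
  classical
  refine Finset.sum_le_sum fun l hl => ?_
  by_cases h1 : Near x (p l) (e l) r
  · rw [if_pos h1, if_pos (h l hl h1)]
  · rw [if_neg h1]
    split_ifs
    · exact hw l hl
    · exact le_rfl

lemma inv_entry {B : Matrix (Fin 3) (Fin 3) ℝ} {ν : ℝ} (hν : 0 < ν) (hB : ∀ i j, |B i j| ≤ 1)
    (hdet : ν ≤ |B.det|) (i j : Fin 3) : |B⁻¹ i j| ≤ 2 / ν := by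
  have hd : 0 < |B.det| := lt_of_lt_of_le hν hdet
  have h0 : B⁻¹ = (B.det)⁻¹ • B.adjugate := by
    rw [Matrix.inv_def, Ring.inverse_eq_inv']
  have hm : ∀ a b c d : Fin 3, |B a b * B c d| ≤ 1 := fun a b c d => by
    rw [abs_mul]
    exact mul_le_one₀ (hB a b) (abs_nonneg _) (hB c d)
  have key : |B.adjugate i j| ≤ 2 := by
    rw [Matrix.adjugate_fin_three]
    have h1 : ∀ x y : ℝ, |x| ≤ 1 → |y| ≤ 1 → |x - y| ≤ 2 := fun x y hx hy => by
      have := abs_sub x y; linarith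
    have h2 : ∀ x y : ℝ, |x| ≤ 1 → |y| ≤ 1 → |-x + y| ≤ 2 := fun x y hx hy => by
      have := abs_add_le (-x) y; rw [abs_neg] at this; linarith
    fin_cases i <;> fin_cases j <;> simp only [Matrix.of_apply, Matrix.cons_val', Matrix.cons_val_zero,
      Matrix.cons_val_one, Matrix.cons_val, Fin.zero_eta, Fin.mk_one, Fin.reduceFinMk,
      Fin.isValue, Matrix.cons_val_fin_one, Matrix.empty_val'] <;>
      first
        | exact h1 _ _ (hm _ _ _ _) (hm _ _ _ _)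
        | exact h2 _ _ (hm _ _ _ _) (hm _ _ _ _)
  rw [h0, Matrix.smul_apply, smul_eq_mul, abs_mul, abs_inv]
  rw [div_eq_mul_inv, mul_comm]
  refine mul_le_mul key ?_ (by positivity) (by norm_num)
  exact inv_anti₀ hν hdet

lemma mulVec_bound {A : Matrix (Fin 3) (Fin 3) ℝ} {a : ℝ} (hA : ∀ i j, |A i j| ≤ a)
    {v : Fin 3 → ℝ} {d : ℝ} (hv : ∀ i, |v i| ≤ d) (i : Fin 3) : |(A *ᵥ v) i| ≤ 3 * a * d := by
  have hd : 0 ≤ d := (abs_nonneg _).trans (hv 0)
  have ha : 0 ≤ a := (abs_nonneg _).trans (hA 0 0)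
  simp only [Matrix.mulVec, dotProduct, Fin.sum_univ_three]
  have h : ∀ j, |A i j * v j| ≤ a * d := fun j => by
    rw [abs_mul]; exact mul_le_mul (hA i j) (hv j) (abs_nonneg _) ha
  have h1 := abs_add_le (A i 0 * v 0 + A i 1 * v 1) (A i 2 * v 2)
  have h2 := abs_add_le (A i 0 * v 0) (A i 1 * v 1)
  have := h 0; have := h 1; have := h 2
  linarith

/-- One triple of small caps. `X` is a finite set of integer points in the box `|k| ≤ R`. -/
theorem cap_triple {ι : Type*} (s : Fin 3 → Finset ι) (p e : ι → Fin 3 → ℝ) (w : ι → ℝ)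
    (hw : ∀ j, ∀ l ∈ s j, 0 ≤ w l) {N : ℕ} (hN : 1 ≤ N) {ν r R : ℝ} (hν : 0 < ν) (hν1 : ν ≤ 1)
    (hr : 1 ≤ r) (hR : 0 ≤ R) (e0 : Fin 3 → Fin 3 → ℝ) (he0 : ∀ j i, |e0 j i| ≤ 1)
    (hdet : ν ≤ |(Matrix.of fun i j => e0 j i).det|)
    (hcap : ∀ j, ∀ l ∈ s j, ∀ i, |e l i - e0 j i| ≤ ν / (12 * N))
    (m : ℕ) (hm : R + 6 ≤ (N : ℝ) ^ m) (X : Finset (Fin 3 → ℤ))
    (hX : ∀ k ∈ X, ∀ i, |(k i : ℝ)| ≤ R) :
    ∑ k ∈ X, √(Wr (s 0) p e w r (pt 1 k)) * √(Wr (s 1) p e w r (pt 1 k)) *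
      √(Wr (s 2) p e w r (pt 1 k)) ≤
      343 * (12 * r / ν) ^ 3 * (1331 ^ m *
        (√(∑ l ∈ s 0, w l) * √(∑ l ∈ s 1, w l) * √(∑ l ∈ s 2, w l))) := by
  classical
  set B : Matrix (Fin 3) (Fin 3) ℝ := Matrix.of fun i j => e0 j i with hBdef
  have hB : ∀ i j, |B i j| ≤ 1 := fun i j => he0 j i
  set A : Matrix (Fin 3) (Fin 3) ℝ := B⁻¹ with hA
  have hAe : ∀ i j, |A i j| ≤ 2 / ν := inv_entry hν hB hdet
  have hunit : IsUnit B.det := by
    rw [isUnit_iff_ne_zero]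
    intro h
    rw [h, abs_zero] at hdet
    linarith
  have hAB : A * B = 1 := Matrix.nonsing_inv_mul B hunit
  have hBA : B * A = 1 := Matrix.mul_nonsing_inv B hunit
  have hNR : (1 : ℝ) ≤ N := by exact_mod_cast hN
  have hNpos : (0 : ℝ) < N := by linarith
  -- image of the cap centres
  have hAe0 : ∀ j i, (A *ᵥ (e0 j)) i = if i = j then 1 else 0 := by
    intro j i
    have h1 : e0 j = B *ᵥ (Pi.single j 1) := by
      funext i
      rw [Matrix.mulVec_single_one]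
      rfl
    rw [h1, Matrix.mulVec_mulVec, hAB, Matrix.one_mulVec, Pi.single_apply]
  have hAel : ∀ j, ∀ l ∈ s j, ∀ i, |(A *ᵥ (e l)) i - (if i = j then 1 else 0)| ≤ 1 / (2 * N) := by
    intro j l hl i
    rw [← hAe0 j i]
    have : (A *ᵥ (e l)) i - (A *ᵥ (e0 j)) i = (A *ᵥ (e l - e0 j)) i := by
      rw [Matrix.mulVec_sub]; rfl
    rw [this]
    refine (mulVec_bound hAe (v := e l - e0 j) (d := ν / (12 * N)) (fun i => hcap j l hl i) i).trans ?_
    refine le_of_eq ?_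
    field_simp
    norm_num
  have h2N : 1 / (2 * (N : ℝ)) ≤ 1 / 2 := by
    apply one_div_le_one_div_of_le (by norm_num)
    linarith
  -- diagonal entry
  have hdiag : ∀ j, ∀ l ∈ s j, 1 / 2 ≤ (A *ᵥ (e l)) j := by
    intro j l hl
    have := hAel j l hl j
    rw [if_pos rfl, abs_le] at this
    linarith
  set σ : ℝ := 12 * r / ν with hσ
  have hσpos : 0 < σ := by positivity
  have hσ12 : 12 ≤ σ := by
    rw [hσ, le_div_iff₀ hν]
    nlinarith
  -- the new families are indexed by `ι`; the family of `l` is needed for normalisation: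
  -- we use the product index type `Fin 3 × ι`.
  set p' : Fin 3 × ι → Fin 3 → ℝ := fun l => A *ᵥ (p l.2) with hp'
  set e' : Fin 3 × ι → Fin 3 → ℝ := fun l i => (A *ᵥ (e l.2)) i / (A *ᵥ (e l.2)) l.1 with he'
  set w' : Fin 3 × ι → ℝ := fun l => w l.2 with hw'
  set s' : Fin 3 → Finset (Fin 3 × ι) := fun j => (s j).map ⟨fun l => (j, l), fun a b h => by
    simpa using h⟩ with hs'
  have hmem : ∀ j, ∀ l ∈ s' j, l.1 = j ∧ l.2 ∈ s j := by
    intro j l hl
    simp only [hs', Finset.mem_map] at hl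
    obtain ⟨a, ha, rfl⟩ := hl
    exact ⟨rfl, ha⟩
  have hw'n : ∀ j, ∀ l ∈ s' j, 0 ≤ w' l := fun j l hl => hw j l.2 (hmem j l hl).2
  have hax : ∀ j, ∀ l ∈ s' j, Axial N j (e' l) := by
    intro j l hl
    obtain ⟨h1, h2⟩ := hmem j l hl
    have hd := hdiag j l.2 h2
    constructor
    · simp only [he', h1]
      exact div_self (by linarith)
    · intro i hi
      simp only [he', h1]
      have h3 := hAel j l.2 h2 i
      rw [if_neg hi, sub_zero] at h3
      rw [abs_div, abs_of_pos (by linarith : 0 < (A *ᵥ e l.2) j), div_le_iff₀ (by linarith)]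
      refine h3.trans ?_
      rw [one_div, one_div, mul_inv, mul_comm]
      refine mul_le_mul_of_nonneg_left (by linarith) (by positivity)
  -- snapping
  set q : (Fin 3 → ℤ) → (Fin 3 → ℤ) := fun k i => round ((A *ᵥ (pt 1 k)) i / σ) with hq
  have hsnap : ∀ k i, |σ * (q k i : ℝ) - (A *ᵥ (pt 1 k)) i| ≤ σ / 2 := by
    intro k i
    have h1 := abs_sub_round ((A *ᵥ (pt 1 k)) i / σ)
    have h2 : σ * (q k i : ℝ) - (A *ᵥ (pt 1 k)) i =
        -(σ * ((A *ᵥ (pt 1 k)) i / σ - (round ((A *ᵥ (pt 1 k)) i / σ) : ℤ))) := by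
      simp only [hq]
      field_simp
      ring
    rw [h2, abs_neg, abs_mul, abs_of_pos hσpos]
    calc σ * |(A *ᵥ (pt 1 k)) i / σ - (round ((A *ᵥ (pt 1 k)) i / σ) : ℤ)| ≤ σ * (1 / 2) :=
          mul_le_mul_of_nonneg_left h1 hσpos.le
      _ = σ / 2 := by ring
  have hnear : ∀ j, ∀ k : Fin 3 → ℤ, Wr (s j) p e w r (pt 1 k) ≤ W (s' j) p' e' w' σ (q k) := by
    intro j k
    have h1 : W (s' j) p' e' w' σ (q k) =
        Wr (s j) (fun l => p' (j, l)) (fun l => e' (j, l)) w σ (pt σ (q k)) := by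
      rw [W_eq_Wr]
      unfold Wr
      simp only [hs', Finset.sum_map]
      rfl
    rw [h1]
    refine Wr_le_of_near _ _ _ _ _ _ (hw j) _ _ _ _ ?_
    rintro l hl ⟨t, ht⟩
    have hd := hdiag j l hl
    refine ⟨t * (A *ᵥ (e l)) j, fun i => ?_⟩
    simp only [pt, hp', he']
    have e1 : t * (A *ᵥ (e l)) j * ((A *ᵥ (e l)) i / (A *ᵥ (e l)) j) = t * (A *ᵥ (e l)) i := by
      have : (A *ᵥ (e l)) j ≠ 0 := by linarith
      field_simp
    rw [e1]
    have e2 : σ * (q k i : ℝ) - (A *ᵥ p l) i - t * (A *ᵥ e l) i =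
        (σ * (q k i : ℝ) - (A *ᵥ (pt 1 k)) i) + (A *ᵥ (pt 1 k - p l - t • e l)) i := by
      rw [Matrix.mulVec_sub, Matrix.mulVec_sub, Matrix.mulVec_smul]
      simp only [Pi.sub_apply, Pi.smul_apply, smul_eq_mul]
      ring
    rw [e2]
    refine (abs_add_le _ _).trans ?_
    have h3 := hsnap k i
    have h4 := mulVec_bound hAe (v := pt 1 k - p l - t • e l) (d := r) (fun i => by
      simpa using ht i) i
    have h5 : 3 * (2 / ν) * r = σ / 2 := by
      rw [hσ]; ring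
    rw [h5] at h4
    linarith
  -- range of the snapped points
  set q0 : ℤ := -(⌈R / (2 * r) + 1 / 2⌉) with hq0
  have hqrange : ∀ k ∈ X, ∀ i, q0 ≤ q k i ∧ q k i < q0 + ((N ^ m : ℕ) : ℤ) := by
    intro k hk i
    have h1 := mulVec_bound hAe (v := pt 1 k) (d := R) (fun i => by
      simpa [pt] using hX k hk i) i
    have h2 : |(A *ᵥ (pt 1 k)) i / σ| ≤ R / (2 * r) := by
      rw [abs_div, abs_of_pos hσpos, div_le_iff₀ hσpos]
      refine h1.trans (le_of_eq ?_)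
      rw [hσ]
      field_simp
      ring
    have h3 := abs_sub_round ((A *ᵥ (pt 1 k)) i / σ)
    have h4 : |(q k i : ℝ)| ≤ R / (2 * r) + 1 / 2 := by
      have : (q k i : ℝ) = (A *ᵥ (pt 1 k)) i / σ -
          ((A *ᵥ (pt 1 k)) i / σ - (round ((A *ᵥ (pt 1 k)) i / σ) : ℤ)) := by
        simp only [hq]; ring
      rw [this]
      have := abs_sub ((A *ᵥ (pt 1 k)) i / σ)
        ((A *ᵥ (pt 1 k)) i / σ - (round ((A *ᵥ (pt 1 k)) i / σ) : ℤ))
      linarith
    rw [abs_le] at h4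
    have h5 := Int.le_ceil (R / (2 * r) + 1 / 2)
    have h6 := Int.ceil_lt_add_one (R / (2 * r) + 1 / 2)
    constructor
    · have : (q0 : ℝ) ≤ q k i := by
        rw [hq0]; push_cast; linarith
      exact_mod_cast this
    · have h7 : R / (2 * r) ≤ R / 2 := by
        apply div_le_div_of_nonneg_left hR (by norm_num) (by linarith)
      have : (q k i : ℝ) < q0 + ((N ^ m : ℕ) : ℤ) := by
        rw [hq0]
        push_cast
        linarith
      exact_mod_cast this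
  -- fibers
  have hfib : ∀ b ∈ X.image q, ((X.filter fun k => q k = b).card : ℝ) ≤ 343 * σ ^ 3 := by
    intro b hb
    rw [Finset.mem_image] at hb
    obtain ⟨k0, hk0, hk0b⟩ := hb
    set n : ℕ := ⌊3 * σ⌋₊ with hn
    have hsub : (X.filter fun k => q k = b) ⊆
        Fintype.piFinset (fun i => Finset.Icc (k0 i - n) (k0 i + n)) := by
      intro k hk
      rw [Finset.mem_filter] at hk
      rw [Fintype.mem_piFinset]
      intro i
      rw [Finset.mem_Icc]
      have h1 : ∀ i, |(A *ᵥ (pt 1 k - pt 1 k0)) i| ≤ σ := by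
        intro i
        rw [Matrix.mulVec_sub]
        have h2 := hsnap k i
        have h3 := hsnap k0 i
        rw [hk.2] at h2
        rw [hk0b] at h3
        have : (A *ᵥ pt 1 k - A *ᵥ pt 1 k0) i =
            -(σ * (b i : ℝ) - (A *ᵥ (pt 1 k)) i) + (σ * (b i : ℝ) - (A *ᵥ (pt 1 k0)) i) := by
          simp only [Pi.sub_apply]; ring
        rw [this]
        have h4 := abs_add_le (-(σ * (b i : ℝ) - (A *ᵥ (pt 1 k)) i))
          (σ * (b i : ℝ) - (A *ᵥ (pt 1 k0)) i)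
        rw [abs_neg] at h4
        linarith
      have h2 : pt 1 k - pt 1 k0 = B *ᵥ (A *ᵥ (pt 1 k - pt 1 k0)) := by
        rw [Matrix.mulVec_mulVec, hBA, Matrix.one_mulVec]
      have h3 := mulVec_bound hB (v := A *ᵥ (pt 1 k - pt 1 k0)) (d := σ) h1 i
      rw [← h2] at h3
      simp only [pt, Pi.sub_apply, one_mul, mul_one] at h3
      have h4 : |k i - k0 i| ≤ (n : ℤ) := by
        have h5 : ((|k i - k0 i| : ℤ) : ℝ) ≤ 3 * σ := by
          push_cast; exact h3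
        have h6 : |k i - k0 i| ≤ ⌊3 * σ⌋ := Int.le_floor.mpr h5
        have h7 : ((n : ℕ) : ℤ) = ⌊3 * σ⌋ := by
          rw [hn]
          exact Int.natCast_floor_eq_floor (by positivity)
        rw [h7]; exact h6
      rw [abs_le] at h4
      omega
    have h1 := Finset.card_le_card hsub
    rw [Fintype.card_piFinset] at h1
    have h2 : ∀ i, (Finset.Icc (k0 i - n) (k0 i + (n : ℤ))).card = 2 * n + 1 := by
      intro i
      rw [Int.card_Icc]
      omega
    simp only [h2, Finset.prod_const, Finset.card_univ, Fintype.card_fin] at h1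
    have h3 : (n : ℝ) ≤ 3 * σ := Nat.floor_le (by positivity)
    calc ((X.filter fun k => q k = b).card : ℝ) ≤ (((2 * n + 1) ^ 3 : ℕ) : ℝ) := by exact_mod_cast h1
      _ = (2 * (n : ℝ) + 1) ^ 3 := by push_cast; ring
      _ ≤ (7 * σ) ^ 3 := by
          apply pow_le_pow_left₀ (by positivity)
          linarith
      _ = 343 * σ ^ 3 := by ring
  set F : (Fin 3 → ℤ) → ℝ := fun k => √(W (s' 0) p' e' w' σ k) * √(W (s' 1) p' e' w' σ k) *
        √(W (s' 2) p' e' w' σ k) with hF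
  have hFn : ∀ k, 0 ≤ F k := fun k => by positivity
  calc ∑ k ∈ X, √(Wr (s 0) p e w r (pt 1 k)) * √(Wr (s 1) p e w r (pt 1 k)) *
      √(Wr (s 2) p e w r (pt 1 k)) ≤ ∑ k ∈ X, F (q k) := by
        refine Finset.sum_le_sum fun k _ => ?_
        simp only [hF]
        gcongr
        · exact hnear 0 k
        · exact hnear 1 k
        · exact hnear 2 k
    _ = ∑ b ∈ X.image q, ((X.filter fun k => q k = b).card : ℝ) * F b := by
        rw [Finset.sum_comp]
        refine Finset.sum_congr rfl fun b _ => ?_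
        rw [nsmul_eq_mul]
    _ ≤ ∑ b ∈ X.image q, 343 * σ ^ 3 * F b := by
        refine Finset.sum_le_sum fun b hb => ?_
        exact mul_le_mul_of_nonneg_right (hfib b hb) (hFn b)
    _ = 343 * σ ^ 3 * ∑ b ∈ X.image q, F b := by rw [Finset.mul_sum]
    _ ≤ 343 * σ ^ 3 * (1331 ^ m * (√(∑ l ∈ s' 0, w' l) * √(∑ l ∈ s' 1, w' l) *
          √(∑ l ∈ s' 2, w' l))) := by
        refine mul_le_mul_of_nonneg_left ?_ (by positivity)
        refine axial_finset s' p' e' w' hw'n hN hax hσpos m q0 (X.image q) ?_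
        intro b hb i
        rw [Finset.mem_image] at hb
        obtain ⟨k, hk, rfl⟩ := hb
        exact hqrange k hk i
    _ = _ := by
        have : ∀ j, ∑ l ∈ s' j, w' l = ∑ l ∈ s j, w l := by
          intro j
          simp only [hs', Finset.sum_map, hw']
          rfl
        rw [this, this, this]

end Crest.Agent.R138.MK877
end

-- ▼ part R138/MK4_877
section

/-!
# Trilinear Kakeya in R^3, part 4 (helper877): general transversal families, epsilon loss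
-/

set_option autoImplicit false

namespace Crest.Agent.R138.MK877

open Finset Matrix

lemma sqrt_add_le' {x y : ℝ} (hx : 0 ≤ x) (hy : 0 ≤ y) : √(x + y) ≤ √x + √y := by
  rw [Real.sqrt_le_left (by positivity)]
  nlinarith [Real.sq_sqrt hx, Real.sq_sqrt hy, Real.sqrt_nonneg x, Real.sqrt_nonneg y,
    mul_nonneg (Real.sqrt_nonneg x) (Real.sqrt_nonneg y)]

lemma sqrt_sum_le {α : Type*} (s : Finset α) (f : α → ℝ) (hf : ∀ a ∈ s, 0 ≤ f a) :
    √(∑ a ∈ s, f a) ≤ ∑ a ∈ s, √(f a) := by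
  classical
  induction s using Finset.induction_on with
  | empty => simp
  | insert a s ha ih =>
    rw [Finset.sum_insert ha, Finset.sum_insert ha]
    refine (sqrt_add_le' (hf a (Finset.mem_insert_self a s)) (Finset.sum_nonneg fun b hb =>
      hf b (Finset.mem_insert_of_mem hb))).trans ?_
    have := ih (fun b hb => hf b (Finset.mem_insert_of_mem hb))
    linarith


/-- cap index -/
noncomputable def cix (η : ℝ) (v : Fin 3 → ℝ) : Fin 3 → ℤ := fun i => ⌊v i / η⌋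

lemma cix_close {η : ℝ} (hη : 0 < η) {v v' : Fin 3 → ℝ} (h : cix η v = cix η v') (i : Fin 3) :
    |v i - v' i| ≤ η := by
  have h1 := congrFun h i
  simp only [cix] at h1
  have h2 := Int.abs_sub_lt_one_of_floor_eq_floor h1
  have h3 : v i - v' i = η * (v i / η - v' i / η) := by field_simp
  rw [h3, abs_mul, abs_of_pos hη]
  nlinarith

lemma cix_card {α : Type*} (s : Finset α) (v : α → Fin 3 → ℝ) {η : ℝ} (hη : 0 < η)
    (hη1 : η ≤ 1) (hv : ∀ a ∈ s, ∀ i, |v a i| ≤ 1) :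
    (((s.image fun a => cix η (v a)).card : ℕ) : ℝ) ≤ (5 / η) ^ 3 := by
  classical
  set n : ℕ := ⌈1 / η⌉₊ with hn
  have hsub : (s.image fun a => cix η (v a)) ⊆
      Fintype.piFinset (fun _ : Fin 3 => Finset.Icc (-(n : ℤ)) n) := by
    intro k hk
    rw [Finset.mem_image] at hk
    obtain ⟨a, ha, rfl⟩ := hk
    rw [Fintype.mem_piFinset]
    intro i
    rw [Finset.mem_Icc]
    have h1 := hv a ha i
    rw [abs_le] at h1
    have h2 : 1 / η ≤ n := Nat.le_ceil _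
    simp only [cix]
    constructor
    · rw [Int.le_floor]
      push_cast
      have : -(1 / η) ≤ v a i / η := by
        rw [le_div_iff₀ hη]
        have : -(1 / η) * η = -1 := by field_simp
        linarith
      linarith
    · have : (⌊v a i / η⌋ : ℝ) ≤ n := by
        refine (Int.floor_le _).trans ?_
        refine le_trans ?_ h2
        exact div_le_div_of_nonneg_right h1.2 hη.le
      exact_mod_cast this
  have h1 := Finset.card_le_card hsub
  rw [Fintype.card_piFinset] at h1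
  have h2 : (Finset.Icc (-(n : ℤ)) n).card = 2 * n + 1 := by
    rw [Int.card_Icc]; omega
  simp only [h2, Finset.prod_const, Finset.card_univ, Fintype.card_fin] at h1
  have h3 : (n : ℝ) ≤ 1 / η + 1 := (Nat.ceil_lt_add_one (by positivity)).le
  have h4 : 1 ≤ 1 / η := by
    rw [le_div_iff₀ hη]; linarith
  calc (((s.image fun a => cix η (v a)).card : ℕ) : ℝ) ≤ (((2 * n + 1) ^ 3 : ℕ) : ℝ) := by
        exact_mod_cast h1
    _ = (2 * (n : ℝ) + 1) ^ 3 := by push_cast; ring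
    _ ≤ (5 / η) ^ 3 := by
        apply pow_le_pow_left₀ (by positivity)
        have : 5 / η = 5 * (1 / η) := by ring
        rw [this]
        linarith

/-- decomposition of the weight function along caps -/
lemma Wr_caps {ι : Type*} [DecidableEq ι] (s : Finset ι) (p e : ι → Fin 3 → ℝ) (w : ι → ℝ)
    (r : ℝ) (x : Fin 3 → ℝ) (η : ℝ) :
    Wr s p e w r x = ∑ τ ∈ s.image (fun a => cix η (e a)),
      Wr (s.filter fun a => cix η (e a) = τ) p e w r x := by
  classical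
  unfold Wr
  exact (Finset.sum_fiberwise_of_maps_to (fun a ha => Finset.mem_image_of_mem _ ha) _).symm

/-- **Trilinear Kakeya, explicit form.** -/
theorem trilinear_explicit {ι : Type*} (s : Fin 3 → Finset ι) (p e : ι → Fin 3 → ℝ) (w : ι → ℝ)
    (hw : ∀ j, ∀ l ∈ s j, 0 ≤ w l) {N : ℕ} (hN : 1 ≤ N) {ν r R : ℝ} (hν : 0 < ν) (hν1 : ν ≤ 1)
    (hr : 1 ≤ r) (hR : 0 ≤ R) (he : ∀ j, ∀ l ∈ s j, ∀ i, |e l i| ≤ 1)
    (hdet : ∀ l0 ∈ s 0, ∀ l1 ∈ s 1, ∀ l2 ∈ s 2,
      ν ≤ |(Matrix.of fun i j => (![e l0, e l1, e l2] : Fin 3 → Fin 3 → ℝ) j i).det|)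
    (m : ℕ) (hm : R + 6 ≤ (N : ℝ) ^ m) (X : Finset (Fin 3 → ℤ))
    (hX : ∀ k ∈ X, ∀ i, |(k i : ℝ)| ≤ R) :
    ∑ k ∈ X, √(Wr (s 0) p e w r (pt 1 k)) * √(Wr (s 1) p e w r (pt 1 k)) *
      √(Wr (s 2) p e w r (pt 1 k)) ≤
      (343 * (12 * r / ν) ^ 3 * 1331 ^ m * (√((60 * N / ν) ^ 3)) ^ 3) *
        (√(∑ l ∈ s 0, w l) * √(∑ l ∈ s 1, w l) * √(∑ l ∈ s 2, w l)) := by
  classical
  have hNR : (1 : ℝ) ≤ N := by exact_mod_cast hN
  set η : ℝ := ν / (12 * N) with hη
  have hηpos : 0 < η := by positivity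
  have hη1 : η ≤ 1 := by
    rw [hη, div_le_one (by positivity)]
    linarith
  set I : Fin 3 → Finset (Fin 3 → ℤ) := fun j => (s j).image (fun a => cix η (e a)) with hI
  set S : Fin 3 → (Fin 3 → ℤ) → Finset ι := fun j τ => (s j).filter fun a => cix η (e a) = τ
    with hS
  set C0 : ℝ := 343 * (12 * r / ν) ^ 3 * 1331 ^ m with hC0
  have hC0n : 0 ≤ C0 := by positivity
  have hwS : ∀ j τ, ∀ l ∈ S j τ, 0 ≤ w l := fun j τ l hl => hw j l (Finset.mem_filter.mp hl).1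
  -- one triple
  have htriple : ∀ τ0 ∈ I 0, ∀ τ1 ∈ I 1, ∀ τ2 ∈ I 2,
      ∑ k ∈ X, √(Wr (S 0 τ0) p e w r (pt 1 k)) * √(Wr (S 1 τ1) p e w r (pt 1 k)) *
        √(Wr (S 2 τ2) p e w r (pt 1 k)) ≤
      C0 * (√(∑ l ∈ S 0 τ0, w l) * √(∑ l ∈ S 1 τ1, w l) * √(∑ l ∈ S 2 τ2, w l)) := by
    intro τ0 h0 τ1 h1 τ2 h2
    simp only [hI, Finset.mem_image] at h0 h1 h2
    obtain ⟨l0, hl0, hτ0⟩ := h0
    obtain ⟨l1, hl1, hτ1⟩ := h1
    obtain ⟨l2, hl2, hτ2⟩ := h2
    have key := cap_triple (fun j => S j (![τ0, τ1, τ2] j)) p e w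
      (fun j l hl => hwS j _ l hl) hN hν hν1 hr hR
      (![e l0, e l1, e l2]) ?_ (hdet l0 hl0 l1 hl1 l2 hl2) ?_ m hm X hX
    · refine key.trans (le_of_eq ?_)
      simp only [hC0, Matrix.cons_val_zero, Matrix.cons_val_one, Matrix.cons_val]
      ring
    · intro j i
      fin_cases j
      · exact he 0 l0 hl0 i
      · exact he 1 l1 hl1 i
      · exact he 2 l2 hl2 i
    · intro j l hl i
      have hl2' := (Finset.mem_filter.mp hl).2
      refine cix_close hηpos ?_ i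
      rw [hl2']
      fin_cases j
      · exact hτ0.symm
      · exact hτ1.symm
      · exact hτ2.symm
  -- pointwise decomposition
  have hpt : ∀ k : Fin 3 → ℤ, √(Wr (s 0) p e w r (pt 1 k)) * √(Wr (s 1) p e w r (pt 1 k)) *
      √(Wr (s 2) p e w r (pt 1 k)) ≤
      ∑ τ0 ∈ I 0, ∑ τ1 ∈ I 1, ∑ τ2 ∈ I 2,
        √(Wr (S 0 τ0) p e w r (pt 1 k)) * √(Wr (S 1 τ1) p e w r (pt 1 k)) *
        √(Wr (S 2 τ2) p e w r (pt 1 k)) := by
    intro k
    have h : ∀ j, √(Wr (s j) p e w r (pt 1 k)) ≤ ∑ τ ∈ I j, √(Wr (S j τ) p e w r (pt 1 k)) := by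
      intro j
      rw [Wr_caps (s j) p e w r (pt 1 k) η]
      exact sqrt_sum_le _ _ fun τ _ => Wr_nonneg _ _ _ _ (hwS j τ) _ _
    have hn : ∀ j, 0 ≤ ∑ τ ∈ I j, √(Wr (S j τ) p e w r (pt 1 k)) := fun j =>
      Finset.sum_nonneg fun _ _ => Real.sqrt_nonneg _
    calc √(Wr (s 0) p e w r (pt 1 k)) * √(Wr (s 1) p e w r (pt 1 k)) *
        √(Wr (s 2) p e w r (pt 1 k))
        ≤ (∑ τ ∈ I 0, √(Wr (S 0 τ) p e w r (pt 1 k))) *
            (∑ τ ∈ I 1, √(Wr (S 1 τ) p e w r (pt 1 k))) *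
            (∑ τ ∈ I 2, √(Wr (S 2 τ) p e w r (pt 1 k))) := by
          refine mul_le_mul (mul_le_mul (h 0) (h 1) (Real.sqrt_nonneg _) (hn 0)) (h 2)
            (Real.sqrt_nonneg _) (mul_nonneg (hn 0) (hn 1))
      _ = _ := by
          rw [Finset.sum_mul_sum, Finset.sum_mul]
          refine Finset.sum_congr rfl fun τ0 _ => ?_
          rw [Finset.sum_mul_sum]
  calc ∑ k ∈ X, √(Wr (s 0) p e w r (pt 1 k)) * √(Wr (s 1) p e w r (pt 1 k)) *
      √(Wr (s 2) p e w r (pt 1 k))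
      ≤ ∑ k ∈ X, ∑ τ0 ∈ I 0, ∑ τ1 ∈ I 1, ∑ τ2 ∈ I 2,
        √(Wr (S 0 τ0) p e w r (pt 1 k)) * √(Wr (S 1 τ1) p e w r (pt 1 k)) *
        √(Wr (S 2 τ2) p e w r (pt 1 k)) := Finset.sum_le_sum fun k _ => hpt k
    _ = ∑ τ0 ∈ I 0, ∑ τ1 ∈ I 1, ∑ τ2 ∈ I 2, ∑ k ∈ X,
        √(Wr (S 0 τ0) p e w r (pt 1 k)) * √(Wr (S 1 τ1) p e w r (pt 1 k)) *
        √(Wr (S 2 τ2) p e w r (pt 1 k)) := by
        rw [Finset.sum_comm]
        refine Finset.sum_congr rfl fun τ0 _ => ?_
        rw [Finset.sum_comm]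
        refine Finset.sum_congr rfl fun τ1 _ => ?_
        rw [Finset.sum_comm]
    _ ≤ ∑ τ0 ∈ I 0, ∑ τ1 ∈ I 1, ∑ τ2 ∈ I 2,
        C0 * (√(∑ l ∈ S 0 τ0, w l) * √(∑ l ∈ S 1 τ1, w l) * √(∑ l ∈ S 2 τ2, w l)) :=
        Finset.sum_le_sum fun τ0 h0 => Finset.sum_le_sum fun τ1 h1 =>
          Finset.sum_le_sum fun τ2 h2 => htriple τ0 h0 τ1 h1 τ2 h2
    _ = C0 * ((∑ τ ∈ I 0, √(∑ l ∈ S 0 τ, w l)) * (∑ τ ∈ I 1, √(∑ l ∈ S 1 τ, w l)) *
          (∑ τ ∈ I 2, √(∑ l ∈ S 2 τ, w l))) := by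
        rw [Finset.sum_mul_sum, Finset.sum_mul, Finset.mul_sum]
        refine Finset.sum_congr rfl fun τ0 _ => ?_
        rw [Finset.sum_mul_sum, Finset.mul_sum]
        refine Finset.sum_congr rfl fun τ1 _ => ?_
        rw [Finset.mul_sum]
    _ ≤ C0 * ((√((60 * N / ν) ^ 3) * √(∑ l ∈ s 0, w l)) *
          (√((60 * N / ν) ^ 3) * √(∑ l ∈ s 1, w l)) *
          (√((60 * N / ν) ^ 3) * √(∑ l ∈ s 2, w l))) := by
        have hb : ∀ j, ∑ τ ∈ I j, √(∑ l ∈ S j τ, w l) ≤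
            √((60 * N / ν) ^ 3) * √(∑ l ∈ s j, w l) := by
          intro j
          have h1 : ∑ τ ∈ I j, √(∑ l ∈ S j τ, w l) ≤
              √((I j).card : ℝ) * √(∑ τ ∈ I j, ∑ l ∈ S j τ, w l) := by
            have := Real.sum_sqrt_mul_sqrt_le (I j) (f := fun _ => (1 : ℝ))
              (g := fun τ => ∑ l ∈ S j τ, w l) (fun _ => by norm_num)
              (fun τ => Finset.sum_nonneg fun l hl => hwS j τ l hl)
            simpa using this
          have h2 : ∑ τ ∈ I j, ∑ l ∈ S j τ, w l = ∑ l ∈ s j, w l :=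
            Finset.sum_fiberwise_of_maps_to (fun a ha => Finset.mem_image_of_mem _ ha) _
          rw [h2] at h1
          refine h1.trans ?_
          refine mul_le_mul_of_nonneg_right (Real.sqrt_le_sqrt ?_) (Real.sqrt_nonneg _)
          refine (cix_card (s j) e hηpos hη1 (fun a ha i => he j a ha i)).trans (le_of_eq ?_)
          rw [hη]
          field_simp
          norm_num
        have hn : ∀ j, 0 ≤ ∑ τ ∈ I j, √(∑ l ∈ S j τ, w l) := fun j =>
          Finset.sum_nonneg fun _ _ => Real.sqrt_nonneg _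
        refine mul_le_mul_of_nonneg_left ?_ hC0n
        refine mul_le_mul (mul_le_mul (hb 0) (hb 1) (hn 1) (by positivity)) (hb 2) (hn 2)
          (by positivity)
    _ = _ := by ring

/-- **Trilinear Kakeya with epsilon loss** (integer points, radius `r`, polynomial transversality
dependence). -/
theorem trilinear_kakeya (ε : ℝ) (hε : 0 < ε) : ∃ C : ℝ, 0 < C ∧
    ∀ {ι : Type} (s : Fin 3 → Finset ι) (p e : ι → Fin 3 → ℝ) (w : ι → ℝ)
      (_ : ∀ j, ∀ l ∈ s j, 0 ≤ w l) (ν r R : ℝ) (_ : 0 < ν) (_ : ν ≤ 1)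
      (_ : 1 ≤ r) (_ : 1 ≤ R) (_ : ∀ j, ∀ l ∈ s j, ∀ i, |e l i| ≤ 1)
      (_ : ∀ l0 ∈ s 0, ∀ l1 ∈ s 1, ∀ l2 ∈ s 2,
        ν ≤ |(Matrix.of fun i j => (![e l0, e l1, e l2] : Fin 3 → Fin 3 → ℝ) j i).det|)
      (X : Finset (Fin 3 → ℤ)) (_ : ∀ k ∈ X, ∀ i, |(k i : ℝ)| ≤ R),
      ∑ k ∈ X, √(Wr (s 0) p e w r (pt 1 k)) * √(Wr (s 1) p e w r (pt 1 k)) *
        √(Wr (s 2) p e w r (pt 1 k)) ≤
        C * r ^ 3 * (ν⁻¹) ^ 8 * R ^ ε *
          (√(∑ l ∈ s 0, w l) * √(∑ l ∈ s 1, w l) * √(∑ l ∈ s 2, w l)) := by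
  -- choose N with 1331 ≤ N ^ ε
  obtain ⟨N, hN⟩ : ∃ N : ℕ, (1331 : ℝ) ≤ (N : ℝ) ^ ε ∧ 2 ≤ N := by
    have := (tendsto_rpow_atTop hε).comp tendsto_natCast_atTop_atTop
    have h1 := (this.eventually_ge_atTop (1331 : ℝ)).and (Filter.eventually_ge_atTop 2)
    exact h1.exists
  obtain ⟨hN1, hN2⟩ := hN
  have hNR : (2 : ℝ) ≤ N := by exact_mod_cast hN2
  refine ⟨343 * 12 ^ 3 * (1331 * 7 ^ ε) * (√((60 * N : ℝ) ^ 3)) ^ 3 , by positivity, ?_⟩
  intro ι s p e w hw ν r R hν hν1 hr hR he hdet X hX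
  -- choose m
  have hex : ∃ m : ℕ, R + 6 ≤ (N : ℝ) ^ m := by
    obtain ⟨m, hm⟩ := pow_unbounded_of_one_lt (R + 6) (by linarith : (1 : ℝ) < N)
    exact ⟨m, hm.le⟩
  classical
  set m := Nat.find hex with hm
  have hm1 : R + 6 ≤ (N : ℝ) ^ m := Nat.find_spec hex
  have hmpos : 0 < m := by
    rcases Nat.eq_zero_or_pos m with h | h
    · rw [h, pow_zero] at hm1; linarith
    · exact h
  have hm2 : (N : ℝ) ^ (m - 1) < R + 6 := by
    have := Nat.find_min hex (m := m - 1) (by omega)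
    push Not at this
    exact this
  have h1331 : (1331 : ℝ) ^ m ≤ 1331 * 7 ^ ε * R ^ ε := by
    have h1 : (1331 : ℝ) ^ (m - 1) ≤ (R + 6) ^ ε := by
      calc (1331 : ℝ) ^ (m - 1) ≤ ((N : ℝ) ^ ε) ^ (m - 1) :=
            pow_le_pow_left₀ (by norm_num) hN1 _
        _ = ((N : ℝ) ^ (m - 1)) ^ ε := by
            rw [← Real.rpow_natCast, ← Real.rpow_natCast, ← Real.rpow_mul (by linarith),
              ← Real.rpow_mul (by linarith), mul_comm]
        _ ≤ (R + 6) ^ ε := Real.rpow_le_rpow (by positivity) hm2.le hε.le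
    have h2 : (R + 6) ^ ε ≤ 7 ^ ε * R ^ ε := by
      rw [← Real.mul_rpow (by norm_num) (by linarith)]
      exact Real.rpow_le_rpow (by linarith) (by linarith) hε.le
    have h3 : (1331 : ℝ) ^ m = 1331 * 1331 ^ (m - 1) := by
      rw [← pow_succ']
      congr 1
      omega
    rw [h3, mul_assoc]
    exact mul_le_mul_of_nonneg_left (h1.trans h2) (by norm_num)
  refine (trilinear_explicit s p e w hw (N := N) (by omega) hν hν1 hr (by linarith) he hdet m hm1 X
    hX).trans ?_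
  refine mul_le_mul_of_nonneg_right ?_ (by positivity)
  have hνi : 1 ≤ ν⁻¹ := (one_le_inv₀ hν).mpr hν1
  have hsq : √((60 * N / ν) ^ 3) ^ 3 ≤ √((60 * N : ℝ) ^ 3) ^ 3 * (ν⁻¹) ^ 5 := by
    have h1 : (60 * (N : ℝ) / ν) ^ 3 = (60 * N) ^ 3 * (ν⁻¹) ^ 3 := by
      rw [div_eq_mul_inv, mul_pow]
    rw [h1, Real.sqrt_mul (by positivity), mul_pow]
    refine mul_le_mul_of_nonneg_left ?_ (by positivity)
    have h2 : √((ν⁻¹) ^ 3) ^ 3 ≤ (ν⁻¹) ^ 5 := by
      have h3 : √((ν⁻¹) ^ 3) ^ 2 = (ν⁻¹) ^ 3 := Real.sq_sqrt (by positivity)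
      have h4 : √((ν⁻¹) ^ 3) ≤ (ν⁻¹) ^ 2 := by
        rw [Real.sqrt_le_left (by positivity), ← pow_mul]
        exact pow_le_pow_right₀ hνi (by norm_num)
      calc √((ν⁻¹) ^ 3) ^ 3 = √((ν⁻¹) ^ 3) ^ 2 * √((ν⁻¹) ^ 3) := by ring
        _ ≤ (ν⁻¹) ^ 3 * (ν⁻¹) ^ 2 := by
            rw [h3]; exact mul_le_mul_of_nonneg_left h4 (by positivity)
        _ = (ν⁻¹) ^ 5 := by ring
    exact h2
  calc 343 * (12 * r / ν) ^ 3 * 1331 ^ m * √((60 * N / ν) ^ 3) ^ 3
      ≤ 343 * (12 * r / ν) ^ 3 * (1331 * 7 ^ ε * R ^ ε) *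
          (√((60 * N : ℝ) ^ 3) ^ 3 * (ν⁻¹) ^ 5) := by gcongr
    _ = _ := by
        rw [div_eq_mul_inv, mul_pow, mul_pow]
        ring

end Crest.Agent.R138.MK877
end

-- ▼ part R138/MK5_877
section

/-!
# Trilinear Kakeya in R^3, part 5 (helper877): one family, broad points

`broad_kakeya`: for one weighted family of lines, the number of points (weighted by the square root
of the total weight of the `ν`-transversal triples through the point) is at most
`C r^3 ν^{-13} R^ε W^{3/2}`.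
-/

set_option autoImplicit false

namespace Crest.Agent.R138.MK877

open Finset Matrix

/-- determinant of three directions (columns) -/
noncomputable def D3 (x y z : Fin 3 → ℝ) : ℝ :=
  (Matrix.of fun i j => (![x, y, z] : Fin 3 → Fin 3 → ℝ) j i).det

lemma D3_eq (x y z : Fin 3 → ℝ) : D3 x y z =
    x 0 * y 1 * z 2 - x 0 * z 1 * y 2 - y 0 * x 1 * z 2 + y 0 * z 1 * x 2
      + z 0 * x 1 * y 2 - z 0 * y 1 * x 2 := by
  unfold D3
  rw [Matrix.det_fin_three]
  simp only [Matrix.of_apply, Matrix.cons_val_zero, Matrix.cons_val_one, Matrix.cons_val]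

lemma prod3_le {a b c A B C : ℝ} (ha : |a| ≤ A) (hb : |b| ≤ B) (hc : |c| ≤ C) :
    |a * b * c| ≤ A * B * C := by
  have hA : 0 ≤ A := (abs_nonneg _).trans ha
  have hB : 0 ≤ B := (abs_nonneg _).trans hb
  rw [abs_mul, abs_mul]
  exact mul_le_mul (mul_le_mul ha hb (abs_nonneg _) hA) hc (abs_nonneg _) (mul_nonneg hA hB)

lemma D3_bound {x y z : Fin 3 → ℝ} {a b c : ℝ} (hx : ∀ i, |x i| ≤ a) (hy : ∀ i, |y i| ≤ b)
    (hz : ∀ i, |z i| ≤ c) : |D3 x y z| ≤ 6 * (a * b * c) := by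
  rw [D3_eq]
  have h1 := prod3_le (hx 0) (hy 1) (hz 2)
  have h2 : |x 0 * z 1 * y 2| ≤ a * b * c := by
    have := prod3_le (hx 0) (hz 1) (hy 2); linarith [mul_right_comm a b c]
  have h3 : |y 0 * x 1 * z 2| ≤ a * b * c := by
    have := prod3_le (hy 0) (hx 1) (hz 2); linarith [mul_comm a b, mul_right_comm a b c]
  have h4 : |y 0 * z 1 * x 2| ≤ a * b * c := by
    have := prod3_le (hy 0) (hz 1) (hx 2)
    have e : b * c * a = a * b * c := by ring
    linarith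
  have h5 : |z 0 * x 1 * y 2| ≤ a * b * c := by
    have := prod3_le (hz 0) (hx 1) (hy 2)
    have e : c * a * b = a * b * c := by ring
    linarith
  have h6 : |z 0 * y 1 * x 2| ≤ a * b * c := by
    have := prod3_le (hz 0) (hy 1) (hx 2)
    have e : c * b * a = a * b * c := by ring
    linarith
  rw [abs_le] at *
  constructor <;> linarith [h1.1, h1.2, h2.1, h2.2, h3.1, h3.2, h4.1, h4.2, h5.1, h5.2, h6.1, h6.2]

lemma D3_perturb {x y z x' y' z' : Fin 3 → ℝ} {η : ℝ} (hy : ∀ i, |y i| ≤ 1)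
    (hz : ∀ i, |z i| ≤ 1) (hx' : ∀ i, |x' i| ≤ 1) (hy' : ∀ i, |y' i| ≤ 1)
    (hxx : ∀ i, |x i - x' i| ≤ η) (hyy : ∀ i, |y i - y' i| ≤ η) (hzz : ∀ i, |z i - z' i| ≤ η) :
    |D3 x y z - D3 x' y' z'| ≤ 18 * η := by
  have e : D3 x y z - D3 x' y' z' = D3 (x - x') y z + D3 x' (y - y') z + D3 x' y' (z - z') := by
    simp only [D3_eq, Pi.sub_apply]
    ring
  rw [e]
  have h1 : |D3 (x - x') y z| ≤ 6 * (η * 1 * 1) := D3_bound (fun i => hxx i) hy hz
  have h2 : |D3 x' (y - y') z| ≤ 6 * (1 * η * 1) := D3_bound hx' (fun i => hyy i) hz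
  have h3 : |D3 x' y' (z - z')| ≤ 6 * (1 * 1 * η) := D3_bound hx' hy' (fun i => hzz i)
  have := abs_add_le (D3 (x - x') y z + D3 x' (y - y') z) (D3 x' y' (z - z'))
  have := abs_add_le (D3 (x - x') y z) (D3 x' (y - y') z)
  linarith

open Classical in
/-- total weight of `ν`-transversal triples of lines of `s` passing within `r` of `x` -/
noncomputable def Tri {ι : Type*} (s : Finset ι) (p e : ι → Fin 3 → ℝ) (w : ι → ℝ) (ν r : ℝ)
    (x : Fin 3 → ℝ) : ℝ :=
  ∑ l0 ∈ s, ∑ l1 ∈ s, ∑ l2 ∈ s,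
    if Near x (p l0) (e l0) r ∧ Near x (p l1) (e l1) r ∧ Near x (p l2) (e l2) r ∧
      ν ≤ |D3 (e l0) (e l1) (e l2)| then w l0 * w l1 * w l2 else 0

/-- **Broad Kakeya** -/
theorem broad_kakeya (ε : ℝ) (hε : 0 < ε) : ∃ C : ℝ, 0 < C ∧
    ∀ {ι : Type} (s : Finset ι) (p e : ι → Fin 3 → ℝ) (w : ι → ℝ)
      (_ : ∀ l ∈ s, 0 ≤ w l) (ν r R : ℝ) (_ : 0 < ν) (_ : ν ≤ 1)
      (_ : 1 ≤ r) (_ : 1 ≤ R) (_ : ∀ l ∈ s, ∀ i, |e l i| ≤ 1)
      (X : Finset (Fin 3 → ℤ)) (_ : ∀ k ∈ X, ∀ i, |(k i : ℝ)| ≤ R),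
      ∑ k ∈ X, √(Tri s p e w ν r (pt 1 k)) ≤
        C * r ^ 3 * (ν⁻¹) ^ 13 * R ^ ε * √(∑ l ∈ s, w l) ^ 3 := by
  obtain ⟨C, hC, key⟩ := trilinear_kakeya ε hε
  refine ⟨C * 2 ^ 8 * √((180 : ℝ) ^ 3) ^ 3, by positivity, ?_⟩
  intro ι s p e w hw ν r R hν hν1 hr hR he X hX
  classical
  set η : ℝ := ν / 36 with hη
  have hηpos : 0 < η := by positivity
  have hη1 : η ≤ 1 := by rw [hη]; linarith
  set I : Finset (Fin 3 → ℤ) := s.image (fun a => cix η (e a)) with hI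
  set S : (Fin 3 → ℤ) → Finset ι := fun τ => s.filter fun a => cix η (e a) = τ with hS
  have hwS : ∀ τ, ∀ l ∈ S τ, 0 ≤ w l := fun τ l hl => hw l (Finset.mem_filter.mp hl).1
  -- good triples of cells
  set good : (Fin 3 → ℤ) → (Fin 3 → ℤ) → (Fin 3 → ℤ) → Prop := fun τ0 τ1 τ2 =>
    ∃ l0 ∈ S τ0, ∃ l1 ∈ S τ1, ∃ l2 ∈ S τ2, ν ≤ |D3 (e l0) (e l1) (e l2)| with hgood
  have hgood2 : ∀ τ0 τ1 τ2, good τ0 τ1 τ2 → ∀ l0 ∈ S τ0, ∀ l1 ∈ S τ1, ∀ l2 ∈ S τ2,
      ν / 2 ≤ |D3 (e l0) (e l1) (e l2)| := by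
    rintro τ0 τ1 τ2 ⟨m0, hm0, m1, hm1, m2, hm2, hD⟩ l0 hl0 l1 hl1 l2 hl2
    have hin : ∀ τ, ∀ l ∈ S τ, l ∈ s := fun τ l hl => (Finset.mem_filter.mp hl).1
    have hcl : ∀ τ, ∀ l ∈ S τ, ∀ m ∈ S τ, ∀ i, |e l i - e m i| ≤ η := fun τ l hl m hm i =>
      cix_close hηpos (((Finset.mem_filter.mp hl).2).trans ((Finset.mem_filter.mp hm).2).symm) i
    have h1 := D3_perturb (x := e m0) (y := e m1) (z := e m2) (x' := e l0) (y' := e l1)
      (z' := e l2) (he m1 (hin _ _ hm1)) (he m2 (hin _ _ hm2)) (he l0 (hin _ _ hl0))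
      (he l1 (hin _ _ hl1)) (hcl _ _ hm0 _ hl0) (hcl _ _ hm1 _ hl1) (hcl _ _ hm2 _ hl2)
    have h2 : |D3 (e m0) (e m1) (e m2)| ≤ |D3 (e l0) (e l1) (e l2)| + 18 * η := by
      have := abs_sub_abs_le_abs_sub (D3 (e m0) (e m1) (e m2)) (D3 (e l0) (e l1) (e l2))
      linarith
    have h3 : 18 * η = ν / 2 := by rw [hη]; ring
    linarith
  -- pointwise bound
  set V : (Fin 3 → ℤ) → (Fin 3 → ℤ) → ℝ := fun τ k => Wr (S τ) p e w r (pt 1 k) with hV
  have hVn : ∀ τ k, 0 ≤ V τ k := fun τ k => Wr_nonneg _ _ _ _ (hwS τ) _ _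
  have hpt : ∀ k, Tri s p e w ν r (pt 1 k) ≤ ∑ τ0 ∈ I, ∑ τ1 ∈ I, ∑ τ2 ∈ I,
      (if good τ0 τ1 τ2 then V τ0 k * V τ1 k * V τ2 k else 0) := by
    intro k
    have hfib : ∀ f : ι → ℝ, ∑ l ∈ s, f l = ∑ τ ∈ I, ∑ l ∈ S τ, f l := fun f =>
      (Finset.sum_fiberwise_of_maps_to (fun a ha => Finset.mem_image_of_mem _ ha) _).symm
    unfold Tri
    rw [hfib]
    refine Finset.sum_le_sum fun τ0 _ => ?_
    have e1 : ∀ l0, ∑ l1 ∈ s, ∑ l2 ∈ s, (if Near (pt 1 k) (p l0) (e l0) r ∧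
        Near (pt 1 k) (p l1) (e l1) r ∧ Near (pt 1 k) (p l2) (e l2) r ∧
        ν ≤ |D3 (e l0) (e l1) (e l2)| then w l0 * w l1 * w l2 else 0) =
        ∑ τ1 ∈ I, ∑ τ2 ∈ I, ∑ l1 ∈ S τ1, ∑ l2 ∈ S τ2, (if Near (pt 1 k) (p l0) (e l0) r ∧
        Near (pt 1 k) (p l1) (e l1) r ∧ Near (pt 1 k) (p l2) (e l2) r ∧
        ν ≤ |D3 (e l0) (e l1) (e l2)| then w l0 * w l1 * w l2 else 0) := by
      intro l0
      refine (hfib _).trans ?_
      refine Finset.sum_congr rfl fun τ1 _ => ?_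
      refine Eq.trans ?_ Finset.sum_comm
      refine Finset.sum_congr rfl fun l1 _ => ?_
      exact hfib _
    rw [Finset.sum_congr rfl fun l0 _ => e1 l0, Finset.sum_comm]
    refine Finset.sum_le_sum fun τ1 _ => ?_
    rw [Finset.sum_comm]
    refine Finset.sum_le_sum fun τ2 _ => ?_
    by_cases hg : good τ0 τ1 τ2
    · rw [if_pos hg]
      have e2 : V τ0 k * V τ1 k * V τ2 k = ∑ l0 ∈ S τ0, ∑ l1 ∈ S τ1, ∑ l2 ∈ S τ2,
          (if Near (pt 1 k) (p l0) (e l0) r then w l0 else 0) *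
          (if Near (pt 1 k) (p l1) (e l1) r then w l1 else 0) *
          (if Near (pt 1 k) (p l2) (e l2) r then w l2 else 0) := by
        simp only [hV, Wr]
        rw [Finset.sum_mul_sum, Finset.sum_mul]
        refine Finset.sum_congr rfl fun l0 _ => ?_
        rw [Finset.sum_mul]
        refine Finset.sum_congr rfl fun l1 _ => ?_
        rw [Finset.mul_sum]
      rw [e2]
      refine Finset.sum_le_sum fun l0 h0 => Finset.sum_le_sum fun l1 h1 =>
        Finset.sum_le_sum fun l2 h2 => ?_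
      by_cases hn0 : Near (pt 1 k) (p l0) (e l0) r <;>
        by_cases hn1 : Near (pt 1 k) (p l1) (e l1) r <;>
        by_cases hn2 : Near (pt 1 k) (p l2) (e l2) r <;>
        simp only [hn0, hn1, hn2, if_true, if_false, true_and, false_and, and_false, mul_zero,
          zero_mul, le_refl]
      have a0 := hwS _ _ h0
      have a1 := hwS _ _ h1
      have a2 := hwS _ _ h2
      split_ifs
      · exact le_rfl
      · positivity
    · rw [if_neg hg]
      refine le_of_eq (Finset.sum_eq_zero fun l0 h0 => Finset.sum_eq_zero fun l1 h1 =>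
        Finset.sum_eq_zero fun l2 h2 => ?_)
      rw [if_neg]
      rintro ⟨_, _, _, hD⟩
      exact hg ⟨l0, h0, l1, h1, l2, h2, hD⟩
  have hsq : ∀ k, √(Tri s p e w ν r (pt 1 k)) ≤ ∑ τ0 ∈ I, ∑ τ1 ∈ I, ∑ τ2 ∈ I,
      (if good τ0 τ1 τ2 then √(V τ0 k) * √(V τ1 k) * √(V τ2 k) else 0) := by
    intro k
    refine (Real.sqrt_le_sqrt (hpt k)).trans ?_
    have hn : ∀ τ0 τ1 τ2, 0 ≤ (if good τ0 τ1 τ2 then V τ0 k * V τ1 k * V τ2 k else 0) := by
      intro τ0 τ1 τ2
      split_ifs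
      · exact mul_nonneg (mul_nonneg (hVn _ _) (hVn _ _)) (hVn _ _)
      · exact le_rfl
    refine (sqrt_sum_le _ _ fun τ0 _ => Finset.sum_nonneg fun τ1 _ =>
      Finset.sum_nonneg fun τ2 _ => hn τ0 τ1 τ2).trans ?_
    refine Finset.sum_le_sum fun τ0 _ => ?_
    refine (sqrt_sum_le _ _ fun τ1 _ => Finset.sum_nonneg fun τ2 _ => hn τ0 τ1 τ2).trans ?_
    refine Finset.sum_le_sum fun τ1 _ => ?_
    refine (sqrt_sum_le _ _ fun τ2 _ => hn τ0 τ1 τ2).trans ?_
    refine Finset.sum_le_sum fun τ2 _ => ?_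
    split_ifs
    · rw [Real.sqrt_mul (mul_nonneg (hVn _ _) (hVn _ _)), Real.sqrt_mul (hVn _ _)]
    · rw [Real.sqrt_zero]
  have hνi : 1 ≤ ν⁻¹ := (one_le_inv₀ hν).mpr hν1
  set K0 : ℝ := C * r ^ 3 * ((ν / 2)⁻¹) ^ 8 * R ^ ε with hK0
  have hK0n : 0 ≤ K0 := by positivity
  calc ∑ k ∈ X, √(Tri s p e w ν r (pt 1 k))
      ≤ ∑ k ∈ X, ∑ τ0 ∈ I, ∑ τ1 ∈ I, ∑ τ2 ∈ I,
        (if good τ0 τ1 τ2 then √(V τ0 k) * √(V τ1 k) * √(V τ2 k) else 0) :=
        Finset.sum_le_sum fun k _ => hsq k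
    _ = ∑ τ0 ∈ I, ∑ τ1 ∈ I, ∑ τ2 ∈ I, ∑ k ∈ X,
        (if good τ0 τ1 τ2 then √(V τ0 k) * √(V τ1 k) * √(V τ2 k) else 0) := by
        rw [Finset.sum_comm]
        refine Finset.sum_congr rfl fun τ0 _ => ?_
        rw [Finset.sum_comm]
        refine Finset.sum_congr rfl fun τ1 _ => ?_
        rw [Finset.sum_comm]
    _ ≤ ∑ τ0 ∈ I, ∑ τ1 ∈ I, ∑ τ2 ∈ I,
        K0 * (√(∑ l ∈ S τ0, w l) * √(∑ l ∈ S τ1, w l) * √(∑ l ∈ S τ2, w l)) := by
        refine Finset.sum_le_sum fun τ0 _ => Finset.sum_le_sum fun τ1 _ =>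
          Finset.sum_le_sum fun τ2 _ => ?_
        by_cases hg : good τ0 τ1 τ2
        · simp only [if_pos hg]
          have := key (fun j => (![S τ0, S τ1, S τ2] : Fin 3 → Finset ι) j) p e w ?_ (ν / 2) r R
            (by linarith) (by linarith) hr hR ?_ ?_ X hX
          · exact this
          · intro j l hl
            fin_cases j
            · exact hwS _ _ hl
            · exact hwS _ _ hl
            · exact hwS _ _ hl
          · intro j l hl i
            fin_cases j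
            · exact he l (Finset.mem_filter.mp hl).1 i
            · exact he l (Finset.mem_filter.mp hl).1 i
            · exact he l (Finset.mem_filter.mp hl).1 i
          · intro l0 hl0 l1 hl1 l2 hl2
            exact hgood2 τ0 τ1 τ2 hg l0 hl0 l1 hl1 l2 hl2
        · simp only [if_neg hg, Finset.sum_const_zero]
          positivity
    _ = K0 * (∑ τ ∈ I, √(∑ l ∈ S τ, w l)) ^ 3 := by
        rw [pow_succ, pow_two, Finset.sum_mul_sum, Finset.sum_mul, Finset.mul_sum]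
        refine Finset.sum_congr rfl fun τ0 _ => ?_
        rw [Finset.sum_mul_sum, Finset.mul_sum]
        refine Finset.sum_congr rfl fun τ1 _ => ?_
        rw [Finset.mul_sum]
    _ ≤ K0 * (√((5 / η) ^ 3) * √(∑ l ∈ s, w l)) ^ 3 := by
        refine mul_le_mul_of_nonneg_left ?_ hK0n
        refine pow_le_pow_left₀ (Finset.sum_nonneg fun _ _ => Real.sqrt_nonneg _) ?_ 3
        have h1 : ∑ τ ∈ I, √(∑ l ∈ S τ, w l) ≤
            √((I).card : ℝ) * √(∑ τ ∈ I, ∑ l ∈ S τ, w l) := by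
          have := Real.sum_sqrt_mul_sqrt_le I (f := fun _ => (1 : ℝ))
            (g := fun τ => ∑ l ∈ S τ, w l) (fun _ => by norm_num)
            (fun τ => Finset.sum_nonneg fun l hl => hwS τ l hl)
          simpa using this
        have h2 : ∑ τ ∈ I, ∑ l ∈ S τ, w l = ∑ l ∈ s, w l :=
          Finset.sum_fiberwise_of_maps_to (fun a ha => Finset.mem_image_of_mem _ ha) _
        rw [h2] at h1
        refine h1.trans ?_
        exact mul_le_mul_of_nonneg_right (Real.sqrt_le_sqrt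
          (cix_card s e hηpos hη1 (fun a ha i => he a ha i))) (Real.sqrt_nonneg _)
    _ ≤ C * 2 ^ 8 * √((180 : ℝ) ^ 3) ^ 3 * r ^ 3 * (ν⁻¹) ^ 13 * R ^ ε * √(∑ l ∈ s, w l) ^ 3 := by
        rw [mul_pow, ← mul_assoc]
        refine mul_le_mul_of_nonneg_right ?_ (by positivity)
        have h1 : (5 / η) ^ 3 = 180 ^ 3 * (ν⁻¹) ^ 3 := by
          rw [hη]
          field_simp
          norm_num
        have h2 : √((5 / η) ^ 3) ^ 3 ≤ √((180 : ℝ) ^ 3) ^ 3 * (ν⁻¹) ^ 5 := by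
          rw [h1, Real.sqrt_mul (by positivity), mul_pow]
          refine mul_le_mul_of_nonneg_left ?_ (by positivity)
          have h3 : √((ν⁻¹) ^ 3) ^ 2 = (ν⁻¹) ^ 3 := Real.sq_sqrt (by positivity)
          have h4 : √((ν⁻¹) ^ 3) ≤ (ν⁻¹) ^ 2 := by
            rw [Real.sqrt_le_left (by positivity), ← pow_mul]
            exact pow_le_pow_right₀ hνi (by norm_num)
          calc √((ν⁻¹) ^ 3) ^ 3 = √((ν⁻¹) ^ 3) ^ 2 * √((ν⁻¹) ^ 3) := by ring
            _ ≤ (ν⁻¹) ^ 3 * (ν⁻¹) ^ 2 := by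
                rw [h3]; exact mul_le_mul_of_nonneg_left h4 (by positivity)
            _ = (ν⁻¹) ^ 5 := by ring
        have h5 : ((ν / 2)⁻¹) ^ 8 = 2 ^ 8 * (ν⁻¹) ^ 8 := by
          rw [inv_div, div_eq_mul_inv, mul_pow]
        calc K0 * √((5 / η) ^ 3) ^ 3 ≤ K0 * (√((180 : ℝ) ^ 3) ^ 3 * (ν⁻¹) ^ 5) :=
              mul_le_mul_of_nonneg_left h2 hK0n
          _ = _ := by
              rw [hK0, h5]; ring

end Crest.Agent.R138.MK877
end

-- ▼ part R138/MK6_877

/-!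
# Trilinear Kakeya in R^3, part 6 (helper877): non-narrow points

Lines `(a + c z, b + d z, z)`; velocity `(c, d)`.  If through every point `k` of a finite set there
is a sub-family `A k` of weight `M k` such that no strip of half-width `ν` in velocity space carries
more than half of it, then `∑ M k ^ (3/2) ≤ C r^3 ν^{-26} R^ε W^{3/2}`.
-/

set_option autoImplicit false

namespace Crest.Agent.R138.MK877

open Finset Matrix

/-- direction of the line with velocity `v` -/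
def dir (v : ℝ × ℝ) : Fin 3 → ℝ := ![v.1, v.2, 1]

lemma D3_dir (u v w : ℝ × ℝ) : D3 (dir u) (dir v) (dir w) =
    (v.1 - u.1) * (w.2 - u.2) - (v.2 - u.2) * (w.1 - u.1) := by
  rw [D3_eq]
  simp only [dir, Matrix.cons_val_zero, Matrix.cons_val_one, Matrix.cons_val]
  ring

/-- the strip of half-width `ν` around the line through `u` with unit normal `n` -/
def InStrip (ν : ℝ) (u n v : ℝ × ℝ) : Prop := |(v.1 - u.1) * n.1 + (v.2 - u.2) * n.2| ≤ ν

lemma tri_of_nonnarrow {ι : Type*} (A : Finset ι) (v : ι → ℝ × ℝ) (w : ι → ℝ)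
    (hw : ∀ l ∈ A, 0 ≤ w l) {ν : ℝ} (hν : 0 < ν)
    (hnn : ∀ u n : ℝ × ℝ, n.1 ^ 2 + n.2 ^ 2 = 1 →
      haveI := Classical.decPred fun l => InStrip ν u n (v l)
      ∑ l ∈ A.filter (fun l => InStrip ν u n (v l)), w l ≤ (∑ l ∈ A, w l) / 2) :
    haveI := Classical.propDecidable
    (∑ l ∈ A, w l) ^ 3 / 4 ≤ ∑ l0 ∈ A, ∑ l1 ∈ A, ∑ l2 ∈ A,
      if ν ^ 2 ≤ |D3 (dir (v l0)) (dir (v l1)) (dir (v l2))| then w l0 * w l1 * w l2 else 0 := by
  classical
  set μ : ℝ := ∑ l ∈ A, w l with hμ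
  have hμ0 : 0 ≤ μ := Finset.sum_nonneg hw
  -- complement weight
  have hcomp : ∀ u n : ℝ × ℝ, n.1 ^ 2 + n.2 ^ 2 = 1 →
      μ / 2 ≤ ∑ l ∈ A, if InStrip ν u n (v l) then 0 else w l := by
    intro u n hn
    have h1 := hnn u n hn
    have h2 : ∑ l ∈ A, (if InStrip ν u n (v l) then 0 else w l) +
        ∑ l ∈ A.filter (fun l => InStrip ν u n (v l)), w l = μ := by
      rw [Finset.sum_filter, ← Finset.sum_add_distrib, hμ]
      refine Finset.sum_congr rfl fun l _ => ?_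
      split_ifs <;> simp
    have h3 : ∑ l ∈ A.filter (fun l => InStrip ν u n (v l)), w l ≤ μ / 2 := by
      convert h1
    linarith
  have hlow : ∀ l0 ∈ A, μ ^ 2 / 4 ≤ ∑ l1 ∈ A, ∑ l2 ∈ A,
      if ν ^ 2 ≤ |D3 (dir (v l0)) (dir (v l1)) (dir (v l2))| then w l1 * w l2 else 0 := by
    intro l0 _
    -- points outside the vertical strip are far from `v l0`
    have h1 := hcomp (v l0) (1, 0) (by norm_num)
    calc μ ^ 2 / 4 = (μ / 2) * (μ / 2) := by ring
      _ ≤ (∑ l1 ∈ A, if InStrip ν (v l0) (1, 0) (v l1) then 0 else w l1) * (μ / 2) :=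
          mul_le_mul_of_nonneg_right h1 (by linarith)
      _ = ∑ l1 ∈ A, (if InStrip ν (v l0) (1, 0) (v l1) then 0 else w l1) * (μ / 2) := by
          rw [Finset.sum_mul]
      _ ≤ ∑ l1 ∈ A, ∑ l2 ∈ A,
          if ν ^ 2 ≤ |D3 (dir (v l0)) (dir (v l1)) (dir (v l2))| then w l1 * w l2 else 0 := by
          refine Finset.sum_le_sum fun l1 hl1 => ?_
          by_cases hs : InStrip ν (v l0) (1, 0) (v l1)
          · rw [if_pos hs, zero_mul]
            refine Finset.sum_nonneg fun l2 hl2 => ?_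
            split_ifs
            · exact mul_nonneg (hw l1 hl1) (hw l2 hl2)
            · exact le_rfl
          · rw [if_neg hs]
            unfold InStrip at hs
            push Not at hs
            set a : ℝ := (v l1).1 - (v l0).1 with ha
            set b : ℝ := (v l1).2 - (v l0).2 with hb
            have ha' : ν < |a| := by
              have : (v l1).1 - (v l0).1 = a := rfl
              simpa [ha] using hs
            set ρ : ℝ := √(a ^ 2 + b ^ 2) with hρ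
            have hρν : ν ≤ ρ := by
              rw [hρ]
              refine ha'.le.trans ?_
              rw [← Real.sqrt_sq_eq_abs]
              exact Real.sqrt_le_sqrt (by nlinarith [sq_nonneg b])
            have hρpos : 0 < ρ := lt_of_lt_of_le hν hρν
            have hρsq : ρ ^ 2 = a ^ 2 + b ^ 2 := Real.sq_sqrt (by positivity)
            have h2 := hcomp (v l0) (-(b / ρ), a / ρ) (by
              have : (-(b / ρ)) ^ 2 + (a / ρ) ^ 2 = (a ^ 2 + b ^ 2) / ρ ^ 2 := by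
                field_simp
                ring
              simp only [this, hρsq]
              rw [← hρsq]
              exact div_self (by positivity))
            calc w l1 * (μ / 2)
                ≤ w l1 * ∑ l2 ∈ A, (if InStrip ν (v l0) (-(b / ρ), a / ρ) (v l2) then 0
                    else w l2) := mul_le_mul_of_nonneg_left h2 (hw l1 hl1)
              _ = ∑ l2 ∈ A, w l1 * (if InStrip ν (v l0) (-(b / ρ), a / ρ) (v l2) then 0
                    else w l2) := by rw [Finset.mul_sum]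
              _ ≤ ∑ l2 ∈ A, if ν ^ 2 ≤ |D3 (dir (v l0)) (dir (v l1)) (dir (v l2))|
                    then w l1 * w l2 else 0 := by
                  refine Finset.sum_le_sum fun l2 hl2 => ?_
                  by_cases hs2 : InStrip ν (v l0) (-(b / ρ), a / ρ) (v l2)
                  · rw [if_pos hs2, mul_zero]
                    split_ifs
                    · exact mul_nonneg (hw l1 hl1) (hw l2 hl2)
                    · exact le_rfl
                  · rw [if_neg hs2, if_pos]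
                    unfold InStrip at hs2
                    push Not at hs2
                    rw [D3_dir]
                    have e1 : ((v l1).1 - (v l0).1) * ((v l2).2 - (v l0).2) -
                        ((v l1).2 - (v l0).2) * ((v l2).1 - (v l0).1) =
                        ρ * (((v l2).1 - (v l0).1) * (-(b / ρ)) +
                          ((v l2).2 - (v l0).2) * (a / ρ)) := by
                      have hρne : ρ ≠ 0 := hρpos.ne'
                      field_simp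
                      ring
                    rw [e1, abs_mul, abs_of_pos hρpos, pow_two]
                    exact mul_le_mul hρν hs2.le hν.le hρpos.le
  calc μ ^ 3 / 4 = ∑ l0 ∈ A, w l0 * (μ ^ 2 / 4) := by
        rw [← Finset.sum_mul, ← hμ]; ring
    _ ≤ ∑ l0 ∈ A, w l0 * ∑ l1 ∈ A, ∑ l2 ∈ A,
          (if ν ^ 2 ≤ |D3 (dir (v l0)) (dir (v l1)) (dir (v l2))| then w l1 * w l2 else 0) :=
        Finset.sum_le_sum fun l0 h0 => mul_le_mul_of_nonneg_left (hlow l0 h0) (hw l0 h0)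
    _ = _ := by
        refine Finset.sum_congr rfl fun l0 _ => ?_
        rw [Finset.mul_sum]
        refine Finset.sum_congr rfl fun l1 _ => ?_
        rw [Finset.mul_sum]
        refine Finset.sum_congr rfl fun l2 _ => ?_
        split_ifs
        · ring
        · ring

/-- **Kakeya at non-narrow points.** `p l` = any point on the line, direction `dir (v l)`. -/
theorem nonnarrow_kakeya (ε : ℝ) (hε : 0 < ε) : ∃ C : ℝ, 0 < C ∧
    ∀ {ι : Type} (s : Finset ι) (p : ι → Fin 3 → ℝ) (v : ι → ℝ × ℝ) (w : ι → ℝ)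
      (_ : ∀ l ∈ s, 0 ≤ w l) (ν r R : ℝ) (_ : 0 < ν) (_ : ν ≤ 1)
      (_ : 1 ≤ r) (_ : 1 ≤ R) (_ : ∀ l ∈ s, |(v l).1| ≤ 1 ∧ |(v l).2| ≤ 1)
      (X : Finset (Fin 3 → ℤ)) (_ : ∀ k ∈ X, ∀ i, |(k i : ℝ)| ≤ R)
      (A : (Fin 3 → ℤ) → Finset ι) (_ : ∀ k ∈ X, A k ⊆ s)
      (_ : ∀ k ∈ X, ∀ l ∈ A k, Near (pt 1 k) (p l) (dir (v l)) r)
      (_ : ∀ k ∈ X, ∀ u n : ℝ × ℝ, n.1 ^ 2 + n.2 ^ 2 = 1 →
        haveI := Classical.decPred fun l => InStrip ν u n (v l)
        ∑ l ∈ (A k).filter (fun l => InStrip ν u n (v l)), w l ≤ (∑ l ∈ A k, w l) / 2),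
      ∑ k ∈ X, √(∑ l ∈ A k, w l) ^ 3 ≤
        C * r ^ 3 * (ν⁻¹) ^ 26 * R ^ ε * √(∑ l ∈ s, w l) ^ 3 := by
  obtain ⟨C, hC, key⟩ := broad_kakeya ε hε
  refine ⟨2 * C, by positivity, ?_⟩
  intro ι s p v w hw ν r R hν hν1 hr hR hv X hX A hA hnear hnn
  classical
  have h1 := key s p (fun l => dir (v l)) w hw (ν ^ 2) r R (by positivity)
    (pow_le_one₀ hν.le hν1) hr hR (fun l hl i => by
      have := hv l hl
      fin_cases i
      · simpa [dir] using this.1
      · simpa [dir] using this.2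
      · simp [dir]) X hX
  have h2 : ∀ k ∈ X, √(∑ l ∈ A k, w l) ^ 3 ≤
      2 * √(Tri s p (fun l => dir (v l)) w (ν ^ 2) r (pt 1 k)) := by
    intro k hk
    have hwA : ∀ l ∈ A k, 0 ≤ w l := fun l hl => hw l (hA k hk hl)
    have h3 := tri_of_nonnarrow (A k) v w hwA hν (hnn k hk)
    have h4 : ∑ l0 ∈ A k, ∑ l1 ∈ A k, ∑ l2 ∈ A k,
        (if ν ^ 2 ≤ |D3 (dir (v l0)) (dir (v l1)) (dir (v l2))| then w l0 * w l1 * w l2 else 0) ≤
        Tri s p (fun l => dir (v l)) w (ν ^ 2) r (pt 1 k) := by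
      unfold Tri
      have hn : ∀ l0 ∈ s, ∀ l1 ∈ s, ∀ l2 ∈ s,
          0 ≤ (if Near (pt 1 k) (p l0) (dir (v l0)) r ∧ Near (pt 1 k) (p l1) (dir (v l1)) r ∧
            Near (pt 1 k) (p l2) (dir (v l2)) r ∧
            ν ^ 2 ≤ |D3 (dir (v l0)) (dir (v l1)) (dir (v l2))| then w l0 * w l1 * w l2
            else 0) := by
        intro l0 h0 l1 h1 l2 h2
        split_ifs
        · exact mul_nonneg (mul_nonneg (hw _ h0) (hw _ h1)) (hw _ h2)
        · exact le_rfl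
      refine le_trans ?_ (Finset.sum_le_sum_of_subset_of_nonneg (hA k hk) fun l0 h0 _ =>
        Finset.sum_nonneg fun l1 h1 => Finset.sum_nonneg fun l2 h2 => hn l0 h0 l1 h1 l2 h2)
      refine Finset.sum_le_sum fun l0 h0 => ?_
      refine le_trans ?_ (Finset.sum_le_sum_of_subset_of_nonneg (hA k hk) fun l1 h1 _ =>
        Finset.sum_nonneg fun l2 h2 => hn l0 (hA k hk h0) l1 h1 l2 h2)
      refine Finset.sum_le_sum fun l1 h1 => ?_
      refine le_trans ?_ (Finset.sum_le_sum_of_subset_of_nonneg (hA k hk) fun l2 h2 _ =>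
        hn l0 (hA k hk h0) l1 (hA k hk h1) l2 h2)
      refine Finset.sum_le_sum fun l2 h2 => ?_
      have n0 := hnear k hk l0 h0
      have n1 := hnear k hk l1 h1
      have n2 := hnear k hk l2 h2
      by_cases hD : ν ^ 2 ≤ |D3 (dir (v l0)) (dir (v l1)) (dir (v l2))|
      · rw [if_pos hD, if_pos ⟨n0, n1, n2, hD⟩]
      · rw [if_neg hD]
        exact hn l0 (hA k hk h0) l1 (hA k hk h1) l2 (hA k hk h2)
    have hμ0 : 0 ≤ ∑ l ∈ A k, w l := Finset.sum_nonneg hwA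
    have h5 : (∑ l ∈ A k, w l) ^ 3 ≤ 4 * Tri s p (fun l => dir (v l)) w (ν ^ 2) r (pt 1 k) := by
      have h3' : (∑ l ∈ A k, w l) ^ 3 / 4 ≤ ∑ l0 ∈ A k, ∑ l1 ∈ A k, ∑ l2 ∈ A k,
        (if ν ^ 2 ≤ |D3 (dir (v l0)) (dir (v l1)) (dir (v l2))| then w l0 * w l1 * w l2
          else 0) := by
        convert h3
      linarith
    have h6 : √(∑ l ∈ A k, w l) ^ 3 = √((∑ l ∈ A k, w l) ^ 3) := by
      rw [Real.sqrt_eq_rpow, Real.sqrt_eq_rpow, ← Real.rpow_natCast, ← Real.rpow_mul hμ0,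
        ← Real.rpow_natCast, ← Real.rpow_mul hμ0]
      norm_num
    rw [h6]
    refine (Real.sqrt_le_sqrt h5).trans ?_
    rw [Real.sqrt_mul (by norm_num), show (4 : ℝ) = 2 ^ 2 by norm_num, Real.sqrt_sq (by norm_num)]
  calc ∑ k ∈ X, √(∑ l ∈ A k, w l) ^ 3
      ≤ ∑ k ∈ X, 2 * √(Tri s p (fun l => dir (v l)) w (ν ^ 2) r (pt 1 k)) :=
        Finset.sum_le_sum h2
    _ = 2 * ∑ k ∈ X, √(Tri s p (fun l => dir (v l)) w (ν ^ 2) r (pt 1 k)) := by
        rw [Finset.mul_sum]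
    _ ≤ 2 * (C * r ^ 3 * ((ν ^ 2)⁻¹) ^ 13 * R ^ ε * √(∑ l ∈ s, w l) ^ 3) :=
        mul_le_mul_of_nonneg_left h1 (by norm_num)
    _ = _ := by
        rw [← inv_pow, ← pow_mul]
        ring

end Crest.Agent.R138.MK877
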