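import Crest.Agent.R138.L15Def_196
import Mathlib
import Crest.Agent.R138.Uni_926
import Crest.Agent.R138.Dp1_76
import Crest.Agent.R138.MkRef_627

-- ▼ part R138/L15A_196
section

/-!
# R138, TEXT I, leaf L15, piece [A] (helper196): `Raw → ExtP`
-/

set_option autoImplicit false
set_option linter.unusedVariables false
set_option linter.unusedSectionVars false

open Finset Filter Topology

namespace Crest.Agent.R138.L15

open Crest.Agent.R138.Ex926
open Crest.Agent.R138.Flg101

section gen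

variable {B : Base} {ι : ℕ → Type} [∀ n, DecidableEq (ι n)] {κ : ℕ → Type*}
  [∀ n, DecidableEq (κ n)] {V : Type*} [LE V] {I I' : ∀ n, Finset (ι n)}
  {f : ∀ n, V → ι n → κ n} {P : Set V} {ν : V → ℝ}

/-- the profile is at most an upper bound for the classes -/
theorem prof_le (hν : QProf B I' f P ν) (hne : ∀ᶠ n in (U : Filter ℕ), (I' n).Nonempty) {p : V}
    (hp : p ∈ P) {a : ℝ}
    (h : ∀ ε : ℝ, 0 < ε → ∀ᶠ n in (U : Filter ℕ), ∀ i ∈ I' n,
      ((cls (I' n) (f n p) i).card : ℝ) ≤ B.d n ^ (-(a + ε))) : ν p ≤ a := by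
  refine le_of_forall_pos_le_add fun ε hε => ?_
  obtain ⟨n, h1, h2⟩ := ((hν.ev_big hne (half_pos hε)).and (h (ε / 2) (half_pos hε))).exists
  obtain ⟨i, hi, hb⟩ := h1 p hp
  have h3 := h2 i hi
  have hL := B.L_pos n
  have h4 := Real.log_le_log (by linarith [cls_card_pos (f := f n p) hi]) h3
  rw [Real.log_rpow (B.pos n), B.log_d] at h4
  have h5 : (ν p - ε / 2) * B.L n ≤ (a + ε / 2) * B.L n := by linarith
  have h6 := le_of_mul_le_mul_right h5 hL
  linarith

/-- the profile is at least an upper bound for the number of classes -/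
theorem prof_ge (hν : QProf B I' f P ν) {S : ℕ → ℝ} (hS : B.Sub S)
    (hbasic : ∀ᶠ n in (U : Filter ℕ), I' n ⊆ I n ∧ (I' n).Nonempty ∧
      ((I n).card : ℝ) ≤ S n * (I' n).card ∧ 1 ≤ S n) {p : V} (hp : p ∈ P) {a : ℝ}
    (h : ∀ ε : ℝ, 0 < ε → ∀ᶠ n in (U : Filter ℕ),
      (((I n).image (f n p)).card : ℝ) ≤ (I n).card * B.d n ^ (a - ε)) : a ≤ ν p := by
  refine le_of_forall_pos_le_add fun ε hε => ?_
  have hε3 : 0 < ε / 3 := by positivity
  obtain ⟨n, h1, h2, h3, h4⟩ := ((hν.up _ hε3).and ((h _ hε3).and (hbasic.and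
    (hS.ev_le hε3)))).exists
  obtain ⟨hsub, ⟨i, hi⟩, hc, hS1⟩ := h3
  have hL := B.L_pos n
  have hpos : ∀ t : ℝ, 0 < B.d n ^ t := fun t => Real.rpow_pos_of_pos (B.pos n) t
  have k1 : ((I' n).card : ℝ) ≤ B.d n ^ (-(ν p + ε / 3)) * ((I' n).image (f n p)).card := by
    have := le_count_mul (I' n) (fun _ => (1 : ℝ)) (f n p)
      (m := B.d n ^ (-(ν p + ε / 3))) (fun x hx => by
        rw [sum_const, nsmul_eq_mul, mul_one]
        exact h1 p hp x hx)
    rwa [sum_const, nsmul_eq_mul, mul_one] at this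
  have k2 : (((I' n).image (f n p)).card : ℝ) ≤ ((I n).image (f n p)).card := by
    exact_mod_cast card_le_card (image_subset_image hsub)
  have hc0 : (0 : ℝ) < (I' n).card := by
    exact_mod_cast card_pos.2 ⟨i, hi⟩
  have k3 : ((I' n).card : ℝ) ≤ B.d n ^ (-(ν p + ε / 3)) *
      ((S n * (I' n).card) * B.d n ^ (a - ε / 3)) := by
    refine k1.trans (mul_le_mul_of_nonneg_left ?_ (hpos _).le)
    refine k2.trans (h2.trans ?_)
    exact mul_le_mul_of_nonneg_right hc (hpos _).le
  have k4 : (1 : ℝ) ≤ S n * (B.d n ^ (-(ν p + ε / 3)) * B.d n ^ (a - ε / 3)) := by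
    have : (I' n).card * 1 ≤ ((I' n).card : ℝ) *
        (S n * (B.d n ^ (-(ν p + ε / 3)) * B.d n ^ (a - ε / 3))) := by
      rw [mul_one]
      refine k3.trans (le_of_eq ?_)
      ring
    exact le_of_mul_le_mul_left this hc0
  rw [← Real.rpow_add (B.pos n)] at k4
  have k5 := Real.log_le_log one_pos k4
  rw [Real.log_one, Real.log_mul h4.1.ne' (hpos _).ne', Real.log_rpow (B.pos n), B.log_d] at k5
  have h4' := h4.2
  have k6 : a * B.L n ≤ (ν p + ε) * B.L n := by nlinarith
  exact le_of_mul_le_mul_right k6 hL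

/-- the profile drops at most by the exponent of the number of children -/
theorem prof_child (hν : QProf B I' f P ν) (hne : ∀ᶠ n in (U : Filter ℕ), (I' n).Nonempty)
    {p p' : V} (hp : p ∈ P) (hp' : p' ∈ P) {D : ℝ}
    (h : ∀ ε : ℝ, 0 < ε → ∀ᶠ n in (U : Filter ℕ), ∀ i ∈ I' n,
      (((cls (I' n) (f n p) i).image (f n p')).card : ℝ) ≤ B.d n ^ (-(D + ε))) :
    ν p - ν p' ≤ D := by
  refine le_of_forall_pos_le_add fun ε hε => ?_
  have hε3 : 0 < ε / 3 := by positivity
  obtain ⟨n, h1, h2, h3⟩ := ((hν.ev_big hne hε3).and ((hν.up _ hε3).and (h _ hε3))).exists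
  obtain ⟨i, hi, hb⟩ := h1 p hp
  have hL := B.L_pos n
  have hpos : ∀ t : ℝ, 0 < B.d n ^ t := fun t => Real.rpow_pos_of_pos (B.pos n) t
  have k1 : ((cls (I' n) (f n p) i).card : ℝ) ≤
      B.d n ^ (-(ν p' + ε / 3)) * ((cls (I' n) (f n p) i).image (f n p')).card := by
    have := le_count_mul (cls (I' n) (f n p) i) (fun _ => (1 : ℝ)) (f n p')
      (m := B.d n ^ (-(ν p' + ε / 3))) (fun x hx => by
        rw [sum_const, nsmul_eq_mul, mul_one]
        refine le_trans ?_ (h2 p' hp' x (mem_cls.1 hx).1)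
        exact_mod_cast card_le_card (cls_mono (cls_subset _ _ _) _ _))
    rwa [sum_const, nsmul_eq_mul, mul_one] at this
  have k2 := h3 i hi
  have k3 : ((cls (I' n) (f n p) i).card : ℝ) ≤ B.d n ^ (-(ν p' + ε / 3)) *
      B.d n ^ (-(D + ε / 3)) := k1.trans (mul_le_mul_of_nonneg_left k2 (hpos _).le)
  rw [← Real.rpow_add (B.pos n)] at k3
  have k4 := Real.log_le_log (by linarith [cls_card_pos (f := f n p) hi]) k3
  rw [Real.log_rpow (B.pos n), B.log_d] at k4
  have k5 : (ν p - ν p') * B.L n ≤ (D + ε) * B.L n := by nlinarith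
  exact le_of_mul_le_mul_right k5 hL

/-- a Lipschitz function on `[0,1]` which is nonnegative inside is nonnegative -/
theorem ext01 {F : ℝ → ℝ} {C : ℝ}
    (hl : ∀ v w : ℝ, 0 ≤ v → v ≤ 1 → 0 ≤ w → w ≤ 1 → |F v - F w| ≤ C * |v - w|)
    (h : ∀ v : ℝ, 0 < v → v < 1 → 0 ≤ F v) {v : ℝ} (hv0 : 0 ≤ v) (hv1 : v ≤ 1) : 0 ≤ F v := by
  have hC : 0 ≤ C := by
    have := hl 0 1 le_rfl zero_le_one zero_le_one le_rfl
    have h2 := (abs_nonneg _).trans this
    simpa using h2
  refine le_of_forall_pos_le_add fun ε hε => ?_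
  set t : ℝ := min 1 (ε / (C + 1)) with ht
  have ht0 : 0 < t := lt_min one_pos (by positivity)
  have ht1 : t ≤ 1 := min_le_left _ _
  have htC : C * t ≤ ε := by
    have h1 : t ≤ ε / (C + 1) := min_le_right _ _
    rw [le_div_iff₀ (by positivity)] at h1
    nlinarith
  set w : ℝ := v + t * (1 / 2 - v) with hw
  have hw0 : 0 < w := by rw [hw]; nlinarith
  have hw1 : w < 1 := by rw [hw]; nlinarith
  have h1 := h w hw0 hw1
  have h2 := hl v w hv0 hv1 hw0.le hw1.le
  have h3 : |v - w| ≤ t := by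
    rw [hw, abs_le]; constructor <;> nlinarith
  have h4 := (abs_le.1 (h2.trans (mul_le_mul_of_nonneg_left h3 hC))).1
  linarith

end gen

section olab

variable {B : Base} {ι : ℕ → Type} [∀ n, DecidableEq (ι n)] {I : ∀ n, Finset (ι n)}
  {x : ∀ n, ι n → Inc} {line : ∀ n, ι n → ℕ}

theorem Icc_eq_WP (M : ℝ) : (Set.Icc 0 (fun _ => M) : Set (Fin 2 → ℝ)) = WP ∅ M := by
  ext p
  simp only [WP, Set.mem_Icc, Set.mem_ofPred_eq, Pi.le_def, Pi.zero_apply]
  constructor
  · rintro ⟨a, b⟩; exact ⟨fun i => ⟨a i, b i⟩, fun w hw => absurd hw (Set.notMem_empty _)⟩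
  · rintro ⟨a, b⟩; exact ⟨fun i => (a i).1, fun i => (a i).2⟩

theorem Icc_snet (M : ℝ) : SNet (Set.Icc 0 (fun _ => M) : Set (Fin 2 → ℝ)) := by
  rw [Icc_eq_WP]
  exact WP.snet ∅ M (fun _ => 1) (fun _ => one_pos) (fun w hw => absurd hw (Set.notMem_empty _))

theorem Icc_sup (M : ℝ) : ∀ p ∈ (Set.Icc 0 (fun _ => M) : Set (Fin 2 → ℝ)),
    ∀ q ∈ (Set.Icc 0 (fun _ => M) : Set (Fin 2 → ℝ)), p ⊔ q ∈ (Set.Icc 0 (fun _ => M) : Set (Fin 2 → ℝ)) := by
  rw [Icc_eq_WP]
  exact WP.sup ∅ M

theorem levc_diff (B : Base) (n : ℕ) {a b : ℝ} (hb : 0 ≤ b) (hab : a ≤ b) :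
    ((B.levc n b - B.levc n a : ℕ) : ℝ) * Real.log 2 ≤ (b - a) * B.L n + Real.log 2 := by
  have hl2 : 0 < Real.log 2 := Real.log_pos (by norm_num)
  have hL := B.L_pos n
  rw [Nat.cast_sub (B.levc_mono n hab)]
  have e1 : ((B.levc n b : ℕ) : ℝ) < b * B.L n / Real.log 2 + 1 :=
    Nat.ceil_lt_add_one (by positivity)
  have e2 : a * B.L n / Real.log 2 ≤ ((B.levc n a : ℕ) : ℝ) := Nat.le_ceil _
  have e3 : b * B.L n / Real.log 2 * Real.log 2 = b * B.L n := by field_simp
  have e4 : a * B.L n / Real.log 2 * Real.log 2 = a * B.L n := by field_simp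
  nlinarith

theorem lev_diff (B : Base) (n : ℕ) {a b : ℝ} (hb : 0 ≤ b) (hab : a ≤ b) :
    ((B.lev n b - B.lev n a : ℕ) : ℝ) * Real.log 2 ≤ (b - a) * B.L n + Real.log 2 := by
  have hl2 : 0 < Real.log 2 := Real.log_pos (by norm_num)
  have hL := B.L_pos n
  rw [Nat.cast_sub (B.lev_mono n hab)]
  have e1 : ((B.lev n b : ℕ) : ℝ) ≤ b * B.L n / Real.log 2 := Nat.floor_le (by positivity)
  have e2 : a * B.L n / Real.log 2 < (B.lev n a : ℝ) + 1 := Nat.lt_floor_add_one _
  have e3 : b * B.L n / Real.log 2 * Real.log 2 = b * B.L n := by field_simp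
  have e4 : a * B.L n / Real.log 2 * Real.log 2 = a * B.L n := by field_simp
  nlinarith

theorem two_pow_eq (m : ℕ) : (2 : ℝ) ^ m = Real.exp ((m : ℝ) * Real.log 2) := by
  rw [← Real.rpow_natCast, Real.rpow_def_of_pos (by norm_num), mul_comm]

theorem olab_QFam (B : Base) (I : ∀ n, Finset (ι n)) (x : ∀ n, ι n → Inc)
    (line : ∀ n, ι n → ℕ) (M : ℝ) :
    QFam B I (olab B x line) 2 (Set.Icc 0 (fun _ => M)) where
  nest := by
    refine ⟨fun _ => 1, Base.Sub.const one_pos, Eventually.of_forall fun n p hp p' hp' hpp i hi => ?_⟩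
    have hs : (two (I n) (olab B x line n p) (olab B x line n p') i).image (olab B x line n p) ⊆
        {olab B x line n p i} := by
      intro c hc
      obtain ⟨z, hz, rfl⟩ := mem_image.1 hc
      obtain ⟨h1, y, h2, h3, h4⟩ := mem_two.1 hz
      rw [mem_singleton, ← h3]
      simp only [olab, Prod.mk.injEq] at h4 ⊢
      obtain ⟨e1, e2⟩ := h4
      refine ⟨e1, ?_⟩
      exact cell_nested (B.levc_mono n (hpp 0)) (B.levc_mono n (hpp 1)) e2
    have := card_le_card hs
    rw [card_singleton] at this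
    show (_ : ℝ) ≤ (1 : ℝ)
    exact_mod_cast this
  child := fun ε hε => by
    have hl2 : 0 < Real.log 2 := Real.log_pos (by norm_num)
    filter_upwards [B.ev_const_log (2 * Real.log 2) hε] with n hn p hp p' hp' hpp i hi
    have hL := B.L_pos n
    have h0 : ∀ a, 0 ≤ p' a := fun a => hp'.1 a
    set A := cls (I n) (olab B x line n p) i with hA
    have hcell : ∀ t ∈ A, (x n t).cell (B.levc n (p 0)) (B.levc n (p 1)) =
        (x n i).cell (B.levc n (p 0)) (B.levc n (p 1)) := by
      intro t ht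
      have := (mem_cls.1 ht).2
      simp only [olab, Prod.mk.injEq] at this
      exact this.2
    have hline : ∀ t ∈ A, line n t = line n i := by
      intro t ht
      have := (mem_cls.1 ht).2
      simp only [olab, Prod.mk.injEq] at this
      exact this.1
    have h1 := card_cell_le A (x n) (B.levc_mono n (hpp 0)) (B.levc_mono n (hpp 1)) (x n i) hcell
    have h2 : (A.image (olab B x line n p')).card ≤
        (A.image fun t => (x n t).cell (B.levc n (p' 0)) (B.levc n (p' 1))).card := by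
      have hs : A.image (olab B x line n p') ⊆ (A.image fun t =>
          (x n t).cell (B.levc n (p' 0)) (B.levc n (p' 1))).image fun c => (line n i, c) := by
        intro c hc
        obtain ⟨t, ht, rfl⟩ := mem_image.1 hc
        rw [mem_image]
        refine ⟨_, mem_image_of_mem _ ht, ?_⟩
        simp only [olab, hline t ht]
      exact (card_le_card hs).trans card_image_le
    have h3 : ((A.image (olab B x line n p')).card : ℝ) ≤
        2 ^ ((B.levc n (p' 0) - B.levc n (p 0)) + (B.levc n (p' 1) - B.levc n (p 1))) := by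
      rw [pow_add]
      exact_mod_cast h2.trans h1
    refine h3.trans ?_
    rw [two_pow_eq, ← B.exp_eq]
    refine Real.exp_le_exp.2 ?_
    have d0 := levc_diff B n (h0 0) (hpp 0)
    have d1 := levc_diff B n (h0 1) (hpp 1)
    have hpd : ∀ a, p' a - p a ≤ ‖p' - p‖ := fun a => by
      have := norm_le_pi_norm (p' - p) a
      rw [Pi.sub_apply, Real.norm_eq_abs] at this
      exact (le_abs_self _).trans this
    have e0 := mul_le_mul_of_nonneg_right (hpd 0) hL.le
    have e1 := mul_le_mul_of_nonneg_right (hpd 1) hL.le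
    push_cast
    nlinarith

theorem flab_child (B : Base) (I : ∀ n, Finset (ι n)) (x : ∀ n, ι n → Inc) {M : ℝ}
    {p p' : Fin 6 → ℝ} (hp : p ∈ LEG M) (hp' : p' ∈ LEG M) (hpp : p ≤ p') {ε : ℝ} (hε : 0 < ε) :
    ∀ᶠ n in (U : Filter ℕ), ∀ i ∈ I n,
      (((cls (I n) (flab B x n p) i).image (flab B x n p')).card : ℝ) ≤
        B.d n ^ (-(∑ a, (p' a - p a) + ε)) := by
  have hl2 : 0 < Real.log 2 := Real.log_pos (by norm_num)
  filter_upwards [B.ev_const_log (Real.log 675 + 6 * Real.log 2) hε] with n hn i hi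
  have hL := B.L_pos n
  have h := card_fine_le (I n) (x n) (B.levc_mono n (hpp 4)) (B.levc_mono n (hpp 5))
    (p := vlev B n p) (p' := vlev B n p') (fun k => by
      fin_cases k
      · exact B.lev_mono n (hpp 0)
      · exact B.levc_mono n (hpp 1)
      · exact B.levc_mono n (hpp 2)
      · exact B.lev_mono n (hpp 3)) (wall_of_LEG B n hp) i
  have h' : (((cls (I n) (flab B x n p) i).image (flab B x n p')).card : ℝ) ≤
      675 * 2 ^ ((B.levc n (p' 4) - B.levc n (p 4)) + (B.levc n (p' 5) - B.levc n (p 5)) +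
        ∑ k, (vlev B n p' k - vlev B n p k)) := by exact_mod_cast h
  refine h'.trans ?_
  have h0 : ∀ a, 0 ≤ p' a := fun a => ((mem_LEG.1 hp').1 a).1
  rw [two_pow_eq, ← B.exp_eq, ← Real.exp_log (show (0:ℝ) < 675 by norm_num), ← Real.exp_add]
  refine Real.exp_le_exp.2 ?_
  rw [Fin.sum_univ_four, Fin.sum_univ_six]
  have s0 := lev_diff B n (h0 0) (hpp 0)
  have s1 := levc_diff B n (h0 1) (hpp 1)
  have s2 := levc_diff B n (h0 2) (hpp 2)
  have s3 := lev_diff B n (h0 3) (hpp 3)
  have s4 := levc_diff B n (h0 4) (hpp 4)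
  have s5 := levc_diff B n (h0 5) (hpp 5)
  have v0 : vlev B n p' 0 - vlev B n p 0 = B.lev n (p' 0) - B.lev n (p 0) := rfl
  have v1 : vlev B n p' 1 - vlev B n p 1 = B.levc n (p' 1) - B.levc n (p 1) := rfl
  have v2 : vlev B n p' 2 - vlev B n p 2 = B.levc n (p' 2) - B.levc n (p 2) := rfl
  have v3 : vlev B n p' 3 - vlev B n p 3 = B.lev n (p' 3) - B.lev n (p 3) := rfl
  rw [v0, v1, v2, v3]
  push_cast
  nlinarith

/-- few slope cells -/
theorem card_floor_le {α : Type*} [DecidableEq α] (A : Finset α) (g : α → ℝ) {D : ℝ} (hD : 0 ≤ D)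
    (h : ∀ t ∈ A, ∀ t' ∈ A, |g t - g t'| ≤ D) (j : ℕ) :
    ((A.image fun t => ⌊(2 : ℝ) ^ j * g t⌋).card : ℝ) ≤ 2 * (2 ^ j * D) + 3 := by
  classical
  rcases A.eq_empty_or_nonempty with h0 | ⟨t0, ht0⟩
  · rw [h0]; simp; positivity
  set K : ℕ := ⌈(2 : ℝ) ^ j * D⌉₊ with hK
  have hs : (A.image fun t => ⌊(2 : ℝ) ^ j * g t⌋) ⊆
      Finset.Icc (⌊(2 : ℝ) ^ j * g t0⌋ - K) (⌊(2 : ℝ) ^ j * g t0⌋ + K) := by
    intro c hc
    obtain ⟨t, ht, rfl⟩ := mem_image.1 hc
    have h1 := h t ht t0 ht0
    have h2 : |g t - g t0| ≤ K * (1 / 2) ^ j := by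
      refine h1.trans ?_
      have h3 : (2 : ℝ) ^ j * D ≤ K := Nat.le_ceil _
      have h4 : (1 / 2 : ℝ) ^ j = 1 / 2 ^ j := by rw [div_pow, one_pow]
      rw [h4, mul_one_div, le_div_iff₀ (by positivity)]
      linarith
    have h3 := floor_of_dist h2
    rw [abs_le] at h3
    rw [Finset.mem_Icc]
    constructor <;> linarith [h3.1, h3.2]
  have h1 := card_le_card hs
  rw [Int.card_Icc] at h1
  have h2 : ⌊(2 : ℝ) ^ j * g t0⌋ + (K : ℤ) + 1 - (⌊(2 : ℝ) ^ j * g t0⌋ - (K : ℤ)) =
      ((2 * K + 1 : ℕ) : ℤ) := by push_cast; ring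
  rw [h2, Int.toNat_natCast] at h1
  have h3 : ((A.image fun t => ⌊(2 : ℝ) ^ j * g t⌋).card : ℝ) ≤ 2 * K + 1 := by exact_mod_cast h1
  have h4 : (K : ℝ) < 2 ^ j * D + 1 := Nat.ceil_lt_add_one (by positivity)
  linarith

end olab

section main

variable {B : Base} {ι : ℕ → Type} [∀ n, DecidableEq (ι n)] {I : ∀ n, Finset (ι n)}
  {x : ∀ n, ι n → Inc} {line : ∀ n, ι n → ℕ} {M s b q k θ c₀ : ℝ}

theorem Raw.mem_path (h : Raw B I x line M s b q k θ c₀) {v : ℝ} (hv0 : 0 ≤ v) (hv1 : v ≤ 1) :
    Bx6 v (θ * (1 - v)) (θ * (1 - v) + k * v) (k * v) ∈ LEG M := by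
  have hk := h.k0
  have hθ := h.θ0
  obtain ⟨m1, m2⟩ := h.M0
  have a1 : 0 ≤ θ * (1 - v) := mul_nonneg hθ.le (by linarith)
  have a2 : 0 ≤ k * v := mul_nonneg hk.le hv0
  have a3 : v + (θ * (1 - v) + k * v) ≤ M := by
    have : v + (θ * (1 - v) + k * v) = v * (1 + k) + (1 - v) * θ := by ring
    rw [this]
    nlinarith [mul_le_mul_of_nonneg_left m1 hv0, mul_le_mul_of_nonneg_left m2 (by linarith : 0 ≤ 1 - v)]
  rw [mem_LEG]
  refine ⟨fun a => ?_, ?_, ?_, ?_, ?_⟩
  · fin_cases a
    · show 0 ≤ v + (θ * (1 - v) + k * v) ∧ v + (θ * (1 - v) + k * v) ≤ M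
      exact ⟨by linarith, a3⟩
    · show 0 ≤ θ * (1 - v) + k * v ∧ θ * (1 - v) + k * v ≤ M
      exact ⟨by linarith, by linarith⟩
    · show 0 ≤ θ * (1 - v) ∧ θ * (1 - v) ≤ M
      exact ⟨by linarith, by linarith⟩
    · show 0 ≤ v + θ * (1 - v) ∧ v + θ * (1 - v) ≤ M
      exact ⟨by linarith, by linarith⟩
    · show 0 ≤ v ∧ v ≤ M
      exact ⟨by linarith, by linarith⟩
    · show 0 ≤ k * v ∧ k * v ≤ M
      exact ⟨by linarith, by linarith⟩
  · show v + (θ * (1 - v) + k * v) ≤ θ * (1 - v) + k * v + v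
    linarith
  · show v + θ * (1 - v) ≤ θ * (1 - v) + v
    linarith
  · show v + (θ * (1 - v) + k * v) ≤ k * v + (v + θ * (1 - v))
    linarith
  · show θ * (1 - v) + k * v ≤ k * v + θ * (1 - v)
    linarith

/-- number of olab classes at `(v, r)`, `r ≤ k v` -/
theorem Raw.card_olab (h : Raw B I x line M s b q k θ c₀) {v r : ℝ} (hv0 : 0 < v) (hv1 : v < 1)
    (hr0 : 0 ≤ r) (hr : r ≤ k * v) {ε : ℝ} (hε : 0 < ε) : ∀ᶠ n in (U : Filter ℕ),
    (((I n).image (olab B x line n ![v, r])).card : ℝ) ≤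
      (I n).card * B.d n ^ ((1 - s) * (1 - v) - ε) := by
  have hε4 : 0 < ε / 4 := by positivity
  filter_upwards [h.ownL v hv0 hv1 _ hε4, h.rot v hv0 hv1 _ hε4,
    B.ev_const_log (Real.log 7) hε4] with n h1 h2 h3
  have hL := B.L_pos n
  have hpos : ∀ t : ℝ, 0 < B.d n ^ t := fun t => Real.rpow_pos_of_pos (B.pos n) t
  have k1 : (((I n).image (olab B x line n ![v, r])).card : ℝ) ≤
      7 * B.d n ^ (-(ε / 4)) * ((I n).image (lz x line n (B.levc n v))).card := by
    refine card_image_le_mul _ _ _ fun i hi => ?_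
    set A := cls (I n) (lz x line n (B.levc n v)) i with hA
    have hlz : ∀ t ∈ A, lz x line n (B.levc n v) t = lz x line n (B.levc n v) i :=
      fun t ht => (mem_cls.1 ht).2
    have hs : A.image (olab B x line n ![v, r]) ⊆
        (A.image fun t => ⌊(2 : ℝ) ^ (B.levc n r) * (x n t).θ⌋).image fun c =>
          (line n i, (⌊(2 : ℝ) ^ (B.levc n v) * (x n i).z⌋, c)) := by
      intro c hc
      obtain ⟨t, ht, rfl⟩ := mem_image.1 hc
      rw [mem_image]
      refine ⟨_, mem_image_of_mem _ ht, ?_⟩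
      have h5 := hlz t ht
      simp only [lz, Prod.mk.injEq] at h5
      show (line n i, (⌊(2 : ℝ) ^ (B.levc n v) * (x n i).z⌋, ⌊(2 : ℝ) ^ (B.levc n r) * (x n t).θ⌋)) =
        (line n t, (⌊(2 : ℝ) ^ (B.levc n v) * (x n t).z⌋, ⌊(2 : ℝ) ^ (B.levc n r) * (x n t).θ⌋))
      rw [h5.1, h5.2]
    have h4 : ((A.image (olab B x line n ![v, r])).card : ℝ) ≤
        (A.image fun t => ⌊(2 : ℝ) ^ (B.levc n r) * (x n t).θ⌋).card := by
      exact_mod_cast (card_le_card hs).trans card_image_le
    refine h4.trans ?_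
    have h5 := card_floor_le A (fun t => (x n t).θ) (D := B.d n ^ (k * v - ε / 4)) (hpos _).le
      (fun t ht t' ht' => h2 t (mem_cls.1 ht).1 t' (mem_cls.1 ht').1
        ((hlz t ht).trans (hlz t' ht').symm)) (B.levc n r)
    refine h5.trans ?_
    have h6 := B.pow_levc_le n hr0
    have h7 : (2 : ℝ) ^ (B.levc n r) * B.d n ^ (k * v - ε / 4) ≤ 2 * B.d n ^ (-(ε / 4)) := by
      calc (2 : ℝ) ^ (B.levc n r) * B.d n ^ (k * v - ε / 4) ≤
          2 * B.d n ^ (-r) * B.d n ^ (k * v - ε / 4) := mul_le_mul_of_nonneg_right h6 (hpos _).le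
        _ = 2 * B.d n ^ ((k * v - r) - ε / 4) := by
            rw [mul_assoc, ← Real.rpow_add (B.pos n)]; congr 2; ring
        _ ≤ 2 * B.d n ^ (-(ε / 4)) := by
            refine mul_le_mul_of_nonneg_left ?_ two_pos.le
            exact Real.rpow_le_rpow_of_exponent_ge (B.pos n) (B.lt n).le (by linarith)
    have h8 : (1 : ℝ) ≤ B.d n ^ (-(ε / 4)) :=
      Real.one_le_rpow_of_pos_of_le_one_of_nonpos (B.pos n) (B.lt n).le (by linarith)
    linarith
  have k2 : (7 : ℝ) ≤ B.d n ^ (-(ε / 4)) := by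
    rw [← B.exp_eq, ← Real.log_le_iff_le_exp (by norm_num)]
    exact h3
  have hI : (0 : ℝ) ≤ (I n).card := Nat.cast_nonneg _
  calc (((I n).image (olab B x line n ![v, r])).card : ℝ)
      ≤ 7 * B.d n ^ (-(ε / 4)) * ((I n).image (lz x line n (B.levc n v))).card := k1
    _ ≤ B.d n ^ (-(ε / 4)) * B.d n ^ (-(ε / 4)) *
        ((I n).card * B.d n ^ ((1 - s) * (1 - v) - ε / 4)) := by
        refine mul_le_mul (mul_le_mul_of_nonneg_right k2 (hpos _).le) h1 (Nat.cast_nonneg _) ?_
        exact mul_nonneg (hpos _).le (hpos _).le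
    _ = (I n).card * B.d n ^ ((1 - s) * (1 - v) - 3 * (ε / 4)) := by
        rw [mul_left_comm, ← Real.rpow_add (B.pos n), ← Real.rpow_add (B.pos n)]
        congr 2; ring
    _ ≤ (I n).card * B.d n ^ ((1 - s) * (1 - v) - ε) := by
        refine mul_le_mul_of_nonneg_left ?_ hI
        exact Real.rpow_le_rpow_of_exponent_ge (B.pos n) (B.lt n).le (by linarith)

/-- sizes of the two families -/
def mF : Bool → ℕ
  | true => 6
  | false => 2

/-- labels of the two families -/
def kF : Bool → ℕ → Type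
  | true, _ => (ℤ × ℤ) × (Fin 4 → ℤ)
  | false, _ => ℕ × (ℤ × ℤ)

instance kFdec : ∀ j n, DecidableEq (kF j n)
  | true, _ => inferInstanceAs (DecidableEq ((ℤ × ℤ) × (Fin 4 → ℤ)))
  | false, _ => inferInstanceAs (DecidableEq (ℕ × (ℤ × ℤ)))

/-- the two families -/
noncomputable def fF (B : Base) (x : ∀ n, ι n → Inc) (line : ∀ n, ι n → ℕ) :
    ∀ j n, (Fin (mF j) → ℝ) → ι n → kF j n
  | true, n => flab B x n
  | false, n => olab B x line n

/-- the parameter sets -/
def PF (M : ℝ) : ∀ j, Set (Fin (mF j) → ℝ)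
  | true => LEG M
  | false => Set.Icc 0 (fun _ => M)

/-- the Lipschitz constants -/
def KF : Bool → ℝ
  | true => 6
  | false => 2

theorem exists_two (I : ∀ n, Finset (ι n)) (x : ∀ n, ι n → Inc) (line : ∀ n, ι n → ℕ) (M : ℝ)
    (hne : ∀ᶠ n in (U : Filter ℕ), (I n).Nonempty)
    (hcard : ∃ C : ℝ, ∀ᶠ n in (U : Filter ℕ), ((I n).card : ℝ) ≤ B.d n ^ (-C)) :
    ∃ (I' : ∀ n, Finset (ι n)) (S : ℕ → ℝ), B.Sub S ∧
      (∀ᶠ n in (U : Filter ℕ), I' n ⊆ I n ∧ (I' n).Nonempty ∧
        ((I n).card : ℝ) ≤ S n * (I' n).card ∧ 1 ≤ S n) ∧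
      (∃ ν : (Fin 6 → ℝ) → ℝ, QProf B I' (flab B x) (LEG M) ν ∧
        (∀ p ∈ LEG M, ∀ q ∈ LEG M, |ν p - ν q| ≤ 6 * ‖p - q‖) ∧
        (∀ p ∈ LEG M, ∀ q ∈ LEG M, p ≤ q → ν q ≤ ν p)) ∧
      ∃ own : (Fin 2 → ℝ) → ℝ, QProf B I' (olab B x line) (Set.Icc 0 (fun _ => M)) own ∧
        (∀ p ∈ (Set.Icc 0 (fun _ => M) : Set (Fin 2 → ℝ)),
          ∀ q ∈ (Set.Icc 0 (fun _ => M) : Set (Fin 2 → ℝ)), |own p - own q| ≤ 2 * ‖p - q‖) ∧
        (∀ p ∈ (Set.Icc 0 (fun _ => M) : Set (Fin 2 → ℝ)),
          ∀ q ∈ (Set.Icc 0 (fun _ => M) : Set (Fin 2 → ℝ)), p ≤ q → own q ≤ own p) := by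
  obtain ⟨C, hC⟩ := hcard
  have hC' : ∀ᶠ n in (U : Filter ℕ), ((I n).card : ℝ) ≤ B.d n ^ (-(max C 0)) := by
    filter_upwards [hC] with n hn
    refine hn.trans (Real.rpow_le_rpow_of_exponent_ge (B.pos n) (B.lt n).le ?_)
    have := le_max_left C 0
    linarith
  obtain ⟨I', S, hS, hb, hJ⟩ := exists_qprof_many (B := B) (I := I) (m := mF) (f := fF B x line)
    (K := KF) (fun j => by cases j <;> simp [KF]) (P := PF M)
    (fun j => by
      cases j
      · exact Icc_snet M
      · exact LEG.snet M)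
    (fun j => by
      cases j
      · exact isCompact_Icc
      · exact LEG.isCompact M)
    (fun j => by
      cases j
      · exact Icc_sup M
      · exact LEG.sup M)
    (fun j => by
      cases j
      · exact olab_QFam B I x line M
      · exact flab_QFam B I x M)
    hne (le_max_right C 0) hC'
  exact ⟨I', S, hS, hb, hJ true, hJ false⟩

theorem Raw.exists_ext (h : Raw B I x line M s b q k θ c₀) :
    ∃ (I' : ∀ n, Finset (ι n)) (ν : (Fin 6 → ℝ) → ℝ) (own : (Fin 2 → ℝ) → ℝ),
      (∀ᶠ n in (U : Filter ℕ), I' n ⊆ I n) ∧ ExtP B I' x line ν own M s b q k θ c₀ := by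
  have hk := h.k0
  have hθ := h.θ0
  obtain ⟨hM1, hM2⟩ := h.M0
  obtain ⟨I', S, hS, hb, ⟨ν, hν, hνl, hνa⟩, own, ho, hol, hoa⟩ :=
    exists_two I x line M h.ne h.card
  have hne : ∀ᶠ n in (U : Filter ℕ), (I' n).Nonempty := hb.mono fun n hn => hn.2.1
  have hsub : ∀ᶠ n in (U : Filter ℕ), I' n ⊆ I n := hb.mono fun n hn => hn.1
  have mP : ∀ v r : ℝ, 0 ≤ v → v ≤ 1 → 0 ≤ r → r ≤ M →
      (![v, r] : Fin 2 → ℝ) ∈ (Set.Icc 0 (fun _ => M) : Set (Fin 2 → ℝ)) := by
    intro v r h0 h1 h2 h3
    constructor <;> intro a <;> fin_cases a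
    · exact h0
    · exact h2
    · show v ≤ M
      linarith
    · exact h3
  -- own, upper bound
  have oU : ∀ v r : ℝ, 0 ≤ v → v ≤ 1 → 0 ≤ r → r ≤ M → own ![v, r] ≤ (1 - s) * (1 - v) := by
    intro v r h0 h1 h2 h3
    refine prof_le ho hne (mP v r h0 h1 h2 h3) fun ε hε => ?_
    filter_upwards [h.ownU v h0 h1 ε hε, hsub] with n hn hs i hi
    refine le_trans ?_ (hn i (hs hi))
    refine Nat.cast_le.2 (card_le_card fun t ht => ?_)
    obtain ⟨t1, t2⟩ := mem_cls.1 ht
    have t3 : (line n t, (x n t).cell (B.levc n v) (B.levc n r)) =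
      (line n i, (x n i).cell (B.levc n v) (B.levc n r)) := t2
    simp only [Inc.cell, Prod.mk.injEq] at t3
    rw [mem_filter]
    refine ⟨hs t1, ?_⟩
    simp only [lz, Prod.mk.injEq]
    exact ⟨t3.1, t3.2.1⟩
  -- own, lower bound
  have oL : ∀ ρ v : ℝ, 0 ≤ ρ → ρ ≤ k → 0 ≤ v → v ≤ 1 → (1 - s) * (1 - v) ≤ own ![v, ρ * v] := by
    intro ρ v hρ0 hρ hv0 hv1
    have hin : ∀ w : ℝ, 0 ≤ w → w ≤ 1 → 0 ≤ ρ * w ∧ ρ * w ≤ M := by
      intro w hw0 hw1
      refine ⟨mul_nonneg hρ0 hw0, ?_⟩
      nlinarith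
    have key := ext01 (F := fun w => own ![w, ρ * w] - (1 - s) * (1 - w))
      (C := 2 * (1 + ρ) + |1 - s|) ?_ ?_ hv0 hv1
    · linarith
    · intro w w' h1 h2 h3 h4
      have e1 := hol _ (mP w (ρ * w) h1 h2 (hin w h1 h2).1 (hin w h1 h2).2) _
        (mP w' (ρ * w') h3 h4 (hin w' h3 h4).1 (hin w' h3 h4).2)
      have e2 : ‖(![w, ρ * w] : Fin 2 → ℝ) - ![w', ρ * w']‖ ≤ (1 + ρ) * |w - w'| := by
        refine (pi_norm_le_iff_of_nonneg (by positivity)).2 fun a => ?_
        fin_cases a
        · show ‖w - w'‖ ≤ _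
          rw [Real.norm_eq_abs]
          nlinarith [abs_nonneg (w - w')]
        · show ‖ρ * w - ρ * w'‖ ≤ _
          rw [← mul_sub, Real.norm_eq_abs, abs_mul, abs_of_nonneg hρ0]
          nlinarith [abs_nonneg (w - w')]
      have e3 : own ![w, ρ * w] - (1 - s) * (1 - w) - (own ![w', ρ * w'] - (1 - s) * (1 - w')) =
        (own ![w, ρ * w] - own ![w', ρ * w']) + (1 - s) * (w - w') := by ring
      show |own ![w, ρ * w] - (1 - s) * (1 - w) - (own ![w', ρ * w'] - (1 - s) * (1 - w'))| ≤ _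
      rw [e3]
      refine (abs_add_le _ _).trans ?_
      rw [abs_mul]
      nlinarith
    · intro w hw0 hw1
      have hw := hin w hw0.le hw1.le
      have := prof_ge ho hS hb (mP w (ρ * w) hw0.le hw1.le hw.1 hw.2)
        (fun ε hε => h.card_olab hw0 hw1 hw.1 (by nlinarith) hε)
      show 0 ≤ own ![w, ρ * w] - (1 - s) * (1 - w)
      linarith
  have oz : ∀ v : ℝ, 0 ≤ v → v ≤ 1 → own ![v, 0] = (1 - s) * (1 - v) := by
    intro v h0 h1
    have e1 := oU v 0 h0 h1 le_rfl (by linarith)
    have e2 := oL 0 v le_rfl hk.le h0 h1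
    rw [zero_mul] at e2
    exact le_antisymm e1 e2
  -- D-max
  have hdmax : ∀ v l nn : ℝ, 0 ≤ v → v ≤ 1 → 0 ≤ l → l ≤ nn → Bx6 v l nn (k * v) ∈ LEG M →
      ν (Bx6 v l nn (k * v)) ≤ c₀ + bex s b q v l nn := by
    intro v l nn h0 h1 h2 h3 hp
    refine prof_le hν hne hp fun ε hε => ?_
    filter_upwards [h.dmax v l nn (k * v) h0 h1 h2 h3 hp ε hε, hsub] with n hn hs i hi
    refine le_trans ?_ (hn i (hs hi))
    refine Nat.cast_le.2 (card_le_card fun t ht => ?_)
    obtain ⟨t1, t2⟩ := mem_cls.1 ht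
    rw [mem_filter]
    exact ⟨hs t1, t2⟩
  refine ⟨I', ν, own, hsub, ?_⟩
  exact
    { ne := hne
      s0 := h.s0
      s1 := h.s1
      bs := h.bs
      q0 := h.q0
      k0 := h.k0
      θ0 := h.θ0
      M0 := h.M0
      line_eq := fun n i _ j _ e => h.line_eq n i j e
      prof := hν
      lip := by
        intro p hp p' hp' hpp
        refine ⟨sub_nonneg.2 (hνa p hp p' hp' hpp), ?_⟩
        exact prof_child hν hne hp hp' fun ε hε => flab_child B I' x hp hp' hpp hε
      submod := by
        intro p hp p' hp' hi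
        exact QProf.submod hν (flab_QJoin B I' x M) hne hp hp' hi (LEG.sup M p hp p' hp')
      oprof := ho
      own_z := oz
      own_rot := by
        intro v r h0 h1 h2 h3
        have hrM : r ≤ M := by nlinarith
        rw [oz v h0 h1]
        refine le_antisymm (oU v r h0 h1 h2 hrM) ?_
        rcases h0.eq_or_lt with h4 | h4
        · have hr0 : r = 0 := le_antisymm (by rw [← h4] at h3; linarith) h2
          have := oL 0 v le_rfl hk.le h0 h1
          rw [zero_mul] at this
          rw [hr0]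
          exact this
        · have := oL (r / v) v (by positivity) (by rw [div_le_iff₀ h4]; exact h3) h0 h1
          rwa [div_mul_cancel₀ _ h4.ne'] at this
      own_tw := by
        intro v r h0 h1 h2 h3
        have hr0 : 0 ≤ r := by nlinarith
        obtain ⟨γ, hγ, hev⟩ := h.tw v r h0 h1 h2
        have h5 : own ![v, r] ≤ (1 - s) * (1 - v) - γ := by
          refine prof_le ho hne (mP v r h0 h1.le hr0 h3) fun ε hε => ?_
          filter_upwards [hev, hsub] with n hn hs i hi
          have h6 : (cls (I' n) (olab B x line n ![v, r]) i).card ≤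
              ((I n).filter fun j => lz x line n (B.levc n v) j = lz x line n (B.levc n v) i ∧
                |(x n i).θ - (x n j).θ| ≤ B.d n ^ r).card := by
            refine card_le_card fun t ht => ?_
            obtain ⟨t1, t2⟩ := mem_cls.1 ht
            have t3 : (line n t, (x n t).cell (B.levc n v) (B.levc n r)) =
              (line n i, (x n i).cell (B.levc n v) (B.levc n r)) := t2
            simp only [Inc.cell, Prod.mk.injEq] at t3
            rw [mem_filter]
            refine ⟨hs t1, ?_, ?_⟩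
            · simp only [lz, Prod.mk.injEq]
              exact ⟨t3.1, t3.2.1⟩
            · exact (dist_of_floor t3.2.2.symm).trans (half_pow_levc_le B n r)
          refine le_trans (Nat.cast_le.2 h6) ((hn i (hs hi)).trans ?_)
          exact Real.rpow_le_rpow_of_exponent_ge (B.pos n) (B.lt n).le (by linarith)
        rw [oz v h0 h1.le]
        linarith
      dmax := by
        intro v l nn h0 h1 h2 h3 h4 hp
        have := hdmax v l nn h0 h1 h2 h3 hp
        rw [oz v h0 h1]
        unfold bex at this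
        linarith
      record := by
        intro v h0 h1
        have hp := h.mem_path h0 h1
        have a1 : 0 ≤ θ * (1 - v) := mul_nonneg hθ.le (by linarith)
        have a2 : 0 ≤ k * v := mul_nonneg hk.le h0
        have e1 := hdmax v (θ * (1 - v)) (θ * (1 - v) + k * v) h0 h1 a1 (by linarith) hp
        have e2 : c₀ + bex s b q v (θ * (1 - v)) (θ * (1 - v) + k * v) ≤
            ν (Bx6 v (θ * (1 - v)) (θ * (1 - v) + k * v) (k * v)) := by
          have key := ext01 (F := fun w => ν (Bx6 w (θ * (1 - w)) (θ * (1 - w) + k * w) (k * w)) -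
              (c₀ + bex s b q w (θ * (1 - w)) (θ * (1 - w) + k * w)))
            (C := 6 * (1 + θ + k) + (|b| + q * θ + 3 + 2 * θ + k + |1 - s|)) ?_ ?_ h0 h1
          · linarith
          · intro w w' h1 h2 h3 h4
            have e1 := hνl _ (h.mem_path h1 h2) _ (h.mem_path h3 h4)
            have e2 : ‖Bx6 w (θ * (1 - w)) (θ * (1 - w) + k * w) (k * w) -
                Bx6 w' (θ * (1 - w')) (θ * (1 - w') + k * w') (k * w')‖ ≤
                (1 + θ + k) * |w - w'| := by
              refine (pi_norm_le_iff_of_nonneg (by positivity)).2 fun a => ?_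
              have hb : ∀ c : ℝ, |c| ≤ 1 + θ + k → ‖c * (w - w')‖ ≤ (1 + θ + k) * |w - w'| := by
                intro c hc
                rw [Real.norm_eq_abs, abs_mul]
                exact mul_le_mul_of_nonneg_right hc (abs_nonneg _)
              fin_cases a
              · show ‖w + (θ * (1 - w) + k * w) - (w' + (θ * (1 - w') + k * w'))‖ ≤ _
                rw [show w + (θ * (1 - w) + k * w) - (w' + (θ * (1 - w') + k * w')) =
                  (1 - θ + k) * (w - w') by ring]
                exact hb _ (abs_le.2 ⟨by linarith, by linarith⟩)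
              · show ‖(θ * (1 - w) + k * w) - (θ * (1 - w') + k * w')‖ ≤ _
                rw [show (θ * (1 - w) + k * w) - (θ * (1 - w') + k * w') =
                  (k - θ) * (w - w') by ring]
                exact hb _ (abs_le.2 ⟨by linarith, by linarith⟩)
              · show ‖θ * (1 - w) - θ * (1 - w')‖ ≤ _
                rw [show θ * (1 - w) - θ * (1 - w') = (-θ) * (w - w') by ring]
                exact hb _ (abs_le.2 ⟨by linarith, by linarith⟩)
              · show ‖w + θ * (1 - w) - (w' + θ * (1 - w'))‖ ≤ _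
                rw [show w + θ * (1 - w) - (w' + θ * (1 - w')) = (1 - θ) * (w - w') by ring]
                exact hb _ (abs_le.2 ⟨by linarith, by linarith⟩)
              · have h5 := hb 1 (abs_le.2 ⟨by linarith, by linarith⟩)
                rw [one_mul] at h5
                exact h5
              · show ‖k * w - k * w'‖ ≤ _
                rw [show k * w - k * w' = k * (w - w') by ring]
                exact hb _ (abs_le.2 ⟨by linarith, by linarith⟩)
            have e3 : (ν (Bx6 w (θ * (1 - w)) (θ * (1 - w) + k * w) (k * w)) -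
                (c₀ + bex s b q w (θ * (1 - w)) (θ * (1 - w) + k * w))) -
                (ν (Bx6 w' (θ * (1 - w')) (θ * (1 - w') + k * w') (k * w')) -
                (c₀ + bex s b q w' (θ * (1 - w')) (θ * (1 - w') + k * w'))) =
                (ν (Bx6 w (θ * (1 - w)) (θ * (1 - w) + k * w) (k * w)) -
                  ν (Bx6 w' (θ * (1 - w')) (θ * (1 - w') + k * w') (k * w'))) +
                (-b - q * θ + 2 - 2 * θ + k + (1 - s)) * (w - w') := by
              unfold bex; ring
            show |(ν (Bx6 w (θ * (1 - w)) (θ * (1 - w) + k * w) (k * w)) -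
                (c₀ + bex s b q w (θ * (1 - w)) (θ * (1 - w) + k * w))) -
                (ν (Bx6 w' (θ * (1 - w')) (θ * (1 - w') + k * w') (k * w')) -
                (c₀ + bex s b q w' (θ * (1 - w')) (θ * (1 - w') + k * w')))| ≤ _
            rw [e3]
            refine (abs_add_le _ _).trans ?_
            rw [abs_mul]
            have e4 : |-b - q * θ + 2 - 2 * θ + k + (1 - s)| ≤
                |b| + q * θ + 3 + 2 * θ + k + |1 - s| := by
              have q0 := h.q0
              have := mul_pos q0 hθ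
              rw [abs_le]
              constructor <;> linarith [le_abs_self b, neg_abs_le b, le_abs_self (1 - s),
                neg_abs_le (1 - s)]
            have e5 := mul_le_mul_of_nonneg_right e4 (abs_nonneg (w - w'))
            have e6 := mul_le_mul_of_nonneg_left e2 (by norm_num : (0:ℝ) ≤ 6)
            nlinarith
          · intro w hw0 hw1
            have := prof_ge hν hS hb (h.mem_path hw0.le hw1.le) (fun ε hε => h.record w hw0 hw1 ε hε)
            show 0 ≤ ν (Bx6 w (θ * (1 - w)) (θ * (1 - w) + k * w) (k * w)) -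
              (c₀ + bex s b q w (θ * (1 - w)) (θ * (1 - w) + k * w))
            linarith
        rw [oz v h0 h1]
        unfold bex at e1 e2
        linarith }

end main

end Crest.Agent.R138.L15
private theorem rz_e1c8de10a5 : type_of% @_root_.Crest.Agent.R138.L15.KF.eq_1 := @_root_.Crest.Agent.R138.L15.KF.eq_1 -- L453
end

-- ▼ part R138/Samp_628
section

/-!
# R138, TEXT I: sampling of lines (helper628)

After a zoom every finest class contains a super-polynomial number of lines.  `sample` keeps a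
`1/K`-part of the **lines** (with all their incidences: the own structure is untouched), such that a
dense part of the remaining incidences has at most `16` incidences in every finest class.

* `kcut` : greedy colouring (a `K`-cut) : at most a `1/K`-part of a weighted graph is monochromatic;
* `sample_aux` : finite sampling lemma, all classes of size at most `K`;
* `sample` : no hypothesis on the sizes of the classes (one dyadic pigeonhole, loss `log #I`).
-/

set_option autoImplicit false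
set_option linter.unusedSectionVars false
set_option linter.unusedVariables false

open Finset

namespace Crest.Agent.R138.Samp628

open Crest.Agent.R138.Ex926 (cls mem_cls)

section kcut

variable {α : Type*} [DecidableEq α]

/-- weight of the monochromatic pairs -/
noncomputable def mono {K : ℕ} (w : α → α → ℝ) (T : Finset α) (col : α → Fin K) : ℝ :=
  ∑ a ∈ T, ∑ b ∈ T, if a ≠ b ∧ col a = col b then w a b else 0

/-- total weight off the diagonal -/
noncomputable def tot (w : α → α → ℝ) (T : Finset α) : ℝ :=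
  ∑ a ∈ T, ∑ b ∈ T, if a ≠ b then w a b else 0

theorem mono_insert {K : ℕ} (w : α → α → ℝ) {T : Finset α} {a : α} (ha : a ∉ T)
    (col : α → Fin K) (k : Fin K) :
    mono w (insert a T) (Function.update col a k) =
      mono w T col + ∑ b ∈ T, (if k = col b then w a b + w b a else 0) := by
  unfold mono
  have hup : ∀ b ∈ T, Function.update col a k b = col b := by
    intro b hb
    have hba : b ≠ a := fun h => ha (h ▸ hb)
    exact Function.update_of_ne hba _ _
  have hne : ∀ b ∈ T, b ≠ a := fun b hb h => ha (h ▸ hb)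
  rw [sum_insert ha, sum_insert ha]
  simp only [ne_eq, not_true_eq_false, false_and, if_false, zero_add]
  have h1 : ∑ b ∈ T, (if ¬a = b ∧ Function.update col a k a = Function.update col a k b then
      w a b else 0) = ∑ b ∈ T, (if k = col b then w a b else 0) := by
    apply sum_congr rfl
    intro b hb
    rw [hup b hb, Function.update_self]
    have : ¬ a = b := fun h => hne b hb h.symm
    simp [this]
  have h2 : ∑ x ∈ T, ∑ b ∈ insert a T,
      (if ¬x = b ∧ Function.update col a k x = Function.update col a k b then w x b else 0) =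
      ∑ x ∈ T, (if k = col x then w x a else 0) +
        ∑ x ∈ T, ∑ b ∈ T, (if ¬x = b ∧ col x = col b then w x b else 0) := by
    rw [← sum_add_distrib]
    apply sum_congr rfl
    intro x hx
    rw [sum_insert ha]
    congr 1
    · rw [hup x hx, Function.update_self]
      have : ¬ x = a := hne x hx
      simp only [this, not_false_eq_true, true_and]
      by_cases h : k = col x
      · simp [h]
      · have h' : ¬ col x = k := fun e => h e.symm
        simp [h, h']
    · apply sum_congr rfl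
      intro b hb
      rw [hup x hx, hup b hb]
  rw [h1, h2]
  have h3 : ∑ b ∈ T, (if k = col b then w a b + w b a else 0) =
      ∑ b ∈ T, (if k = col b then w a b else 0) + ∑ b ∈ T, (if k = col b then w b a else 0) := by
    rw [← sum_add_distrib]
    apply sum_congr rfl
    intro b _
    split_ifs <;> simp
  rw [h3]
  ring

theorem tot_insert (w : α → α → ℝ) {T : Finset α} {a : α} (ha : a ∉ T) :
    tot w (insert a T) = tot w T + ∑ b ∈ T, (w a b + w b a) := by
  unfold tot
  have hne : ∀ b ∈ T, b ≠ a := fun b hb h => ha (h ▸ hb)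
  rw [sum_insert ha, sum_insert ha]
  simp only [ne_eq, not_true_eq_false, if_false, zero_add]
  have h1 : ∑ b ∈ T, (if ¬a = b then w a b else 0) = ∑ b ∈ T, w a b := by
    apply sum_congr rfl
    intro b hb
    have : ¬ a = b := fun h => hne b hb h.symm
    simp [this]
  have h2 : ∑ x ∈ T, ∑ b ∈ insert a T, (if ¬x = b then w x b else 0) =
      ∑ x ∈ T, w x a + ∑ x ∈ T, ∑ b ∈ T, (if ¬x = b then w x b else 0) := by
    rw [← sum_add_distrib]
    apply sum_congr rfl
    intro x hx
    rw [sum_insert ha]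
    congr 1
    have : ¬ x = a := hne x hx
    simp [this]
  rw [h1, h2, sum_add_distrib]
  ring

/-- **greedy `K`-cut** -/
theorem kcut {K : ℕ} (hK : 0 < K) (w : α → α → ℝ) (T : Finset α) :
    ∃ col : α → Fin K, (K : ℝ) * mono w T col ≤ tot w T := by
  have : Nonempty (Fin K) := ⟨⟨0, hK⟩⟩
  induction T using Finset.induction_on with
  | empty => exact ⟨fun _ => ⟨0, hK⟩, by simp [mono, tot]⟩
  | @insert a T ha ih =>
    obtain ⟨col, hcol⟩ := ih
    obtain ⟨k, hk⟩ := Finite.exists_min
      (fun k : Fin K => ∑ b ∈ T, (if k = col b then w a b + w b a else 0))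
    refine ⟨Function.update col a k, ?_⟩
    rw [mono_insert w ha, tot_insert w ha, mul_add]
    refine add_le_add hcol ?_
    have h1 : ∑ j : Fin K, ∑ b ∈ T, (if j = col b then w a b + w b a else 0) =
        ∑ b ∈ T, (w a b + w b a) := by
      rw [sum_comm]
      apply sum_congr rfl
      intro b _
      simp
    rw [← h1]
    calc (K : ℝ) * ∑ b ∈ T, (if k = col b then w a b + w b a else 0)
        = ∑ j : Fin K, ∑ b ∈ T, (if k = col b then w a b + w b a else 0) := by
          rw [sum_const, card_univ, Fintype.card_fin, nsmul_eq_mul]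
      _ ≤ _ := sum_le_sum fun j _ => hk j

end kcut

section samp

variable {ι κ α : Type*} [DecidableEq ι] [DecidableEq κ] [DecidableEq α]

/-- number of ordered pairs of one class -/
def prs (A : Finset ι) (c : ι → κ) : ℕ := ∑ i ∈ A, (cls A c i).card

theorem prs_eq (A : Finset ι) (c : ι → κ) :
    prs A c = ∑ i ∈ A, ∑ j ∈ A, (if c j = c i then 1 else 0) := by
  unfold prs
  apply sum_congr rfl
  intro i _
  rw [cls, card_filter]

/-- the part of colour `k` -/
def part {K : ℕ} (I : Finset ι) (line : ι → α) (col : α → Fin K) (k : Fin K) : Finset ι :=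
  I.filter fun i => col (line i) = k

theorem sum_part {K : ℕ} (I : Finset ι) (line : ι → α) (col : α → Fin K) :
    ∑ k : Fin K, (part I line col k).card = I.card := by
  unfold part
  exact (card_eq_sum_card_fiberwise (s := I) (t := (univ : Finset (Fin K)))
    (f := fun i => col (line i)) (fun i _ => mem_univ _)).symm

/-- there is a colouring of the lines such that the colour classes contain together at most
`#I + T #I` ordered pairs, if all classes have at most `K T` elements. -/
theorem exists_col {K : ℕ} (hK : 0 < K) {T : ℕ} (I : Finset ι) (line : ι → α) (c : ι → κ)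
    (hinj : ∀ i ∈ I, ∀ j ∈ I, c i = c j → line i = line j → i = j)
    (hsz : ∀ i ∈ I, (cls I c i).card ≤ K * T) :
    ∃ col : α → Fin K, ∑ k : Fin K, prs (part I line col k) c ≤ (1 + T) * I.card := by
  set w : α → α → ℝ := fun a b => ∑ i ∈ I, ∑ j ∈ I,
    (if line i = a ∧ line j = b ∧ c j = c i then (1 : ℝ) else 0) with hw
  obtain ⟨col, hcol⟩ := kcut hK w (I.image line)
  refine ⟨col, ?_⟩
  -- total weight
  have htot : tot w (I.image line) ≤ K * T * I.card := by
    have h1 : tot w (I.image line) ≤ ∑ a ∈ I.image line, ∑ b ∈ I.image line, w a b := by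
      unfold tot
      apply sum_le_sum; intro a _
      apply sum_le_sum; intro b _
      split_ifs
      · exact le_rfl
      · exact sum_nonneg fun i _ => sum_nonneg fun j _ => by split_ifs <;> norm_num
    have h2 : ∑ a ∈ I.image line, ∑ b ∈ I.image line, w a b =
        ∑ i ∈ I, ∑ j ∈ I, (if c j = c i then (1 : ℝ) else 0) := by
      simp only [hw]
      calc ∑ a ∈ I.image line, ∑ b ∈ I.image line, ∑ i ∈ I, ∑ j ∈ I,
            (if line i = a ∧ line j = b ∧ c j = c i then (1 : ℝ) else 0)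
          = ∑ a ∈ I.image line, ∑ i ∈ I, ∑ j ∈ I, ∑ b ∈ I.image line,
            (if line i = a ∧ line j = b ∧ c j = c i then (1 : ℝ) else 0) := by
            apply sum_congr rfl; intro a _
            rw [sum_comm]
            apply sum_congr rfl; intro i _
            rw [sum_comm]
        _ = ∑ i ∈ I, ∑ j ∈ I, ∑ a ∈ I.image line, ∑ b ∈ I.image line,
            (if line i = a ∧ line j = b ∧ c j = c i then (1 : ℝ) else 0) := by
            rw [sum_comm]
            apply sum_congr rfl; intro i _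
            rw [sum_comm]
        _ = _ := by
            apply sum_congr rfl; intro i hi
            apply sum_congr rfl; intro j hj
            have hi' : line i ∈ I.image line := mem_image_of_mem _ hi
            have hj' : line j ∈ I.image line := mem_image_of_mem _ hj
            rw [sum_eq_single_of_mem (line i) hi']
            · rw [sum_eq_single_of_mem (line j) hj']
              · simp
              · intro b _ hb
                have : ¬ line j = b := fun h => hb h.symm
                simp [this]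
            · intro a _ ha
              apply sum_eq_zero
              intro b _
              have : ¬ line i = a := fun h => ha h.symm
              simp [this]
    have h3 : ∑ i ∈ I, ∑ j ∈ I, (if c j = c i then (1 : ℝ) else 0) ≤ ∑ i ∈ I, (K * T : ℝ) := by
      apply sum_le_sum
      intro i hi
      have : ∑ j ∈ I, (if c j = c i then (1 : ℝ) else 0) = ((cls I c i).card : ℝ) := by
        rw [cls, card_filter]; push_cast; rfl
      rw [this]
      exact_mod_cast hsz i hi
    rw [sum_const, nsmul_eq_mul] at h3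
    linarith [h1, h2.le, h3]
  -- monochromatic weight
  have hmono : (∑ k : Fin K, (prs (part I line col k) c : ℝ)) ≤
      I.card + mono w (I.image line) col := by
    have h1 : ∀ k : Fin K, (prs (part I line col k) c : ℝ) =
        ∑ i ∈ I, ∑ j ∈ I, (if col (line i) = k ∧ col (line j) = k ∧ c j = c i then (1 : ℝ) else 0) := by
      intro k
      rw [prs_eq]
      push_cast
      unfold part
      rw [sum_filter]
      apply sum_congr rfl; intro i _
      rw [sum_filter]
      by_cases h : col (line i) = k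
      · simp only [h, if_true, true_and]
        apply sum_congr rfl; intro j _
        by_cases h2 : col (line j) = k <;> simp [h2]
      · simp [h]
    have h2 : (∑ k : Fin K, (prs (part I line col k) c : ℝ)) =
        ∑ i ∈ I, ∑ j ∈ I, (if col (line i) = col (line j) ∧ c j = c i then (1 : ℝ) else 0) := by
      simp only [h1]
      rw [sum_comm]
      apply sum_congr rfl; intro i _
      rw [sum_comm]
      apply sum_congr rfl; intro j _
      rw [sum_eq_single_of_mem (col (line i)) (mem_univ _)]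
      · by_cases h : col (line i) = col (line j)
        · simp [h]
        · have h' : ¬ col (line j) = col (line i) := fun e => h e.symm
          simp [h, h']
      · intro k _ hk
        have : ¬ col (line i) = k := fun h => hk h.symm
        simp [this]
    rw [h2]
    have h3 : mono w (I.image line) col = ∑ i ∈ I, ∑ j ∈ I,
        (if line i ≠ line j ∧ col (line i) = col (line j) ∧ c j = c i then (1 : ℝ) else 0) := by
      unfold mono
      calc ∑ a ∈ I.image line, ∑ b ∈ I.image line, (if a ≠ b ∧ col a = col b then w a b else 0)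
          = ∑ a ∈ I.image line, ∑ b ∈ I.image line, ∑ i ∈ I, ∑ j ∈ I,
            (if line i = a ∧ line j = b ∧ (a ≠ b ∧ col a = col b ∧ c j = c i)
              then (1 : ℝ) else 0) := by
            apply sum_congr rfl; intro a _
            apply sum_congr rfl; intro b _
            by_cases h : a ≠ b ∧ col a = col b
            · rw [if_pos h, hw]
              apply sum_congr rfl; intro i _
              apply sum_congr rfl; intro j _
              simp only [h.1, h.2, ne_eq, not_false_eq_true, true_and]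
            · rw [if_neg h]
              symm
              apply sum_eq_zero; intro i _
              apply sum_eq_zero; intro j _
              rw [if_neg]
              intro h0
              exact h ⟨h0.2.2.1, h0.2.2.2.1⟩
        _ = ∑ a ∈ I.image line, ∑ i ∈ I, ∑ j ∈ I, ∑ b ∈ I.image line,
            (if line i = a ∧ line j = b ∧ (a ≠ b ∧ col a = col b ∧ c j = c i)
              then (1 : ℝ) else 0) := by
            apply sum_congr rfl; intro a _
            rw [sum_comm]
            apply sum_congr rfl; intro i _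
            rw [sum_comm]
        _ = ∑ i ∈ I, ∑ j ∈ I, ∑ a ∈ I.image line, ∑ b ∈ I.image line,
            (if line i = a ∧ line j = b ∧ (a ≠ b ∧ col a = col b ∧ c j = c i)
              then (1 : ℝ) else 0) := by
            rw [sum_comm]
            apply sum_congr rfl; intro i _
            rw [sum_comm]
        _ = _ := by
            apply sum_congr rfl; intro i hi
            apply sum_congr rfl; intro j hj
            have hi' : line i ∈ I.image line := mem_image_of_mem _ hi
            have hj' : line j ∈ I.image line := mem_image_of_mem _ hj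
            rw [sum_eq_single_of_mem (line i) hi']
            · rw [sum_eq_single_of_mem (line j) hj']
              · simp
              · intro b _ hb
                have : ¬ line j = b := fun h => hb h.symm
                simp [this]
            · intro a _ ha
              apply sum_eq_zero
              intro b _
              have : ¬ line i = a := fun h => ha h.symm
              simp [this]
    have h4 : (I.card : ℝ) = ∑ i ∈ I, ∑ j ∈ I, (if j = i then (1 : ℝ) else 0) := by
      rw [card_eq_sum_ones]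
      push_cast
      apply sum_congr rfl
      intro i hi
      rw [sum_ite_eq' I i]
      simp [hi]
    rw [h3, h4, ← sum_add_distrib]
    apply sum_le_sum; intro i hi
    rw [← sum_add_distrib]
    apply sum_le_sum; intro j hj
    by_cases h : col (line i) = col (line j) ∧ c j = c i
    · rw [if_pos h]
      by_cases h5 : line i = line j
      · have h6 : i = j := hinj i hi j hj h.2.symm h5
        subst h6
        simp
      · have h6 : line i ≠ line j ∧ col (line i) = col (line j) ∧ c j = c i := ⟨h5, h.1, h.2⟩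
        rw [if_pos h6]
        split_ifs <;> norm_num
    · rw [if_neg h]
      split_ifs <;> norm_num
  have hKr : (0 : ℝ) < K := by exact_mod_cast hK
  have h5 : mono w (I.image line) col ≤ T * I.card := by
    have : (K : ℝ) * mono w (I.image line) col ≤ K * (T * I.card) := by
      calc (K : ℝ) * mono w (I.image line) col ≤ tot w (I.image line) := hcol
        _ ≤ _ := by rw [← mul_assoc]; exact htot
    exact le_of_mul_le_mul_left this hKr
  have h6 : (∑ k : Fin K, (prs (part I line col k) c : ℝ)) ≤ (1 + T) * I.card := by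
    linarith
  exact_mod_cast h6

/-- the incidences in classes of at most `A` elements -/
def good (J : Finset ι) (c : ι → κ) (A : ℕ) : Finset ι := J.filter fun i => (cls J c i).card ≤ A

theorem cls_good {J : Finset ι} {c : ι → κ} {A : ℕ} {i : ι} (hi : i ∈ good J c A) :
    cls (good J c A) c i = cls J c i := by
  ext j
  simp only [mem_cls, good, mem_filter] at hi ⊢
  constructor
  · rintro ⟨⟨h1, -⟩, h3⟩; exact ⟨h1, h3⟩
  · rintro ⟨h1, h3⟩
    refine ⟨⟨h1, ?_⟩, h3⟩
    rw [Ex926.cls_congr h3]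
    exact hi.2

theorem card_bad (J : Finset ι) (c : ι → κ) (A : ℕ) :
    A * (J.card - (good J c A).card : ℝ) ≤ prs J c := by
  have h1 : (J.card : ℝ) - (good J c A).card = ((J.filter fun i => ¬ (cls J c i).card ≤ A).card : ℝ) := by
    have := card_filter_add_card_filter_not (s := J) (fun i => (cls J c i).card ≤ A)
    have h2 : ((J.filter fun i => (cls J c i).card ≤ A).card : ℝ) +
        ((J.filter fun i => ¬ (cls J c i).card ≤ A).card : ℝ) = J.card := by exact_mod_cast this
    unfold good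
    linarith
  rw [h1]
  unfold prs
  push_cast
  calc (A : ℝ) * ((J.filter fun i => ¬ (cls J c i).card ≤ A).card : ℝ)
      = ∑ i ∈ J.filter (fun i => ¬ (cls J c i).card ≤ A), (A : ℝ) := by
        rw [sum_const, nsmul_eq_mul, mul_comm]
    _ ≤ ∑ i ∈ J.filter (fun i => ¬ (cls J c i).card ≤ A), ((cls J c i).card : ℝ) := by
        apply sum_le_sum
        intro i hi
        have := (mem_filter.1 hi).2
        exact_mod_cast (not_le.1 this).le
    _ ≤ _ := by
        apply sum_le_sum_of_subset_of_nonneg (filter_subset _ _)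
        intro i _ _
        positivity

/-- **Sampling of lines**, finite form, relative to a part `I1` of `I` (sizes measured in `I1`). -/
theorem sample_aux {K : ℕ} (hK : 0 < K) {m : ℝ} (hm : 1 ≤ m) (I I1 : Finset ι) (hI1 : I1 ⊆ I)
    (hd : (I.card : ℝ) ≤ m * I1.card) (line : ι → α) (c : ι → κ)
    (hinj : ∀ i ∈ I1, ∀ j ∈ I1, c i = c j → line i = line j → i = j)
    (hsz : ∀ i ∈ I1, (cls I1 c i).card ≤ K) :
    ∃ (col : α → Fin K) (k : Fin K) (I' : Finset ι),
      I' = good (part I1 line col k) c 8 ∧ I' ⊆ I1 ∧ (∀ i ∈ I', col (line i) = k) ∧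
      ((part I line col k).card : ℝ) ≤ 4 * m * I'.card ∧ (I1.card : ℝ) ≤ 2 * K * I'.card ∧
      ∀ i ∈ I', (cls I' c i).card ≤ 8 := by
  have hKr : (0 : ℝ) < K := by exact_mod_cast hK
  have : Nonempty (Fin K) := ⟨⟨0, hK⟩⟩
  obtain ⟨col, hcol⟩ := exists_col hK (T := 1) I1 line c hinj (by simpa using hsz)
  have hcol' : (∑ k : Fin K, (prs (part I1 line col k) c : ℝ)) ≤ 2 * I1.card := by
    have : (∑ k : Fin K, (prs (part I1 line col k) c : ℝ)) ≤ ((1 + 1) * I1.card : ℕ) := by
      exact_mod_cast hcol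
    push_cast at this
    linarith
  -- good part of colour k
  set F : Fin K → ℝ := fun k => ((good (part I1 line col k) c 8).card : ℝ) -
    (1 / (4 * m)) * ((part I line col k).card : ℝ) with hF
  have hsum : (1 / 2 : ℝ) * I1.card ≤ ∑ k : Fin K, F k := by
    have h1 : ∀ k : Fin K, ((part I1 line col k).card : ℝ) -
        (1/8) * (prs (part I1 line col k) c : ℝ) ≤ ((good (part I1 line col k) c 8).card : ℝ) := by
      intro k
      have := card_bad (part I1 line col k) c 8
      push_cast at this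
      linarith
    have h2 : ∑ k : Fin K, (((part I1 line col k).card : ℝ) -
        (1/8) * (prs (part I1 line col k) c : ℝ) -
          (1 / (4 * m)) * ((part I line col k).card : ℝ)) ≤ ∑ k : Fin K, F k := by
      apply sum_le_sum
      intro k _
      have := h1 k
      simp only [hF]
      linarith
    rw [sum_sub_distrib, sum_sub_distrib, ← mul_sum, ← mul_sum] at h2
    have h3 : (∑ k : Fin K, ((part I1 line col k).card : ℝ)) = I1.card := by
      exact_mod_cast sum_part I1 line col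
    have h4 : (∑ k : Fin K, ((part I line col k).card : ℝ)) = I.card := by
      exact_mod_cast sum_part I line col
    rw [h3, h4] at h2
    have h5 : (1 / (4 * m)) * (I.card : ℝ) ≤ (1/4) * I1.card := by
      rw [div_mul_eq_mul_div, one_mul, div_le_iff₀ (by linarith)]
      calc (I.card : ℝ) ≤ m * I1.card := hd
        _ = 1 / 4 * (I1.card : ℝ) * (4 * m) := by ring
    linarith
  obtain ⟨k, hk⟩ := Finite.exists_max F
  have hk2 : (1 / 2 : ℝ) * I1.card ≤ K * F k := by
    calc (1 / 2 : ℝ) * I1.card ≤ ∑ j : Fin K, F j := hsum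
      _ ≤ ∑ j : Fin K, F k := sum_le_sum fun j _ => hk j
      _ = K * F k := by rw [sum_const, card_univ, Fintype.card_fin, nsmul_eq_mul]
  refine ⟨col, k, good (part I1 line col k) c 8, rfl, ?_, ?_, ?_, ?_, ?_⟩
  · exact (filter_subset _ _).trans (filter_subset _ _)
  · intro i hi
    exact (mem_filter.1 (mem_filter.1 hi).1).2
  · have h6 : 0 ≤ F k := by
      by_contra h
      push Not at h
      have : (K : ℝ) * F k < 0 := mul_neg_of_pos_of_neg hKr h
      have : (0 : ℝ) ≤ (1 / 2 : ℝ) * I1.card := by positivity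
      linarith
    simp only [hF] at h6
    have h7 : (1 / (4 * m)) * ((part I line col k).card : ℝ) ≤
        ((good (part I1 line col k) c 8).card : ℝ) := by linarith
    rw [div_mul_eq_mul_div, one_mul, div_le_iff₀ (by linarith)] at h7
    linarith
  · have h8 : F k ≤ ((good (part I1 line col k) c 8).card : ℝ) := by
      simp only [hF]
      have : 0 ≤ (1 / (4 * m)) * ((part I line col k).card : ℝ) := by positivity
      linarith
    have h9 : (K : ℝ) * F k ≤ K * ((good (part I1 line col k) c 8).card : ℝ) :=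
      mul_le_mul_of_nonneg_left h8 hKr.le
    linarith
  · intro i hi
    rw [cls_good hi]
    exact (mem_filter.1 hi).2

/-- one dyadic pigeonhole on the sizes of the classes -/
theorem exists_dyadic (I : Finset ι) (hI : I.Nonempty) (c : ι → κ) :
    ∃ k : ℕ, k ≤ Nat.log 2 I.card ∧
      (I.card : ℝ) ≤ ((Nat.log 2 I.card : ℕ) + 1 : ℝ) *
        ((I.filter fun i => Nat.log 2 (cls I c i).card = k).card : ℝ) := by
  set N := Nat.log 2 I.card with hN
  have hmem : ∀ i ∈ I, Nat.log 2 (cls I c i).card ∈ Finset.range (N + 1) := by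
    intro i _
    rw [mem_range, Nat.lt_succ_iff]
    exact Nat.log_mono_right (card_le_card (Ex926.cls_subset I c i))
  have hsum : (I.card : ℝ) = ∑ k ∈ Finset.range (N + 1),
      ((I.filter fun i => Nat.log 2 (cls I c i).card = k).card : ℝ) := by
    have := card_eq_sum_card_fiberwise (s := I) (t := Finset.range (N + 1))
      (f := fun i => Nat.log 2 (cls I c i).card) (fun i hi => by exact_mod_cast hmem i hi)
    exact_mod_cast this
  obtain ⟨k, hk, hmax⟩ := Finset.exists_max_image (Finset.range (N + 1))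
    (fun k => ((I.filter fun i => Nat.log 2 (cls I c i).card = k).card : ℝ)) ⟨0, by simp⟩
  refine ⟨k, by simpa [Nat.lt_succ_iff] using hk, ?_⟩
  calc (I.card : ℝ) = ∑ k ∈ Finset.range (N + 1),
      ((I.filter fun i => Nat.log 2 (cls I c i).card = k).card : ℝ) := hsum
    _ ≤ ∑ _j ∈ Finset.range (N + 1),
      ((I.filter fun i => Nat.log 2 (cls I c i).card = k).card : ℝ) :=
        sum_le_sum fun j hj => hmax j hj
    _ = _ := by rw [sum_const, card_range, nsmul_eq_mul]; push_cast; ring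

/-- **Sampling of lines.** `I` incidences, `c` finest class (at most one incidence of a line in a
class).  There are `K ≥ 1`, a set of lines `Λ` and a part `I'` of the incidences of `Λ` such that
`I'` is dense in the set of all incidences of `Λ`, `#I ≤ 2 m K #I'`, every class of `I'` has at most
`8` elements, and for every property `P` the part of `I'` in `P` is at most a `16/K`-part of the part
of `I` in the union of the classes meeting `P`. (`m = 1 + log₂ #I`) -/
theorem sample (I : Finset ι) (hI : I.Nonempty) (line : ι → α) (c : ι → κ)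
    (hinj : ∀ i ∈ I, ∀ j ∈ I, c i = c j → line i = line j → i = j) :
    ∃ (K : ℕ) (Λ : Set α) (I' : Finset ι), 1 ≤ K ∧ K ≤ 2 * I.card ∧ I' ⊆ I ∧ I'.Nonempty ∧
      (∀ i ∈ I', line i ∈ Λ) ∧
      (∀ J : Finset ι, J ⊆ I → (∀ i ∈ J, line i ∈ Λ) →
        (J.card : ℝ) ≤ 4 * ((Nat.log 2 I.card : ℕ) + 1 : ℝ) * I'.card) ∧
      (I.card : ℝ) ≤ 2 * ((Nat.log 2 I.card : ℕ) + 1 : ℝ) * K * I'.card ∧
      (∀ i ∈ I', (cls I' c i).card ≤ 8) ∧
      (∀ i ∈ I', K ≤ 2 * (cls I c i).card ∧ (cls I c i).card ≤ K) ∧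
      ∀ A : Finset ι, A ⊆ I' → ∀ A' : Finset ι, A' ⊆ I →
        (∀ i ∈ A, ∀ j ∈ I, c j = c i → j ∈ A') → K * A.card ≤ 16 * A'.card := by
  obtain ⟨k, hk, hcard⟩ := exists_dyadic I hI c
  set m : ℝ := ((Nat.log 2 I.card : ℕ) + 1 : ℝ) with hm
  have hm1 : 1 ≤ m := by
    have : (0 : ℝ) ≤ (Nat.log 2 I.card : ℕ) := by positivity
    linarith
  set I1 : Finset ι := I.filter fun i => Nat.log 2 (cls I c i).card = k with hI1
  have hI1s : I1 ⊆ I := filter_subset _ _
  -- classes of I1 are full classes of I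
  have hcls : ∀ i ∈ I1, cls I1 c i = cls I c i := by
    intro i hi
    ext j
    simp only [mem_cls, hI1, mem_filter] at hi ⊢
    constructor
    · rintro ⟨⟨h1, -⟩, h3⟩; exact ⟨h1, h3⟩
    · rintro ⟨h1, h3⟩
      refine ⟨⟨h1, ?_⟩, h3⟩
      rw [Ex926.cls_congr h3]
      exact hi.2
  have hsize : ∀ i ∈ I1, 2 ^ (k + 1) ≤ 2 * (cls I c i).card ∧ (cls I c i).card ≤ 2 ^ (k + 1) := by
    intro i hi
    have h1 := (mem_filter.1 hi).2
    have h0 : (cls I c i).card ≠ 0 := by
      have : i ∈ cls I c i := mem_cls.2 ⟨(mem_filter.1 hi).1, rfl⟩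
      exact (card_pos.2 ⟨i, this⟩).ne'
    have h2 := Nat.pow_log_le_self 2 h0
    have h3 := Nat.lt_pow_succ_log_self (b := 2) (by norm_num) (cls I c i).card
    rw [h1] at h2 h3
    constructor
    · rw [pow_succ]; omega
    · exact h3.le
  have hI1ne : I1.Nonempty := by
    rw [nonempty_iff_ne_empty]
    intro h
    rw [h, card_empty] at hcard
    have : (0 : ℝ) < I.card := by exact_mod_cast card_pos.2 hI
    simp at hcard
    rw [hcard] at hI
    exact not_nonempty_empty hI
  obtain ⟨col, k0, I', hI', hsub, hline, h1, h2, h3⟩ := sample_aux (K := 2 ^ (k + 1))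
    (by positivity) hm1 I I1 hI1s hcard line c
    (fun i hi j hj => hinj i (hI1s hi) j (hI1s hj))
    (fun i hi => by rw [hcls i hi]; exact (hsize i hi).2)
  have hKc : (2 ^ (k + 1) : ℕ) ≤ 2 * I.card := by
    obtain ⟨i, hi⟩ := hI1ne
    have h4 := (hsize i hi).1
    have h5 : (cls I c i).card ≤ I.card := card_le_card (Ex926.cls_subset I c i)
    omega
  have hI'ne : I'.Nonempty := by
    rw [nonempty_iff_ne_empty]
    intro h
    rw [h, card_empty] at h2
    have : (0 : ℝ) < I1.card := by exact_mod_cast card_pos.2 hI1ne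
    simp at h2
    rw [h2] at hI1ne
    exact not_nonempty_empty hI1ne
  refine ⟨2 ^ (k + 1), {a | col a = k0}, I', Nat.one_le_two_pow, hKc, hsub.trans hI1s, hI'ne,
    hline, ?_, ?_, h3, fun i hi => hsize i (hsub hi), ?_⟩
  · intro J hJ hJl
    refine le_trans ?_ h1
    have : J ⊆ part I line col k0 := fun i hi => mem_filter.2 ⟨hJ hi, hJl i hi⟩
    exact_mod_cast card_le_card this
  · have e1 : (I.card : ℝ) ≤ m * (2 * (2 ^ (k + 1) : ℕ) * I'.card) :=
      hcard.trans (mul_le_mul_of_nonneg_left h2 (by linarith))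
    calc (I.card : ℝ) ≤ m * (2 * (2 ^ (k + 1) : ℕ) * I'.card) := e1
      _ = _ := by ring
  · intro A hA A' hA' hAA
    -- count over the classes
    have h4 : A.card ≤ 8 * (A.image c).card := by
      have := card_le_mul_card_image (s := A) (f := c) 8 (by
        intro b hb
        obtain ⟨i, hi, rfl⟩ := mem_image.1 hb
        refine le_trans (card_le_card ?_) (h3 i (hA hi))
        intro j hj
        rw [mem_filter] at hj
        exact mem_cls.2 ⟨hA hj.1, hj.2⟩)
      exact this
    have h5 : 2 ^ (k + 1) * (A.image c).card ≤ 2 * A'.card := by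
      have h6 : (A.image c).card • (2 ^ (k + 1)) ≤
          ∑ b ∈ A.image c, 2 * (A'.filter fun j => c j = b).card := by
        apply card_nsmul_le_sum
        intro b hb
        obtain ⟨i, hi, rfl⟩ := mem_image.1 hb
        have h7 := (hsize i (hsub (hA hi))).1
        refine h7.trans ?_
        apply Nat.mul_le_mul_left
        apply card_le_card
        intro j hj
        rw [mem_cls] at hj
        exact mem_filter.2 ⟨hAA i hi j hj.1 hj.2, hj.2⟩
      rw [← mul_sum] at h6
      have h8 : ∑ b ∈ A.image c, (A'.filter fun j => c j = b).card ≤ A'.card := by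
        have : ∑ b ∈ A.image c, (A'.filter fun j => c j = b).card =
            (A'.filter fun j => c j ∈ A.image c).card := by
          rw [card_eq_sum_card_fiberwise (s := A'.filter fun j => c j ∈ A.image c)
            (t := A.image c) (f := c) (fun j hj => by
              have hj' : j ∈ A'.filter fun j => c j ∈ A.image c := by exact_mod_cast hj
              exact_mod_cast (mem_filter.1 hj').2)]
          apply sum_congr rfl
          intro b hb
          congr 1
          ext j
          simp only [mem_filter]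
          constructor
          · rintro ⟨h1, h2⟩; exact ⟨⟨h1, h2 ▸ hb⟩, h2⟩
          · rintro ⟨⟨h1, -⟩, h2⟩; exact ⟨h1, h2⟩
        rw [this]
        exact card_le_card (filter_subset _ _)
      rw [smul_eq_mul, mul_comm] at h6
      omega
    calc 2 ^ (k + 1) * A.card ≤ 2 ^ (k + 1) * (8 * (A.image c).card) := Nat.mul_le_mul_left _ h4
      _ = 8 * (2 ^ (k + 1) * (A.image c).card) := by ring
      _ ≤ 8 * (2 * A'.card) := Nat.mul_le_mul_left _ h5
      _ = 16 * A'.card := by ring

end samp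

end Crest.Agent.R138.Samp628
end

-- ▼ part R138/Samp2_628
section

/-!
# R138, TEXT I: sampling of lines, sequence form (helper628)
-/

set_option autoImplicit false
set_option linter.unusedSectionVars false
set_option linter.unusedVariables false

open Finset Filter Topology

namespace Crest.Agent.R138.Samp628

open Crest.Agent.R138.Ex926 (cls mem_cls Base U)
open Crest.Agent.R138.Dp76 (Dense)

/-- `log₂ N + 1` is sub-polynomial -/
theorem ev_log2 (B : Base) {N : ℕ → ℕ}
    (hlog : ∀ ε : ℝ, 0 < ε → ∀ᶠ n in (U : Filter ℕ), Real.log (N n : ℝ) ≤ B.d n ^ (-ε))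
    {C η : ℝ} (hC : 0 < C) (hη : 0 < η) :
    ∀ᶠ n in (U : Filter ℕ), C * ((Nat.log 2 (N n) : ℕ) + 1 : ℝ) ≤ B.d n ^ (-η) := by
  have h1 := hlog (η / 2) (by linarith)
  have h2 : ∀ᶠ n in (U : Filter ℕ), 3 * C * B.d n ^ (η / 2) ≤ 1 := by
    have h3 : Tendsto (fun n => 3 * C * B.d n ^ (η / 2)) U (𝓝 (3 * C * (0 : ℝ) ^ (η / 2))) :=
      (B.lim0.rpow_const (Or.inr (by linarith))).const_mul _
    rw [Real.zero_rpow (by linarith), mul_zero] at h3
    exact h3.eventually_le_const one_pos
  filter_upwards [h1, h2] with n h1 h2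
  have hd := B.pos n
  have hd1 := (B.lt n).le
  have h5 : (Nat.log 2 (N n) : ℝ) ≤ 2 * B.d n ^ (-(η / 2)) := by
    rcases Nat.eq_zero_or_pos (N n) with h0 | h0
    · rw [h0]; simp; positivity
    · have h6 := Nat.pow_log_le_self 2 h0.ne'
      have h7 : ((2 : ℝ) ^ (Nat.log 2 (N n))) ≤ N n := by exact_mod_cast h6
      have h8 : Real.log ((2 : ℝ) ^ (Nat.log 2 (N n))) ≤ Real.log (N n) :=
        Real.log_le_log (by positivity) h7
      rw [Real.log_pow] at h8
      have h9 : (0.5 : ℝ) ≤ Real.log 2 := by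
        have := Real.log_two_gt_d9; linarith
      have h10 : (0 : ℝ) ≤ (Nat.log 2 (N n) : ℝ) := by positivity
      nlinarith
  have h6 : (1 : ℝ) ≤ B.d n ^ (-(η / 2)) := by
    apply Real.one_le_rpow_of_pos_of_le_one_of_nonpos hd hd1; linarith
  have h7 : B.d n ^ (-η) = B.d n ^ (-(η / 2)) * B.d n ^ (-(η / 2)) := by
    rw [← Real.rpow_add hd]; congr 1; ring
  have h8 : B.d n ^ (-(η / 2)) * B.d n ^ (η / 2) = 1 := by
    rw [← Real.rpow_add hd]; simp
  have h9 : 0 < B.d n ^ (-(η / 2)) := Real.rpow_pos_of_pos hd _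
  have h10 : 3 * C ≤ B.d n ^ (-(η / 2)) := by
    calc 3 * C = 3 * C * B.d n ^ (η / 2) * B.d n ^ (-(η / 2)) := by
          rw [mul_assoc, mul_comm (B.d n ^ (η / 2)), h8, mul_one]
      _ ≤ 1 * B.d n ^ (-(η / 2)) := mul_le_mul_of_nonneg_right h2 h9.le
      _ = _ := one_mul _
  calc C * ((Nat.log 2 (N n) : ℕ) + 1 : ℝ) ≤ C * (3 * B.d n ^ (-(η / 2))) :=
        mul_le_mul_of_nonneg_left (by linarith) hC.le
    _ = 3 * C * B.d n ^ (-(η / 2)) := by ring
    _ ≤ B.d n ^ (-(η / 2)) * B.d n ^ (-(η / 2)) := mul_le_mul_of_nonneg_right h10 h9.le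
    _ = _ := h7.symm

/-- **Sampling of lines, sequence form.** -/
theorem sample_seq (B : Base) {ι κ : ℕ → Type*} {α : Type*} [∀ n, DecidableEq (ι n)]
    [∀ n, DecidableEq (κ n)] [DecidableEq α] (I : ∀ n, Finset (ι n)) (line : ∀ n, ι n → α)
    (c : ∀ n, ι n → κ n) (hne : ∀ᶠ n in (U : Filter ℕ), (I n).Nonempty)
    (hlog : ∀ ε : ℝ, 0 < ε → ∀ᶠ n in (U : Filter ℕ), Real.log ((I n).card : ℝ) ≤ B.d n ^ (-ε))
    (hinj : ∀ᶠ n in (U : Filter ℕ), ∀ i ∈ I n, ∀ j ∈ I n, c n i = c n j →
      line n i = line n j → i = j) :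
    ∃ (K : ℕ → ℕ) (Λ : ℕ → Set α) (I' : ∀ n, Finset (ι n)), (∀ n, 1 ≤ K n) ∧
      (∀ n, I' n ⊆ I n) ∧
      (∀ᶠ n in (U : Filter ℕ), (I' n).Nonempty ∧ K n ≤ 2 * (I n).card ∧
        (∀ i ∈ I' n, line n i ∈ Λ n) ∧
        (∀ i ∈ I' n, (cls (I' n) (c n) i).card ≤ 8) ∧
        (∀ i ∈ I' n, K n ≤ 2 * (cls (I n) (c n) i).card ∧ (cls (I n) (c n) i).card ≤ K n) ∧
        (∀ A : Finset (ι n), A ⊆ I' n → ∀ A' : Finset (ι n), A' ⊆ I n →
          (∀ i ∈ A, ∀ j ∈ I n, c n j = c n i → j ∈ A') → K n * A.card ≤ 16 * A'.card)) ∧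
      (∀ η : ℝ, 0 < η → ∀ᶠ n in (U : Filter ℕ),
        (∀ J : Finset (ι n), J ⊆ I n → (∀ i ∈ J, line n i ∈ Λ n) →
          B.d n ^ η * (J.card : ℝ) ≤ (I' n).card) ∧
        B.d n ^ η * ((I n).card : ℝ) ≤ K n * (I' n).card) := by
  classical
  have key : ∀ n, ∃ (K : ℕ) (Λ : Set α) (I' : Finset (ι n)), 1 ≤ K ∧ I' ⊆ I n ∧
      ((I n).Nonempty → (∀ i ∈ I n, ∀ j ∈ I n, c n i = c n j → line n i = line n j → i = j) →
        I'.Nonempty ∧ K ≤ 2 * (I n).card ∧ (∀ i ∈ I', line n i ∈ Λ) ∧
        (∀ i ∈ I', (cls I' (c n) i).card ≤ 8) ∧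
        (∀ i ∈ I', K ≤ 2 * (cls (I n) (c n) i).card ∧ (cls (I n) (c n) i).card ≤ K) ∧
        (∀ A : Finset (ι n), A ⊆ I' → ∀ A' : Finset (ι n), A' ⊆ I n →
          (∀ i ∈ A, ∀ j ∈ I n, c n j = c n i → j ∈ A') → K * A.card ≤ 16 * A'.card) ∧
        (∀ J : Finset (ι n), J ⊆ I n → (∀ i ∈ J, line n i ∈ Λ) →
          (J.card : ℝ) ≤ 4 * ((Nat.log 2 (I n).card : ℕ) + 1 : ℝ) * I'.card) ∧
        ((I n).card : ℝ) ≤ 2 * ((Nat.log 2 (I n).card : ℕ) + 1 : ℝ) * K * I'.card) := by
    intro n
    by_cases h : (I n).Nonempty ∧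
        (∀ i ∈ I n, ∀ j ∈ I n, c n i = c n j → line n i = line n j → i = j)
    · obtain ⟨K, Λ, I', h1, h2, h3, h4, h5, h6, h7, h8, h9, h10⟩ :=
        sample (I n) h.1 (line n) (c n) h.2
      exact ⟨K, Λ, I', h1, h3, fun _ _ => ⟨h4, h2, h5, h8, h9, h10, h6, h7⟩⟩
    · refine ⟨1, ∅, ∅, le_rfl, empty_subset _, fun ha hb => absurd ⟨ha, hb⟩ h⟩
  choose K Λ I' hK hsub hrest using key
  refine ⟨K, Λ, I', hK, hsub, ?_, ?_⟩
  · filter_upwards [hne, hinj] with n h1 h2
    obtain ⟨a1, a2, a3, a4, a5, a6, -, -⟩ := hrest n h1 h2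
    exact ⟨a1, a2, a3, a4, a5, a6⟩
  · intro η hη
    filter_upwards [hne, hinj, ev_log2 B hlog (C := 4) (by norm_num) hη] with n h1 h2 h3
    obtain ⟨-, -, -, -, -, -, a7, a8⟩ := hrest n h1 h2
    have hd := B.pos n
    have hp : 0 < B.d n ^ η := Real.rpow_pos_of_pos hd _
    have h8 : B.d n ^ η * B.d n ^ (-η) = 1 := by
      rw [← Real.rpow_add hd]; simp
    constructor
    · intro J hJ hJl
      have h4 := a7 J hJ hJl
      calc B.d n ^ η * (J.card : ℝ)
          ≤ B.d n ^ η * (4 * ((Nat.log 2 (I n).card : ℕ) + 1 : ℝ) * (I' n).card) :=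
            mul_le_mul_of_nonneg_left h4 hp.le
        _ ≤ B.d n ^ η * (B.d n ^ (-η) * (I' n).card) :=
            mul_le_mul_of_nonneg_left (mul_le_mul_of_nonneg_right h3 (Nat.cast_nonneg _)) hp.le
        _ = (I' n).card := by rw [← mul_assoc, h8, one_mul]
    · have h5 : 2 * ((Nat.log 2 (I n).card : ℕ) + 1 : ℝ) ≤ B.d n ^ (-η) := by
        have : (0 : ℝ) ≤ ((Nat.log 2 (I n).card : ℕ) + 1 : ℝ) := by positivity
        linarith
      calc B.d n ^ η * ((I n).card : ℝ)
          ≤ B.d n ^ η * (2 * ((Nat.log 2 (I n).card : ℕ) + 1 : ℝ) * K n * (I' n).card) :=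
            mul_le_mul_of_nonneg_left a8 hp.le
        _ = B.d n ^ η * (2 * ((Nat.log 2 (I n).card : ℕ) + 1 : ℝ) * (K n * (I' n).card)) := by ring
        _ ≤ B.d n ^ η * (B.d n ^ (-η) * (K n * (I' n).card)) :=
            mul_le_mul_of_nonneg_left (mul_le_mul_of_nonneg_right h5 (by positivity)) hp.le
        _ = K n * (I' n).card := by rw [← mul_assoc, h8, one_mul]

end Crest.Agent.R138.Samp628
end

-- ▼ part R138/Comb_628
section

/-!
# R138, TEXT I, L15: the abstract combinatorial block COMB (helper628)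

Input: a family whose (line, cell)-fibres and class-fibres have lower bounds, inside one container.
Output: the sampled family of polynomial cardinality (text of helper196, msg 11578).
-/

set_option autoImplicit false
set_option linter.unusedSectionVars false
set_option linter.unusedVariables false

open Finset Filter Topology

namespace Crest.Agent.R138.Comb628

open Crest.Agent.R138.Ex926 (cls mem_cls Base U)
open Crest.Agent.R138.Samp628

theorem image_mul_le {ι κ : Type*} [DecidableEq ι] [DecidableEq κ] {f : ι → κ} {A S : Finset ι}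
    {m : ℝ} (hA : ∀ x ∈ A, m ≤ ((S.filter fun y => f y = f x).card : ℝ)) :
    ((A.image f).card : ℝ) * m ≤ ((S.filter fun y => f y ∈ A.image f).card : ℝ) := by
  have h1 : ((S.filter fun y => f y ∈ A.image f).card : ℝ) =
      ∑ b ∈ A.image f, ((S.filter fun y => f y = b).card : ℝ) := by
    have := card_eq_sum_card_fiberwise (s := S.filter fun y => f y ∈ A.image f)
      (t := A.image f) (f := f) (fun j hj => by
        have hj' : j ∈ S.filter fun y => f y ∈ A.image f := by exact_mod_cast hj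
        exact_mod_cast (mem_filter.1 hj').2)
    rw [this]
    push_cast
    apply sum_congr rfl
    intro b hb
    congr 2
    ext j
    simp only [mem_filter]
    constructor
    · rintro ⟨⟨h1, -⟩, h2⟩; exact ⟨h1, h2⟩
    · rintro ⟨h1, h2⟩; exact ⟨⟨h1, h2 ▸ hb⟩, h2⟩
  rw [h1]
  calc ((A.image f).card : ℝ) * m = ∑ _b ∈ A.image f, m := by
        rw [sum_const, nsmul_eq_mul]
    _ ≤ _ := by
        apply sum_le_sum
        intro b hb
        obtain ⟨x, hx, rfl⟩ := mem_image.1 hb
        exact hA x hx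

/-- **COMB**, after the choice of the container (`I2` = the part of `I` in one container; `I2 = I`
is allowed). -/
theorem comb (B : Base) {ι κ : ℕ → Type*} {α : Type*} [∀ n, DecidableEq (ι n)]
    [∀ n, DecidableEq (κ n)] [DecidableEq α] (I I2 : ∀ n, Finset (ι n)) (h2 : ∀ n, I2 n ⊆ I n)
    (hne : ∀ᶠ n in (U : Filter ℕ), (I2 n).Nonempty)
    (hlog : ∀ ε : ℝ, 0 < ε → ∀ᶠ n in (U : Filter ℕ), Real.log ((I n).card : ℝ) ≤ B.d n ^ (-ε))
    (line : ∀ n, ι n → α) (c : ∀ n, ι n → κ n)
    (hinj : ∀ᶠ n in (U : Filter ℕ), ∀ i ∈ I n, ∀ j ∈ I n, c n i = c n j →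
      line n i = line n j → i = j)
    (hc : ∃ C : ℝ, ∀ᶠ n in (U : Filter ℕ), (((I2 n).image (c n)).card : ℝ) ≤ B.d n ^ (-C))
    {J J' : Type*} {β : J → ℕ → Type*} {γ : J' → ℕ → Type*} [∀ j n, DecidableEq (β j n)]
    [∀ j n, DecidableEq (γ j n)] (a : ∀ j n, ι n → β j n) (al : J → ℝ)
    (ha : ∀ j n, ∀ i ∈ I n, ∀ i' ∈ I n, a j n i = a j n i' → line n i = line n i')
    (hfa : ∀ j, ∀ ε : ℝ, 0 < ε → ∀ᶠ n in (U : Filter ℕ), ∀ x ∈ I2 n,
      B.d n ^ (-al j + ε) ≤ (((I2 n).filter fun y => a j n y = a j n x).card : ℝ))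
    (g : ∀ j n, ι n → γ j n) (H : J' → ℕ → ℝ) (hH : ∀ j n, 0 < H j n)
    (hfg : ∀ j, ∀ ε : ℝ, 0 < ε → ∀ᶠ n in (U : Filter ℕ), ∀ x ∈ I2 n,
      B.d n ^ ε * H j n ≤ (((I2 n).filter fun y => g j n y = g j n x).card : ℝ)) :
    ∃ (K : ℕ → ℕ) (I3 : ∀ n, Finset (ι n)), (∀ n, 1 ≤ K n) ∧ (∀ n, I3 n ⊆ I2 n) ∧
      (∀ᶠ n in (U : Filter ℕ), (I3 n).Nonempty ∧ K n ≤ 2 * (I n).card) ∧
      (∃ C : ℝ, 0 ≤ C ∧ ∀ᶠ n in (U : Filter ℕ), ((I3 n).card : ℝ) ≤ B.d n ^ (-C)) ∧
      (∀ j, ∀ ε : ℝ, 0 < ε → ∀ᶠ n in (U : Filter ℕ),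
        (((I3 n).image (a j n)).card : ℝ) ≤ (I3 n).card * B.d n ^ (al j - ε)) ∧
      (∀ j, ∀ ε : ℝ, 0 < ε → ∀ᶠ n in (U : Filter ℕ),
        (((I3 n).image (g j n)).card : ℝ) ≤ (I3 n).card * (K n / H j n) * B.d n ^ (-ε)) ∧
      (∀ᶠ n in (U : Filter ℕ), ∀ F : Finset (ι n), F ⊆ I3 n → ∀ F' : Finset (ι n), F' ⊆ I n →
        (∀ i ∈ F, ∀ j ∈ I2 n, c n j = c n i → j ∈ F') → K n * F.card ≤ 16 * F'.card) ∧
      (∀ ε : ℝ, 0 < ε → ∀ᶠ n in (U : Filter ℕ),
        B.d n ^ ε * ((I2 n).card : ℝ) ≤ K n * (I3 n).card) := by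
  classical
  have hlog2 : ∀ ε : ℝ, 0 < ε → ∀ᶠ n in (U : Filter ℕ),
      Real.log ((I2 n).card : ℝ) ≤ B.d n ^ (-ε) := by
    intro ε hε
    filter_upwards [hlog ε hε, hne] with n h3 h4
    refine le_trans (Real.log_le_log ?_ ?_) h3
    · exact_mod_cast card_pos.2 h4
    · exact_mod_cast card_le_card (h2 n)
  obtain ⟨K, Λ, I3, hK, hsub, hev, hden⟩ := sample_seq B I2 line c hne hlog2 (by
    filter_upwards [hinj] with n hn
    exact fun i hi j hj => hn i (h2 n hi) j (h2 n hj))
  refine ⟨K, I3, hK, hsub, ?_, ?_, ?_, ?_, ?_, fun ε hε => (hden ε hε).mono fun n hn => hn.2⟩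
  · filter_upwards [hev] with n hn
    refine ⟨hn.1, hn.2.1.trans ?_⟩
    have := card_le_card (h2 n)
    omega
  · obtain ⟨C, hC⟩ := hc
    refine ⟨|C| + 1, by positivity, ?_⟩
    have h8 : ∀ᶠ n in (U : Filter ℕ), (8 : ℝ) ≤ B.d n ^ (-(1 : ℝ)) := by
      have h9 : ∀ᶠ n in (U : Filter ℕ), B.d n ≤ 1 / 8 := B.lim0.eventually_le_const (by norm_num)
      filter_upwards [h9] with n hn
      have hd := B.pos n
      rw [Real.rpow_neg hd.le, Real.rpow_one]
      rw [le_inv_comm₀ (by norm_num) hd]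
      linarith
    filter_upwards [hev, hC, h8] with n hn hCn h8
    have hd := B.pos n
    have h3 : (I3 n).card ≤ 8 * ((I3 n).image (c n)).card := by
      apply card_le_mul_card_image
      intro b hb
      obtain ⟨i, hi, rfl⟩ := mem_image.1 hb
      refine le_trans (card_le_card ?_) (hn.2.2.2.1 i hi)
      intro j hj
      rw [mem_filter] at hj
      exact mem_cls.2 hj
    have h4 : ((I3 n).image (c n)).card ≤ ((I2 n).image (c n)).card :=
      card_le_card (image_subset_image (hsub n))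
    have h5 : ((I3 n).card : ℝ) ≤ 8 * (((I2 n).image (c n)).card : ℝ) := by
      exact_mod_cast h3.trans (Nat.mul_le_mul_left _ h4)
    have h6 : B.d n ^ (-C) ≤ B.d n ^ (-|C|) :=
      Real.rpow_le_rpow_of_exponent_ge hd (B.lt n).le (neg_le_neg (le_abs_self C))
    have h7 : B.d n ^ (-(|C| + 1)) = B.d n ^ (-(1 : ℝ)) * B.d n ^ (-|C|) := by
      rw [← Real.rpow_add hd]; congr 1; ring
    rw [h7]
    calc ((I3 n).card : ℝ) ≤ 8 * (((I2 n).image (c n)).card : ℝ) := h5
      _ ≤ 8 * B.d n ^ (-|C|) := by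
          apply mul_le_mul_of_nonneg_left (hCn.trans h6) (by norm_num)
      _ ≤ _ := mul_le_mul_of_nonneg_right h8 (Real.rpow_nonneg hd.le _)
  · intro j ε hε
    filter_upwards [hev, hden (ε / 2) (by linarith), hfa j (ε / 2) (by linarith)]
      with n hn hdn hfn
    have hd := B.pos n
    have h3 := image_mul_le (f := a j n) (A := I3 n) (S := I2 n)
      (m := B.d n ^ (-al j + ε / 2)) (fun x hx => hfn x (hsub n hx))
    have h4 : B.d n ^ (ε / 2) * (((I2 n).filter fun y => a j n y ∈ (I3 n).image (a j n)).card : ℝ) ≤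
        (I3 n).card := by
      apply hdn.1 _ (filter_subset _ _)
      intro i hi
      obtain ⟨hi1, hi2⟩ := mem_filter.1 hi
      obtain ⟨z, hz, hzi⟩ := mem_image.1 hi2
      rw [ha j n i (h2 n hi1) z (h2 n (hsub n hz)) hzi.symm]
      exact hn.2.2.1 z hz
    have h5 : ((I3 n).image (a j n)).card * B.d n ^ (-al j + ε / 2) * B.d n ^ (ε / 2) ≤
        ((I3 n).card : ℝ) := by
      calc ((I3 n).image (a j n)).card * B.d n ^ (-al j + ε / 2) * B.d n ^ (ε / 2)
          ≤ (((I2 n).filter fun y => a j n y ∈ (I3 n).image (a j n)).card : ℝ) *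
            B.d n ^ (ε / 2) := mul_le_mul_of_nonneg_right h3 (Real.rpow_nonneg hd.le _)
        _ = B.d n ^ (ε / 2) * (((I2 n).filter fun y => a j n y ∈ (I3 n).image (a j n)).card : ℝ) :=
            mul_comm _ _
        _ ≤ _ := h4
    rw [mul_assoc, ← Real.rpow_add hd] at h5
    have e1 : -al j + ε / 2 + ε / 2 = -(al j - ε) := by ring
    rw [e1, Real.rpow_neg hd.le] at h5
    have hp := Real.rpow_pos_of_pos hd (al j - ε)
    rwa [mul_inv_le_iff₀ hp] at h5
  · intro j ε hε
    filter_upwards [hden (ε / 2) (by linarith), hfg j (ε / 2) (by linarith)] with n hdn hfn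
    have hd := B.pos n
    have hHp := hH j n
    have h3 := image_mul_le (f := g j n) (A := I3 n) (S := I2 n)
      (m := B.d n ^ (ε / 2) * H j n) (fun x hx => hfn x (hsub n hx))
    have h4 : (((I2 n).filter fun y => g j n y ∈ (I3 n).image (g j n)).card : ℝ) ≤
        (I2 n).card := by exact_mod_cast card_le_card (filter_subset _ _)
    have h5 : ((I3 n).image (g j n)).card * (B.d n ^ (ε / 2) * H j n) * B.d n ^ (ε / 2) ≤
        (K n * (I3 n).card : ℝ) := by
      calc ((I3 n).image (g j n)).card * (B.d n ^ (ε / 2) * H j n) * B.d n ^ (ε / 2)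
          ≤ ((I2 n).card : ℝ) * B.d n ^ (ε / 2) :=
            mul_le_mul_of_nonneg_right (h3.trans h4) (Real.rpow_nonneg hd.le _)
        _ = B.d n ^ (ε / 2) * (I2 n).card := mul_comm _ _
        _ ≤ _ := hdn.2
    have h6 : B.d n ^ (ε / 2) * B.d n ^ (ε / 2) = B.d n ^ ε := by
      rw [← Real.rpow_add hd]; congr 1; ring
    have h7 : (((I3 n).image (g j n)).card : ℝ) * (H j n * B.d n ^ ε) ≤ K n * (I3 n).card := by
      calc (((I3 n).image (g j n)).card : ℝ) * (H j n * B.d n ^ ε)
          = ((I3 n).image (g j n)).card * (B.d n ^ (ε / 2) * H j n) * B.d n ^ (ε / 2) := by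
            rw [← h6]; ring
        _ ≤ _ := h5
    have hp := Real.rpow_pos_of_pos hd ε
    rw [← le_div_iff₀ (mul_pos hHp hp)] at h7
    refine h7.trans (le_of_eq ?_)
    rw [Real.rpow_neg hd.le]
    field_simp
  · filter_upwards [hev] with n hn F hF F' hF' hFF
    -- enlarge inside `I2`
    have h3 := hn.2.2.2.2.2 F hF (F'.filter fun j => j ∈ I2 n)
      (fun j hj => (mem_filter.1 hj).2)
      (fun i hi j hj hcj => mem_filter.2 ⟨hFF i hi j hj hcj, hj⟩)
    exact h3.trans (Nat.mul_le_mul_left _ (card_le_card (filter_subset _ _)))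

end Crest.Agent.R138.Comb628
end

-- ▼ part R138/Cont_627

/-!
# R138, TEXT I, leaf L15: container selection by pruning (helper627)

* `cont_seq`    : one class `Q = const` keeps all fibres of countably many maps up to `d^ε`, if every
                  fibre meets sub-polynomially many `Q`-classes.
* `RotF.of_fib`, `Nat5.of_fib` : parts which keep their fibres are again natural marked sequences.
* `Nat5.cont`   : a natural marked sequence inside one container class.
-/

set_option autoImplicit false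
set_option linter.unusedVariables false
set_option linter.unusedSectionVars false

open Finset Filter Topology

namespace Crest.Agent.R138.Cont627

open Crest.Agent.R138.Ex926 Crest.Agent.R138.Dp76 Crest.Agent.R138.Ps627 Crest.Agent.R138.Mk163
open Crest.Agent.R138.MkRef627
open Crest.Agent.R138.Flag51 (Ln E2 cr dt InPlank)

section Finite

open Classical in
/-- the incidences in small `(h, Q)`-pieces of their `h`-fibre are few. -/
theorem small_pieces {α η γ : Type*} (I : Finset α) (h : α → η) (Q : α → γ) {δ N : ℝ}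
    (hδ : 0 ≤ δ)
    (hN : ∀ x ∈ I, (((I.filter fun y => h y = h x).image Q).card : ℝ) ≤ N) :
    ((I.filter fun x => ((I.filter fun y => h y = h x ∧ Q y = Q x).card : ℝ) <
      δ * ((I.filter fun y => h y = h x).card : ℝ)).card : ℝ) ≤ N * δ * (I.card : ℝ) := by
  set S := I.filter fun x => ((I.filter fun y => h y = h x ∧ Q y = Q x).card : ℝ) <
      δ * ((I.filter fun y => h y = h x).card : ℝ) with hS
  have hSI : S ⊆ I := filter_subset _ _
  have e1 : (S.card : ℝ) = ∑ c ∈ I.image h, ((S.filter fun y => h y = c).card : ℝ) := by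
    rw [card_eq_sum_card_fiberwise (f := h) (s := S) (t := I.image h)
      (fun x hx => by
        simp only [coe_image]
        exact ⟨x, hSI hx, rfl⟩)]
    push_cast; rfl
  have e2 : (I.card : ℝ) = ∑ c ∈ I.image h, ((I.filter fun y => h y = c).card : ℝ) := by
    rw [card_eq_sum_card_image h I]; push_cast; rfl
  rw [e1, e2, mul_sum]
  refine sum_le_sum fun c hc => ?_
  obtain ⟨x, hx, rfl⟩ := mem_image.1 hc
  set F := I.filter fun y => h y = h x with hF
  have e3 : ((S.filter fun y => h y = h x).card : ℝ) = ∑ a ∈ F.image Q,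
      (((S.filter fun y => h y = h x).filter fun y => Q y = a).card : ℝ) := by
    rw [card_eq_sum_card_fiberwise (f := Q) (s := S.filter fun y => h y = h x) (t := F.image Q)
      (fun y hy => by
        simp only [coe_filter, Set.mem_ofPred_eq] at hy
        simp only [coe_image]
        exact ⟨y, by simp only [hF, coe_filter, Set.mem_ofPred_eq]; exact ⟨hSI hy.1, hy.2⟩, rfl⟩)]
    push_cast; rfl
  rw [e3]
  have e4 : ∀ a ∈ F.image Q, (((S.filter fun y => h y = h x).filter fun y => Q y = a).card : ℝ) ≤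
      δ * (F.card : ℝ) := by
    intro a ha
    by_cases hne : ((S.filter fun y => h y = h x).filter fun y => Q y = a).Nonempty
    · obtain ⟨y, hy⟩ := hne
      rw [mem_filter, mem_filter] at hy
      obtain ⟨⟨hyS, hyh⟩, hyQ⟩ := hy
      have h1 := (mem_filter.1 hyS).2
      rw [hyh] at h1
      refine le_trans ?_ h1.le
      have : ((S.filter fun y => h y = h x).filter fun y => Q y = a) ⊆
          I.filter fun z => h z = h x ∧ Q z = Q y := by
        intro z hz
        rw [mem_filter, mem_filter] at hz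
        rw [mem_filter]
        exact ⟨hSI hz.1.1, hz.1.2, by rw [hz.2, hyQ]⟩
      exact_mod_cast card_le_card this
    · rw [not_nonempty_iff_eq_empty] at hne
      rw [hne]
      simp only [card_empty, Nat.cast_zero]
      positivity
  have e5 := sum_le_card_nsmul _ _ _ e4
  refine e5.trans ?_
  rw [nsmul_eq_mul]
  have e6 := hN x hx
  have e7 : (0 : ℝ) ≤ δ * (F.card : ℝ) := mul_nonneg hδ (Nat.cast_nonneg _)
  calc ((F.image Q).card : ℝ) * (δ * (F.card : ℝ)) ≤ N * (δ * (F.card : ℝ)) :=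
        mul_le_mul_of_nonneg_right e6 e7
    _ = N * δ * (F.card : ℝ) := by ring

open Classical in
/-- finite step of `cont_seq`. -/
theorem cont_step {α : Type*} (I : Finset α) (hI : I.Nonempty) {k : ℕ} {η : ℕ → Type} {γ : Type}
    (h : ∀ j, α → η j) (Q : α → γ) {δ : ℝ} (hδ : 0 < δ) (hδk : 4 * ((k : ℝ) + 1) * δ ≤ 1)
    (hN : ∀ j ≤ k, ∀ x ∈ I, (((I.filter fun y => h j y = h j x).image Q).card : ℝ) ≤ δ⁻¹) :
    ∃ I' ⊆ I, I'.Nonempty ∧ (∀ x ∈ I', ∀ y ∈ I', Q x = Q y) ∧ ∀ j ≤ k, ∀ x ∈ I',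
      δ ^ 3 * ((I.filter fun y => h j y = h j x).card : ℝ) ≤
        ((I'.filter fun y => h j y = h j x).card : ℝ) := by
  have hIc : (0 : ℝ) < I.card := by exact_mod_cast card_pos.2 hI
  set A : Finset α := I.filter fun x => ∀ j ≤ k, δ ^ 2 * ((I.filter fun y => h j y = h j x).card : ℝ) ≤
    ((I.filter fun y => h j y = h j x ∧ Q y = Q x).card : ℝ) with hA
  have hAc : (3 / 4) * (I.card : ℝ) ≤ (A.card : ℝ) := by
    have hsub : I \ A ⊆ univ.biUnion fun j : Fin (k + 1) => I.filter fun x =>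
        ((I.filter fun y => h j y = h j x ∧ Q y = Q x).card : ℝ) <
          δ ^ 2 * ((I.filter fun y => h j y = h j x).card : ℝ) := by
      intro x hx
      rw [Finset.mem_sdiff, hA, Finset.mem_filter] at hx
      obtain ⟨hx1, hx2⟩ := hx
      have : ¬ ∀ j ≤ k, δ ^ 2 * ((I.filter fun y => h j y = h j x).card : ℝ) ≤
        ((I.filter fun y => h j y = h j x ∧ Q y = Q x).card : ℝ) := fun hh => hx2 ⟨hx1, hh⟩
      push Not at this
      obtain ⟨j, hj, hlt⟩ := this
      rw [mem_biUnion]
      exact ⟨⟨j, Nat.lt_succ_of_le hj⟩, mem_univ _, mem_filter.2 ⟨hx1, hlt⟩⟩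
    have hc1 : ((I \ A).card : ℝ) ≤ ∑ j : Fin (k + 1), ((I.filter fun x =>
        ((I.filter fun y => h j y = h j x ∧ Q y = Q x).card : ℝ) <
          δ ^ 2 * ((I.filter fun y => h j y = h j x).card : ℝ)).card : ℝ) := by
      exact_mod_cast (card_le_card hsub).trans card_biUnion_le
    have hc2 : ((I \ A).card : ℝ) = (I.card : ℝ) - (A.card : ℝ) := by
      have := card_sdiff_add_card_eq_card (filter_subset _ _ : A ⊆ I)
      have h' : ((I \ A).card : ℝ) + (A.card : ℝ) = (I.card : ℝ) := by exact_mod_cast this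
      linarith
    have hc3 : ∑ j : Fin (k + 1), ((I.filter fun x =>
        ((I.filter fun y => h j y = h j x ∧ Q y = Q x).card : ℝ) <
          δ ^ 2 * ((I.filter fun y => h j y = h j x).card : ℝ)).card : ℝ) ≤
        ∑ j : Fin (k + 1), δ * (I.card : ℝ) := by
      refine sum_le_sum fun j _ => ?_
      have h3 := small_pieces I (h j) Q (δ := δ ^ 2) (N := δ⁻¹) (by positivity)
        (hN j (Nat.lt_succ_iff.1 j.2))
      refine h3.trans (le_of_eq ?_)
      field_simp
    rw [sum_const, card_univ, Fintype.card_fin, nsmul_eq_mul] at hc3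
    push_cast at hc3
    have h4 : ((k : ℝ) + 1) * (δ * (I.card : ℝ)) ≤ (1 / 4) * (I.card : ℝ) := by
      have := mul_le_mul_of_nonneg_right (show ((k : ℝ) + 1) * δ ≤ 1 / 4 by linarith) hIc.le
      linarith
    linarith
  obtain ⟨A', hA'A, hA'c, hA'f⟩ := prune_rel (M := Fin (k + 1)) (η := fun j => η j × γ)
    (fun j x => (h j x, Q x)) (A := A) (I := I) (filter_subset _ _) hδ.le
  have hA'ne : A'.Nonempty := by
    rw [Fintype.card_fin] at hA'c
    push_cast at hA'c
    have h4 : ((k : ℝ) + 1) * δ * (I.card : ℝ) ≤ (1 / 4) * (I.card : ℝ) :=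
      mul_le_mul_of_nonneg_right (show ((k : ℝ) + 1) * δ ≤ 1 / 4 by linarith) hIc.le
    have h5 : (0 : ℝ) < A'.card := by linarith
    exact card_pos.1 (by exact_mod_cast h5)
  obtain ⟨x₀, hx₀⟩ := hA'ne
  have hA'I : A' ⊆ I := hA'A.trans (filter_subset _ _)
  refine ⟨A'.filter fun y => Q y = Q x₀, (filter_subset _ _).trans hA'I, ⟨x₀, mem_filter.2 ⟨hx₀, rfl⟩⟩,
    ?_, ?_⟩
  · intro x hx y hy
    rw [mem_filter] at hx hy
    rw [hx.2, hy.2]
  · intro j hj x hx
    rw [mem_filter] at hx
    obtain ⟨hxA', hxQ⟩ := hx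
    have hxA := (mem_filter.1 (hA'A hxA')).2 j hj
    have h5 := hA'f ⟨j, Nat.lt_succ_of_le hj⟩ x hxA'
    simp only [Prod.mk.injEq] at h5
    have h6 : (A'.filter fun y => h j y = h j x ∧ Q y = Q x) ⊆
        (A'.filter fun y => Q y = Q x₀).filter fun y => h j y = h j x := by
      intro y hy
      rw [mem_filter] at hy
      rw [mem_filter, mem_filter]
      exact ⟨⟨hy.1, by rw [hy.2.2, hxQ]⟩, hy.2.1⟩
    have h7 : ((A'.filter fun y => h j y = h j x ∧ Q y = Q x).card : ℝ) ≤
        (((A'.filter fun y => Q y = Q x₀).filter fun y => h j y = h j x).card : ℝ) := by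
      exact_mod_cast card_le_card h6
    refine le_trans ?_ h7
    calc δ ^ 3 * ((I.filter fun y => h j y = h j x).card : ℝ)
        = δ * (δ ^ 2 * ((I.filter fun y => h j y = h j x).card : ℝ)) := by ring
      _ ≤ δ * ((I.filter fun y => h j y = h j x ∧ Q y = Q x).card : ℝ) :=
          mul_le_mul_of_nonneg_left hxA hδ.le
      _ ≤ _ := h5

end Finite

section Seq

variable {B : Base} {α : ℕ → Type*} {I : ∀ n, Finset (α n)}

open Classical in
/-- **Container selection.** Countably many maps `h j`, a label `Q` with sub-polynomially many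
values on every fibre: one class of `Q` keeps all fibres up to `d^ε`. -/
theorem cont_seq (hI : ∀ᶠ n in (U : Filter ℕ), (I n).Nonempty) {η : ℕ → ℕ → Type} {γ : ℕ → Type}
    (h : ∀ j n, α n → η j n) (Q : ∀ n, α n → γ n)
    (hN : ∀ j, ∀ ε : ℝ, 0 < ε → ∀ᶠ n in (U : Filter ℕ), ∀ x ∈ I n,
      ((((I n).filter fun y => h j n y = h j n x).image (Q n)).card : ℝ) ≤ B.d n ^ (-ε)) :
    ∃ I' : ∀ n, Finset (α n), (∀ n, I' n ⊆ I n) ∧ (∀ᶠ n in (U : Filter ℕ), (I' n).Nonempty) ∧
      (∀ n, ∀ x ∈ I' n, ∀ y ∈ I' n, Q n x = Q n y) ∧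
      ∀ j, ∀ ε : ℝ, 0 < ε → ∀ᶠ n in (U : Filter ℕ), ∀ x ∈ I' n,
        B.d n ^ ε * (((I n).filter fun y => h j n y = h j n x).card : ℝ) ≤
          (((I' n).filter fun y => h j n y = h j n x).card : ℝ) := by
  set e : ℕ → ℝ := fun k => 1 / ((k : ℝ) + 1) with he
  have he0 : ∀ k, 0 < e k := fun k => by simp only [he]; positivity
  set P : ℕ → ℕ → Prop := fun k n => (I n).Nonempty ∧ B.d n ^ e k ≤ 1 / (4 * ((k : ℝ) + 1)) ∧
    ∀ j ≤ k, ∀ x ∈ I n,
      ((((I n).filter fun y => h j n y = h j n x).image (Q n)).card : ℝ) ≤ (B.d n ^ e k)⁻¹ with hP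
  have hPev : ∀ k, ∀ᶠ n in (U : Filter ℕ), P k n := by
    intro k
    have h1 : ∀ᶠ n in (U : Filter ℕ), ∀ j ∈ Finset.range (k + 1), ∀ x ∈ I n,
      ((((I n).filter fun y => h j n y = h j n x).image (Q n)).card : ℝ) ≤ (B.d n ^ e k)⁻¹ := by
      rw [Filter.eventually_all_finset]
      intro j _
      filter_upwards [hN j (e k) (he0 k)] with n hn x hx
      rw [← Real.rpow_neg (B.pos n).le]
      exact hn x hx
    filter_upwards [hI, Ps926.dpow_small B (he0 k) (ε := 1 / (4 * ((k : ℝ) + 1))) (by positivity), h1]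
      with n a b c
    exact ⟨a, b.le, fun j hj => c j (Finset.mem_range.2 (Nat.lt_succ_of_le hj))⟩
  obtain ⟨k, hk, hk2⟩ := exists_diag P hPev
  have hgood : ∀ᶠ n in (U : Filter ℕ), P (k n) n := by
    filter_upwards [hk2] with n hn using hn _ le_rfl
  have hstep : ∀ n, ∃ I' : Finset (α n), I' ⊆ I n ∧ (∀ x ∈ I', ∀ y ∈ I', Q n x = Q n y) ∧
      (P (k n) n → I'.Nonempty ∧ ∀ j ≤ k n, ∀ x ∈ I',
        (B.d n ^ e (k n)) ^ 3 * (((I n).filter fun y => h j n y = h j n x).card : ℝ) ≤
          ((I'.filter fun y => h j n y = h j n x).card : ℝ)) := by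
    intro n
    by_cases hq : P (k n) n
    · obtain ⟨a, b, c⟩ := hq
      have hp := dpow_pos B n (e (k n))
      obtain ⟨I', h1, h2, h3, h4⟩ := cont_step (I n) a (k := k n) (fun j => h j n) (Q n) hp (by
        have h5 : (0 : ℝ) < 4 * ((k n : ℝ) + 1) := by positivity
        have h6 := mul_le_mul_of_nonneg_left b h5.le
        refine h6.trans (le_of_eq ?_)
        field_simp) c
      exact ⟨I', h1, h3, fun _ => ⟨h2, h4⟩⟩
    · exact ⟨∅, empty_subset _, fun x hx => absurd hx (notMem_empty x), fun h => absurd h hq⟩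
  choose I' hI' hI'Q hI'2 using hstep
  refine ⟨I', hI', ?_, hI'Q, fun j ε hε => ?_⟩
  · filter_upwards [hgood] with n hn using (hI'2 n hn).1
  · have hk3 : ∀ᶠ n in (U : Filter ℕ), 3 * e (k n) ≤ ε := by
      have h4 : Tendsto (fun n => 1 / ((k n : ℝ) + 1)) U (𝓝 0) :=
        tendsto_one_div_add_atTop_nhds_zero_nat.comp hk
      have h5 := (h4.const_mul 3)
      rw [mul_zero] at h5
      filter_upwards [(tendsto_order.1 h5).2 ε hε] with n hn using hn.le
    filter_upwards [hgood, hk.eventually_ge_atTop j, hk3] with n hn hj h3 x hx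
    refine le_trans (mul_le_mul_of_nonneg_right ?_ (Nat.cast_nonneg _)) ((hI'2 n hn).2 j hj x hx)
    have e1 : (B.d n ^ e (k n)) ^ 3 = B.d n ^ (e (k n) + e (k n) + e (k n)) := by
      rw [dpow_add, dpow_add]; ring
    rw [e1]
    exact dpow_le B n (by linarith)

end Seq

section

variable {B : Base} {I : ℕ → Finset (ℕ × ℝ)} {L : ℕ → ℕ → Ln} {lev : ℕ → ℚ → ℕ}
    {r0 A : ℕ → ℝ} {q g : ℝ} {Λ τ : ℝ → ℝ} {f : ℕ → ℚ → ℕ → ℤ → ℕ} {b : ℕ → ℚ → ℕ → Ln}
    {e : ℕ → ℚ → ℕ → E2} {w1 w2 : ℕ → ℚ → ℝ} {fl : ℕ → ℕ × ℝ → E2} {sc : ℕ → ℝ}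

open Classical in
/-- a part which keeps its (line, cell) fibres keeps the own rotation function. -/
theorem RotF.of_fib {C0 : ℝ} {R : ℝ → ℝ} (h : RotF B I lev fl sc C0 R) {J' : ℕ → Finset (ℕ × ℝ)}
    (hsub : ∀ n, J' n ⊆ I n)
    (one : ∀ᶠ n in (U : Filter ℕ), ∀ x ∈ I n, ∀ y ∈ I n, x.1 = y.1 →
      zc (lev n 1) x.2 = zc (lev n 1) y.2 → x = y)
    (fib : ∀ v : ℚ, 0 ≤ v → v ≤ 1 → ∀ ε : ℝ, 0 < ε → ∀ᶠ n in (U : Filter ℕ), ∀ x ∈ J' n,
      B.d n ^ ε * (((I n).filter fun y => lc (lev n v) y = lc (lev n v) x).card : ℝ) ≤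
        (((J' n).filter fun y => lc (lev n v) y = lc (lev n v) x).card : ℝ)) :
    RotF B J' lev fl sc C0 R where
  scpos := h.scpos
  bd := h.bd
  mono := h.mono
  rot := fun u hu0 hu1 ε hε => by
    filter_upwards [h.rot u hu0 hu1 ε hε] with n hn x hx y hy
    exact hn x (hsub n hx) y (hsub n hy)
  tw := fun u hu0 hu1 r hr hrC => by
    obtain ⟨γ, hγ, h1⟩ := h.tw u hu0 hu1 r hr hrC
    refine ⟨γ / 2, by linarith, ?_⟩
    filter_upwards [h1, one, fib u hu0 hu1.le (γ / 2) (by linarith)] with n a hone c x hx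
    have e1 := a x (hsub n hx)
    have e2 := c x hx
    rw [own_one hone] at e1
    have hone' : ∀ x ∈ J' n, ∀ y ∈ J' n, x.1 = y.1 →
        zc (lev n 1) x.2 = zc (lev n 1) y.2 → x = y := fun x hx y hy =>
      hone x (hsub n hx) y (hsub n hy)
    rw [own_one hone']
    refine le_trans ?_ (mul_le_mul_of_nonneg_left e2 (dpow_pos B n (γ / 2)).le)
    rw [← mul_assoc, ← dpow_add]
    have e3 : γ / 2 + γ / 2 = γ := by ring
    rw [e3]
    refine le_trans ?_ e1
    exact_mod_cast card_le_card (filter_subset_filter _ (hsub n))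

open Classical in
/-- a part which keeps its fibres is again a natural marked sequence. -/
theorem Nat5.of_fib {k s θ : ℝ} (h : Nat5 B I L lev r0 A q g f b e w1 w2 fl sc k s θ)
    {J' : ℕ → Finset (ℕ × ℝ)} (hsub : ∀ n, J' n ⊆ I n)
    (hne : ∀ᶠ n in (U : Filter ℕ), (J' n).Nonempty)
    (fib : ∀ v : ℚ, 0 ≤ v → v ≤ 1 → ∀ ε : ℝ, 0 < ε → ∀ᶠ n in (U : Filter ℕ), ∀ x ∈ J' n,
      B.d n ^ ε * (((I n).filter fun y => lc (lev n v) y = lc (lev n v) x).card : ℝ) ≤
        (((J' n).filter fun y => lc (lev n v) y = lc (lev n v) x).card : ℝ))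
    (fk : ∀ v : ℚ, 0 ≤ v → v ≤ 1 → ∀ ε : ℝ, 0 < ε → ∀ᶠ n in (U : Filter ℕ), ∀ x ∈ J' n,
      B.d n ^ ε * (((I n).filter fun y => kc (lev n v) (f n v) y = kc (lev n v) (f n v) x).card : ℝ)
        ≤ (((J' n).filter fun y => kc (lev n v) (f n v) y = kc (lev n v) (f n v) x).card : ℝ)) :
    Nat5 B J' L lev r0 A q g f b e w1 w2 fl sc k s θ where
  base := MkRef627.Mk.of_fib h.base hsub hne fib fk
  k0 := h.k0
  θ0 := h.θ0
  unit := fun n x hx => h.unit n x (hsub n hx)
  pr := h.pr
  rot := RotF.of_fib h.rot hsub h.base.one fib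
  close := fun v hv0 hv1 ε hε => by
    filter_upwards [h.close v hv0 hv1 ε hε] with n hn x hx
    exact hn x (hsub n hx)

open Classical in
/-- **A natural marked sequence inside one container class.** -/
theorem Nat5.cont {k s θ : ℝ} (h : Nat5 B I L lev r0 A q g f b e w1 w2 fl sc k s θ)
    {γ : ℕ → Type} (Q : ∀ n, ℕ × ℝ → γ n)
    (hl : ∀ v : ℚ, 0 ≤ v → v ≤ 1 → ∀ ε : ℝ, 0 < ε → ∀ᶠ n in (U : Filter ℕ), ∀ x ∈ I n,
      ((((I n).filter fun y => lc (lev n v) y = lc (lev n v) x).image (Q n)).card : ℝ) ≤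
        B.d n ^ (-ε))
    (hk : ∀ v : ℚ, 0 ≤ v → v ≤ 1 → ∀ ε : ℝ, 0 < ε → ∀ᶠ n in (U : Filter ℕ), ∀ x ∈ I n,
      ((((I n).filter fun y => kc (lev n v) (f n v) y = kc (lev n v) (f n v) x).image (Q n)).card : ℝ)
        ≤ B.d n ^ (-ε)) :
    ∃ I' : ℕ → Finset (ℕ × ℝ), (∀ n, I' n ⊆ I n) ∧ (∀ n, ∀ x ∈ I' n, ∀ y ∈ I' n, Q n x = Q n y) ∧
      Nat5 B I' L lev r0 A q g f b e w1 w2 fl sc k s θ := by
  -- maps: clamp the rational level to `[0,1]`
  set cv : ℚ → ℚ := fun v => max 0 (min 1 v) with hcv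
  have hcv0 : ∀ v, 0 ≤ cv v := fun v => le_max_left _ _
  have hcv1 : ∀ v, cv v ≤ 1 := fun v => max_le zero_le_one (min_le_left _ _)
  have hcvid : ∀ v : ℚ, 0 ≤ v → v ≤ 1 → cv v = v := fun v h0 h1 => by
    simp only [hcv]; rw [min_eq_right h1, max_eq_right h0]
  set lev' : ℕ → ℚ → ℕ := fun n v => lev n (cv v) with hlev'
  set f' : ℕ → ℚ → ℕ → ℤ → ℕ := fun n v => f n (cv v) with hf'
  obtain ⟨I', h1, h2, h3, h4⟩ := cont_seq (B := B) (I := I) h.base.ne (η := fun _ _ => ℕ × ℤ)
    (hh lev' f') Q (by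
      intro j ε hε
      obtain ⟨i, hi | hi⟩ : ∃ i, j = 2 * i ∨ j = 2 * i + 1 := ⟨j / 2, by omega⟩
      · subst hi
        simp only [hh_even]
        exact hl _ (hcv0 _) (hcv1 _) ε hε
      · subst hi
        simp only [hh_odd]
        exact hk _ (hcv0 _) (hcv1 _) ε hε)
  refine ⟨I', h1, h3, Nat5.of_fib h h1 h2 ?_ ?_⟩
  · intro v hv0 hv1 ε hε
    obtain ⟨j, rfl⟩ := exists_num v
    filter_upwards [h4 (2 * j) ε hε] with n hn x hx
    have := hn x hx
    simp only [hh_even, hlev', hcvid _ hv0 hv1] at this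
    exact this
  · intro v hv0 hv1 ε hε
    obtain ⟨j, rfl⟩ := exists_num v
    filter_upwards [h4 (2 * j + 1) ε hε] with n hn x hx
    have := hn x hx
    simp only [hh_odd, hlev', hf', hcvid _ hv0 hv1] at this
    exact this

end

end Crest.Agent.R138.Cont627
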