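import Crest.Agent.R138.Fm_926
import Crest.Agent.R138.Tw1_628
import Crest.Agent.R138.AeT1_501
import Crest.Agent.R138.Qf7_926
import Crest.Agent.R138.ExtP_926

-- ▼ part R138/TwMaj_480
section

/-!
# R138: F-models with the majority twist (helper480)

`exists_fmodel` of helper926 loses an unknown sub-polynomial factor. Here its speed is slowed down so
that the loss stays below a prescribed super-polylogarithmic function `T`; then the "raw twist"
`TwRaw` (super-polylogarithmic) survives as 628's `TwistMaj`.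
The proofs of `uniform_countable_T`, `exists_punif_many_T`, `exists_fmodel_T` are those of helper926
with the additional bookkeeping.
-/

set_option autoImplicit false
set_option linter.unusedSectionVars false
set_option linter.unusedVariables false

open Filter Topology MeasureTheory
open scoped NNReal

namespace Crest.Agent.R138.TwMaj480

open Crest.Agent.R138.Ex926 Crest.Agent.R138.FM501 Crest.Agent.R138.Tw628
open Finset

section Uniform

/-- `uniform_countable` with loss at most `T`. -/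
theorem uniform_countable_T (B : Base) (T : ℕ → ℝ)
    (hT : ∀ m : ℕ, ∀ᶠ n in (U : Filter ℕ), (1 + B.L n) ^ m ≤ T n) {ι κ : ℕ → Type*} [∀ n, DecidableEq (ι n)]
    [∀ n, DecidableEq (κ n)] (I : ∀ n, Finset (ι n)) (f : ∀ n, ℕ → ι n → κ n)
    (hI : ∀ᶠ n in (U : Filter ℕ), (I n).Nonempty) {C : ℝ} (hC : 0 ≤ C)
    (hcard : ∀ᶠ n in (U : Filter ℕ), ((I n).card : ℝ) ≤ B.d n ^ (-C)) :
    ∃ (I' : ∀ n, Finset (ι n)) (M : ℕ → ℕ → ℝ) (S : ℕ → ℝ) (k : ℕ → ℕ), B.Sub S ∧
      Tendsto k U atTop ∧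
      ∀ᶠ n in (U : Filter ℕ), S n ≤ T n ∧ I' n ⊆ I n ∧ (I' n).Nonempty ∧
        ((I n).card : ℝ) ≤ S n * (I' n).card ∧ 1 ≤ S n ∧ ∀ j ≤ k n, 1 ≤ M n j ∧ ∀ i ∈ I' n,
          M n j ≤ (cls (I n) (f n j) i).card ∧ ((cls (I n) (f n j) i).card : ℝ) ≤ 2 * M n j ∧
          M n j ≤ S n * (cls (I' n) (f n j) i).card := by
  classical
  -- losses
  set s : ℕ → ℕ → ℝ := fun m n =>
    (2 * ((m : ℝ) + 1) + 2) * ((2 * C + 1) * (1 + B.L n)) ^ (m + 1) with hs
  have hsub : ∀ m, B.Sub (s m) := fun m => (Base.Sub.const (by positivity)).mul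
      (((Base.Sub.const (by positivity)).mul Base.Sub.one_add_L).pow (m + 1))
  obtain ⟨k₁, hk₁, hk'⟩ := Base.Sub.diag s hsub
  have hsT : ∀ m, ∀ᶠ n in (U : Filter ℕ), s m n ≤ T n := by
    intro m
    filter_upwards [hT (m + 2), B.ev_L_ge ((2 * ((m : ℝ) + 1) + 2) * (2 * C + 1) ^ (m + 1))]
      with n h1 h2
    refine le_trans ?_ h1
    have hL := B.L_pos n
    have h3 : s m n = ((2 * ((m : ℝ) + 1) + 2) * (2 * C + 1) ^ (m + 1)) * (1 + B.L n) ^ (m + 1) := by
      simp only [hs]; rw [mul_pow]; ring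
    rw [h3, pow_succ (1 + B.L n) (m + 1), mul_comm ((1 + B.L n) ^ (m + 1)) (1 + B.L n)]
    exact mul_le_mul_of_nonneg_right (by linarith) (by positivity)
  obtain ⟨k₂, hk₂, hk₂'⟩ := exists_diag (fun m n => s m n ≤ T n) hsT
  set k : ℕ → ℕ := fun n => min (k₁ n) (k₂ n) with hkdef
  have hk : Tendsto k U atTop := exists_min_speed hk₁ hk₂
  have hex : ∀ n, ∃ (I' : Finset (ι n)) (M : ℕ → ℝ), (I n).Nonempty → I' ⊆ I n ∧ I'.Nonempty ∧
      ((I n).card : ℝ) ≤ 2 * ((Nat.log 2 (I n).card : ℝ) + 1) ^ (k n + 1) * I'.card ∧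
      ∀ j ≤ k n, 1 ≤ M j ∧ ∀ i ∈ I',
        M j ≤ (cls (I n) (f n j) i).card ∧ ((cls (I n) (f n j) i).card : ℝ) ≤ 2 * M j ∧
        M j ≤ 2 * ((k n : ℝ) + 1) * ((Nat.log 2 (I n).card : ℝ) + 1) ^ (k n + 1) *
          (cls I' (f n j) i).card := by
    intro n
    by_cases h : (I n).Nonempty
    · obtain ⟨I', h1, h2, h3, M, h4, h5⟩ := uniformise_card (J := Fin (k n + 1)) (I n) h
        (fun j => f n j) (H := Nat.log 2 (I n).card) (Nat.lt_pow_succ_log_self one_lt_two _)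
      rw [Fintype.card_fin] at h3 h5
      refine ⟨I', fun j => if hj : j < k n + 1 then M ⟨j, hj⟩ else 1, fun _ =>
        ⟨h1, h2, h3, fun j hj => ?_⟩⟩
      have hj' : j < k n + 1 := Nat.lt_succ_of_le hj
      simp only [dif_pos hj']
      refine ⟨h4 _, fun i hi => ?_⟩
      have := h5 ⟨j, hj'⟩ i hi
      push_cast at this
      exact this
    · exact ⟨∅, fun _ => 1, fun h' => absurd h' h⟩
  choose I' M hIM using hex
  refine ⟨I', M, fun n => s (k n) n, k, hk' k hk (Eventually.of_forall fun n => min_le_left _ _), hk, ?_⟩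
  filter_upwards [hI, log_card_le B hC hcard, hk₂'] with n h1 h2 hT2
  obtain ⟨a1, a2, a3, a4⟩ := hIM n h1
  have hp : ((Nat.log 2 (I n).card : ℝ) + 1) ^ (k n + 1) ≤
      ((2 * C + 1) * (1 + B.L n)) ^ (k n + 1) := pow_le_pow_left₀ (by positivity) h2 _
  have hp1 : (1 : ℝ) ≤ ((Nat.log 2 (I n).card : ℝ) + 1) ^ (k n + 1) :=
    one_le_pow₀ (by have : (0:ℝ) ≤ (Nat.log 2 (I n).card : ℝ) := Nat.cast_nonneg _; linarith)
  have hk0 : (0 : ℝ) ≤ k n := Nat.cast_nonneg _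
  refine ⟨hT2 _ (min_le_right _ _), a1, a2, a3.trans ?_, ?_, fun j hj => ⟨(a4 j hj).1, fun i hi => ⟨((a4 j hj).2 i hi).1,
    ((a4 j hj).2 i hi).2.1, ((a4 j hj).2 i hi).2.2.trans ?_⟩⟩⟩
  · refine mul_le_mul_of_nonneg_right ?_ (Nat.cast_nonneg _)
    rw [hs]; nlinarith
  · rw [hs]; nlinarith
  · refine mul_le_mul_of_nonneg_right ?_ (Nat.cast_nonneg _)
    rw [hs]; nlinarith


variable {B : Base} {ι : ℕ → Type*} [∀ n, DecidableEq (ι n)]

/-- **Uniformisation for countably many families with real parameters at once.** -/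
theorem exists_punif_many_T (T : ℕ → ℝ)
    (hT : ∀ m : ℕ, ∀ᶠ n in (U : Filter ℕ), (1 + B.L n) ^ m ≤ T n) {J : Type*} [Countable J] [Nonempty J] {m : J → ℕ}
    {κ : J → ℕ → Type*} [∀ j n, DecidableEq (κ j n)] {I : ∀ n, Finset (ι n)}
    {f : ∀ j n, (Fin (m j) → ℝ) → ι n → κ j n} {K : J → ℝ} (hK : ∀ j, 0 ≤ K j)
    {a b : ∀ j, Fin (m j) → ℝ} (hab : ∀ j l, a j l < b j l)
    (hf : ∀ j, PFam B I (f j) (K j) (Set.Icc (a j) (b j)))
    (hI : ∀ᶠ n in (U : Filter ℕ), (I n).Nonempty) {C : ℝ} (hC : 0 ≤ C)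
    (hcard : ∀ᶠ n in (U : Filter ℕ), ((I n).card : ℝ) ≤ B.d n ^ (-C)) :
    ∃ (I' : ∀ n, Finset (ι n)) (S : ℕ → ℝ), B.Sub S ∧
      (∀ᶠ n in (U : Filter ℕ), I' n ⊆ I n ∧ (I' n).Nonempty ∧
        ((I n).card : ℝ) ≤ S n * (I' n).card ∧ 1 ≤ S n) ∧
      (∀ j, PUnif B I I' (f j) (Set.Icc (a j) (b j))) ∧
      (∀ᶠ n in (U : Filter ℕ), S n ≤ T n) ∧
      ∀ (j : J) (k₀ : ℕ) (g : Fin (m j) → ℕ), ∀ᶠ n in (U : Filter ℕ), ∀ i ∈ I' n,
        ((cls (I n) (f j n (gridPt (a j) (b j) k₀ g)) i).card : ℝ) ≤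
          2 * S n * (cls (I' n) (f j n (gridPt (a j) (b j) k₀ g)) i).card := by
  classical
  obtain ⟨e, he⟩ := exists_surjective_nat (Σ j : J, ℕ × (Fin (m j) → ℕ))
  obtain ⟨I', M, S, k, hS, hk, hev⟩ := uniform_countable_T B T hT I
    (κ := fun n => Σ j : J, κ j n)
    (fun n l i => (⟨(e l).1, f (e l).1 n (gridPt (a (e l).1) (b (e l).1) (e l).2.1 (e l).2.2) i⟩ :
      Σ j : J, κ j n)) hI hC hcard
  have htag0 : ∀ n (A : Finset (ι n)) (l : ℕ) (g : Σ j : J, ℕ × (Fin (m j) → ℕ)) (i : ι n),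
      e l = g → cls A (fun i => (⟨(e l).1, f (e l).1 n
        (gridPt (a (e l).1) (b (e l).1) (e l).2.1 (e l).2.2) i⟩ : Σ j : J, κ j n)) i =
      cls A (f g.1 n (gridPt (a g.1) (b g.1) g.2.1 g.2.2)) i := by
    intro n A l g i hg
    subst hg
    ext y
    rw [mem_cls, mem_cls]
    simp
  refine ⟨I', S, hS, hev.mono fun n hn => ⟨hn.2.1, hn.2.2.1, hn.2.2.2.1, hn.2.2.2.2.1⟩,
    fun j ε hε => ?_, hev.mono fun n hn => hn.1, fun j k₀ g => ?_⟩
  swap
  · obtain ⟨l, hl⟩ := he ⟨j, (k₀, g)⟩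
    filter_upwards [hev, hk.eventually_ge_atTop l] with n h1 h2 i hi
    have h3 := (h1.2.2.2.2.2 l h2).2 i hi
    simp only [htag0 n _ _ _ _ hl] at h3
    have hS1 := h1.2.2.2.2.1
    calc _ ≤ 2 * M n l := h3.2.1
      _ ≤ 2 * (S n * (cls (I' n) (f j n (gridPt (a j) (b j) k₀ g)) i).card) := by linarith [h3.2.2]
      _ = _ := by ring
  -- the grid level
  obtain ⟨k₀, hk₀⟩ : ∃ k₀ : ℕ, K j * (‖b j - a j‖ / (k₀ + 1)) ≤ ε / 4 := by
    obtain ⟨N, hN⟩ := exists_nat_gt (K j * ‖b j - a j‖ / (ε / 4))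
    refine ⟨N, ?_⟩
    rw [← mul_div_assoc, div_le_iff₀ (by positivity)]
    rw [div_lt_iff₀ (by positivity)] at hN
    nlinarith
  choose idx hidx using he
  have hG : ∀ᶠ n in (U : Filter ℕ), ∀ g ∈ Fintype.piFinset (fun _ : Fin (m j) => range (k₀ + 3)),
      idx ⟨j, (k₀, g)⟩ ≤ k n := by
    rw [Filter.eventually_all_finset]
    intro g _
    exact hk.eventually_ge_atTop _
  have hSlog : ∀ᶠ n in (U : Filter ℕ), Real.log (S n) ≤ ε / 8 * B.L n := by
    have h1 := (Base.Sub.iff.1 hS).2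
    have h2 := h1.eventually_lt_const (show (0 : ℝ) < ε / 8 by positivity)
    filter_upwards [h2] with n hn
    simp only [Base.lg] at hn
    rw [div_lt_iff₀ (B.L_pos n)] at hn
    exact hn.le
  have h2log : ∀ᶠ n in (U : Filter ℕ), 2 * Real.log 2 ≤ ε / 8 * B.L n := by
    filter_upwards [B.ev_L_ge (2 * Real.log 2 / (ε / 8))] with n hn
    rw [div_le_iff₀ (by positivity)] at hn
    linarith
  -- the tag does not change classes
  have htag : ∀ n (A : Finset (ι n)) (l : ℕ) (g : Σ j : J, ℕ × (Fin (m j) → ℕ)) (i : ι n),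
      e l = g → cls A (fun i => (⟨(e l).1, f (e l).1 n
        (gridPt (a (e l).1) (b (e l).1) (e l).2.1 (e l).2.2) i⟩ : Σ j : J, κ j n)) i =
      cls A (f g.1 n (gridPt (a g.1) (b g.1) g.2.1 g.2.2)) i := by
    intro n A l g i hg
    subst hg
    ext y
    rw [mem_cls, mem_cls]
    simp
  filter_upwards [hev, hG, hSlog, h2log, (hf j).nest, (hf j).child (ε / 4) (by positivity)] with
    n h1 h2 h3 h4 h5 h6 p hp i hi i₀ hi₀
  obtain ⟨-, hsub, -, -, hS1, hMM⟩ := h1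
  obtain ⟨q1, q2, q3, q4⟩ := gridPt_sandwich (hab j) k₀ hp
  set g := gridDown (a j) (b j) k₀ p with hg
  set g' : Fin (m j) → ℕ := fun l => g l + 1 with hg'
  have hgm : g ∈ Fintype.piFinset (fun _ : Fin (m j) => range (k₀ + 3)) := by
    rw [Fintype.mem_piFinset]; intro l; rw [mem_range]; have := q4 l; omega
  have hgm' : g' ∈ Fintype.piFinset (fun _ : Fin (m j) => range (k₀ + 3)) := by
    rw [Fintype.mem_piFinset]; intro l; rw [mem_range]; have := q4 l; simp only [hg']; omega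
  have hM1 := hMM (idx ⟨j, (k₀, g)⟩) (h2 g hgm)
  have hM2 := hMM (idx ⟨j, (k₀, g')⟩) (h2 g' hgm')
  simp only [htag n _ _ _ _ (hidx ⟨j, (k₀, g)⟩)] at hM1
  simp only [htag n _ _ _ _ (hidx ⟨j, (k₀, g')⟩)] at hM2
  set pm := gridPt (a j) (b j) k₀ g with hpm
  set pp := gridPt (a j) (b j) k₀ g' with hpp
  have hpmP : pm ∈ Set.Icc (a j) (b j) := gridPt_mem (hab j) k₀ g
  have hppP : pp ∈ Set.Icc (a j) (b j) := gridPt_mem (hab j) k₀ g'
  set Mm := M n (idx ⟨j, (k₀, g)⟩) with hMm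
  set Mp := M n (idx ⟨j, (k₀, g')⟩) with hMp
  have hMm1 : 1 ≤ Mm := hM1.1
  have hMp1 : 1 ≤ Mp := hM2.1
  have hSn : 0 < S n := by linarith
  have hL := B.L_pos n
  have hup : ((cls (I n) (f j n p) i).card : ℝ) ≤ 2 * Mm := by
    refine le_trans ?_ (hM1.2 i hi).2.1
    exact_mod_cast card_le_card (fun x hx => by
      obtain ⟨x1, x2⟩ := mem_cls.1 hx
      exact mem_cls.2 ⟨x1, h5 pm hpmP p hp q1 x x1 i (hsub hi) x2⟩)
  have hlo : Mp ≤ S n * (cls (I' n) (f j n p) i₀).card := by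
    refine (hM2.2 i₀ hi₀).2.2.trans (mul_le_mul_of_nonneg_left ?_ hSn.le)
    exact_mod_cast card_le_card (fun x hx => by
      obtain ⟨x1, x2⟩ := mem_cls.1 hx
      exact mem_cls.2 ⟨x1, h5 p hp pp hppP q2 x (hsub x1) i₀ (hsub hi₀) x2⟩)
  have hrel : Mm ≤ S n * (2 * Mp * B.d n ^ (-(K j * ‖pp - pm‖ + ε / 4))) := by
    refine (hM1.2 i₀ hi₀).2.2.trans (mul_le_mul_of_nonneg_left ?_ hSn.le)
    have hc := le_count_mul (cls (I' n) (f j n pm) i₀) (fun _ => (1 : ℝ)) (f j n pp) (m := 2 * Mp)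
      (fun x hx => by
        rw [sum_const, nsmul_eq_mul, mul_one]
        obtain ⟨x1, x2⟩ := mem_cls.1 hx
        refine le_trans ?_ (hM2.2 x x1).2.1
        exact_mod_cast card_le_card (fun y hy => by
          obtain ⟨y1, y2⟩ := mem_cls.1 hy
          exact mem_cls.2 ⟨hsub (mem_cls.1 y1).1, y2⟩))
    rw [sum_const, nsmul_eq_mul, mul_one] at hc
    refine hc.trans (mul_le_mul_of_nonneg_left ?_ (by positivity))
    refine le_trans ?_ (h6 pm hpmP pp hppP (q1.trans q2) i₀ (hsub hi₀))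
    exact_mod_cast card_le_card (image_subset_image (cls_mono hsub _ _))
  have hci₀ : (1 : ℝ) ≤ (cls (I' n) (f j n p) i₀).card := cls_card_pos hi₀
  have hci : (1 : ℝ) ≤ (cls (I n) (f j n p) i).card := cls_card_pos (hsub hi)
  have hd := B.pos n
  have hLd : Real.log (B.d n) = - B.L n := by simp [Base.L]
  have hdist : K j * ‖pp - pm‖ ≤ ε / 4 := by
    refine le_trans (mul_le_mul_of_nonneg_left ?_ (hK j)) hk₀
    exact q3
  have l1 : Real.log ((cls (I n) (f j n p) i).card) ≤ Real.log 2 + Real.log Mm := by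
    rw [← Real.log_mul (by norm_num) (by linarith)]
    exact Real.log_le_log (by linarith) hup
  have l2 : Real.log Mm ≤ Real.log (S n) + (Real.log 2 + Real.log Mp +
      (K j * ‖pp - pm‖ + ε / 4) * B.L n) := by
    have hdp : 0 < B.d n ^ (-(K j * ‖pp - pm‖ + ε / 4)) := Real.rpow_pos_of_pos hd _
    have h7 := Real.log_le_log (by linarith) hrel
    rw [Real.log_mul hSn.ne' (by positivity), Real.log_mul (by positivity) hdp.ne',
      Real.log_mul (by norm_num) (by linarith), Real.log_rpow hd, hLd] at h7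
    linarith
  have l3 : Real.log Mp ≤ Real.log (S n) + Real.log ((cls (I' n) (f j n p) i₀).card) := by
    rw [← Real.log_mul hSn.ne' (by linarith)]
    exact Real.log_le_log (by linarith) hlo
  have l4 : (K j * ‖pp - pm‖ + ε / 4) * B.L n ≤ (ε / 2) * B.L n :=
    mul_le_mul_of_nonneg_right (by linarith) hL.le
  have l5 := mul_pos hε hL
  linarith


end Uniform

section FM

/-- **Every dense sequence of configurations has a sub-configuration which is an `FModel`.**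
The exponents `ν` are `4`-Lipschitz, antitone, supermodular, and the counts in the original boxes are
the same up to `ρ^{o(1)}`. -/
theorem exists_fmodel_T (B : Base) (G : ℕ → Cfg) {σ R : ℝ} (h : RawM B G σ R) (T : ℕ → ℝ)
    (hT : ∀ m : ℕ, ∀ᶠ n in (U : Filter ℕ), (1 + B.L n) ^ m ≤ T n) :
    ∃ (G' : ℕ → Cfg) (ν : (Fin 4 → ℝ) → ℝ) (S : ℕ → ℝ), FModel B G' σ R ν ∧
      (∀ n, SubCfg (G' n) (G n)) ∧ B.Sub S ∧
      (∀ᶠ n in (U : Filter ℕ), ((G n).I.card : ℝ) ≤ S n * (G' n).I.card) ∧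
      (∀ ε : ℝ, 0 < ε → ∀ᶠ n in (U : Filter ℕ), ∀ p ∈ Set.Icc (0 : Fin 4 → ℝ) (fun _ => R),
        ∀ i k, (i, k) ∈ (G' n).I →
          B.d n ^ (-ν p + ε) ≤ (((G' n).box p i k).card : ℝ) ∧
          (((G' n).box p i k).card : ℝ) ≤ B.d n ^ (-ν p - ε)) ∧
      (∀ p ∈ Set.Icc (0 : Fin 4 → ℝ) (fun _ => R), ∀ q ∈ Set.Icc (0 : Fin 4 → ℝ) (fun _ => R),
        |ν p - ν q| ≤ 4 * ‖p - q‖) ∧
      (∀ p ∈ Set.Icc (0 : Fin 4 → ℝ) (fun _ => R), ∀ q ∈ Set.Icc (0 : Fin 4 → ℝ) (fun _ => R),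
        p ≤ q → ν q ≤ ν p) ∧
      (∀ p ∈ Set.Icc (0 : Fin 4 → ℝ) (fun _ => R), ∀ q ∈ Set.Icc (0 : Fin 4 → ℝ) (fun _ => R),
        ν p + ν q ≤ ν (p ⊔ q) + ν (p ⊓ q)) ∧
      (∀ᶠ n in (U : Filter ℕ), S n ≤ T n) ∧
      (∀ᶠ n in (U : Filter ℕ), ∀ i ∈ (G' n).L,
        (((G n).hts i).card : ℝ) ≤ 2 * S n * ((G' n).hts i).card) := by
  classical
  obtain ⟨C, hC, hpb⟩ := h.pb
  have hR := h.R_pos
  have hLZ : ∀ n, ((G n).I.card : ℝ) ≤ ((G n).L.card : ℝ) * (G n).Z.card := by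
    intro n
    have := card_le_card (h.sub n)
    rw [card_product] at this
    exact_mod_cast this
  set f : Fin 3 → ∀ n : ℕ, (Fin 4 → ℝ) → (ℕ × ℕ) → ℕ × (Fin 4 → ℤ) := fun j n p i =>
    if j = 0 then gfam B G n p i else if j = 1 then (i.1, 0) else (i.2, 0) with hf
  have hf0 : f 0 = gfam B G := by funext n p i; simp [hf]
  have hf1 : f 1 = fun n p i => (i.1, 0) := by funext n p i; simp [hf]
  have hf2 : f 2 = fun n p i => (i.2, 0) := by funext n p i; simp [hf]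
  have hfam : ∀ j, PFam B (fun n => (G n).I) (f j) ((4 : ℕ) : ℝ)
      (Set.Icc (0 : Fin 4 → ℝ) (fun _ => R + 1)) := by
    intro j
    fin_cases j
    · change PFam B (fun n => (G n).I) (f 0) _ _
      rw [hf0]
      exact cfam_PFam (ι := fun _ => ℕ × ℕ) (γ := fun _ => ℕ) B _ _ _ _ _ (fun j => le_rfl)
    · change PFam B (fun n => (G n).I) (f 1) _ _
      rw [hf1]
      exact PFam.const (ι := fun _ => ℕ × ℕ) (κ := fun _ => ℕ × (Fin 4 → ℤ)) B _
        (fun n i => (i.1, 0)) (by positivity) _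
    · change PFam B (fun n => (G n).I) (f 2) _ _
      rw [hf2]
      exact PFam.const (ι := fun _ => ℕ × ℕ) (κ := fun _ => ℕ × (Fin 4 → ℤ)) B _
        (fun n i => (i.2, 0)) (by positivity) _
  obtain ⟨I', S, hS, hI', hu, hST, hgr⟩ := exists_punif_many_T T hT (ι := fun _ => ℕ × ℕ) (J := Fin 3)
    (m := fun _ => 4) (κ := fun _ _ => ℕ × (Fin 4 → ℤ)) (f := f) (K := fun _ => ((4 : ℕ) : ℝ))
    (B := B) (I := fun n => (G n).I)
    (a := fun _ => 0) (b := fun _ _ => R + 1) (fun _ => by positivity)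
    (fun _ _ => by simp only [Pi.zero_apply]; linarith) hfam
    (Eventually.of_forall fun n => h.nonempty n) hC
    (hpb.mono fun n hn => (hLZ n).trans hn)
  -- the sub-configuration
  set I'' : ℕ → Finset (ℕ × ℕ) := fun n =>
    if I' n ⊆ (G n).I ∧ (I' n).Nonempty then I' n else (G n).I with hI''
  have hI''s : ∀ n, I'' n ⊆ (G n).I := by
    intro n
    simp only [hI'']
    split_ifs with h1
    · exact h1.1
    · exact Subset.refl _
  have hI''n : ∀ n, (I'' n).Nonempty := by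
    intro n
    simp only [hI'']
    split_ifs with h1
    · exact h1.2
    · exact h.nonempty n
  have hI''e : ∀ᶠ n in (U : Filter ℕ), I'' n = I' n := by
    filter_upwards [hI'] with n hn
    simp only [hI'', if_pos (show I' n ⊆ (G n).I ∧ (I' n).Nonempty from ⟨hn.1, hn.2.1⟩)]
  set G' : ℕ → Cfg := fun n => { G n with
    I := I'' n, L := (I'' n).image Prod.fst, Z := (I'' n).image Prod.snd } with hG'
  have hsub' : ∀ n, (G' n).I ⊆ (G' n).L ×ˢ (G' n).Z := fun n x hx =>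
    mem_product.2 ⟨mem_image_of_mem _ hx, mem_image_of_mem _ hx⟩
  have hL' : ∀ n, (G' n).L ⊆ (G n).L := by
    intro n y hy
    obtain ⟨x, hx, rfl⟩ := mem_image.1 hy
    exact (mem_product.1 (h.sub n (hI''s n hx))).1
  have hZ' : ∀ n, (G' n).Z ⊆ (G n).Z := by
    intro n y hy
    obtain ⟨x, hx, rfl⟩ := mem_image.1 hy
    exact (mem_product.1 (h.sub n (hI''s n hx))).2
  -- the profile
  have hu0 : PUnif B (fun n => (G n).I) I'' (gfam B G) (Set.Icc (0 : Fin 4 → ℝ) (fun _ => R + 1)) := by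
    intro ε hε
    have := hu 0 ε hε
    rw [hf0] at this
    filter_upwards [this, hI''e] with n h1 h2
    rw [h2]; exact h1
  have hsubev : ∀ᶠ n in (U : Filter ℕ), I'' n ⊆ (G n).I := Eventually.of_forall hI''s
  have hfam0 := hfam 0
  rw [hf0] at hfam0
  obtain ⟨ν, hν, -, hlip, hanti, -⟩ := PUnif.exists_profile (ι := fun _ => ℕ × ℕ)
    (κ := fun _ => ℕ × (Fin 4 → ℤ)) (B := B) (I := fun n => (G n).I) (I' := I'')
    (by positivity) hfam0 hsubev (Eventually.of_forall hI''n)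
    (hpb.mono fun n hn => (hLZ n).trans hn) hu0
  have hsm : ∀ p ∈ Set.Icc (0 : Fin 4 → ℝ) (fun _ => R + 1),
      ∀ q ∈ Set.Icc (0 : Fin 4 → ℝ) (fun _ => R + 1), ν p + ν q ≤ ν (p ⊔ q) + ν (p ⊓ q) := by
    intro p hp q hq
    exact IsProfile.submod (ι := fun _ => ℕ × ℕ) (κ := fun _ => ℕ × (Fin 4 → ℤ))
      (Eventually.of_forall hI''n) hν (hfam0.mono hsubev (Set.Subset.refl _))
      (PJoin.mono (cfam_PJoin (ι := fun _ => ℕ × ℕ) (γ := fun _ => ℕ) B (fun n => (G n).I) _ _ _)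
        hsubev (Set.Subset.refl _)) hp hq
  have hnear := near_card (ι := fun _ => ℕ × ℕ) (γ := fun _ => ℕ) B I'' (fun _ i => i.2)
    (fun n i => (G n).co i.2 i.1) (ν := ν) (R := R) (K := ((4 : ℕ) : ℝ)) (by positivity) hν hlip
  have hRR : Set.Icc (0 : Fin 4 → ℝ) (fun _ => R) ⊆ Set.Icc (0 : Fin 4 → ℝ) (fun _ => R + 1) := by
    rintro p ⟨h1, h2⟩
    exact ⟨h1, fun j => (h2 j).trans (by simp)⟩
  have hboxes : ∀ ε : ℝ, 0 < ε → ∀ᶠ n in (U : Filter ℕ),
      ∀ p ∈ Set.Icc (0 : Fin 4 → ℝ) (fun _ => R), ∀ i k, (i, k) ∈ (G' n).I →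
          B.d n ^ (-ν p + ε) ≤ (((G' n).box p i k).card : ℝ) ∧
          (((G' n).box p i k).card : ℝ) ≤ B.d n ^ (-ν p - ε) := by
    intro ε hε
    filter_upwards [hnear ε hε] with n hn p hp i k hik
    have h1 := hn p hp (i, k) hik
    rw [card_box_eq (G' n) (hsub' n)]
    have hρ : (G' n).ρ = B.d n := h.base n
    rw [hρ]
    exact h1
  -- densities
  have hcardI : ∀ᶠ n in (U : Filter ℕ), ((G n).I.card : ℝ) ≤ S n * (G' n).I.card := by
    filter_upwards [hI', hI''e] with n h1 h2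
    have : (G' n).I = I' n := h2
    rw [this]; exact h1.2.2.1
  have hSsmall : ∀ ε : ℝ, 0 < ε → ∀ᶠ n in (U : Filter ℕ), 0 < S n ∧ S n ≤ B.d n ^ (-ε) := by
    intro ε hε
    filter_upwards [hS.1.pos, Base.ex_lt_iff_dpow hS.1 (a := ε) (by rw [hS.2]; exact hε)] with n a1 a2
    exact ⟨a1, a2.le⟩
  have hdense : ∀ ε : ℝ, 0 < ε → ∀ᶠ n in (U : Filter ℕ),
      B.d n ^ ε * (((G n).L.card : ℝ) * (G n).Z.card) ≤ (G' n).I.card := by
    intro ε hε
    filter_upwards [h.dense (ε / 2) (by positivity), hcardI, hSsmall (ε / 2) (by positivity)] with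
      n h1 h2 h3
    have hd := B.pos n
    have e1 : B.d n ^ ε = B.d n ^ (ε / 2) * B.d n ^ (ε / 2) := by
      rw [← Real.rpow_add hd]; congr 1; ring
    have e2 : B.d n ^ (ε / 2) * B.d n ^ (-(ε / 2)) = 1 := by
      rw [← Real.rpow_add hd]; simp
    have hp := Real.rpow_pos_of_pos hd (ε / 2)
    have hI0 : (0 : ℝ) ≤ (G' n).I.card := Nat.cast_nonneg _
    calc B.d n ^ ε * (((G n).L.card : ℝ) * (G n).Z.card)
        = B.d n ^ (ε / 2) * (B.d n ^ (ε / 2) * (((G n).L.card : ℝ) * (G n).Z.card)) := by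
          rw [e1]; ring
      _ ≤ B.d n ^ (ε / 2) * (S n * (G' n).I.card) :=
          mul_le_mul_of_nonneg_left (h1.trans h2) hp.le
      _ ≤ B.d n ^ (ε / 2) * (B.d n ^ (-(ε / 2)) * (G' n).I.card) := by
          refine mul_le_mul_of_nonneg_left (mul_le_mul_of_nonneg_right h3.2 hI0) hp.le
      _ = (G' n).I.card := by rw [← mul_assoc, e2, one_mul]
  have hL0 : ∀ n, (0 : ℝ) < (G n).L.card ∧ (0 : ℝ) < (G n).Z.card := by
    intro n
    obtain ⟨x, hx⟩ := h.nonempty n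
    have := mem_product.1 (h.sub n hx)
    exact ⟨by exact_mod_cast card_pos.2 ⟨_, this.1⟩, by exact_mod_cast card_pos.2 ⟨_, this.2⟩⟩
  have hL'0 : ∀ n, (0 : ℝ) < (G' n).L.card ∧ (0 : ℝ) < (G' n).Z.card := by
    intro n
    obtain ⟨x, hx⟩ := hI''n n
    have := mem_product.1 (hsub' n hx)
    exact ⟨by exact_mod_cast card_pos.2 ⟨_, this.1⟩, by exact_mod_cast card_pos.2 ⟨_, this.2⟩⟩
  have hLL : ∀ n, ((G' n).L.card : ℝ) ≤ (G n).L.card := fun n => by
    exact_mod_cast card_le_card (hL' n)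
  have hZZ : ∀ n, ((G' n).Z.card : ℝ) ≤ (G n).Z.card := fun n => by
    exact_mod_cast card_le_card (hZ' n)
  -- uniformity of lines and slices
  have hself1 : ∀ ε : ℝ, 0 < ε → ∀ᶠ n in (U : Filter ℕ), ∀ i ∈ I'' n, ∀ i₀ ∈ I'' n,
      ((cls (I'' n) Prod.fst i).card : ℝ) ≤ B.d n ^ (-ε) * (cls (I'' n) Prod.fst i₀).card := by
    intro ε hε
    have h1 := PUnif.self (ι := fun _ => ℕ × ℕ) (κ := fun _ => ℕ × (Fin 4 → ℤ)) (hu 1)
      (hI'.mono fun n hn => hn.1) ε hε
    rw [hf1] at h1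
    filter_upwards [h1, hI''e] with n h1 h2 i hi i₀ hi₀
    rw [h2] at hi hi₀ ⊢
    have h3 := h1 0 ⟨le_rfl, fun j => by simp only [Pi.zero_apply]; linarith⟩ i hi i₀ hi₀
    have e : ∀ i, cls (I' n) (fun i : ℕ × ℕ => ((i.1, 0) : ℕ × (Fin 4 → ℤ))) i =
        cls (I' n) Prod.fst i := by
      intro i; ext y; rw [mem_cls, mem_cls]; simp
    rw [e, e] at h3
    exact h3
  have hself2 : ∀ ε : ℝ, 0 < ε → ∀ᶠ n in (U : Filter ℕ), ∀ i ∈ I'' n, ∀ i₀ ∈ I'' n,
      ((cls (I'' n) Prod.snd i).card : ℝ) ≤ B.d n ^ (-ε) * (cls (I'' n) Prod.snd i₀).card := by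
    intro ε hε
    have h1 := PUnif.self (ι := fun _ => ℕ × ℕ) (κ := fun _ => ℕ × (Fin 4 → ℤ)) (hu 2)
      (hI'.mono fun n hn => hn.1) ε hε
    rw [hf2] at h1
    filter_upwards [h1, hI''e] with n h1 h2 i hi i₀ hi₀
    rw [h2] at hi hi₀ ⊢
    have h3 := h1 0 ⟨le_rfl, fun j => by simp only [Pi.zero_apply]; linarith⟩ i hi i₀ hi₀
    have e : ∀ i, cls (I' n) (fun i : ℕ × ℕ => ((i.2, 0) : ℕ × (Fin 4 → ℤ))) i =
        cls (I' n) Prod.snd i := by
      intro i; ext y; rw [mem_cls, mem_cls]; simp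
    rw [e, e] at h3
    exact h3
  have hexpd : ∀ n (s t : ℝ), B.d n ^ s * B.d n ^ t = B.d n ^ (s + t) := fun n s t =>
    (Real.rpow_add (B.pos n) s t).symm
  refine ⟨G', ν, S, ?_, ?_, hS, hcardI, hboxes, ?_, ?_, ?_, hST, ?_⟩
  · refine
    { base := fun n => h.base n
      sub := hsub'
      nonempty := hI''n
      bd := fun n => ?_
      R_pos := h.R_pos
      σ_nonneg := h.σ_nonneg
      σ_le := h.σ_le
      line := ?_
      slice := ?_
      frost := ?_
      unif := ?_ }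
    · have hb := h.bd n
      exact ⟨fun i hi => hb.a i (hL' n hi), fun i hi => hb.b i (hL' n hi),
        fun i hi => hb.c i (hL' n hi), fun i hi => hb.d i (hL' n hi),
        fun k hk => hb.z k (hZ' n hk), fun k hk => hb.f k (hZ' n hk)⟩
    · intro ε hε
      filter_upwards [hself1 (ε / 2) (by positivity), hdense (ε / 2) (by positivity)] with
        n h1 h2 i hi
      obtain ⟨x, hx, hxi⟩ := mem_image.1 hi
      have hcard : ((G' n).I.card : ℝ) ≤ (B.d n ^ (-(ε / 2)) *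
          (cls (I'' n) Prod.fst x).card) * ((I'' n).image Prod.fst).card := by
        have := le_count_mul (I'' n) (fun _ => (1 : ℝ)) Prod.fst
          (m := B.d n ^ (-(ε / 2)) * (cls (I'' n) Prod.fst x).card) (fun y hy => by
            rw [sum_const, nsmul_eq_mul, mul_one]; exact h1 y hy x hx)
        rw [sum_const, nsmul_eq_mul, mul_one] at this
        exact this
      have e1 : ((G' n).hts i).card = (cls (I'' n) Prod.fst x).card := by
        rw [card_hts_eq (G' n) (hsub' n) i x.2, ← hxi]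
      rw [e1]
      have hd := B.pos n
      have hLp := (hL'0 n).1
      have e2 : ((G' n).L.card : ℝ) = ((I'' n).image Prod.fst).card := rfl
      rw [← e2] at hcard
      have e3 : B.d n ^ (ε / 2) * (((G' n).L.card : ℝ) * (G' n).Z.card) ≤
          (B.d n ^ (-(ε / 2)) * (cls (I'' n) Prod.fst x).card) * (G' n).L.card := by
        refine le_trans (le_trans ?_ h2) hcard
        refine mul_le_mul_of_nonneg_left ?_ (Real.rpow_pos_of_pos hd _).le
        exact mul_le_mul (hLL n) (hZZ n) (Nat.cast_nonneg _) (Nat.cast_nonneg _)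
      have e4 : B.d n ^ (ε / 2) * ((G' n).Z.card : ℝ) ≤
          B.d n ^ (-(ε / 2)) * (cls (I'' n) Prod.fst x).card := by
        refine le_of_mul_le_mul_right ?_ hLp
        calc _ = B.d n ^ (ε / 2) * (((G' n).L.card : ℝ) * (G' n).Z.card) := by ring
          _ ≤ _ := e3
      have hp := Real.rpow_pos_of_pos hd (ε / 2)
      calc B.d n ^ ε * ((G' n).Z.card : ℝ)
          = B.d n ^ (ε / 2) * (B.d n ^ (ε / 2) * ((G' n).Z.card : ℝ)) := by
            rw [← mul_assoc, hexpd]; congr 2; ring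
        _ ≤ B.d n ^ (ε / 2) * (B.d n ^ (-(ε / 2)) * (cls (I'' n) Prod.fst x).card) :=
            mul_le_mul_of_nonneg_left e4 hp.le
        _ = (cls (I'' n) Prod.fst x).card := by
            rw [← mul_assoc, hexpd]; simp
    · intro ε hε
      filter_upwards [hself2 (ε / 2) (by positivity), hdense (ε / 2) (by positivity)] with
        n h1 h2 k hk
      obtain ⟨x, hx, hxk⟩ := mem_image.1 hk
      have hcard : ((G' n).I.card : ℝ) ≤ (B.d n ^ (-(ε / 2)) *
          (cls (I'' n) Prod.snd x).card) * ((I'' n).image Prod.snd).card := by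
        have := le_count_mul (I'' n) (fun _ => (1 : ℝ)) Prod.snd
          (m := B.d n ^ (-(ε / 2)) * (cls (I'' n) Prod.snd x).card) (fun y hy => by
            rw [sum_const, nsmul_eq_mul, mul_one]; exact h1 y hy x hx)
        rw [sum_const, nsmul_eq_mul, mul_one] at this
        exact this
      have e1 : ((G' n).slice k).card = (cls (I'' n) Prod.snd x).card := by
        rw [card_slice_eq (G' n) (hsub' n) x.1 k, ← hxk]
      rw [e1]
      have hd := B.pos n
      have hZp := (hL'0 n).2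
      have e2 : ((G' n).Z.card : ℝ) = ((I'' n).image Prod.snd).card := rfl
      rw [← e2] at hcard
      have e3 : B.d n ^ (ε / 2) * (((G' n).L.card : ℝ) * (G' n).Z.card) ≤
          (B.d n ^ (-(ε / 2)) * (cls (I'' n) Prod.snd x).card) * (G' n).Z.card := by
        refine le_trans (le_trans ?_ h2) hcard
        refine mul_le_mul_of_nonneg_left ?_ (Real.rpow_pos_of_pos hd _).le
        exact mul_le_mul (hLL n) (hZZ n) (Nat.cast_nonneg _) (Nat.cast_nonneg _)
      have e4 : B.d n ^ (ε / 2) * ((G' n).L.card : ℝ) ≤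
          B.d n ^ (-(ε / 2)) * (cls (I'' n) Prod.snd x).card := by
        refine le_of_mul_le_mul_right ?_ hZp
        calc _ = B.d n ^ (ε / 2) * (((G' n).L.card : ℝ) * (G' n).Z.card) := by ring
          _ ≤ _ := e3
      have hp := Real.rpow_pos_of_pos hd (ε / 2)
      calc B.d n ^ ε * ((G' n).L.card : ℝ)
          = B.d n ^ (ε / 2) * (B.d n ^ (ε / 2) * ((G' n).L.card : ℝ)) := by
            rw [← mul_assoc, hexpd]; congr 2; ring
        _ ≤ B.d n ^ (ε / 2) * (B.d n ^ (-(ε / 2)) * (cls (I'' n) Prod.snd x).card) :=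
            mul_le_mul_of_nonneg_left e4 hp.le
        _ = (cls (I'' n) Prod.snd x).card := by
            rw [← mul_assoc, hexpd]; simp
    · intro x hx0 hxR ε hε
      filter_upwards [h.frost x hx0 hxR (ε / 2) (by positivity), hdense (ε / 2) (by positivity)]
        with n h1 h2 k hk
      have e1 : (((G' n).hbox x k).card : ℝ) ≤ ((G n).hbox x k).card := by
        exact_mod_cast card_le_card (fun y hy => by
          simp only [Cfg.hbox, mem_filter] at hy ⊢
          exact ⟨hZ' n hy.1, hy.2⟩)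
      refine e1.trans ((h1 k (hZ' n hk)).trans ?_)
      have hd := B.pos n
      have hLp := (hL0 n).1
      have e3 : ((G' n).I.card : ℝ) ≤ ((G n).L.card : ℝ) * (G' n).Z.card := by
        have h3 : ((G' n).I.card : ℝ) ≤ ((G' n).L.card : ℝ) * (G' n).Z.card := by
          have := card_le_card (hsub' n)
          rw [card_product] at this
          exact_mod_cast this
        refine h3.trans (mul_le_mul_of_nonneg_right (hLL n) (Nat.cast_nonneg _))
      have e4 : B.d n ^ (ε / 2) * ((G n).Z.card : ℝ) ≤ (G' n).Z.card := by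
        refine le_of_mul_le_mul_right ?_ hLp
        calc _ = B.d n ^ (ε / 2) * (((G n).L.card : ℝ) * (G n).Z.card) := by ring
          _ ≤ (G' n).I.card := h2
          _ ≤ ((G n).L.card : ℝ) * (G' n).Z.card := e3
          _ = (G' n).Z.card * ((G n).L.card : ℝ) := by ring
      calc B.d n ^ (σ * x - ε / 2) * ((G n).Z.card : ℝ)
          = B.d n ^ (σ * x - ε) * (B.d n ^ (ε / 2) * ((G n).Z.card : ℝ)) := by
            rw [← mul_assoc, hexpd]; congr 2; ring
        _ ≤ B.d n ^ (σ * x - ε) * ((G' n).Z.card : ℝ) :=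
            mul_le_mul_of_nonneg_left e4 (Real.rpow_pos_of_pos hd _).le
    · intro p hp ε hε
      filter_upwards [hboxes ε hε] with n hn i k hik
      exact hn p ⟨fun j => (hp j).1, fun j => (hp j).2⟩ i k hik
  · intro n
    exact ⟨rfl, rfl, rfl, rfl, rfl, rfl, rfl, hI''s n, hL' n, hZ' n⟩
  · intro p hp q hq
    have := hlip p (hRR hp) q (hRR hq)
    norm_num at this
    exact this
  · intro p hp q hq hpq
    exact hanti p (hRR hp) q (hRR hq) hpq
  · intro p hp q hq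
    exact hsm p (hRR hp) q (hRR hq)
  · filter_upwards [hgr 1 0 0, hI''e] with n h1 h2 i hi
    obtain ⟨x, hx, rfl⟩ := mem_image.1 hi
    rw [h2] at hx
    have h3 := h1 x hx
    rw [hf1] at h3
    have e : ∀ A : Finset (ℕ × ℕ), cls A (fun i : ℕ × ℕ => ((i.1, 0) : ℕ × (Fin 4 → ℤ))) x =
        cls A Prod.fst x := by
      intro A; ext y; rw [mem_cls, mem_cls]; simp
    rw [e, e] at h3
    rw [card_hts_eq (G n) (h.sub n) x.1 x.2, card_hts_eq (G' n) (hsub' n) x.1 x.2]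
    have e2 : (G' n).I = I' n := h2
    rw [e2]
    exact h3

end FM

section Tw

open Classical in
/-- **raw twist**: at every incidence `(i, k)` the heights of the line `i` whose slope is close to the
slope at `k` are at most a `(1 + log)^(-m)`-part of the heights of `i`, for every `m`. -/
def TwRaw (B : Base) (G : ℕ → Cfg) : Prop :=
  ∀ ε : ℝ, 0 < ε → ∀ m : ℕ, ∀ᶠ n in (U : Filter ℕ), ∀ i ∈ (G n).L, ∀ k ∈ (G n).hts i,
    (1 + B.L n) ^ m * ((((G n).hts i).filter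
      fun k' => |(G n).f k - (G n).f k'| ≤ B.d n ^ ε).card : ℝ) ≤ (((G n).hts i).card : ℝ)

open Classical in
/-- a super-polylogarithmic function which works for all `ε` at once -/
theorem TwRaw.exists_T {B : Base} {G : ℕ → Cfg} (h : TwRaw B G) :
    ∃ T : ℕ → ℝ, (∀ m : ℕ, ∀ᶠ n in (U : Filter ℕ), (1 + B.L n) ^ m ≤ T n) ∧
      ∀ ε : ℝ, 0 < ε → ∀ᶠ n in (U : Filter ℕ), ∀ i ∈ (G n).L, ∀ k ∈ (G n).hts i,
        T n ^ 2 * ((((G n).hts i).filter
          fun k' => |(G n).f k - (G n).f k'| ≤ B.d n ^ ε).card : ℝ) ≤ (((G n).hts i).card : ℝ) := by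
  have hj : ∀ j : ℕ, ∀ᶠ n in (U : Filter ℕ), ∀ i ∈ (G n).L, ∀ k ∈ (G n).hts i,
      (1 + B.L n) ^ (2 * j) * ((((G n).hts i).filter
        fun k' => |(G n).f k - (G n).f k'| ≤ B.d n ^ (1 / ((j : ℝ) + 1))).card : ℝ) ≤
          (((G n).hts i).card : ℝ) := fun j => h (1 / ((j : ℝ) + 1)) (by positivity) (2 * j)
  obtain ⟨k, hk, hk2⟩ := exists_diag _ hj
  refine ⟨fun n => (1 + B.L n) ^ (k n), fun m => ?_, fun ε hε => ?_⟩
  · filter_upwards [hk.eventually_ge_atTop m] with n hn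
    exact pow_le_pow_right₀ (by linarith [B.L_pos n]) hn
  · obtain ⟨m, hm⟩ := exists_nat_gt (1 / ε)
    filter_upwards [hk2, hk.eventually_ge_atTop m] with n h1 h2 i hi k' hk'
    have h3 := h1 (k n) le_rfl i hi k' hk'
    rw [← pow_mul, mul_comm (k n) 2]
    refine le_trans ?_ h3
    have h4 : B.d n ^ ε ≤ B.d n ^ (1 / ((k n : ℝ) + 1)) := by
      refine Real.rpow_le_rpow_of_exponent_ge (B.pos n) (B.lt n).le ?_
      rw [div_le_iff₀ (by positivity)]
      rw [div_lt_iff₀ hε] at hm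
      have : (m : ℝ) ≤ k n := by exact_mod_cast h2
      nlinarith
    have h5 : (((((G n).hts i).filter
        fun k'' => |(G n).f k' - (G n).f k''| ≤ B.d n ^ ε).card : ℕ) : ℝ) ≤
        ((((G n).hts i).filter
          fun k'' => |(G n).f k' - (G n).f k''| ≤ B.d n ^ (1 / ((k n : ℝ) + 1))).card : ℝ) := by
      refine Nat.cast_le.2 (card_le_card fun y hy => ?_)
      rw [mem_filter] at hy ⊢
      exact ⟨hy.1, hy.2.trans h4⟩
    exact mul_le_mul_of_nonneg_left h5 (pow_nonneg (by linarith [B.L_pos n]) _)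

/-- **Dense configurations with raw twist contain F-models with the majority twist.** -/
theorem exists_fmodel_tw (B : Base) (G : ℕ → Cfg) {σ R : ℝ} (h : RawM B G σ R) (ht : TwRaw B G) :
    ∃ (G' : ℕ → Cfg) (ν : (Fin 4 → ℝ) → ℝ) (S : ℕ → ℝ), FModel B G' σ R ν ∧
      (∀ n, SubCfg (G' n) (G n)) ∧ B.Sub S ∧
      (∀ᶠ n in (U : Filter ℕ), ((G n).I.card : ℝ) ≤ S n * (G' n).I.card) ∧
      (∀ ε : ℝ, 0 < ε → ∀ᶠ n in (U : Filter ℕ), ∀ p ∈ Set.Icc (0 : Fin 4 → ℝ) (fun _ => R),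
        ∀ i k, (i, k) ∈ (G' n).I →
          B.d n ^ (-ν p + ε) ≤ (((G' n).box p i k).card : ℝ) ∧
          (((G' n).box p i k).card : ℝ) ≤ B.d n ^ (-ν p - ε)) ∧
      (∀ p ∈ Set.Icc (0 : Fin 4 → ℝ) (fun _ => R), ∀ q ∈ Set.Icc (0 : Fin 4 → ℝ) (fun _ => R),
        |ν p - ν q| ≤ 4 * ‖p - q‖) ∧
      (∀ p ∈ Set.Icc (0 : Fin 4 → ℝ) (fun _ => R), ∀ q ∈ Set.Icc (0 : Fin 4 → ℝ) (fun _ => R),
        p ≤ q → ν q ≤ ν p) ∧
      (∀ p ∈ Set.Icc (0 : Fin 4 → ℝ) (fun _ => R), ∀ q ∈ Set.Icc (0 : Fin 4 → ℝ) (fun _ => R),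
        ν p + ν q ≤ ν (p ⊔ q) + ν (p ⊓ q)) ∧
      TwistMaj B G' := by
  classical
  obtain ⟨T, hT, hT2⟩ := ht.exists_T
  obtain ⟨G', ν, S, c1, c2, c3, c4, c5, c6, c7, c8, c9, c10⟩ := exists_fmodel_T B G h T hT
  refine ⟨G', ν, S, c1, c2, c3, c4, c5, c6, c7, c8, fun ε hε => ?_⟩
  filter_upwards [hT2 ε hε, c9, c10, hT 1, B.ev_L_ge 15] with n h1 h2 h3 h4 h5 i hi
  have hsub := c2 n
  have hT16 : 16 ≤ T n := by rw [pow_one] at h4; linarith
  have hi' : i ∈ (G n).L := hsub.L hi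
  have hH : (G' n).hts i ⊆ (G n).hts i := by
    intro y hy
    simp only [Cfg.hts, mem_filter] at hy ⊢
    exact ⟨hsub.Z hy.1, hsub.I hy.2⟩
  set H := (G' n).hts i with hHdef
  set H0 := (G n).hts i with hH0def
  have key : ∀ k ∈ H, ((H.filter fun k' => |(G' n).f k - (G' n).f k'| ≤ B.d n ^ ε).card : ℝ) ≤
      (H.card : ℝ) / 2 := by
    intro k hk
    have e1 := h1 i hi' k (hH hk)
    have e2 := h3 i hi
    have e3 : ((H.filter fun k' => |(G' n).f k - (G' n).f k'| ≤ B.d n ^ ε).card : ℝ) ≤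
        ((H0.filter fun k' => |(G n).f k - (G n).f k'| ≤ B.d n ^ ε).card : ℝ) := by
      rw [hsub.f]
      exact_mod_cast card_le_card (filter_subset_filter _ hH)
    have hc0 : (0 : ℝ) ≤ H.card := Nat.cast_nonneg _
    have e4 : T n ^ 2 * ((H0.filter fun k' => |(G n).f k - (G n).f k'| ≤ B.d n ^ ε).card : ℝ) ≤
        T n ^ 2 * ((H.card : ℝ) / 2) := by
      refine e1.trans (e2.trans ?_)
      have : 2 * S n * (H.card : ℝ) ≤ 2 * T n * (H.card : ℝ) := by nlinarith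
      refine this.trans ?_
      nlinarith
    have e5 := le_of_mul_le_mul_left e4 (by positivity)
    exact e3.trans e5
  have e6 : (((H ×ˢ H).filter fun q => |(G' n).f q.1 - (G' n).f q.2| ≤ B.d n ^ ε).card : ℝ) =
      ∑ k ∈ H, ((H.filter fun k' => |(G' n).f k - (G' n).f k'| ≤ B.d n ^ ε).card : ℝ) := by
    rw [card_filter, sum_product]
    push_cast
    refine sum_congr rfl fun k _ => ?_
    rw [card_filter]; push_cast; rfl
  rw [e6]
  have e7 := sum_le_sum key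
  rw [sum_const, nsmul_eq_mul] at e7
  nlinarith

end Tw

end Crest.Agent.R138.TwMaj480
end

-- ▼ part R138/AeT3_501
section

/-!
# R138: the F-model of a tangent at a natural point (helper501)

`ExtP` + tangent function `lam` at `X6 v (k v) t` + `TwGood` (480: raw twist of good classes) +
separation of fat lines and heights ⊢ an F-model with majority twist and profile
`lam (dir p R4 R5) - lam (dir Rp R4 R5)`.
-/

set_option autoImplicit false
set_option linter.unusedVariables false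
set_option linter.unusedSectionVars false

open Filter Topology Finset

namespace Crest.Agent.R138.AeT501

open Crest.Agent.R138.Ex926 Crest.Agent.R138.FM501 Crest.Agent.R138.Flg101
open Crest.Agent.R138.TwMaj480 Crest.Agent.R138.Tw628

/-! ### `ExtP` with everywhere nonempty index types -/

/-- reindexing of a base -/
def pcomp (B : Base) (π : ℕ → ℕ) (h : ∀ᶠ n in (U : Filter ℕ), π n = n) : Base where
  d n := B.d (π n)
  pos n := B.pos _
  lt n := B.lt _
  lim0 := B.lim0.congr' (h.mono fun n hn => by show B.d n = B.d (π n); rw [hn])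

theorem ev_comp {Q : ℕ → Prop} {π : ℕ → ℕ} (hπ : ∀ᶠ n in (U : Filter ℕ), π n = n)
    (hQ : ∀ᶠ n in (U : Filter ℕ), Q n) : ∀ᶠ n in (U : Filter ℕ), Q (π n) := by
  filter_upwards [hπ, hQ] with n h1 h2
  rw [h1]; exact h2


/-! ### Raw twist of good classes (interface to 480) -/

section

variable {ι : ℕ → Type} [∀ n, DecidableEq (ι n)]

/-- at slow speed, a half of the incidences generates only classes with raw twist -/
def TwGood (B : Base) (I : ∀ n, Finset (ι n)) (x : ∀ n, ι n → Inc) (v r t : ℝ) (h : ℕ → ℝ)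
    (Rp R4 R5 : ℝ) : Prop :=
  ∃ k₂ : ℕ → ℕ, Tendsto k₂ (U : Filter ℕ) atTop ∧ ∀ k' : ℕ → ℕ, Tendsto k' U atTop →
    (∀ᶠ n in (U : Filter ℕ), k' n ≤ k₂ n) → ∀ B' : Base, (∀ n, B'.d n = B.d n ^ h (k' n)) →
    ∃ Gd : ∀ n, Finset (ι n), (∀ᶠ n in (U : Filter ℕ), Gd n ⊆ I n ∧ (Gd n).Nonempty ∧
        (1 / 2 : ℝ) * ((I n).card : ℝ) ≤ (Gd n).card) ∧
      ∀ (s₀ : ∀ n, ι n) (T : ℕ → ℝ) (lam : (Fin 6 → ℝ) → ℝ), (∀ᶠ n in (U : Filter ℕ), s₀ n ∈ Gd n) →
        ClsSeq B B' I x (fun _ => v) (fun _ => r) (fun _ => t) (fun n => h (k' n)) T lam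
          (fun n => cls (Gd n) (natlab B x (fun _ => v) (fun _ => r) (fun _ => t) n) (s₀ n)) s₀ →
        TwRaw B' (clsCfg B B' x (fun _ => v) (fun _ => r) (fun _ => t) (fun n => h (k' n))
          (fun n => cls (Gd n) (natlab B x (fun _ => v) (fun _ => r) (fun _ => t) n) (s₀ n)) s₀
          Rp R4 R5)

variable {B : Base} {I : ∀ n, Finset (ι n)}
    {x : ∀ n, ι n → Inc} {line : ∀ n, ι n → ℕ} {ν : (Fin 6 → ℝ) → ℝ} {own : (Fin 2 → ℝ) → ℝ}
    {M s b q k θ c₀ : ℝ}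

/-- the own profile along flagged levels -/
theorem own_at (hE : ExtP B I x line ν own M s b q k θ c₀) {v r : ℝ} (hv0 : 0 ≤ v) (hv1 : v ≤ 1)
    (hr0 : 0 ≤ r) (hr : r ≤ k * v) : own ![v, r] = (1 - s) * (1 - v) := by
  rw [hE.own_rot v r hv0 hv1 hr0 hr, hE.own_z v hv0 hv1]

/-- one-level lower bound: along every displacement of a tangent which keeps the slope level at most
`k v`, the class loses at least the own shading -/
theorem tan_own_le (hE : ExtP B I x line ν own M s b q k θ c₀) {v t : ℝ} (hv0 : 0 ≤ v)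
    (hv1 : v < 1) (h : ℕ → ℝ) (hpos : ∀ l, 0 < h l) (h0 : Tendsto h atTop (𝓝 0))
    {lam : (Fin 6 → ℝ) → ℝ}
    (htan : IsTan (LEG M) D6 ν (fun _ => X6 v (k * v) t) h lam) {c c' : Fin 6 → ℝ}
    (hc : c ∈ D6) (hc' : c' ∈ D6) (hcc : c ≤ c') (h5 : c 5 ≤ k * c 4) (h5' : c' 5 ≤ k * c' 4) :
    (1 - s) * (c' 4 - c 4) ≤ lam c - lam c' := by
  refine le_of_forall_pos_le_add fun ε hε => ?_
  have hev : ∀ᶠ l in (atTop : Filter ℕ), h l * c' 4 < 1 - v := by
    have : Tendsto (fun l => h l * c' 4) atTop (𝓝 (0 * c' 4)) := h0.mul_const _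
    rw [zero_mul] at this
    exact this.eventually_lt_const (by linarith)
  obtain ⟨l, ⟨h1, h2⟩, ⟨h3, h4⟩, h6⟩ := ((htan.ev hc (ε := ε / 2) (by positivity)).and
    ((htan.ev hc' (ε := ε / 2) (by positivity)).and hev)).exists
  have hl := hpos l
  have hord : X6 v (k * v) t + h l • c ≤ X6 v (k * v) t + h l • c' := by
    intro a
    have := mul_le_mul_of_nonneg_left (hcc a) hl.le
    simp only [Pi.add_apply, Pi.smul_apply, smul_eq_mul]
    linarith
  have h7 := olab_le_flab hE.ne hE.line_eq hE.prof hE.oprof h1 h3 hord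
  have e4 : ∀ y : Fin 6 → ℝ, (X6 v (k * v) t + h l • y) 4 = v + h l * y 4 := fun y => rfl
  have e5 : ∀ y : Fin 6 → ℝ, (X6 v (k * v) t + h l • y) 5 = k * v + h l * y 5 := fun y => rfl
  rw [e4, e5, e4, e5] at h7
  have c0 := hc.1
  have c0' := hc'.1
  have n4 : 0 ≤ h l * c 4 := mul_nonneg hl.le (c0 4)
  have n4' : 0 ≤ h l * c' 4 := mul_nonneg hl.le (c0' 4)
  have n5 : 0 ≤ h l * c 5 := mul_nonneg hl.le (c0 5)
  have n5' : 0 ≤ h l * c' 5 := mul_nonneg hl.le (c0' 5)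
  have m4 : h l * c 4 ≤ h l * c' 4 := mul_le_mul_of_nonneg_left (hcc 4) hl.le
  have kv : 0 ≤ k * v := mul_nonneg hE.k0.le hv0
  rw [own_at hE (by linarith) (by linarith) (by linarith) (by nlinarith),
    own_at hE (by linarith) (by linarith) (by linarith) (by nlinarith)] at h7
  have key : h l * ((1 - s) * (c' 4 - c 4)) ≤ h l * (lam c - lam c' + ε) := by
    rw [abs_le] at h2 h4
    nlinarith
  exact le_of_mul_le_mul_left key hl

/-- **The F-model of a tangent.** -/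
theorem fm_of_tan (hE : ExtP B I x line ν own M s b q k θ c₀) (hI : ∀ n, (I n).Nonempty)
    {v t : ℝ} (hv0 : 0 ≤ v) (hv1 : v < 1) (ht : 0 ≤ t)
    {h : ℕ → ℝ} (hpos : ∀ l, 0 < h l) (h0 : Tendsto h atTop (𝓝 0))
    {lam : (Fin 6 → ℝ) → ℝ} (htan : IsTan (LEG M) D6 ν (fun _ => X6 v (k * v) t) h lam)
    {R Rp R4 R5 : ℝ} (hR : 0 < R) (hRp : R < Rp) (hR4 : Rp ≤ R4) (hR5 : Rp ≤ R5)
    (hgood : TwGood B I x v (k * v) t h Rp R4 R5)
    (hdens : lam (dir (fun _ => Rp) R4 R5) ≤ lam (dir (fun _ => Rp) 0 0) + lam (dir 0 R4 R5)) :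
    ∃ (B' : Base) (G' : ℕ → Cfg) (ν' : (Fin 4 → ℝ) → ℝ), FModel B' G' (1 - s) R ν' ∧
      TwistMaj B' G' ∧ ∀ p : Fin 4 → ℝ, (∀ j, 0 ≤ p j ∧ p j ≤ R) →
        ν' p = lam (dir p R4 R5) - lam (dir (fun _ => Rp) R4 R5) := by
  classical
  have hRp0 : 0 ≤ Rp := hR.le.trans hRp.le
  have hkv : 0 ≤ k * v := mul_nonneg hE.k0.le hv0
  obtain ⟨k₁, hk₁, H⟩ := exists_qzoom B (J := Unit) (I := I)
    (κ := fun _ _ => (ℤ × ℤ) × (Fin 4 → ℤ)) (f := fun _ => flab B x) (P := fun _ => LEG M)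
    (D := fun _ => D6) (ν := fun _ => ν) (lam := fun _ => lam) (fun _ => hE.prof) hpos
    (fun _ => zero_mem_D6) (fun _ => htan) (fun _ _ => 1) (fun _ => Base.Sub.const one_pos)
  obtain ⟨k₂, hk₂, H2⟩ := hgood
  set k' : ℕ → ℕ := fun n => min (k₁ n) (k₂ n) with hk'def
  have hk' : Tendsto k' U atTop := tendsto_atTop.2 fun N => by
    filter_upwards [hk₁.eventually_ge_atTop N, hk₂.eventually_ge_atTop N] with n h1 h2
    exact le_min h1 h2
  obtain ⟨B', hd, hL, -, hZ⟩ := H k' hk' (Eventually.of_forall fun n => min_le_left _ _)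
  obtain ⟨Gd, hGd, hTw⟩ := H2 k' hk' (Eventually.of_forall fun n => min_le_right _ _) B' hd
  have hlam0 : lam 0 = 0 := htan.zero hpos zero_mem_D6
  have hZ1 := hZ ()
  obtain ⟨s₀, hs₀, hcls⟩ := exists_clsSeq (B := B) (B' := B') (I := I) (x := x)
    (v := fun _ => v) (r := fun _ => k * v) (t := fun _ => t) (w := fun n => h (k' n))
    (T := fun n => B.d n ^ (-(ν (X6 v (k * v) t)))) (lam := lam)
    (fun _ => hv0) (fun _ => hkv) (fun _ => ht) (fun n => hpos _) hd hZ1 hlam0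
    (fun n => Real.rpow_pos_of_pos (B.pos n) _) (Gd := Gd) (fun n => (hI n).choose)
    (c := 1 / 2) (by norm_num) hGd
  have htw := hTw s₀ _ lam hs₀ hcls
  have hfrost : ∀ y, 0 ≤ y → y ≤ R → lam (dir 0 y 0) ≤ -((1 - s) * y) := by
    intro y hy0 hyR
    have hm : dir 0 y 0 ∈ D6 := by
      refine ⟨fun a => ?_, ?_, ?_, ?_, ?_⟩
      · fin_cases a <;> simp [dir, hy0]
      · simp [dir, hy0]
      · simp [dir, hy0]
      · simp [dir]
      · simp [dir]
    have h1 := tan_own_le hE hv0 hv1 h hpos h0 htan (c := 0) (c' := dir 0 y 0) zero_mem_D6 hm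
      (by intro a; fin_cases a <;> simp [dir, hy0]) (by simp)
      (by show (0 : ℝ) ≤ k * y; exact mul_nonneg hE.k0.le hy0)
    rw [hlam0] at h1
    have e : dir 0 y 0 4 = y := rfl
    rw [e, Pi.zero_apply] at h1
    linarith
  have hraw : RawM B' (clsCfg B B' x (fun _ => v) (fun _ => k * v) (fun _ => t)
      (fun n => h (k' n)) (fun n => cls (Gd n) (natlab B x (fun _ => v) (fun _ => k * v)
        (fun _ => t) n) (s₀ n)) s₀ Rp R4 R5) (1 - s) R :=
    rawM_of_class hcls hR hRp0 (hRp.le.trans hR4) (hRp0.trans hR5) (by linarith [hE.s1])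
      (by linarith [hE.s0]) hdens hfrost
  obtain ⟨G', ν', S, hF, hsub, hS, hcard, -, -, -, -, hTM⟩ := exists_fmodel_tw B' _ hraw htw
  refine ⟨B', G', ν', hF, hTM, fun p hp => ?_⟩
  exact fmodel_ident hcls hR hRp hR4 hR5 (K := 6) (by norm_num)
    (htan.lip hpos (nu_lip_of hE.lip)) hF hsub hS hcard hp

end

end Crest.Agent.R138.AeT501
end

-- ▼ part R138/TwR_480
section

/-!
# R138: raw twist of the configurations of one class (helper480)

* `ZD.le_card_hts`, `ZD.card_near_hts_le` : heights of one fat line, counted by the classes of 926's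
  partitions;
* `exists_twGd` : strict drop of the profile in the slope direction at every blow-up scale gives a
  choice of the good incidences such that every class inside satisfies `TwRaw`.
-/

set_option autoImplicit false
set_option linter.unusedSectionVars false
set_option linter.unusedVariables false

open Filter Topology MeasureTheory
open scoped NNReal

namespace Crest.Agent.R138.TwR480

open Crest.Agent.R138.Ex926 Crest.Agent.R138.FM501 Crest.Agent.R138.Tw628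
open Crest.Agent.R138.TwMaj480 Crest.Agent.R138.Flg101
open Finset

section Finite

variable {α : Type*} [DecidableEq α] {D : ZD α}

/-- the fat line of `s` meets at least as many heights as it has fine sub-classes (up to 675) -/
theorem le_card_hts (h : D.Ok) {s : α} (hs : s ∈ D.I) :
    ((Ex926.cls D.I (fun s => (D.x s).lab D.i₀ D.j₀ D.pr) s).image
      fun s => (D.x s).lab D.i₁ D.j₁ D.pr).card ≤ 675 * (D.cfg.hts (D.lcode (D.x s))).card := by
  classical
  set A := Ex926.cls D.I (fun s => (D.x s).lab D.i₀ D.j₀ D.pr) s with hA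
  have s1 : (A.image fun s => (D.x s).lab D.i₁ D.j₁ D.pr).card ≤
      675 * (A.image fun s => D.zcode (D.x s)).card := by
    refine Flg101.card_image_le_mul fun s' hs' => ?_
    rw [← prod_K4]
    refine card_lab_le _ D.x (D.x s') (fun s'' hs'' => ?_) (fun s'' hs'' j => ?_)
    · exact ZD.zcode_eq (mem_filter.1 hs'').2
    · have h1 := (mem_cls.1 (mem_filter.1 hs'').1).2
      have h2 := (mem_cls.1 hs').2
      exact co_fine_close h.hi h.hj h.wall (ZD.zcode_eq (mem_filter.1 hs'').2) (h1.trans h2.symm) j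
  refine s1.trans (Nat.mul_le_mul_left _ (card_le_card ?_))
  intro c hc
  obtain ⟨s', hs', rfl⟩ := mem_image.1 hc
  obtain ⟨h1, h2⟩ := mem_cls.1 hs'
  have hl : D.lcode (D.x s') = D.lcode (D.x s) := by unfold ZD.lcode; rw [h2]
  rw [Cfg.hts, mem_filter]
  exact ⟨mem_image_of_mem _ h1, ZD.mem_I.2 ⟨s', h1, hl, rfl⟩⟩

/-- heights of one fat line with slope close to the slope at one height -/
theorem card_near_hts_le (h : D.Ok) {Y : ℝ} {j : ℕ} (hj0 : D.j₀ ≤ j) (hj1 : j ≤ D.j₁)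
    (hY : (1 / 2) ^ D.j₀ * Y ≤ (1 / 2) ^ j) {M : ℕ}
    (hM : ∀ s ∈ D.I, ((Ex926.cls D.I (fun s => (D.x s).lab D.i₀ j D.pr) s).image
      fun s => (D.x s).lab D.i₁ D.j₁ D.pr).card ≤ M) {l k : ℕ} (hk : k ∈ D.cfg.hts l) :
    ((D.cfg.hts l).filter fun k' => |D.cfg.f k - D.cfg.f k'| ≤ Y).card ≤ M * (675 * 3) := by
  classical
  rw [Cfg.hts, mem_filter] at hk
  obtain ⟨s, hs, hsl, rfl⟩ := ZD.mem_I.1 hk.2
  set A := D.I.filter fun s' => D.lcode (D.x s') = l ∧
    |⌊(2:ℝ) ^ j * (D.x s').θ⌋ - ⌊(2:ℝ) ^ j * (D.x s).θ⌋| ≤ 1 with hA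
  have hsub : ((D.cfg.hts l).filter fun k' => |D.cfg.f (D.zcode (D.x s)) - D.cfg.f k'| ≤ Y) ⊆
      A.image fun s => D.zcode (D.x s) := by
    intro k' hk'
    rw [mem_filter, Cfg.hts, mem_filter] at hk'
    obtain ⟨⟨_, hk2⟩, hk3⟩ := hk'
    obtain ⟨s', hs', hsl', rfl⟩ := ZD.mem_I.1 hk2
    refine mem_image.2 ⟨s', ?_, rfl⟩
    rw [hA, mem_filter]
    refine ⟨hs', hsl', ?_⟩
    have e1 : D.cfg.f (D.zcode (D.x s)) - D.cfg.f (D.zcode (D.x s')) =
        ((D.x s).fQ D.j₁ - (D.x s').fQ D.j₁) * 2 ^ D.j₀ := by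
      simp only [ZD.cfg]; rw [ZD.fc_eq hs, ZD.fc_eq hs']; ring
    rw [e1, abs_mul, abs_of_pos (by positivity : (0:ℝ) < 2 ^ D.j₀)] at hk3
    have h1 : |(D.x s').fQ D.j₁ - (D.x s).fQ D.j₁| ≤ ((1:ℕ):ℝ) * (1 / 2) ^ j := by
      have h2 : |(D.x s').fQ D.j₁ - (D.x s).fQ D.j₁| =
          (1 / 2) ^ D.j₀ * (|(D.x s).fQ D.j₁ - (D.x s').fQ D.j₁| * 2 ^ D.j₀) := by
        have := ZD.half_mul_two_pow D.j₀
        calc |(D.x s').fQ D.j₁ - (D.x s).fQ D.j₁|
            = |(D.x s).fQ D.j₁ - (D.x s').fQ D.j₁| * ((1 / 2) ^ D.j₀ * 2 ^ D.j₀) := by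
              rw [this, mul_one, abs_sub_comm]
          _ = _ := by ring
      rw [h2]
      refine le_trans (mul_le_mul_of_nonneg_left hk3 (by positivity)) ?_
      simpa using hY
    have h3 := floor_of_dist h1
    have e2 : ∀ w : Inc, ⌊(2:ℝ) ^ j * w.fQ D.j₁⌋ = ⌊(2:ℝ) ^ j * w.θ⌋ := fun w =>
      ZD.floor_fl hj1 w.θ
    rw [e2, e2] at h3
    exact_mod_cast h3
  have s1 : (A.image fun s => (D.x s).cell D.i₀ j).card ≤ 3 := by
    have hsub2 : (A.image fun s => (D.x s).cell D.i₀ j) ⊆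
        (Finset.Icc (⌊(2:ℝ) ^ j * (D.x s).θ⌋ - 1) (⌊(2:ℝ) ^ j * (D.x s).θ⌋ + 1)).image fun m =>
          (⌊(2:ℝ) ^ D.i₀ * (D.x s).z⌋, m) := by
      intro c hc
      obtain ⟨s', hs', rfl⟩ := mem_image.1 hc
      obtain ⟨h1, -, h2⟩ := mem_filter.1 hs'
      rw [abs_le] at h2
      refine mem_image.2 ⟨⌊(2:ℝ) ^ j * (D.x s').θ⌋, ?_, ?_⟩
      · rw [Finset.mem_Icc]; constructor <;> linarith [h2.1, h2.2]
      · have e1 := ZD.cell0 h h1
        have e2 := ZD.cell0 h hs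
        unfold Inc.cell at e1 e2 ⊢
        rw [Prod.mk.injEq] at e1 e2
        rw [e1.1, e2.1]
    refine (card_le_card hsub2).trans (card_image_le.trans ?_)
    rw [Int.card_Icc]
    have : ⌊(2:ℝ) ^ j * (D.x s).θ⌋ + 1 + 1 - (⌊(2:ℝ) ^ j * (D.x s).θ⌋ - 1) = 3 := by ring
    rw [this]; rfl
  have s2 : (A.image fun s => (D.x s).lab D.i₀ j D.pr).card ≤
      675 * (A.image fun s => (D.x s).cell D.i₀ j).card := by
    refine Flg101.card_image_le_mul fun s' hs' => ?_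
    rw [← prod_K4]
    refine card_lab_le _ D.x (D.x s') (fun s'' hs'' => (mem_filter.1 hs'').2)
      (fun s'' hs'' k => ?_)
    have h1 := (mem_filter.1 (mem_filter.1 hs'').1).2.1
    have h2 := (mem_filter.1 hs').2.1
    exact co_fine_close le_rfl hj0 h.wall (mem_filter.1 hs'').2
      (ZD.lcode_eq (h1.trans h2.symm)) k
  have s3 : (A.image fun s => (D.x s).lab D.i₁ D.j₁ D.pr).card ≤
      M * (A.image fun s => (D.x s).lab D.i₀ j D.pr).card := by
    refine Flg101.card_image_le_mul fun s' hs' => ?_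
    refine le_trans (card_le_card (image_subset_image ?_)) (hM s' (mem_filter.1 hs').1)
    intro s'' h''
    obtain ⟨h1, h2⟩ := mem_filter.1 h''
    exact mem_cls.2 ⟨(mem_filter.1 h1).1, h2⟩
  have s4 : (A.image fun s => D.zcode (D.x s)).card ≤
      (A.image fun s => (D.x s).lab D.i₁ D.j₁ D.pr).card := by
    have : (A.image fun s => D.zcode (D.x s)) =
        ((A.image fun s => (D.x s).lab D.i₁ D.j₁ D.pr).image Prod.fst).image Encodable.encode := by
      rw [image_image, image_image]; rfl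
    rw [this]; exact card_image_le.trans card_image_le
  calc _ ≤ (A.image fun s => D.zcode (D.x s)).card := card_le_card hsub
    _ ≤ (A.image fun s => (D.x s).lab D.i₁ D.j₁ D.pr).card := s4
    _ ≤ M * (A.image fun s => (D.x s).lab D.i₀ j D.pr).card := s3
    _ ≤ M * (675 * (A.image fun s => (D.x s).cell D.i₀ j).card) := Nat.mul_le_mul_left _ s2
    _ ≤ M * (675 * 3) := Nat.mul_le_mul_left _ (Nat.mul_le_mul_left _ s1)

open Classical in
theorem tw_at (h : D.Ok) {Y A M X : ℝ} {j : ℕ} (hj0 : D.j₀ ≤ j) (hj1 : j ≤ D.j₁)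
    (hY : (1 / 2) ^ D.j₀ * Y ≤ (1 / 2) ^ j) (hX : 0 ≤ X)
    (hA : ∀ s ∈ D.I, A ≤ (((Ex926.cls D.I (fun s => (D.x s).lab D.i₀ D.j₀ D.pr) s).image
      fun s => (D.x s).lab D.i₁ D.j₁ D.pr).card : ℝ))
    (hM : ∀ s ∈ D.I, (((Ex926.cls D.I (fun s => (D.x s).lab D.i₀ j D.pr) s).image
      fun s => (D.x s).lab D.i₁ D.j₁ D.pr).card : ℝ) ≤ M)
    (hXM : X * (675 * (M * (675 * 3))) ≤ A) {l k : ℕ} (hl : l ∈ D.cfg.L)
    (hk : k ∈ D.cfg.hts l) :
    X * ((((D.cfg.hts l).filter fun k' => |D.cfg.f k - D.cfg.f k'| ≤ Y).card : ℕ) : ℝ) ≤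
      ((D.cfg.hts l).card : ℝ) := by
  obtain ⟨s, hs, -, rfl⟩ := ZD.lrep_spec hl
  have hM0 : 0 ≤ M := (Nat.cast_nonneg _).trans (hM s hs)
  have h1 := card_near_hts_le h hj0 hj1 hY (M := ⌊M⌋₊) (fun s hs => Nat.le_floor (hM s hs)) hk
  have h1' : ((((D.cfg.hts (D.lcode (D.x s))).filter
      fun k' => |D.cfg.f k - D.cfg.f k'| ≤ Y).card : ℕ) : ℝ) ≤ M * (675 * 3) := by
    have h2 : ((((D.cfg.hts (D.lcode (D.x s))).filter
      fun k' => |D.cfg.f k - D.cfg.f k'| ≤ Y).card : ℕ) : ℝ) ≤ ((⌊M⌋₊ * (675 * 3) : ℕ) : ℝ) :=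
      Nat.cast_le.2 h1
    push_cast at h2
    have h3 := Nat.floor_le hM0
    linarith
  have h4 := le_card_hts h hs
  have h4' : (((Ex926.cls D.I (fun s => (D.x s).lab D.i₀ D.j₀ D.pr) s).image
      fun s => (D.x s).lab D.i₁ D.j₁ D.pr).card : ℝ) ≤
      675 * ((D.cfg.hts (D.lcode (D.x s))).card : ℝ) := by exact_mod_cast h4
  have h5 := (hA s hs).trans h4'
  have h6 := mul_le_mul_of_nonneg_left h1' hX
  have h7 : X * (675 * (M * (675 * 3))) = 675 * (X * (M * (675 * 3))) := by ring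
  rw [h7] at hXM
  linarith

end Finite

section Asym

variable {ι : ℕ → Type*} [∀ n, DecidableEq (ι n)] {B : Base} {I : ∀ n, Finset (ι n)}
  {x : ∀ n, ι n → Inc} {ν : (Fin 6 → ℝ) → ℝ} {M : ℝ}

open Classical in
/-- the incidences of `H` whose `p`-class (inside `H`) has almost the maximal number of
`p'`-subclasses -/
noncomputable def full (B : Base) (H : ∀ n, Finset (ι n)) (x : ∀ n, ι n → Inc)
    (ν : (Fin 6 → ℝ) → ℝ) (p p' : Fin 6 → ℝ) (η : ℝ) (n : ℕ) : Finset (ι n) :=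
  (H n).filter fun i => B.d n ^ (-(ν p - ν p') + η) ≤
    (((Ex926.cls (H n) (flab B x n p) i).image (flab B x n p')).card : ℝ)

theorem ev_full (hν : QProf B I (flab B x) (LEG M) ν) {H : ∀ n, Finset (ι n)} {c : ℝ} (hc : 0 < c)
    (hH : ∀ᶠ n in (U : Filter ℕ), H n ⊆ I n ∧ c * ((I n).card : ℝ) ≤ (H n).card)
    {p p' : Fin 6 → ℝ} (hp : p ∈ LEG M) (hp' : p' ∈ LEG M) {η : ℝ} (hη : 0 < η) :
    ∀ᶠ n in (U : Filter ℕ), c / 2 * ((I n).card : ℝ) ≤ ((full B H x ν p p' η n).card : ℝ) := by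
  classical
  filter_upwards [hν.up (η / 4) (by positivity), hν.root (η / 4) (by positivity), hH,
    B.ev_rpow_small (η := η / 2) (c := c / 2) (by positivity) (by positivity)] with n h1 h2 h3 h4
  set s : ℝ := B.d n ^ (-ν p + 3 * (η / 4)) with hs
  have hpos : ∀ t : ℝ, 0 < B.d n ^ t := fun t => Real.rpow_pos_of_pos (B.pos n) t
  have hsplit := card_filter_add_card_filter_not (s := H n) (p := fun i =>
    B.d n ^ (-(ν p - ν p') + η) ≤
    (((Ex926.cls (H n) (flab B x n p) i).image (flab B x n p')).card : ℝ))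
  have hbad : (((H n).filter fun i => ¬ (B.d n ^ (-(ν p - ν p') + η) ≤
    (((Ex926.cls (H n) (flab B x n p) i).image (flab B x n p')).card : ℝ))).card : ℝ) ≤
      ((H n).filter fun i => ((Ex926.cls (H n) (flab B x n p) i).card : ℝ) < s).card := by
    refine Nat.cast_le.2 (card_le_card fun i hi => ?_)
    rw [mem_filter] at hi ⊢
    refine ⟨hi.1, ?_⟩
    have hlt := lt_of_not_ge hi.2
    have h5 := le_count_mul (Ex926.cls (H n) (flab B x n p) i) (fun _ => (1 : ℝ)) (flab B x n p')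
      (m := B.d n ^ (-(ν p' + η / 4))) (fun y hy => by
        rw [sum_const, nsmul_eq_mul, mul_one]
        have hy' := (mem_cls.1 hy).1
        refine le_trans ?_ (h1 p' hp' y (h3.1 hy'))
        refine Nat.cast_le.2 (card_le_card fun z hz => ?_)
        obtain ⟨z1, z2⟩ := mem_cls.1 hz
        exact mem_cls.2 ⟨h3.1 (mem_cls.1 z1).1, z2⟩)
    rw [sum_const, nsmul_eq_mul, mul_one] at h5
    refine lt_of_le_of_lt h5 ?_
    have h6 := mul_lt_mul_of_pos_left hlt (hpos (-(ν p' + η / 4)))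
    refine lt_of_lt_of_le h6 (le_of_eq ?_)
    rw [← rp, hs]; congr 1; ring
  have h7 := card_small_cls (H n) (flab B x n p) (hpos (-ν p + 3 * (η / 4))).le
  rw [← hs] at h7
  have h8 : (((H n).image (flab B x n p)).card : ℝ) ≤ ((I n).card : ℝ) * B.d n ^ (ν p - η / 4) :=
    le_trans (Nat.cast_le.2 (card_le_card (image_subset_image h3.1))) (h2 p hp)
  have h9 : s * (((H n).image (flab B x n p)).card : ℝ) ≤ c / 2 * ((I n).card : ℝ) := by
    have e1 : s * B.d n ^ (ν p - η / 4) = B.d n ^ (η / 2) := by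
      rw [hs, ← rp]; congr 1; ring
    calc s * (((H n).image (flab B x n p)).card : ℝ)
        ≤ s * (((I n).card : ℝ) * B.d n ^ (ν p - η / 4)) :=
          mul_le_mul_of_nonneg_left h8 (hpos _).le
      _ = ((I n).card : ℝ) * (s * B.d n ^ (ν p - η / 4)) := by ring
      _ = ((I n).card : ℝ) * B.d n ^ (η / 2) := by rw [e1]
      _ ≤ ((I n).card : ℝ) * (c / 2) := mul_le_mul_of_nonneg_left h4 (Nat.cast_nonneg _)
      _ = _ := by ring
  have hsplit' : ((full B H x ν p p' η n).card : ℝ) +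
      (((H n).filter fun i => ¬ (B.d n ^ (-(ν p - ν p') + η) ≤
        (((Ex926.cls (H n) (flab B x n p) i).image (flab B x n p')).card : ℝ))).card : ℝ) =
      ((H n).card : ℝ) := by exact_mod_cast hsplit
  have := h3.2
  linarith

/-- the classes of `full` are classes of `H` -/
theorem cls_full {H : ∀ n, Finset (ι n)} {p p' : Fin 6 → ℝ} {η : ℝ} {n : ℕ} {i : ι n}
    (hi : i ∈ full B H x ν p p' η n) :
    Ex926.cls (H n) (flab B x n p) i ⊆ full B H x ν p p' η n := by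
  classical
  intro y hy
  obtain ⟨h1, h2⟩ := mem_cls.1 hy
  unfold full at hi ⊢
  rw [mem_filter] at hi ⊢
  have e : Ex926.cls (H n) (flab B x n p) y = Ex926.cls (H n) (flab B x n p) i := by
    ext z; rw [mem_cls, mem_cls, h2]
  exact ⟨h1, by rw [e]; exact hi.2⟩

/-- the natural box is coarser than the fat line -/
theorem ev_nat4_le (B : Base) {v r t w Rp : ℝ} (hv : 0 ≤ v) (hr : 0 ≤ r) (ht : 0 ≤ t) (hw : 0 < w)
    (hRp : 0 < Rp) : ∀ᶠ n in (U : Filter ℕ), ∀ j,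
      nat4 (B.levc n v) (B.levc n r) (B.levc n t) j ≤ QL B n v r t w (fun _ => Rp) j := by
  have hl2 : 0 < Real.log 2 := Real.log_pos (by norm_num)
  have hwR := mul_pos hw hRp
  filter_upwards [B.ev_L_ge (4 * Real.log 2 / (w * Rp))] with n hn j
  have hL := B.L_pos n
  have h4 : 4 ≤ w * Rp * B.L n / Real.log 2 := by
    rw [le_div_iff₀ hl2]
    rw [div_le_iff₀ hwR] at hn
    linarith
  have cu : ∀ {s : ℝ}, 0 ≤ s → (B.levc n s : ℝ) < s * B.L n / Real.log 2 + 1 := fun {s} hs =>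
    Nat.ceil_lt_add_one (by positivity)
  have fl : ∀ s : ℝ, s * B.L n / Real.log 2 < (B.lev n s : ℝ) + 1 := fun s => Nat.lt_floor_add_one _
  have cl : ∀ s : ℝ, s * B.L n / Real.log 2 ≤ (B.levc n s : ℝ) := fun s => Nat.le_ceil _
  have ad : ∀ a b : ℝ, (a + b) * B.L n / Real.log 2 = a * B.L n / Real.log 2 + b * B.L n / Real.log 2 :=
    fun a b => by rw [add_mul, add_div]
  fin_cases j
  · show B.levc n t + B.levc n v + B.levc n r ≤ B.lev n (t + v + r + w * Rp)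
    have h1 := fl (t + v + r + w * Rp)
    rw [ad, ad, ad] at h1
    have : ((B.levc n t + B.levc n v + B.levc n r : ℕ) : ℝ) <
        ((B.lev n (t + v + r + w * Rp) + 1 : ℕ) : ℝ) := by
      push_cast; linarith [cu hv, cu hr, cu ht]
    have : B.levc n t + B.levc n v + B.levc n r < B.lev n (t + v + r + w * Rp) + 1 := by
      exact_mod_cast this
    omega
  · show B.levc n t + B.levc n r ≤ B.levc n (t + r + w * Rp)
    have h1 := cl (t + r + w * Rp)
    rw [ad, ad] at h1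
    have : ((B.levc n t + B.levc n r : ℕ) : ℝ) < ((B.levc n (t + r + w * Rp) + 1 : ℕ) : ℝ) := by
      push_cast; linarith [cu hr, cu ht]
    have : B.levc n t + B.levc n r < B.levc n (t + r + w * Rp) + 1 := by exact_mod_cast this
    omega
  · show B.levc n t ≤ B.levc n (t + w * Rp)
    exact B.levc_mono n (by linarith)
  · show B.levc n t + B.levc n v ≤ B.lev n (t + v + w * Rp)
    have h1 := fl (t + v + w * Rp)
    rw [ad, ad] at h1
    have : ((B.levc n t + B.levc n v : ℕ) : ℝ) < ((B.lev n (t + v + w * Rp) + 1 : ℕ) : ℝ) := by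
      push_cast; linarith [cu hv, cu ht]
    have : B.levc n t + B.levc n v < B.lev n (t + v + w * Rp) + 1 := by exact_mod_cast this
    omega

/-- sides of the slope cells -/
theorem ev_side (B : Base) {r w e : ℝ} (hr : 0 ≤ r) (hw : 0 < w) (he : 0 < e) :
    ∀ᶠ n in (U : Filter ℕ), ((1 : ℝ) / 2) ^ (B.levc n r) * (B.d n ^ w) ^ (2 * e) ≤
      (1 / 2) ^ (B.levc n (r + w * e)) := by
  filter_upwards [B.ev_rpow_small (η := w * e) (c := 1 / 2) (by positivity) (by norm_num)] with n hn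
  have h1 := half_pow_levc_le B n r
  have h2 := le_half_pow_levc B n (t := r + w * e) (by positivity)
  refine le_trans ?_ h2
  have e1 : (B.d n ^ w) ^ (2 * e) = B.d n ^ (w * e) * B.d n ^ (w * e) := by
    rw [← Real.rpow_mul (B.pos n).le, ← rp]; congr 1; ring
  have p1 := Real.rpow_pos_of_pos (B.pos n) r
  have p2 := Real.rpow_pos_of_pos (B.pos n) (w * e)
  rw [e1, rp]
  calc _ ≤ B.d n ^ r * (B.d n ^ (w * e) * (1 / 2)) := by gcongr
    _ = _ := by ring

theorem ev_poly (B : Base) {w η : ℝ} (hw : 0 < w) (hη : 0 < η) (l : ℕ) (K : ℝ) (hK : 0 < K) :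
    ∀ᶠ n in (U : Filter ℕ), (1 + w * B.L n) ^ l * K ≤ B.d n ^ (-η) := by
  have h1 : B.Sub (fun n => ((1 + w) * (1 + B.L n)) ^ l * K) :=
    (((Base.Sub.const (by positivity)).mul Base.Sub.one_add_L).pow l).mul (Base.Sub.const hK)
  filter_upwards [h1.ev_le hη] with n hn
  have hL := B.L_pos n
  have h2 : (1 + w * B.L n) ^ l * K ≤ ((1 + w) * (1 + B.L n)) ^ l * K := by
    refine mul_le_mul_of_nonneg_right ?_ hK.le
    refine pow_le_pow_left₀ (by positivity) ?_ _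
    nlinarith
  refine h2.trans ?_
  rw [← B.exp_eq, ← Real.log_le_iff_le_exp hn.1]
  exact hn.2

/-- **Choice of the good incidences.** If the profile drops strictly in the slope direction at every
blow-up scale, then for every slow speed `k'` and every dense `H ⊆ I` there is a dense `Gd ⊆ H` such that
every class inside `Gd` satisfies the raw twist. -/
theorem exists_twGd (hν : QProf B I (flab B x) (LEG M) ν) {V W T h : ℕ → ℝ}
    (hV : ∀ l, 0 ≤ V l) (hW : ∀ l, 0 ≤ W l) (hT : ∀ l, 0 ≤ T l) (hh : ∀ l, 0 < h l)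
    {Rp R4 R5 : ℝ} (hRp : 0 < Rp) (hR4 : 0 ≤ R4) (hR5 : 0 < R5)
    (hleg : ∀ᶠ l in (atTop : Filter ℕ),
      X6 (V l) (W l) (T l) + h l • dir (fun _ => Rp) R4 R5 ∈ LEG M ∧
      ∀ e, 0 ≤ e → e ≤ R5 → X6 (V l) (W l) (T l) + h l • dir (fun _ => Rp) 0 e ∈ LEG M)
    (hdrop : ∀ᶠ l in (atTop : Filter ℕ), ∀ e, 0 < e → e ≤ R5 →
      ν (X6 (V l) (W l) (T l) + h l • dir (fun _ => Rp) 0 e) <
        ν (X6 (V l) (W l) (T l) + h l • dir (fun _ => Rp) 0 0))
    {H : ∀ n, Finset (ι n)} {c : ℝ} (hc : 0 < c)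
    (hH : ∀ᶠ n in (U : Filter ℕ), H n ⊆ I n ∧ (H n).Nonempty ∧
      c * ((I n).card : ℝ) ≤ (H n).card) :
    ∃ k : ℕ → ℕ, Tendsto k U atTop ∧ ∀ k' : ℕ → ℕ, Tendsto k' U atTop →
      (∀ᶠ n in (U : Filter ℕ), k' n ≤ k n) → ∃ Gd : ∀ n, Finset (ι n),
        (∀ᶠ n in (U : Filter ℕ), Gd n ⊆ H n ∧ (Gd n).Nonempty ∧
          c / 2 * ((I n).card : ℝ) ≤ (Gd n).card) ∧
        ∀ (B' : Base), (∀ n, B'.d n = B.d n ^ h (k' n)) →
        ∀ (s₀ : ∀ n, ι n) (Tc : ℕ → ℝ) (lam : (Fin 6 → ℝ) → ℝ),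
        ClsSeq B B' I x (fun n => V (k' n)) (fun n => W (k' n)) (fun n => T (k' n))
          (fun n => h (k' n)) Tc lam (fun n => cls (Gd n) (natlab B x (fun n => V (k' n))
            (fun n => W (k' n)) (fun n => T (k' n)) n) (s₀ n)) s₀ →
        TwRaw B' (clsCfg B B' x (fun n => V (k' n)) (fun n => W (k' n)) (fun n => T (k' n))
          (fun n => h (k' n)) (fun n => cls (Gd n) (natlab B x (fun n => V (k' n))
            (fun n => W (k' n)) (fun n => T (k' n)) n) (s₀ n)) s₀ Rp R4 R5) := by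
  classical
  set e : ℕ → ℝ := fun l => R5 / ((l : ℝ) + 1) with he
  have he0 : ∀ l, 0 < e l := fun l => div_pos hR5 (by positivity)
  have heR : ∀ l, e l ≤ R5 := fun l => div_le_self hR5.le (by
    have : (0 : ℝ) ≤ l := Nat.cast_nonneg l
    linarith)
  set p0 : ℕ → (Fin 6 → ℝ) := fun l => X6 (V l) (W l) (T l) + h l • dir (fun _ => Rp) 0 0 with hp0
  set pe : ℕ → (Fin 6 → ℝ) := fun l => X6 (V l) (W l) (T l) + h l • dir (fun _ => Rp) 0 (e l) with hpe
  set p1 : ℕ → (Fin 6 → ℝ) := fun l => X6 (V l) (W l) (T l) + h l • dir (fun _ => Rp) R4 R5 with hp1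
  set η : ℕ → ℝ := fun l => (ν (p0 l) - ν (pe l)) / 4 with hη
  obtain ⟨k, hk, hk2⟩ := exists_diag (fun l n =>
    (((p1 l ∈ LEG M) ∧ ∀ e, 0 ≤ e → e ≤ R5 →
        X6 (V l) (W l) (T l) + h l • dir (fun _ => Rp) 0 e ∈ LEG M) ∧
      (∀ e, 0 < e → e ≤ R5 → ν (X6 (V l) (W l) (T l) + h l • dir (fun _ => Rp) 0 e) < ν (p0 l))) →
    (c / 2 * ((I n).card : ℝ) ≤ ((full B H x ν (p0 l) (p1 l) (η l) n).card : ℝ)) ∧
    (∀ i ∈ I n, (((Ex926.cls (I n) (flab B x n (pe l)) i).image (flab B x n (p1 l))).card : ℝ) ≤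
      B.d n ^ (-(ν (pe l) - ν (p1 l) + η l))) ∧
    (((1 : ℝ) / 2) ^ (B.levc n (W l)) * (B.d n ^ h l) ^ (2 * e l) ≤
      (1 / 2) ^ (B.levc n (W l + h l * e l))) ∧
    (∀ j, nat4 (B.levc n (V l)) (B.levc n (W l)) (B.levc n (T l)) j ≤
      QL B n (V l) (W l) (T l) (h l) (fun _ => Rp) j) ∧
    ((1 + h l * B.L n) ^ l * (675 * (675 * 3)) ≤ B.d n ^ (-(2 * η l)))) (by
    intro l
    by_cases hl : (((p1 l ∈ LEG M) ∧ ∀ e, 0 ≤ e → e ≤ R5 →
        X6 (V l) (W l) (T l) + h l • dir (fun _ => Rp) 0 e ∈ LEG M) ∧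
      (∀ e, 0 < e → e ≤ R5 → ν (X6 (V l) (W l) (T l) + h l • dir (fun _ => Rp) 0 e) < ν (p0 l)))
    · have hηl : 0 < η l := by
        have := hl.2 (e l) (he0 l) (heR l)
        simp only [hη, hpe]
        linarith
      have hle : pe l ≤ p1 l := by
        intro i
        have h1 := dir_mono (p := fun _ => Rp) (p' := fun _ => Rp) (fun _ => le_rfl) hR4 (heR l) i
        have h2 := mul_le_mul_of_nonneg_left h1 (hh l).le
        show X6 (V l) (W l) (T l) i + h l * dir (fun _ => Rp) 0 (e l) i ≤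
          X6 (V l) (W l) (T l) i + h l * dir (fun _ => Rp) R4 R5 i
        linarith
      filter_upwards [ev_full hν hc (hH.mono fun n hn => ⟨hn.1, hn.2.2⟩)
          (hl.1.2 0 le_rfl hR5.le) hl.1.1 hηl, hν.num (η l) hηl,
        ev_side B (hW l) (hh l) (he0 l), ev_nat4_le B (hV l) (hW l) (hT l) (hh l) hRp,
        ev_poly B (hh l) (show 0 < 2 * η l by linarith) l (675 * (675 * 3)) (by norm_num)] with
        n a1 a2 a3 a4 a5 _
      exact ⟨a1, fun i hi => a2 (pe l) (hl.1.2 _ (he0 l).le (heR l)) (p1 l) hl.1.1 hle i hi, a3, a4,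
        a5⟩
    · exact Eventually.of_forall fun n hn => absurd hn hl)
  refine ⟨k, hk, fun k' hk' hle => ?_⟩
  have hev : ∀ᶠ n in (U : Filter ℕ),
    (c / 2 * ((I n).card : ℝ) ≤
      ((full B H x ν (p0 (k' n)) (p1 (k' n)) (η (k' n)) n).card : ℝ)) ∧
    (∀ i ∈ I n, (((Ex926.cls (I n) (flab B x n (pe (k' n))) i).image
      (flab B x n (p1 (k' n)))).card : ℝ) ≤
      B.d n ^ (-(ν (pe (k' n)) - ν (p1 (k' n)) + η (k' n)))) ∧
    (((1 : ℝ) / 2) ^ (B.levc n (W (k' n))) * (B.d n ^ h (k' n)) ^ (2 * e (k' n)) ≤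
      (1 / 2) ^ (B.levc n (W (k' n) + h (k' n) * e (k' n)))) ∧
    (∀ j, nat4 (B.levc n (V (k' n))) (B.levc n (W (k' n))) (B.levc n (T (k' n))) j ≤
      QL B n (V (k' n)) (W (k' n)) (T (k' n)) (h (k' n)) (fun _ => Rp) j) ∧
    ((1 + h (k' n) * B.L n) ^ (k' n) * (675 * (675 * 3)) ≤ B.d n ^ (-(2 * η (k' n)))) := by
    filter_upwards [hk2, hle, hk'.eventually hleg, hk'.eventually hdrop] with n h1 h2 h3 h4
    exact h1 _ h2 ⟨h3, h4⟩
  refine ⟨fun n => full B H x ν (p0 (k' n)) (p1 (k' n)) (η (k' n)) n, ?_, ?_⟩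
  · filter_upwards [hev, hH] with n h1 h2
    refine ⟨filter_subset _ _, ?_, h1.1⟩
    have h3 : (0 : ℝ) < (I n).card := by
      exact_mod_cast (card_pos.2 h2.2.1).trans_le (card_le_card h2.1)
    have h4 : (0 : ℝ) < ((full B H x ν (p0 (k' n)) (p1 (k' n)) (η (k' n)) n).card : ℝ) :=
      lt_of_lt_of_le (by positivity) h1.1
    exact card_pos.1 (by exact_mod_cast h4)
  · intro B' hB' s₀ Tc lam hC ε hε m
    have hBL : ∀ n, B'.L n = h (k' n) * B.L n := by
      intro n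
      have h1 : Real.log (B'.d n) = Real.log (B.d n ^ h (k' n)) := by rw [hB' n]
      rw [Real.log_rpow (B.pos n), B.log_d, B'.log_d] at h1
      linarith
    have hke : ∀ᶠ n in (U : Filter ℕ), 2 * e (k' n) ≤ ε := by
      obtain ⟨N, hN⟩ := exists_nat_gt (2 * R5 / ε)
      filter_upwards [hk'.eventually_ge_atTop N] with n hn
      have h2 : (N : ℝ) ≤ k' n := by exact_mod_cast hn
      rw [div_lt_iff₀ hε] at hN
      simp only [he]
      rw [← mul_div_assoc, div_le_iff₀ (by positivity)]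
      nlinarith
    filter_upwards [hev, hke, hC.cfg_eq hRp.le hR4 hR5.le (Rp := Rp) (R4 := R4) (R5 := R5),
      hC.ok hRp.le hR4 hR5.le (Rp := Rp) (R4 := R4) (R5 := R5), hk'.eventually_ge_atTop m, hH,
      hC.cls] with n h1 h2 h3 h4 h5 h6 h7 i hi kk hkk
    rw [h3] at hi hkk ⊢
    obtain ⟨b1, b2, b3, b4, b5⟩ := h1
    set D := zdat B B' x (fun n => V (k' n)) (fun n => W (k' n)) (fun n => T (k' n))
          (fun n => h (k' n)) (fun n => cls (full B H x ν (p0 (k' n)) (p1 (k' n)) (η (k' n)) n)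
            (natlab B x (fun n => V (k' n))
            (fun n => W (k' n)) (fun n => T (k' n)) n) (s₀ n)) s₀ Rp R4 R5 n with hD
    set l := k' n with hl
    have hL' := B'.L_pos n
    have hpos : ∀ t : ℝ, 0 < B.d n ^ t := fun t => Real.rpow_pos_of_pos (B.pos n) t
    have hsubC : ∀ s ∈ D.I, s ∈ full B H x ν (p0 l) (p1 l) (η l) n := fun s hs => (mem_cls.1 hs).1
    have hf0 : flab B x n (p0 l) = fun s => (D.x s).lab D.i₀ D.j₀ D.pr := by
      rw [hp0]; simp only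
      rw [flab_dir, mul_zero, add_zero, add_zero]; rfl
    have hf1 : flab B x n (p1 l) = fun s => (D.x s).lab D.i₁ D.j₁ D.pr := rfl
    have hfe : flab B x n (pe l) =
        fun s => (D.x s).lab D.i₀ (B.levc n (W l + h l * e l)) D.pr := by
      rw [hpe]; simp only
      rw [flab_dir, mul_zero, add_zero]; rfl
    have hA : ∀ s ∈ D.I, B.d n ^ (-(ν (p0 l) - ν (p1 l)) + η l) ≤
        (((Ex926.cls D.I (fun s => (D.x s).lab D.i₀ D.j₀ D.pr) s).image
          fun s => (D.x s).lab D.i₁ D.j₁ D.pr).card : ℝ) := by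
      intro s hs
      have c1 := hsubC s hs
      have c2 := cls_full c1
      have c3 := (mem_filter.1 c1).2
      refine c3.trans (Nat.cast_le.2 (card_le_card ?_))
      rw [hf1]
      refine image_subset_image fun y hy => ?_
      have hy' := mem_cls.1 hy
      have hy2 : flab B x n (p0 l) y = flab B x n (p0 l) s := hy'.2
      rw [hf0] at hy2
      refine mem_cls.2 ⟨mem_cls.2 ⟨c2 hy, ?_⟩, hy2⟩
      exact (lab_nested b4 hy2).trans (mem_cls.1 hs).2
    have hM : ∀ s ∈ D.I, (((Ex926.cls D.I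
        (fun s => (D.x s).lab D.i₀ (B.levc n (W l + h l * e l)) D.pr) s).image
          fun s => (D.x s).lab D.i₁ D.j₁ D.pr).card : ℝ) ≤
        B.d n ^ (-(ν (pe l) - ν (p1 l) + η l)) := by
      intro s hs
      have c1 : ∀ y ∈ D.I, y ∈ I n := fun y hy => h6.1 (filter_subset _ _ (hsubC y hy))
      refine le_trans ?_ (b2 s (c1 s hs))
      rw [hfe, hf1]
      refine Nat.cast_le.2 (card_le_card (image_subset_image fun y hy => ?_))
      obtain ⟨y1, y2⟩ := mem_cls.1 hy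
      exact mem_cls.2 ⟨c1 y y1, y2⟩
    have hY : ((1 : ℝ) / 2) ^ D.j₀ * (B'.d n) ^ (2 * e l) ≤
        (1 / 2) ^ (B.levc n (W l + h l * e l)) := by rw [hB' n]; exact b3
    have hXM : (1 + B'.L n) ^ m * (675 * (B.d n ^ (-(ν (pe l) - ν (p1 l) + η l)) * (675 * 3))) ≤
        B.d n ^ (-(ν (p0 l) - ν (p1 l)) + η l) := by
      have c1 : (1 + B'.L n) ^ m ≤ (1 + h l * B.L n) ^ l := by
        rw [hBL n]
        exact pow_le_pow_right₀ (by rw [← hBL n]; linarith) h5
      have c2 : B.d n ^ (-(ν (p0 l) - ν (p1 l)) + η l) =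
          B.d n ^ (-(ν (pe l) - ν (p1 l) + η l)) * B.d n ^ (-(2 * η l)) := by
        rw [← rp]; congr 1
        simp only [hη]; ring
      rw [c2]
      calc (1 + B'.L n) ^ m * (675 * (B.d n ^ (-(ν (pe l) - ν (p1 l) + η l)) * (675 * 3)))
          = B.d n ^ (-(ν (pe l) - ν (p1 l) + η l)) * ((1 + B'.L n) ^ m * (675 * (675 * 3))) := by ring
        _ ≤ B.d n ^ (-(ν (pe l) - ν (p1 l) + η l)) *
            ((1 + h l * B.L n) ^ l * (675 * (675 * 3))) := by
            refine mul_le_mul_of_nonneg_left ?_ (hpos _).le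
            exact mul_le_mul_of_nonneg_right c1 (by norm_num)
        _ ≤ _ := mul_le_mul_of_nonneg_left b5 (hpos _).le
    have hj0 : D.j₀ ≤ B.levc n (W l + h l * e l) := B.levc_mono n (by
      show W l ≤ W l + h l * e l
      nlinarith [mul_pos (hh l) (he0 l)])
    have hj1 : B.levc n (W l + h l * e l) ≤ D.j₁ := B.levc_mono n (by
      show W l + h l * e l ≤ W l + h l * R5
      nlinarith [mul_le_mul_of_nonneg_left (heR l) (hh l).le])
    have key := tw_at h4 hj0 hj1 hY (X := (1 + B'.L n) ^ m) (by positivity) hA hM hXM hi hkk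
    refine le_trans (mul_le_mul_of_nonneg_left ?_ (by positivity)) key
    refine Nat.cast_le.2 (card_le_card fun y hy => ?_)
    rw [mem_filter] at hy ⊢
    refine ⟨hy.1, hy.2.trans ?_⟩
    exact Real.rpow_le_rpow_of_exponent_ge (B'.pos n) (B'.lt n).le h2

/-- legality along a tangent sequence, in the form needed by `exists_twGd` -/
theorem leg_of_tan {lam : (Fin 6 → ℝ) → ℝ} {X : ℕ → (Fin 6 → ℝ)} {h : ℕ → ℝ}
    (ht : IsTan (LEG M) D6 ν X h lam) {Rp R4 R5 : ℝ} (hRp : 0 ≤ Rp) (hR4 : 0 ≤ R4) (hR5 : 0 ≤ R5) :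
    ∀ᶠ l in (atTop : Filter ℕ), X l + h l • dir (fun _ => Rp) R4 R5 ∈ LEG M ∧
      ∀ e, 0 ≤ e → e ≤ R5 → X l + h l • dir (fun _ => Rp) 0 e ∈ LEG M := by
  filter_upwards [ht (max Rp (max R4 R5)) 1 one_pos] with l hl
  have h1 : Rp ≤ max Rp (max R4 R5) := le_max_left _ _
  have h2 : R4 ≤ max Rp (max R4 R5) := (le_max_left _ _).trans (le_max_right _ _)
  have h3 : R5 ≤ max Rp (max R4 R5) := (le_max_right _ _).trans (le_max_right _ _)
  refine ⟨(hl _ (dir_const_mem_D6 hRp hR4 hR5) (norm_dir_le (fun _ => ?_) ?_ ?_)).1,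
    fun e he0 he => (hl _ (dir_const_mem_D6 hRp le_rfl he0) (norm_dir_le (fun _ => ?_) ?_ ?_)).1⟩
  · rw [abs_of_nonneg hRp]; exact h1
  · rw [abs_of_nonneg hR4]; exact h2
  · rw [abs_of_nonneg hR5]; exact h3
  · rw [abs_of_nonneg hRp]; exact h1
  · rw [abs_zero]; exact hRp.trans h1
  · rw [abs_of_nonneg he0]; exact he.trans h3

end Asym





end Crest.Agent.R138.TwR480
end

-- ▼ part R138/AeB_501

/-!
# R138: the frame-free part `ExtB` of the interface EXT; F-models of tangents (helper501)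

`ExtB` = local fields only (no `s`, `b`, `q`, `θ`, no D-max, no record), levels `u₀ < v < u₁`, own
profile `own ![v, 0] = w v` with any antitone `1`-Lipschitz `w`.
-/

set_option autoImplicit false
set_option linter.unusedVariables false
set_option linter.unusedSectionVars false

open Filter Topology Finset

namespace Crest.Agent.R138.AeT501

open Crest.Agent.R138.Ex926 Crest.Agent.R138.FM501 Crest.Agent.R138.Flg101
open Crest.Agent.R138.TwMaj480 Crest.Agent.R138.Tw628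

/-- **frame-free interface** -/
structure ExtB (B : Base) {ι : ℕ → Type} [∀ n, DecidableEq (ι n)] (I : ∀ n, Finset (ι n))
    (x : ∀ n, ι n → Inc) (line : ∀ n, ι n → ℕ) (ν : (Fin 6 → ℝ) → ℝ) (own : (Fin 2 → ℝ) → ℝ)
    (M k u₀ u₁ : ℝ) (w : ℝ → ℝ) : Prop where
  ne : ∀ᶠ n in (U : Filter ℕ), (I n).Nonempty
  k0 : 0 < k
  u0 : 0 ≤ u₀
  /-- `line` is the index of a real line -/
  line_eq : ∀ n, ∀ i ∈ I n, ∀ j ∈ I n, line n i = line n j →
    (x n i).a = (x n j).a ∧ (x n i).b = (x n j).b ∧ (x n i).c = (x n j).c ∧ (x n i).d = (x n j).d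
  /-- `ν` is the profile of the flagged classes -/
  prof : QProf B I (flab B x) (LEG M) ν
  /-- one-step growth -/
  lip : ∀ p ∈ LEG M, ∀ p' ∈ LEG M, p ≤ p' → 0 ≤ ν p - ν p' ∧ ν p - ν p' ≤ ∑ a, (p' a - p a)
  submod : ∀ p ∈ LEG M, ∀ p' ∈ LEG M, p ⊓ p' ∈ LEG M →
    ν p + ν p' ≤ ν (p ⊔ p') + ν (p ⊓ p')
  /-- `own` is the profile of the single lines -/
  oprof : QProf B I (olab B x line) (Set.Icc 0 (fun _ => M)) own
  own_w : ∀ v : ℝ, u₀ < v → v < u₁ → own ![v, 0] = w v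
  w_lip : ∀ v v' : ℝ, u₀ < v → v ≤ v' → v' < u₁ → 0 ≤ w v - w v' ∧ w v - w v' ≤ v' - v
  /-- rotation at distance `d^v` at most `d^(k v)` ... -/
  own_rot : ∀ v r : ℝ, u₀ < v → v < u₁ → 0 ≤ r → r ≤ k * v → own ![v, r] = own ![v, 0]
  /-- ... and not less -/
  own_tw : ∀ v r : ℝ, u₀ < v → v < u₁ → k * v < r → r ≤ M → own ![v, r] < own ![v, 0]

/-- `ExtP` is a special case -/
theorem _root_.Crest.Agent.R138.Ex926.ExtP.toB {B : Base} {ι : ℕ → Type} [∀ n, DecidableEq (ι n)] {I : ∀ n, Finset (ι n)}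
    {x : ∀ n, ι n → Inc} {line : ∀ n, ι n → ℕ} {ν : (Fin 6 → ℝ) → ℝ} {own : (Fin 2 → ℝ) → ℝ}
    {M s b q k θ c₀ : ℝ} (h : ExtP B I x line ν own M s b q k θ c₀) :
    ExtB B I x line ν own M k 0 1 (fun v => (1 - s) * (1 - v)) where
  ne := h.ne
  k0 := h.k0
  u0 := le_rfl
  line_eq := h.line_eq
  prof := h.prof
  lip := h.lip
  submod := h.submod
  oprof := h.oprof
  own_w := fun v h0 h1 => h.own_z v h0.le h1.le
  w_lip := fun v v' _ hvv _ => by
    have h0 := h.s0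
    have h1 := h.s1
    constructor <;> nlinarith
  own_rot := fun v r h0 h1 hr hrk => h.own_rot v r h0.le h1.le hr hrk
  own_tw := fun v r h0 h1 hr hrM => h.own_tw v r h0.le h1 hr hrM

/-- one may assume that all `I n` are nonempty -/
theorem ExtB.exists_nonempty {B : Base} {ι : ℕ → Type} [∀ n, DecidableEq (ι n)]
    {I : ∀ n, Finset (ι n)}
    {x : ∀ n, ι n → Inc} {line : ∀ n, ι n → ℕ} {ν : (Fin 6 → ℝ) → ℝ} {own : (Fin 2 → ℝ) → ℝ}
    {M k u₀ u₁ : ℝ} {w : ℝ → ℝ} (h : ExtB B I x line ν own M k u₀ u₁ w) :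
    ∃ (B' : Base) (ι' : ℕ → Type) (_ : ∀ n, DecidableEq (ι' n)) (I' : ∀ n, Finset (ι' n))
      (x' : ∀ n, ι' n → Inc) (line' : ∀ n, ι' n → ℕ), (∀ n, (I' n).Nonempty) ∧
      ExtB B' I' x' line' ν own M k u₀ u₁ w := by
  classical
  obtain ⟨n₀, hn₀⟩ := h.ne.exists
  set π : ℕ → ℕ := fun n => if (I n).Nonempty then n else n₀ with hπdef
  have hπ : ∀ᶠ n in (U : Filter ℕ), π n = n := h.ne.mono fun n hn => by simp [hπdef, hn]
  refine ⟨pcomp B π hπ, fun n => ι (π n), fun n => inferInstance, fun n => I (π n),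
    fun n => x (π n), fun n => line (π n), fun n => ?_, ?_⟩
  · show (I (π n)).Nonempty
    by_cases hn : (I n).Nonempty
    · have : π n = n := by simp [hπdef, hn]
      rw [this]; exact hn
    · have : π n = n₀ := by simp [hπdef, hn]
      rw [this]; exact hn₀
  · exact
      { ne := ev_comp (Q := fun n => (I n).Nonempty) hπ h.ne
        k0 := h.k0
        u0 := h.u0
        line_eq := fun n i hi j hj hl => h.line_eq (π n) i hi j hj hl
        prof :=
          { up := fun ε hε => ev_comp (Q := fun n => ∀ p ∈ LEG M, ∀ i ∈ I n,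
              ((cls (I n) (flab B x n p) i).card : ℝ) ≤ B.d n ^ (-(ν p + ε))) hπ (h.prof.up ε hε)
            num := fun ε hε => ev_comp (Q := fun n => ∀ q ∈ LEG M, ∀ p ∈ LEG M, q ≤ p → ∀ i ∈ I n,
              (((cls (I n) (flab B x n q) i).image (flab B x n p)).card : ℝ) ≤
                B.d n ^ (-(ν q - ν p + ε))) hπ (h.prof.num ε hε)
            root := fun ε hε => ev_comp (Q := fun n => ∀ p ∈ LEG M,
              (((I n).image (flab B x n p)).card : ℝ) ≤ (I n).card * B.d n ^ (ν p - ε)) hπ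
                (h.prof.root ε hε) }
        lip := h.lip
        submod := h.submod
        oprof :=
          { up := fun ε hε => ev_comp (Q := fun n => ∀ p ∈ Set.Icc (0 : Fin 2 → ℝ) (fun _ => M),
              ∀ i ∈ I n, ((cls (I n) (olab B x line n p) i).card : ℝ) ≤ B.d n ^ (-(own p + ε))) hπ
                (h.oprof.up ε hε)
            num := fun ε hε => ev_comp (Q := fun n => ∀ q ∈ Set.Icc (0 : Fin 2 → ℝ) (fun _ => M),
              ∀ p ∈ Set.Icc (0 : Fin 2 → ℝ) (fun _ => M), q ≤ p → ∀ i ∈ I n,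
              (((cls (I n) (olab B x line n q) i).image (olab B x line n p)).card : ℝ) ≤
                B.d n ^ (-(own q - own p + ε))) hπ (h.oprof.num ε hε)
            root := fun ε hε => ev_comp (Q := fun n => ∀ p ∈ Set.Icc (0 : Fin 2 → ℝ) (fun _ => M),
              (((I n).image (olab B x line n p)).card : ℝ) ≤ (I n).card * B.d n ^ (own p - ε)) hπ
                (h.oprof.root ε hε) }
        own_w := h.own_w
        w_lip := h.w_lip
        own_rot := h.own_rot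
        own_tw := h.own_tw }

section

variable {ι : ℕ → Type} [∀ n, DecidableEq (ι n)]
variable {B : Base} {I : ∀ n, Finset (ι n)}
    {x : ∀ n, ι n → Inc} {line : ∀ n, ι n → ℕ} {ν : (Fin 6 → ℝ) → ℝ} {own : (Fin 2 → ℝ) → ℝ}
    {M k u₀ u₁ : ℝ} {w : ℝ → ℝ}

theorem ExtB.own_at (hE : ExtB B I x line ν own M k u₀ u₁ w) {v r : ℝ} (hv0 : u₀ < v)
    (hv1 : v < u₁) (hr0 : 0 ≤ r) (hr : r ≤ k * v) : own ![v, r] = w v := by
  rw [hE.own_rot v r hv0 hv1 hr0 hr, hE.own_w v hv0 hv1]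

/-- the slope of `w` lies in `[0, 1]` -/
theorem ExtB.slope_mem (hE : ExtB B I x line ν own M k u₀ u₁ w) {v σ : ℝ} (hv0 : u₀ < v)
    (hv1 : v < u₁) (hw : HasDerivAt w (-σ) v) : 0 ≤ σ ∧ σ ≤ 1 := by
  have hs := hw.tendsto_slope_zero_right
  have hev : ∀ᶠ y in 𝓝[>] (0 : ℝ), 0 < y ∧ v + y < u₁ := by
    have h1 : ∀ᶠ y in 𝓝[>] (0 : ℝ), y < u₁ - v := by
      refine Filter.Eventually.filter_mono nhdsWithin_le_nhds ?_
      exact Iio_mem_nhds (by linarith)
    filter_upwards [self_mem_nhdsWithin, h1] with y hy h2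
    exact ⟨hy, by linarith⟩
  have hb : ∀ᶠ y in 𝓝[>] (0 : ℝ), -1 ≤ y⁻¹ • (w (v + y) - w v) ∧
      y⁻¹ • (w (v + y) - w v) ≤ 0 := by
    filter_upwards [hev] with y hy
    obtain ⟨h1, h2⟩ := hE.w_lip v (v + y) hv0 (by linarith [hy.1]) hy.2
    rw [smul_eq_mul, ← div_eq_inv_mul]
    constructor
    · rw [le_div_iff₀ hy.1]; linarith
    · rw [div_le_iff₀ hy.1]; linarith
  constructor
  · have := le_of_tendsto hs (hb.mono fun y hy => hy.2)
    linarith
  · have := ge_of_tendsto hs (hb.mono fun y hy => hy.1)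
    linarith

/-- every displacement of a tangent which keeps the slope level at most `k v` loses at least the own
shading -/
theorem ExtB.tan_own_le (hE : ExtB B I x line ν own M k u₀ u₁ w) {v t σ : ℝ} (hv0 : u₀ < v)
    (hv1 : v < u₁) (hw : HasDerivAt w (-σ) v) {h : ℕ → ℝ} (hpos : ∀ l, 0 < h l)
    (h0 : Tendsto h atTop (𝓝 0)) {lam : (Fin 6 → ℝ) → ℝ}
    (htan : IsTan (LEG M) D6 ν (fun _ => X6 v (k * v) t) h lam) {c c' : Fin 6 → ℝ}
    (hc : c ∈ D6) (hc' : c' ∈ D6) (hcc : c ≤ c') (h5 : c 5 ≤ k * c 4) (h5' : c' 5 ≤ k * c' 4) :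
    σ * (c' 4 - c 4) ≤ lam c - lam c' := by
  refine le_of_forall_pos_le_add fun ε hε => ?_
  have hev : ∀ᶠ l in (atTop : Filter ℕ), h l * c' 4 < u₁ - v := by
    have : Tendsto (fun l => h l * c' 4) atTop (𝓝 (0 * c' 4)) := h0.mul_const _
    rw [zero_mul] at this
    exact this.eventually_lt_const (by linarith)
  -- derivative of `w` along the two displacements
  have hder : ∀ y : ℝ, ∀ᶠ l in (atTop : Filter ℕ),
      |w (v + h l * y) - w v + h l * (σ * y)| ≤ ε / 4 * h l := by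
    intro y
    have h1 : (fun z => w z - w v - (z - v) • (-σ)) =o[𝓝 v] fun z => z - v :=
      hasDerivAt_iff_isLittleO.1 hw
    have h2 : Tendsto (fun l => v + h l * y) atTop (𝓝 v) := by
      have : Tendsto (fun l => v + h l * y) atTop (𝓝 (v + 0 * y)) :=
        tendsto_const_nhds.add (h0.mul_const _)
      rwa [zero_mul, add_zero] at this
    have h3 := (h1.comp_tendsto h2).def (c := ε / 4 / (|y| + 1)) (by positivity)
    filter_upwards [h3] with l hl
    have hlp := hpos l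
    simp only [Function.comp_apply, Real.norm_eq_abs, smul_eq_mul] at hl
    have e1 : v + h l * y - v = h l * y := by ring
    rw [e1, abs_mul, abs_of_pos hlp] at hl
    have e2 : w (v + h l * y) - w v - h l * y * -σ = w (v + h l * y) - w v + h l * (σ * y) := by ring
    rw [e2] at hl
    refine hl.trans ?_
    have h4 : |y| / (|y| + 1) ≤ 1 := by
      rw [div_le_one (by positivity)]; linarith
    calc ε / 4 / (|y| + 1) * (h l * |y|) = ε / 4 * h l * (|y| / (|y| + 1)) := by ring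
      _ ≤ ε / 4 * h l * 1 := mul_le_mul_of_nonneg_left h4 (by positivity)
      _ = ε / 4 * h l := mul_one _
  obtain ⟨l, ⟨h1, h2⟩, ⟨h3, h4⟩, h6, hd1, hd2⟩ := ((htan.ev hc (ε := ε / 4) (by positivity)).and
    ((htan.ev hc' (ε := ε / 4) (by positivity)).and (hev.and
      ((hder (c 4)).and (hder (c' 4)))))).exists
  have hl := hpos l
  have hord : X6 v (k * v) t + h l • c ≤ X6 v (k * v) t + h l • c' := by
    intro a
    have := mul_le_mul_of_nonneg_left (hcc a) hl.le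
    simp only [Pi.add_apply, Pi.smul_apply, smul_eq_mul]
    linarith
  have h7 := olab_le_flab hE.ne hE.line_eq hE.prof hE.oprof h1 h3 hord
  have e4 : ∀ y : Fin 6 → ℝ, (X6 v (k * v) t + h l • y) 4 = v + h l * y 4 := fun y => rfl
  have e5 : ∀ y : Fin 6 → ℝ, (X6 v (k * v) t + h l • y) 5 = k * v + h l * y 5 := fun y => rfl
  rw [e4, e5, e4, e5] at h7
  have c0 := hc.1
  have c0' := hc'.1
  have n4 : 0 ≤ h l * c 4 := mul_nonneg hl.le (c0 4)
  have n4' : 0 ≤ h l * c' 4 := mul_nonneg hl.le (c0' 4)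
  have n5 : 0 ≤ h l * c 5 := mul_nonneg hl.le (c0 5)
  have n5' : 0 ≤ h l * c' 5 := mul_nonneg hl.le (c0' 5)
  have m4 : h l * c 4 ≤ h l * c' 4 := mul_le_mul_of_nonneg_left (hcc 4) hl.le
  have hvp : 0 ≤ v := hE.u0.trans hv0.le
  have kv : 0 ≤ k * v := mul_nonneg hE.k0.le hvp
  rw [hE.own_at (by linarith) (by linarith) (by linarith) (by nlinarith),
    hE.own_at (by linarith) (by linarith) (by linarith) (by nlinarith)] at h7
  have key : h l * (σ * (c' 4 - c 4)) ≤ h l * (lam c - lam c' + ε) := by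
    rw [abs_le] at h2 h4 hd1 hd2
    nlinarith
  exact le_of_mul_le_mul_left key hl

/-- strict drop of the profile in the slope direction -/
theorem ExtB.drop (hE : ExtB B I x line ν own M k u₀ u₁ w) {v t : ℝ} (hv0 : u₀ < v)
    (hv1 : v < u₁) {h Rp e : ℝ} (hh : 0 < h) (he : 0 < e)
    (hp : X6 v (k * v) t + h • dir (fun _ => Rp) 0 0 ∈ LEG M)
    (hp' : X6 v (k * v) t + h • dir (fun _ => Rp) 0 e ∈ LEG M) :
    ν (X6 v (k * v) t + h • dir (fun _ => Rp) 0 e) <
      ν (X6 v (k * v) t + h • dir (fun _ => Rp) 0 0) := by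
  have hle : X6 v (k * v) t + h • dir (fun _ => Rp) 0 0 ≤
      X6 v (k * v) t + h • dir (fun _ => Rp) 0 e := by
    intro i
    have h1 := dir_mono (p := fun _ => Rp) (p' := fun _ => Rp) (fun _ => le_rfl)
      (le_refl (0 : ℝ)) he.le i
    have h2 := mul_le_mul_of_nonneg_left h1 hh.le
    show X6 v (k * v) t i + h * dir (fun _ => Rp) 0 0 i ≤
      X6 v (k * v) t i + h * dir (fun _ => Rp) 0 e i
    linarith
  have h1 := olab_le_flab hE.ne hE.line_eq hE.prof hE.oprof hp hp' hle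
  have e4 : (X6 v (k * v) t + h • dir (fun _ => Rp) 0 0) 4 = v := by
    show v + h * 0 = v; ring
  have e5 : (X6 v (k * v) t + h • dir (fun _ => Rp) 0 0) 5 = k * v := by
    show k * v + h * 0 = k * v; ring
  have e4' : (X6 v (k * v) t + h • dir (fun _ => Rp) 0 e) 4 = v := by
    show v + h * 0 = v; ring
  have e5' : (X6 v (k * v) t + h • dir (fun _ => Rp) 0 e) 5 = k * v + h * e := rfl
  have hM := ((mem_LEG.1 hp').1 5).2
  rw [e4, e5, e4', e5'] at h1
  rw [e5'] at hM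
  have hvp : 0 ≤ v := hE.u0.trans hv0.le
  have h2 := hE.own_rot v (k * v) hv0 hv1 (mul_nonneg hE.k0.le hvp) le_rfl
  have h3 := hE.own_tw v (k * v + h * e) hv0 hv1 (by linarith [mul_pos hh he]) hM
  linarith

/-- **The F-model of a tangent** (frame-free form). -/
theorem ExtB.fm_of_tan (hE : ExtB B I x line ν own M k u₀ u₁ w) (hI : ∀ n, (I n).Nonempty)
    {v t σ : ℝ} (hv0 : u₀ < v) (hv1 : v < u₁) (ht : 0 ≤ t) (hw : HasDerivAt w (-σ) v)
    {h : ℕ → ℝ} (hpos : ∀ l, 0 < h l) (h0 : Tendsto h atTop (𝓝 0))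
    {lam : (Fin 6 → ℝ) → ℝ} (htan : IsTan (LEG M) D6 ν (fun _ => X6 v (k * v) t) h lam)
    {R Rp R4 R5 : ℝ} (hR : 0 < R) (hRp : R < Rp) (hR4 : Rp ≤ R4) (hR5 : Rp ≤ R5)
    (hdens : lam (dir (fun _ => Rp) R4 R5) ≤ lam (dir (fun _ => Rp) 0 0) + lam (dir 0 R4 R5)) :
    ∃ (B' : Base) (G' : ℕ → Cfg) (ν' : (Fin 4 → ℝ) → ℝ), FModel B' G' σ R ν' ∧
      TwistMaj B' G' ∧ ∀ p : Fin 4 → ℝ, (∀ j, 0 ≤ p j ∧ p j ≤ R) →
        ν' p = lam (dir p R4 R5) - lam (dir (fun _ => Rp) R4 R5) := by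
  classical
  have hvp : 0 ≤ v := hE.u0.trans hv0.le
  have hRp0 : 0 ≤ Rp := hR.le.trans hRp.le
  have hRpp : 0 < Rp := hR.trans hRp
  have hkv : 0 ≤ k * v := mul_nonneg hE.k0.le hvp
  obtain ⟨hσ0, hσ1⟩ := hE.slope_mem hv0 hv1 hw
  obtain ⟨k₁, hk₁, H⟩ := exists_qzoom B (J := Unit) (I := I)
    (κ := fun _ _ => (ℤ × ℤ) × (Fin 4 → ℤ)) (f := fun _ => flab B x) (P := fun _ => LEG M)
    (D := fun _ => D6) (ν := fun _ => ν) (lam := fun _ => lam) (fun _ => hE.prof) hpos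
    (fun _ => zero_mem_D6) (fun _ => htan) (fun _ _ => 1) (fun _ => Base.Sub.const one_pos)
  have hleg := TwR480.leg_of_tan htan hRp0 (hRp0.trans hR4) (hRp0.trans hR5)
  have hdrop : ∀ᶠ l in (atTop : Filter ℕ), ∀ e, 0 < e → e ≤ R5 →
      ν (X6 v (k * v) t + h l • dir (fun _ => Rp) 0 e) <
        ν (X6 v (k * v) t + h l • dir (fun _ => Rp) 0 0) := by
    filter_upwards [hleg] with l hl e he0 he
    exact hE.drop hv0 hv1 (hpos l) he0 (hl.2 0 le_rfl (hRp0.trans hR5)) (hl.2 e he0.le he)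
  obtain ⟨k₂, hk₂, H2⟩ := TwR480.exists_twGd hE.prof (V := fun _ => v) (W := fun _ => k * v)
    (T := fun _ => t) (h := h) (fun _ => hvp) (fun _ => hkv) (fun _ => ht) hpos hRpp
    (hRp0.trans hR4) (hRpp.trans_le hR5) hleg hdrop
    (H := I) (c := 1) one_pos (hE.ne.mono fun n hn => ⟨Subset.refl _, hn, by rw [one_mul]⟩)
  set k' : ℕ → ℕ := fun n => min (k₁ n) (k₂ n) with hk'def
  have hk' : Tendsto k' U atTop := tendsto_atTop.2 fun N => by
    filter_upwards [hk₁.eventually_ge_atTop N, hk₂.eventually_ge_atTop N] with n h1 h2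
    exact le_min h1 h2
  obtain ⟨B', hd, hL, -, hZ⟩ := H k' hk' (Eventually.of_forall fun n => min_le_left _ _)
  obtain ⟨Gd, hGd, hTw⟩ := H2 k' hk' (Eventually.of_forall fun n => min_le_right _ _)
  have hlam0 : lam 0 = 0 := htan.zero hpos zero_mem_D6
  have hZ1 := hZ ()
  obtain ⟨s₀, hs₀, hcls⟩ := exists_clsSeq (B := B) (B' := B') (I := I) (x := x)
    (v := fun _ => v) (r := fun _ => k * v) (t := fun _ => t) (w := fun n => h (k' n))
    (T := fun n => B.d n ^ (-(ν (X6 v (k * v) t)))) (lam := lam)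
    (fun _ => hvp) (fun _ => hkv) (fun _ => ht) (fun n => hpos _) hd hZ1 hlam0
    (fun n => Real.rpow_pos_of_pos (B.pos n) _) (Gd := Gd) (fun n => (hI n).choose)
    (c := 1 / 2) (by norm_num) hGd
  have htw := hTw B' hd s₀ _ lam hcls
  have hfrost : ∀ y, 0 ≤ y → y ≤ R → lam (dir 0 y 0) ≤ -(σ * y) := by
    intro y hy0 hyR
    have hm : dir 0 y 0 ∈ D6 := by
      refine ⟨fun a => ?_, ?_, ?_, ?_, ?_⟩
      · fin_cases a <;> simp [dir, hy0]
      · simp [dir, hy0]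
      · simp [dir, hy0]
      · simp [dir]
      · simp [dir]
    have h1 := hE.tan_own_le hv0 hv1 hw hpos h0 htan (c := 0) (c' := dir 0 y 0) zero_mem_D6 hm
      (by intro a; fin_cases a <;> simp [dir, hy0]) (by simp)
      (by show (0 : ℝ) ≤ k * y; exact mul_nonneg hE.k0.le hy0)
    rw [hlam0] at h1
    have e : dir 0 y 0 4 = y := rfl
    rw [e, Pi.zero_apply] at h1
    linarith
  have hraw : RawM B' (clsCfg B B' x (fun _ => v) (fun _ => k * v) (fun _ => t)
      (fun n => h (k' n)) (fun n => cls (Gd n) (natlab B x (fun _ => v) (fun _ => k * v)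
        (fun _ => t) n) (s₀ n)) s₀ Rp R4 R5) σ R :=
    rawM_of_class hcls hR hRp0 (hRp.le.trans hR4) (hRp0.trans hR5) hσ0 hσ1 hdens hfrost
  obtain ⟨G', ν', S, hF, hsub, hS, hcard, -, -, -, -, hTM⟩ := exists_fmodel_tw B' _ hraw htw
  refine ⟨B', G', ν', hF, hTM, fun p hp => ?_⟩
  exact fmodel_ident hcls hR hRp hR4 hR5 (K := 6) (by norm_num)
    (htan.lip hpos (nu_lip_of hE.lip)) hF hsub hS hcard hp

end

end Crest.Agent.R138.AeT501
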