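import Mathlib

-- ▼ part R138/Dl1_848
section

/-!
# R138: decoupling on the legal region, algebraic part (helper848)

Profiles `f : (Fin 6 → ℝ) → ℝ` (antitone and supermodular on the legal region) in the frame
`(p0,p1,p2,p3; z-level, slope-level)`.
-/

set_option autoImplicit false

open Set

namespace Crest.Agent.R138.Dl848

/-- parameter space -/
abbrev V6 : Type := Fin 6 → ℝ

/-- legal region -/
def LEG : Set V6 :=
  {p | p 0 ≤ p 1 + p 4 ∧ p 3 ≤ p 2 + p 4 ∧ p 0 ≤ p 5 + p 3 ∧ p 1 ≤ p 5 + p 2}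

/-- natural boxes -/
def X (a b t : ℝ) : V6 := ![t + a + b, t + b, t, t + a, a, b]

/-- vectors in the `(4,5)`-plane -/
def w45 (α β : ℝ) : V6 := ![0, 0, 0, 0, α, β]

/-- basis vectors -/
noncomputable def e (i : Fin 6) : V6 := Pi.single i 1

/-- bounded part of the legal cone -/
def LB (r : ℝ) : Set V6 := {c | c ∈ LEG ∧ ∀ i, |c i| ≤ r}

/-- profiles on a set -/
structure Pr (f : V6 → ℝ) (S : Set V6) : Prop where
  anti : ∀ p ∈ S, ∀ q ∈ S, p ≤ q → f q ≤ f p
  sup : ∀ p ∈ S, ∀ q ∈ S, p ⊓ q ∈ S → p ⊔ q ∈ S → f p + f q ≤ f (p ⊔ q) + f (p ⊓ q)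

/-- increment -/
def Inc (f : V6 → ℝ) (d p : V6) : ℝ := f p - f (p + d)

section simp
variable (a b t α β : ℝ)
@[simp] theorem X_0 : X a b t 0 = t + a + b := rfl
@[simp] theorem X_1 : X a b t 1 = t + b := rfl
@[simp] theorem X_2 : X a b t 2 = t := rfl
@[simp] theorem X_3 : X a b t 3 = t + a := rfl
@[simp] theorem X_4 : X a b t 4 = a := rfl
@[simp] theorem X_5 : X a b t 5 = b := rfl
@[simp] theorem w45_0 : w45 α β 0 = 0 := rfl
@[simp] theorem w45_1 : w45 α β 1 = 0 := rfl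
@[simp] theorem w45_2 : w45 α β 2 = 0 := rfl
@[simp] theorem w45_3 : w45 α β 3 = 0 := rfl
@[simp] theorem w45_4 : w45 α β 4 = α := rfl
@[simp] theorem w45_5 : w45 α β 5 = β := rfl
@[simp] theorem e_00 : e 0 0 = 1 := by simp [e]
@[simp] theorem e_01 : e 0 1 = 0 := by simp [e]
@[simp] theorem e_02 : e 0 2 = 0 := by simp [e]
@[simp] theorem e_03 : e 0 3 = 0 := by simp [e]
@[simp] theorem e_04 : e 0 4 = 0 := by simp [e]
@[simp] theorem e_05 : e 0 5 = 0 := by simp [e]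
@[simp] theorem e_20 : e 2 0 = 0 := by simp [e]
@[simp] theorem e_21 : e 2 1 = 0 := by simp [e]
@[simp] theorem e_22 : e 2 2 = 1 := by simp [e]
@[simp] theorem e_23 : e 2 3 = 0 := by simp [e]
@[simp] theorem e_24 : e 2 4 = 0 := by simp [e]
@[simp] theorem e_25 : e 2 5 = 0 := by simp [e]
end simp

theorem ext6 {p q : V6} (h0 : p 0 = q 0) (h1 : p 1 = q 1) (h2 : p 2 = q 2) (h3 : p 3 = q 3)
    (h4 : p 4 = q 4) (h5 : p 5 = q 5) : p = q := by
  ext i; fin_cases i <;> assumption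

theorem le6 {p q : V6} (h0 : p 0 ≤ q 0) (h1 : p 1 ≤ q 1) (h2 : p 2 ≤ q 2) (h3 : p 3 ≤ q 3)
    (h4 : p 4 ≤ q 4) (h5 : p 5 ≤ q 5) : p ≤ q := by
  intro i; fin_cases i <;> assumption

theorem forall6 {P : Fin 6 → Prop} (h0 : P 0) (h1 : P 1) (h2 : P 2) (h3 : P 3)
    (h4 : P 4) (h5 : P 5) : ∀ i, P i := by
  intro i; fin_cases i <;> assumption

theorem mem_LEG {c : V6} (h0 : c 0 ≤ c 1 + c 4) (h1 : c 3 ≤ c 2 + c 4) (h2 : c 0 ≤ c 5 + c 3)
    (h3 : c 1 ≤ c 5 + c 2) : c ∈ LEG := ⟨h0, h1, h2, h3⟩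

theorem mem_LB {c : V6} {r : ℝ} (h : c ∈ LEG) (b0 : |c 0| ≤ r) (b1 : |c 1| ≤ r) (b2 : |c 2| ≤ r)
    (b3 : |c 3| ≤ r) (b4 : |c 4| ≤ r) (b5 : |c 5| ≤ r) : c ∈ LB r :=
  ⟨h, forall6 b0 b1 b2 b3 b4 b5⟩

theorem X_mem_LEG (a b t : ℝ) : X a b t ∈ LEG := by
  refine mem_LEG ?_ ?_ ?_ ?_ <;> simp <;> linarith

theorem X_add (a b t a' b' t' : ℝ) : X a b t + X a' b' t' = X (a + a') (b + b') (t + t') := by
  apply ext6 <;> simp <;> ring

theorem X_smul (s a b t : ℝ) : s • X a b t = X (s * a) (s * b) (s * t) := by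
  apply ext6 <;> simp <;> ring

theorem w45_add (a b a' b' : ℝ) : w45 a b + w45 a' b' = w45 (a + a') (b + b') := by
  apply ext6 <;> simp

theorem w45_smul (s a b : ℝ) : s • w45 a b = w45 (s * a) (s * b) := by
  apply ext6 <;> simp

theorem X_zero : X 0 0 0 = 0 := by apply ext6 <;> simp

theorem LEG_smul {s : ℝ} (hs : 0 ≤ s) {c : V6} (h : c ∈ LEG) : s • c ∈ LEG := by
  obtain ⟨h0, h1, h2, h3⟩ := h
  refine mem_LEG ?_ ?_ ?_ ?_ <;> simp only [Pi.smul_apply, smul_eq_mul] <;> nlinarith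

theorem LEG_add {c d : V6} (h : c ∈ LEG) (h' : d ∈ LEG) : c + d ∈ LEG := by
  obtain ⟨h0, h1, h2, h3⟩ := h
  obtain ⟨h0', h1', h2', h3'⟩ := h'
  refine mem_LEG ?_ ?_ ?_ ?_ <;> simp only [Pi.add_apply] <;> linarith


theorem w45_mem_LEG {α β : ℝ} (hα : 0 ≤ α) (hβ : 0 ≤ β) : w45 α β ∈ LEG := by
  refine mem_LEG ?_ ?_ ?_ ?_ <;> simp <;> linarith

theorem w45_nonneg {α β : ℝ} (hα : 0 ≤ α) (hβ : 0 ≤ β) : (0 : V6) ≤ w45 α β := by
  apply le6 <;> simp <;> assumption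

theorem e_nonneg {s : ℝ} (hs : 0 ≤ s) (i : Fin 6) : (0 : V6) ≤ s • e i := by
  intro j
  simp only [Pi.zero_apply, Pi.smul_apply, smul_eq_mul, e]
  by_cases h : j = i
  · subst h; simpa using hs
  · simp [h]

theorem Inc_add (f : V6 → ℝ) (d d' p : V6) : Inc f (d + d') p = Inc f d p + Inc f d' (p + d) := by
  unfold Inc; rw [add_assoc]; ring

theorem Inc_swap (f : V6 → ℝ) (d d' p : V6) :
    Inc f d p - Inc f d (p + d') = Inc f d' p - Inc f d' (p + d) := by
  unfold Inc; rw [add_right_comm p d' d]; ring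


theorem Pr.mono {f : V6 → ℝ} {S S' : Set V6} (h : Pr f S) (hs : S' ⊆ S) : Pr f S' :=
  ⟨fun p hp q hq => h.anti p (hs hp) q (hs hq),
    fun p hp q hq h1 h2 => h.sup p (hs hp) q (hs hq) (hs h1) (hs h2)⟩

theorem Pr.nonneg {f : V6 → ℝ} {S : Set V6} (hf : Pr f S) {p d : V6} (hp : p ∈ S)
    (hpd : p + d ∈ S) (hd : 0 ≤ d) : 0 ≤ Inc f d p := by
  have := hf.anti p hp _ hpd (le_add_of_nonneg_right hd)
  unfold Inc; linarith

/-- increments decrease in the other coordinates -/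
theorem Pr.sub {f : V6 → ℝ} {S : Set V6} (hf : Pr f S) {p q d : V6} (hp : p ∈ S) (hq : q ∈ S)
    (hpd : p + d ∈ S) (hqd : q + d ∈ S) (hpq : p ≤ q) (hd : 0 ≤ d)
    (hdis : ∀ i, d i = 0 ∨ p i = q i) : Inc f d q ≤ Inc f d p := by
  have h1 : (p + d) ⊓ q = p := by
    ext i
    simp only [Pi.inf_apply, Pi.add_apply]
    rcases hdis i with h | h
    · rw [h, add_zero, inf_eq_left.2 (hpq i)]
    · rw [← h, inf_eq_right.2]
      exact le_add_of_nonneg_right (hd i)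
  have h2 : (p + d) ⊔ q = q + d := by
    ext i
    simp only [Pi.sup_apply, Pi.add_apply]
    rcases hdis i with h | h
    · rw [h, add_zero, add_zero, sup_eq_right.2 (hpq i)]
    · rw [← h, sup_eq_left.2]
      exact le_add_of_nonneg_right (hd i)
  have := hf.sup (p + d) hpd q hq (by rw [h1]; exact hp) (by rw [h2]; exact hqd)
  rw [h1, h2] at this
  unfold Inc; linarith

/-- mixed differences increase with the box -/
theorem Pr.mix {f : V6 → ℝ} {S : Set V6} (hf : Pr f S) {p q d1 d d2 : V6} (hp : p ∈ S)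
    (hq : q ∈ S) (hp1 : p + d1 ∈ S) (hq1 : q + d1 ∈ S) (hp2 : p + d1 + d ∈ S)
    (hq2 : q + d1 + d ∈ S) (hp3 : p + d1 + d + d2 ∈ S) (hq3 : q + d1 + d + d2 ∈ S)
    (hpq : p ≤ q) (h1 : 0 ≤ d1) (h2 : 0 ≤ d2)
    (hdis : ∀ i, (d1 i = 0 ∧ d i = 0 ∧ d2 i = 0) ∨ p i = q i) :
    Inc f d (p + d1) - Inc f d (q + d1) ≤ Inc f (d1 + d + d2) p - Inc f (d1 + d + d2) q := by
  have a1 : Inc f d1 q ≤ Inc f d1 p :=
    hf.sub hp hq hp1 hq1 hpq h1 fun i => (hdis i).imp (fun h => h.1) id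
  have a3 : Inc f d2 (q + d1 + d) ≤ Inc f d2 (p + d1 + d) :=
    hf.sub hp2 hq2 hp3 hq3 (add_le_add_left (add_le_add_left hpq _) _) h2
      fun i => (hdis i).imp (fun h => h.2.2) (fun h => by simp [h])
  rw [Inc_add f (d1 + d) d2 p, Inc_add f (d1 + d) d2 q, Inc_add f d1 d p, Inc_add f d1 d q]
  have e1 : p + (d1 + d) = p + d1 + d := by rw [add_assoc]
  have e2 : q + (d1 + d) = q + d1 + d := by rw [add_assoc]
  rw [e1, e2]
  linarith

end Crest.Agent.R138.Dl848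
end

-- ▼ part R138/Dl2_848
section

/-!
# R138: decoupling on the legal region, the one-step estimate for the coordinates 0 and 2
(helper848)
-/

set_option autoImplicit false

open Set

namespace Crest.Agent.R138.Dl848

/-- coordinates of sums of the standard vectors -/
macro "co6" : tactic => `(tactic| simp only [Pi.add_apply, Pi.smul_apply, smul_eq_mul, X_0, X_1,
  X_2, X_3, X_4, X_5, w45_0, w45_1, w45_2, w45_3, w45_4, w45_5, e_00, e_01, e_02, e_03, e_04, e_05,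
  e_20, e_21, e_22, e_23, e_24, e_25, mul_zero, add_zero, mul_one])

macro "fin6" : tactic => `(tactic| first | linarith | (rw [abs_le]; constructor <;> linarith))

macro "mm6" : tactic => `(tactic| (refine mem_LB (mem_LEG ?_ ?_ ?_ ?_) ?_ ?_ ?_ ?_ ?_ ?_ <;>
  co6 <;> fin6))

macro "ll6" : tactic => `(tactic| (refine le6 ?_ ?_ ?_ ?_ ?_ ?_ <;> co6 <;> linarith))

macro "xx6" : tactic => `(tactic| (refine ext6 ?_ ?_ ?_ ?_ ?_ ?_ <;> co6 <;> ring))

/-- a natural box with raised levels, moved in the direction `i` -/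
noncomputable def pt (i : Fin 6) (α β θ u v s : ℝ) : V6 := X α β θ + w45 u v + s • e i

theorem pt_mem {i : Fin 6} (hi : i = 0 ∨ i = 2) {α β θ u v s N D r : ℝ} (hα : |α| ≤ D)
    (hβ : |β| ≤ D) (hθ : |θ| ≤ 2 * D) (hs : |s| ≤ N) (hu : N ≤ u) (hv : N ≤ v)
    (h1 : 4 * D + N ≤ r) (h2 : D + u ≤ r) (h3 : D + v ≤ r) : pt i α β θ u v s ∈ LB r := by
  rw [abs_le] at hα hβ hθ hs
  unfold pt
  rcases hi with rfl | rfl <;> mm6

theorem pt_add (i : Fin 6) (α β θ u v s s' : ℝ) :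
    pt i α β θ u v s + s' • e i = pt i α β θ u v (s + s') := by
  unfold pt; rw [add_smul, add_assoc, add_assoc]

theorem pt_add45 (i : Fin 6) (α β θ u v s u' v' : ℝ) :
    pt i α β θ u v s + w45 u' v' = pt i α β θ (u + u') (v + v') s := by
  unfold pt
  rw [add_right_comm, add_assoc (X α β θ), w45_add]

theorem pt_le {i : Fin 6} (hi : i = 0 ∨ i = 2) {α β θ u v s α' β' θ' u' v' s' : ℝ}
    (m0 : θ + α + β ≤ θ' + α' + β') (m1 : θ + β ≤ θ' + β') (m2 : θ ≤ θ')
    (m3 : θ + α ≤ θ' + α') (m4 : α + u ≤ α' + u') (m5 : β + v ≤ β' + v') (hs : s ≤ s') :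
    pt i α β θ u v s ≤ pt i α' β' θ' u' v' s' := by
  unfold pt
  rcases hi with rfl | rfl <;> ll6

theorem pt_dis {i : Fin 6} (hi : i = 0 ∨ i = 2) {α β θ u v s α' β' θ' u' v' : ℝ} {c : ℝ}
    (heq : X α β θ i = X α' β' θ' i) :
    ∀ j, (c • e i) j = 0 ∨ pt i α β θ u v s j = pt i α' β' θ' u' v' s j := by
  unfold pt
  rcases hi with rfl | rfl
  · simp only [X_0] at heq
    refine forall6 (Or.inr ?_) (Or.inl ?_) (Or.inl ?_) (Or.inl ?_) (Or.inl ?_) (Or.inl ?_) <;>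
      co6
    linarith
  · simp only [X_2] at heq
    refine forall6 (Or.inl ?_) (Or.inl ?_) (Or.inr ?_) (Or.inl ?_) (Or.inl ?_) (Or.inl ?_) <;>
      co6
    linarith

theorem U_le {f : V6 → ℝ} {r : ℝ} (hf : Pr f (LB r)) {i : Fin 6} (hi : i = 0 ∨ i = 2)
    {α1 β1 θ1 α2 β2 θ2 N D R : ℝ} (hN : 0 ≤ N)
    (hα1 : |α1| ≤ D) (hβ1 : |β1| ≤ D) (hθ1 : |θ1| ≤ 2 * D)
    (hα2 : |α2| ≤ D) (hβ2 : |β2| ≤ D) (hθ2 : |θ2| ≤ 2 * D)
    (m0 : θ1 + α1 + β1 ≤ θ2 + α2 + β2) (m1 : θ1 + β1 ≤ θ2 + β2) (m2 : θ1 ≤ θ2)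
    (m3 : θ1 + α1 ≤ θ2 + α2) (heq : X α1 β1 θ1 i = X α2 β2 θ2 i)
    (hR : D + 2 * N ≤ R) (hr : 4 * D + 4 * N + 4 * R ≤ r) :
    0 ≤ Inc f ((2 * N) • e i) (pt i α1 β1 θ1 (R - α1) (R - β1) (-N))
        - Inc f ((2 * N) • e i) (pt i α2 β2 θ2 (R - α2) (R - β2) (-N)) ∧
    Inc f ((2 * N) • e i) (pt i α1 β1 θ1 (R - α1) (R - β1) (-N))
        - Inc f ((2 * N) • e i) (pt i α2 β2 θ2 (R - α2) (R - β2) (-N))
      ≤ (Inc f (w45 (R + D) (R + D)) (X α1 β1 (θ1 - N))
          - Inc f (w45 (R + D) (R + D)) (X α1 β1 (θ1 + N)))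
        + (Inc f ((2 * N) • e i) (pt i α1 β1 θ1 (R + D) (R + D) (-N))
          - Inc f ((2 * N) • e i) (pt i α2 β2 θ2 (R + D) (R + D) (-N))) := by
  have hD : 0 ≤ D := (abs_nonneg _).trans hα1
  obtain ⟨a1l, a1u⟩ := abs_le.1 hα1
  obtain ⟨b1l, b1u⟩ := abs_le.1 hβ1
  obtain ⟨a2l, a2u⟩ := abs_le.1 hα2
  obtain ⟨b2l, b2u⟩ := abs_le.1 hβ2
  have h2N : (0 : ℝ) ≤ 2 * N := by linarith
  have hsN : |(-N)| ≤ N := by rw [abs_neg, abs_of_nonneg hN]
  have hsN' : |(-N + 2 * N)| ≤ N := by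
    rw [show -N + 2 * N = N by ring, abs_of_nonneg hN]
  have mA : pt i α1 β1 θ1 (R - α1) (R - β1) (-N) ∈ LB r :=
    pt_mem hi hα1 hβ1 hθ1 hsN (by linarith) (by linarith) (by linarith) (by linarith)
      (by linarith)
  have mB : pt i α2 β2 θ2 (R - α2) (R - β2) (-N) ∈ LB r :=
    pt_mem hi hα2 hβ2 hθ2 hsN (by linarith) (by linarith) (by linarith) (by linarith)
      (by linarith)
  have mA2 : pt i α1 β1 θ1 (R - α1) (R - β1) (-N) + (2 * N) • e i ∈ LB r := by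
    rw [pt_add]
    exact pt_mem hi hα1 hβ1 hθ1 hsN' (by linarith) (by linarith) (by linarith) (by linarith)
      (by linarith)
  have mB2 : pt i α2 β2 θ2 (R - α2) (R - β2) (-N) + (2 * N) • e i ∈ LB r := by
    rw [pt_add]
    exact pt_mem hi hα2 hβ2 hθ2 hsN' (by linarith) (by linarith) (by linarith) (by linarith)
      (by linarith)
  have mA' : pt i α1 β1 θ1 (R + D) (R + D) (-N) ∈ LB r :=
    pt_mem hi hα1 hβ1 hθ1 hsN (by linarith) (by linarith) (by linarith) (by linarith)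
      (by linarith)
  have mB' : pt i α2 β2 θ2 (R + D) (R + D) (-N) ∈ LB r :=
    pt_mem hi hα2 hβ2 hθ2 hsN (by linarith) (by linarith) (by linarith) (by linarith)
      (by linarith)
  have mA2' : pt i α1 β1 θ1 (R + D) (R + D) (-N) + (2 * N) • e i ∈ LB r := by
    rw [pt_add]
    exact pt_mem hi hα1 hβ1 hθ1 hsN' (by linarith) (by linarith) (by linarith) (by linarith)
      (by linarith)
  have mB2' : pt i α2 β2 θ2 (R + D) (R + D) (-N) + (2 * N) • e i ∈ LB r := by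
    rw [pt_add]
    exact pt_mem hi hα2 hβ2 hθ2 hsN' (by linarith) (by linarith) (by linarith) (by linarith)
      (by linarith)
  have lAB : pt i α1 β1 θ1 (R - α1) (R - β1) (-N) ≤ pt i α2 β2 θ2 (R - α2) (R - β2) (-N) :=
    pt_le hi m0 m1 m2 m3 (by linarith) (by linarith) le_rfl
  have lBB' : pt i α2 β2 θ2 (R - α2) (R - β2) (-N) ≤ pt i α2 β2 θ2 (R + D) (R + D) (-N) :=
    pt_le hi le_rfl le_rfl le_rfl le_rfl (by linarith) (by linarith) le_rfl
  have c1 := hf.sub mA mB mA2 mB2 lAB (e_nonneg h2N i) (pt_dis hi heq)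
  have c2 := hf.sub mB mB' mB2 mB2' lBB' (e_nonneg h2N i) (pt_dis hi rfl)
  -- the change of the (4,5)-level
  have eA' : pt i α1 β1 θ1 (R - α1) (R - β1) (-N) + w45 (D + α1) (D + β1)
      = pt i α1 β1 θ1 (R + D) (R + D) (-N) := by
    rw [pt_add45]; congr 1 <;> ring
  have sw := Inc_swap f ((2 * N) • e i) (w45 (D + α1) (D + β1))
    (pt i α1 β1 θ1 (R - α1) (R - β1) (-N))
  rw [eA'] at sw
  set A := pt i α1 β1 θ1 (R - α1) (R - β1) (-N) with hA
  set w := w45 (D + α1) (D + β1) with hw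
  set L := X α1 β1 (θ1 - N) with hL
  set H := X α1 β1 (θ1 + N) with hH
  set d1 := w45 (R - α1) (R - β1) with hd1
  have hdw : (0 : V6) ≤ w := w45_nonneg (by linarith) (by linarith)
  have hdd : (0 : V6) ≤ d1 := w45_nonneg (by linarith) (by linarith)
  obtain ⟨t1l, t1u⟩ := abs_le.1 hθ1
  have mL : L ∈ LB r := by clear_value A w d1 H; rw [hL]; mm6
  have mH : H ∈ LB r := by clear_value A w d1 L; rw [hH]; mm6
  have mL1 : L + d1 ∈ LB r := by clear_value A w H; rw [hL, hd1]; mm6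
  have mH1 : H + d1 ∈ LB r := by clear_value A w L; rw [hH, hd1]; mm6
  have mL2 : L + d1 + w ∈ LB r := by clear_value A H; rw [hL, hd1, hw]; mm6
  have mH2 : H + d1 + w ∈ LB r := by clear_value A L; rw [hH, hd1, hw]; mm6
  have mAw : A + w ∈ LB r := by rw [eA']; exact mA'
  have mA2w : A + (2 * N) • e i + w ∈ LB r := by
    rw [add_right_comm, eA']; exact mA2'
  have lLH : L ≤ H := by rw [hL, hH]; ll6
  have lLA : L + d1 ≤ A := by
    rw [hL, hA, hd1, pt]
    rcases hi with rfl | rfl <;> ll6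
  have lAH : A + (2 * N) • e i ≤ H + d1 := by
    rw [hH, hA, hd1, pt]
    rcases hi with rfl | rfl <;> ll6
  have c3 := hf.sub mL1 mA mL2 mAw lLA hdw (by
    rw [hL, hA, hd1, hw, pt]
    rcases hi with rfl | rfl <;>
    · refine forall6 (Or.inl ?_) (Or.inl ?_) (Or.inl ?_) (Or.inl ?_) (Or.inr ?_) (Or.inr ?_) <;>
        co6)
  have c4 := hf.sub mA2 mH1 mA2w mH2 lAH hdw (by
    rw [hH, hA, hd1, hw, pt]
    rcases hi with rfl | rfl <;>
    · refine forall6 (Or.inl ?_) (Or.inl ?_) (Or.inl ?_) (Or.inl ?_) (Or.inr ?_) (Or.inr ?_) <;>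
        co6)
  have c5 := hf.mix (p := L) (q := H) (d1 := d1) (d := w) (d2 := 0) mL mH mL1 mH1 mL2 mH2
    (by rw [add_zero]; exact mL2) (by rw [add_zero]; exact mH2) lLH hdd le_rfl (by
      refine forall6 (Or.inl ?_) (Or.inl ?_) (Or.inl ?_) (Or.inl ?_) (Or.inr ?_) (Or.inr ?_) <;>
        first | (rw [hd1, hw]; simp) | (rw [hL, hH]; co6))
  have ew : d1 + w + 0 = w45 (R + D) (R + D) := by
    rw [add_zero, hd1, hw, w45_add]; congr 1 <;> ring
  rw [ew] at c5
  constructor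
  · linarith
  · linarith

end Crest.Agent.R138.Dl848
end

-- ▼ part R138/Dl3_848
section

/-!
# R138: decoupling on the legal region, algebra of the blow-up limit (helper848)
-/

set_option autoImplicit false

open Set

namespace Crest.Agent.R138.Dl848

/-- natural tangent vector -/
def T (x y u v : ℝ) : V6 := X (x * u) (y * u) v

macro "ee6" : tactic => `(tactic| (refine mem_LEG ?_ ?_ ?_ ?_ <;> co6 <;> linarith))

theorem T_mem (x y u v : ℝ) : T x y u v ∈ LEG := X_mem_LEG _ _ _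

section
variable {f : V6 → ℝ} {x y : ℝ}

/-- (F3) the `(4,5)`-increments do not depend on the other coordinates -/
theorem F3 (hf : Pr f LEG) (hx : 0 < x) (hy : 0 < y)
    (hJ : ∀ n N R : ℕ, Inc f (w45 R R) (T x y (-n) (-N)) = Inc f (w45 R R) (T x y (-n) N))
    {c c' : V6} (hc : c ∈ LEG) (hc' : c' ∈ LEG) (h4 : c 4 = c' 4) (h5 : c 5 = c' 5)
    {r4 r5 : ℝ} (hr4 : 0 ≤ r4) (hr5 : 0 ≤ r5) :
    Inc f (w45 r4 r5) c = Inc f (w45 r4 r5) c' := by
  obtain ⟨M, hM⟩ : ∃ M : ℝ, ∀ i, |c i| ≤ M ∧ |c' i| ≤ M := by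
    obtain ⟨M1, h1⟩ := (Finite.bddAbove_range fun i => |c i|)
    obtain ⟨M2, h2⟩ := (Finite.bddAbove_range fun i => |c' i|)
    exact ⟨max M1 M2, fun i => ⟨(h1 (mem_range_self i)).trans (le_max_left _ _),
      (h2 (mem_range_self i)).trans (le_max_right _ _)⟩⟩
  have hM0 : 0 ≤ M := (abs_nonneg _).trans (hM 0).1
  obtain ⟨n, hn⟩ := exists_nat_ge (M / x + M / y)
  have hnx : M ≤ x * n := by
    have : M / x ≤ n := le_trans (by have := div_nonneg hM0 hy.le; linarith) hn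
    rw [div_le_iff₀ hx] at this; linarith
  have hny : M ≤ y * n := by
    have : M / y ≤ n := le_trans (by have := div_nonneg hM0 hx.le; linarith) hn
    rw [div_le_iff₀ hy] at this; linarith
  obtain ⟨N, hN⟩ := exists_nat_ge (M + x * n + y * n)
  obtain ⟨R, hR⟩ := exists_nat_ge (M + x * n + y * n + r4 + r5)
  have hn0 : (0 : ℝ) ≤ n := Nat.cast_nonneg n
  have hxn : 0 ≤ x * n := by positivity
  have hyn : 0 ≤ y * n := by positivity
  -- the value is determined by the bracket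
  suffices key : ∀ c'' ∈ LEG, c'' 4 = c 4 → c'' 5 = c 5 → (∀ i, |c'' i| ≤ M) →
      Inc f (w45 r4 r5) c'' =
        Inc f (w45 r4 r5) (T x y (-n) (-N) + w45 (c 4 + x * n) (c 5 + y * n)) by
    rw [key c hc rfl rfl fun i => (hM i).1, key c' hc' h4.symm h5.symm fun i => (hM i).2]
  intro c'' hc'' h4' h5' hM'
  have b4 := abs_le.1 (hM' 4)
  have b5 := abs_le.1 (hM' 5)
  have b0 := abs_le.1 (hM' 0)
  have b1 := abs_le.1 (hM' 1)
  have b2 := abs_le.1 (hM' 2)
  have b3 := abs_le.1 (hM' 3)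
  rw [← h4', ← h5']
  clear hM' hM h4 h5 h4' h5' hc hc'
  set L := T x y (-n) (-N) with hL
  set H := T x y (-n) N with hH
  set d := w45 (c'' 4 + x * n) (c'' 5 + y * n) with hd
  set w := w45 r4 r5 with hw
  have hd0 : (0 : V6) ≤ d := w45_nonneg (by linarith) (by linarith)
  have hw0 : (0 : V6) ≤ w := w45_nonneg hr4 hr5
  set d2 := w45 (R - r4 - (c'' 4 + x * n)) (R - r5 - (c'' 5 + y * n)) with hd2
  have hd20 : (0 : V6) ≤ d2 := w45_nonneg (by linarith) (by linarith)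
  have mL : L ∈ LEG := T_mem _ _ _ _
  have mH : H ∈ LEG := T_mem _ _ _ _
  have md : d ∈ LEG := w45_mem_LEG (by linarith) (by linarith)
  have mw : w ∈ LEG := w45_mem_LEG hr4 hr5
  have md2 : d2 ∈ LEG := w45_mem_LEG (by linarith) (by linarith)
  obtain ⟨g0, g1, g2, g3⟩ := hc''
  have mc : c'' ∈ LEG := ⟨g0, g1, g2, g3⟩
  have lL : L + d ≤ c'' := by
    rw [hL, hd, T]
    refine le6 ?_ ?_ ?_ ?_ ?_ ?_ <;> co6 <;> linarith
  have lH : c'' ≤ H + d := by
    rw [hH, hd, T]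
    refine le6 ?_ ?_ ?_ ?_ ?_ ?_ <;> co6 <;> linarith
  have dis : ∀ z : V6, z = L ∨ z = H → ∀ i, w i = 0 ∨ (z + d) i = c'' i := by
    intro z hz
    have h1 : z 4 = x * (-n) ∧ z 5 = y * (-n) := by
      rcases hz with rfl | rfl <;> exact ⟨rfl, rfl⟩
    refine forall6 (Or.inl rfl) (Or.inl rfl) (Or.inl rfl) (Or.inl rfl) (Or.inr ?_) (Or.inr ?_)
    · rw [Pi.add_apply, h1.1, hd, w45_4]; ring
    · rw [Pi.add_apply, h1.2, hd, w45_5]; ring
  have c1 := hf.sub (LEG_add mL md) mc (LEG_add (LEG_add mL md) mw) (LEG_add mc mw) lL hw0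
    (dis L (Or.inl rfl))
  have c2 := hf.sub mc (LEG_add mH md) (LEG_add mc mw) (LEG_add (LEG_add mH md) mw) lH hw0
    (fun i => (dis H (Or.inr rfl) i).imp id Eq.symm)
  have c3 := hf.mix (p := L) (q := H) (d1 := d) (d := w) (d2 := d2) mL mH (LEG_add mL md)
    (LEG_add mH md) (LEG_add (LEG_add mL md) mw) (LEG_add (LEG_add mH md) mw)
    (LEG_add (LEG_add (LEG_add mL md) mw) md2) (LEG_add (LEG_add (LEG_add mH md) mw) md2)
    (by
      rw [hL, hH, T, T]
      have : (0 : ℝ) ≤ N := Nat.cast_nonneg N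
      refine le6 ?_ ?_ ?_ ?_ ?_ ?_ <;> co6 <;> linarith) hd0 hd20
    (forall6 (Or.inl ⟨rfl, rfl, rfl⟩) (Or.inl ⟨rfl, rfl, rfl⟩) (Or.inl ⟨rfl, rfl, rfl⟩)
      (Or.inl ⟨rfl, rfl, rfl⟩) (Or.inr rfl) (Or.inr rfl))
  have ew : d + w + d2 = w45 R R := by
    rw [hd, hw, hd2, w45_add, w45_add]; congr 1 <;> ring
  rw [ew, hL, hH, hJ n N R, sub_self] at c3
  rw [← hL, ← hH] at c3
  linarith

theorem exists_bound (c c' : V6) : ∃ M : ℝ, 0 ≤ M ∧ ∀ i, |c i| ≤ M ∧ |c' i| ≤ M := by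
  obtain ⟨M1, h1⟩ := (Finite.bddAbove_range fun i => |c i|)
  obtain ⟨M2, h2⟩ := (Finite.bddAbove_range fun i => |c' i|)
  have key : ∀ i, |c i| ≤ max M1 M2 ∧ |c' i| ≤ max M1 M2 := fun i =>
    ⟨(h1 (mem_range_self i)).trans (le_max_left _ _),
      (h2 (mem_range_self i)).trans (le_max_right _ _)⟩
  exact ⟨max M1 M2, (abs_nonneg _).trans (key 0).1, key⟩

/-- (F4) the increments in the direction `i = 0, 2` depend only on the coordinate `i` -/
theorem F4 (hf : Pr f LEG) (hx : 0 < x) (hy : 0 < y)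
    (hJ : ∀ n N R : ℕ, Inc f (w45 R R) (T x y (-n) (-N)) = Inc f (w45 R R) (T x y (-n) N))
    {i : Fin 6} (hi : i = 0 ∨ i = 2)
    (hU : ∀ n N : ℕ, ∃ R₀ : ℝ, ∀ R : ℕ, R₀ ≤ R → ∀ u v : ℝ,
      u = (if i = 0 then (n : ℝ) else -n) → v = (if i = 0 then -((x + y) * n) else 0) →
      Inc f ((2 * N : ℝ) • e i) (pt i (x * u) (y * u) v (R - x * u) (R - y * u) (-N)) =
      Inc f ((2 * N : ℝ) • e i) (pt i (x * (-u)) (y * (-u)) (-v) (R - x * (-u)) (R - y * (-u))
        (-N)))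
    {c c' : V6} (hc : c ∈ LEG) (hc' : c' ∈ LEG) (hi' : c i = c' i) (h4 : c 4 = c' 4)
    (h5 : c 5 = c' 5) {s : ℝ} (hs : 0 ≤ s) (hcs : c + s • e i ∈ LEG) (hcs' : c' + s • e i ∈ LEG) :
    Inc f (s • e i) c = Inc f (s • e i) c' := by
  obtain ⟨M, hM0, hM⟩ := exists_bound c c'
  obtain ⟨n, hn⟩ := exists_nat_ge (M / x + M / y)
  have hnx : M ≤ x * n := by
    have : M / x ≤ n := le_trans (by have := div_nonneg hM0 hy.le; linarith) hn
    rw [div_le_iff₀ hx] at this; linarith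
  have hny : M ≤ y * n := by
    have : M / y ≤ n := le_trans (by have := div_nonneg hM0 hx.le; linarith) hn
    rw [div_le_iff₀ hy] at this; linarith
  obtain ⟨N, hN⟩ := exists_nat_ge (M + s)
  obtain ⟨R₀, hR₀⟩ := hU n N
  obtain ⟨R, hR⟩ := exists_nat_ge (M + x * n + y * n + 2 * N + 2 * n + |R₀|)
  have hR₀' := abs_nonneg R₀
  have hn0 : (0 : ℝ) ≤ n := Nat.cast_nonneg n
  have hN0 : (0 : ℝ) ≤ N := Nat.cast_nonneg N
  have hxn : 0 ≤ x * n := by positivity
  have hyn : 0 ≤ y * n := by positivity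
  obtain ⟨u, hu⟩ : ∃ u : ℝ, u = (if i = 0 then (n : ℝ) else -n) := ⟨_, rfl⟩
  obtain ⟨v, hv⟩ : ∃ v : ℝ, v = (if i = 0 then -((x + y) * n) else 0) := ⟨_, rfl⟩
  have hUn := hR₀ R ((le_abs_self _).trans (by
    have h1 : 0 ≤ x * n := by positivity
    have h2 : 0 ≤ y * n := by positivity
    linarith)) u v hu hv
  have hxu : |x * u| ≤ x * n := by
    rw [hu]; rcases hi with rfl | rfl
    · simp [abs_of_nonneg hxn]
    · simp [abs_of_nonneg hx.le]
  have hyu : |y * u| ≤ y * n := by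
    rw [hu]; rcases hi with rfl | rfl
    · simp [abs_of_nonneg hyn]
    · simp [abs_of_nonneg hy.le]
  have hvb : |v| ≤ x * n + y * n := by
    rw [hv]; rcases hi with rfl | rfl
    · simp only [if_true, abs_neg]
      rw [abs_of_nonneg (by positivity)]; linarith
    · simp; positivity
  have mpt : ∀ u' v' s' : ℝ, |x * u'| ≤ x * n → |y * u'| ≤ y * n → |v'| ≤ x * n + y * n →
      |s'| ≤ N → pt i (x * u') (y * u') v' (R - x * u') (R - y * u') s' ∈ LEG := by
    intro u' v' s' h1 h2 h3 h4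
    have a1 := (abs_le.1 h1).2
    have a2 := (abs_le.1 h2).2
    refine (pt_mem (r := 4 * (x * n + y * n) + N + 3 * R) hi (D := x * n + y * n) (N := N)
      (h1.trans (by linarith)) (h2.trans (by linarith)) (h3.trans (by linarith)) h4
      (by linarith) (by linarith) (by linarith) ?_ ?_).1
    · have := (abs_le.1 h1).1; linarith
    · have := (abs_le.1 h2).1; linarith
  set A := pt i (x * u) (y * u) v (R - x * u) (R - y * u) (-N) with hA
  set B := pt i (x * (-u)) (y * (-u)) (-v) (R - x * (-u)) (R - y * (-u)) (-N) with hB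
  -- reduction to the level (R,R)
  suffices key : ∀ c'' ∈ LEG, c'' + s • e i ∈ LEG → c'' i = c i → c'' 4 = c 4 → c'' 5 = c 5 →
      (∀ i, |c'' i| ≤ M) → Inc f (s • e i) c'' = Inc f (s • e i) (A + (c i + N) • e i) by
    rw [key c hc hcs rfl rfl rfl fun i => (hM i).1,
      key c' hc' hcs' hi'.symm h4.symm h5.symm fun i => (hM i).2]
  intro c'' hc'' hcs'' hi'' h4' h5' hM'
  have b4 := abs_le.1 (hM' 4)
  have b5 := abs_le.1 (hM' 5)
  have b0 := abs_le.1 (hM' 0)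
  have b1 := abs_le.1 (hM' 1)
  have b2 := abs_le.1 (hM' 2)
  have b3 := abs_le.1 (hM' 3)
  have bi := abs_le.1 (hM' i)
  rw [← hi'']
  clear hM' hM h4 h5 h4' h5' hc hc' hi' hi'' hcs hcs'
  obtain ⟨w, hw⟩ : ∃ w, w = w45 (R - c'' 4) (R - c'' 5) := ⟨_, rfl⟩
  have mw : w ∈ LEG := by rw [hw]; exact w45_mem_LEG (by linarith) (by linarith)
  have e1 : Inc f (s • e i) c'' = Inc f (s • e i) (c'' + w) := by
    have h1 := Inc_swap f (s • e i) w c''
    have h2 : Inc f w c'' = Inc f w (c'' + s • e i) := by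
      rw [hw]
      apply F3 hf hx hy hJ hc'' hcs''
      · rcases hi with rfl | rfl <;> co6
      · rcases hi with rfl | rfl <;> co6
      · linarith
      · linarith
    linarith
  rw [e1]
  have hs0 : (0 : V6) ≤ s • e i := e_nonneg hs i
  have mA : A ∈ LEG := mpt u v (-N) hxu hyu hvb (by rw [abs_neg, abs_of_nonneg hN0])
  have hxu' : |x * (-u)| ≤ x * n := by rw [mul_neg, abs_neg]; exact hxu
  have hyu' : |y * (-u)| ≤ y * n := by rw [mul_neg, abs_neg]; exact hyu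
  have hvb' : |(-v)| ≤ x * n + y * n := by rw [abs_neg]; exact hvb
  have mB : B ∈ LEG := mpt (-u) (-v) (-N) hxu' hyu' hvb' (by rw [abs_neg, abs_of_nonneg hN0])
  have mAs : ∀ s' : ℝ, 0 ≤ s' → s' ≤ 2 * N → A + s' • e i ∈ LEG := by
    intro s' h1 h2
    rw [hA, pt_add]
    exact mpt u v _ hxu hyu hvb (by rw [abs_le]; constructor <;> linarith)
  have mBs : ∀ s' : ℝ, 0 ≤ s' → s' ≤ 2 * N → B + s' • e i ∈ LEG := by
    intro s' h1 h2
    rw [hB, pt_add]
    exact mpt (-u) (-v) _ hxu' hyu' hvb' (by rw [abs_le]; constructor <;> linarith)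
  have adds : ∀ (z : V6) (s' s'' : ℝ), z + s' • e i + s'' • e i = z + (s' + s'') • e i := by
    intro z s' s''; rw [add_smul, add_assoc]
  have m1 : A + (c'' i + N) • e i ∈ LEG := mAs _ (by linarith) (by linarith)
  have m2 : B + (c'' i + N) • e i ∈ LEG := mBs _ (by linarith) (by linarith)
  have m3 : A + (c'' i + N) • e i + s • e i ∈ LEG := by
    rw [adds]; exact mAs _ (by linarith) (by linarith)
  have m4 : B + (c'' i + N) • e i + s • e i ∈ LEG := by
    rw [adds]; exact mBs _ (by linarith) (by linarith)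
  have m5 : A + (c'' i + N) • e i + s • e i + (N - c'' i - s) • e i ∈ LEG := by
    rw [adds, adds]; exact mAs _ (by linarith) (by linarith)
  have m6 : B + (c'' i + N) • e i + s • e i + (N - c'' i - s) • e i ∈ LEG := by
    rw [adds, adds]; exact mBs _ (by linarith) (by linarith)
  have mc : c'' + w ∈ LEG := LEG_add hc'' mw
  have mcs : c'' + w + s • e i ∈ LEG := by
    rw [add_right_comm]; exact LEG_add hcs'' mw
  have lA : A + (c'' i + N) • e i ≤ c'' + w := by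
    rw [hA, pt_add, pt, hw, hu, hv]
    rcases hi with rfl | rfl
    · simp only [if_true]
      refine le6 ?_ ?_ ?_ ?_ ?_ ?_ <;> co6 <;> linarith
    · rw [if_neg (by decide), if_neg (by decide)]
      refine le6 ?_ ?_ ?_ ?_ ?_ ?_ <;> co6 <;> linarith
  have lB : c'' + w ≤ B + (c'' i + N) • e i := by
    rw [hB, pt_add, pt, hw, hu, hv]
    rcases hi with rfl | rfl
    · simp only [if_true]
      refine le6 ?_ ?_ ?_ ?_ ?_ ?_ <;> co6 <;> linarith
    · rw [if_neg (by decide), if_neg (by decide)]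
      refine le6 ?_ ?_ ?_ ?_ ?_ ?_ <;> co6 <;> linarith
  have dA : ∀ j, (s • e i) j = 0 ∨ (A + (c'' i + N) • e i) j = (c'' + w) j := by
    rw [hA, pt_add, pt, hw, hu, hv]
    rcases hi with rfl | rfl
    · simp only [if_true]
      refine forall6 (Or.inr ?_) (Or.inl ?_) (Or.inl ?_) (Or.inl ?_) (Or.inl ?_) (Or.inl ?_) <;>
        co6
      ring
    · rw [if_neg (by decide), if_neg (by decide)]
      refine forall6 (Or.inl ?_) (Or.inl ?_) (Or.inr ?_) (Or.inl ?_) (Or.inl ?_) (Or.inl ?_) <;>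
        co6
      ring
  have dB : ∀ j, (s • e i) j = 0 ∨ (c'' + w) j = (B + (c'' i + N) • e i) j := by
    rw [hB, pt_add, pt, hw, hu, hv]
    rcases hi with rfl | rfl
    · simp only [if_true]
      refine forall6 (Or.inr ?_) (Or.inl ?_) (Or.inl ?_) (Or.inl ?_) (Or.inl ?_) (Or.inl ?_) <;>
        co6
      ring
    · rw [if_neg (by decide), if_neg (by decide)]
      refine forall6 (Or.inl ?_) (Or.inl ?_) (Or.inr ?_) (Or.inl ?_) (Or.inl ?_) (Or.inl ?_) <;>
        co6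
      ring
  have lAB : A ≤ B := by
    have := lA.trans lB
    intro j
    have := this j
    simp only [Pi.add_apply] at this
    linarith
  have dAB : ∀ j, (((c'' i + N) • e i) j = 0 ∧ (s • e i) j = 0 ∧ ((N - c'' i - s) • e i) j = 0) ∨
      A j = B j := by
    intro j
    by_cases hj : j = i
    · right
      subst hj
      have h1 := dA j
      have h2 := dB j
      have he : (e j : V6) j = 1 := by simp [e]
      simp only [Pi.smul_apply, he, smul_eq_mul, mul_one, Pi.add_apply] at h1 h2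
      have h0 := lAB j
      rcases eq_or_lt_of_le hs with h | h
      · -- s = 0: use the bracket order
        have l1 := lA j
        have l2 := lB j
        rw [hA, hB, pt, pt, hu, hv]
        rcases hi with rfl | rfl
        · simp only [if_true]; co6; ring
        · rw [if_neg (by decide), if_neg (by decide)]; co6; ring
      · rcases h1 with h1 | h1
        · exact absurd h1 h.ne'
        · rcases h2 with h2 | h2
          · exact absurd h2 h.ne'
          · linarith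
    · left
      have he : (e i : V6) j = 0 := by simp [e, hj]
      simp [he]
  have c1 := hf.sub m1 mc m3 mcs lA hs0 dA
  have c2 := hf.sub mc m2 mcs m4 lB hs0 dB
  have c3 := hf.mix (p := A) (q := B) (d1 := (c'' i + N) • e i) (d := s • e i)
    (d2 := (N - c'' i - s) • e i) mA mB m1 m2 m3 m4 m5 m6 lAB (e_nonneg (by linarith) i)
    (e_nonneg (by linarith) i) dAB
  have ew : (c'' i + N) • e i + s • e i + (N - c'' i - s) • e i = (2 * N : ℝ) • e i := by
    rw [← add_smul, ← add_smul]; congr 1; ring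
  rw [ew, hUn, sub_self] at c3
  linarith

/-- (F4') the same, arbitrary `(4,5)`-levels -/
theorem F4' (hf : Pr f LEG) (hx : 0 < x) (hy : 0 < y)
    (hJ : ∀ n N R : ℕ, Inc f (w45 R R) (T x y (-n) (-N)) = Inc f (w45 R R) (T x y (-n) N))
    {i : Fin 6} (hi : i = 0 ∨ i = 2)
    (hU : ∀ n N : ℕ, ∃ R₀ : ℝ, ∀ R : ℕ, R₀ ≤ R → ∀ u v : ℝ,
      u = (if i = 0 then (n : ℝ) else -n) → v = (if i = 0 then -((x + y) * n) else 0) →
      Inc f ((2 * N : ℝ) • e i) (pt i (x * u) (y * u) v (R - x * u) (R - y * u) (-N)) =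
      Inc f ((2 * N : ℝ) • e i) (pt i (x * (-u)) (y * (-u)) (-v) (R - x * (-u)) (R - y * (-u))
        (-N)))
    {c c' : V6} (hc : c ∈ LEG) (hc' : c' ∈ LEG) (hi' : c i = c' i) {s : ℝ} (hs : 0 ≤ s)
    (hcs : c + s • e i ∈ LEG) (hcs' : c' + s • e i ∈ LEG) :
    Inc f (s • e i) c = Inc f (s • e i) c' := by
  obtain ⟨M, hM0, hM⟩ := exists_bound c c'
  have key : ∀ z ∈ LEG, z + s • e i ∈ LEG → (∀ i, |z i| ≤ M) →
      Inc f (s • e i) z = Inc f (s • e i) (z + w45 (M - z 4) (M - z 5)) := by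
    intro z hz hzs hM'
    have b4 := abs_le.1 (hM' 4)
    have b5 := abs_le.1 (hM' 5)
    have h1 := Inc_swap f (s • e i) (w45 (M - z 4) (M - z 5)) z
    have h2 : Inc f (w45 (M - z 4) (M - z 5)) z = Inc f (w45 (M - z 4) (M - z 5)) (z + s • e i) := by
      apply F3 hf hx hy hJ hz hzs
      · rcases hi with rfl | rfl <;> co6
      · rcases hi with rfl | rfl <;> co6
      · linarith
      · linarith
    linarith
  rw [key c hc hcs fun i => (hM i).1, key c' hc' hcs' fun i => (hM i).2]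
  have b4 := abs_le.1 (hM 4).1
  have b5 := abs_le.1 (hM 5).1
  have b4' := abs_le.1 (hM 4).2
  have b5' := abs_le.1 (hM 5).2
  have mw : w45 (M - c 4) (M - c 5) ∈ LEG := w45_mem_LEG (by linarith) (by linarith)
  have mw' : w45 (M - c' 4) (M - c' 5) ∈ LEG := w45_mem_LEG (by linarith) (by linarith)
  apply F4 hf hx hy hJ hi hU (LEG_add hc mw) (LEG_add hc' mw') _ _ _ hs
  · rw [add_right_comm]; exact LEG_add hcs mw
  · rw [add_right_comm]; exact LEG_add hcs' mw'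
  · rcases hi with rfl | rfl <;> co6 <;> exact hi'
  · co6; ring
  · co6; ring

/-- decoupled `(4,5)`-levels -/
def Good3 (f : V6 → ℝ) : Prop :=
  ∀ c ∈ LEG, ∀ c' ∈ LEG, c 4 = c' 4 → c 5 = c' 5 → ∀ r4 r5 : ℝ, 0 ≤ r4 → 0 ≤ r5 →
    Inc f (w45 r4 r5) c = Inc f (w45 r4 r5) c'

/-- decoupled coordinate `i` -/
def Good4 (f : V6 → ℝ) (i : Fin 6) : Prop :=
  ∀ c ∈ LEG, ∀ c' ∈ LEG, c i = c' i → ∀ s : ℝ, 0 ≤ s → c + s • e i ∈ LEG → c' + s • e i ∈ LEG →
    Inc f (s • e i) c = Inc f (s • e i) c'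

/-- the increments in the direction `i` are linear -/
theorem F6 {i : Fin 6} (hi : i = 0 ∨ i = 2) (hg : Good4 f i)
    {ρ : ℝ} (hR1 : ∀ s : ℝ, 0 < s → Inc f (s • e i) (w45 s s) = ρ * s)
    (hR2 : ∀ s : ℝ, 0 < s → Inc f (s • e i) (X 0 0 (-s) + w45 s s) = ρ * s)
    {c : V6} (hc : c ∈ LEG) {s : ℝ} (hs : 0 ≤ s)
    (hcs : c + s • e i ∈ LEG) : Inc f (s • e i) c = ρ * s := by
  set u := c i with hu
  obtain ⟨R, hR⟩ : ∃ R : ℝ, R = |u| + |u + s| + s := ⟨_, rfl⟩
  have hau := abs_nonneg u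
  have haus := abs_nonneg (u + s)
  have le1 := le_abs_self u
  have le2 := neg_abs_le u
  have le3 := le_abs_self (u + s)
  have le4 := neg_abs_le (u + s)
  have hR0 : 0 ≤ R := by linarith
  have mref : ∀ u' : ℝ, |u'| ≤ R → w45 R R + u' • e i ∈ LEG := by
    intro u' hu'
    have := abs_le.1 hu'
    rcases hi with rfl | rfl <;> (refine mem_LEG ?_ ?_ ?_ ?_ <;> co6 <;> linarith)
  have hei : (e i : V6) i = 1 := by simp [e]
  have hwi : ∀ a b : ℝ, w45 a b i = 0 := by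
    intro a b; rcases hi with rfl | rfl <;> rfl
  have adds : ∀ (z : V6) (s' s'' : ℝ), z + s' • e i + s'' • e i = z + (s' + s'') • e i := by
    intro z s' s''; rw [add_smul, add_assoc]
  -- the function along the reference line
  have lin : ∀ u' : ℝ, |u'| ≤ R → f (w45 R R + u' • e i) = f (w45 R R) - ρ * u' := by
    intro u' hu'
    rcases lt_trichotomy u' 0 with h | h | h
    · have h1 : Inc f ((-u') • e i) (w45 R R + u' • e i) = ρ * (-u') := by
        rw [← hR2 (-u') (by linarith)]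
        apply hg _ (mref _ hu') _ (LEG_add (X_mem_LEG _ _ _) (w45_mem_LEG (by linarith)
          (by linarith))) _ _ (by linarith)
        · rw [adds, add_neg_cancel, zero_smul, add_zero]
          exact w45_mem_LEG hR0 hR0
        · rcases hi with rfl | rfl <;> (refine mem_LEG ?_ ?_ ?_ ?_ <;> co6 <;> linarith)
        · rw [Pi.add_apply, Pi.add_apply, Pi.smul_apply, hei, hwi, hwi]
          rcases hi with rfl | rfl <;> co6 <;> ring
      have h2 : w45 R R + u' • e i + (-u') • e i = w45 R R := by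
        rw [adds, add_neg_cancel, zero_smul, add_zero]
      unfold Inc at h1
      rw [h2] at h1
      linarith
    · subst h; simp
    · have h1 : Inc f (u' • e i) (w45 R R) = ρ * u' := by
        rw [← hR1 u' h]
        apply hg _ (w45_mem_LEG hR0 hR0) _ (w45_mem_LEG h.le h.le) _ _ h.le
        · exact mref _ hu'
        · rcases hi with rfl | rfl <;> (refine mem_LEG ?_ ?_ ?_ ?_ <;> co6 <;> linarith)
        · rw [hwi, hwi]
      unfold Inc at h1
      linarith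
  have h1 : Inc f (s • e i) c = Inc f (s • e i) (w45 R R + u • e i) := by
    apply hg _ hc _ (mref _ (by linarith)) _ _ hs hcs
    · rw [adds]; exact mref _ (by linarith)
    · rw [Pi.add_apply, Pi.smul_apply, hei, hwi, ← hu]; simp
  rw [h1, Inc, adds, lin u (by linarith), lin (u + s) (by linarith)]
  ring

end

/-- the function of the two remaining coordinates -/
def bet (f : V6 → ℝ) (R u v : ℝ) : ℝ := f (w45 R R) - f ![0, u, 0, v, R, R]

/-- peel off the coordinates `0` and `2` at the level `(R,R)` -/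
theorem peel {f : V6 → ℝ} {r0 r2 : ℝ}
    (h0 : ∀ c ∈ LEG, ∀ s : ℝ, 0 ≤ s → c + s • e 0 ∈ LEG → Inc f (s • e 0) c = r0 * s)
    (h2 : ∀ c ∈ LEG, ∀ s : ℝ, 0 ≤ s → c + s • e 2 ∈ LEG → Inc f (s • e 2) c = r2 * s)
    {M R : ℝ} (hR : 2 * M ≤ R) {c : V6} (hM : ∀ i : Fin 6, i ≠ 4 → i ≠ 5 → |c i| ≤ M)
    (h4 : c 4 = R) (h5 : c 5 = R) :
    f c = f (w45 R R) - bet f R (c 1) (c 3) - r0 * c 0 - r2 * c 2 := by
  have b0 := abs_le.1 (hM 0 (by decide) (by decide))
  have b1 := abs_le.1 (hM 1 (by decide) (by decide))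
  have b2 := abs_le.1 (hM 2 (by decide) (by decide))
  have b3 := abs_le.1 (hM 3 (by decide) (by decide))
  have s0 : f c = f ![0, c 1, c 2, c 3, R, R] - r0 * c 0 := by
    rcases le_total 0 (c 0) with h | h
    · have := h0 ![0, c 1, c 2, c 3, R, R] (by refine mem_LEG ?_ ?_ ?_ ?_ <;> simp <;> linarith)
        (c 0) h (by refine mem_LEG ?_ ?_ ?_ ?_ <;> simp <;> linarith)
      have e1 : (![0, c 1, c 2, c 3, R, R] : V6) + c 0 • e 0 = c := by
        refine ext6 ?_ ?_ ?_ ?_ ?_ ?_ <;> simp [h4, h5]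
      unfold Inc at this
      rw [e1] at this
      linarith
    · have := h0 c (by refine mem_LEG ?_ ?_ ?_ ?_ <;> linarith) (-c 0) (by linarith)
        (by refine mem_LEG ?_ ?_ ?_ ?_ <;> simp <;> linarith)
      have e1 : c + (-c 0) • e 0 = ![0, c 1, c 2, c 3, R, R] := by
        refine ext6 ?_ ?_ ?_ ?_ ?_ ?_ <;> simp [h4, h5]
      unfold Inc at this
      rw [e1] at this
      linarith
  have s2 : f ![0, c 1, c 2, c 3, R, R] = f ![0, c 1, 0, c 3, R, R] - r2 * c 2 := by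
    rcases le_total 0 (c 2) with h | h
    · have := h2 ![0, c 1, 0, c 3, R, R] (by refine mem_LEG ?_ ?_ ?_ ?_ <;> simp <;> linarith)
        (c 2) h (by refine mem_LEG ?_ ?_ ?_ ?_ <;> simp <;> linarith)
      have e1 : (![0, c 1, 0, c 3, R, R] : V6) + c 2 • e 2 = ![0, c 1, c 2, c 3, R, R] := by
        refine ext6 ?_ ?_ ?_ ?_ ?_ ?_ <;> simp
      unfold Inc at this
      rw [e1] at this
      linarith
    · have := h2 ![0, c 1, c 2, c 3, R, R] (by refine mem_LEG ?_ ?_ ?_ ?_ <;> simp <;> linarith)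
        (-c 2) (by linarith) (by refine mem_LEG ?_ ?_ ?_ ?_ <;> simp <;> linarith)
      have e1 : (![0, c 1, c 2, c 3, R, R] : V6) + (-c 2) • e 2 = ![0, c 1, 0, c 3, R, R] := by
        refine ext6 ?_ ?_ ?_ ?_ ?_ ?_ <;> simp
      unfold Inc at this
      rw [e1] at this
      linarith
  rw [s0, s2, bet]; ring

end Crest.Agent.R138.Dl848
end

-- ▼ part R138/Dl4_848

/-!
# R138: decoupling on the legal region, conclusions for the blow-up limit (helper848)
-/

set_option autoImplicit false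

open Set

namespace Crest.Agent.R138.Dl848

/-- all exact relations which hold for the blow-up limit at a generic natural point -/
structure Lim (f : V6 → ℝ) (x y Pτ Pt r0 r2 J : ℝ) : Prop where
  zero : f 0 = 0
  g3 : Good3 f
  g40 : Good4 f 0
  g42 : Good4 f 2
  hP : ∀ u v, f (T x y u v) = u * Pτ + v * Pt
  h01 : ∀ s : ℝ, 0 < s → Inc f (s • e 0) (w45 s s) = r0 * s
  h02 : ∀ s : ℝ, 0 < s → Inc f (s • e 0) (X 0 0 (-s) + w45 s s) = r0 * s
  h21 : ∀ s : ℝ, 0 < s → Inc f (s • e 2) (w45 s s) = r2 * s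
  h22 : ∀ s : ℝ, 0 < s → Inc f (s • e 2) (X 0 0 (-s) + w45 s s) = r2 * s
  hJ1 : ∀ s : ℝ, 0 < s → Inc f (w45 (x * s) (y * s)) 0 = J * s
  hJ2 : ∀ s : ℝ, 0 < s → Inc f (w45 (x * s) (y * s)) (T x y (-s) 0) = J * s

section

variable {f : V6 → ℝ} {x y Pτ Pt r0 r2 J : ℝ}

theorem Lim.g0 (h : Lim f x y Pτ Pt r0 r2 J) :
    ∀ c ∈ LEG, ∀ s : ℝ, 0 ≤ s → c + s • e 0 ∈ LEG → Inc f (s • e 0) c = r0 * s :=
  fun _ hc _ hs hcs => F6 (Or.inl rfl) h.g40 h.h01 h.h02 hc hs hcs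

theorem Lim.g2 (h : Lim f x y Pτ Pt r0 r2 J) :
    ∀ c ∈ LEG, ∀ s : ℝ, 0 ≤ s → c + s • e 2 ∈ LEG → Inc f (s • e 2) c = r2 * s :=
  fun _ hc _ hs hcs => F6 (Or.inr rfl) h.g42 h.h21 h.h22 hc hs hcs

theorem Lim.level (h : Lim f x y Pτ Pt r0 r2 J) {c c' : V6}
    (hc : c ∈ LEG) (hc' : c' ∈ LEG) (h4 : c 4 = c' 4) (h5 : c 5 = c' 5) {r4 r5 : ℝ}
    (hr4 : 0 ≤ r4) (hr5 : 0 ≤ r5) :
    f c - f c' = f (c + w45 r4 r5) - f (c' + w45 r4 r5) := by
  have := h.g3 _ hc _ hc' h4 h5 _ _ hr4 hr5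
  unfold Inc at this
  linarith

/-- (A) -/
theorem Lim.A (h : Lim f x y Pτ Pt r0 r2 J) {M R : ℝ}
    (hR : 2 * M ≤ R) {c c' : V6} (hc : c ∈ LEG) (hc' : c' ∈ LEG) (hM : ∀ i, |c i| ≤ M)
    (hM' : ∀ i, |c' i| ≤ M) (h4 : c 4 = c' 4) (h5 : c 5 = c' 5) :
    f c - f c' = -(r0 * (c 0 - c' 0) + r2 * (c 2 - c' 2) + bet f R (c 1) (c 3)
      - bet f R (c' 1) (c' 3)) := by
  have b4 := abs_le.1 (hM 4)
  have b5 := abs_le.1 (hM 5)
  have hM0 : 0 ≤ M := (abs_nonneg _).trans (hM 0)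
  rw [h.level hc hc' h4 h5 (r4 := R - c 4) (r5 := R - c 5) (by linarith) (by linarith)]
  have e1 := peel h.g0 h.g2 hR (c := c + w45 (R - c 4) (R - c 5))
    (forall6 (fun _ _ => by co6; exact hM 0) (fun _ _ => by co6; exact hM 1)
      (fun _ _ => by co6; exact hM 2) (fun _ _ => by co6; exact hM 3) (fun h => absurd rfl h)
      (fun _ h => absurd rfl h)) (by co6; ring) (by co6; ring)
  have e2 := peel h.g0 h.g2 hR (c := c' + w45 (R - c 4) (R - c 5))
    (forall6 (fun _ _ => by co6; exact hM' 0) (fun _ _ => by co6; exact hM' 1)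
      (fun _ _ => by co6; exact hM' 2) (fun _ _ => by co6; exact hM' 3) (fun h => absurd rfl h)
      (fun _ h => absurd rfl h)) (by co6; linarith) (by co6; linarith)
  rw [e1, e2]
  co6
  ring

theorem bet_level (h : Lim f x y Pτ Pt r0 r2 J) {M R R' u v : ℝ}
    (hu : |u| ≤ M) (hv : |v| ≤ M) (hR : 2 * M ≤ R) (hR' : 2 * M ≤ R') :
    bet f R u v = bet f R' u v := by
  have hM0 : 0 ≤ M := (abs_nonneg _).trans hu
  wlog hRR : R ≤ R' generalizing R R'
  · exact (this hR' hR (le_of_not_ge hRR)).symm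
  have b1 := abs_le.1 hu
  have b2 := abs_le.1 hv
  have key := h.level (c := w45 R R) (c' := ![0, u, 0, v, R, R])
    (w45_mem_LEG (by linarith) (by linarith))
    (by refine mem_LEG ?_ ?_ ?_ ?_ <;> simp <;> linarith) rfl rfl
    (r4 := R' - R) (r5 := R' - R) (by linarith) (by linarith)
  have e1 : w45 R R + w45 (R' - R) (R' - R) = w45 R' R' := by
    rw [w45_add]; congr 1 <;> ring
  have e2 : (![0, u, 0, v, R, R] : V6) + w45 (R' - R) (R' - R) = ![0, u, 0, v, R', R'] := by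
    refine ext6 ?_ ?_ ?_ ?_ ?_ ?_ <;> simp
  rw [e1, e2] at key
  exact key

/-- the `(4,5)`-increment at a natural point -/
theorem Lim.nat45 (h : Lim f x y Pτ Pt r0 r2 J) (hx : 0 < x) (hy : 0 < y) {R u v : ℝ}
    (hR0 : 0 ≤ R) (hxu : x * u ≤ R) (hyu : y * u ≤ R) :
    Inc f (w45 (R - x * u) (R - y * u)) (T x y u v) = -(J * u) - f (w45 R R) := by
  rcases lt_trichotomy u 0 with hu | hu | hu
  · have a1 : 0 ≤ x * (-u) := by nlinarith
    have a2 : 0 ≤ y * (-u) := by nlinarith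
    have e1 : w45 (R - x * u) (R - y * u) = w45 (x * (-u)) (y * (-u)) + w45 R R := by
      rw [w45_add]; congr 1 <;> ring
    rw [e1, Inc_add]
    have h1 : Inc f (w45 (x * (-u)) (y * (-u))) (T x y u v) = J * (-u) := by
      rw [← h.hJ2 (-u) (by linarith)]
      exact h.g3 _ (T_mem _ _ _ _) _ (T_mem _ _ _ _) (by simp [T]) (by simp [T]) _ _ a1 a2
    have h2 : Inc f (w45 R R) (T x y u v + w45 (x * (-u)) (y * (-u))) = Inc f (w45 R R) 0 := by
      exact h.g3 _ (LEG_add (T_mem _ _ _ _) (w45_mem_LEG a1 a2)) _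
        (mem_LEG (by simp) (by simp) (by simp) (by simp)) (by simp [T]) (by simp [T]) _ _ hR0 hR0
    rw [h1, h2, Inc, h.zero, zero_add]
    ring
  · subst hu
    have h2 : Inc f (w45 (R - x * 0) (R - y * 0)) (T x y 0 v) =
        Inc f (w45 (R - x * 0) (R - y * 0)) 0 := by
      exact h.g3 _ (T_mem _ _ _ _) _
        (mem_LEG (by simp) (by simp) (by simp) (by simp)) (by simp [T]) (by simp [T]) _ _
        (by simp [hR0]) (by simp [hR0])
    rw [h2, Inc, h.zero, zero_add]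
    simp
  · have a1 : 0 ≤ x * u := by positivity
    have a2 : 0 ≤ y * u := by positivity
    have h1 : Inc f (w45 (R - x * u) (R - y * u)) (T x y u v) =
        Inc f (w45 (R - x * u) (R - y * u)) (w45 (x * u) (y * u)) := by
      exact h.g3 _ (T_mem _ _ _ _) _ (w45_mem_LEG a1 a2) (by simp [T]) (by simp [T]) _ _
        (by linarith) (by linarith)
    have h2 := h.hJ1 u hu
    have e2 : w45 (x * u) (y * u) + w45 (R - x * u) (R - y * u) = w45 R R := by
      rw [w45_add]; congr 1 <;> ring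
    unfold Inc at h2
    rw [h.zero, zero_add] at h2
    rw [h1, Inc, e2]
    linarith

/-- (B) the function of the coordinates `1, 3` along the natural surface -/
theorem Lim.B (h : Lim f x y Pτ Pt r0 r2 J) (hx : 0 < x) (hy : 0 < y) {M R u v : ℝ}
    (hR : 2 * M ≤ R) (hM : ∀ i, |T x y u v i| ≤ M) :
    bet f R (v + y * u) (v + x * u) =
      -(u * (Pτ + J + r0 * (x + y)) + v * (Pt + r0 + r2)) := by
  have hM0 : 0 ≤ M := (abs_nonneg _).trans (hM 0)
  have b4 := abs_le.1 (hM 4)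
  have b5 := abs_le.1 (hM 5)
  have c4 : T x y u v 4 = x * u := rfl
  have c5 : T x y u v 5 = y * u := rfl
  rw [c4] at b4
  rw [c5] at b5
  have h1 := h.nat45 hx hy (R := R) (u := u) (v := v) (by linarith) (by linarith) (by linarith)
  have e1 := peel h.g0 h.g2 hR
    (c := T x y u v + w45 (R - x * u) (R - y * u))
    (forall6 (fun _ _ => by rw [Pi.add_apply, w45_0, add_zero]; exact hM 0)
      (fun _ _ => by rw [Pi.add_apply, w45_1, add_zero]; exact hM 1)
      (fun _ _ => by rw [Pi.add_apply, w45_2, add_zero]; exact hM 2)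
      (fun _ _ => by rw [Pi.add_apply, w45_3, add_zero]; exact hM 3) (fun h => absurd rfl h)
      (fun _ h => absurd rfl h)) (by unfold T; co6; ring) (by unfold T; co6; ring)
  unfold Inc at h1
  rw [h.hP u v, e1] at h1
  have q0 : (T x y u v + w45 (R - x * u) (R - y * u)) 0 = v + x * u + y * u := by
    unfold T; co6
  have q1 : (T x y u v + w45 (R - x * u) (R - y * u)) 1 = v + y * u := by
    unfold T; co6
  have q2 : (T x y u v + w45 (R - x * u) (R - y * u)) 2 = v := by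
    unfold T; co6
  have q3 : (T x y u v + w45 (R - x * u) (R - y * u)) 3 = v + x * u := by
    unfold T; co6
  rw [q0, q1, q2, q3] at h1
  linarith

/-- diagonal values -/
theorem Lim.B0 (h : Lim f x y Pτ Pt r0 r2 J) (hx : 0 < x) (hy : 0 < y) {M R v : ℝ}
    (hR : 2 * M ≤ R) (hM : |v| ≤ M) : bet f R v v = -(Pt + r0 + r2) * v := by
  have hM0 : 0 ≤ M := (abs_nonneg _).trans hM
  have := h.B hx hy (u := 0) (v := v) hR (by
    unfold T
    refine forall6 ?_ ?_ ?_ ?_ ?_ ?_ <;> co6 <;> first | exact hM | (rw [abs_zero]; exact hM0))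
  rw [mul_zero, mul_zero, add_zero, zero_mul, zero_add] at this
  rw [this]; ring

/-- (C) for `x ≠ y` the function `bet` is linear -/
theorem Lim.C (h : Lim f x y Pτ Pt r0 r2 J) (hx : 0 < x) (hy : 0 < y) (hxy : x ≠ y)
    {M R : ℝ} (hR : 2 * M ≤ R) {p q r1 r3 : ℝ} (hp : |p| ≤ M) (hq : |q| ≤ M)
    (h13 : r1 + r3 = -(Pt + r0 + r2)) (h13' : y * r1 + x * r3 = -(Pτ + J + r0 * (x + y))) :
    bet f R p q = r1 * p + r3 * q := by
  have hne : x - y ≠ 0 := sub_ne_zero.2 hxy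
  set u := (q - p) / (x - y) with hu
  have hu' : (x - y) * u = q - p := by rw [hu]; field_simp
  set v := p - y * u with hv
  obtain ⟨M1, hM10, hM1⟩ := exists_bound (T x y u v) 0
  obtain ⟨M', hM'⟩ : ∃ M' : ℝ, M' = max M M1 := ⟨_, rfl⟩
  have l1 : M ≤ M' := by rw [hM']; exact le_max_left _ _
  have l2 : M1 ≤ M' := by rw [hM']; exact le_max_right _ _
  have key := h.B hx hy (u := u) (v := v) (M := M') (R := 2 * M') le_rfl
    (fun i => (hM1 i).1.trans l2)
  have e1 : v + y * u = p := by rw [hv]; ring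
  have e2 : v + x * u = q := by rw [hv]; linarith
  rw [e1, e2] at key
  have hM0 : 0 ≤ M := (abs_nonneg _).trans hp
  have hR0 : 0 ≤ R := by linarith
  rw [bet_level h hp hq hR (R' := 2 * M') (by linarith)]
  rw [key]
  have : -(u * (Pτ + J + r0 * (x + y)) + v * (Pt + r0 + r2)) =
      u * (y * r1 + x * r3) + v * (r1 + r3) := by rw [h13, h13']; ring
  rw [this, ← e1, ← e2]; ring

end

end Crest.Agent.R138.Dl848
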