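import Crest.Agent.R138.FM_501
import Crest.Agent.R138.Tw0_829
import Crest.Agent.R138.Fal6_658

-- ▼ part R138/Tw1_829
section

/-!
# R138: Kaufman's inequality for F-models (helper829)

* `exists_le_of_ev`: finite sums of powers of the base;
* `nu_anti`, `nu_lip`: the counting exponent of an `FModel` is antitone and `1`-Lipschitz;
* `kauf_gen`, `kauf_N`, `kauf_X`: Kaufman;
* `TW0_proof : TW0`.
-/

set_option autoImplicit false
set_option linter.unusedVariables false

open Filter Topology Finset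

namespace Crest.Agent.R138.Tw829

open Crest.Agent.R138.Ex926 Crest.Agent.R138.FM501

/-! ### powers of the base -/

variable {B : Base} {G : ℕ → Cfg} {σ R : ℝ} {ν : (Fin 4 → ℝ) → ℝ}

theorem tendsto_rpow_zero (B : Base) {t : ℝ} (ht : 0 < t) :
    Tendsto (fun n => B.d n ^ t) U (𝓝 0) := by
  have := B.lim0.rpow_const (p := t) (Or.inr ht.le)
  simpa [Real.zero_rpow ht.ne'] using this

theorem ev_rpow_lt (B : Base) {t c : ℝ} (ht : 0 < t) (hc : 0 < c) :
    ∀ᶠ n in (U : Filter ℕ), B.d n ^ t < c :=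
  (tendsto_rpow_zero B ht).eventually (gt_mem_nhds hc)

/-- constants are absorbed -/
theorem ev_const_le (B : Base) {t : ℝ} (ht : 0 < t) (C : ℝ) :
    ∀ᶠ n in (U : Filter ℕ), C ≤ B.d n ^ (-t) := by
  have hC : 0 < 1 / (|C| + 1) := by positivity
  filter_upwards [ev_rpow_lt B ht hC] with n hn
  have hd := B.pos n
  rw [Real.rpow_neg hd.le]
  have h1 : 0 < B.d n ^ t := Real.rpow_pos_of_pos hd t
  rw [lt_div_iff₀ (by positivity)] at hn
  calc C ≤ |C| + 1 := by linarith [le_abs_self C]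
    _ ≤ (B.d n ^ t)⁻¹ := by
        rw [le_inv_comm₀ (by positivity) h1, ← one_div, le_div_iff₀ (by positivity)]
        exact hn.le

theorem rpow_anti (B : Base) (n : ℕ) {s t : ℝ} (h : s ≤ t) : B.d n ^ t ≤ B.d n ^ s :=
  Real.rpow_le_rpow_of_exponent_ge (B.pos n) (B.lt n).le h

theorem rpow_add' (B : Base) (n : ℕ) (s t : ℝ) : B.d n ^ (s + t) = B.d n ^ s * B.d n ^ t :=
  Real.rpow_add (B.pos n) s t

/-- the basic comparison of exponents -/
theorem exists_le_of_ev (B : Base) (J : ℕ) (β : ℕ → ℝ) (α C C0 : ℝ)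
    (h : ∀ ε : ℝ, 0 < ε → ∀ᶠ n in (U : Filter ℕ),
      B.d n ^ (α + C * ε) ≤ C0 * ∑ j ∈ range (J + 1), B.d n ^ (β j - C * ε)) :
    ∃ j ≤ J, β j ≤ α := by
  by_contra hcon
  push Not at hcon
  obtain ⟨g, hg, hgj⟩ : ∃ g : ℝ, 0 < g ∧ ∀ j ≤ J, α + g ≤ β j := by
    have hne : (range (J + 1)).Nonempty := Finset.nonempty_range_iff.2 (by omega)
    refine ⟨(range (J + 1)).inf' hne (fun j => β j - α), ?_, ?_⟩
    · refine (Finset.lt_inf'_iff hne).2 ?_
      intro j hj
      have := hcon j (by simpa [Nat.lt_succ_iff] using hj)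
      linarith
    · intro j hj
      have := Finset.inf'_le (s := range (J + 1)) (fun j => β j - α)
        (b := j) (by simpa [Nat.lt_succ_iff] using hj)
      linarith
  set D := |C| + 1 with hD
  have hDpos : 0 < D := by positivity
  set ε := g / (4 * D) with hε
  have hεpos : 0 < ε := by positivity
  have hCε : |C| * ε ≤ g / 4 := by
    have : |C| * ε ≤ D * ε := mul_le_mul_of_nonneg_right (by simp [hD]) hεpos.le
    have h2 : D * ε = g / 4 := by rw [hε]; field_simp
    linarith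
  have hCε' := abs_le.1 (le_of_eq (abs_mul C ε))
  have habs : |C * ε| ≤ g / 4 := by rw [abs_mul, abs_of_pos hεpos]; exact hCε
  rw [abs_le] at habs
  have h1 := ev_rpow_lt B (t := g / 2) (c := 1 / ((|C0| + 1) * (J + 1))) (by linarith)
    (by positivity)
  obtain ⟨n, hn1, hn2⟩ := ((h ε hεpos).and h1).exists
  have hd := B.pos n
  have h3 : ∑ j ∈ range (J + 1), B.d n ^ (β j - C * ε)
      ≤ (J + 1) * B.d n ^ (α + g - g / 4) := by
    calc _ ≤ ∑ j ∈ range (J + 1), B.d n ^ (α + g - g / 4) := by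
          refine Finset.sum_le_sum fun j hj => rpow_anti B n ?_
          have := hgj j (by simpa [Nat.lt_succ_iff] using hj)
          linarith [habs.2]
      _ = _ := by simp
  have h4 : B.d n ^ (α + g / 4) ≤ B.d n ^ (α + C * ε) := rpow_anti B n (by linarith [habs.2])
  have hs0 : 0 ≤ ∑ j ∈ range (J + 1), B.d n ^ (β j - C * ε) :=
    Finset.sum_nonneg fun j _ => (Real.rpow_pos_of_pos hd _).le
  have h5 : C0 * ∑ j ∈ range (J + 1), B.d n ^ (β j - C * ε)
      ≤ (|C0| + 1) * ((J + 1) * B.d n ^ (α + g - g / 4)) := by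
    calc _ ≤ (|C0| + 1) * ∑ j ∈ range (J + 1), B.d n ^ (β j - C * ε) :=
          mul_le_mul_of_nonneg_right (by linarith [le_abs_self C0]) hs0
      _ ≤ _ := mul_le_mul_of_nonneg_left h3 (by positivity)
  have h6 : B.d n ^ (α + g - g / 4) = B.d n ^ (α + g / 4) * B.d n ^ (g / 2) := by
    rw [← rpow_add']; congr 1; ring
  have h7 : B.d n ^ (α + g / 4) ≤ (|C0| + 1) * ((J + 1) * (B.d n ^ (α + g / 4) * B.d n ^ (g / 2))) := by
    rw [← h6]
    exact h4.trans (hn1.trans h5)
  have h8 : 0 < B.d n ^ (α + g / 4) := Real.rpow_pos_of_pos hd _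
  rw [lt_div_iff₀ (by positivity)] at hn2
  have h9 : B.d n ^ (α + g / 4) * 1 ≤ B.d n ^ (α + g / 4) *
      (B.d n ^ (g / 2) * ((|C0| + 1) * (J + 1))) := by
    calc _ = B.d n ^ (α + g / 4) := mul_one _
      _ ≤ _ := h7
      _ = _ := by ring
  have h10 := le_of_mul_le_mul_left h9 h8
  linarith

/-! ### elementary facts on `Cfg` -/

theorem Bd.X_le {G : Cfg} (h : G.Bd) {i k : ℕ} (hi : i ∈ G.L) (hk : k ∈ G.Z) :
    |G.X i k| ≤ 1 / 4 := by
  have h1 := h.a i hi
  have h2 := h.c i hi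
  have h3 := h.z k hk
  have h4 : |G.c i * G.z k| ≤ 1 / 8 := by
    rw [abs_mul]
    calc |G.c i| * |G.z k| ≤ (1 / 8) * 1 := mul_le_mul h2 h3 (abs_nonneg _) (by norm_num)
      _ = _ := by norm_num
  unfold Cfg.X
  rw [abs_le] at *
  constructor <;> linarith [h1.1, h1.2, h4.1, h4.2]

theorem Bd.N_le {G : Cfg} (h : G.Bd) {i k : ℕ} (hi : i ∈ G.L) (hk : k ∈ G.Z) :
    |G.N i k| ≤ 1 / 2 := by
  have h1 := h.b i hi
  have h2 := h.d i hi
  have h3 := h.z k hk
  have h4 : |G.d i * G.z k| ≤ 1 / 8 := by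
    rw [abs_mul]
    calc |G.d i| * |G.z k| ≤ (1 / 8) * 1 := mul_le_mul h2 h3 (abs_nonneg _) (by norm_num)
      _ = _ := by norm_num
  have h5 : |G.f k * G.X i k| ≤ 1 / 4 := by
    rw [abs_mul]
    calc |G.f k| * |G.X i k| ≤ 1 * (1 / 4) :=
          mul_le_mul (h.f k hk) (Bd.X_le h hi hk) (abs_nonneg _) (by norm_num)
      _ = _ := by norm_num
  unfold Cfg.N
  rw [abs_le] at *
  constructor <;> linarith [h1.1, h1.2, h4.1, h4.2, h5.1, h5.2]

theorem Bd.P_le {G : Cfg} (h : G.Bd) {i k : ℕ} (hi : i ∈ G.L) (hk : k ∈ G.Z) :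
    |G.P i k| ≤ 1 / 4 := by
  have h1 := h.d i hi
  have h2 := h.c i hi
  have h5 : |G.f k * G.c i| ≤ 1 / 8 := by
    rw [abs_mul]
    calc |G.f k| * |G.c i| ≤ 1 * (1 / 8) :=
          mul_le_mul (h.f k hk) h2 (abs_nonneg _) (by norm_num)
      _ = _ := by norm_num
  unfold Cfg.P
  rw [abs_le] at *
  constructor <;> linarith [h1.1, h1.2, h5.1, h5.2]

theorem Bd.co_le {G : Cfg} (h : G.Bd) {i k : ℕ} (hi : i ∈ G.L) (hk : k ∈ G.Z) (j : Fin 4) :
    |G.co k i j| ≤ 1 / 2 := by
  fin_cases j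
  · exact Bd.N_le h hi hk
  · exact (Bd.P_le h hi hk).trans (by norm_num)
  · exact (h.c i hi).trans (by norm_num)
  · exact (Bd.X_le h hi hk).trans (by norm_num)

theorem Bd.co_sub_le {G : Cfg} (h : G.Bd) {i i' k : ℕ} (hi : i ∈ G.L) (hi' : i' ∈ G.L)
    (hk : k ∈ G.Z) (j : Fin 4) : |G.co k i' j - G.co k i j| ≤ 1 := by
  have h1 := Bd.co_le h hi hk j
  have h2 := Bd.co_le h hi' hk j
  rw [abs_le] at *
  constructor <;> linarith [h1.1, h1.2, h2.1, h2.2]

theorem mem_slice {G : Cfg} {i k : ℕ} : i ∈ G.slice k ↔ i ∈ G.L ∧ (i, k) ∈ G.I := by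
  simp [Cfg.slice]

theorem mem_box {G : Cfg} {p : Fin 4 → ℝ} {i i' k : ℕ} :
    i' ∈ G.box p i k ↔ i' ∈ G.slice k ∧ ∀ j, |G.co k i' j - G.co k i j| ≤ G.ρ ^ p j := by
  classical
  unfold Cfg.box
  rw [Finset.mem_filter]
  rfl

theorem box_subset_slice {G : Cfg} {p : Fin 4 → ℝ} {i k : ℕ} : G.box p i k ⊆ G.slice k :=
  fun _ h => (mem_box.1 h).1

theorem box_zero {G : Cfg} (h : G.Bd) {i k : ℕ} (hi : i ∈ G.L) (hk : k ∈ G.Z) :
    G.box 0 i k = G.slice k := by
  apply Finset.Subset.antisymm box_subset_slice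
  intro i' hi'
  rw [mem_box]
  refine ⟨hi', fun j => ?_⟩
  simp only [Pi.zero_apply, Real.rpow_zero]
  exact Bd.co_sub_le h hi (mem_slice.1 hi').1 hk j

/-- covering a box by smaller boxes -/
theorem box_cover {G : Cfg} (hρ : 0 < G.ρ) (hρ1 : G.ρ ≤ 1) {p p' : Fin 4 → ℝ}
    (hpp : ∀ j, p j ≤ p' j) {i k : ℕ} {Mx : ℝ} (hM0 : 0 ≤ Mx)
    (hM : ∀ i' ∈ G.slice k, ((G.box p' i' k).card : ℝ) ≤ Mx) :
    ((G.box p i k).card : ℝ) ≤ 256 * G.ρ ^ (∑ j, (p j - p' j)) * Mx := by
  classical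
  set cell : ℕ → (Fin 4 → ℤ) := fun i' j => ⌊G.co k i' j / G.ρ ^ p' j⌋ with hcell
  have hpow : ∀ t : ℝ, 0 < G.ρ ^ t := fun t => Real.rpow_pos_of_pos hρ t
  have h1 : (G.box p i k).card ≤ ∑ c ∈ (G.box p i k).image cell,
      ((G.box p i k).filter fun i' => cell i' = c).card := by
    rw [← Finset.card_eq_sum_card_fiberwise (f := cell) (s := G.box p i k)
      (t := (G.box p i k).image cell) (fun i hi => Finset.mem_image_of_mem _ hi)]
  have h2 : ∀ c ∈ (G.box p i k).image cell,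
      (((G.box p i k).filter fun i' => cell i' = c).card : ℝ) ≤ Mx := by
    intro c hc
    obtain ⟨i1, hi1, hi1c⟩ := Finset.mem_image.1 hc
    refine le_trans ?_ (hM i1 (box_subset_slice hi1))
    have : ((G.box p i k).filter fun i' => cell i' = c) ⊆ G.box p' i1 k := by
      intro i' hi'
      obtain ⟨a1, a2⟩ := Finset.mem_filter.1 hi'
      rw [mem_box]
      refine ⟨box_subset_slice a1, fun j => ?_⟩
      have e1 : cell i' j = cell i1 j := by rw [a2, hi1c]
      simp only [hcell] at e1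
      have l1 := Int.floor_le (G.co k i' j / G.ρ ^ p' j)
      have l2 := Int.lt_floor_add_one (G.co k i' j / G.ρ ^ p' j)
      have l3 := Int.floor_le (G.co k i1 j / G.ρ ^ p' j)
      have l4 := Int.lt_floor_add_one (G.co k i1 j / G.ρ ^ p' j)
      rw [e1] at l1 l2
      have h5 : |G.co k i' j / G.ρ ^ p' j - G.co k i1 j / G.ρ ^ p' j| ≤ 1 := by
        rw [abs_le]; constructor <;> linarith
      rw [← sub_div, abs_div, abs_of_pos (hpow _), div_le_one (hpow _)] at h5
      exact h5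
    exact_mod_cast Finset.card_le_card this
  have h3 : ((G.box p i k).card : ℝ) ≤ ((G.box p i k).image cell).card * Mx := by
    calc ((G.box p i k).card : ℝ) ≤ ∑ c ∈ (G.box p i k).image cell,
      (((G.box p i k).filter fun i' => cell i' = c).card : ℝ) := by exact_mod_cast h1
      _ ≤ ∑ c ∈ (G.box p i k).image cell, Mx := Finset.sum_le_sum h2
      _ = _ := by simp
  have h4 : (((G.box p i k).image cell).card : ℝ) ≤ 256 * G.ρ ^ (∑ j, (p j - p' j)) := by
    set T : Finset (Fin 4 → ℤ) := Fintype.piFinset fun j =>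
      Finset.Icc ⌊(G.co k i j - G.ρ ^ p j) / G.ρ ^ p' j⌋ ⌊(G.co k i j + G.ρ ^ p j) / G.ρ ^ p' j⌋
      with hT
    have hsub : (G.box p i k).image cell ⊆ T := by
      intro c hc
      obtain ⟨i1, hi1, rfl⟩ := Finset.mem_image.1 hc
      rw [hT, Fintype.mem_piFinset]
      intro j
      have h := (mem_box.1 hi1).2 j
      rw [abs_le] at h
      rw [Finset.mem_Icc]
      constructor
      · apply Int.floor_le_floor
        exact (div_le_div_iff_of_pos_right (hpow _)).2 (by linarith [h.1])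
      · apply Int.floor_le_floor
        exact (div_le_div_iff_of_pos_right (hpow _)).2 (by linarith [h.2])
    have h5 : (T.card : ℝ) ≤ ∏ j : Fin 4, (4 * G.ρ ^ (p j - p' j)) := by
      rw [hT, Fintype.card_piFinset, Nat.cast_prod]
      refine Finset.prod_le_prod (fun j _ => Nat.cast_nonneg _) fun j _ => ?_
      rw [Int.card_Icc]
      set u := (G.co k i j - G.ρ ^ p j) / G.ρ ^ p' j
      set v := (G.co k i j + G.ρ ^ p j) / G.ρ ^ p' j
      have huv : v - u = 2 * G.ρ ^ (p j - p' j) := by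
        simp only [u, v]
        rw [Real.rpow_sub hρ]
        field_simp
        ring
      have h6 : (1 : ℝ) ≤ G.ρ ^ (p j - p' j) :=
        Real.one_le_rpow_of_pos_of_le_one_of_nonpos hρ hρ1 (by linarith [hpp j])
      have h7 : ((⌊v⌋ + 1 - ⌊u⌋ : ℤ) : ℝ) ≤ v - u + 2 := by
        push_cast
        linarith [Int.floor_le v, Int.lt_floor_add_one u]
      have h8 : ((⌊v⌋ + 1 - ⌊u⌋).toNat : ℝ) ≤ 2 * G.ρ ^ (p j - p' j) + 2 := by
        rcases le_total 0 (⌊v⌋ + 1 - ⌊u⌋) with h | h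
        · have : (((⌊v⌋ + 1 - ⌊u⌋).toNat : ℤ) : ℝ) = ((⌊v⌋ + 1 - ⌊u⌋ : ℤ) : ℝ) := by
            rw [Int.toNat_of_nonneg h]
          have h9 : ((⌊v⌋ + 1 - ⌊u⌋).toNat : ℝ) = ((⌊v⌋ + 1 - ⌊u⌋ : ℤ) : ℝ) := by
            rw [← this]; norm_cast
          rw [h9]; linarith
        · rw [Int.toNat_of_nonpos h]
          simp only [Nat.cast_zero]
          have := hpow (p j - p' j)
          linarith
      linarith
    calc (((G.box p i k).image cell).card : ℝ) ≤ T.card := by
          exact_mod_cast Finset.card_le_card hsub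
      _ ≤ ∏ j : Fin 4, (4 * G.ρ ^ (p j - p' j)) := h5
      _ = 256 * G.ρ ^ (∑ j, (p j - p' j)) := by
          rw [Finset.prod_mul_distrib, ← Real.rpow_sum_of_pos hρ]
          simp
          norm_num
  calc ((G.box p i k).card : ℝ) ≤ ((G.box p i k).image cell).card * Mx := h3
    _ ≤ _ := mul_le_mul_of_nonneg_right h4 hM0

/-! ### the counting exponent of an F-model -/

theorem FM.ρpos (H : FModel B G σ R ν) (n : ℕ) : 0 < (G n).ρ := by rw [H.base]; exact B.pos n

theorem FM.exI (H : FModel B G σ R ν) (n : ℕ) :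
    ∃ i k, (i, k) ∈ (G n).I ∧ i ∈ (G n).L ∧ k ∈ (G n).Z := by
  obtain ⟨⟨i, k⟩, h⟩ := H.nonempty n
  have := H.sub n h
  rw [Finset.mem_product] at this
  exact ⟨i, k, h, this.1, this.2⟩


theorem FM.box_anti (H : FModel B G σ R ν) (n : ℕ) {p p' : Fin 4 → ℝ} (hpp : ∀ j, p j ≤ p' j)
    (i k : ℕ) : (G n).box p' i k ⊆ (G n).box p i k := by
  intro i' hi'
  rw [mem_box] at hi' ⊢
  refine ⟨hi'.1, fun j => (hi'.2 j).trans ?_⟩
  rw [H.base]
  exact rpow_anti B n (hpp j)

theorem nu_anti (H : FModel B G σ R ν) {p p' : Fin 4 → ℝ} (hp : ∀ j, 0 ≤ p j)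
    (hpp : ∀ j, p j ≤ p' j) (hp' : ∀ j, p' j ≤ R) : ν p' ≤ ν p := by
  have hp1 : ∀ j, 0 ≤ p j ∧ p j ≤ R := fun j => ⟨hp j, (hpp j).trans (hp' j)⟩
  have hp2 : ∀ j, 0 ≤ p' j ∧ p' j ≤ R := fun j => ⟨(hp j).trans (hpp j), hp' j⟩
  obtain ⟨j, hj, h⟩ := exists_le_of_ev B 0 (fun _ => - ν p) (- ν p') 1 1 (by
    intro ε hε
    filter_upwards [H.unif p hp1 ε hε, H.unif p' hp2 ε hε] with n h1 h2
    obtain ⟨i, k, hik, hi, hk⟩ := FM.exI H n
    simp only [zero_add, range_one, sum_singleton, one_mul]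
    calc B.d n ^ (-ν p' + ε) ≤ (((G n).box p' i k).card : ℝ) := (h2 i k hik).1
      _ ≤ (((G n).box p i k).card : ℝ) := by
          exact_mod_cast Finset.card_le_card (FM.box_anti H n hpp i k)
      _ ≤ _ := (h1 i k hik).2)
  linarith

theorem nu_lip (H : FModel B G σ R ν) {p p' : Fin 4 → ℝ} (hp : ∀ j, 0 ≤ p j)
    (hpp : ∀ j, p j ≤ p' j) (hp' : ∀ j, p' j ≤ R) : ν p ≤ ν p' + ∑ j, (p' j - p j) := by
  have hp1 : ∀ j, 0 ≤ p j ∧ p j ≤ R := fun j => ⟨hp j, (hpp j).trans (hp' j)⟩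
  have hp2 : ∀ j, 0 ≤ p' j ∧ p' j ≤ R := fun j => ⟨(hp j).trans (hpp j), hp' j⟩
  obtain ⟨j, hj, h⟩ := exists_le_of_ev B 0 (fun _ => ∑ j, (p j - p' j) - ν p') (- ν p) 1 256 (by
    intro ε hε
    filter_upwards [H.unif p hp1 ε hε, H.unif p' hp2 ε hε] with n h1 h2
    obtain ⟨i, k, hik, hi, hk⟩ := FM.exI H n
    simp only [zero_add, range_one, sum_singleton, one_mul]
    calc B.d n ^ (-ν p + ε) ≤ (((G n).box p i k).card : ℝ) := (h1 i k hik).1
      _ ≤ 256 * (G n).ρ ^ (∑ j, (p j - p' j)) * B.d n ^ (-ν p' - ε) := by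
          refine box_cover (FM.ρpos H n) (by rw [H.base]; exact (B.lt n).le) hpp
            (Real.rpow_pos_of_pos (B.pos n) _).le ?_
          intro i' hi'
          exact (h2 i' k (mem_slice.1 hi').2).2
      _ = _ := by
          rw [H.base, mul_assoc, ← rpow_add']
          congr 2
          ring)
  have h2 : ∑ j, (p' j - p j) = - ∑ j, (p j - p' j) := by
    rw [← Finset.sum_neg_distrib]
    exact Finset.sum_congr rfl fun j _ => by ring
  rw [h2]
  linarith

theorem slice_card_le (H : FModel B G σ R ν) {ε : ℝ} (hε : 0 < ε) :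
    ∀ᶠ n in (U : Filter ℕ), ∀ k ∈ (G n).Z,
      (((G n).slice k).card : ℝ) ≤ B.d n ^ (-ν 0 - ε) := by
  filter_upwards [H.unif 0 (fun j => ⟨le_rfl, H.R_pos.le⟩) ε hε] with n h k hk
  rcases ((G n).slice k).eq_empty_or_nonempty with h0 | ⟨i, hi⟩
  · rw [h0]
    simpa using (Real.rpow_pos_of_pos (B.pos n) _).le
  · rw [← box_zero (H.bd n) (mem_slice.1 hi).1 hk]
    exact (h i k (mem_slice.1 hi).2).2

/-! ### Kaufman -/

/-- the scale `x * j / J` -/
noncomputable def sc (x : ℝ) (J j : ℕ) : ℝ := x * j / J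

theorem sc_zero (x : ℝ) (J : ℕ) : sc x J 0 = 0 := by simp [sc]

theorem sc_top (x : ℝ) {J : ℕ} (hJ : 0 < J) : sc x J J = x := by
  unfold sc
  have : (J : ℝ) ≠ 0 := by exact_mod_cast hJ.ne'
  field_simp

theorem sc_nonneg {x : ℝ} (hx : 0 ≤ x) (J j : ℕ) : 0 ≤ sc x J j := by unfold sc; positivity

theorem sc_le {x : ℝ} (hx : 0 ≤ x) {J j : ℕ} (hJ : 0 < J) (hj : j ≤ J) : sc x J j ≤ x := by
  unfold sc
  have h1 : (0 : ℝ) < J := by exact_mod_cast hJ
  rw [div_le_iff₀ h1]
  have h2 : (j : ℝ) ≤ J := by exact_mod_cast hj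
  exact mul_le_mul_of_nonneg_left h2 hx

theorem sc_succ (x : ℝ) {J : ℕ} (hJ : 0 < J) (j : ℕ) : sc x J (j + 1) = sc x J j + x / J := by
  unfold sc
  have : (J : ℝ) ≠ 0 := by exact_mod_cast hJ.ne'
  push_cast
  field_simp

/-- the exponents of the pair boxes -/
noncomputable def pp (pS : Fin 4 → ℝ) (jF jV : Fin 4) (t : ℝ) : Fin 4 → ℝ :=
  fun c => if c = jF ∨ c = jV then t else pS c

/-- **Kaufman's inequality for F-models**, general fibre and functional.
Fibre = box of exponents `pS` at height `k0`, functional `co · · jF`, velocity `co · · jV`. -/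
theorem kauf_gen (H : FModel B G σ R ν) {x : ℝ} (hx : 0 < x) (hxR : x ≤ R) {J : ℕ} (hJ : 0 < J)
    (pS : Fin 4 → ℝ) (hpS : ∀ j, 0 ≤ pS j ∧ pS j ≤ R) (jF jV : Fin 4)
    (hpF : pS jF = 0) (hpV : pS jV = 0) (Ce : ℝ) (hCe : 0 ≤ Ce)
    (herr : ∀ n, ∀ k0 ∈ (G n).Z, ∀ k ∈ (G n).Z, ∀ i ∈ (G n).L, ∀ i' ∈ (G n).L,
      (∀ j, |(G n).co k0 i' j - (G n).co k0 i j| ≤ 2 * B.d n ^ pS j) →
      |(G n).co k i jF - (G n).co k i' jF - (((G n).co k0 i jF - (G n).co k0 i' jF)
        + ((G n).z k - (G n).z k0) * ((G n).co k0 i jV - (G n).co k0 i' jV))|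
        ≤ Ce * B.d n ^ x) :
    ∃ j ≤ J, ν pS - ν (pp pS jF jV (sc x J j)) + σ * (x - sc x J (j + 1))
      ≤ ν 0 - ν (Pi.single jF x) := by
  classical
  have hR := H.R_pos
  have hσ0 := H.σ_nonneg
  have hσ1 := H.σ_le
  set q : ℕ → Fin 4 → ℝ := fun j => pp pS jF jV (sc x J j) with hq
  have hq01 : ∀ j ≤ J, ∀ c, 0 ≤ q j c ∧ q j c ≤ R := by
    intro j hj c
    simp only [hq, pp]
    split_ifs
    · exact ⟨sc_nonneg hx.le J j, (sc_le hx.le hJ hj).trans hxR⟩
    · exact hpS c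
  set pe : Fin 4 → ℝ := Pi.single jF x with hpe
  have hpe01 : ∀ c, 0 ≤ pe c ∧ pe c ≤ R := by
    intro c
    simp only [hpe]
    by_cases h : c = jF
    · subst h; simp [hx.le, hxR]
    · simp [Pi.single_eq_of_ne h, hR.le]
  obtain ⟨j, hj, h⟩ := exists_le_of_ev B J
    (fun j => -ν 0 + ν pe - ν (q j) + σ * (x - sc x J (j + 1))) (- ν pS) 9 3 (by
    intro ε hε
    -- the shrunk exponents
    set qe : ℕ → Fin 4 → ℝ := fun j c => max (q j c - ε) 0 with hqe
    have hqe01 : ∀ j ≤ J, ∀ c, 0 ≤ qe j c ∧ qe j c ≤ R := by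
      intro j hj c
      refine ⟨le_max_right _ _, ?_⟩
      simp only [hqe]
      exact max_le (by linarith [(hq01 j hj c).2]) hR.le
    have hνq : ∀ j ≤ J, ν (qe j) ≤ ν (q j) + 4 * ε := by
      intro j hj
      have h1 : ∀ c, qe j c ≤ q j c := by
        intro c
        simp only [hqe]
        exact max_le (by linarith) (hq01 j hj c).1
      have h2 := nu_lip H (fun c => (hqe01 j hj c).1) h1 (fun c => (hq01 j hj c).2)
      have h3 : ∑ c, (q j c - qe j c) ≤ ∑ c : Fin 4, ε := by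
        refine Finset.sum_le_sum fun c _ => ?_
        simp only [hqe]
        linarith [le_max_left (q j c - ε) 0]
      have h4 : ∑ c : Fin 4, ε = 4 * ε := by simp
      linarith
    have ev1 : ∀ᶠ n in (U : Filter ℕ), ∀ j ∈ range (J + 1), ∀ i k, (i, k) ∈ (G n).I →
        B.d n ^ (-ν (qe j) + ε) ≤ (((G n).box (qe j) i k).card : ℝ) ∧
        (((G n).box (qe j) i k).card : ℝ) ≤ B.d n ^ (-ν (qe j) - ε) := by
      rw [Filter.eventually_all_finset]
      intro j hj
      exact H.unif _ (hqe01 j (by simpa [Nat.lt_succ_iff] using hj)) ε hε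
    have ev2 : ∀ᶠ n in (U : Filter ℕ), ∀ j ∈ range J, ∀ k ∈ (G n).Z,
        ((((G n).Z.filter fun k' =>
          |(G n).z k' - (G n).z k| ≤ B.d n ^ max (x - sc x J (j + 1) - ε) 0).card : ℝ))
          ≤ B.d n ^ (σ * max (x - sc x J (j + 1) - ε) 0 - ε) * ((G n).Z.card : ℝ) := by
      rw [Filter.eventually_all_finset]
      intro j hj
      have hj' : j + 1 ≤ J := by simpa using hj
      have h1 := H.frost (max (x - sc x J (j + 1) - ε) 0) (le_max_right _ _)
        (max_le (by linarith [sc_nonneg hx.le J (j + 1)]) hR.le) ε hε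
      filter_upwards [h1] with n h1 k hk
      have := h1 k hk
      unfold Cfg.hbox at this
      rw [H.base] at this
      convert this
    filter_upwards [ev1, ev2, H.unif pS hpS ε hε, H.unif pe hpe01 ε hε, slice_card_le H hε,
      H.line ε hε, ev_const_le B hε (2 + 4 * (1 + Ce))] with n h1 h2 h3 h4 h5 h6 h7
    obtain ⟨i0, k0, hik0, hi0, hk0⟩ := FM.exI H n
    have hd := B.pos n
    have hpow : ∀ t : ℝ, 0 < B.d n ^ t := fun t => Real.rpow_pos_of_pos hd t
    set S := (G n).box pS i0 k0 with hS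
    have hSL : ∀ i ∈ S, i ∈ (G n).L := fun i hi => (mem_slice.1 (box_subset_slice hi)).1
    have hSI : ∀ i ∈ S, (i, k0) ∈ (G n).I := fun i hi => (mem_slice.1 (box_subset_slice hi)).2
    have hScard := (h3 i0 k0 hik0).1
    have hSn : S.Nonempty := by
      rw [← Finset.card_pos]
      have : (0 : ℝ) < (S.card : ℝ) := lt_of_lt_of_le (hpow _) hScard
      exact_mod_cast this
    have hZn : (G n).Z.Nonempty := ⟨k0, hk0⟩
    have hSco : ∀ i ∈ S, ∀ i' ∈ S, ∀ j, |(G n).co k0 i' j - (G n).co k0 i j| ≤ 2 * B.d n ^ pS j := by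
      intro i hi i' hi' j
      have a1 := (mem_box.1 hi).2 j
      have a2 := (mem_box.1 hi').2 j
      rw [H.base] at a1 a2
      rw [abs_le] at a1 a2 ⊢
      constructor <;> linarith [a1.1, a1.2, a2.1, a2.2]
    have key := kaufman_abs S (G n).Z (G n).z (fun i k => (i, k) ∈ (G n).I)
      (fun i k => (G n).co k i jF) (fun i => (G n).co k0 i jF) (fun i => (G n).co k0 i jV)
      ((G n).z k0) (B.d n ^ x) (Ce * B.d n ^ x) (3 * B.d n ^ (-ν 0 + ν pe - 2 * ε)) (B.d n ^ ε) J
      (fun j => B.d n ^ sc x J j) (fun j => B.d n ^ (-ν (q j) - 5 * ε))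
      (fun j => B.d n ^ (σ * (x - sc x J (j + 1)) - 2 * ε))
      (hpow _) (mul_nonneg hCe (hpow _).le) (by positivity) (hpow _).le hSn hZn
      (by
        intro k hk
        have a1 := (H.bd n).z k hk
        have a2 := (H.bd n).z k0 hk0
        rw [abs_le] at *
        constructor <;> linarith [a1.1, a1.2, a2.1, a2.2])
      (by
        intro k hk i hi i' hi'
        exact herr n k0 hk0 k hk i (hSL i hi) i' (hSL i' hi') (hSco i hi i' hi'))
      (by
        intro k hk
        have a1 : (((S.filter fun i => (i, k) ∈ (G n).I).image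
            fun i => ⌊(G n).co k i jF / B.d n ^ x⌋).card : ℝ)
            ≤ ((((G n).slice k).image fun i => ⌊(G n).co k i jF / B.d n ^ x⌋).card : ℝ) := by
          have : ((S.filter fun i => (i, k) ∈ (G n).I).image
            fun i => ⌊(G n).co k i jF / B.d n ^ x⌋) ⊆
            (((G n).slice k).image fun i => ⌊(G n).co k i jF / B.d n ^ x⌋) := by
            apply Finset.image_subset_image
            intro i hi
            obtain ⟨b1, b2⟩ := Finset.mem_filter.1 hi
            exact mem_slice.2 ⟨hSL i b1, b2⟩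
          exact_mod_cast Finset.card_le_card this
        have a2 := cells_le ((G n).slice k) (fun i => (G n).co k i jF) (B.d n ^ x)
          (B.d n ^ (-ν pe + ε)) (hpow _) (by
            intro i hi
            refine (h4 i k (mem_slice.1 hi).2).1.trans ?_
            have : (G n).box pe i k ⊆ ((G n).slice k).filter fun i' =>
                |(G n).co k i' jF - (G n).co k i jF| ≤ B.d n ^ x := by
              intro i' hi'
              rw [mem_box] at hi'
              rw [Finset.mem_filter]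
              refine ⟨hi'.1, ?_⟩
              have := hi'.2 jF
              rw [H.base] at this
              simpa [hpe] using this
            exact_mod_cast Finset.card_le_card this)
        refine a1.trans ?_
        have a3 : (B.d n ^ (-ν pe + ε)) * ((((G n).slice k).image
            fun i => ⌊(G n).co k i jF / B.d n ^ x⌋).card : ℝ)
            ≤ (B.d n ^ (-ν pe + ε)) * (3 * B.d n ^ (-ν 0 + ν pe - 2 * ε)) := by
          calc _ = ((((G n).slice k).image
            fun i => ⌊(G n).co k i jF / B.d n ^ x⌋).card : ℝ) * (B.d n ^ (-ν pe + ε)) := mul_comm _ _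
            _ ≤ 3 * (((G n).slice k).card : ℝ) := a2
            _ ≤ 3 * B.d n ^ (-ν 0 - ε) := by linarith [h5 k hk]
            _ = 3 * (B.d n ^ (-ν pe + ε) * B.d n ^ (-ν 0 + ν pe - 2 * ε)) := by
                rw [← rpow_add']; congr 2; ring
            _ = _ := by ring
        exact le_of_mul_le_mul_left a3 (hpow _))
      (by
        calc B.d n ^ ε * ((S.card : ℝ) * (G n).Z.card)
            = ∑ i ∈ S, B.d n ^ ε * ((G n).Z.card : ℝ) := by
              rw [Finset.sum_const, nsmul_eq_mul]; ring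
          _ ≤ _ := by
              refine Finset.sum_le_sum fun i hi => ?_
              exact h6 i (hSL i hi))
      (fun j => hpow _)
      (by
        intro i hi i' hi'
        simp only [sc_zero, Real.rpow_zero]
        exact Bd.co_sub_le (H.bd n) (hSL i' hi') (hSL i hi) hk0 jV)
      (fun j => (hpow _).le) (fun j => (hpow _).le)
      (by
        intro j hj i hi
        have b1 := (h1 j (by simpa [Nat.lt_succ_iff] using hj) i k0 (hSI i hi)).2
        have b2 : (S.filter fun i' => |(G n).co k0 i' jV - (G n).co k0 i jV| ≤ B.d n ^ sc x J j ∧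
            |(G n).co k0 i' jF - (G n).co k0 i jF| ≤ B.d n ^ x + Ce * B.d n ^ x
              + 2 * B.d n ^ sc x J j) ⊆ (G n).box (qe j) i k0 := by
          intro i' hi'
          obtain ⟨c1, c2, c3⟩ := Finset.mem_filter.1 hi'
          rw [mem_box]
          refine ⟨box_subset_slice c1, fun c => ?_⟩
          rw [H.base]
          have c4 := Bd.co_sub_le (H.bd n) (hSL i hi) (hSL i' c1) hk0 c
          -- a uniform bound by (2 + 4 (1 + Ce)) * d ^ q
          have c5 : |(G n).co k0 i' c - (G n).co k0 i c| ≤ (2 + 4 * (1 + Ce)) * B.d n ^ q j c := by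
            by_cases hc : c = jF ∨ c = jV
            · have e1 : q j c = sc x J j := by simp only [hq, pp]; rw [if_pos hc]
              rw [e1]
              have e2 : B.d n ^ x ≤ B.d n ^ sc x J j := rpow_anti B n (sc_le hx.le hJ hj)
              have e3 := hpow (sc x J j)
              rcases hc with rfl | rfl
              · refine c3.trans ?_
                nlinarith
              · refine c2.trans ?_
                nlinarith
            · have e1 : q j c = pS c := by simp only [hq, pp]; rw [if_neg hc]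
              rw [e1]
              refine (hSco i hi i' c1 c).trans ?_
              have e3 := hpow (pS c)
              nlinarith
          have c6 : |(G n).co k0 i' c - (G n).co k0 i c| ≤ B.d n ^ (q j c - ε) := by
            refine c5.trans ?_
            rw [sub_eq_add_neg, rpow_add', mul_comm]
            exact mul_le_mul_of_nonneg_left h7 (hpow _).le
          simp only [hqe]
          rcases le_total (q j c - ε) 0 with hle | hle
          · rw [max_eq_right hle, Real.rpow_zero]; exact c4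
          · rw [max_eq_left hle]; exact c6
        calc _ ≤ (((G n).box (qe j) i k0).card : ℝ) := by exact_mod_cast Finset.card_le_card b2
          _ ≤ B.d n ^ (-ν (qe j) - ε) := b1
          _ ≤ B.d n ^ (-ν (q j) - 5 * ε) := rpow_anti B n (by linarith [hνq j hj]))
      (by
        intro j hj k hk
        have b1 := h2 j (Finset.mem_range.2 hj) k hk
        set y := x - sc x J (j + 1) with hy
        have hy0 : 0 ≤ y := by
          have := sc_le hx.le hJ (Nat.succ_le_of_lt hj)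
          simp only [hy]; linarith
        have b2 : 2 * (B.d n ^ x + Ce * B.d n ^ x) / B.d n ^ sc x J (j + 1)
            ≤ B.d n ^ (y - ε) := by
          have : 2 * (B.d n ^ x + Ce * B.d n ^ x) / B.d n ^ sc x J (j + 1)
              = (2 * (1 + Ce)) * B.d n ^ y := by
            rw [hy, Real.rpow_sub hd]; ring
          rw [this, sub_eq_add_neg, rpow_add', mul_comm]
          refine mul_le_mul_of_nonneg_left (le_trans ?_ h7) (hpow _).le
          linarith
        rcases le_total (y - ε) 0 with hle | hle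
        · have b3 : (((G n).Z.filter fun k' => |(G n).z k' - (G n).z k| ≤
              2 * (B.d n ^ x + Ce * B.d n ^ x) / B.d n ^ sc x J (j + 1)).card : ℝ)
              ≤ (G n).Z.card := by
            exact_mod_cast Finset.card_le_card (Finset.filter_subset _ _)
          refine b3.trans ?_
          have b4 : (1 : ℝ) ≤ B.d n ^ (σ * y - 2 * ε) :=
            Real.one_le_rpow_of_pos_of_le_one_of_nonpos hd (B.lt n).le (by nlinarith)
          nlinarith [(Nat.cast_nonneg (G n).Z.card : (0:ℝ) ≤ _)]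
        · rw [max_eq_left hle] at b1
          calc _ ≤ (((G n).Z.filter fun k' => |(G n).z k' - (G n).z k| ≤
              B.d n ^ (y - ε)).card : ℝ) := by
                have : (G n).Z.filter (fun k' => |(G n).z k' - (G n).z k| ≤
                  2 * (B.d n ^ x + Ce * B.d n ^ x) / B.d n ^ sc x J (j + 1)) ⊆
                  (G n).Z.filter (fun k' => |(G n).z k' - (G n).z k| ≤ B.d n ^ (y - ε)) := by
                  intro k' hk'
                  rw [Finset.mem_filter] at hk' ⊢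
                  exact ⟨hk'.1, hk'.2.trans b2⟩
                exact_mod_cast Finset.card_le_card this
            _ ≤ _ := b1
            _ ≤ _ := by
                refine mul_le_mul_of_nonneg_right (rpow_anti B n ?_) (Nat.cast_nonneg _)
                nlinarith)
      (by
        apply Real.one_le_rpow_of_pos_of_le_one_of_nonpos hd (B.lt n).le
        rw [sc_succ x hJ, sc_top x hJ]
        have : 0 ≤ σ * (x / J) := by positivity
        nlinarith)
    -- conclusion
    have k1 : B.d n ^ (-ν pS + 3 * ε) ≤ (B.d n ^ ε) ^ 2 * (S.card : ℝ) := by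
      have : B.d n ^ (-ν pS + 3 * ε) = (B.d n ^ ε) ^ 2 * B.d n ^ (-ν pS + ε) := by
        rw [sq, ← rpow_add', ← rpow_add']; congr 1; ring
      rw [this]
      exact mul_le_mul_of_nonneg_left hScard (by positivity)
    calc B.d n ^ (-ν pS + 9 * ε) ≤ B.d n ^ (-ν pS + 3 * ε) := rpow_anti B n (by linarith)
      _ ≤ _ := k1
      _ ≤ _ := key
      _ = _ := by
          rw [mul_assoc, Finset.mul_sum]
          congr 1
          refine Finset.sum_congr rfl fun j _ => ?_
          rw [← rpow_add', ← rpow_add']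
          congr 1
          ring)
  refine ⟨j, hj, ?_⟩
  linarith

theorem pp_N (x t : ℝ) : pp ![0, 0, x, x] 0 1 t = ![t, t, x, x] := by
  funext c
  fin_cases c <;> simp [pp]

theorem pp_X (t : ℝ) : pp 0 3 2 t = ![0, 0, t, t] := by
  funext c
  fin_cases c <;> simp [pp]

theorem single_N (x : ℝ) : (Pi.single (0 : Fin 4) x : Fin 4 → ℝ) = ![x, 0, 0, 0] := by
  funext c
  fin_cases c <;> simp

theorem single_X (x : ℝ) : (Pi.single (3 : Fin 4) x : Fin 4 → ℝ) = ![0, 0, 0, x] := by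
  funext c
  fin_cases c <;> simp

/-- **(K)** Kaufman for (normal position, normal velocity) in the fibre `|dC|, |dX| ≤ ρ^x` -/
theorem kauf_N (H : FModel B G σ R ν) {x : ℝ} (hx : 0 < x) (hxR : x ≤ R) {J : ℕ} (hJ : 0 < J) :
    ∃ j ≤ J, ν ![0, 0, x, x] - ν ![sc x J j, sc x J j, x, x] + σ * (x - sc x J (j + 1))
      ≤ ν 0 - ν ![x, 0, 0, 0] := by
  have h := kauf_gen H hx hxR hJ ![0, 0, x, x] (by
      intro j
      fin_cases j <;> simp [hx.le, hxR, H.R_pos.le]) 0 1 (by simp) (by simp) 12 (by norm_num) (by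
      intro n k0 hk0 k hk i hi i' hi' hco
      have hd := B.pos n
      have hpow : 0 < B.d n ^ x := Real.rpow_pos_of_pos hd x
      have c2 : |(G n).c i' - (G n).c i| ≤ 2 * B.d n ^ x := by simpa [Cfg.co] using hco 2
      have c3 : |(G n).X i' k0 - (G n).X i k0| ≤ 2 * B.d n ^ x := by
        simpa [Cfg.co] using hco 3
      have e : (G n).co k i 0 - (G n).co k i' 0 - (((G n).co k0 i 0 - (G n).co k0 i' 0)
        + ((G n).z k - (G n).z k0) * ((G n).co k0 i 1 - (G n).co k0 i' 1))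
        = ((G n).f k - (G n).f k0) * ((G n).X i' k0 - (G n).X i k0)
          + ((G n).z k - (G n).z k0) * ((G n).f k - (G n).f k0) * ((G n).c i' - (G n).c i) := by
        simp only [Cfg.co, Matrix.cons_val_zero, Matrix.cons_val_one]
        rw [Cfg.N_change (G n) i k0 k, Cfg.N_change (G n) i' k0 k]
        ring
      rw [e]
      have f1 : |(G n).f k - (G n).f k0| ≤ 2 := by
        have a1 := (H.bd n).f k hk
        have a2 := (H.bd n).f k0 hk0
        rw [abs_le] at *
        constructor <;> linarith [a1.1, a1.2, a2.1, a2.2]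
      have f2 : |(G n).z k - (G n).z k0| ≤ 2 := by
        have a1 := (H.bd n).z k hk
        have a2 := (H.bd n).z k0 hk0
        rw [abs_le] at *
        constructor <;> linarith [a1.1, a1.2, a2.1, a2.2]
      refine (abs_add_le _ _).trans ?_
      rw [abs_mul, abs_mul, abs_mul]
      have g1 : |(G n).f k - (G n).f k0| * |(G n).X i' k0 - (G n).X i k0| ≤ 2 * (2 * B.d n ^ x) :=
        mul_le_mul f1 c3 (abs_nonneg _) (by norm_num)
      have g2 : |(G n).z k - (G n).z k0| * |(G n).f k - (G n).f k0| ≤ 2 * 2 :=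
        mul_le_mul f2 f1 (abs_nonneg _) (by norm_num)
      have g3 : |(G n).z k - (G n).z k0| * |(G n).f k - (G n).f k0| * |(G n).c i' - (G n).c i|
          ≤ 2 * 2 * (2 * B.d n ^ x) := mul_le_mul g2 c2 (abs_nonneg _) (by norm_num)
      linarith)
  simpa only [pp_N, single_N] using h

/-- **(F)** Kaufman for (lateral position, lateral velocity) -/
theorem kauf_X (H : FModel B G σ R ν) {x : ℝ} (hx : 0 < x) (hxR : x ≤ R) {J : ℕ} (hJ : 0 < J) :
    ∃ j ≤ J, ν 0 - ν ![0, 0, sc x J j, sc x J j] + σ * (x - sc x J (j + 1))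
      ≤ ν 0 - ν ![0, 0, 0, x] := by
  have h := kauf_gen H hx hxR hJ 0 (by
      intro j
      simp [H.R_pos.le]) 3 2 (by simp) (by simp) 0 (by norm_num) (by
      intro n k0 hk0 k hk i hi i' hi' hco
      have e : (G n).co k i 3 - (G n).co k i' 3 - (((G n).co k0 i 3 - (G n).co k0 i' 3)
        + ((G n).z k - (G n).z k0) * ((G n).co k0 i 2 - (G n).co k0 i' 2)) = 0 := by
        have e3 : ∀ k i, (G n).co k i 3 = (G n).X i k := fun k i => by simp [Cfg.co]
        have e2 : ∀ k i, (G n).co k i 2 = (G n).c i := fun k i => by simp [Cfg.co]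
        rw [e3, e3, e3, e3, e2, e2, Cfg.X_change (G n) i k0 k, Cfg.X_change (G n) i' k0 k]
        ring
      rw [e]
      simp)
  simpa only [pp_X, single_X] using h

/-! ### exact forms (compactness) -/








/-! ### the decoupled case -/

/-- a linear function on `[0, x]` -/
theorem min_le_of_sc {A σ α x : ℝ} (hx : 0 < x) (hσ : 0 ≤ σ)
    (h : ∀ J : ℕ, 0 < J → ∃ j ≤ J, A * sc x J j + σ * (x - sc x J (j + 1)) ≤ α * x) :
    min σ A ≤ α := by
  by_contra hcon
  push Not at hcon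
  obtain ⟨J, hJ⟩ := exists_nat_gt (σ / (min σ A - α))
  have hgap : 0 < min σ A - α := by linarith
  have hJpos : 0 < J := by
    have : 0 ≤ σ / (min σ A - α) := by positivity
    have h2 : (0 : ℝ) < J := lt_of_le_of_lt this hJ
    exact_mod_cast h2
  have hJr : (0 : ℝ) < J := by exact_mod_cast hJpos
  obtain ⟨j, hj, h1⟩ := h J hJpos
  rw [sc_succ x hJpos] at h1
  have h2 : 0 ≤ sc x J j := sc_nonneg hx.le J j
  have h3 : sc x J j ≤ x := sc_le hx.le hJpos hj
  have h4 : min σ A * x ≤ A * sc x J j + σ * (x - sc x J j) := by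
    have a1 : min σ A * sc x J j ≤ A * sc x J j := mul_le_mul_of_nonneg_right (min_le_right _ _) h2
    have a2 : min σ A * (x - sc x J j) ≤ σ * (x - sc x J j) :=
      mul_le_mul_of_nonneg_right (min_le_left _ _) (by linarith)
    nlinarith
  have h5 : (min σ A - α) * x ≤ σ * (x / J) := by nlinarith
  rw [div_lt_iff₀ hgap] at hJ
  have h6 : σ * (x / J) < (min σ A - α) * x := by
    rw [mul_div_assoc', div_lt_iff₀ hJr]
    nlinarith
  linarith

theorem rate_y (H : FModel B G σ R ν) {a q m y : ℝ} (hdec : Decoupled ν R a q m y)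
    (hm : 0 < m) : σ ≤ y := by
  have hR := H.R_pos
  have h : min σ (m + y) ≤ y := by
    refine min_le_of_sc (x := R) hR H.σ_nonneg fun J hJ => ?_
    obtain ⟨j, hj, h⟩ := kauf_X H hR le_rfl hJ
    refine ⟨j, hj, ?_⟩
    have h1 : 0 ≤ sc R J j := sc_nonneg hR.le J j
    have h2 : sc R J j ≤ R := sc_le hR.le hJ hj
    rw [hdec ![0, 0, sc R J j, sc R J j] (by intro c; fin_cases c <;> simp [h1, h2, hR.le]),
      hdec ![0, 0, 0, R] (by intro c; fin_cases c <;> simp [hR.le])] at h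
    simp at h
    linarith
  rcases min_le_iff.1 h with h | h
  · exact h
  · linarith

/-- **(K)** decoupled, no `DMax` -/
theorem rate_a_min (H : FModel B G σ R ν) {a q m y : ℝ} (hdec : Decoupled ν R a q m y) :
    min σ (a + q) ≤ a := by
  have hR := H.R_pos
  refine min_le_of_sc (x := R) hR H.σ_nonneg fun J hJ => ?_
  obtain ⟨j, hj, h⟩ := kauf_N H hR le_rfl hJ
  refine ⟨j, hj, ?_⟩
  have h1 : 0 ≤ sc R J j := sc_nonneg hR.le J j
  have h2 : sc R J j ≤ R := sc_le hR.le hJ hj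
  rw [hdec ![sc R J j, sc R J j, R, R] (by intro c; fin_cases c <;> simp [h1, h2, hR.le]),
    hdec ![0, 0, R, R] (by intro c; fin_cases c <;> simp [hR.le]),
    hdec ![R, 0, 0, 0] (by intro c; fin_cases c <;> simp [hR.le])] at h
  simp at h
  linarith




end Crest.Agent.R138.Tw829
end

-- ▼ part R138/FalFM_658
section

/-!
R138 (helper658): planar Falconer inequality in the literal F-model (helper501's `FM_501`).
-/

set_option autoImplicit false
set_option linter.unusedVariables false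

namespace Crest.Agent.R138.Fal658

open Real Finset Filter Topology Crest.Agent.R138.Ex926 Crest.Agent.R138.FM501

/-! ### one configuration -/

section one

variable (G : Cfg)

/-- the lines of `L` in the `(a, c)`-square of radius `r` around `i` -/
noncomputable def sqL (r : ℝ) (i : ℕ) : Finset ℕ := by
  classical exact G.L.filter fun j => |G.a j - G.a i| ≤ r ∧ |G.c j - G.c i| ≤ r

theorem mB_eq (r : ℝ) (i : ℕ) : mB G.L (fun _ => (1 : ℝ)) G.a G.c r i = ((sqL G r i).card : ℝ) := by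
  classical
  unfold mB sqL
  rw [Finset.sum_const, nsmul_eq_mul, mul_one]

theorem mI_eq (r x : ℝ) (hr : r = G.ρ ^ x) (k : ℕ) :
    mI G.Z (fun _ => (1 : ℝ)) G.z r k = ((G.hbox x k).card : ℝ) := by
  classical
  unfold mI Cfg.hbox
  rw [Finset.sum_const, nsmul_eq_mul, mul_one, hr]

theorem sum_slice_inter (hsub : G.I ⊆ G.L ×ˢ G.Z) (Q : Finset ℕ) (hQ : Q ⊆ G.L) :
    ∑ k ∈ G.Z, ((G.slice k ∩ Q).card) = ∑ i ∈ Q, (G.hts i).card := by
  classical
  have h1 : ∀ k ∈ G.Z, (G.slice k ∩ Q).card = ∑ i ∈ Q, if (i, k) ∈ G.I then 1 else 0 := by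
    intro k _
    rw [Finset.sum_ite, Finset.sum_const_zero, add_zero, Finset.sum_const, smul_eq_mul, mul_one]
    congr 1
    ext i
    simp only [Cfg.slice, Finset.mem_inter, Finset.mem_filter]
    constructor
    · rintro ⟨⟨_, h⟩, h2⟩; exact ⟨h2, h⟩
    · rintro ⟨h2, h⟩; exact ⟨⟨hQ h2, h⟩, h2⟩
  have h2 : ∀ i ∈ Q, (G.hts i).card = ∑ k ∈ G.Z, if (i, k) ∈ G.I then 1 else 0 := by
    intro i _
    rw [Finset.sum_ite, Finset.sum_const_zero, add_zero, Finset.sum_const, smul_eq_mul, mul_one]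
    congr 1
  rw [Finset.sum_congr rfl h1, Finset.sum_congr rfl h2, Finset.sum_comm]

/-- bounds in one configuration -/
theorem near_of_sq (hb : G.Bd) (hρ : 0 < G.ρ) {y r : ℝ} {k i j : ℕ} (hk : k ∈ G.Z) (hi : i ∈ G.L) (hj : j ∈ G.L)
    (hr : 2 * r ≤ G.ρ ^ y)
    (h1 : |G.a j - G.a i| ≤ r) (h2 : |G.c j - G.c i| ≤ r) : G.near ![0, 0, y, y] k i j := by
  have ai := abs_le.1 (hb.a i hi)
  have aj := abs_le.1 (hb.a j hj)
  have bi := abs_le.1 (hb.b i hi)
  have bj := abs_le.1 (hb.b j hj)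
  have ci := abs_le.1 (hb.c i hi)
  have cj := abs_le.1 (hb.c j hj)
  have di := abs_le.1 (hb.d i hi)
  have dj := abs_le.1 (hb.d j hj)
  have zk := hb.z k hk
  have fk := hb.f k hk
  have hX : |G.X j k - G.X i k| ≤ |G.a j - G.a i| + |G.c j - G.c i| := by
    have e : G.X j k - G.X i k = (G.a j - G.a i) + (G.c j - G.c i) * G.z k := by unfold Cfg.X; ring
    rw [e]
    refine (abs_add_le _ _).trans ?_
    rw [abs_mul]
    have := mul_le_mul_of_nonneg_left zk (abs_nonneg (G.c j - G.c i))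
    linarith
  have hr0 : 0 ≤ r := (abs_nonneg _).trans h1
  have hX1 : |G.X j k - G.X i k| ≤ 1 / 2 := by
    have h3 : |G.a j - G.a i| ≤ 1 / 4 := abs_le.2 ⟨by linarith, by linarith⟩
    have h4 : |G.c j - G.c i| ≤ 1 / 4 := abs_le.2 ⟨by linarith, by linarith⟩
    linarith
  intro l
  fin_cases l
  · simp only [Cfg.co, Matrix.cons_val_zero, Fin.zero_eta, Fin.isValue, Matrix.cons_val_zero, Real.rpow_zero]
    have e : G.N j k - G.N i k = (G.b j - G.b i) + (G.d j - G.d i) * G.z k - G.f k * (G.X j k - G.X i k) := by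
      unfold Cfg.N; ring
    rw [e]
    have h3 : |G.b j - G.b i| ≤ 1 / 4 := abs_le.2 ⟨by linarith, by linarith⟩
    have h4 : |(G.d j - G.d i) * G.z k| ≤ 1 / 4 := by
      rw [abs_mul]
      have h5 : |G.d j - G.d i| ≤ 1 / 4 := abs_le.2 ⟨by linarith, by linarith⟩
      have := mul_le_mul h5 zk (abs_nonneg _) (by norm_num)
      linarith
    have h5 : |G.f k * (G.X j k - G.X i k)| ≤ 1 / 2 := by
      rw [abs_mul]
      have := mul_le_mul fk hX1 (abs_nonneg _) (by norm_num)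
      linarith
    have h6 := abs_sub (G.b j - G.b i + (G.d j - G.d i) * G.z k) (G.f k * (G.X j k - G.X i k))
    have h7 := abs_add_le (G.b j - G.b i) ((G.d j - G.d i) * G.z k)
    linarith
  · simp only [Cfg.co, Fin.mk_one, Fin.isValue, Matrix.cons_val_one, Matrix.cons_val_zero, Real.rpow_zero]
    have e : G.P j k - G.P i k = (G.d j - G.d i) - G.f k * (G.c j - G.c i) := by
      unfold Cfg.P; ring
    rw [e]
    have h3 : |G.d j - G.d i| ≤ 1 / 4 := abs_le.2 ⟨by linarith, by linarith⟩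
    have h4 : |G.f k * (G.c j - G.c i)| ≤ 1 / 4 := by
      rw [abs_mul]
      have h5 : |G.c j - G.c i| ≤ 1 / 4 := abs_le.2 ⟨by linarith, by linarith⟩
      have := mul_le_mul fk h5 (abs_nonneg _) (by norm_num)
      linarith
    have h6 := abs_sub (G.d j - G.d i) (G.f k * (G.c j - G.c i))
    linarith
  · simp [Cfg.co]
    linarith
  · simp [Cfg.co]
    linarith

theorem card_sqL_le (hsub : G.I ⊆ G.L ×ˢ G.Z) (hb : G.Bd) (hρ : 0 < G.ρ) {τ M y r : ℝ}
    (hτ : ∀ i ∈ G.L, τ * (G.Z.card : ℝ) ≤ ((G.hts i).card : ℝ)) (hZ : 0 < (G.Z.card : ℝ)) (hM : 0 ≤ M)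
    (hbox : ∀ i k, (i, k) ∈ G.I → ((G.box ![0, 0, y, y] i k).card : ℝ) ≤ M)
    {i : ℕ} (hr : ∀ j ∈ sqL G r i, ∀ j' ∈ sqL G r i, ∀ k ∈ G.Z, G.near ![0, 0, y, y] k j j') :
    τ * ((sqL G r i).card : ℝ) ≤ M := by
  classical
  set Q := sqL G r i with hQ
  have hQL : Q ⊆ G.L := by
    rw [hQ]; unfold sqL; exact Finset.filter_subset _ _
  have h1 := sum_slice_inter G hsub Q hQL
  have h2 : ∀ k ∈ G.Z, (((G.slice k ∩ Q).card : ℕ) : ℝ) ≤ M := by
    intro k hk
    rcases (G.slice k ∩ Q).eq_empty_or_nonempty with h | ⟨i1, hi1⟩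
    · rw [h]; simpa using hM
    · have hi1' := Finset.mem_inter.1 hi1
      have hI : (i1, k) ∈ G.I := (Finset.mem_filter.1 hi1'.1).2
      refine le_trans ?_ (hbox i1 k hI)
      exact_mod_cast Finset.card_le_card (by
        intro j hj
        have hj' := Finset.mem_inter.1 hj
        exact Finset.mem_filter.2 ⟨hj'.1, hr i1 hi1'.2 j hj'.2 k hk⟩)
  have h3 : ∑ i ∈ Q, τ * (G.Z.card : ℝ) ≤ ∑ i ∈ Q, ((G.hts i).card : ℝ) :=
    Finset.sum_le_sum fun j hj => hτ j (hQL hj)
  have h4 : ∑ k ∈ G.Z, (((G.slice k ∩ Q).card : ℕ) : ℝ) ≤ ∑ k ∈ G.Z, M := Finset.sum_le_sum h2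
  have h5 : ∑ k ∈ G.Z, (((G.slice k ∩ Q).card : ℕ) : ℝ) = ∑ i ∈ Q, ((G.hts i).card : ℝ) := by exact_mod_cast h1
  rw [Finset.sum_const, nsmul_eq_mul] at h3 h4
  rw [h5] at h4
  have h6 := h3.trans h4
  have h7 : (G.Z.card : ℝ) * (τ * (Q.card : ℝ)) ≤ (G.Z.card : ℝ) * M := by linarith
  exact le_of_mul_le_mul_left h7 hZ

/-- all lines are near each other at the trivial scale -/
theorem near_zero (hb : G.Bd) (hρ : 0 < G.ρ) {i j k : ℕ} (hi : i ∈ G.L) (hj : j ∈ G.L) (hk : k ∈ G.Z) :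
    G.near ![0, 0, 0, 0] k i j := by
  have ai := abs_le.1 (hb.a i hi)
  have aj := abs_le.1 (hb.a j hj)
  have ci := abs_le.1 (hb.c i hi)
  have cj := abs_le.1 (hb.c j hj)
  refine near_of_sq G hb hρ (y := 0) (r := 1 / 4) hk hi hj (by norm_num) ?_ ?_
  · exact abs_le.2 ⟨by linarith, by linarith⟩
  · exact abs_le.2 ⟨by linarith, by linarith⟩

theorem mem_sqL {r : ℝ} {i j : ℕ} : j ∈ sqL G r i ↔ j ∈ G.L ∧ |G.a j - G.a i| ≤ r ∧ |G.c j - G.c i| ≤ r := by
  classical
  unfold sqL; simp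

theorem near_in_sq (hb : G.Bd) (hρ : 0 < G.ρ) {y r : ℝ} {i : ℕ} (hr : 4 * r ≤ G.ρ ^ y) :
    ∀ j ∈ sqL G r i, ∀ j' ∈ sqL G r i, ∀ k ∈ G.Z, G.near ![0, 0, y, y] k j j' := by
  intro j hj j' hj' k hk
  rw [mem_sqL] at hj hj'
  refine near_of_sq G hb hρ (r := 2 * r) hk hj.1 hj'.1 (by linarith) ?_ ?_
  · have := abs_sub_le (G.a j') (G.a i) (G.a j)
    rw [abs_sub_comm (G.a i)] at this
    linarith [hj.2.1, hj'.2.1]
  · have := abs_sub_le (G.c j') (G.c i) (G.c j)
    rw [abs_sub_comm (G.c i)] at this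
    linarith [hj.2.2, hj'.2.2]

/-- lower bound of the energy -/
theorem energy_ge (hsub : G.I ⊆ G.L ×ˢ G.Z) {τ M x : ℝ} (hM : 0 ≤ M)
    (hsl : ∀ k ∈ G.Z, τ * (G.L.card : ℝ) ≤ ((G.slice k).card : ℝ))
    (hbox : ∀ i k, (i, k) ∈ G.I → M ≤ ((G.box ![0, 0, 0, x] i k).card : ℝ)) :
    (G.Z.card : ℝ) * (τ * (G.L.card : ℝ) * M) ≤
      ∑ k ∈ G.Z, (1 : ℝ) * ∑ i ∈ G.L, ∑ j ∈ G.L with |(G.a i - G.a j) + G.z k * (G.c i - G.c j)| ≤ G.ρ ^ x, (1 : ℝ) * 1 := by
  classical
  rw [← nsmul_eq_mul, ← Finset.sum_const]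
  refine Finset.sum_le_sum fun k hk => ?_
  have h1 : ∑ i ∈ G.slice k, M ≤ ∑ i ∈ G.slice k, ((G.box ![0, 0, 0, x] i k).card : ℝ) :=
    Finset.sum_le_sum fun i hi => hbox i k (Finset.mem_filter.1 hi).2
  rw [Finset.sum_const, nsmul_eq_mul] at h1
  have h2 : τ * (G.L.card : ℝ) * M ≤ ((G.slice k).card : ℝ) * M := mul_le_mul_of_nonneg_right (hsl k hk) hM
  refine h2.trans (h1.trans ?_)
  rw [one_mul]
  have h3 : ∑ i ∈ G.slice k, ((G.box ![0, 0, 0, x] i k).card : ℝ)
      ≤ ∑ i ∈ G.slice k, ∑ j ∈ G.L with |(G.a i - G.a j) + G.z k * (G.c i - G.c j)| ≤ G.ρ ^ x, (1 : ℝ) * 1 := by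
    refine Finset.sum_le_sum fun i _ => ?_
    rw [Finset.sum_const, nsmul_eq_mul, mul_one, mul_one]
    exact_mod_cast Finset.card_le_card (by
      intro j hj
      have hj' := Finset.mem_filter.1 hj
      refine Finset.mem_filter.2 ⟨(Finset.mem_filter.1 hj'.1).1, ?_⟩
      have h4 := hj'.2 3
      simp only [Cfg.co] at h4
      have e : (G.a i - G.a j) + G.z k * (G.c i - G.c j) = -(G.X j k - G.X i k) := by unfold Cfg.X; ring
      rw [e, abs_neg]
      simpa using h4)
  refine h3.trans ?_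
  refine Finset.sum_le_sum_of_subset_of_nonneg (Finset.filter_subset _ _) ?_
  intro i _ _
  exact Finset.sum_nonneg fun _ _ => by norm_num

end one

/-! ### the F-model -/

/-- `C (1 + L) d^a < 1` eventually (`a > 0`) -/
theorem ev_small (B : Base) {C a : ℝ} (hC : 0 < C) (ha : 0 < a) :
    ∀ᶠ n in (U : Filter ℕ), C * (1 + B.L n) * B.d n ^ a < 1 := by
  have h1 : B.PB (fun n => C * (1 + B.L n) * B.d n ^ a) :=
    ((Base.PB.const hC).mul Base.Sub.one_add_L.1).mul (Base.PB.dpow a)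
  have h2 : B.ex (fun n => C * (1 + B.L n) * B.d n ^ a) = -a := by
    rw [Base.ex_mul ((Base.PB.const hC).mul Base.Sub.one_add_L.1) (Base.PB.dpow a),
      Base.ex_mul (Base.PB.const hC) Base.Sub.one_add_L.1, Base.ex_const, Base.Sub.one_add_L.2, Base.ex_dpow]
    ring
  have h3 := Base.ex_lt_iff_dpow h1 (a := 0) (by rw [h2]; linarith)
  filter_upwards [h3] with n hn
  simpa using hn

set_option maxHeartbeats 1000000 in
/-- **Falconer in the F-model**, general counting function. -/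
theorem falconer_FM {B : Base} {G : ℕ → Cfg} {σ R : ℝ} {ν : (Fin 4 → ℝ) → ℝ} (hF : FModel B G σ R ν)
    {x : ℝ} (hx0 : 0 ≤ x) (hxR : x ≤ R) {η : ℝ} (hη : 0 < η) :
    ∃ x', 0 ≤ x' ∧ x' ≤ x ∧
      (ν 0 - ν ![0, 0, x', x']) - (1 - σ) * x' + (x - x') ≤ ν 0 - ν ![0, 0, 0, x] + η := by
  classical
  rcases hx0.eq_or_lt with rfl | hx
  · exact ⟨0, le_rfl, le_rfl, by linarith⟩
  by_contra hcon
  push Not at hcon
  -- net
  obtain ⟨J, hJ⟩ := exists_nat_gt (32 * x / η)
  have hJ0 : (0 : ℝ) < J := lt_of_le_of_lt (by positivity) hJ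
  set h : ℝ := x / J with hh
  have hh0 : 0 < h := div_pos hx hJ0
  have hhη : 4 * h ≤ η / 8 := by
    rw [div_lt_iff₀ hη] at hJ
    rw [hh, ← sub_nonneg]
    have : η / 8 - 4 * (x / J) = (J * η - 32 * x) / (8 * J) := by field_simp; ring
    rw [this]
    exact div_nonneg (by linarith) (by positivity)
  have hJh : (J : ℝ) * h = x := by rw [hh]; field_simp
  set ε : ℝ := η / 40 with hε
  have hε0 : 0 < ε := by positivity
  set y : ℕ → ℝ := fun j => ((j - 1 : ℕ) : ℝ) * h with hy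
  have hy0 : ∀ j, 0 ≤ y j := fun j => by positivity
  have hyx : ∀ j ≤ J, y j ≤ x := by
    intro j hj
    rw [← hJh]
    refine mul_le_mul_of_nonneg_right ?_ hh0.le
    exact_mod_cast (by omega : j - 1 ≤ J)
  have hyR : ∀ j ≤ J, y j ≤ R := fun j hj => (hyx j hj).trans hxR
  have hjh : ∀ j ≤ J, (j : ℝ) * h ≤ x := by
    intro j hj
    rw [← hJh]
    exact mul_le_mul_of_nonneg_right (by exact_mod_cast hj) hh0.le
  have E1 : ∀ᶠ n in (U : Filter ℕ), ∀ j ∈ Finset.range (J + 1), ∀ i k, (i, k) ∈ (G n).I →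
      (((G n).box ![0, 0, y j, y j] i k).card : ℝ) ≤ B.d n ^ (-ν ![0, 0, y j, y j] - ε) := by
    rw [Filter.eventually_all_finset]
    intro j hj
    have hj' : j ≤ J := by have := Finset.mem_range.1 hj; omega
    have := hF.unif ![0, 0, y j, y j] (by
      intro l
      fin_cases l
      · exact ⟨le_rfl, hF.R_pos.le⟩
      · exact ⟨le_rfl, hF.R_pos.le⟩
      · exact ⟨hy0 j, hyR j hj'⟩
      · exact ⟨hy0 j, hyR j hj'⟩) ε hε0
    exact this.mono fun n hn i k hik => (hn i k hik).2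
  have E2 : ∀ᶠ n in (U : Filter ℕ), ∀ j ∈ Finset.range (J + 1), ∀ k ∈ (G n).Z,
      (((G n).hbox ((j : ℝ) * h) k).card : ℝ) ≤ B.d n ^ (σ * ((j : ℝ) * h) - ε) * ((G n).Z.card : ℝ) := by
    rw [Filter.eventually_all_finset]
    intro j hj
    have hj' : j ≤ J := by have := Finset.mem_range.1 hj; omega
    exact hF.frost _ (by positivity) ((hjh j hj').trans hxR) ε hε0
  have E3 := hF.line ε hε0
  have E4 := hF.slice ε hε0
  have E5 := hF.unif ![0, 0, 0, x] (by
      intro l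
      fin_cases l
      · exact ⟨le_rfl, hF.R_pos.le⟩
      · exact ⟨le_rfl, hF.R_pos.le⟩
      · exact ⟨le_rfl, hF.R_pos.le⟩
      · exact ⟨hx.le, hxR⟩) ε hε0
  have E6 : ∀ᶠ n in (U : Filter ℕ), B.d n ^ h ≤ 1 / 4 := by
    have := ev_small B (C := 4) (a := h) (by norm_num) hh0
    filter_upwards [this] with n hn
    have h1 := B.L_pos n
    have h2 : 0 < B.d n ^ h := Real.rpow_pos_of_pos (B.pos n) _
    nlinarith
  have hCF := CF_pos
  have E7 := ev_small B (C := 4 * CF * (1 + x)) (a := η / 2) (by positivity) (by positivity)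
  obtain ⟨n, e1, e2, e3, e4, e5, e6, e7⟩ := (E1.and (E2.and (E3.and (E4.and (E5.and (E6.and E7)))))).exists
  -- the finite argument
  have hρ : (G n).ρ = B.d n := hF.base n
  have hρ0 : 0 < (G n).ρ := by rw [hρ]; exact B.pos n
  have hρ1 : (G n).ρ ≤ 1 := by rw [hρ]; exact (B.lt n).le
  rw [← hρ] at e1 e2 e3 e4 e5 e6 e7
  set ρ := (G n).ρ with hρdef
  obtain ⟨⟨i0, k0⟩, hik0⟩ := hF.nonempty n
  have hik0' := Finset.mem_product.1 (hF.sub n hik0)
  have hZ : 0 < ((G n).Z.card : ℝ) := by exact_mod_cast Finset.card_pos.2 ⟨k0, hik0'.2⟩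
  have hL : 0 < ((G n).L.card : ℝ) := by exact_mod_cast Finset.card_pos.2 ⟨i0, hik0'.1⟩
  set E : ℝ := ρ ^ (-ν ![0, 0, 0, x] + η - x - 3 * ε - 4 * h) * ((G n).Z.card : ℝ) with hE
  have hE0 : 0 ≤ E := by positivity
  have hρx1 : ρ ^ x ≤ 1 := Real.rpow_le_one hρ0.le hρ1 hx.le
  have hmain := falconer_sup (G n).L (fun _ => (1 : ℝ)) (G n).a (G n).c (G n).Z (fun _ => (1 : ℝ)) (G n).z (ρ ^ x) E
    (Real.rpow_pos_of_pos hρ0 _) hρx1 hE0 (fun _ _ => zero_le_one) (fun _ _ => zero_le_one)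
    (fun i hi => ((hF.bd n).c i hi).trans (by norm_num)) (fun k hk => (hF.bd n).z k hk)
    (by
      intro r hr1 hr2 i hi k hk
      have hr0 : 0 < r := lt_of_lt_of_le (Real.rpow_pos_of_pos hρ0 _) hr1
      -- exponent of r
      have hlρ : Real.log ρ < 0 := Real.log_neg hρ0 (by rw [hρ]; exact B.lt n)
      set u : ℝ := Real.log r / Real.log ρ with hu
      have hru : r = ρ ^ u := by
        rw [Real.rpow_def_of_pos hρ0, hu, mul_div_cancel₀ _ hlρ.ne, Real.exp_log hr0]
      have hu0 : 0 ≤ u := div_nonneg_of_nonpos (Real.log_nonpos hr0.le hr2) hlρ.le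
      have hux : u ≤ x := by
        have h1 := Real.log_le_log (Real.rpow_pos_of_pos hρ0 _) hr1
        rw [Real.log_rpow hρ0] at h1
        rw [hu, div_le_iff_of_neg hlρ]
        exact h1
      set j := ⌊u / h⌋₊ with hj
      have hj1 : (j : ℝ) * h ≤ u := by
        have := Nat.floor_le (show 0 ≤ u / h by positivity)
        rwa [← hj, le_div_iff₀ hh0] at this
      have hj2 : u < ((j : ℝ) + 1) * h := by
        have := Nat.lt_floor_add_one (u / h)
        rwa [← hj, div_lt_iff₀ hh0] at this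
      have hjJ : j ≤ J := by
        have h1 : u / h ≤ J := by rw [div_le_iff₀ hh0, hJh]; exact hux
        have h2 := Nat.floor_le_floor h1
        simpa [← hj] using h2
      have hjr : j ∈ Finset.range (J + 1) := Finset.mem_range.2 (by omega)
      have hyj : (y j) + 2 * h ≥ u ∧ y j ≤ (j : ℝ) * h := by
        rcases Nat.eq_zero_or_pos j with h0 | h0
        · rw [h0] at hj2 ⊢
          simp only [hy]
          norm_num at hj2 ⊢
          linarith
        · have e : y j = ((j : ℝ) - 1) * h := by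
            simp only [hy]
            rw [Nat.cast_sub (by omega)]
            norm_num
          rw [e]
          constructor
          · nlinarith
          · nlinarith
      have hnear : ∀ j1 ∈ sqL (G n) r i, ∀ j2 ∈ sqL (G n) r i, ∀ k' ∈ (G n).Z,
          (G n).near ![0, 0, y j, y j] k' j1 j2 := by
        rcases Nat.eq_zero_or_pos j with h0 | h0
        · intro j1 h1 j2 h2 k' hk'
          have : y j = 0 := by rw [h0]; simp [hy]
          rw [this]
          rw [mem_sqL] at h1 h2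
          exact near_zero (G n) (hF.bd n) hρ0 h1.1 h2.1 hk'
        · refine near_in_sq (G n) (hF.bd n) hρ0 ?_
          have e : (j : ℝ) * h = y j + h := by
            simp only [hy]
            rw [Nat.cast_sub (by omega)]
            push_cast
            ring
          have h1 : r ≤ ρ ^ (y j) * ρ ^ h := by
            rw [hru, ← Real.rpow_add hρ0]
            exact Real.rpow_le_rpow_of_exponent_ge hρ0 hρ1 (by linarith)
          have h2 : 0 < ρ ^ (y j) := Real.rpow_pos_of_pos hρ0 _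
          have h3 := mul_le_mul_of_nonneg_left e6 h2.le
          linarith
      have hB := card_sqL_le (G n) (hF.sub n) (hF.bd n) hρ0 (τ := ρ ^ ε)
        (M := ρ ^ (-ν ![0, 0, y j, y j] - ε)) (y := y j) (r := r) (i := i) e3 hZ (by positivity) (e1 j hjr) hnear
      have hB2 : mB (G n).L (fun _ => (1 : ℝ)) (G n).a (G n).c r i ≤ ρ ^ (-ν ![0, 0, y j, y j] - 2 * ε) := by
        rw [mB_eq]
        have h1 : 0 < ρ ^ ε := Real.rpow_pos_of_pos hρ0 _
        have h2 : ρ ^ ε * ρ ^ (-ν ![0, 0, y j, y j] - 2 * ε) = ρ ^ (-ν ![0, 0, y j, y j] - ε) := by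
          rw [← Real.rpow_add hρ0]; congr 1; ring
        rw [← h2] at hB
        exact le_of_mul_le_mul_left hB h1
      have hI2 : mI (G n).Z (fun _ => (1 : ℝ)) (G n).z r k ≤ ρ ^ (σ * ((j : ℝ) * h) - ε) * ((G n).Z.card : ℝ) := by
        refine le_trans ?_ (e2 j hjr k hk)
        rw [← mI_eq (G n) (ρ ^ ((j : ℝ) * h)) ((j : ℝ) * h) rfl k]
        unfold mI
        refine Finset.sum_le_sum_of_subset_of_nonneg ?_ (fun _ _ _ => zero_le_one)
        intro z' hz'
        have hz'' := Finset.mem_filter.1 hz'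
        refine Finset.mem_filter.2 ⟨hz''.1, hz''.2.trans ?_⟩
        rw [hru]
        exact Real.rpow_le_rpow_of_exponent_ge hρ0 hρ1 hj1
      have hI0 : 0 ≤ mI (G n).Z (fun _ => (1 : ℝ)) (G n).z r k := by
        unfold mI
        exact Finset.sum_nonneg fun _ _ => zero_le_one
      have h1 := mul_le_mul hB2 hI2 hI0 (by positivity)
      refine h1.trans ?_
      have h2 : ρ ^ (-ν ![0, 0, y j, y j] - 2 * ε) * (ρ ^ (σ * ((j : ℝ) * h) - ε) * ((G n).Z.card : ℝ))
          = ρ ^ (-ν ![0, 0, y j, y j] - 2 * ε + (σ * ((j : ℝ) * h) - ε)) * ((G n).Z.card : ℝ) := by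
        rw [Real.rpow_add hρ0]; ring
      have h3 : E * r ^ 2 = ρ ^ (-ν ![0, 0, 0, x] + η - x - 3 * ε - 4 * h + 2 * u) * ((G n).Z.card : ℝ) := by
        rw [hE, hru, ← Real.rpow_natCast (ρ ^ u) 2, ← Real.rpow_mul hρ0.le, Real.rpow_add hρ0 _ (2 * u)]
        push_cast
        ring_nf
      rw [h2, h3]
      refine mul_le_mul_of_nonneg_right ?_ hZ.le
      refine Real.rpow_le_rpow_of_exponent_ge hρ0 hρ1 ?_
      have h4 := hcon (y j) (hy0 j) (hyx j hjJ)
      have h5 : σ * y j ≤ σ * ((j : ℝ) * h) := mul_le_mul_of_nonneg_left hyj.2 hF.σ_nonneg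
      nlinarith [hyj.1, hyj.2])
  have hlow := energy_ge (G n) (hF.sub n) (τ := ρ ^ ε) (M := ρ ^ (-ν ![0, 0, 0, x] + ε)) (x := x) (by positivity)
    e4 (fun i k hik => (e5 i k hik).1)
  have h1 := hlow.trans hmain
  have h2 : Real.log (1 / ρ ^ x) = x * B.L n := by
    rw [one_div, Real.log_inv, Real.log_rpow hρ0, hρ]
    unfold Base.L
    ring
  have h3 : (1 : ℝ) + x * B.L n ≤ (1 + x) * (1 + B.L n) := by
    have := B.L_pos n
    nlinarith
  rw [h2, Finset.sum_const, nsmul_eq_mul, mul_one] at h1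
  have h4 : ((G n).Z.card : ℝ) * (ρ ^ ε * ((G n).L.card : ℝ) * ρ ^ (-ν ![0, 0, 0, x] + ε))
      = ((G n).Z.card : ℝ) * ((G n).L.card : ℝ) * ρ ^ (-ν ![0, 0, 0, x] + 2 * ε) := by
    have : ρ ^ (-ν ![0, 0, 0, x] + 2 * ε) = ρ ^ ε * ρ ^ (-ν ![0, 0, 0, x] + ε) := by
      rw [← Real.rpow_add hρ0]; congr 1; ring
    rw [this]; ring
  have h5 : 4 * CF * ρ ^ x * (1 + x * B.L n) * ((G n).L.card : ℝ) * E
      ≤ ((G n).Z.card : ℝ) * ((G n).L.card : ℝ) * ρ ^ (-ν ![0, 0, 0, x] + 2 * ε) *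
        (4 * CF * (1 + x) * (1 + B.L n) * ρ ^ (η - 5 * ε - 4 * h)) := by
    have e : ρ ^ (-ν ![0, 0, 0, x] + 2 * ε) * ρ ^ (η - 5 * ε - 4 * h)
        = ρ ^ x * ρ ^ (-ν ![0, 0, 0, x] + η - x - 3 * ε - 4 * h) := by
      rw [← Real.rpow_add hρ0, ← Real.rpow_add hρ0]; congr 1; ring
    have h6 : 0 ≤ 4 * CF * ((G n).L.card : ℝ) * ((G n).Z.card : ℝ) * (ρ ^ x * ρ ^ (-ν ![0, 0, 0, x] + η - x - 3 * ε - 4 * h)) := by
      positivity
    have h7 := mul_le_mul_of_nonneg_left h3 h6
    rw [hE]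
    refine le_trans (le_of_eq (by ring)) (h7.trans (le_of_eq ?_))
    rw [← e]; ring
  have h6 : (4 * CF * (1 + x) * (1 + B.L n) * ρ ^ (η - 5 * ε - 4 * h)) < 1 := by
    refine lt_of_le_of_lt ?_ e7
    refine mul_le_mul_of_nonneg_left ?_ ?_
    · exact Real.rpow_le_rpow_of_exponent_ge hρ0 hρ1 (by rw [hε]; linarith)
    · have := B.L_pos n
      positivity
  rw [h4] at h1
  have h7 : 0 < ((G n).Z.card : ℝ) * ((G n).L.card : ℝ) * ρ ^ (-ν ![0, 0, 0, x] + 2 * ε) := by positivity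
  have h8 := h1.trans h5
  nlinarith

end Crest.Agent.R138.Fal658
end

-- ▼ part R138/FalFM2_658

/-!
R138 (helper658): consequences of Falconer in the F-model: `m > 1 - σ` forces full lateral positions.
-/

set_option autoImplicit false
set_option linter.unusedVariables false

namespace Crest.Agent.R138.Fal658

open Real Finset Filter Topology Crest.Agent.R138.Ex926 Crest.Agent.R138.FM501


/-- `d^s ≤ C d^t` along `U` (eventually) for a constant `C` forces `t ≤ s` up to `η`. -/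
theorem exp_le_of_ev (B : Base) {C s t η : ℝ} (hC : 0 < C) (hη : 0 < η)
    (h : ∀ᶠ n in (U : Filter ℕ), B.d n ^ s ≤ C * B.d n ^ t) : t ≤ s + η := by
  by_contra hcon
  push Not at hcon
  have h1 := ev_small B (C := C) (a := t - s) hC (by linarith)
  obtain ⟨n, h2, h3⟩ := (h.and h1).exists
  have hd := B.pos n
  have h4 : 0 < B.d n ^ s := Real.rpow_pos_of_pos hd _
  have h5 : B.d n ^ t = B.d n ^ s * B.d n ^ (t - s) := by rw [← Real.rpow_add hd]; congr 1; ring
  rw [h5] at h2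
  have h6 : 1 ≤ C * B.d n ^ (t - s) := by
    have : B.d n ^ s * 1 ≤ B.d n ^ s * (C * B.d n ^ (t - s)) := by linarith
    exact le_of_mul_le_mul_left this h4
  have h7 : 0 < C * B.d n ^ (t - s) := by positivity
  have h8 := B.L_pos n
  nlinarith

/-- monotonicity: a smaller box has a smaller exponent -/
theorem nu_mono {B : Base} {G : ℕ → Cfg} {σ R : ℝ} {ν : (Fin 4 → ℝ) → ℝ} (hF : FModel B G σ R ν)
    {p p' : Fin 4 → ℝ} (hp : ∀ j, 0 ≤ p j ∧ p j ≤ R) (hp' : ∀ j, 0 ≤ p' j ∧ p' j ≤ R) (h : ∀ j, p j ≤ p' j) :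
    ν p' ≤ ν p := by
  classical
  refine le_of_forall_pos_le_add fun η hη => ?_
  have h1 := hF.unif p hp (η / 4) (by positivity)
  have h2 := hF.unif p' hp' (η / 4) (by positivity)
  have h3 : ∀ᶠ n in (U : Filter ℕ), B.d n ^ (-ν p' + η / 4) ≤ 1 * B.d n ^ (-ν p - η / 4) := by
    filter_upwards [h1, h2] with n h1 h2
    obtain ⟨⟨i, k⟩, hik⟩ := hF.nonempty n
    have a1 := (h1 i k hik).2
    have a2 := (h2 i k hik).1
    rw [one_mul]
    refine a2.trans (le_trans ?_ a1)
    exact_mod_cast Finset.card_le_card (by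
      intro j hj
      have hj' := Finset.mem_filter.1 hj
      refine Finset.mem_filter.2 ⟨hj'.1, fun l => (hj'.2 l).trans ?_⟩
      rw [hF.base n]
      exact Real.rpow_le_rpow_of_exponent_ge (B.pos n) (B.lt n).le (h l))
  have h4 := exp_le_of_ev B one_pos (show 0 < η / 4 by positivity) h3
  linarith

/-- number of cells of length `r` meeting `[-1, 1]` -/
theorem card_cells (s : Finset ℕ) (X : ℕ → ℝ) {r : ℝ} (hr : 0 < r) (hr1 : r ≤ 1) (hX : ∀ i ∈ s, |X i| ≤ 1) :
    ((s.image fun i => ⌊X i / r⌋).card : ℝ) ≤ 4 / r := by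
  have h1 : (s.image fun i => ⌊X i / r⌋) ⊆ Finset.Icc (-⌈1 / r⌉) (⌊1 / r⌋) := by
    intro a ha
    obtain ⟨i, hi, rfl⟩ := Finset.mem_image.1 ha
    have hi' := abs_le.1 (hX i hi)
    rw [Finset.mem_Icc]
    constructor
    · rw [Int.le_floor]
      push_cast
      have h2 : -(1 / r) ≤ X i / r := by
        rw [← neg_div]; exact div_le_div_of_nonneg_right hi'.1 hr.le
      have h3 := Int.le_ceil (1 / r)
      linarith
    · exact Int.floor_le_floor (div_le_div_of_nonneg_right hi'.2 hr.le)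
  have h2 := Finset.card_le_card h1
  rw [Int.card_Icc] at h2
  have h3 : (0 : ℤ) ≤ ⌊1 / r⌋ + 1 - -⌈1 / r⌉ := by
    have a1 : 0 ≤ ⌊1 / r⌋ := Int.floor_nonneg.2 (by positivity)
    have a2 : 0 ≤ ⌈1 / r⌉ := Int.ceil_nonneg (by positivity)
    omega
  have h4 : ((s.image fun i => ⌊X i / r⌋).card : ℝ) ≤ ((⌊1 / r⌋ + 1 - -⌈1 / r⌉ : ℤ) : ℝ) := by
    have : ((s.image fun i => ⌊X i / r⌋).card : ℤ) ≤ ⌊1 / r⌋ + 1 - -⌈1 / r⌉ := by
      have := Int.toNat_of_nonneg h3
      omega
    exact_mod_cast this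
  refine h4.trans ?_
  push_cast
  have a1 := Int.floor_le (1 / r)
  have a2 := Int.ceil_lt_add_one (1 / r)
  have a3 : 1 ≤ 1 / r := by rw [le_div_iff₀ hr]; linarith
  have a4 : 4 / r = 4 * (1 / r) := by ring
  rw [a4]
  linarith

/-- pigeonhole: lateral positions are at most full -/
theorem nu_lateral_le {B : Base} {G : ℕ → Cfg} {σ R : ℝ} {ν : (Fin 4 → ℝ) → ℝ} (hF : FModel B G σ R ν)
    {x : ℝ} (hx0 : 0 ≤ x) (hxR : x ≤ R) : ν 0 - ν ![0, 0, 0, x] ≤ x := by
  classical
  refine le_of_forall_pos_le_add fun η hη => ?_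
  have h1 := hF.unif 0 (fun _ => ⟨le_rfl, hF.R_pos.le⟩) (η / 4) (by positivity)
  have h2 := hF.unif ![0, 0, 0, x] (by
      intro l
      fin_cases l
      · exact ⟨le_rfl, hF.R_pos.le⟩
      · exact ⟨le_rfl, hF.R_pos.le⟩
      · exact ⟨le_rfl, hF.R_pos.le⟩
      · exact ⟨hx0, hxR⟩) (η / 4) (by positivity)
  have h3 : ∀ᶠ n in (U : Filter ℕ), B.d n ^ (-ν 0 + η / 4) ≤ 4 * B.d n ^ (-ν ![0, 0, 0, x] - x - η / 4) := by
    filter_upwards [h1, h2] with n h1 h2
    have hρ : (G n).ρ = B.d n := hF.base n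
    have hd := B.pos n
    have hd1 := (B.lt n).le
    obtain ⟨⟨i, k⟩, hik⟩ := hF.nonempty n
    have hik' := Finset.mem_product.1 (hF.sub n hik)
    have hsl : ((G n).box 0 i k) ⊆ (G n).slice k := Finset.filter_subset _ _
    have hpos : 0 < (((G n).slice k).card : ℝ) := by
      have a1 := (h1 i k hik).1
      have a2 : 0 < B.d n ^ (-ν 0 + η / 4) := Real.rpow_pos_of_pos hd _
      have a3 : (((G n).box 0 i k).card : ℝ) ≤ (((G n).slice k).card : ℝ) := by exact_mod_cast Finset.card_le_card hsl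
      linarith
    have hr : 0 < B.d n ^ x := Real.rpow_pos_of_pos hd _
    have hr1 : B.d n ^ x ≤ 1 := Real.rpow_le_one hd.le hd1 hx0
    have hX : ∀ j ∈ (G n).slice k, |(G n).X j k| ≤ 1 := by
      intro j hj
      have hj' := (Finset.mem_filter.1 hj).1
      have a1 := (hF.bd n).a j hj'
      have a2 := (hF.bd n).c j hj'
      have a3 := (hF.bd n).z k hik'.2
      unfold Cfg.X
      refine (abs_add_le _ _).trans ?_
      rw [abs_mul]
      have := mul_le_mul a2 a3 (abs_nonneg _) (by norm_num)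
      linarith
    have hcell := card_cells ((G n).slice k) (fun j => (G n).X j k) hr hr1 hX
    have hcs := sq_le_card_mul_energy ((G n).slice k) ((G n).slice k) (Finset.Subset.refl _) (fun _ => (1 : ℝ))
      (fun _ _ => zero_le_one) (fun j => (G n).X j k) (B.d n ^ x) (fun j => ⌊(G n).X j k / B.d n ^ x⌋) (by
        intro j hj j' hj' h
        have a1 := Int.abs_sub_lt_one_of_floor_eq_floor h
        rw [← sub_div, abs_div, abs_of_pos hr, div_lt_one hr] at a1
        exact a1.le)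
    have hen : ∑ i' ∈ (G n).slice k, ∑ j ∈ (G n).slice k with |(G n).X i' k - (G n).X j k| ≤ B.d n ^ x, (1 : ℝ) * 1
        ≤ (((G n).slice k).card : ℝ) * B.d n ^ (-ν ![0, 0, 0, x] - η / 4) := by
      rw [← nsmul_eq_mul, ← Finset.sum_const]
      refine Finset.sum_le_sum fun i' hi' => ?_
      have hI : (i', k) ∈ (G n).I := (Finset.mem_filter.1 hi').2
      refine le_trans ?_ (h2 i' k hI).2
      rw [Finset.sum_const, nsmul_eq_mul, mul_one, mul_one]
      exact_mod_cast Finset.card_le_card (by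
        intro j hj
        have hj' := Finset.mem_filter.1 hj
        refine Finset.mem_filter.2 ⟨hj'.1, ?_⟩
        have hi'' := (Finset.mem_filter.1 hi').1
        have hj'' := (Finset.mem_filter.1 hj'.1).1
        have hz := near_zero (G n) (hF.bd n) (by rw [hρ]; exact hd) hi'' hj'' hik'.2
        intro l
        fin_cases l
        · exact hz 0
        · exact hz 1
        · exact hz 2
        · simp only [Cfg.co, hρ]
          have := hj'.2
          rw [abs_sub_comm] at this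
          simpa using this)
    rw [Finset.sum_const, nsmul_eq_mul, mul_one] at hcs
    have a1 := (h1 i k hik).1
    have a3 : (((G n).box 0 i k).card : ℝ) ≤ (((G n).slice k).card : ℝ) := by exact_mod_cast Finset.card_le_card hsl
    set S := (((G n).slice k).card : ℝ) with hS
    have a4 : S ^ 2 ≤ (4 / B.d n ^ x) * (S * B.d n ^ (-ν ![0, 0, 0, x] - η / 4)) :=
      hcs.trans (mul_le_mul hcell hen (Finset.sum_nonneg fun _ _ => Finset.sum_nonneg fun _ _ => by norm_num) (by positivity))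
    have a5 : S ≤ 4 * B.d n ^ (-ν ![0, 0, 0, x] - x - η / 4) := by
      have e : B.d n ^ (-ν ![0, 0, 0, x] - x - η / 4) = B.d n ^ (-ν ![0, 0, 0, x] - η / 4) / B.d n ^ x := by
        rw [← Real.rpow_sub hd]; congr 1; ring
      rw [e]
      have : S * S ≤ S * (4 * (B.d n ^ (-ν ![0, 0, 0, x] - η / 4) / B.d n ^ x)) := by
        refine le_trans (le_of_eq (by ring)) (a4.trans (le_of_eq (by field_simp)))
      exact le_of_mul_le_mul_left this hpos
    linarith
  have h4 := exp_le_of_ev B (by norm_num : (0 : ℝ) < 4) (show 0 < η / 4 by positivity) h3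
  linarith

/-- **full lateral positions**: if the in-plane directions have dimension `m > 1 - σ`, then the lateral positions
are full (`b x = x`). -/
theorem full_of_gt {B : Base} {G : ℕ → Cfg} {σ R m : ℝ} {ν : (Fin 4 → ℝ) → ℝ} {b : ℝ → ℝ} (hF : FModel B G σ R ν)
    (hm : 1 - σ < m)
    (hb : ∀ x₁ x₂, 0 ≤ x₁ → x₁ ≤ R → 0 ≤ x₂ → x₂ ≤ R → ν ![0, 0, x₁, x₂] = ν 0 - (m * x₁ + b x₂)) :
    ∀ x, 0 ≤ x → x ≤ R → b x = x := by
  have hR := hF.R_pos
  have hbx : ∀ x, 0 ≤ x → x ≤ R → ν 0 - ν ![0, 0, 0, x] = b x := by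
    intro x h0 h1
    rw [hb 0 x le_rfl hR.le h0 h1]; ring
  have hle : ∀ x, 0 ≤ x → x ≤ R → b x ≤ x := by
    intro x h0 h1
    rw [← hbx x h0 h1]; exact nu_lateral_le hF h0 h1
  have h0le : ∀ x, 0 ≤ x → x ≤ R → 0 ≤ b x := by
    intro x h0 h1
    rw [← hbx x h0 h1]
    have := nu_mono hF (p := 0) (p' := ![0, 0, 0, x]) (fun _ => ⟨le_rfl, hR.le⟩) (by
      intro l
      fin_cases l
      · exact ⟨le_rfl, hR.le⟩
      · exact ⟨le_rfl, hR.le⟩
      · exact ⟨le_rfl, hR.le⟩
      · exact ⟨h0, h1⟩) (by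
      intro l
      fin_cases l
      · exact le_rfl
      · exact le_rfl
      · exact le_rfl
      · exact h0)
    linarith
  set S := sSup ((fun x => x - b x) '' Set.Icc 0 R) with hS
  have hbdd : BddAbove ((fun x => x - b x) '' Set.Icc 0 R) := by
    refine ⟨R, ?_⟩
    rintro _ ⟨x, hx, rfl⟩
    have := h0le x hx.1 hx.2
    simp only
    linarith [hx.2]
  have hne : ((fun x => x - b x) '' Set.Icc 0 R).Nonempty := ⟨_, ⟨0, ⟨le_rfl, hR.le⟩, rfl⟩⟩
  have hS0 : S ≤ 0 := by
    set κ := m - (1 - σ) with hκ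
    have hκ0 : 0 < κ := by rw [hκ]; linarith
    refine le_of_forall_pos_le_add fun η hη => ?_
    rw [zero_add]
    set η' := η / (2 + 2 / κ) with hη'
    have hη'0 : 0 < η' := by positivity
    obtain ⟨_, ⟨x, hx, rfl⟩, hx2⟩ := exists_lt_of_lt_csSup hne (show S - η' < S by linarith)
    simp only at hx2
    obtain ⟨x', h1, h2, h3⟩ := falconer_FM hF hx.1 hx.2 hη'0
    rw [hbx x hx.1 hx.2, hb x' x' h1 (h2.trans hx.2) h1 (h2.trans hx.2)] at h3
    have h4 : x' - b x' ≤ S := le_csSup hbdd ⟨x', ⟨h1, h2.trans hx.2⟩, rfl⟩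
    have h5 := h0le x' h1 (h2.trans hx.2)
    have h6 : κ * x' ≤ 2 * η' := by rw [hκ]; nlinarith
    have h7 : x' ≤ 2 * η' / κ := by rw [le_div_iff₀ hκ0]; linarith
    have h8 : S ≤ 2 * η' / κ + 2 * η' := by
      have : (0 : ℝ) ≤ κ * x' := by positivity
      nlinarith
    have h9 : 2 * η' / κ + 2 * η' = η := by
      rw [hη']; field_simp; ring
    linarith
  intro x h0 h1
  have h2 : x - b x ≤ S := le_csSup hbdd ⟨x, ⟨h0, h1⟩, rfl⟩
  have h3 := hle x h0 h1
  linarith

/-- decoupled form: `1 - σ < m` implies `y = 1` -/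
theorem y_eq_one {B : Base} {G : ℕ → Cfg} {σ R a q m y : ℝ} {ν : (Fin 4 → ℝ) → ℝ} (hF : FModel B G σ R ν)
    (hD : Decoupled ν R a q m y) (hm : 1 - σ < m) : y = 1 := by
  have hR := hF.R_pos
  have h := full_of_gt (b := fun x => y * x) hF hm (by
    intro x₁ x₂ h1 h2 h3 h4
    have := hD ![0, 0, x₁, x₂] (by
      intro l
      fin_cases l
      · exact ⟨le_rfl, hR.le⟩
      · exact ⟨le_rfl, hR.le⟩
      · exact ⟨h1, h2⟩
      · exact ⟨h3, h4⟩)
    rw [this]
    simp
    ) R hR.le le_rfl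
  have h2 : y * R = 1 * R := by rw [one_mul]; exact h
  exact mul_right_cancel₀ hR.ne' h2

/-- half coupled form: `1 - σ < m` implies `β 0 x = x` -/
theorem beta_zero_eq {B : Base} {G : ℕ → Cfg} {σ R a m : ℝ} {β : ℝ → ℝ → ℝ} {ν : (Fin 4 → ℝ) → ℝ}
    (hF : FModel B G σ R ν) (hD : HalfCoupled ν R a m β) (hm : 1 - σ < m) :
    ∀ x, 0 ≤ x → x ≤ R → β 0 x = x := by
  have hR := hF.R_pos
  refine full_of_gt (b := fun x => β 0 x) hF hm ?_
  intro x₁ x₂ h1 h2 h3 h4
  have := hD ![0, 0, x₁, x₂] (by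
      intro l
      fin_cases l
      · exact ⟨le_rfl, hR.le⟩
      · exact ⟨le_rfl, hR.le⟩
      · exact ⟨h1, h2⟩
      · exact ⟨h3, h4⟩)
  rw [this]
  simp

end Crest.Agent.R138.Fal658
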