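import Crest.Agent.R138.TwC_501
import Crest.Agent.R138.PlThin_187

-- ▼ part R138/TwD_501
section

/-!
# R138: F-model, half coupled case: lateral Kaufman (F1), flat and sloped heavy strips (helper501)
-/

set_option autoImplicit false
set_option linter.unusedVariables false
set_option linter.unusedSectionVars false

open Filter Topology Finset

namespace Crest.Agent.R138.TwD501

open Crest.Agent.R138.Ex926 Crest.Agent.R138.FM501 Crest.Agent.R138.TwA501
open Crest.Agent.R138.TwB501 Crest.Agent.R138.TwC501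

variable {B : Base} {G : ℕ → Cfg} {σ R : ℝ} {ν : (Fin 4 → ℝ) → ℝ}

theorem le_of_mesh {v w t c K : ℝ} (h : |v| * w ≤ K * (w * t * c)) (hw : 0 < w) (ht : 0 ≤ t)
    (hc : K * c ≤ 1) : |v| ≤ t := by
  refine le_of_mul_le_mul_right ?_ hw
  calc |v| * w ≤ K * (w * t * c) := h
    _ = (K * c) * (t * w) := by ring
    _ ≤ 1 * (t * w) := mul_le_mul_of_nonneg_right hc (by positivity)
    _ = t * w := one_mul _

/-- the exponent of the number of common heights -/
noncomputable def bb (σ hh ε : ℝ) (J j : ℕ) : ℝ :=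
  if j < J then σ * (((J - 1 - j : ℕ) : ℝ) * hh) - 5 * ε else 0

theorem bb_J (σ hh ε : ℝ) (J : ℕ) : bb σ hh ε J J = 0 := by simp [bb]

theorem bb_lt {σ hh ε : ℝ} {J j : ℕ} (h : j < J) :
    bb σ hh ε J j = σ * (((J - 1 - j : ℕ) : ℝ) * hh) - 5 * ε := by simp [bb, h]

theorem castJ {J j : ℕ} (h : j < J) : ((J - 1 - j : ℕ) : ℝ) = (J : ℝ) - 1 - j := by
  have h1 : J = (J - 1 - j) + 1 + j := by omega
  have h2 : (J : ℝ) = ((J - 1 - j : ℕ) : ℝ) + 1 + j := by exact_mod_cast h1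
  linarith

theorem mesh_mul (B : Base) (n : ℕ) {J j : ℕ} (h : j < J) (hh : ℝ) :
    B.d n ^ (((J : ℝ) + 1) * hh) = B.d n ^ (((j + 1 : ℕ) : ℝ) * hh) *
      B.d n ^ (((J - 1 - j : ℕ) : ℝ) * hh) * B.d n ^ hh := by
  rw [← dpow_add, ← dpow_add, castJ h]
  congr 1
  push_cast
  ring

theorem split_card (B : Base) (n : ℕ) (x ε c : ℝ) :
    B.d n ^ (x - ε) * c = B.d n ^ (x - 2 * ε) * (B.d n ^ ε * c) := by
  have : B.d n ^ (x - ε) = B.d n ^ (x - 2 * ε) * B.d n ^ ε := by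
    rw [← dpow_add]; congr 1; ring
  rw [this, mul_assoc]

theorem final_count (B : Base) (n : ℕ) {x ε Tc Zc Zc' : ℝ} (hz : 0 ≤ Zc')
    (h2 : 2 * B.d n ^ ε ≤ 1) (hcard : B.d n ^ ε * Zc ≤ Zc') (h : Tc ≤ 2 * (B.d n ^ (x - ε) * Zc)) :
    Tc ≤ B.d n ^ (x - 5 * ε + 2 * ε) * Zc' := by
  have e1 : B.d n ^ (x - ε) = B.d n ^ ε * B.d n ^ (x - 3 * ε) * B.d n ^ ε := by
    rw [← dpow_add, ← dpow_add]; congr 1; ring
  have e2 : x - 5 * ε + 2 * ε = x - 3 * ε := by ring
  have e7 := dpow_pos B n (x - 3 * ε)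
  have e8 := dpow_pos B n ε
  have hZ0 : B.d n ^ (x - 3 * ε) * (B.d n ^ ε * Zc) ≤ B.d n ^ (x - 3 * ε) * Zc' :=
    mul_le_mul_of_nonneg_left hcard e7.le
  calc Tc ≤ 2 * (B.d n ^ (x - ε) * Zc) := h
      _ = (2 * B.d n ^ ε) * (B.d n ^ (x - 3 * ε) * (B.d n ^ ε * Zc)) := by rw [e1]; ring
      _ ≤ (2 * B.d n ^ ε) * (B.d n ^ (x - 3 * ε) * Zc') :=
          mul_le_mul_of_nonneg_left hZ0 (by positivity)
      _ ≤ 1 * (B.d n ^ (x - 3 * ε) * Zc') := mul_le_mul_of_nonneg_right h2 (by positivity)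
      _ = _ := by rw [one_mul, e2]

theorem arith_end {a c σ hh ε : ℝ} {J j : ℕ} (hj : j ≤ J) (ha0 : 0 ≤ a) (haσ : a < σ) (hσ1 : σ ≤ 1)
    (hc : 0 < c) (hJ : 16 / min (σ - a) c < (J : ℝ) + 1) (hh0 : 0 < hh) (hε0 : 0 ≤ ε)
    (hε : ε ≤ hh / 20)
    (hcond : (a + c) * ((j : ℝ) * hh) + bb σ hh ε J j ≤ a * (((J : ℝ) + 1) * hh) + 7 * ε) :
    False := by
  set κ := min (σ - a) c with hκ
  have hκ0 : 0 < κ := lt_min (by linarith) hc
  have hκ1 : κ ≤ 1 := (min_le_left _ _).trans (by linarith)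
  have h1 : κ ≤ σ - a := min_le_left _ _
  have h2 : κ ≤ c := min_le_right _ _
  rw [div_lt_iff₀ hκ0] at hJ
  have hj0 : (0 : ℝ) ≤ j := Nat.cast_nonneg _
  rcases lt_or_eq_of_le hj with hlt | rfl
  · rw [bb_lt hlt] at hcond
    have hcast := castJ hlt
    have hx0 : (0 : ℝ) ≤ ((J - 1 - j : ℕ) : ℝ) := Nat.cast_nonneg _
    set x : ℝ := ((J - 1 - j : ℕ) : ℝ) with hx
    have hJ' : (J : ℝ) = x + 1 + j := by linarith
    rw [hJ'] at hJ hcond
    have e1 : (a + c) * ((j : ℝ) * hh) + (σ * (x * hh) - 5 * ε) -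
      (a * ((x + 1 + j + 1) * hh) + 7 * ε) = hh * (c * j + (σ - a) * x - 2 * a) - 12 * ε := by ring
    have e2 : hh * (c * j + (σ - a) * x - 2 * a) ≤ 12 * ε := by linarith
    have e3 : κ * j ≤ c * j := mul_le_mul_of_nonneg_right h2 hj0
    have e4 : κ * x ≤ (σ - a) * x := mul_le_mul_of_nonneg_right h1 hx0
    have e5 : 16 - 2 * κ ≤ κ * j + κ * x := by nlinarith
    have e6 : hh * 12 ≤ hh * (c * j + (σ - a) * x - 2 * a) := by
      refine mul_le_mul_of_nonneg_left ?_ hh0.le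
      linarith
    linarith
  · rw [bb_J] at hcond
    have e1 : hh * (c * j - a) ≤ 7 * ε := by nlinarith
    have e3 : κ * j ≤ c * j := mul_le_mul_of_nonneg_right h2 hj0
    have e6 : hh * 12 ≤ hh * (c * j - a) := by
      refine mul_le_mul_of_nonneg_left ?_ hh0.le
      nlinarith
    linarith

/-! ## lateral Kaufman -/

theorem lat_step {a m : ℝ} {β : ℝ → ℝ → ℝ} (h : FModel B G σ R ν) (hc : HalfCoupled ν R a m β)
    {y : ℝ} (hy : 0 < y) (hyR : y ≤ R) {η : ℝ} (hη : 0 < η) :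
    ∃ x', 0 ≤ x' ∧ x' ≤ y ∧ m * x' + β 0 x' + σ * (y - x') ≤ β 0 y + η := by
  classical
  obtain ⟨J, hJ⟩ : ∃ J : ℕ, 4 * y / η < J := exists_nat_gt _
  have hJ0 : (0 : ℝ) < (J : ℝ) + 1 := by positivity
  set hh : ℝ := y / ((J : ℝ) + 1) with hhh
  have hh0 : 0 < hh := by positivity
  have hyh : ((J : ℝ) + 1) * hh = y := by rw [hhh]; field_simp
  have hh1 : 2 * hh ≤ η / 2 := by
    have h1 : 4 * y < η * J := by
      rw [div_lt_iff₀ hη] at hJ; linarith
    have h2 : 4 * hh * ((J : ℝ) + 1) ≤ η * ((J : ℝ) + 1) := by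
      have : 4 * hh * ((J : ℝ) + 1) = 4 * y := by rw [← hyh]; ring
      rw [this]; nlinarith
    have := le_of_mul_le_mul_right h2 hJ0
    linarith
  set ε : ℝ := η / 40 with hε
  have hε0 : 0 < ε := by positivity
  have hR := h.R_pos
  have z : (0 : ℝ) ≤ 0 ∧ (0 : ℝ) ≤ R := ⟨le_rfl, hR.le⟩
  have hxj : ∀ j ≤ J, (0 : ℝ) ≤ (j : ℝ) * hh ∧ (j : ℝ) * hh ≤ y := by
    intro j hj
    have h1 : (j : ℝ) ≤ J := by exact_mod_cast hj
    refine ⟨by positivity, ?_⟩
    rw [← hyh]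
    nlinarith
  have key := kauf_box h 3 hy.le hyR J (fun j => (j : ℝ) * hh) (bb σ hh ε J) hε0 0
    (fun l => ⟨le_rfl, hR.le⟩) (fun j => ![0, 0, (j : ℝ) * hh, (j : ℝ) * hh])
    (fun j hj => mem4 (p := 0) z z ⟨(hxj j hj).1, (hxj j hj).2.trans hyR⟩
      ⟨(hxj j hj).1, (hxj j hj).2.trans hyR⟩) 1
    (fun n k₀ i i' => max |(G n).X i k₀ - (G n).X i' k₀| |(G n).c i - (G n).c i'|)
    (by simp) (bb_J _ _ _ _) ?_
  · obtain ⟨j, hj, hj2⟩ := key
    have hx := hxj j hj
    refine ⟨(j : ℝ) * hh, hx.1, hx.2, ?_⟩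
    have e1 := hc4 hc z z ⟨hx.1, hx.2.trans hyR⟩ ⟨hx.1, hx.2.trans hyR⟩
    rw [e1, hc_one3 h hc hy.le hyR] at hj2
    rcases lt_or_eq_of_le hj with hlt | rfl
    · rw [bb_lt hlt, castJ hlt] at hj2
      have e2 : σ * (y - (j : ℝ) * hh) = σ * (((J : ℝ) - 1 - j) * hh) + σ * (2 * hh) := by
        rw [← hyh]; ring
      have e3 : σ * (2 * hh) ≤ 1 * (η / 2) := mul_le_mul h.σ_le hh1 (by positivity) (by norm_num)
      rw [e2]
      have e4 : 12 * ε ≤ η / 2 := by rw [hε]; linarith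
      linarith
    · rw [bb_J] at hj2
      have e2 : σ * (y - (j : ℝ) * hh) = σ * hh := by
        rw [← hyh]; ring
      have e3 : σ * hh ≤ 1 * (η / 2) := mul_le_mul h.σ_le (by linarith) (by positivity) (by norm_num)
      rw [e2]
      have e4 : 12 * ε ≤ η / 2 := by rw [hε]; linarith
      linarith
  · have hN : ((J + 1 : ℕ) : ℝ) * hh ≤ R := by push_cast; rw [hyh]; exact hyR
    filter_upwards [frost_mesh h hh0.le hN hε0, ev_const B 64 hh0] with n hn hc64
    have hρ1 : (G n).ρ = B.d n := h.base n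
    refine ⟨(G n).Z, subset_rfl, Z_nonempty h n, fun k₀ hk₀ => ⟨(G n).Z, subset_rfl, ?_, ?_⟩⟩
    · rw [Finset.sdiff_self, card_empty, Nat.cast_zero]
      have := dpow_pos B n (2 * ε)
      positivity
    intro i₀ hi₀
    have hL : ∀ i ∈ (G n).box 0 i₀ k₀, i ∈ (G n).L := fun i hi => slice_sub_L (box_sub_slice hi)
    refine ⟨fun i hi i' hi' => ?_, fun j hj i hi i' hi' hD l => ?_, fun j hj i hi i' hi' hD => ?_⟩
    · exact max_le (abs_co_sub_le (h.bd n) (hL i' hi') (hL i hi) hk₀ 3)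
        (abs_co_sub_le (h.bd n) (hL i' hi') (hL i hi) hk₀ 2)
    · have hD2 := hD
      rw [max_le_iff, abs_sub_comm, abs_sub_comm ((G n).c i)] at hD2
      have hb := abs_co_sub_le (h.bd n) (hL i hi) (hL i' hi') hk₀
      rw [Nat.cast_one, one_mul]
      fin_cases l
      · simpa using hb 0
      · simpa using hb 1
      · exact hD2.2
      · exact hD2.1
    · set w := B.d n ^ (((j + 1 : ℕ) : ℝ) * hh) with hw
      set t := B.d n ^ (((J - 1 - j : ℕ) : ℝ) * hh) with ht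
      have hmul : B.d n ^ y = w * t * B.d n ^ hh := by
        rw [← hyh]; exact mesh_mul B n hj hh
      have hw0 : 0 < w := dpow_pos B n _
      have ht0 : 0 < t := dpow_pos B n _
      have ht1 : t ≤ 1 := dpow_le_one B n (by positivity)
      have hc0 : 0 < B.d n ^ hh := dpow_pos B n _
      have hT := hn (J - 1 - j) (by simp; omega)
        ((G n).Z.filter fun k => |(G n).co k i 3 - (G n).co k i' 3| ≤ (G n).ρ ^ y)
        (filter_subset _ _) ?_
      · refine hT.trans ?_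
        rw [bb_lt hj]
        refine mul_le_mul_of_nonneg_right (dpow_anti B n ?_) (Nat.cast_nonneg _)
        linarith
      · intro k hk k' hk'
        rw [mem_filter, hρ1] at hk hk'
        have e1 : (G n).co k i 3 - (G n).co k i' 3 = ((G n).X i k₀ - (G n).X i' k₀) +
            ((G n).z k - (G n).z k₀) * ((G n).c i - (G n).c i') := by
          change (G n).X i k - (G n).X i' k = _
          rw [(G n).X_change i k₀ k, (G n).X_change i' k₀ k]; ring
        have e2 : (G n).co k' i 3 - (G n).co k' i' 3 = ((G n).X i k₀ - (G n).X i' k₀) +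
            ((G n).z k' - (G n).z k₀) * ((G n).c i - (G n).c i') := by
          change (G n).X i k' - (G n).X i' k' = _
          rw [(G n).X_change i k₀ k', (G n).X_change i' k₀ k']; ring
        have g1 := hk.2; have g2 := hk'.2
        rw [e1] at g1; rw [e2] at g2
        have hu : |(G n).z k' - (G n).z k₀| ≤ 2 := by
          refine (abs_sub _ _).trans ?_
          have := (h.bd n).z k' hk'.1; have := (h.bd n).z k₀ hk₀; linarith
        have g3 := root_lin g2 g1 hu hD (by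
          rw [hmul]
          nlinarith [mul_le_mul_of_nonneg_left ht1 hw0.le, mul_pos hw0 ht0])
        have g4 : ((G n).z k' - (G n).z k₀) - ((G n).z k - (G n).z k₀) =
          (G n).z k' - (G n).z k := by ring
        rw [g4, hmul] at g3
        exact le_of_mesh g3 hw0 ht0.le (by linarith)

/-- **(F1)** `β(0, x) ≥ σ x`. -/
theorem lat_kauf {a m : ℝ} {β : ℝ → ℝ → ℝ} (h : FModel B G σ R ν) (hc : HalfCoupled ν R a m β)
    (hm : 0 < m) : ∀ x, 0 ≤ x → x ≤ R → σ * x ≤ β 0 x := by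
  have hR := h.R_pos
  have hσ := h.σ_nonneg
  -- infimum of `β 0 x - σ x`
  set S : Set ℝ := (fun x => β 0 x - σ * x) '' Set.Icc 0 R with hS
  have hbdd : BddBelow S := by
    refine ⟨-(σ * R), ?_⟩
    rintro _ ⟨x, hx, rfl⟩
    have h1 := hc_beta_nonneg h hc le_rfl hx.1 hR.le hx.2
    have h2 : σ * x ≤ σ * R := mul_le_mul_of_nonneg_left hx.2 hσ
    simp only
    linarith
  have hne : S.Nonempty := ⟨_, 0, ⟨le_rfl, hR.le⟩, rfl⟩
  set i0 := sInf S with hi0
  have hinf : ∀ x, 0 ≤ x → x ≤ R → i0 ≤ β 0 x - σ * x := fun x h0 h1 =>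
    csInf_le hbdd ⟨x, ⟨h0, h1⟩, rfl⟩
  have hi0' : 0 ≤ i0 := by
    by_contra hcon
    push Not at hcon
    -- choose δ
    set δ : ℝ := min (-i0 / 8) (-i0 * m / (8 * (σ + 1))) with hδ
    have hδ0 : 0 < δ := by
      refine lt_min (by linarith) (div_pos (mul_pos (by linarith) hm) (by positivity))
    obtain ⟨v, ⟨y, hy, rfl⟩, hv⟩ := exists_lt_of_csInf_lt hne (show sInf S < i0 + δ by linarith)
    simp only at hv
    rcases hy.1.eq_or_lt with rfl | hy0
    · rw [hc_zero h hc] at hv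
      have := min_le_left (-i0 / 8) (-i0 * m / (8 * (σ + 1)))
      linarith
    obtain ⟨x', hx0, hxy, hx⟩ := lat_step h hc hy0 hy.2 hδ0
    have h1 := hinf x' hx0 (hxy.trans hy.2)
    have h2 : m * x' ≤ 2 * δ := by nlinarith
    have h3 := hc_beta_nonneg h hc le_rfl hx0 hR.le (hxy.trans hy.2)
    -- m x' + g(x') ≤ i0 + 2δ, g(x') ≥ -σ x'
    have h4 : -(σ * x') ≤ i0 + 2 * δ := by nlinarith [mul_nonneg hm.le hx0]
    have h5 : σ * x' * m ≤ 2 * δ * σ := by nlinarith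
    have h6 : δ ≤ -i0 / 8 := min_le_left _ _
    have h7 : δ ≤ -i0 * m / (8 * (σ + 1)) := min_le_right _ _
    rw [le_div_iff₀ (by positivity)] at h7
    -- σ x' ≥ -i0 - 2δ ≥ -3/4 i0
    have h8 : -i0 * (3 / 4) ≤ σ * x' := by linarith
    have h9 : -i0 * (3 / 4) * m ≤ 2 * δ * σ := (mul_le_mul_of_nonneg_right h8 hm.le).trans h5
    nlinarith
  intro x h0 h1
  have := hinf x h0 h1
  linarith

/-! ## flat strips -/

open Classical in
/-- **(H2)** the slope function is not constant up to `ρ^y` on a set of heights of portion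
`ρ^(η y)` -/
theorem no_flat {a m : ℝ} {β : ℝ → ℝ → ℝ} (h : FModel B G σ R ν) (hc : HalfCoupled ν R a m β)
    (ha : a < σ) {c₂ : ℝ} (hc₂ : 0 < c₂) (hβ : ∀ x, 0 ≤ x → x ≤ R → c₂ * x ≤ β x 0) :
    ∃ η₂ : ℝ, 0 < η₂ ∧ ∀ y, 0 < y → y ≤ R → ¬ ∀ᶠ n in (U : Filter ℕ), ∃ Z' ⊆ (G n).Z,
      Z'.Nonempty ∧ B.d n ^ (η₂ * y) * ((G n).Z.card : ℝ) ≤ Z'.card ∧
      ∀ k ∈ Z', ∀ k' ∈ Z', |(G n).f k' - (G n).f k| ≤ B.d n ^ y := by
  have hR := h.R_pos
  have ha0 := (hc_nonneg h hc).1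
  have hσ0 : 0 < σ := ha0.trans_lt ha
  obtain ⟨J, hJ⟩ : ∃ J : ℕ, 16 / min (σ - a) c₂ < J := exists_nat_gt _
  have hJ0 : (0 : ℝ) < (J : ℝ) + 1 := by positivity
  refine ⟨σ / (20 * ((J : ℝ) + 1)), by positivity, fun y hy hyR Hy => ?_⟩
  set hh : ℝ := y / ((J : ℝ) + 1) with hhh
  have hh0 : 0 < hh := by positivity
  have hyh : ((J : ℝ) + 1) * hh = y := by rw [hhh]; field_simp
  have hηy : σ / (20 * ((J : ℝ) + 1)) * y = σ * hh / 20 := by rw [hhh]; field_simp
  rw [hηy] at Hy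
  set ε : ℝ := σ * hh / 20 with hε
  have hε0 : 0 < ε := by positivity
  have hε1 : ε ≤ hh / 20 := by
    rw [hε]
    have : σ * hh ≤ 1 * hh := mul_le_mul_of_nonneg_right h.σ_le hh0.le
    linarith
  have z : (0 : ℝ) ≤ 0 ∧ (0 : ℝ) ≤ R := ⟨le_rfl, hR.le⟩
  have hxj : ∀ j ≤ J, (0 : ℝ) ≤ (j : ℝ) * hh ∧ (j : ℝ) * hh ≤ y := by
    intro j hj
    have h1 : (j : ℝ) ≤ J := by exact_mod_cast hj
    refine ⟨by positivity, ?_⟩
    rw [← hyh]
    nlinarith
  have key := kauf_box h 0 hy.le hyR J (fun j => (j : ℝ) * hh) (bb σ hh ε J) hε0 0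
    (fun l => ⟨le_rfl, hR.le⟩) (fun j => ![(j : ℝ) * hh, (j : ℝ) * hh, 0, 0])
    (fun j hj => mem4 (p := 0) ⟨(hxj j hj).1, (hxj j hj).2.trans hyR⟩
      ⟨(hxj j hj).1, (hxj j hj).2.trans hyR⟩ z z) 1
    (fun n k₀ i i' => max |(G n).N i k₀ - (G n).N i' k₀| |(G n).P i k₀ - (G n).P i' k₀|)
    (by simp) (bb_J _ _ _ _) ?_
  · obtain ⟨j, hj, hj2⟩ := key
    have hx := hxj j hj
    have e1 := hc4 hc ⟨hx.1, hx.2.trans hyR⟩ ⟨hx.1, hx.2.trans hyR⟩ z z
    rw [e1, hc_one0 h hc hy.le hyR] at hj2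
    have e2 := hβ _ hx.1 (hx.2.trans hyR)
    refine arith_end hj ha0 ha h.σ_le hc₂ (by linarith) hh0 hε0.le hε1 ?_
    rw [hyh]
    linarith
  · have hN : ((J + 1 : ℕ) : ℝ) * hh ≤ R := by push_cast; rw [hyh]; exact hyR
    filter_upwards [Hy, frost_mesh h hh0.le hN hε0, ev_const B 64 hh0] with n hZ hn hc64
    obtain ⟨Z', hZ', hne, hcard, hf⟩ := hZ
    have hρ1 : (G n).ρ = B.d n := h.base n
    refine ⟨Z', hZ', hne, fun k₀ hk₀' => ⟨Z', subset_rfl, ?_, ?_⟩⟩
    · rw [Finset.sdiff_self, card_empty, Nat.cast_zero]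
      have := dpow_pos B n (2 * ε)
      positivity
    have hk₀ := hZ' hk₀'
    intro i₀ hi₀
    have hL : ∀ i ∈ (G n).box 0 i₀ k₀, i ∈ (G n).L := fun i hi => slice_sub_L (box_sub_slice hi)
    refine ⟨fun i hi i' hi' => ?_, fun j hj i hi i' hi' hD l => ?_, fun j hj i hi i' hi' hD => ?_⟩
    · exact max_le (abs_co_sub_le (h.bd n) (hL i' hi') (hL i hi) hk₀ 0)
        (abs_co_sub_le (h.bd n) (hL i' hi') (hL i hi) hk₀ 1)
    · have hD2 := hD
      rw [max_le_iff, abs_sub_comm, abs_sub_comm ((G n).P i k₀)] at hD2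
      have hb := abs_co_sub_le (h.bd n) (hL i hi) (hL i' hi') hk₀
      rw [Nat.cast_one, one_mul]
      fin_cases l
      · exact hD2.1
      · exact hD2.2
      · simpa using hb 2
      · simpa using hb 3
    · set w := B.d n ^ (((j + 1 : ℕ) : ℝ) * hh) with hw
      set t := B.d n ^ (((J - 1 - j : ℕ) : ℝ) * hh) with ht
      have hmul : B.d n ^ y = w * t * B.d n ^ hh := by
        rw [← hyh]; exact mesh_mul B n hj hh
      have hw0 : 0 < w := dpow_pos B n _
      have ht0 : 0 < t := dpow_pos B n _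
      have ht1 : t ≤ 1 := dpow_le_one B n (by positivity)
      have hc0 : 0 < B.d n ^ hh := dpow_pos B n _
      have hT := hn (J - 1 - j) (by simp; omega)
        (Z'.filter fun k => |(G n).co k i 0 - (G n).co k i' 0| ≤ (G n).ρ ^ y)
        ((filter_subset _ _).trans hZ') ?_
      · refine hT.trans ?_
        rw [bb_lt hj]
        rw [split_card B n (σ * (((J - 1 - j : ℕ) : ℝ) * hh)) ε]
        refine mul_le_mul (dpow_anti B n (by linarith)) hcard ?_ (dpow_pos B n _).le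
        have := dpow_pos B n ε
        positivity
      · have hgen : ∀ k ∈ Z', |(G n).co k i 0 - (G n).co k i' 0| ≤ B.d n ^ y →
            |((G n).N i k₀ - (G n).N i' k₀) + ((G n).z k - (G n).z k₀) *
              ((G n).P i k₀ - (G n).P i' k₀)| ≤ 4 * B.d n ^ y := by
          intro k hk hg
          have e1 : (G n).co k i 0 - (G n).co k i' 0 = (((G n).N i k₀ - (G n).N i' k₀) +
              ((G n).z k - (G n).z k₀) * ((G n).P i k₀ - (G n).P i' k₀)) -
              (((G n).f k - (G n).f k₀) * ((G n).X i k₀ - (G n).X i' k₀) +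
              ((G n).z k - (G n).z k₀) * ((G n).f k - (G n).f k₀) * ((G n).c i - (G n).c i')) := by
            change (G n).N i k - (G n).N i' k = _
            rw [(G n).N_change i k₀ k, (G n).N_change i' k₀ k]; ring
          rw [e1] at hg
          have hu : |(G n).z k - (G n).z k₀| ≤ 2 := by
            refine (abs_sub _ _).trans ?_
            have := (h.bd n).z k (hZ' hk); have := (h.bd n).z k₀ hk₀; linarith
          have hX : |(G n).X i k₀ - (G n).X i' k₀| ≤ 1 :=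
            abs_co_sub_le (h.bd n) (hL i' hi') (hL i hi) hk₀ 3
          have hC : |(G n).c i - (G n).c i'| ≤ 1 :=
            abs_co_sub_le (h.bd n) (hL i' hi') (hL i hi) hk₀ 2
          have hg0 := hf k₀ hk₀' k hk
          have hy0 := dpow_pos B n y
          have e2 : |((G n).f k - (G n).f k₀) * ((G n).X i k₀ - (G n).X i' k₀) +
              ((G n).z k - (G n).z k₀) * ((G n).f k - (G n).f k₀) * ((G n).c i - (G n).c i')| ≤
              B.d n ^ y * 1 + 2 * B.d n ^ y * 1 := by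
            refine (abs_add_le _ _).trans ?_
            rw [abs_mul, abs_mul, abs_mul]
            gcongr
          have e3 := abs_le.1 hg
          have e4 := abs_le.1 e2
          rw [abs_le]
          constructor <;> linarith [e3.1, e3.2, e4.1, e4.2]
        intro k hk k' hk'
        rw [mem_filter, hρ1] at hk hk'
        have g1 := hgen k hk.1 hk.2
        have g2 := hgen k' hk'.1 hk'.2
        have hu : |(G n).z k' - (G n).z k₀| ≤ 2 := by
          refine (abs_sub _ _).trans ?_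
          have := (h.bd n).z k' (hZ' hk'.1); have := (h.bd n).z k₀ hk₀; linarith
        have g3 := root_lin g2 g1 hu hD (by
          rw [hmul]
          nlinarith [mul_le_mul_of_nonneg_left ht1 hw0.le, mul_pos hw0 ht0])
        have g4 : ((G n).z k' - (G n).z k₀) - ((G n).z k - (G n).z k₀) =
          (G n).z k' - (G n).z k := by ring
        rw [g4, hmul] at g3
        exact le_of_mesh (K := 32) (c := B.d n ^ hh) (w := w) (by linarith) hw0 ht0.le (by linarith)

/-! ## sloped strips -/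

open Classical in
/-- **(H1)** the slope function is not affine of slope `|μ| ≥ ρ^(η y)` up to `ρ^y` on a set of
heights of portion `ρ^(η y)` -/
theorem no_slope {a m : ℝ} {β : ℝ → ℝ → ℝ} (h : FModel B G σ R ν) (hc : HalfCoupled ν R a m β)
    (ha : a < σ) (hm : 0 < m) :
    ∃ η₁ : ℝ, 0 < η₁ ∧ ∀ y, 0 < y → y ≤ R → ¬ ∀ᶠ n in (U : Filter ℕ), ∃ Z' ⊆ (G n).Z,
      Z'.Nonempty ∧ B.d n ^ (η₁ * y) * ((G n).Z.card : ℝ) ≤ Z'.card ∧
      ∃ μ : ℝ, B.d n ^ (η₁ * y) ≤ |μ| ∧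
      ∀ k ∈ Z', ∀ k' ∈ Z', |(G n).f k' - (G n).f k - μ * ((G n).z k' - (G n).z k)| ≤
        2 * B.d n ^ y := by
  have hR := h.R_pos
  have ha0 := (hc_nonneg h hc).1
  have hσ0 : 0 < σ := ha0.trans_lt ha
  obtain ⟨J, hJ⟩ : ∃ J : ℕ, 16 / min (σ - a) m < J := exists_nat_gt _
  have hJ0 : (0 : ℝ) < (J : ℝ) + 1 := by positivity
  refine ⟨σ / (20 * ((J : ℝ) + 1)), by positivity, fun y hy hyR Hy => ?_⟩
  set hh : ℝ := y / ((J : ℝ) + 1) with hhh
  have hh0 : 0 < hh := by positivity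
  have hyh : ((J : ℝ) + 1) * hh = y := by rw [hhh]; field_simp
  have hηy : σ / (20 * ((J : ℝ) + 1)) * y = σ * hh / 20 := by rw [hhh]; field_simp
  rw [hηy] at Hy
  set ε : ℝ := σ * hh / 20 with hε
  have hε0 : 0 < ε := by positivity
  have hε1 : ε ≤ hh / 20 := by
    rw [hε]
    have : σ * hh ≤ 1 * hh := mul_le_mul_of_nonneg_right h.σ_le hh0.le
    linarith
  set s1 : ℝ := hh / 5 with hs1
  have hs10 : 0 < s1 := by positivity
  have hs1R : s1 ≤ R := by
    rw [hs1]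
    have : hh ≤ y := by
      rw [hhh]; exact div_le_self hy.le (by linarith [Nat.cast_nonneg (α := ℝ) J])
    linarith
  have z : (0 : ℝ) ≤ 0 ∧ (0 : ℝ) ≤ R := ⟨le_rfl, hR.le⟩
  have yy : (0 : ℝ) ≤ y ∧ y ≤ R := ⟨hy.le, hyR⟩
  have hxj : ∀ j ≤ J, (0 : ℝ) ≤ (j : ℝ) * hh ∧ (j : ℝ) * hh ≤ y := by
    intro j hj
    have h1 : (j : ℝ) ≤ J := by exact_mod_cast hj
    refine ⟨by positivity, ?_⟩
    rw [← hyh]
    nlinarith
  have key := kauf_box h 0 hy.le hyR J (fun j => (j : ℝ) * hh) (bb σ hh ε J) hε0 ![0, y, 0, y]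
    (mem4 (p := 0) z yy z yy) (fun j => ![(j : ℝ) * hh, y, (j : ℝ) * hh, y])
    (fun j hj => mem4 (p := 0) ⟨(hxj j hj).1, (hxj j hj).2.trans hyR⟩ yy
      ⟨(hxj j hj).1, (hxj j hj).2.trans hyR⟩ yy) 2
    (fun n k₀ i i' => max |(G n).N i k₀ - (G n).N i' k₀| |(G n).c i - (G n).c i'|)
    (by simp) (bb_J _ _ _ _) ?_
  · obtain ⟨j, hj, hj2⟩ := key
    have hx := hxj j hj
    have e1 := hc4 hc ⟨hx.1, hx.2.trans hyR⟩ yy ⟨hx.1, hx.2.trans hyR⟩ yy
    have e2 := hc4 hc z yy z yy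
    rw [e1, e2, hc_one0 h hc hy.le hyR] at hj2
    refine arith_end hj ha0 ha h.σ_le hm (by linarith) hh0 hε0.le hε1 ?_
    rw [hyh]
    linarith
  · have hN : ((J + 1 : ℕ) : ℝ) * hh ≤ R := by push_cast; rw [hyh]; exact hyR
    filter_upwards [Hy, frost_mesh h hh0.le hN hε0, ev_const B 64 hh0,
      h.frost s1 hs10.le hs1R ε hε0,
      ev_const B 416 (show 0 < hh - 2 * s1 - ε by rw [hs1]; linarith),
      ev_const B 2 hε0] with n hZ hn hc64 hfr hc416 hc2
    obtain ⟨Z', hZ', hne, hcard, μ, hμ, hf⟩ := hZ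
    have hρ1 : (G n).ρ = B.d n := h.base n
    have hZ'c : (0 : ℝ) < Z'.card := by exact_mod_cast card_pos.2 hne
    refine ⟨Z', hZ', hne, fun k₀ hk₀' =>
      ⟨Z'.filter fun k => B.d n ^ s1 < |(G n).z k - (G n).z k₀|, filter_subset _ _, ?_, ?_⟩⟩
    · have hk₀ := hZ' hk₀'
      have e1 : ((Z' \ Z'.filter fun k => B.d n ^ s1 < |(G n).z k - (G n).z k₀|).card : ℝ) ≤
          (((G n).hbox s1 k₀).card : ℝ) := by
        have : (Z' \ Z'.filter fun k => B.d n ^ s1 < |(G n).z k - (G n).z k₀|) ⊆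
            (G n).hbox s1 k₀ := by
          intro k hk
          rw [Finset.mem_sdiff, mem_filter] at hk
          unfold Cfg.hbox
          rw [mem_filter, hρ1]
          refine ⟨hZ' hk.1, ?_⟩
          by_contra hcon
          exact hk.2 ⟨hk.1, not_le.1 hcon⟩
        exact_mod_cast card_le_card this
      refine e1.trans ((hfr k₀ hk₀).trans ?_)
      rw [split_card B n (σ * s1) ε]
      refine mul_le_mul (dpow_anti B n ?_) hcard ?_ (dpow_pos B n _).le
      · rw [hε, hs1]; linarith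
      · have := dpow_pos B n ε
        positivity
    have hk₀ := hZ' hk₀'
    intro i₀ hi₀
    have hL : ∀ i ∈ (G n).box ![0, y, 0, y] i₀ k₀, i ∈ (G n).L := fun i hi =>
      slice_sub_L (box_sub_slice hi)
    have hP2 : ∀ i ∈ (G n).box ![0, y, 0, y] i₀ k₀, ∀ i' ∈ (G n).box ![0, y, 0, y] i₀ k₀,
        |(G n).P i' k₀ - (G n).P i k₀| ≤ 2 * B.d n ^ y ∧
        |(G n).X i' k₀ - (G n).X i k₀| ≤ 2 * B.d n ^ y := by
      intro i hi i' hi'
      have g1 := (mem_box.1 hi).2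
      have g2 := (mem_box.1 hi').2
      have a1 := g1 1; have a2 := g2 1; have b1 := g1 3; have b2 := g2 3
      rw [hρ1] at a1 a2 b1 b2
      have a1' : |(G n).P i k₀ - (G n).P i₀ k₀| ≤ B.d n ^ y := a1
      have a2' : |(G n).P i' k₀ - (G n).P i₀ k₀| ≤ B.d n ^ y := a2
      have b1' : |(G n).X i k₀ - (G n).X i₀ k₀| ≤ B.d n ^ y := b1
      have b2' : |(G n).X i' k₀ - (G n).X i₀ k₀| ≤ B.d n ^ y := b2
      rw [abs_le] at a1' a2' b1' b2' ⊢
      rw [abs_le]
      refine ⟨⟨?_, ?_⟩, ?_, ?_⟩ <;> linarith [a1'.1, a1'.2, a2'.1, a2'.2, b1'.1, b1'.2, b2'.1, b2'.2]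
    refine ⟨fun i hi i' hi' => ?_, fun j hj i hi i' hi' hD l => ?_, fun j hj i hi i' hi' hD => ?_⟩
    · exact max_le (abs_co_sub_le (h.bd n) (hL i' hi') (hL i hi) hk₀ 0)
        (abs_co_sub_le (h.bd n) (hL i' hi') (hL i hi) hk₀ 2)
    · have hD2 := hD
      rw [max_le_iff, abs_sub_comm, abs_sub_comm ((G n).c i)] at hD2
      have hpos := dpow_pos B n ((j : ℝ) * hh)
      push_cast
      fin_cases l
      · exact hD2.1.trans (show B.d n ^ ((j : ℝ) * hh) ≤ 2 * B.d n ^ ((j : ℝ) * hh) by linarith)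
      · exact (hP2 i hi i' hi').1
      · exact hD2.2.trans (show B.d n ^ ((j : ℝ) * hh) ≤ 2 * B.d n ^ ((j : ℝ) * hh) by linarith)
      · exact (hP2 i hi i' hi').2
    · set w := B.d n ^ (((j + 1 : ℕ) : ℝ) * hh) with hw
      set t := B.d n ^ (((J - 1 - j : ℕ) : ℝ) * hh) with ht
      have hmul : B.d n ^ y = w * t * B.d n ^ hh := by
        rw [← hyh]; exact mesh_mul B n hj hh
      have hw0 : 0 < w := dpow_pos B n _
      have ht0 : 0 < t := dpow_pos B n _
      have ht1 : t ≤ 1 := dpow_le_one B n (by positivity)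
      have hc0 : 0 < B.d n ^ hh := dpow_pos B n _
      have hy0 := dpow_pos B n y
      have hs0 := dpow_pos B n s1
      have hy1 : B.d n ^ y ≤ 1 := dpow_le_one B n hy.le
      have hzz : ∀ k ∈ Z', |(G n).z k - (G n).z k₀| ≤ 2 := by
        intro k hk
        refine (abs_sub _ _).trans ?_
        have := (h.bd n).z k (hZ' hk); have := (h.bd n).z k₀ hk₀; linarith
      have hff : ∀ k ∈ Z', |(G n).f k - (G n).f k₀| ≤ 2 := by
        intro k hk
        refine (abs_sub _ _).trans ?_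
        have := (h.bd n).f k (hZ' hk); have := (h.bd n).f k₀ hk₀; linarith
      set K := Z'.filter fun k => B.d n ^ s1 < |(G n).z k - (G n).z k₀| with hK
      set T := K.filter fun k => |(G n).co k i 0 - (G n).co k i' 0| ≤ (G n).ρ ^ y with hT
      -- the quadratic inequality
      have hgen : ∀ k ∈ T, |((G n).N i k₀ - (G n).N i' k₀) - μ * ((G n).z k - (G n).z k₀) ^ 2 *
              ((G n).c i - (G n).c i')| ≤ 13 * B.d n ^ y := by
        intro k hk
        rw [hT, mem_filter, hK, mem_filter, hρ1] at hk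
        have hk1 : k ∈ Z' := hk.1.1
        have hg := hk.2
        have e1 : ((G n).N i k₀ - (G n).N i' k₀) - μ * ((G n).z k - (G n).z k₀) ^ 2 *
              ((G n).c i - (G n).c i') = ((G n).co k i 0 - (G n).co k i' 0) -
            ((G n).z k - (G n).z k₀) * ((G n).P i k₀ - (G n).P i' k₀) +
            ((G n).f k - (G n).f k₀) * ((G n).X i k₀ - (G n).X i' k₀) +
            ((G n).z k - (G n).z k₀) * ((G n).f k - (G n).f k₀ -
              μ * ((G n).z k - (G n).z k₀)) * ((G n).c i - (G n).c i') := by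
          change _ = (G n).N i k - (G n).N i' k - _ + _ + _
          rw [(G n).N_change i k₀ k, (G n).N_change i' k₀ k]; ring
        rw [e1]
        have hu := hzz k hk1
        have hg2 := hff k hk1
        have hC : |(G n).c i - (G n).c i'| ≤ 1 :=
          abs_co_sub_le (h.bd n) (hL i' hi') (hL i hi) hk₀ 2
        obtain ⟨hP, hX⟩ := hP2 i' hi' i hi
        have hfm := hf k₀ hk₀' k hk1
        calc _ ≤ |(G n).co k i 0 - (G n).co k i' 0| +
            |((G n).z k - (G n).z k₀) * ((G n).P i k₀ - (G n).P i' k₀)| +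
            |((G n).f k - (G n).f k₀) * ((G n).X i k₀ - (G n).X i' k₀)| +
            |((G n).z k - (G n).z k₀) * ((G n).f k - (G n).f k₀ -
              μ * ((G n).z k - (G n).z k₀)) * ((G n).c i - (G n).c i')| := by
              refine (abs_add_le _ _).trans (add_le_add_left ?_ _)
              refine (abs_add_le _ _).trans (add_le_add_left ?_ _)
              exact abs_sub _ _
          _ ≤ B.d n ^ y + 2 * (2 * B.d n ^ y) + 2 * (2 * B.d n ^ y) + 2 * (2 * B.d n ^ y) * 1 := by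
              rw [abs_mul, abs_mul, abs_mul, abs_mul]
              gcongr
          _ = 13 * B.d n ^ y := by ring
      -- bound for μ
      have hμM : ∀ k ∈ T, |μ| ≤ 4 * B.d n ^ (-s1) := by
        intro k hk
        rw [hT, mem_filter, hK, mem_filter] at hk
        have hk1 : k ∈ Z' := hk.1.1
        have hk2 := hk.1.2
        have hfm := hf k₀ hk₀' k hk1
        have hg2 := hff k hk1
        have e1 : |μ| * B.d n ^ s1 ≤ 4 := by
          calc |μ| * B.d n ^ s1 ≤ |μ| * |(G n).z k - (G n).z k₀| :=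
                mul_le_mul_of_nonneg_left hk2.le (abs_nonneg _)
            _ = |μ * ((G n).z k - (G n).z k₀)| := (abs_mul _ _).symm
            _ = |((G n).f k - (G n).f k₀) - ((G n).f k - (G n).f k₀ -
                μ * ((G n).z k - (G n).z k₀))| := by ring_nf
            _ ≤ |(G n).f k - (G n).f k₀| + |(G n).f k - (G n).f k₀ -
                μ * ((G n).z k - (G n).z k₀)| := abs_sub _ _
            _ ≤ 4 := by linarith
        have e2 : B.d n ^ s1 * B.d n ^ (-s1) = 1 := by rw [← dpow_add]; simp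
        calc |μ| = |μ| * B.d n ^ s1 * B.d n ^ (-s1) := by rw [mul_assoc, e2, mul_one]
          _ ≤ 4 * B.d n ^ (-s1) := mul_le_mul_of_nonneg_right e1 (dpow_pos B n _).le
      -- one sign
      have hsgn : ∀ T' ⊆ T, (∀ k ∈ T', ∀ k' ∈ T',
          (B.d n ^ s1 ≤ (G n).z k - (G n).z k₀ ∧ B.d n ^ s1 ≤ (G n).z k' - (G n).z k₀) ∨
          ((G n).z k - (G n).z k₀ ≤ -B.d n ^ s1 ∧ (G n).z k' - (G n).z k₀ ≤ -B.d n ^ s1)) →
          (T'.card : ℝ) ≤ B.d n ^ (σ * (((J - 1 - j : ℕ) : ℝ) * hh) - ε) * (G n).Z.card := by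
        intro T' hT' hs
        refine hn (J - 1 - j) (by simp; omega) T'
          (((hT'.trans (filter_subset _ _)).trans (filter_subset _ _)).trans hZ') ?_
        intro k hk k' hk'
        have hkT := hT' hk
        have hkT' := hT' hk'
        have g1 := hgen k hkT
        have g2 := hgen k' hkT'
        have hk2 : k ∈ Z' := by
          rw [hT, mem_filter, hK, mem_filter] at hkT; exact hkT.1.1
        have hk2' : k' ∈ Z' := by
          rw [hT, mem_filter, hK, mem_filter] at hkT'; exact hkT'.1.1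
        have hM1 : (1 : ℝ) ≤ 4 * B.d n ^ (-s1) := by
          have := one_le_dpow B n (show -s1 ≤ 0 by linarith)
          linarith
        have g3 := root_sq g2 g1 (hzz k' hk2') hM1 (hμM k hkT) hμ (dpow_pos B n ε) hs0
          (hs k' hk' k hk) hw0 hD (by
            rw [hmul]
            nlinarith [mul_le_mul_of_nonneg_left ht1 hw0.le, mul_pos hw0 ht0])
        have g4 : ((G n).z k' - (G n).z k₀) - ((G n).z k - (G n).z k₀) =
          (G n).z k' - (G n).z k := by ring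
        rw [g4, hmul] at g3
        refine le_of_mesh (K := 416) (c := B.d n ^ (hh - 2 * s1 - ε)) (w := w) ?_ hw0 ht0.le hc416
        have e5 : B.d n ^ (hh - 2 * s1 - ε) * (B.d n ^ ε * B.d n ^ s1) =
            B.d n ^ (-s1) * B.d n ^ hh := by
          rw [← dpow_add, ← dpow_add, ← dpow_add]; congr 1; ring
        have e6 : 0 < B.d n ^ ε * B.d n ^ s1 := mul_pos (dpow_pos B n _) (dpow_pos B n _)
        refine le_of_mul_le_mul_right ?_ e6
        calc |(G n).z k' - (G n).z k| * w * (B.d n ^ ε * B.d n ^ s1)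
            = |(G n).z k' - (G n).z k| * (B.d n ^ ε * B.d n ^ s1 * w) := by ring
          _ ≤ 8 * (4 * B.d n ^ (-s1)) * (13 * (w * t * B.d n ^ hh)) := g3
          _ = 416 * (w * t * (B.d n ^ (-s1) * B.d n ^ hh)) := by ring
          _ = 416 * (w * t * (B.d n ^ (hh - 2 * s1 - ε) * (B.d n ^ ε * B.d n ^ s1))) := by
              rw [e5]
          _ = _ := by ring
      have hTp := hsgn (T.filter fun k => (G n).z k₀ < (G n).z k) (filter_subset _ _) (by
        intro k hk k' hk'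
        rw [mem_filter, hT, mem_filter, hK, mem_filter] at hk hk'
        left
        constructor
        · have := hk.1.1.2; rw [abs_of_pos (sub_pos.2 hk.2)] at this; exact this.le
        · have := hk'.1.1.2; rw [abs_of_pos (sub_pos.2 hk'.2)] at this; exact this.le)
      have hTm := hsgn (T.filter fun k => ¬ (G n).z k₀ < (G n).z k) (filter_subset _ _) (by
        intro k hk k' hk'
        rw [mem_filter, hT, mem_filter, hK, mem_filter] at hk hk'
        right
        constructor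
        · have := hk.1.1.2
          rw [abs_of_nonpos (sub_nonpos.2 (not_lt.1 hk.2))] at this; linarith
        · have := hk'.1.1.2
          rw [abs_of_nonpos (sub_nonpos.2 (not_lt.1 hk'.2))] at this; linarith)
      have hsum : (T.card : ℝ) = (T.filter fun k => (G n).z k₀ < (G n).z k).card +
          (T.filter fun k => ¬ (G n).z k₀ < (G n).z k).card := by
        exact_mod_cast (card_filter_add_card_filter_not (s := T) _).symm
      rw [bb_lt hj]
      exact final_count B n hZ'c.le hc2 hcard (by rw [hsum]; linarith)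

end Crest.Agent.R138.TwD501
end

-- ▼ part R138/TwE_501
section

/-!
# R138: F-model, half coupled case: `σ ≤ a` (K3core, helper501)
-/

set_option autoImplicit false
set_option linter.unusedVariables false
set_option linter.unusedSectionVars false

open Filter Topology Finset

namespace Crest.Agent.R138.TwE501

open Crest.Agent.R138.Ex926 Crest.Agent.R138.FM501 Crest.Agent.R138.TwA501
open Crest.Agent.R138.TwB501 Crest.Agent.R138.TwC501 Crest.Agent.R138.TwD501

variable {B : Base} {G : ℕ → Cfg} {σ R : ℝ} {ν : (Fin 4 → ℝ) → ℝ}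

open Classical in
/-- no heavy strips of power width -/
theorem no_strip {a m : ℝ} {β : ℝ → ℝ → ℝ} (h : FModel B G σ R ν) (hc : HalfCoupled ν R a m β)
    (ha : a < σ) (hm : 0 < m) {c₂ : ℝ} (hc₂ : 0 < c₂)
    (hβ : ∀ x, 0 ≤ x → x ≤ R → c₂ * x ≤ β x 0) :
    ∃ η : ℝ, 0 < η ∧ ∀ Y0 Y1 : ℝ, 0 < Y0 → Y1 ≤ R → ¬ ∀ᶠ n in (U : Filter ℕ),
      ∃ w : ℝ, B.d n ^ Y1 ≤ w ∧ w ≤ B.d n ^ Y0 ∧ ∃ k₁ ∈ (G n).Z, ∃ μ : ℝ,
        w ^ η * ((G n).Z.card : ℝ) ≤
          (((G n).Z.filter fun k => |(G n).f k - (G n).f k₁ - μ * ((G n).z k - (G n).z k₁)| ≤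
            w).card : ℝ) := by
  obtain ⟨η₁, hη₁, H1⟩ := no_slope h hc ha hm
  obtain ⟨η₂, hη₂, H2⟩ := no_flat h hc ha hc₂ hβ
  set e1 : ℝ := min η₁ 1 with he1
  have he10 : 0 < e1 := lt_min hη₁ one_pos
  have he1η : e1 ≤ η₁ := min_le_left _ _
  have he11 : e1 ≤ 1 := min_le_right _ _
  refine ⟨min (e1 / 2) (e1 * η₂ / 4), lt_min (by positivity) (by positivity), ?_⟩
  set η : ℝ := min (e1 / 2) (e1 * η₂ / 4) with hη
  have hη0 : 0 < η := lt_min (by positivity) (by positivity)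
  have hηa : η ≤ e1 / 2 := min_le_left _ _
  have hηb : η ≤ e1 * η₂ / 4 := min_le_right _ _
  intro Y0 Y1 hY0 hY1 Hy
  obtain ⟨w, hw⟩ := Hy.choice
  -- exponent of the width
  have hlog : ∀ n, Real.log (B.d n) < 0 := fun n => Real.log_neg (B.pos n) (B.lt n)
  have hv : ∀ᶠ n in (U : Filter ℕ), Y0 ≤ Real.log (w n) / Real.log (B.d n) ∧
      Real.log (w n) / Real.log (B.d n) ≤ Y1 := by
    filter_upwards [hw] with n hn
    have hw0 : 0 < w n := (dpow_pos B n _).trans_le hn.1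
    have g1 := Real.log_le_log (dpow_pos B n _) hn.1
    have g2 := Real.log_le_log hw0 hn.2.1
    rw [Real.log_rpow (B.pos n)] at g1 g2
    constructor
    · rw [le_div_iff_of_neg (hlog n)]; exact g2
    · rw [div_le_iff_of_neg (hlog n)]; exact g1
  obtain ⟨v, hvt, -⟩ := exists_tendsto (f := fun n => Real.log (w n) / Real.log (B.d n))
    (C := |Y1|) (by
      filter_upwards [hv] with n hn
      rw [abs_of_nonneg (hY0.le.trans hn.1)]
      exact hn.2.trans (le_abs_self _))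
  have hv0 : Y0 ≤ v := ge_of_tendsto hvt (hv.mono fun n hn => hn.1)
  have hv1 : v ≤ Y1 := le_of_tendsto hvt (hv.mono fun n hn => hn.2)
  have hvpos : 0 < v := hY0.trans_le hv0
  set y : ℝ := 3 / 4 * v with hy
  have hypos : 0 < y := by positivity
  have hyR : y ≤ R := by rw [hy]; linarith
  have hwy : ∀ᶠ n in (U : Filter ℕ), w n ≤ B.d n ^ y ∧ B.d n ^ (3 / 2 * y) ≤ w n := by
    have h1 : ∀ᶠ n in (U : Filter ℕ), |Real.log (w n) / Real.log (B.d n) - v| < v / 8 := by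
      have := (Metric.tendsto_nhds.1 hvt) (v / 8) (by positivity)
      simpa [Real.dist_eq] using this
    filter_upwards [h1, hw] with n hn hwn
    have hw0 : 0 < w n := (dpow_pos B n _).trans_le hwn.1
    have e2 : w n = B.d n ^ (Real.log (w n) / Real.log (B.d n)) := by
      rw [Real.rpow_def_of_pos (B.pos n), mul_div_cancel₀ _ (hlog n).ne, Real.exp_log hw0]
    rw [abs_lt] at hn
    rw [e2]
    constructor
    · exact dpow_anti B n (by rw [hy]; linarith [hn.1])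
    · exact dpow_anti B n (by rw [hy]; linarith [hn.2])
  have hn1 := Ultrafilter.eventually_not.2 (H1 y hypos hyR)
  have hn2 := Ultrafilter.eventually_not.2 (H2 (e1 * y / 2) (by positivity) (by nlinarith))
  obtain ⟨n, hwn, hwyn, hN1, hN2, hc4, hc2⟩ := (hw.and (hwy.and (hn1.and (hn2.and
    ((ev_const B 4 (show 0 < e1 * y / 2 by positivity)).and
      (ev_const B 1 (show 0 < y by positivity))))))).exists
  obtain ⟨hw1, hw2, k₁, hk₁, μ, hμ⟩ := hwn
  have hw0 : 0 < w n := (dpow_pos B n _).trans_le hw1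
  set Z' := (G n).Z.filter fun k => |(G n).f k - (G n).f k₁ - μ * ((G n).z k - (G n).z k₁)| ≤ w n
    with hZ'
  have hmem : k₁ ∈ Z' := by
    rw [hZ', mem_filter]
    refine ⟨hk₁, ?_⟩
    simp only [sub_self, mul_zero, abs_zero]
    exact hw0.le
  have hZc : (0 : ℝ) ≤ (G n).Z.card := Nat.cast_nonneg _
  have hmass : B.d n ^ (3 / 2 * y * η) * ((G n).Z.card : ℝ) ≤ Z'.card := by
    refine le_trans ?_ hμ
    refine mul_le_mul_of_nonneg_right ?_ hZc
    rw [Real.rpow_mul (B.pos n).le]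
    exact Real.rpow_le_rpow (dpow_pos B n _).le hwyn.2 hη0.le
  have haff : ∀ k ∈ Z', ∀ k' ∈ Z', |(G n).f k' - (G n).f k - μ * ((G n).z k' - (G n).z k)| ≤
      2 * B.d n ^ y := by
    intro k hk k' hk'
    rw [hZ', mem_filter] at hk hk'
    have g1 := abs_le.1 (hk.2.trans hwyn.1)
    have g2 := abs_le.1 (hk'.2.trans hwyn.1)
    rw [abs_le]
    constructor <;> linarith [g1.1, g1.2, g2.1, g2.2]
  rcases le_or_gt (B.d n ^ (η₁ * y)) |μ| with hcase | hcase
  · refine hN1 ⟨Z', filter_subset _ _, ⟨k₁, hmem⟩, ?_, μ, hcase, haff⟩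
    refine le_trans ?_ hmass
    refine mul_le_mul_of_nonneg_right (dpow_anti B n ?_) hZc
    nlinarith
  · refine hN2 ⟨Z', filter_subset _ _, ⟨k₁, hmem⟩, ?_, ?_⟩
    · refine le_trans ?_ hmass
      refine mul_le_mul_of_nonneg_right (dpow_anti B n ?_) hZc
      have : y * η ≤ y * (e1 * η₂ / 4) := mul_le_mul_of_nonneg_left hηb hypos.le
      nlinarith
    · intro k hk k' hk'
      have g1 := haff k hk k' hk'
      have hz1 := (h.bd n).z k (filter_subset _ _ hk)
      have hz2 := (h.bd n).z k' (filter_subset _ _ hk')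
      have g2 : |(G n).z k' - (G n).z k| ≤ 2 := (abs_sub _ _).trans (by linarith)
      have g3 : |μ| ≤ B.d n ^ (e1 * y) := hcase.le.trans (dpow_anti B n (by nlinarith))
      have g4 : B.d n ^ y ≤ B.d n ^ (e1 * y) := dpow_anti B n (by nlinarith)
      have g5 : B.d n ^ (e1 * y) = B.d n ^ (e1 * y / 2) * B.d n ^ (e1 * y / 2) := by
        rw [← dpow_add]; congr 1; ring
      have g6 := dpow_pos B n (e1 * y / 2)
      calc |(G n).f k' - (G n).f k| = |((G n).f k' - (G n).f k - μ * ((G n).z k' - (G n).z k)) +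
            μ * ((G n).z k' - (G n).z k)| := by ring_nf
        _ ≤ |(G n).f k' - (G n).f k - μ * ((G n).z k' - (G n).z k)| +
            |μ| * |(G n).z k' - (G n).z k| := by rw [← abs_mul]; exact abs_add_le _ _
        _ ≤ 2 * B.d n ^ (e1 * y) + B.d n ^ (e1 * y) * 2 := by
            have g7 := dpow_pos B n (e1 * y)
            refine add_le_add (by linarith) ?_
            exact mul_le_mul g3 g2 (abs_nonneg _) g7.le
        _ = (4 * B.d n ^ (e1 * y / 2)) * B.d n ^ (e1 * y / 2) := by rw [g5]; ring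
        _ ≤ 1 * B.d n ^ (e1 * y / 2) := mul_le_mul_of_nonneg_right hc4 g6.le
        _ = _ := one_mul _

/-! ## slopes -/

open Classical in
/-- pairs of heights with many near slopes -/
noncomputable def badp (G : Cfg) (r c σ : ℝ) : Finset (ℕ × ℕ) :=
  (G.Z ×ˢ G.Z).filter fun q => r ^ c ≤ |G.z q.2 - G.z q.1| ∧ r ^ σ * G.Z.card ≤
    ((G.Z.filter fun k => r ^ c ≤ |G.z k - G.z q.1| ∧
      |(G.f k - G.f q.1) / (G.z k - G.z q.1) - (G.f q.2 - G.f q.1) / (G.z q.2 - G.z q.1)| ≤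
        r).card : ℝ)


open Classical in
theorem few_bad {a m : ℝ} {β : ℝ → ℝ → ℝ} (h : FModel B G σ R ν) (hc : HalfCoupled ν R a m β)
    (ha : a < σ) (hm : 0 < m) {c₂ : ℝ} (hc₂ : 0 < c₂)
    (hβ : ∀ x, 0 ≤ x → x ≤ R → c₂ * x ≤ β x 0) {s : ℝ} (hs : s < σ) :
    ∃ c₀ : ℝ, 0 < c₀ ∧ ∀ c, 0 < c → c ≤ c₀ → ∀ y, 0 < y → y ≤ R →
      ∀ᶠ n in (U : Filter ℕ), ((badp (G n) (B.d n ^ y) c s).card : ℝ) ≤
        (B.d n ^ y) ^ c * ((G n).Z.card : ℝ) ^ 2 := by
  have ha0 := (hc_nonneg h hc).1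
  have hσ0 : 0 < σ := ha0.trans_lt ha
  obtain ⟨η, hη, H⟩ := no_strip h hc ha hm hc₂ hβ
  obtain ⟨α, c₀, hα, hα1, hc₀, HT⟩ := Pl187.thin_graph hσ0 hs (hs.trans_le h.σ_le) hη
  refine ⟨c₀, hc₀, fun c hc0 hcc y hy hyR => ?_⟩
  obtain ⟨r₀, hr₀, HR⟩ := HT c hc0 hcc
  have hn1 := Ultrafilter.eventually_not.2 (H (α * y) y (by positivity) hyR)
  filter_upwards [hn1, ev_const B r₀⁻¹ hy, frost_all h (show 0 < c * y by positivity)]
    with n hN1 hr hfr
  have hpos := dpow_pos B n y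
  have hr' : B.d n ^ y ≤ r₀ := by
    rw [inv_mul_le_iff₀ hr₀, mul_one] at hr; exact hr
  rcases HR (B.d n ^ y) hpos hr' (G n).Z (G n).z (G n).f
    (fun k hk => ⟨(h.bd n).z k hk, (h.bd n).f k hk⟩) (by
      intro ρ h1 h2 k hk
      refine (hfr ρ ((dpow_anti B n hyR).trans h1) h2 k hk).trans (le_of_eq ?_)
      rw [← Real.rpow_mul (B.pos n).le]
      congr 2; congr 1; ring) with hstrip | hbad
  · exfalso
    obtain ⟨k₁, hk₁, k₂, hk₂, hsep, μ, w, hμ, hμ2, hw1, hw2, hmass⟩ := hstrip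
    refine hN1 ⟨w, hw1, ?_, k₁, hk₁, μ, hmass⟩
    rw [← Real.rpow_mul (B.pos n).le, mul_comm] at hw2
    exact hw2
  · exact hbad

end Crest.Agent.R138.TwE501
end

-- ▼ part R138/TwF_501

/-!
# R138: F-model, half coupled case: **K3core** `σ ≤ a` (helper501)
-/

set_option autoImplicit false
set_option linter.unusedVariables false
set_option linter.unusedSectionVars false

open Filter Topology Finset

namespace Crest.Agent.R138.TwF501

open Crest.Agent.R138.Ex926 Crest.Agent.R138.FM501 Crest.Agent.R138.TwA501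
open Crest.Agent.R138.TwB501 Crest.Agent.R138.TwC501 Crest.Agent.R138.TwD501
open Crest.Agent.R138.TwE501

variable {B : Base} {G : ℕ → Cfg} {σ R : ℝ} {ν : (Fin 4 → ℝ) → ℝ}

theorem slope_pair {G : Cfg} (hb : G.Bd) {i i' k₀ k k' : ℕ} (hi : i ∈ G.L) (hi' : i' ∈ G.L)
    (hk₀ : k₀ ∈ G.Z) (hk : k ∈ G.Z) (hk' : k' ∈ G.Z) {e s w : ℝ} (he0 : 0 ≤ e)
    (hN : |G.N i k₀ - G.N i' k₀| ≤ 2 * e) (hC : |G.c i - G.c i'| ≤ 2 * e) (hs : 0 < s)
    (hs1 : s ≤ 1) (hu : s ≤ |G.z k - G.z k₀|) (hu' : s ≤ |G.z k' - G.z k₀|)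
    (hg : |G.N i k - G.N i' k| ≤ e) (hg' : |G.N i k' - G.N i' k'| ≤ e) (hw0 : 0 < w)
    (hw : w < max |G.P i k₀ - G.P i' k₀| |G.X i k₀ - G.X i' k₀|) (he : 22 * e ≤ s * w) :
    |(G.f k - G.f k₀) / (G.z k - G.z k₀) - (G.f k' - G.f k₀) / (G.z k' - G.z k₀)| * (s ^ 2 * w) ≤
      88 * e := by
  have hzz : ∀ k ∈ G.Z, |G.z k - G.z k₀| ≤ 2 := by
    intro k hk
    refine (abs_sub _ _).trans ?_
    have := hb.z k hk; have := hb.z k₀ hk₀; linarith
  have hff : ∀ k ∈ G.Z, |G.f k - G.f k₀| ≤ 2 := by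
    intro k hk
    refine (abs_sub _ _).trans ?_
    have := hb.f k hk; have := hb.f k₀ hk₀; linarith
  have key : ∀ k ∈ G.Z, |G.N i k - G.N i' k| ≤ e →
      |(G.z k - G.z k₀) * (G.P i k₀ - G.P i' k₀) - (G.f k - G.f k₀) * (G.X i k₀ - G.X i' k₀)| ≤
        11 * e := by
    intro k hk hg
    have h1 := hzz k hk
    have h2 := hff k hk
    have e1 : (G.z k - G.z k₀) * (G.P i k₀ - G.P i' k₀) -
        (G.f k - G.f k₀) * (G.X i k₀ - G.X i' k₀) = (G.N i k - G.N i' k) -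
        (G.N i k₀ - G.N i' k₀) + (G.z k - G.z k₀) * (G.f k - G.f k₀) * (G.c i - G.c i') := by
      rw [G.N_change i k₀ k, G.N_change i' k₀ k]; ring
    rw [e1]
    calc _ ≤ |G.N i k - G.N i' k| + |G.N i k₀ - G.N i' k₀| +
          |(G.z k - G.z k₀) * (G.f k - G.f k₀) * (G.c i - G.c i')| := by
          refine (abs_add_le _ _).trans (add_le_add_left ?_ _)
          exact abs_sub _ _
      _ ≤ e + 2 * e + 2 * 2 * (2 * e) := by
          rw [abs_mul, abs_mul]
          gcongr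
      _ = 11 * e := by ring
  have := root_slope (key k hk hg) (key k' hk' hg') (hff k hk) hs hs1 hu hu' hw0 hw
    (by linarith)
  linarith

/-- Markov for pins -/
theorem markov_pins (Z : Finset ℕ) (J : ℕ) (bad : ℕ → Finset (ℕ × ℕ)) {θ : ℝ} (hθ : 0 < θ)
    (hbad : ∀ l ∈ range J, ((bad l).card : ℝ) ≤ θ ^ 2 * (Z.card : ℝ) ^ 2)
    (hJ : 2 * (J : ℝ) * θ ≤ 1) :
    (Z.card : ℝ) ≤ 2 * ((Z.filter fun k₀ => ∀ l ∈ range J,
      ((Z.filter fun k => (k₀, k) ∈ bad l).card : ℝ) ≤ θ * Z.card).card : ℝ) := by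
  classical
  rcases Z.eq_empty_or_nonempty with rfl | hne
  · simp
  have hZc : (0 : ℝ) < Z.card := by exact_mod_cast card_pos.2 hne
  have h1 : ∀ l ∈ range J, ((Z.filter fun k₀ => θ * (Z.card : ℝ) <
      ((Z.filter fun k => (k₀, k) ∈ bad l).card : ℝ)).card : ℝ) ≤ θ * Z.card := by
    intro l hl
    set W := Z.filter fun k₀ => θ * (Z.card : ℝ) < ((Z.filter fun k => (k₀, k) ∈ bad l).card : ℝ)
      with hW
    have h2 : (W.card : ℝ) * (θ * Z.card) ≤ ∑ k₀ ∈ W, ((Z.filter fun k => (k₀, k) ∈ bad l).card : ℝ) := by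
      rw [← nsmul_eq_mul, ← sum_const]
      refine sum_le_sum fun k₀ hk₀ => ?_
      rw [hW, mem_filter] at hk₀
      exact hk₀.2.le
    have h3 : ∑ k₀ ∈ W, ((Z.filter fun k => (k₀, k) ∈ bad l).card : ℝ) ≤ (bad l).card := by
      have h4 : ∑ k₀ ∈ W, (Z.filter fun k => (k₀, k) ∈ bad l).card =
          ((W ×ˢ Z).filter fun q => q ∈ bad l).card := by
        rw [card_filter, sum_product]
        refine sum_congr rfl fun k₀ _ => ?_
        rw [card_filter]
      have h5 : ((W ×ˢ Z).filter fun q => q ∈ bad l).card ≤ (bad l).card :=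
        card_le_card fun q hq => (mem_filter.1 hq).2
      have h6 : (∑ k₀ ∈ W, (Z.filter fun k => (k₀, k) ∈ bad l).card) ≤ (bad l).card := h4 ▸ h5
      exact_mod_cast h6
    have h7 := h2.trans (h3.trans (hbad l hl))
    have h8 : (W.card : ℝ) * (θ * Z.card) ≤ (θ * Z.card) * (θ * Z.card) := by
      refine h7.trans (le_of_eq ?_); ring
    exact le_of_mul_le_mul_right h8 (by positivity)
  set W := Z.filter fun k₀ => ∀ l ∈ range J,
      ((Z.filter fun k => (k₀, k) ∈ bad l).card : ℝ) ≤ θ * Z.card with hW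
  have h2 : Z \ W ⊆ (range J).biUnion fun l => Z.filter fun k₀ => θ * (Z.card : ℝ) <
      ((Z.filter fun k => (k₀, k) ∈ bad l).card : ℝ) := by
    intro k hk
    rw [Finset.mem_sdiff, hW, mem_filter] at hk
    have h3 : ¬ ∀ l ∈ range J, ((Z.filter fun k' => (k, k') ∈ bad l).card : ℝ) ≤ θ * Z.card :=
      fun h => hk.2 ⟨hk.1, h⟩
    push Not at h3
    obtain ⟨l, hl, h4⟩ := h3
    rw [mem_biUnion]
    exact ⟨l, hl, mem_filter.2 ⟨hk.1, h4⟩⟩
  have h3 : ((Z \ W).card : ℝ) ≤ J * (θ * Z.card) := by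
    have h4 := (card_le_card h2).trans card_biUnion_le
    calc ((Z \ W).card : ℝ) ≤ ∑ l ∈ range J, ((Z.filter fun k₀ => θ * (Z.card : ℝ) <
        ((Z.filter fun k => (k₀, k) ∈ bad l).card : ℝ)).card : ℝ) := by exact_mod_cast h4
      _ ≤ ∑ l ∈ range J, θ * (Z.card : ℝ) := sum_le_sum h1
      _ = J * (θ * Z.card) := by rw [sum_const, nsmul_eq_mul, card_range]
  have h4 : (Z.card : ℝ) = (Z \ W).card + W.card := by
    have := card_sdiff_add_card_eq_card (filter_subset (fun k₀ => ∀ l ∈ range J,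
      ((Z.filter fun k => (k₀, k) ∈ bad l).card : ℝ) ≤ θ * Z.card) Z)
    rw [← hW] at this
    exact_mod_cast this.symm
  have h5 : (J : ℝ) * (θ * Z.card) ≤ Z.card / 2 := by nlinarith
  linarith

open Classical in
theorem sdiff_count (Z' H : Finset ℕ) (J : ℕ) (bd : ℕ → Finset ℕ) (good : ℕ → Prop)
    (hgood : ∀ k ∈ Z', ¬ good k → k ∈ H ∨ ∃ l ∈ range J, k ∈ bd l) {θ : ℝ}
    (hb : ∀ l ∈ range J, ((bd l).card : ℝ) ≤ θ) :
    ((Z' \ Z'.filter good).card : ℝ) ≤ (H.card : ℝ) + J * θ := by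
  have hsub : Z' \ Z'.filter good ⊆ H ∪ (range J).biUnion bd := by
    intro k hk
    rw [Finset.mem_sdiff, mem_filter] at hk
    rw [Finset.mem_union, mem_biUnion]
    exact hgood k hk.1 fun h => hk.2 ⟨hk.1, h⟩
  have h4 := (card_le_card hsub).trans (card_union_le _ _)
  have h6 : ((range J).biUnion bd).card ≤ ∑ l ∈ range J, (bd l).card := card_biUnion_le
  have h5 : (((range J).biUnion bd).card : ℝ) ≤ J * θ := by
    calc (((range J).biUnion bd).card : ℝ) ≤ ∑ l ∈ range J, ((bd l).card : ℝ) := by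
          exact_mod_cast h6
      _ ≤ ∑ l ∈ range J, θ := sum_le_sum hb
      _ = _ := by rw [sum_const, nsmul_eq_mul, card_range]
  have h7 : ((Z' \ Z'.filter good).card : ℝ) ≤ (H.card : ℝ) +
      (((range J).biUnion bd).card : ℝ) := by exact_mod_cast h4
  linarith

open Classical in
/-- few common heights away from the bad pins -/
theorem slope_hts {G : Cfg} (hb : G.Bd) {i i' k₀ : ℕ} (hi : i ∈ G.L) (hi' : i' ∈ G.L)
    (hk₀ : k₀ ∈ G.Z) (K : Finset ℕ) (hKZ : K ⊆ G.Z) {e s w t r c σ : ℝ} (he0 : 0 ≤ e)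
    (hN : |G.N i k₀ - G.N i' k₀| ≤ 2 * e) (hC : |G.c i - G.c i'| ≤ 2 * e) (hs : 0 < s)
    (hs1 : s ≤ 1) (hw0 : 0 < w) (ht0 : 0 ≤ t)
    (hw : w < max |G.P i k₀ - G.P i' k₀| |G.X i k₀ - G.X i' k₀|) (he : 22 * e ≤ s * w)
    (hr : r = t) (hrs : r ^ c ≤ s) (hes : 88 * e ≤ t * (s ^ 2 * w))
    (hK : ∀ k ∈ K, s < |G.z k - G.z k₀| ∧ (k₀, k) ∉ badp G r c σ) :
    ((K.filter fun k => |G.co k i 0 - G.co k i' 0| ≤ e).card : ℝ) ≤ r ^ σ * G.Z.card := by
  rcases (K.filter fun k => |G.co k i 0 - G.co k i' 0| ≤ e).eq_empty_or_nonempty with h0 | ⟨k', hk'⟩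
  · rw [h0, card_empty, Nat.cast_zero, hr]
    exact mul_nonneg (Real.rpow_nonneg ht0 _) (Nat.cast_nonneg _)
  rw [mem_filter] at hk'
  obtain ⟨hk'K, hg'⟩ := hk'
  have hk'Z := hKZ hk'K
  obtain ⟨hk's, hk'b⟩ := hK k' hk'K
  have h1 : ¬ (r ^ σ * (G.Z.card : ℝ) ≤ ((G.Z.filter fun k => r ^ c ≤ |G.z k - G.z k₀| ∧
      |(G.f k - G.f k₀) / (G.z k - G.z k₀) - (G.f k' - G.f k₀) / (G.z k' - G.z k₀)| ≤
        r).card : ℝ)) := by
    intro h2
    apply hk'b
    unfold badp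
    rw [mem_filter, mem_product]
    exact ⟨⟨hk₀, hk'Z⟩, hrs.trans hk's.le, h2⟩
  refine le_trans ?_ (not_le.1 h1).le
  have h3 : (K.filter fun k => |G.co k i 0 - G.co k i' 0| ≤ e) ⊆
      G.Z.filter fun k => r ^ c ≤ |G.z k - G.z k₀| ∧
      |(G.f k - G.f k₀) / (G.z k - G.z k₀) - (G.f k' - G.f k₀) / (G.z k' - G.z k₀)| ≤ r := by
    intro k hk
    rw [mem_filter] at hk ⊢
    obtain ⟨hkK, hg⟩ := hk
    obtain ⟨hks, -⟩ := hK k hkK
    refine ⟨hKZ hkK, hrs.trans hks.le, ?_⟩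
    have h4 := slope_pair hb hi hi' hk₀ (hKZ hkK) hk'Z he0 hN hC hs hs1 hks.le hk's.le hg hg' hw0 hw he
    have h5 : 0 < s ^ 2 * w := by positivity
    rw [hr]
    exact le_of_mul_le_mul_right (h4.trans hes) h5
  exact_mod_cast card_le_card h3

open Classical in
set_option maxHeartbeats 1000000 in
/-- **K3core** -/
theorem K3core {a m : ℝ} {β : ℝ → ℝ → ℝ} (h : FModel B G σ R ν) (hc : HalfCoupled ν R a m β)
    (hm : 0 < m) {c₂ : ℝ} (hc₂ : 0 < c₂) (hβ : ∀ x, 0 ≤ x → x ≤ R → c₂ * x ≤ β x 0) :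
    σ ≤ a := by
  by_contra hcon
  push Not at hcon
  have hR := h.R_pos
  have ha0 := (hc_nonneg h hc).1
  have hσ0 : 0 < σ := ha0.trans_lt hcon
  have hσ1 := h.σ_le
  obtain ⟨s, has, hsσ⟩ := exists_between hcon
  obtain ⟨c₀, hc₀, Hbad⟩ := few_bad h hc hcon hm hc₂ hβ hsσ
  set c : ℝ := min c₀ (1 / 10) with hcdef
  have hc0 : 0 < c := lt_min hc₀ (by norm_num)
  have hcc : c ≤ c₀ := min_le_left _ _
  have hc10 : c ≤ 1 / 10 := min_le_right _ _
  obtain ⟨J, hJ⟩ : ∃ J : ℕ, 16 / min (s - a) (s - a) < J := exists_nat_gt _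
  have hJ0 : (0 : ℝ) < (J : ℝ) + 1 := by positivity
  set hh : ℝ := R / ((J : ℝ) + 1) with hhh
  have hh0 : 0 < hh := by positivity
  have hyh : ((J : ℝ) + 1) * hh = R := by rw [hhh]; field_simp
  set ε : ℝ := σ * c * hh / 8 with hε
  have hε0 : 0 < ε := by positivity
  have hσc : σ * c ≤ 1 / 10 := by nlinarith
  have hε1 : ε ≤ hh / 20 := by rw [hε]; nlinarith
  set s1 : ℝ := c * hh with hs1
  have hs10 : 0 < s1 := by positivity
  have hhR : hh ≤ R := by
    rw [hhh]; exact div_le_self hR.le (by linarith [Nat.cast_nonneg (α := ℝ) J])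
  have hs1h : s1 ≤ hh / 10 := by rw [hs1]; nlinarith
  have hs1R : s1 ≤ R := by linarith
  have z : (0 : ℝ) ≤ 0 ∧ (0 : ℝ) ≤ R := ⟨le_rfl, hR.le⟩
  have yy : (0 : ℝ) ≤ R ∧ R ≤ R := ⟨hR.le, le_rfl⟩
  have hxj : ∀ j ≤ J, (0 : ℝ) ≤ (j : ℝ) * hh ∧ (j : ℝ) * hh ≤ R := by
    intro j hj
    have h1 : (j : ℝ) ≤ J := by exact_mod_cast hj
    refine ⟨by positivity, ?_⟩
    rw [← hyh]
    nlinarith
  have key := kauf_box h 0 hR.le le_rfl J (fun j => (j : ℝ) * hh) (bb s hh ε J) hε0 ![R, 0, R, 0]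
    (mem4 (p := 0) yy z yy z) (fun j => ![R, (j : ℝ) * hh, R, (j : ℝ) * hh])
    (fun j hj => mem4 (p := 0) yy (hxj j hj) yy (hxj j hj)) 2
    (fun n k₀ i i' => max |(G n).P i k₀ - (G n).P i' k₀| |(G n).X i k₀ - (G n).X i' k₀|)
    (by simp) (bb_J _ _ _ _) ?_
  · obtain ⟨j, hj, hj2⟩ := key
    have hx := hxj j hj
    have e1 := hc4 hc yy hx yy hx
    have e2 := hc4 hc yy z yy z
    rw [e1, e2, hc_one0 h hc hR.le le_rfl, hc_zero h hc] at hj2
    have e3 := lat_kauf h hc hm _ hx.1 hx.2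
    have e4 := hc_beta_mono h hc le_rfl hx.1 hx.2 hx.2 hx.1 le_rfl
    have e5 : s * ((j : ℝ) * hh) ≤ σ * ((j : ℝ) * hh) := mul_le_mul_of_nonneg_right hsσ.le hx.1
    refine arith_end hj ha0 has (hsσ.le.trans hσ1) (sub_pos.2 has) (by linarith) hh0 hε0.le hε1 ?_
    rw [hyh]
    have e6 : a + (s - a) = s := by ring
    rw [e6]
    linarith
  · have hbadAll : ∀ᶠ n in (U : Filter ℕ), ∀ l ∈ range J,
        ((badp (G n) (B.d n ^ (((l + 1 : ℕ) : ℝ) * hh)) c s).card : ℝ) ≤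
          (B.d n ^ (c * hh / 2)) ^ 2 * ((G n).Z.card : ℝ) ^ 2 := by
      rw [Filter.eventually_all_finset]
      intro l hl
      have hl1 : ((l + 1 : ℕ) : ℝ) ≤ J := by
        have : l + 1 ≤ J := by simpa using hl
        exact_mod_cast this
      have hl2 : (1 : ℝ) ≤ ((l + 1 : ℕ) : ℝ) := by push_cast; linarith [Nat.cast_nonneg (α := ℝ) l]
      have hyl : ((l + 1 : ℕ) : ℝ) * hh ≤ R := by rw [← hyh]; nlinarith
      filter_upwards [Hbad c hc0 hcc (((l + 1 : ℕ) : ℝ) * hh) (by positivity) hyl] with n hn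
      refine hn.trans ?_
      refine mul_le_mul_of_nonneg_right ?_ (by positivity)
      rw [← Real.rpow_mul (B.pos n).le, sq, ← dpow_add]
      refine dpow_anti B n ?_
      nlinarith
    filter_upwards [hbadAll, h.frost s1 hs10.le hs1R ε hε0,
      ev_const B (2 * (J : ℝ)) (show 0 < c * hh / 2 by positivity),
      ev_const_mul B 4 (show 2 * ε < σ * s1 - ε by rw [hs1, hε]; nlinarith),
      ev_const_mul B (4 * (J : ℝ)) (show 2 * ε < c * hh / 2 by rw [hε]; nlinarith),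
      ev_const B 22 (show 0 < hh - s1 by linarith),
      ev_const B 88 (show 0 < hh - 2 * s1 by linarith),
      ev_const B 2 hε0] with n hbad hfr hc1 hc2 hc3 hc22 hc88 hcε
    have hρ1 : (G n).ρ = B.d n := h.base n
    set θ : ℝ := B.d n ^ (c * hh / 2) with hθ
    have hθ0 : 0 < θ := dpow_pos B n _
    set bad : ℕ → Finset (ℕ × ℕ) := fun l =>
      badp (G n) (B.d n ^ (((l + 1 : ℕ) : ℝ) * hh)) c s with hbaddef
    set Z' := (G n).Z.filter fun k₀ => ∀ l ∈ range J,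
      (((G n).Z.filter fun k => (k₀, k) ∈ bad l).card : ℝ) ≤ θ * (G n).Z.card with hZ'
    have hmk : ((G n).Z.card : ℝ) ≤ 2 * (Z'.card : ℝ) := by
      have := markov_pins (G n).Z J bad hθ0 hbad hc1
      convert this using 3
    have hZpos : (0 : ℝ) < (G n).Z.card := by exact_mod_cast card_pos.2 (Z_nonempty h n)
    have hZ'pos : (0 : ℝ) < Z'.card := by linarith
    have hZ'Z : Z' ⊆ (G n).Z := filter_subset _ _
    have hpin : ∀ k₀ ∈ Z', ∀ l ∈ range J,
          (((G n).Z.filter fun k => (k₀, k) ∈ bad l).card : ℝ) ≤ θ * (G n).Z.card := by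
      intro k₀ hk₀'
      rw [hZ', mem_filter] at hk₀'; exact hk₀'.2
    clear_value Z'
    refine ⟨Z', hZ'Z, card_pos.1 (by exact_mod_cast hZ'pos), fun k₀ hk₀' =>
      ⟨Z'.filter fun k => B.d n ^ s1 < |(G n).z k - (G n).z k₀| ∧ ∀ l ∈ range J,
        (k₀, k) ∉ bad l, filter_subset _ _, ?_, ?_⟩⟩
    · have hk₀ := hZ'Z hk₀'
      have hcard := sdiff_count Z' ((G n).hbox s1 k₀) J
        (fun l => (G n).Z.filter fun k => (k₀, k) ∈ bad l)
        (fun k => B.d n ^ s1 < |(G n).z k - (G n).z k₀| ∧ ∀ l ∈ range J, (k₀, k) ∉ bad l) (by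
          intro k hk hgood
          by_cases hz : B.d n ^ s1 < |(G n).z k - (G n).z k₀|
          · right
            have h3 : ¬ ∀ l ∈ range J, (k₀, k) ∉ bad l := fun h4 => hgood ⟨hz, h4⟩
            push Not at h3
            obtain ⟨l, hl, h4⟩ := h3
            exact ⟨l, hl, mem_filter.2 ⟨hZ'Z hk, h4⟩⟩
          · left
            unfold Cfg.hbox
            rw [mem_filter, hρ1]
            exact ⟨hZ'Z hk, not_lt.1 hz⟩) (hpin k₀ hk₀')
      have h1 := hfr k₀ hk₀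
      have hd1 := dpow_pos B n (σ * s1 - ε)
      have hd2 := dpow_pos B n (2 * ε)
      have g1 : B.d n ^ (σ * s1 - ε) * ((G n).Z.card : ℝ) ≤ B.d n ^ (2 * ε) / 2 * Z'.card := by
        calc B.d n ^ (σ * s1 - ε) * ((G n).Z.card : ℝ) ≤ B.d n ^ (σ * s1 - ε) * (2 * Z'.card) :=
              mul_le_mul_of_nonneg_left hmk hd1.le
          _ = (4 * B.d n ^ (σ * s1 - ε)) / 2 * Z'.card := by ring
          _ ≤ B.d n ^ (2 * ε) / 2 * Z'.card := by gcongr
      have g2 : (J : ℝ) * (θ * (G n).Z.card) ≤ B.d n ^ (2 * ε) / 2 * Z'.card := by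
        calc (J : ℝ) * (θ * (G n).Z.card) ≤ J * (θ * (2 * Z'.card)) := by gcongr
          _ = (4 * J * θ) / 2 * Z'.card := by ring
          _ ≤ B.d n ^ (2 * ε) / 2 * Z'.card := by gcongr
      refine le_trans (le_of_eq ?_) (hcard.trans ?_)
      · congr
      · linarith
    have hk₀ := hZ'Z hk₀'
    intro i₀ hi₀
    have hL : ∀ i ∈ (G n).box ![R, 0, R, 0] i₀ k₀, i ∈ (G n).L := fun i hi =>
      slice_sub_L (box_sub_slice hi)
    have hP2 : ∀ i ∈ (G n).box ![R, 0, R, 0] i₀ k₀, ∀ i' ∈ (G n).box ![R, 0, R, 0] i₀ k₀,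
        |(G n).N i' k₀ - (G n).N i k₀| ≤ 2 * B.d n ^ R ∧
        |(G n).c i' - (G n).c i| ≤ 2 * B.d n ^ R := by
      intro i hi i' hi'
      have g1 := (mem_box.1 hi).2
      have g2 := (mem_box.1 hi').2
      have a1 := g1 0; have a2 := g2 0; have b1 := g1 2; have b2 := g2 2
      rw [hρ1] at a1 a2 b1 b2
      have a1' : |(G n).N i k₀ - (G n).N i₀ k₀| ≤ B.d n ^ R := a1
      have a2' : |(G n).N i' k₀ - (G n).N i₀ k₀| ≤ B.d n ^ R := a2
      have b1' : |(G n).c i - (G n).c i₀| ≤ B.d n ^ R := b1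
      have b2' : |(G n).c i' - (G n).c i₀| ≤ B.d n ^ R := b2
      rw [abs_le] at a1' a2' b1' b2' ⊢
      rw [abs_le]
      refine ⟨⟨?_, ?_⟩, ?_, ?_⟩ <;> linarith [a1'.1, a1'.2, a2'.1, a2'.2, b1'.1, b1'.2, b2'.1, b2'.2]
    refine ⟨fun i hi i' hi' => ?_, fun j hj i hi i' hi' hD l => ?_, fun j hj i hi i' hi' hD => ?_⟩
    · exact max_le (abs_co_sub_le (h.bd n) (hL i' hi') (hL i hi) hk₀ 1)
        (abs_co_sub_le (h.bd n) (hL i' hi') (hL i hi) hk₀ 3)
    · have hD2 := hD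
      rw [max_le_iff, abs_sub_comm, abs_sub_comm ((G n).X i k₀)] at hD2
      have hpos := dpow_pos B n ((j : ℝ) * hh)
      push_cast
      fin_cases l
      · exact (hP2 i hi i' hi').1
      · exact hD2.1.trans (show B.d n ^ ((j : ℝ) * hh) ≤ 2 * B.d n ^ ((j : ℝ) * hh) by linarith)
      · exact (hP2 i hi i' hi').2
      · exact hD2.2.trans (show B.d n ^ ((j : ℝ) * hh) ≤ 2 * B.d n ^ ((j : ℝ) * hh) by linarith)
    · set w := B.d n ^ (((j + 1 : ℕ) : ℝ) * hh) with hw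
      set t := B.d n ^ (((J - 1 - j : ℕ) : ℝ) * hh) with ht
      have hmul : B.d n ^ R = w * t * B.d n ^ hh := by
        rw [← hyh]; exact mesh_mul B n hj hh
      have hw0 : 0 < w := dpow_pos B n _
      have ht0 : 0 < t := dpow_pos B n _
      have ht1 : t ≤ 1 := dpow_le_one B n (by positivity)
      have he2 := dpow_pos B n ε
      have hε3 : 2 ≤ B.d n ^ (-(3 * ε)) := by
        have g1 : B.d n ^ (-(3 * ε)) * B.d n ^ (3 * ε) = 1 := by rw [← dpow_add]; simp
        have g2 : B.d n ^ (3 * ε) ≤ B.d n ^ ε := dpow_anti B n (by linarith)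
        have g3 := dpow_pos B n (3 * ε)
        have g4 : 2 * B.d n ^ (3 * ε) ≤ B.d n ^ (-(3 * ε)) * B.d n ^ (3 * ε) := by
          rw [g1]; linarith
        exact le_of_mul_le_mul_right g4 g3
      rw [bb_lt hj, hρ1]
      have hexp : B.d n ^ (s * (((J - 1 - j : ℕ) : ℝ) * hh) - 5 * ε + 2 * ε) =
          t ^ s * B.d n ^ (-(3 * ε)) := by
        rw [ht, ← Real.rpow_mul (B.pos n).le, ← dpow_add]
        congr 1; ring
      rw [hexp]
      have hts0 : 0 < t ^ s := Real.rpow_pos_of_pos ht0 _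
      have hfinal : t ^ s * ((G n).Z.card : ℝ) ≤ t ^ s * B.d n ^ (-(3 * ε)) * Z'.card := by
        calc t ^ s * ((G n).Z.card : ℝ) ≤ t ^ s * (2 * Z'.card) :=
              mul_le_mul_of_nonneg_left hmk hts0.le
          _ = t ^ s * 2 * Z'.card := by ring
          _ ≤ t ^ s * B.d n ^ (-(3 * ε)) * Z'.card := by gcongr
      rcases Nat.lt_or_ge (j + 1) J with hj1 | hj1
      · refine le_trans ?_ hfinal
        have hl : J - 2 - j ∈ range J := by simp; omega
        have hl1 : J - 2 - j + 1 = J - 1 - j := by omega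
        have hes1 : B.d n ^ hh = B.d n ^ (hh - 2 * s1) * (B.d n ^ s1) ^ 2 := by
          rw [sq, ← dpow_add, ← dpow_add]; congr 1; ring
        have hes2 : B.d n ^ hh = B.d n ^ (hh - s1) * B.d n ^ s1 := by
          rw [← dpow_add]; congr 1; ring
        have hs0 := dpow_pos B n s1
        refine le_trans (le_of_eq ?_) (slope_hts (h.bd n) (hL i hi) (hL i' hi') hk₀
          (Z'.filter fun k => B.d n ^ s1 < |(G n).z k - (G n).z k₀| ∧ ∀ l ∈ range J,
            (k₀, k) ∉ bad l) ((filter_subset _ _).trans hZ'Z) (e := B.d n ^ R) (s := B.d n ^ s1)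
            (w := w) (t := t) (r := t) (c := c) (σ := s) (dpow_pos B n _).le ?_ ?_ hs0
            (dpow_le_one B n hs10.le) hw0 ht0.le hD ?_ rfl ?_ ?_ ?_)
        · congr
        · rw [abs_sub_comm]; exact (hP2 i hi i' hi').1
        · rw [abs_sub_comm]; exact (hP2 i hi i' hi').2
        · rw [hmul, hes2]
          calc 22 * (w * t * (B.d n ^ (hh - s1) * B.d n ^ s1))
              = (22 * B.d n ^ (hh - s1)) * (t * (B.d n ^ s1 * w)) := by ring
            _ ≤ 1 * (1 * (B.d n ^ s1 * w)) := by gcongr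
            _ = _ := by ring
        · rw [ht, ← Real.rpow_mul (B.pos n).le]
          refine dpow_anti B n ?_
          rw [hs1, castJ hj]
          have g1 : (1 : ℝ) ≤ (J : ℝ) - 1 - j := by
            have : ((j + 1 + 1 : ℕ) : ℝ) ≤ J := by exact_mod_cast hj1
            push_cast at this; linarith
          have g2 : 0 < c * hh := by positivity
          nlinarith
        · rw [hmul, hes1]
          calc 88 * (w * t * (B.d n ^ (hh - 2 * s1) * (B.d n ^ s1) ^ 2))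
              = (88 * B.d n ^ (hh - 2 * s1)) * (t * ((B.d n ^ s1) ^ 2 * w)) := by ring
            _ ≤ 1 * (t * ((B.d n ^ s1) ^ 2 * w)) := mul_le_mul_of_nonneg_right hc88 (by positivity)
            _ = _ := by ring
        · intro k hk
          rw [mem_filter] at hk
          refine ⟨hk.2.1, ?_⟩
          have := hk.2.2 (J - 2 - j) hl
          rw [hbaddef] at this
          simp only [hl1] at this
          exact this
      · have hj2 : J - 1 - j = 0 := by omega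
        have ht2 : t = 1 := by rw [ht, hj2]; simp
        rw [ht2, Real.one_rpow, one_mul]
        have g1 : ((((Z'.filter fun k => B.d n ^ s1 < |(G n).z k - (G n).z k₀| ∧ ∀ l ∈ range J,
            (k₀, k) ∉ bad l).filter fun k => |(G n).co k i 0 - (G n).co k i' 0| ≤
              B.d n ^ R).card : ℕ) : ℝ) ≤ Z'.card := by
          exact_mod_cast card_le_card ((filter_subset _ _).trans (filter_subset _ _))
        refine le_trans (le_of_eq ?_) (g1.trans ?_)
        · congr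
        · have : (1 : ℝ) ≤ B.d n ^ (-(3 * ε)) := by linarith
          calc (Z'.card : ℝ) = 1 * Z'.card := (one_mul _).symm
            _ ≤ _ := by gcongr

end Crest.Agent.R138.TwF501
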