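import Crest.Agent.R138.Tw1_628
import Crest.Agent.R138.FalFM2_658_Mg
import Crest.Agent.R138.AeB_501
import Crest.Agent.R138.TwF_501
import Crest.Agent.R138.Dl4_848
import Crest.Agent.R138.ExtP_926
import Mathlib

-- ▼ part R138/Tw2_628
section

/-!
# R138: F-model, the transfer principle and the twist inequalities (helper628)
-/

set_option autoImplicit false
set_option linter.unusedVariables false
set_option linter.unusedSectionVars false

open Filter Topology Finset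

namespace Crest.Agent.R138.Tw628

open Crest.Agent.R138.Ex926 Crest.Agent.R138.FM501 Crest.Agent.R138.TwA501

variable {B : Base} {G : ℕ → Cfg} {σ R : ℝ} {ν : (Fin 4 → ℝ) → ℝ}

/-- a subset of a slice which is pairwise close at scale `C ρ^(p - ε)` has at most
`ρ^(-ν p - 5 ε)` elements -/
theorem card_pw_loss (h : FModel B G σ R ν) (C : ℕ) (p : Fin 4 → ℝ)
    (hp : ∀ j, 0 ≤ p j ∧ p j ≤ R) {ε : ℝ} (hε : 0 < ε) :
    ∀ᶠ n in (U : Filter ℕ), ∀ k ∈ (G n).Z, ∀ T ⊆ (G n).slice k,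
      (∀ i ∈ T, ∀ i' ∈ T, ∀ j, |(G n).co k i' j - (G n).co k i j| ≤ C * B.d n ^ (p j - ε)) →
      (T.card : ℝ) ≤ B.d n ^ (-ν p - 5 * ε) := by
  classical
  set p' : Fin 4 → ℝ := fun j => max 0 (p j - ε) with hp'
  have hp'm : ∀ j, 0 ≤ p' j ∧ p' j ≤ R := fun j =>
    ⟨le_max_left _ _, max_le h.R_pos.le (by linarith [(hp j).2])⟩
  have hp'le : p' ≤ p := fun j => max_le (hp j).1 (by linarith)
  have hlip := nu_lip h p' p hp'm hp hp'le
  have hsum : ∑ j, (p j - p' j) ≤ 4 * ε := by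
    calc ∑ j : Fin 4, (p j - p' j) ≤ ∑ j : Fin 4, ε :=
          sum_le_sum fun j _ => by
            have : p j - ε ≤ p' j := le_max_right _ _
            linarith
      _ = 4 * ε := by simp
  filter_upwards [card_pw h (C + 1) p' hp'm hε] with n hn k hk T hT hclose
  have h1 : (T.card : ℝ) ≤ B.d n ^ (-ν p' - ε) := by
    refine hn k T hT fun i hi i' hi' j => ?_
    have h2 := hclose i hi i' hi' j
    rcases le_total 0 (p j - ε) with h3 | h3
    · have h4 : p' j = p j - ε := max_eq_right h3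
      rw [h4]
      refine h2.trans ?_
      refine mul_le_mul_of_nonneg_right ?_ (dpow_pos B n _).le
      push_cast; linarith
    · have h4 : p' j = 0 := max_eq_left h3
      rw [h4, Real.rpow_zero, mul_one]
      have hi1 := (mem_slice_iff_I h).1 (hT hi)
      have hi1' := (mem_slice_iff_I h).1 (hT hi')
      have h5 := abs_co_sub_le (h.bd n) (mem_L_of_I h hi1) (mem_L_of_I h hi1') hk j
      refine h5.trans ?_
      push_cast
      have : (0 : ℝ) ≤ C := Nat.cast_nonneg _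
      linarith
  refine h1.trans (dpow_anti B n ?_)
  linarith

/-- number of cells, final form -/
theorem card_vlab' (h : FModel B G σ R ν) (p : Fin 4 → ℝ) (hp : ∀ j, 0 ≤ p j ∧ p j ≤ R)
    {ε : ℝ} (hε : 0 < ε) :
    ∀ᶠ n in (U : Filter ℕ), ∀ k ∈ (G n).Z, ∀ T ⊆ (G n).slice k,
      ((T.image (vlab (G n) p k)).card : ℝ) ≤ B.d n ^ (-(ν 0 - ν p) - ε) := by
  filter_upwards [card_vlab h p hp (half_pos hε), card_slice_le h (half_pos hε)]
    with n h1 h2 k hk T hT
  refine (h1 k T hT).trans ?_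
  have h3 : B.d n ^ (-(ν 0 - ν p) - ε) = B.d n ^ (-ν 0 - ε / 2) * B.d n ^ (ν p - ε / 2) := by
    rw [← dpow_add]; congr 1; ring
  rw [h3]
  exact mul_le_mul_of_nonneg_right (h2 k hk) (dpow_pos B n _).le

/-- the geometric hypothesis of the transfer principle: two lines of one `p`-box at height `k`
which are `r`-near at height `k'` are `p'`-near at `k`, up to the loss `g⁻¹`. -/
def Geo (B : Base) (G : ℕ → Cfg) (C : ℕ) (p r p' : Fin 4 → ℝ) : Prop :=
  ∀ n, ∀ k ∈ (G n).Z, ∀ k' ∈ (G n).Z, 0 < |(G n).f k - (G n).f k'| →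
    ∀ i ∈ (G n).L, ∀ i' ∈ (G n).L,
      (∀ j, |(G n).co k i' j - (G n).co k i j| ≤ B.d n ^ p j) →
      (∀ j, |(G n).co k' i' j - (G n).co k' i j| ≤ B.d n ^ r j) →
      ∀ j, |(G n).f k - (G n).f k'| * |(G n).co k i' j - (G n).co k i j| ≤ C * B.d n ^ p' j

/-- **transfer principle** -/
theorem transfer (h : FModel B G σ R ν) (hT : TwistMaj B G) (p r p' : Fin 4 → ℝ)
    (hp : ∀ j, 0 ≤ p j ∧ p j ≤ R) (hr : ∀ j, 0 ≤ r j ∧ r j ≤ R) (hp' : ∀ j, 0 ≤ p' j ∧ p' j ≤ R)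
    (C : ℕ) (hgeo : Geo B G C p r p') : ν p - ν p' ≤ ν 0 - ν r := by
  classical
  by_contra hcon
  push Not at hcon
  set γ := (ν p - ν p') - (ν 0 - ν r) with hγ
  have hγ0 : 0 < γ := by rw [hγ]; linarith
  set ε := γ / 8 with hε
  have hε0 : 0 < ε := by rw [hε]; linarith
  obtain ⟨n, h1, h2, h3⟩ := ((good_cell h hT p hp hε0).and
    ((card_vlab' h r hr hε0).and (card_pw_loss h C p' hp' hε0))).exists
  obtain ⟨k, hk, k', hk', hg, S, hS, hS', hSp, hSc⟩ := h1
  have hSpos : 0 < (S.card : ℝ) := lt_of_lt_of_le (dpow_pos B n _) hSc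
  have hgpos : 0 < |(G n).f k - (G n).f k'| := (dpow_pos B n _).trans hg
  -- fibres of the `r` label at `k'`
  have hfib : ∀ a ∈ S, ((S.filter fun x => vlab (G n) r k' x = vlab (G n) r k' a).card : ℝ) ≤
      B.d n ^ (-ν p' - 5 * ε) := by
    intro a ha
    refine h3 k hk _ ((filter_subset _ _).trans hS) fun i hi i' hi' j => ?_
    rw [mem_filter] at hi hi'
    have hiI := (mem_slice_iff_I h).1 (hS hi.1)
    have hiI' := (mem_slice_iff_I h).1 (hS hi'.1)
    have g1 : ∀ j, |(G n).co k i' j - (G n).co k i j| ≤ B.d n ^ p j := fun j => by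
      have := hSp i hi.1 i' hi'.1 j
      rwa [one_mul, h.base n] at this
    have g2 : ∀ j, |(G n).co k' i' j - (G n).co k' i j| ≤ B.d n ^ r j := fun j => by
      have := vlab_close (hρ h n) (hi'.2.trans hi.2.symm) j
      rwa [h.base n] at this
    have g3 := hgeo n k hk k' hk' hgpos i (mem_L_of_I h hiI) i' (mem_L_of_I h hiI') g1 g2 j
    have g4 : B.d n ^ ε * |(G n).co k i' j - (G n).co k i j| ≤ C * B.d n ^ p' j :=
      (mul_le_mul_of_nonneg_right hg.le (abs_nonneg _)).trans g3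
    have g5 : B.d n ^ p' j = B.d n ^ ε * B.d n ^ (p' j - ε) := by
      rw [← dpow_add]; congr 1; ring
    rw [g5] at g4
    have g6 : B.d n ^ ε * |(G n).co k i' j - (G n).co k i j| ≤
        B.d n ^ ε * (C * B.d n ^ (p' j - ε)) := by linarith
    exact le_of_mul_le_mul_left g6 (dpow_pos B n _)
  have h4 := card_le_of_fibers S (vlab (G n) r k') _ hfib
  have h5 := h2 k' hk' S hS'
  have h6 : B.d n ^ (-ν p + ε) ≤ B.d n ^ (-(ν 0 - ν r) - ε) * B.d n ^ (-ν p' - 5 * ε) :=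
    hSc.trans (h4.trans (mul_le_mul_of_nonneg_right h5 (dpow_pos B n _).le))
  rw [← dpow_add] at h6
  have h7 : B.d n ^ (-(ν 0 - ν r) - ε + (-ν p' - 5 * ε)) < B.d n ^ (-ν p + ε) := by
    refine Real.rpow_lt_rpow_of_exponent_gt (B.pos n) (B.lt n) ?_
    rw [hε, hγ]; linarith
  linarith

/-! ## the geometric facts -/

theorem abs_zk_sub_le {G : Cfg} (hb : G.Bd) {k k' : ℕ} (hk : k ∈ G.Z) (hk' : k' ∈ G.Z) :
    |G.z k' - G.z k| ≤ 2 := by
  have h1 := hb.z k hk; have h2 := hb.z k' hk'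
  refine (abs_sub _ _).trans ?_
  linarith

theorem abs_fk_sub_le {G : Cfg} (hb : G.Bd) {k k' : ℕ} (hk : k ∈ G.Z) (hk' : k' ∈ G.Z) :
    |G.f k' - G.f k| ≤ 2 := by
  have h1 := hb.f k hk; have h2 := hb.f k' hk'
  refine (abs_sub _ _).trans ?_
  linarith

/-- lateral velocity is determined by the two normal velocities -/
theorem g_mul_dC {G : Cfg} (i i' k k' : ℕ) {t : ℝ} (h0 : |G.P i' k - G.P i k| ≤ t)
    (h1 : |G.P i' k' - G.P i k'| ≤ t) : |G.f k - G.f k'| * |G.c i' - G.c i| ≤ 2 * t := by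
  rw [← abs_mul]
  have e : (G.f k - G.f k') * (G.c i' - G.c i) =
      (G.P i' k' - G.P i k') - (G.P i' k - G.P i k) := by
    unfold Cfg.P; ring
  rw [e]
  refine (abs_sub _ _).trans ?_
  linarith

/-- lateral position from the two normal positions -/
theorem g_mul_dX {G : Cfg} (hb : G.Bd) (i i' k k' : ℕ) (hk : k ∈ G.Z) (hk' : k' ∈ G.Z) {t s : ℝ}
    (h0 : |G.N i' k - G.N i k| ≤ t) (h1 : |G.P i' k - G.P i k| ≤ t)
    (h2 : |G.N i' k' - G.N i k'| ≤ t) (h3 : |G.f k - G.f k'| * |G.c i' - G.c i| ≤ s) :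
    |G.f k - G.f k'| * |G.X i' k - G.X i k| ≤ 4 * t + 2 * s := by
  rw [← abs_mul]
  have e : (G.f k - G.f k') * (G.X i' k - G.X i k) =
      (G.N i' k' - G.N i k') - (G.N i' k - G.N i k) - (G.z k' - G.z k) * (G.P i' k - G.P i k)
        - (G.z k' - G.z k) * ((G.f k - G.f k') * (G.c i' - G.c i)) := by
    unfold Cfg.N Cfg.P Cfg.X; ring
  rw [e]
  have hz := abs_zk_sub_le hb hk hk'
  have g1 : |(G.z k' - G.z k) * (G.P i' k - G.P i k)| ≤ 2 * t := by
    rw [abs_mul]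
    exact mul_le_mul hz h1 (abs_nonneg _) (by norm_num)
  have g2 : |(G.z k' - G.z k) * ((G.f k - G.f k') * (G.c i' - G.c i))| ≤ 2 * s := by
    rw [abs_mul, abs_mul]
    exact mul_le_mul hz h3 (by positivity) (by norm_num)
  refine (abs_sub _ _).trans ?_
  have g3 : |G.N i' k' - G.N i k' - (G.N i' k - G.N i k) - (G.z k' - G.z k) * (G.P i' k - G.P i k)|
      ≤ t + t + 2 * t := by
    refine (abs_sub _ _).trans ?_
    have := abs_sub (G.N i' k' - G.N i k') (G.N i' k - G.N i k)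
    linarith
  linarith

theorem f_mul_le_of_le {G : Cfg} (hb : G.Bd) {k k' : ℕ} (hk : k ∈ G.Z) (hk' : k' ∈ G.Z)
    {x t : ℝ} (hx : |x| ≤ t) : |G.f k - G.f k'| * |x| ≤ 2 * t := by
  have h1 := abs_fk_sub_le hb hk' hk
  exact mul_le_mul h1 hx (abs_nonneg _) (by norm_num)

/-- (W2): fibre in the lateral position -/
theorem geo_X (h : FModel B G σ R ν) {x : ℝ} (hx : 0 ≤ x) :
    Geo B G 8 ![x, x, x, 0] ![x, 0, 0, 0] ![x, x, x, x] := by
  intro n k hk k' hk' hg i hi i' hi' h1 h2 j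
  have hb := h.bd n
  have a0 := h1 0; have a1 := h1 1; have a2 := h1 2
  have b0 := h2 0
  simp only [Cfg.co, Matrix.cons_val_zero, Matrix.cons_val_one, Matrix.cons_val] at a0 a1 a2 b0
  have hC := f_mul_le_of_le hb hk hk' a2
  have hpos := dpow_pos B n x
  have key : ∀ {y : ℝ}, |(G n).f k - (G n).f k'| * |y| ≤ 8 * B.d n ^ x →
      |(G n).f k - (G n).f k'| * |y| ≤ (8 : ℕ) * B.d n ^ x := fun h => by push_cast; exact h
  fin_cases j
  · simp only [Cfg.co, Fin.zero_eta, Fin.isValue, Matrix.cons_val_zero]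
    refine key ((f_mul_le_of_le hb hk hk' a0).trans (by linarith))
  · simp only [Cfg.co, Fin.mk_one, Fin.isValue, Matrix.cons_val_one]
    refine key ((f_mul_le_of_le hb hk hk' a1).trans (by linarith))
  · simp only [Cfg.co, Fin.reduceFinMk, Matrix.cons_val]
    refine key (hC.trans (by linarith))
  · simp only [Cfg.co, Fin.reduceFinMk, Matrix.cons_val]
    refine key ((g_mul_dX hb i i' k k' hk hk' a0 a1 b0 hC).trans (by linarith))

/-- (W3): fibre in the lateral velocity -/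
theorem geo_C (h : FModel B G σ R ν) {x : ℝ} (hx : 0 ≤ x) :
    Geo B G 8 ![x, x, 0, x] ![0, x, 0, 0] ![x, x, x, x] := by
  intro n k hk k' hk' hg i hi i' hi' h1 h2 j
  have hb := h.bd n
  have a0 := h1 0; have a1 := h1 1; have a3 := h1 3
  have b1 := h2 1
  simp only [Cfg.co, Matrix.cons_val_zero, Matrix.cons_val_one, Matrix.cons_val] at a0 a1 a3 b1
  have hC := g_mul_dC i i' k k' a1 b1
  have hpos := dpow_pos B n x
  have key : ∀ {y : ℝ}, |(G n).f k - (G n).f k'| * |y| ≤ 8 * B.d n ^ x →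
      |(G n).f k - (G n).f k'| * |y| ≤ (8 : ℕ) * B.d n ^ x := fun h => by push_cast; exact h
  fin_cases j
  · simp only [Cfg.co, Fin.zero_eta, Fin.isValue, Matrix.cons_val_zero]
    refine key ((f_mul_le_of_le hb hk hk' a0).trans (by linarith))
  · simp only [Cfg.co, Fin.mk_one, Fin.isValue, Matrix.cons_val_one]
    refine key ((f_mul_le_of_le hb hk hk' a1).trans (by linarith))
  · simp only [Cfg.co, Fin.reduceFinMk, Matrix.cons_val]
    refine key (hC.trans (by linarith))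
  · simp only [Cfg.co, Fin.reduceFinMk, Matrix.cons_val]
    refine key ((f_mul_le_of_le hb hk hk' a3).trans (by linarith))


/-! ## consequences for the counting exponents -/

theorem vec_mem {a b c d : ℝ} (ha : 0 ≤ a ∧ a ≤ R) (hb : 0 ≤ b ∧ b ≤ R) (hc : 0 ≤ c ∧ c ≤ R)
    (hd : 0 ≤ d ∧ d ≤ R) (j : Fin 4) : 0 ≤ (![a, b, c, d] : Fin 4 → ℝ) j ∧
      (![a, b, c, d] : Fin 4 → ℝ) j ≤ R := by
  fin_cases j <;> simp [ha, hb, hc, hd]

theorem twist_X (h : FModel B G σ R ν) (hT : TwistMaj B G) {x : ℝ} (hx0 : 0 ≤ x) (hxR : x ≤ R) :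
    ν ![x, x, x, 0] - ν ![x, x, x, x] ≤ ν 0 - ν ![x, 0, 0, 0] := by
  have m0 : (0 : ℝ) ≤ 0 ∧ (0 : ℝ) ≤ R := ⟨le_rfl, h.R_pos.le⟩
  have mx : 0 ≤ x ∧ x ≤ R := ⟨hx0, hxR⟩
  exact transfer h hT _ _ _ (vec_mem mx mx mx m0) (vec_mem mx m0 m0 m0) (vec_mem mx mx mx mx) 8
    (geo_X h hx0)

theorem twist_C (h : FModel B G σ R ν) (hT : TwistMaj B G) {x : ℝ} (hx0 : 0 ≤ x) (hxR : x ≤ R) :
    ν ![x, x, 0, x] - ν ![x, x, x, x] ≤ ν 0 - ν ![0, x, 0, 0] := by
  have m0 : (0 : ℝ) ≤ 0 ∧ (0 : ℝ) ≤ R := ⟨le_rfl, h.R_pos.le⟩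
  have mx : 0 ≤ x ∧ x ≤ R := ⟨hx0, hxR⟩
  exact transfer h hT _ _ _ (vec_mem mx mx m0 mx) (vec_mem m0 mx m0 m0) (vec_mem mx mx mx mx) 8
    (geo_C h hx0)


/-- decoupled case: `y ≤ a` -/
theorem y_le_a (h : FModel B G σ R ν) (hT : TwistMaj B G) {a q m y : ℝ}
    (hD : Decoupled ν R a q m y) : y ≤ a := by
  have hR := h.R_pos
  have m0 : (0 : ℝ) ≤ 0 ∧ (0 : ℝ) ≤ R := ⟨le_rfl, hR.le⟩
  have mx : 0 ≤ R ∧ R ≤ R := ⟨hR.le, le_rfl⟩
  have h1 := twist_X h hT hR.le le_rfl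
  rw [hD _ (vec_mem mx mx mx m0), hD _ (vec_mem mx mx mx mx), hD _ (vec_mem mx m0 m0 m0)] at h1
  simp only [Matrix.cons_val_zero, Matrix.cons_val_one, Matrix.cons_val] at h1
  nlinarith

/-- decoupled case: `m ≤ q` -/
theorem m_le_q (h : FModel B G σ R ν) (hT : TwistMaj B G) {a q m y : ℝ}
    (hD : Decoupled ν R a q m y) : m ≤ q := by
  have hR := h.R_pos
  have m0 : (0 : ℝ) ≤ 0 ∧ (0 : ℝ) ≤ R := ⟨le_rfl, hR.le⟩
  have mx : 0 ≤ R ∧ R ≤ R := ⟨hR.le, le_rfl⟩
  have h1 := twist_C h hT hR.le le_rfl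
  rw [hD _ (vec_mem mx mx m0 mx), hD _ (vec_mem mx mx mx mx), hD _ (vec_mem m0 mx m0 m0)] at h1
  simp only [Matrix.cons_val_zero, Matrix.cons_val_one, Matrix.cons_val] at h1
  nlinarith


/-- half coupled case: the normal velocity carries the lateral velocity -/
theorem half_C (h : FModel B G σ R ν) (hT : TwistMaj B G) {a m : ℝ} {β : ℝ → ℝ → ℝ}
    (hD : HalfCoupled ν R a m β) {x : ℝ} (hx0 : 0 ≤ x) (hxR : x ≤ R) :
    m * x ≤ β x 0 := by
  have hR := h.R_pos
  have m0 : (0 : ℝ) ≤ 0 ∧ (0 : ℝ) ≤ R := ⟨le_rfl, hR.le⟩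
  have mx : 0 ≤ x ∧ x ≤ R := ⟨hx0, hxR⟩
  have h1 := twist_C h hT hx0 hxR
  have h0 := hD 0 (fun j => ⟨le_rfl, hR.le⟩)
  rw [hD _ (vec_mem mx mx m0 mx), hD _ (vec_mem mx mx mx mx), hD _ (vec_mem m0 mx m0 m0)] at h1
  simp only [Matrix.cons_val_zero, Matrix.cons_val_one, Matrix.cons_val, Pi.zero_apply] at h1 h0
  linarith


/-- all rates lie in `[0, 1]` (decoupled case) -/
theorem rates_mem (h : FModel B G σ R ν) {a q m y : ℝ} (hD : Decoupled ν R a q m y) :
    (0 ≤ a ∧ a ≤ 1) ∧ (0 ≤ q ∧ q ≤ 1) ∧ (0 ≤ m ∧ m ≤ 1) ∧ (0 ≤ y ∧ y ≤ 1) := by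
  have hR := h.R_pos
  have m0 : (0 : ℝ) ≤ 0 ∧ (0 : ℝ) ≤ R := ⟨le_rfl, hR.le⟩
  have mx : 0 ≤ R ∧ R ≤ R := ⟨hR.le, le_rfl⟩
  have h00 : ∀ j : Fin 4, 0 ≤ (![0, 0, 0, 0] : Fin 4 → ℝ) j ∧ (![0, 0, 0, 0] : Fin 4 → ℝ) j ≤ R :=
    vec_mem m0 m0 m0 m0
  have key : ∀ v : Fin 4 → ℝ, (∀ j, 0 ≤ v j ∧ v j ≤ R) →
      0 ≤ a * v 0 + q * v 1 + m * v 2 + y * v 3 ∧
      a * v 0 + q * v 1 + m * v 2 + y * v 3 ≤ v 0 + v 1 + v 2 + v 3 := by
    intro v hv
    have h1 := nu_anti h ![0, 0, 0, 0] v h00 hv (fun j => by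
      have := (hv j).1
      fin_cases j <;> simpa using this)
    have h2 := nu_lip h ![0, 0, 0, 0] v h00 hv (fun j => by
      have := (hv j).1
      fin_cases j <;> simpa using this)
    rw [hD _ hv, hD _ h00] at h1 h2
    simp only [Fin.sum_univ_four, Matrix.cons_val_zero, Matrix.cons_val_one, Matrix.cons_val]
      at h1 h2
    constructor <;> linarith
  have k0 := key ![R, 0, 0, 0] (vec_mem mx m0 m0 m0)
  have k1 := key ![0, R, 0, 0] (vec_mem m0 mx m0 m0)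
  have k2 := key ![0, 0, R, 0] (vec_mem m0 m0 mx m0)
  have k3 := key ![0, 0, 0, R] (vec_mem m0 m0 m0 mx)
  simp only [Matrix.cons_val_zero, Matrix.cons_val_one, Matrix.cons_val] at k0 k1 k2 k3
  refine ⟨⟨?_, ?_⟩, ⟨?_, ?_⟩, ⟨?_, ?_⟩, ⟨?_, ?_⟩⟩ <;> nlinarith

end Crest.Agent.R138.Tw628
end

-- ▼ part R138/Tw3_628
section

/-!
# R138: pointwise table of rates (helper628)

Frame independent.  `Rt σ a q m y` collects the scalar facts valid for the rates of a decoupled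
F-model (829: (K), (F1); 658: (F2)); `RtTw` adds the twist facts `y ≤ a`, `m ≤ q` (628).
`cst k μ a q m y` is the cost `P_v - μ P_t` of a path of slope `μ` in natural boxes with
rotation exponent `k`.
-/

set_option autoImplicit false
set_option linter.unusedVariables false

open Filter Topology Finset

namespace Crest.Agent.R138.Tw628

open Crest.Agent.R138.Ex926 Crest.Agent.R138.FM501 Crest.Agent.R138.TwA501

/-- scalar facts about the rates of a decoupled F-model -/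
structure Rt (σ a q m y : ℝ) : Prop where
  σ0 : 0 ≤ σ
  σ1 : σ ≤ 1
  a0 : 0 ≤ a
  a1 : a ≤ 1
  q0 : 0 ≤ q
  q1 : q ≤ 1
  m0 : 0 ≤ m
  m1 : m ≤ 1
  y0 : 0 ≤ y
  y1 : y ≤ 1
  /-- (K) -/
  K : min σ (a + q) ≤ a
  /-- (F1) -/
  F1 : 0 < m → σ ≤ y
  /-- (F2) -/
  F2 : 1 - σ < m → y = 1

/-- scalar facts about the rates of a decoupled, twisted F-model -/
structure RtTw (σ a q m y : ℝ) : Prop extends Rt σ a q m y where
  /-- (W2) -/
  W2 : y ≤ a
  /-- (W3) -/
  W3 : m ≤ q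

/-- cost `P_v - μ P_t`, `P_v = (1+k)(1-a) - k q + (1-y)`, `P_t = (1-a) + (1-y) - q - m` -/
def cst (k μ a q m y : ℝ) : ℝ :=
  ((1 + k) * (1 - a) - k * q + (1 - y)) - μ * ((1 - a) + (1 - y) - q - m)

theorem Rt.of_model {B : Base} {G : ℕ → Cfg} {σ R : ℝ} {ν : (Fin 4 → ℝ) → ℝ}
    (h : FModel B G σ R ν) {a q m y : ℝ} (hD : Decoupled ν R a q m y) : Rt σ a q m y where
  σ0 := h.σ_nonneg
  σ1 := h.σ_le
  a0 := (rates_mem h hD).1.1
  a1 := (rates_mem h hD).1.2
  q0 := (rates_mem h hD).2.1.1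
  q1 := (rates_mem h hD).2.1.2
  m0 := (rates_mem h hD).2.2.1.1
  m1 := (rates_mem h hD).2.2.1.2
  y0 := (rates_mem h hD).2.2.2.1
  y1 := (rates_mem h hD).2.2.2.2
  K := Tw829.rate_a_min h hD
  F1 := Tw829.rate_y h hD
  F2 := Fal658.y_eq_one h hD

theorem RtTw.of_model {B : Base} {G : ℕ → Cfg} {σ R : ℝ} {ν : (Fin 4 → ℝ) → ℝ}
    (h : FModel B G σ R ν) (hT : TwistMaj B G) {a q m y : ℝ} (hD : Decoupled ν R a q m y) :
    RtTw σ a q m y where
  toRt := Rt.of_model h hD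
  W2 := y_le_a h hT hD
  W3 := m_le_q h hT hD

section scalar

variable {σ a q m y k μ c : ℝ}

/-! ### values of the cost -/

theorem cst_zero : cst k 0 a q m y = (1 + k) * (1 - a) - k * q + (1 - y) := by
  unfold cst; ring


theorem cst_half : cst k (k / 2) a q m y =
    (1 - a) + (1 - y) + k / 2 * ((1 - a) - (1 - y)) + k / 2 * (m - q) := by
  unfold cst; ring




/-! ### without twist -/

theorem Rt.lam_le (h : Rt σ a q m y) (hm : 0 < m) : 1 - y ≤ 1 - σ := by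
  linarith [h.F1 hm]


/-- `D`-max in the normal direction (`1 ≤ a + q`) -/
theorem Rt.al_le_of_D (h : Rt σ a q m y) (hD : 1 ≤ a + q) : 1 - a ≤ 1 - σ := by
  rcases min_le_iff.1 h.K with h1 | h1
  · linarith
  · linarith [h.σ1]





/-- (T0) of 446: region `1 - σ < m`, normal `D`-max -/
theorem Rt.T0 (h : Rt σ a q m y) (hk0 : 0 ≤ k) (hms : 1 - σ < m) (hD : 1 ≤ a + q) :
    cst k 0 a q m y ≤ 1 - σ := by
  rw [cst_zero, h.F2 hms]
  have h2 := h.al_le_of_D hD
  have h3 : 0 ≤ k * (a + q - 1) := mul_nonneg hk0 (by linarith)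
  nlinarith

/-- (T1) of 446: `c_v - c_t ≤ α + m` -/
theorem T1 {ct : ℝ} (hk0 : 0 ≤ k) (hD : 1 ≤ a + q) (hDt : (1 - y) - m ≤ ct) :
    cst k 0 a q m y - ct ≤ (1 - a) + m := by
  rw [cst_zero]
  have h3 : 0 ≤ k * (a + q - 1) := mul_nonneg hk0 (by linarith)
  nlinarith




/-! ### with twist -/



theorem RtTw.al_le_lam (h : RtTw σ a q m y) : 1 - a ≤ 1 - y := by linarith [h.W2]


/-- slope `k / 2`, every `k ≥ 0`, `0 < m` -/
theorem RtTw.cost_half (h : RtTw σ a q m y) (hk0 : 0 ≤ k) (hm : 0 < m) :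
    cst k (k / 2) a q m y ≤ 2 * (1 - σ) := by
  rw [cst_half]
  have h1 := h.lam_le hm
  have h2 := h.al_le_lam
  have h3 := h.W3
  nlinarith










end scalar

/-! ### half coupled, `k = 1` -/

section half

variable {B : Base} {G : ℕ → Cfg} {σ R : ℝ} {ν : (Fin 4 → ℝ) → ℝ} {a m : ℝ} {β : ℝ → ℝ → ℝ}


/-- `β` is monotone in the first variable -/
theorem half_mono (h : FModel B G σ R ν) (hD : HalfCoupled ν R a m β) {x x' y : ℝ}
    (hx : 0 ≤ x) (hxx : x ≤ x') (hx' : x' ≤ R) (hy0 : 0 ≤ y) (hyR : y ≤ R) : β x y ≤ β x' y := by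
  have hR := h.R_pos
  have m0 : (0 : ℝ) ≤ 0 ∧ (0 : ℝ) ≤ R := ⟨le_rfl, hR.le⟩
  have e1 := vec_mem (R := R) m0 ⟨hx, hxx.trans hx'⟩ m0 ⟨hy0, hyR⟩
  have e2 := vec_mem (R := R) m0 ⟨hx.trans hxx, hx'⟩ m0 ⟨hy0, hyR⟩
  have h1 := nu_anti h ![0, x, 0, y] ![0, x', 0, y] e1 e2 (fun j => by
    fin_cases j <;> simp [hxx])
  rw [hD _ e1, hD _ e2] at h1
  simp only [Matrix.cons_val_zero, Matrix.cons_val_one, Matrix.cons_val] at h1
  linarith



/-- `k = 1`, region `1 - σ < m`, horizontal: `P_v = 3 - 2 a - Q ≤ 2 (1 - a)` -/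
theorem half_cost_zero (h : FModel B G σ R ν) (hD : HalfCoupled ν R a m β) (hms : 1 - σ < m)
    {Q x : ℝ} (hx0 : 0 < x) (hxR : x ≤ R) (hQ : β x x = Q * x) :
    3 - 2 * a - Q ≤ 2 * (1 - a) := by
  have h1 := Fal658.beta_zero_eq h hD hms x hx0.le hxR
  have h2 := half_mono h hD le_rfl hx0.le hxR hx0.le hxR
  rw [h1, hQ] at h2
  have h3 : 1 ≤ Q := by
    by_contra hcon
    push Not at hcon
    nlinarith
  linarith

/-- `k = 1`, region `1 - σ < m`, horizontal, with `σ ≤ a` -/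
theorem half_cost_zero' (h : FModel B G σ R ν) (hD : HalfCoupled ν R a m β) (hms : 1 - σ < m)
    (ha : σ ≤ a) {Q x : ℝ} (hx0 : 0 < x) (hxR : x ≤ R) (hQ : β x x = Q * x) :
    3 - 2 * a - Q ≤ 2 * (1 - σ) := by
  have := half_cost_zero h hD hms hx0 hxR hQ
  linarith





end half

end Crest.Agent.R138.Tw628
end

-- ▼ part R138/AeT4_501
section

/-!
# R138: the table of rates at one natural point (helper501)

`TanDec` = first order data of one tangent function (848's decoupling); `table_ne`, `table_one` =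
the table for `k ≠ 1` and `k = 1`.
-/

set_option autoImplicit false
set_option linter.unusedVariables false
set_option linter.unusedSectionVars false

open Filter Topology Finset

namespace Crest.Agent.R138.AeT501

open Crest.Agent.R138.Ex926 Crest.Agent.R138.FM501 Crest.Agent.R138.Flg101
open Crest.Agent.R138.TwMaj480 Crest.Agent.R138.Tw628

/-- first order data of a tangent function `lam` at a natural point: rates `r0` (normal position),
`r2` (lateral velocity), a function `β` of (normal velocity, lateral position) with `β u u = Q u`,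
loss `J` along the level `(S, k S)`. -/
structure TanDec (k : ℝ) (lam : (Fin 6 → ℝ) → ℝ) (r0 r2 Q J S Rp : ℝ) (β : ℝ → ℝ → ℝ) : Prop where
  A : ∀ p p' : Fin 4 → ℝ, (∀ j, 0 ≤ p j ∧ p j ≤ Rp) → (∀ j, 0 ≤ p' j ∧ p' j ≤ Rp) →
    lam (dir p S (k * S)) - lam (dir p' S (k * S)) =
      -(r0 * (p 0 - p' 0) + r2 * (p 2 - p' 2) + (β (p 1) (p 3) - β (p' 1) (p' 3)))
  B0 : β 0 0 = 0
  B : ∀ u, 0 ≤ u → u ≤ Rp → β u u = Q * u
  C0 : lam (dir (fun _ => Rp) 0 0) = -((r0 + r2 + Q) * Rp)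
  C1 : lam (dir (fun _ => Rp) S (k * S)) = -((r0 + r2 + Q) * Rp + J * S)

section

variable {ι : ℕ → Type} [∀ n, DecidableEq (ι n)]
variable {B : Base} {I : ∀ n, Finset (ι n)}
    {x : ∀ n, ι n → Inc} {line : ∀ n, ι n → ℕ} {ν : (Fin 6 → ℝ) → ℝ} {own : (Fin 2 → ℝ) → ℝ}
    {M k u₀ u₁ : ℝ} {w : ℝ → ℝ}

/-- the half coupled model at a natural point -/
theorem ExtB.half_model (hE : ExtB B I x line ν own M k u₀ u₁ w)
    {v t σ : ℝ} (hv0 : u₀ < v) (hv1 : v < u₁) (ht : 0 ≤ t) (hw : HasDerivAt w (-σ) v)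
    {h : ℕ → ℝ} (hpos : ∀ l, 0 < h l) (h0 : Tendsto h atTop (𝓝 0))
    {lam : (Fin 6 → ℝ) → ℝ} (htan : IsTan (LEG M) D6 ν (fun _ => X6 v (k * v) t) h lam)
    {r0 r2 Q J S Rp : ℝ} {β : ℝ → ℝ → ℝ} (hRp : 0 < Rp) (hS : Rp ≤ S) (hkS : Rp ≤ k * S)
    (hD : TanDec k lam r0 r2 Q J S Rp β) :
    σ ≤ J ∧ ∃ (B' : Base) (G' : ℕ → Cfg) (ν' : (Fin 4 → ℝ) → ℝ), FModel B' G' σ (Rp / 2) ν' ∧
      TwistMaj B' G' ∧ HalfCoupled ν' (Rp / 2) r0 r2 β := by
  obtain ⟨B₁, ι₁, hdec, I₁, x₁, line₁, hne₁, hE₁⟩ := hE.exists_nonempty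
  have hS0 : 0 < S := hRp.trans_le hS
  have hkS0 : 0 < k * S := hRp.trans_le hkS
  have hpz : ∀ j : Fin 4, (0 : ℝ) ≤ (0 : Fin 4 → ℝ) j ∧ (0 : Fin 4 → ℝ) j ≤ Rp := fun j =>
    ⟨le_rfl, hRp.le⟩
  have hpR : ∀ j : Fin 4, (0 : ℝ) ≤ (fun _ : Fin 4 => Rp) j ∧ (fun _ : Fin 4 => Rp) j ≤ Rp :=
    fun j => ⟨hRp.le, le_rfl⟩
  have hA0 := hD.A 0 (fun _ => Rp) hpz hpR
  simp only [Pi.zero_apply] at hA0
  rw [hD.B0, hD.B Rp hRp.le le_rfl] at hA0
  have hc0 : dir (fun _ => Rp) 0 0 ∈ D6 := dir_const_mem_D6 hRp.le le_rfl le_rfl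
  have hc1 : dir (fun _ => Rp) S (k * S) ∈ D6 := dir_const_mem_D6 hRp.le hS0.le hkS0.le
  have hJ : σ ≤ J := by
    have h1 := hE.tan_own_le hv0 hv1 hw hpos h0 htan hc0 hc1
      (dir_mono (fun _ => le_rfl) hS0.le hkS0.le)
      (by show (0 : ℝ) ≤ k * 0; simp) (by show k * S ≤ k * S; exact le_rfl)
    rw [hD.C0, hD.C1] at h1
    have e1 : dir (fun _ => Rp) S (k * S) 4 = S := rfl
    have e2 : dir (fun _ => Rp) (0 : ℝ) (0 : ℝ) 4 = 0 := rfl
    rw [e1, e2] at h1
    have h2 : σ * S ≤ J * S := by linarith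
    exact le_of_mul_le_mul_right h2 hS0
  refine ⟨hJ, ?_⟩
  obtain ⟨B', G', ν', hF, hT, hν'⟩ := hE₁.fm_of_tan hne₁ hv0 hv1 ht hw hpos h0 htan
    (R := Rp / 2) (Rp := Rp) (R4 := S) (R5 := k * S) (by linarith) (by linarith) hS hkS (by
      rw [hD.C0]; linarith)
  refine ⟨B', G', ν', hF, hT, fun p hp => ?_⟩
  have hp' : ∀ j, 0 ≤ p j ∧ p j ≤ Rp := fun j => ⟨(hp j).1, by linarith [(hp j).2]⟩
  have h1 := hν' p hp
  have h2 := hν' 0 (fun j => ⟨le_rfl, by show (0 : ℝ) ≤ Rp / 2; linarith⟩)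
  have h3 := hD.A p 0 hp' hpz
  simp only [Pi.zero_apply] at h3
  rw [hD.B0] at h3
  linarith

/-- **the table, `k ≠ 1`**: rates of a decoupled natural point -/
theorem ExtB.table_ne (hE : ExtB B I x line ν own M k u₀ u₁ w)
    {v t σ : ℝ} (hv0 : u₀ < v) (hv1 : v < u₁) (ht : 0 ≤ t) (hw : HasDerivAt w (-σ) v)
    {h : ℕ → ℝ} (hpos : ∀ l, 0 < h l) (h0 : Tendsto h atTop (𝓝 0))
    {lam : (Fin 6 → ℝ) → ℝ} (htan : IsTan (LEG M) D6 ν (fun _ => X6 v (k * v) t) h lam)
    {r0 r1 r2 r3 J S Rp : ℝ} (hRp : 0 < Rp) (hS : Rp ≤ S) (hkS : Rp ≤ k * S)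
    (hD : TanDec k lam r0 r2 (r1 + r3) J S Rp (fun u z => r1 * u + r3 * z)) :
    σ ≤ J ∧ RtTw σ r0 r1 r2 r3 := by
  obtain ⟨hJ, B', G', ν', hF, hT, hC⟩ := hE.half_model hv0 hv1 ht hw hpos h0 htan hRp hS hkS hD
  refine ⟨hJ, RtTw.of_model hF hT (a := r0) (q := r1) (m := r2) (y := r3) fun p hp => ?_⟩
  have := hC p hp
  simp only at this
  linarith

/-- cost of slope `k / 2` at a decoupled natural point -/
theorem ExtB.cost_ne (hE : ExtB B I x line ν own M k u₀ u₁ w)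
    {v t σ : ℝ} (hv0 : u₀ < v) (hv1 : v < u₁) (ht : 0 ≤ t) (hw : HasDerivAt w (-σ) v)
    {h : ℕ → ℝ} (hpos : ∀ l, 0 < h l) (h0 : Tendsto h atTop (𝓝 0))
    {lam : (Fin 6 → ℝ) → ℝ} (htan : IsTan (LEG M) D6 ν (fun _ => X6 v (k * v) t) h lam)
    {r0 r1 r2 r3 J S Rp : ℝ} (hRp : 0 < Rp) (hS : Rp ≤ S) (hkS : Rp ≤ k * S)
    (hD : TanDec k lam r0 r2 (r1 + r3) J S Rp (fun u z => r1 * u + r3 * z)) (hm : 0 < r2)
    {Pv Pt : ℝ} (hPv : Pv = -((1 + k) * r0 + k * r1 + r3 + J) + σ + (2 + k))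
    (hPt : Pt = -(r0 + r1 + r2 + r3) + 2) : Pv - k / 2 * Pt ≤ 2 * (1 - σ) := by
  obtain ⟨hJ, hR⟩ := hE.table_ne hv0 hv1 ht hw hpos h0 htan hRp hS hkS hD
  have h1 := hR.cost_half hE.k0.le hm
  unfold cst at h1
  rw [hPv, hPt]
  linarith

/-- **the table, `k = 1`** -/
theorem ExtB.table_one (hE : ExtB B I x line ν own M 1 u₀ u₁ w)
    {v t σ : ℝ} (hv0 : u₀ < v) (hv1 : v < u₁) (ht : 0 ≤ t) (hw : HasDerivAt w (-σ) v)
    {h : ℕ → ℝ} (hpos : ∀ l, 0 < h l) (h0 : Tendsto h atTop (𝓝 0))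
    {lam : (Fin 6 → ℝ) → ℝ} (htan : IsTan (LEG M) D6 ν (fun _ => X6 v (1 * v) t) h lam)
    {r0 r2 Q J S Rp : ℝ} {β : ℝ → ℝ → ℝ} (hRp : 0 < Rp) (hS : Rp ≤ S)
    (hD : TanDec 1 lam r0 r2 Q J S Rp β) (hm : 0 < r2) :
    σ ≤ J ∧ σ ≤ r0 ∧ (1 - σ < r2 → 3 - 2 * r0 - Q ≤ 2 * (1 - σ)) := by
  obtain ⟨hJ, B', G', ν', hF, hT, hC⟩ := hE.half_model hv0 hv1 ht hw hpos h0 htan hRp hS
    (by rw [one_mul]; exact hS) hD
  have ha : σ ≤ r0 := TwF501.K3core hF hC hm hm (fun z hz0 hzR => half_C hF hT hC hz0 hzR)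
  refine ⟨hJ, ha, fun hms => ?_⟩
  exact half_cost_zero' hF hC hms ha (x := Rp / 2) (by linarith) le_rfl
    (hD.B (Rp / 2) (by linarith) (by linarith))

/-- costs at a half coupled natural point -/
theorem ExtB.cost_one (hE : ExtB B I x line ν own M 1 u₀ u₁ w)
    {v t σ : ℝ} (hv0 : u₀ < v) (hv1 : v < u₁) (ht : 0 ≤ t) (hw : HasDerivAt w (-σ) v)
    {h : ℕ → ℝ} (hpos : ∀ l, 0 < h l) (h0 : Tendsto h atTop (𝓝 0))
    {lam : (Fin 6 → ℝ) → ℝ} (htan : IsTan (LEG M) D6 ν (fun _ => X6 v (1 * v) t) h lam)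
    {r0 r2 Q J S Rp : ℝ} {β : ℝ → ℝ → ℝ} (hRp : 0 < Rp) (hS : Rp ≤ S)
    (hD : TanDec 1 lam r0 r2 Q J S Rp β) (hm : 0 < r2)
    {Pv Pt : ℝ} (hPv : Pv = -(2 * r0 + Q + J) + σ + 3) (hPt : Pt = -(r0 + r2 + Q) + 2) :
    Pv - Pt ≤ (1 - σ) + r2 ∧ (1 - σ < r2 → Pv ≤ 2 * (1 - σ)) := by
  obtain ⟨hJ, ha, hf⟩ := hE.table_one hv0 hv1 ht hw hpos h0 htan hRp hS hD hm
  refine ⟨by rw [hPv, hPt]; linarith, fun hms => ?_⟩
  have := hf hms
  rw [hPv]; linarith

end

end Crest.Agent.R138.AeT501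
end

-- ▼ part R138/AeT5_501
section

/-!
# R138: bridge from the decoupled blow-up limit (848) to the table at one point (helper501)
-/

set_option autoImplicit false
set_option linter.unusedVariables false
set_option linter.unusedSectionVars false

open Filter Topology

namespace Crest.Agent.R138.AeT501

open Crest.Agent.R138.Ex926 Crest.Agent.R138.FM501 Crest.Agent.R138.Flg101
open Crest.Agent.R138.TwMaj480 Crest.Agent.R138.Tw628

/-- the positive cone of 926 is legal in the sense of 848 -/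
theorem leg_of_D6 {c : Fin 6 → ℝ} (hc : c ∈ D6) : c ∈ Dl848.LEG :=
  ⟨hc.2.1, hc.2.2.1, hc.2.2.2.1, hc.2.2.2.2⟩

theorem norm_dir_coord {p : Fin 4 → ℝ} {a b C : ℝ} (hp : ∀ j, |p j| ≤ C) (ha : |a| ≤ C)
    (hb : |b| ≤ C) : ∀ i, |dir p a b i| ≤ C := by
  intro i
  fin_cases i
  · exact hp 0
  · exact hp 1
  · exact hp 2
  · exact hp 3
  · exact ha
  · exact hb

section

variable {k : ℝ} {lam g : (Fin 6 → ℝ) → ℝ} {Nv Nt r0 r2 J S Rp : ℝ}

/-- values of the limit at the constant boxes -/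
theorem lim_C0 (hk : 0 < k) (hL : Dl848.Lim g 1 k Nv Nt r0 r2 J) :
    g (dir (fun _ => Rp) 0 0) = Rp * Nt := by
  have h1 := hL.hP 0 Rp
  have e1 : Dl848.T 1 k 0 Rp = dir (fun _ => Rp) 0 0 := by
    refine Dl848.ext6 ?_ ?_ ?_ ?_ ?_ ?_
    · show Rp + 1 * 0 + k * 0 = Rp; ring
    · show Rp + k * 0 = Rp; ring
    · rfl
    · show Rp + 1 * 0 = Rp; ring
    · show (1 : ℝ) * 0 = 0; ring
    · show k * 0 = (0 : ℝ); ring
  rw [e1] at h1
  rw [h1]; ring

theorem lim_C1 (hk : 0 < k) (hS : 0 < S) (hL : Dl848.Lim g 1 k Nv Nt r0 r2 J)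
    (hc0 : dir (fun _ => Rp) 0 0 ∈ D6) :
    g (dir (fun _ => Rp) S (k * S)) = Rp * Nt - J * S := by
  have h1 := hL.hJ1 S hS
  have h2 := hL.g3 _ (leg_of_D6 hc0) 0 (leg_of_D6 zero_mem_D6) rfl rfl (1 * S) (k * S)
    (by linarith) (by positivity)
  rw [h1] at h2
  unfold Dl848.Inc at h2
  have e1 : dir (fun _ => Rp) 0 0 + Dl848.w45 (1 * S) (k * S) = dir (fun _ => Rp) S (k * S) := by
    refine Dl848.ext6 ?_ ?_ ?_ ?_ ?_ ?_
    · show Rp + 0 = Rp; ring
    · show Rp + 0 = Rp; ring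
    · show Rp + 0 = Rp; ring
    · show Rp + 0 = Rp; ring
    · show 0 + 1 * S = S; ring
    · show 0 + k * S = k * S; ring
  rw [e1, lim_C0 hk hL] at h2
  linarith

/-- **bridge**: the general form -/
theorem tanDec_of_lim (hk : 0 < k) (hRp : 0 < Rp) (hS : Rp ≤ S) (hkS : Rp ≤ k * S)
    (hg : ∀ c ∈ D6, g c = lam c) (hL : Dl848.Lim g 1 k Nv Nt r0 r2 J) {R : ℝ}
    (hR1 : 2 * S ≤ R) (hR2 : 2 * (k * S) ≤ R) :
    TanDec k lam r0 r2 (-(Nt + r0 + r2)) J S Rp (Dl848.bet g R) := by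
  have hS0 : 0 < S := hRp.trans_le hS
  have hR0 : 0 ≤ R := by linarith
  have hc0 : dir (fun _ => Rp) 0 0 ∈ D6 := dir_const_mem_D6 hRp.le le_rfl le_rfl
  have hc1 : dir (fun _ => Rp) S (k * S) ∈ D6 :=
    dir_const_mem_D6 hRp.le hS0.le (hRp.le.trans hkS)
  have hB : ∀ v, |v| ≤ R / 2 → Dl848.bet g R v v = -(Nt + r0 + r2) * v := fun v hv =>
    hL.B0 one_pos hk (M := R / 2) (by linarith) hv
  refine
    { A := fun p p' hp hp' => ?_
      B0 := ?_
      B := fun u hu0 hu => ?_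
      C0 := ?_
      C1 := ?_ }
  · have m1 : dir p S (k * S) ∈ D6 := dir_mem_D6 hp hS hkS
    have m2 : dir p' S (k * S) ∈ D6 := dir_mem_D6 hp' hS hkS
    rw [← hg _ m1, ← hg _ m2]
    have habs : ∀ q : Fin 4 → ℝ, (∀ j, 0 ≤ q j ∧ q j ≤ Rp) → ∀ i, |dir q S (k * S) i| ≤ R / 2 := by
      intro q hq
      refine norm_dir_coord (fun j => ?_) ?_ ?_
      · rw [abs_of_nonneg (hq j).1]; linarith [(hq j).2]
      · rw [abs_of_pos hS0]; linarith
      · rw [abs_of_nonneg (hRp.le.trans hkS)]; linarith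
    have := hL.A (M := R / 2) (R := R) (by linarith) (leg_of_D6 m1) (leg_of_D6 m2) (habs p hp)
      (habs p' hp') rfl rfl
    rw [this]
    show -(r0 * (p 0 - p' 0) + r2 * (p 2 - p' 2) + Dl848.bet g R (p 1) (p 3) -
      Dl848.bet g R (p' 1) (p' 3)) = _
    ring
  · have := hB 0 (by rw [abs_zero]; linarith)
    rw [this, mul_zero]
  · exact hB u (by rw [abs_of_nonneg hu0]; linarith)
  · rw [← hg _ hc0, lim_C0 hk hL]; ring
  · rw [← hg _ hc1, lim_C1 hk hS0 hL hc0]; ring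

/-- **bridge**, `k ≠ 1` -/
theorem tanDec_of_lim_ne (hk : 0 < k) (hk1 : k ≠ 1) (hRp : 0 < Rp) (hS : Rp ≤ S)
    (hkS : Rp ≤ k * S) (hg : ∀ c ∈ D6, g c = lam c) (hL : Dl848.Lim g 1 k Nv Nt r0 r2 J) :
    ∃ r1 r3 : ℝ, r1 + r3 = -(Nt + r0 + r2) ∧ k * r1 + r3 = -(Nv + J + r0 * (1 + k)) ∧
      TanDec k lam r0 r2 (r1 + r3) J S Rp (fun u z => r1 * u + r3 * z) := by
  have hS0 : 0 < S := hRp.trans_le hS
  have hne : 1 - k ≠ 0 := sub_ne_zero.2 (Ne.symm hk1)
  obtain ⟨r1, r3, h13, h13'⟩ : ∃ r1 r3 : ℝ, r1 + r3 = -(Nt + r0 + r2) ∧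
      k * r1 + r3 = -(Nv + J + r0 * (1 + k)) := by
    refine ⟨(-(Nt + r0 + r2) + (Nv + J + r0 * (1 + k))) / (1 - k),
      (-(Nv + J + r0 * (1 + k)) + k * (Nt + r0 + r2)) / (1 - k), ?_, ?_⟩
    · field_simp; ring
    · field_simp; ring
  refine ⟨r1, r3, h13, h13', ?_⟩
  set R : ℝ := max (2 * S) (2 * (k * S)) with hR
  have hR1 : 2 * S ≤ R := le_max_left _ _
  have hR2 : 2 * (k * S) ≤ R := le_max_right _ _
  have hT := tanDec_of_lim hk hRp hS hkS hg hL hR1 hR2
  have hbet : ∀ u z : ℝ, 0 ≤ u → u ≤ Rp → 0 ≤ z → z ≤ Rp →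
      Dl848.bet g R u z = r1 * u + r3 * z := by
    intro u z hu0 hu hz0 hz
    refine hL.C one_pos hk (Ne.symm hk1) (M := R / 2) (by linarith) ?_ ?_ h13 ?_
    · rw [abs_of_nonneg hu0]; linarith
    · rw [abs_of_nonneg hz0]; linarith
    · linarith
  refine
    { A := fun p p' hp hp' => ?_
      B0 := by simp
      B := fun u hu0 hu => by ring
      C0 := ?_
      C1 := ?_ }
  · have := hT.A p p' hp hp'
    rw [hbet _ _ (hp 1).1 (hp 1).2 (hp 3).1 (hp 3).2,
      hbet _ _ (hp' 1).1 (hp' 1).2 (hp' 3).1 (hp' 3).2] at this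
    exact this
  · have := hT.C0
    rw [this, h13]
  · have := hT.C1
    rw [this, h13]

end

section

variable {ι : ℕ → Type} [∀ n, DecidableEq (ι n)]
variable {B : Base} {I : ∀ n, Finset (ι n)}
    {x : ∀ n, ι n → Inc} {line : ∀ n, ι n → ℕ} {ν : (Fin 6 → ℝ) → ℝ} {own : (Fin 2 → ℝ) → ℝ}
    {M k u₀ u₁ : ℝ} {w : ℝ → ℝ}

/-- **The table at one natural point**, from 848's limit: `Nv`, `Nt` are the derivatives of
`ν ∘ X`, `Nv + σ + (2 + k)` and `Nt + 2` those of the log density. -/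
theorem ExtB.at_point (hE : ExtB B I x line ν own M k u₀ u₁ w)
    {v t σ : ℝ} (hv0 : u₀ < v) (hv1 : v < u₁) (ht : 0 ≤ t) (hw : HasDerivAt w (-σ) v)
    {h : ℕ → ℝ} (hpos : ∀ l, 0 < h l) (h0 : Tendsto h atTop (𝓝 0))
    {lam g : (Fin 6 → ℝ) → ℝ} (htan : IsTan (LEG M) D6 ν (fun _ => X6 v (k * v) t) h lam)
    (hg : ∀ c ∈ D6, g c = lam c) {Nv Nt r0 r2 J : ℝ} (hL : Dl848.Lim g 1 k Nv Nt r0 r2 J)
    (hm : 0 < r2) :
    (k ≠ 1 → (Nv + σ + (2 + k)) - k / 2 * (Nt + 2) ≤ 2 * (1 - σ)) ∧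
    (k = 1 → (Nv + σ + (2 + k)) - (Nt + 2) ≤ (1 - σ) + r2 ∧
      (1 - σ < r2 → Nv + σ + (2 + k) ≤ 2 * (1 - σ))) := by
  have hk := hE.k0
  set S : ℝ := max 1 (1 / k) with hSdef
  have hS1 : 1 ≤ S := le_max_left _ _
  have hkS : 1 ≤ k * S := by
    have : 1 / k ≤ S := le_max_right _ _
    calc (1 : ℝ) = k * (1 / k) := by field_simp
      _ ≤ k * S := mul_le_mul_of_nonneg_left this hk.le
  constructor
  · intro hk1
    obtain ⟨r1, r3, h13, h13', hT⟩ := tanDec_of_lim_ne (Rp := 1) hk hk1 one_pos hS1 hkS hg hL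
    refine hE.cost_ne hv0 hv1 ht hw hpos h0 htan one_pos hS1 hkS hT hm ?_ ?_
    · linarith
    · linarith
  · intro hk1
    subst hk1
    have hT := tanDec_of_lim (Rp := 1) (R := 2 * S) one_pos one_pos hS1 hkS hg hL le_rfl
      (by rw [one_mul])
    have hB := hL.B one_pos one_pos (u := 1) (v := 0) (M := 2) (R := 4) (by norm_num) (by
      intro i
      have e : Dl848.T 1 1 1 0 = ![2, 1, 0, 1, 1, 1] := by
        refine Dl848.ext6 ?_ ?_ ?_ ?_ ?_ ?_
        · show (0 : ℝ) + 1 * 1 + 1 * 1 = 2; norm_num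
        · show (0 : ℝ) + 1 * 1 = 1; norm_num
        · rfl
        · show (0 : ℝ) + 1 * 1 = 1; norm_num
        · show (1 : ℝ) * 1 = 1; norm_num
        · show (1 : ℝ) * 1 = 1; norm_num
      rw [e]
      fin_cases i <;> norm_num)
    have hB0 := hL.B0 one_pos one_pos (v := 1) (M := 2) (R := 4) (by norm_num) (by norm_num)
    have e1 : (0 : ℝ) + 1 * 1 = 1 := by norm_num
    rw [e1, hB0] at hB
    obtain ⟨c1, c2⟩ := hE.cost_one hv0 hv1 ht hw hpos h0 htan one_pos hS1 hT hm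
      (Pv := Nv + σ + (2 + 1)) (Pt := Nt + 2) (by linarith) (by linarith)
    exact ⟨c1, c2⟩

end

end Crest.Agent.R138.AeT501
end

-- ▼ part R138/P1_120
section

/-!
# R138: from the profile `ν` to the lateral rate `m` (helper120)

Pure real analysis over `LEG M`: `NP` = the real-valued part of `ExtP` (with the weak resolution
hypothesis `1 + k ≤ M`, `θ ≤ M`), `W k v n l h` = all points which are used, losses, anchor,
average, the rate `m`, `(W)` and `(S)`.
-/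

set_option autoImplicit false
set_option linter.unusedVariables false

open Filter Topology MeasureTheory Set
open scoped NNReal ENNReal

namespace Crest.Agent.R138.P120

open Crest.Agent.R138.Ex926

/-- level `v`, normal exponent `k v + n`, lateral exponent `l`, additional lateral angle `h` -/
def W (k v n l h : ℝ) : Fin 6 → ℝ := ![(1 + k) * v + n, k * v + n, l + h, v + l, v, k * v]

theorem Bx6_eq (k v n l : ℝ) : Bx6 v l (k * v + n) (k * v) = W k v n l 0 := by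
  funext i
  fin_cases i
  · show v + (k * v + n) = (1 + k) * v + n; ring
  · rfl
  · show l = l + 0; ring
  · rfl
  · rfl
  · rfl

theorem X6_eq (k v t : ℝ) : X6 v (k * v) t = W k v t t 0 := by
  funext i
  fin_cases i
  · show t + v + k * v = (1 + k) * v + t; ring
  · show t + k * v = k * v + t; ring
  · show t = t + 0; ring
  · show t + v = v + t; ring
  · rfl
  · rfl

theorem W_mem {M k v n l h : ℝ} (hk : 0 ≤ k) (hv : 0 ≤ v) (hn : 0 ≤ n) (hnl : n ≤ l)
    (hh : 0 ≤ h) (h0 : (1 + k) * v + n ≤ M) (h2 : l + h ≤ M) (h3 : v + l ≤ M) :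
    W k v n l h ∈ LEG M := by
  have hkv : 0 ≤ k * v := mul_nonneg hk hv
  have e0 : (1 + k) * v + n = v + k * v + n := by ring
  rw [mem_LEG]
  refine ⟨?_, ?_, ?_, ?_, ?_⟩
  · intro a
    fin_cases a
    · show 0 ≤ (1 + k) * v + n ∧ (1 + k) * v + n ≤ M
      constructor <;> linarith
    · show 0 ≤ k * v + n ∧ k * v + n ≤ M
      constructor <;> linarith
    · show 0 ≤ l + h ∧ l + h ≤ M
      constructor <;> linarith
    · show 0 ≤ v + l ∧ v + l ≤ M
      constructor <;> linarith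
    · show 0 ≤ v ∧ v ≤ M
      constructor <;> linarith
    · show 0 ≤ k * v ∧ k * v ≤ M
      constructor <;> linarith
  · show (1 + k) * v + n ≤ (k * v + n) + v
    linarith
  · show v + l ≤ (l + h) + v
    linarith
  · show (1 + k) * v + n ≤ k * v + (v + l)
    linarith
  · show k * v + n ≤ k * v + (l + h)
    linarith

theorem W_le {k v n l h v' n' l' h' : ℝ} (hk : 0 ≤ k) (hv : v' ≤ v) (hn : k * v' + n' ≤ k * v + n)
    (h2 : l' + h' ≤ l + h) (h3 : v' + l' ≤ v + l) : W k v' n' l' h' ≤ W k v n l h := by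
  intro a
  have := mul_le_mul_of_nonneg_left hv hk
  fin_cases a
  · show (1 + k) * v' + n' ≤ (1 + k) * v + n
    nlinarith
  · exact hn
  · exact h2
  · exact h3
  · exact hv
  · exact this

theorem W_sup {k v n l h v' n' : ℝ} (hk : 0 ≤ k) (hv : v' ≤ v) (hn : k * v' + n' ≤ k * v + n)
    (hh : 0 ≤ h) : W k v n l 0 ⊔ W k v' n' l h = W k v n l h := by
  have hkv := mul_le_mul_of_nonneg_left hv hk
  funext a
  fin_cases a
  · show max ((1 + k) * v + n) ((1 + k) * v' + n') = (1 + k) * v + n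
    rw [max_eq_left]; nlinarith
  · show max (k * v + n) (k * v' + n') = k * v + n
    rw [max_eq_left hn]
  · show max (l + 0) (l + h) = l + h
    rw [max_eq_right]; linarith
  · show max (v + l) (v' + l) = v + l
    rw [max_eq_left]; linarith
  · show max v v' = v
    rw [max_eq_left hv]
  · show max (k * v) (k * v') = k * v
    rw [max_eq_left hkv]

theorem W_inf {k v n l h v' n' : ℝ} (hk : 0 ≤ k) (hv : v' ≤ v) (hn : k * v' + n' ≤ k * v + n)
    (hh : 0 ≤ h) : W k v n l 0 ⊓ W k v' n' l h = W k v' n' l 0 := by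
  have hkv := mul_le_mul_of_nonneg_left hv hk
  funext a
  fin_cases a
  · show min ((1 + k) * v + n) ((1 + k) * v' + n') = (1 + k) * v' + n'
    rw [min_eq_right]; nlinarith
  · show min (k * v + n) (k * v' + n') = k * v' + n'
    rw [min_eq_right hn]
  · show min (l + 0) (l + h) = l + 0
    rw [min_eq_left]; linarith
  · show min (v + l) (v' + l) = v' + l
    rw [min_eq_right]; linarith
  · show min v v' = v'
    rw [min_eq_right hv]
  · show min (k * v) (k * v') = k * v'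
    rw [min_eq_right hkv]

/-- the real-valued part of `ExtP`, with the weak resolution hypothesis -/
structure NP (k q s b θ c₀ M : ℝ) (ν : (Fin 6 → ℝ) → ℝ) : Prop where
  k0 : 0 < k
  q0 : 0 < q
  θ0 : 0 < θ
  M1 : 1 + k ≤ M
  M2 : θ ≤ M
  lip : ∀ p ∈ LEG M, ∀ p' ∈ LEG M, p ≤ p' → 0 ≤ ν p - ν p' ∧ ν p - ν p' ≤ ∑ a, (p' a - p a)
  submod : ∀ p ∈ LEG M, ∀ p' ∈ LEG M, p ⊓ p' ∈ LEG M →
    ν p + ν p' ≤ ν (p ⊔ p') + ν (p ⊓ p')
  dmax : ∀ v n l : ℝ, 0 ≤ v → v ≤ 1 → 0 ≤ n → n ≤ l → l ≤ n + k * v → (1 + k) * v + n ≤ M →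
    ν (W k v n l 0) - (1 - s) * (1 - v) + (2 + k) * v + n + l ≤ c₀ + b * v - q * l
  record : ∀ v : ℝ, 0 ≤ v → v ≤ 1 →
    ν (W k v (θ * (1 - v)) (θ * (1 - v)) 0) - (1 - s) * (1 - v) + (2 + k) * v + θ * (1 - v) +
      θ * (1 - v) = c₀ + b * v - q * (θ * (1 - v))

variable {k q s b θ c₀ M : ℝ} {ν : (Fin 6 → ℝ) → ℝ}

/-- `ExtP` (any version with `1 + k ≤ M`, `θ ≤ M`) gives `NP` -/
theorem NP.of_ext {own : (Fin 2 → ℝ) → ℝ} (k0 : 0 < k) (q0 : 0 < q) (θ0 : 0 < θ)
    (M1 : 1 + k ≤ M) (M2 : θ ≤ M)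
    (lip : ∀ p ∈ LEG M, ∀ p' ∈ LEG M, p ≤ p' → 0 ≤ ν p - ν p' ∧ ν p - ν p' ≤ ∑ a, (p' a - p a))
    (submod : ∀ p ∈ LEG M, ∀ p' ∈ LEG M, p ⊓ p' ∈ LEG M →
      ν p + ν p' ≤ ν (p ⊔ p') + ν (p ⊓ p'))
    (own_z : ∀ v : ℝ, 0 ≤ v → v ≤ 1 → own ![v, 0] = (1 - s) * (1 - v))
    (dmax : ∀ v l nn : ℝ, 0 ≤ v → v ≤ 1 → 0 ≤ l → l ≤ nn → nn ≤ l + k * v →
      Bx6 v l nn (k * v) ∈ LEG M →
      ν (Bx6 v l nn (k * v)) - own ![v, 0] + 2 * v + nn + l ≤ c₀ + b * v - q * l)
    (record : ∀ v : ℝ, 0 ≤ v → v ≤ 1 →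
      ν (Bx6 v (θ * (1 - v)) (θ * (1 - v) + k * v) (k * v)) - own ![v, 0] + 2 * v +
        (θ * (1 - v) + k * v) + θ * (1 - v) = c₀ + b * v - q * (θ * (1 - v))) :
    NP k q s b θ c₀ M ν where
  k0 := k0
  q0 := q0
  θ0 := θ0
  M1 := M1
  M2 := M2
  lip := lip
  submod := submod
  dmax := by
    intro v n l hv hv1 hn hnl hl h0
    have hmem : W k v n l 0 ∈ LEG M :=
      W_mem k0.le hv hn hnl le_rfl h0 (by
        have := mul_nonneg k0.le hv
        nlinarith) (by nlinarith)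
    have h := dmax v l (k * v + n) hv hv1 (hn.trans hnl) (by linarith) (by linarith)
      (by rw [Bx6_eq]; exact hmem)
    rw [Bx6_eq, own_z v hv hv1] at h
    linarith
  record := by
    intro v hv hv1
    have h := record v hv hv1
    rw [add_comm (θ * (1 - v)) (k * v), Bx6_eq, own_z v hv hv1] at h
    linarith

/-! ### losses -/

/-- the loss of lines when the lateral angle is narrowed by `h` -/
def loss (ν : (Fin 6 → ℝ) → ℝ) (k v n l h : ℝ) : ℝ := ν (W k v n l 0) - ν (W k v n l h)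

theorem sum_W (k v n l h v' n' l' h' : ℝ) : ∑ a, (W k v' n' l' h' a - W k v n l h a) =
    ((1 + k) * v' + n' - ((1 + k) * v + n)) + (k * v' + n' - (k * v + n)) +
      (l' + h' - (l + h)) + (v' + l' - (v + l)) + (v' - v) + (k * v' - k * v) := by
  rw [Fin.sum_univ_six]
  rfl

theorem NP.loss_mem (N : NP k q s b θ c₀ M ν) {v n l h : ℝ} (hv : 0 ≤ v) (hn : 0 ≤ n)
    (hnl : n ≤ l) (hh : 0 ≤ h) (h0 : (1 + k) * v + n ≤ M) (h2 : l + h ≤ M) (h3 : v + l ≤ M) :
    0 ≤ loss ν k v n l h ∧ loss ν k v n l h ≤ h := by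
  have m1 : W k v n l 0 ∈ LEG M := W_mem N.k0.le hv hn hnl le_rfl h0 (by linarith) h3
  have m2 : W k v n l h ∈ LEG M := W_mem N.k0.le hv hn hnl hh h0 h2 h3
  have := N.lip _ m1 _ m2 (W_le N.k0.le le_rfl le_rfl (by linarith) le_rfl)
  rw [sum_W] at this
  unfold loss
  constructor
  · exact this.1
  · linarith [this.2]

/-- losses are antitone in everything but the lateral angle -/
theorem NP.loss_anti (N : NP k q s b θ c₀ M ν) {v n l h v' n' : ℝ} (hv' : 0 ≤ v') (hvv : v' ≤ v)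
    (hn : 0 ≤ n) (hn' : 0 ≤ n') (hnn : k * v' + n' ≤ k * v + n) (hnl : n ≤ l) (hnl' : n' ≤ l)
    (hh : 0 ≤ h) (h0 : (1 + k) * v + n ≤ M) (h2 : l + h ≤ M) (h3 : v + l ≤ M) :
    loss ν k v n l h ≤ loss ν k v' n' l h := by
  have hv : 0 ≤ v := hv'.trans hvv
  have m1 : W k v n l 0 ∈ LEG M := W_mem N.k0.le hv hn hnl le_rfl h0 (by linarith) h3
  have h0' : (1 + k) * v' + n' ≤ M := by nlinarith
  have m2 : W k v' n' l h ∈ LEG M :=
    W_mem N.k0.le hv' hn' hnl' hh h0' h2 (by linarith)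
  have m3 : W k v' n' l 0 ∈ LEG M :=
    W_mem N.k0.le hv' hn' hnl' le_rfl h0' (by linarith) (by linarith)
  have h := N.submod _ m1 _ m2 (by rw [W_inf N.k0.le hvv hnn hh]; exact m3)
  rw [W_inf N.k0.le hvv hnn hh, W_sup N.k0.le hvv hnn hh] at h
  unfold loss
  linarith

/-- narrowing lateral angle and lateral position together costs at most `h` more -/
theorem NP.loss_low (N : NP k q s b θ c₀ M ν) {v n l h : ℝ} (hv : 0 ≤ v) (hn : 0 ≤ n)
    (hnl : n ≤ l) (hh : 0 ≤ h) (h0 : (1 + k) * v + n ≤ M) (h2 : l + h ≤ M) (h3 : v + l + h ≤ M) :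
    ν (W k v n l 0) - ν (W k v n (l + h) 0) - h ≤ loss ν k v n l h := by
  have m2 : W k v n l h ∈ LEG M := W_mem N.k0.le hv hn hnl hh h0 h2 (by linarith)
  have m3 : W k v n (l + h) 0 ∈ LEG M :=
    W_mem N.k0.le hv hn (by linarith) le_rfl h0 (by linarith) (by linarith)
  have := N.lip _ m2 _ m3 (W_le N.k0.le le_rfl le_rfl (by linarith) (by linarith))
  rw [sum_W] at this
  unfold loss
  linarith [this.2]

theorem NP.rec_le (N : NP k q s b θ c₀ M ν) {v : ℝ} (hv : 0 ≤ v) (hv1 : v ≤ 1) :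
    (1 + k) * v + θ * (1 - v) ≤ M := by
  nlinarith [N.M1, N.M2]

/-- `D`-max at the record -/
theorem NP.rec_drop (N : NP k q s b θ c₀ M ν) {v x : ℝ} (hv : 0 ≤ v) (hv1 : v ≤ 1) (hx : 0 ≤ x)
    (hxk : x ≤ k * v) : (1 + q) * x ≤ ν (W k v (θ * (1 - v)) (θ * (1 - v)) 0) -
      ν (W k v (θ * (1 - v)) (θ * (1 - v) + x) 0) := by
  have h1 := N.record v hv hv1
  have h2 := N.dmax v (θ * (1 - v)) (θ * (1 - v) + x) hv hv1
    (mul_nonneg N.θ0.le (by linarith)) (by linarith) (by linarith) (N.rec_le hv hv1)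
  nlinarith

/-- the loss at the record is at least `q h` -/
theorem NP.rec_loss (N : NP k q s b θ c₀ M ν) {v h : ℝ} (hv : 0 ≤ v) (hv1 : v ≤ 1) (hh : 0 ≤ h)
    (hhk : h ≤ k * v) : q * h ≤ loss ν k v (θ * (1 - v)) (θ * (1 - v)) h := by
  have h1 := N.rec_drop hv hv1 hh hhk
  have h2 := N.rec_le hv hv1
  have h3 : 0 ≤ θ * (1 - v) := mul_nonneg N.θ0.le (by linarith)
  have h4 := N.loss_low hv h3 le_rfl hh h2 (by linarith) (by linarith)
  linarith

theorem NP.q1 (N : NP k q s b θ c₀ M ν) : q ≤ 1 := by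
  have hk := N.k0
  have h2 := N.rec_le (v := 1) (by norm_num) le_rfl
  have h1 := N.rec_loss (v := 1) (h := k) (by norm_num) le_rfl hk.le (by linarith)
  have e : θ * (1 - 1) = 0 := by ring
  rw [e] at h1 h2
  have h4 := (N.loss_mem (v := 1) (n := 0) (l := 0) (h := k) (by norm_num) le_rfl le_rfl hk.le
    (by linarith) (by linarith [N.M1]) (by linarith [N.M1])).2
  nlinarith

/-! ### extension of `ν` -/

theorem NP.lipOn (N : NP k q s b θ c₀ M ν) : LipschitzOnWith 6 ν (LEG M) := by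
  apply LipschitzOnWith.of_dist_le_mul
  intro p hp p' hp'
  have hs := LEG.sup M p hp p' hp'
  have h1 := N.lip p hp _ hs le_sup_left
  have h2 := N.lip p' hp' _ hs le_sup_right
  have hb : ∀ a, |p a - p' a| ≤ dist p p' := fun a => by
    rw [← Real.dist_eq]; exact dist_le_pi_dist p p' a
  have e1 : ∑ a, ((p ⊔ p') a - p a) ≤ 6 * dist p p' := by
    calc ∑ a, ((p ⊔ p') a - p a) ≤ ∑ _a : Fin 6, dist p p' := by
          refine Finset.sum_le_sum fun a _ => ?_
          have := hb a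
          rw [Pi.sup_apply]
          rcases le_total (p a) (p' a) with h | h
          · rw [sup_eq_right.2 h]; rw [abs_sub_comm] at this; exact (le_abs_self _).trans this
          · rw [sup_eq_left.2 h, sub_self]; exact dist_nonneg
      _ = _ := by simp
  have e2 : ∑ a, ((p ⊔ p') a - p' a) ≤ 6 * dist p p' := by
    calc ∑ a, ((p ⊔ p') a - p' a) ≤ ∑ _a : Fin 6, dist p p' := by
          refine Finset.sum_le_sum fun a _ => ?_
          have := hb a
          rw [Pi.sup_apply]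
          rcases le_total (p a) (p' a) with h | h
          · rw [sup_eq_right.2 h, sub_self]; exact dist_nonneg
          · rw [sup_eq_left.2 h]; exact (le_abs_self _).trans this
      _ = _ := by simp
  rw [Real.dist_eq, abs_le]
  have : ((6 : ℝ≥0) : ℝ) = 6 := by norm_num
  rw [this]
  constructor <;> linarith [h1.1, h1.2, h2.1, h2.2]

theorem NP.exists_ext (N : NP k q s b θ c₀ M ν) : ∃ g : (Fin 6 → ℝ) → ℝ, LipschitzWith 6 g ∧
    ∀ p ∈ LEG M, g p = ν p := by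
  obtain ⟨g, hg, he⟩ := N.lipOn.extend_real
  exact ⟨g, hg, fun p hp => (he hp).symm⟩

end Crest.Agent.R138.P120
end

-- ▼ part R138/P2_120
section

/-!
# R138: average, anchor, sweep (helper120)
-/

set_option autoImplicit false
set_option linter.unusedVariables false

open Filter Topology MeasureTheory Set
open scoped NNReal ENNReal

namespace Crest.Agent.R138.P120

open Crest.Agent.R138.Ex926

variable {k q s b θ c₀ M : ℝ} {ν : (Fin 6 → ℝ) → ℝ}

/-- `W` is continuous in all its parameters -/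
theorem continuous_W {X : Type*} [TopologicalSpace X] {fv fn fl fh : X → ℝ} (k : ℝ)
    (hv : Continuous fv) (hn : Continuous fn) (hl : Continuous fl) (hh : Continuous fh) :
    Continuous fun x => W k (fv x) (fn x) (fl x) (fh x) := by
  refine continuous_pi fun a => ?_
  fin_cases a
  · show Continuous fun x => (1 + k) * fv x + fn x
    fun_prop
  · show Continuous fun x => k * fv x + fn x
    fun_prop
  · show Continuous fun x => fl x + fh x
    fun_prop
  · show Continuous fun x => fv x + fl x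
    fun_prop
  · show Continuous fun x => fv x
    fun_prop
  · show Continuous fun x => k * fv x
    fun_prop

/-- average of the losses on the flat boxes over the record -/
theorem NP.average (N : NP k q s b θ c₀ M ν) {g : (Fin 6 → ℝ) → ℝ} (hg : Continuous g)
    (he : ∀ p ∈ LEG M, g p = ν p) {v x h : ℝ} (hv : 0 ≤ v) (hv1 : v ≤ 1) (hx : 0 ≤ x)
    (hh : 0 < h) (hxh : x + h ≤ k * v) : h * (q * x - 2 * h) ≤
      ∫ y in (0 : ℝ)..x, loss g k v (θ * (1 - v)) (θ * (1 - v) + y) h := by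
  set τ := θ * (1 - v) with hτ
  have hτ0 : 0 ≤ τ := mul_nonneg N.θ0.le (by linarith)
  have hrec := N.rec_le hv hv1
  set A : ℝ → ℝ := fun y => g (W k v τ (τ + y) 0) with hA
  have hAc : Continuous A := hg.comp (continuous_W k continuous_const continuous_const
    (by fun_prop) continuous_const)
  have hLc : Continuous fun y => loss g k v τ (τ + y) h := by
    unfold loss
    exact (hg.comp (continuous_W k continuous_const continuous_const (by fun_prop)
      continuous_const)).sub (hg.comp (continuous_W k continuous_const continuous_const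
      (by fun_prop) continuous_const))
  have hmem : ∀ y, 0 ≤ y → y ≤ k * v → W k v τ (τ + y) 0 ∈ LEG M := fun y hy hy' =>
    W_mem N.k0.le hv hτ0 (by linarith) le_rfl hrec (by nlinarith) (by nlinarith)
  -- pointwise
  have h1 : ∀ y ∈ Icc (0 : ℝ) x, A y - A (y + h) - h ≤ loss g k v τ (τ + y) h := by
    intro y hy
    have e := N.loss_low (n := τ) (l := τ + y) hv hτ0 (by linarith [hy.1]) hh.le hrec
      (by nlinarith [hy.2]) (by nlinarith [hy.2])
    have m1 := he _ (hmem y hy.1 (by linarith [hy.2]))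
    have m2 := he _ (hmem (y + h) (by linarith [hy.1]) (by linarith [hy.2]))
    have m3 : g (W k v τ (τ + y) h) = ν (W k v τ (τ + y) h) :=
      he _ (W_mem N.k0.le hv hτ0 (by linarith [hy.1]) hh.le hrec (by nlinarith [hy.2])
        (by nlinarith [hy.2]))
    have e2 : τ + (y + h) = τ + y + h := by ring
    simp only [hA, loss]
    rw [m1, m3]
    rw [e2] at m2 ⊢
    rw [m2]
    unfold loss at e
    exact e
  -- antitone
  have hanti : ∀ y y', 0 ≤ y → y ≤ y' → y' ≤ k * v → A y' ≤ A y := by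
    intro y y' hy hyy hy'
    have := (N.lip _ (hmem y hy (hyy.trans hy')) _ (hmem y' (hy.trans hyy) hy')
      (W_le N.k0.le le_rfl le_rfl (by linarith) (by linarith))).1
    simp only [hA]
    rw [he _ (hmem y hy (hyy.trans hy')), he _ (hmem y' (hy.trans hyy) hy')]
    linarith
  have hdrop : (1 + q) * x ≤ A 0 - A x := by
    have := N.rec_drop hv hv1 hx (by linarith)
    simp only [hA]
    rw [he _ (hmem 0 le_rfl (by linarith)), he _ (hmem x hx (by linarith)), add_zero]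
    exact this
  have hA0 : A 0 - A h ≤ 2 * h := by
    have := (N.lip _ (hmem 0 le_rfl (by linarith)) _ (hmem h hh.le (by linarith))
      (W_le N.k0.le le_rfl le_rfl (by linarith) (by linarith))).2
    rw [sum_W] at this
    simp only [hA]
    rw [he _ (hmem 0 le_rfl (by linarith)), he _ (hmem h hh.le (by linarith))]
    linarith
  have ii : ∀ a c, IntervalIntegrable A volume a c := fun a c => hAc.intervalIntegrable a c
  have h2 : ∫ y in (0 : ℝ)..x, (A y - A (y + h) - h) ≤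
      ∫ y in (0 : ℝ)..x, loss g k v τ (τ + y) h :=
    intervalIntegral.integral_mono_on hx
      (by apply Continuous.intervalIntegrable; fun_prop) (hLc.intervalIntegrable _ _) h1
  have h3 : ∫ y in (0 : ℝ)..x, (A y - A (y + h) - h) =
      (∫ y in (0 : ℝ)..h, A y) - (∫ y in x..(x + h), A y) - x * h := by
    rw [intervalIntegral.integral_sub, intervalIntegral.integral_sub,
      intervalIntegral.integral_comp_add_right (fun y => A y) h]
    · have e1 := intervalIntegral.integral_add_adjacent_intervals (ii 0 h) (ii h (x + h))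
      have e2 := intervalIntegral.integral_add_adjacent_intervals (ii 0 x) (ii x (x + h))
      rw [zero_add, intervalIntegral.integral_const, smul_eq_mul, sub_zero]
      linarith
    · exact ii 0 x
    · apply Continuous.intervalIntegrable; fun_prop
    · apply Continuous.intervalIntegrable; fun_prop
    · exact intervalIntegrable_const
  have h4 : h * A h ≤ ∫ y in (0 : ℝ)..h, A y := by
    have := intervalIntegral.integral_mono_on (μ := volume) hh.le
      (intervalIntegrable_const (c := A h)) (ii 0 h)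
      (fun y hy => hanti y h hy.1 hy.2 (by linarith))
    rw [intervalIntegral.integral_const, smul_eq_mul, sub_zero] at this
    exact this
  have h5 : (∫ y in x..(x + h), A y) ≤ h * A x := by
    have := intervalIntegral.integral_mono_on (μ := volume) (by linarith : x ≤ x + h)
      (ii x (x + h)) (intervalIntegrable_const (c := A x))
      (fun y hy => hanti x y hx hy.1 (by linarith [hy.2]))
    rw [intervalIntegral.integral_const, smul_eq_mul, add_sub_cancel_left] at this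
    exact this
  nlinarith

/-! ### the rate `m` -/

/-- lateral rate at the natural point `(v, t)` -/
noncomputable def mT (ν : (Fin 6 → ℝ) → ℝ) (k v t : ℝ) : ℝ :=
  (limsup (fun j : ℕ => ENNReal.ofReal
    (min 1 (((j : ℝ) + 1) * loss ν k v t t (1 / ((j : ℝ) + 1))))) atTop).toReal

theorem mT_aux_le (ν : (Fin 6 → ℝ) → ℝ) (k v t : ℝ) :
    limsup (fun j : ℕ => ENNReal.ofReal
    (min 1 (((j : ℝ) + 1) * loss ν k v t t (1 / ((j : ℝ) + 1))))) atTop ≤ 1 := by
  refine limsup_le_of_le (h := Eventually.of_forall fun j => ?_)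
  calc _ ≤ ENNReal.ofReal 1 := ENNReal.ofReal_le_ofReal (min_le_left _ _)
    _ = 1 := ENNReal.ofReal_one

theorem mT_nonneg (ν : (Fin 6 → ℝ) → ℝ) (k v t : ℝ) : 0 ≤ mT ν k v t := ENNReal.toReal_nonneg

theorem mT_le_one (ν : (Fin 6 → ℝ) → ℝ) (k v t : ℝ) : mT ν k v t ≤ 1 := by
  have := ENNReal.toReal_mono ENNReal.one_ne_top (mT_aux_le ν k v t)
  simpa [mT] using this

/-- the honest limit, if it exists, is `m` -/
theorem mT_eq_of_tendsto {v t r : ℝ} (hr0 : 0 ≤ r) (hr1 : r ≤ 1)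
    (h : Tendsto (fun j : ℕ => ((j : ℝ) + 1) * loss ν k v t t (1 / ((j : ℝ) + 1))) atTop (𝓝 r)) :
    mT ν k v t = r := by
  unfold mT
  have h1 : Tendsto (fun j : ℕ => ENNReal.ofReal
      (min 1 (((j : ℝ) + 1) * loss ν k v t t (1 / ((j : ℝ) + 1))))) atTop (𝓝 (ENNReal.ofReal r)) := by
    refine ENNReal.tendsto_ofReal ?_
    have := (tendsto_const_nhds (x := (1 : ℝ))).min h
    rwa [min_eq_right hr1] at this
  rw [h1.limsup_eq, ENNReal.toReal_ofReal hr0]

theorem one_div_succ_tendsto : Tendsto (fun j : ℕ => 1 / ((j : ℝ) + 1)) atTop (𝓝 0) :=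
  tendsto_one_div_add_atTop_nhds_zero_nat

theorem ev_small {δ : ℝ} (hδ : 0 < δ) : ∀ᶠ j : ℕ in atTop, 1 / ((j : ℝ) + 1) < δ :=
  one_div_succ_tendsto.eventually (gt_mem_nhds hδ)

/-- monotonicity of `m` under eventual comparison of losses -/
theorem mT_mono {ν ν' : (Fin 6 → ℝ) → ℝ} {k v t v' t' : ℝ}
    (h : ∀ᶠ j : ℕ in atTop, loss ν k v t t (1 / ((j : ℝ) + 1)) ≤
      loss ν' k v' t' t' (1 / ((j : ℝ) + 1))) : mT ν k v t ≤ mT ν' k v' t' := by
  refine ENNReal.toReal_mono ((mT_aux_le ν' k v' t').trans_lt ENNReal.one_lt_top).ne ?_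
  refine limsup_le_limsup ?_
  filter_upwards [h] with j hj
  refine ENNReal.ofReal_le_ofReal (min_le_min_left _ ?_)
  exact mul_le_mul_of_nonneg_left hj (by positivity)

/-- the domain -/
def Dom (M k : ℝ) : Set (ℝ × ℝ) := {x | 0 < x.1 ∧ x.1 < 1 ∧ 0 < x.2 ∧ (1 + k) * x.1 + x.2 < M}

theorem NP.mT_anti (N : NP k q s b θ c₀ M ν) {v v' t : ℝ} (hv' : 0 < v') (hvv : v' ≤ v)
    (ht : 0 < t) (h : (1 + k) * v + t < M) : mT ν k v t ≤ mT ν k v' t := by
  have hk := N.k0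
  have hv : 0 < v := hv'.trans_le hvv
  have hkv : 0 < k * v := mul_pos hk hv
  refine mT_mono ?_
  filter_upwards [ev_small (δ := (1 + k) * v) (by nlinarith)] with j hj
  have hj0 : 0 < 1 / ((j : ℝ) + 1) := by positivity
  exact N.loss_anti hv'.le hvv ht.le ht.le (by nlinarith) le_rfl le_rfl hj0.le h.le
    (by linarith) (by linarith)

/-- (W): below the record `m ≥ q` everywhere -/
theorem NP.mT_wide (N : NP k q s b θ c₀ M ν) {v t : ℝ} (hv : 0 < v) (ht : 0 < t)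
    (htv : t < θ * (1 - v)) : q ≤ mT ν k v t := by
  have hk := N.k0
  have hθ := N.θ0
  -- the record level of height `t`
  set v1 := 1 - t / θ with hv1
  have e1 : θ * (1 - v1) = t := by rw [hv1]; field_simp; ring
  have hvv : v < v1 := by
    have : θ * (1 - v1) < θ * (1 - v) := by rw [e1]; exact htv
    nlinarith
  have hv11 : v1 ≤ 1 := by
    have : 0 < t / θ := div_pos ht hθ
    linarith
  have hv10 : 0 < v1 := hv.trans hvv
  have hrec := N.rec_le hv10.le hv11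
  rw [e1] at hrec
  have hkv : 0 < k * v1 := mul_pos hk hv10
  have key : ∀ᶠ j : ℕ in atTop, q * (1 / ((j : ℝ) + 1)) ≤ loss ν k v t t (1 / ((j : ℝ) + 1)) := by
    filter_upwards [ev_small hkv] with j hj
    have hj0 : 0 < 1 / ((j : ℝ) + 1) := by positivity
    have h1 := N.rec_loss hv10.le hv11 hj0.le hj.le
    rw [e1] at h1
    exact h1.trans (N.loss_anti hv.le hvv.le ht.le ht.le (by nlinarith) le_rfl le_rfl hj0.le
      hrec (by nlinarith) (by nlinarith))
  have h2 : ENNReal.ofReal q ≤ limsup (fun j : ℕ => ENNReal.ofReal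
    (min 1 (((j : ℝ) + 1) * loss ν k v t t (1 / ((j : ℝ) + 1))))) atTop := by
    refine le_limsup_of_frequently_le (Eventually.frequently ?_)
    filter_upwards [key] with j hj
    refine ENNReal.ofReal_le_ofReal (le_min N.q1 ?_)
    have hj1 : (0 : ℝ) < (j : ℝ) + 1 := by positivity
    have := mul_le_mul_of_nonneg_left hj hj1.le
    calc q = ((j : ℝ) + 1) * (q * (1 / ((j : ℝ) + 1))) := by field_simp
      _ ≤ _ := this
  have h3 := ENNReal.toReal_mono ((mT_aux_le ν k v t).trans_lt ENNReal.one_lt_top).ne h2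
  rwa [ENNReal.toReal_ofReal N.q0.le] at h3

end Crest.Agent.R138.P120
end

-- ▼ part R138/P3_120
section

/-!
# R138: the sweep integral (S) and good heights above the record (helper120)
-/

set_option autoImplicit false
set_option linter.unusedVariables false

open Filter Topology MeasureTheory Set
open scoped NNReal ENNReal

namespace Crest.Agent.R138.P120

open Crest.Agent.R138.Ex926

variable {k q s b θ c₀ M : ℝ} {ν : (Fin 6 → ℝ) → ℝ}

/-- clipped quotients -/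
noncomputable def cq (g : (Fin 6 → ℝ) → ℝ) (k v t : ℝ) (j : ℕ) : ℝ≥0∞ :=
  ENNReal.ofReal (min 1 (((j : ℝ) + 1) * loss g k v t t (1 / ((j : ℝ) + 1))))

theorem cq_le (g : (Fin 6 → ℝ) → ℝ) (k v t : ℝ) (j : ℕ) : cq g k v t j ≤ 1 :=
  calc _ ≤ ENNReal.ofReal 1 := ENNReal.ofReal_le_ofReal (min_le_left _ _)
    _ = 1 := ENNReal.ofReal_one

theorem measurable_cq {g : (Fin 6 → ℝ) → ℝ} (hg : Continuous g) {X : Type*} [TopologicalSpace X]
    [MeasurableSpace X] [OpensMeasurableSpace X] {fv ft : X → ℝ} (hv : Continuous fv)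
    (ht : Continuous ft) (k : ℝ) (j : ℕ) : Measurable fun x => cq g k (fv x) (ft x) j := by
  have : Continuous fun x => cq g k (fv x) (ft x) j := by
    unfold cq loss
    refine ENNReal.continuous_ofReal.comp (continuous_const.min (continuous_const.mul ?_))
    exact (hg.comp (continuous_W k hv ht ht continuous_const)).sub
      (hg.comp (continuous_W k hv ht ht continuous_const))
  exact this.measurable

theorem mT_eq (ν : (Fin 6 → ℝ) → ℝ) (k v t : ℝ) :
    mT ν k v t = (limsup (fun j => cq ν k v t j) atTop).toReal := rfl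

theorem NP.mT_ext (N : NP k q s b θ c₀ M ν) {g : (Fin 6 → ℝ) → ℝ}
    (he : ∀ p ∈ LEG M, g p = ν p) {v t : ℝ} (hv : 0 < v) (ht : 0 < t)
    (h : (1 + k) * v + t < M) : mT ν k v t = mT g k v t := by
  have hk := N.k0
  have hkv : 0 < k * v := mul_pos hk hv
  have key : ∀ᶠ j : ℕ in atTop, loss ν k v t t (1 / ((j : ℝ) + 1)) =
      loss g k v t t (1 / ((j : ℝ) + 1)) := by
    filter_upwards [ev_small (δ := (1 + k) * v) (by nlinarith)] with j hj
    have hj0 : 0 < 1 / ((j : ℝ) + 1) := by positivity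
    unfold loss
    rw [he _ (W_mem hk.le hv.le ht.le le_rfl le_rfl h.le (by linarith) (by linarith)),
      he _ (W_mem hk.le hv.le ht.le le_rfl hj0.le h.le (by linarith) (by linarith))]
  exact le_antisymm (mT_mono (key.mono fun j hj => hj.le)) (mT_mono (key.mono fun j hj => hj.ge))

/-- (S), 630's form: along the line of slope `-1/k` from a record point the average of `m` is at
least `q` -/
theorem NP.sweep (N : NP k q s b θ c₀ M ν) {v0 x : ℝ} (hv0 : 0 < v0) (hv1 : v0 ≤ 1) (hx : 0 < x)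
    (hxk : x < k * v0) :
    q * x ≤ ∫ y in (0 : ℝ)..x, mT ν k (v0 - y / k) (θ * (1 - v0) + y) := by
  obtain ⟨g, hgl, he⟩ := N.exists_ext
  have hg := hgl.continuous
  have hk := N.k0
  set τ := θ * (1 - v0) with hτ
  have hτ0 : 0 ≤ τ := mul_nonneg N.θ0.le (by linarith)
  have hrec := N.rec_le hv0.le hv1
  set F : ℕ → ℝ → ℝ≥0∞ := fun j y => cq g k (v0 - y / k) (τ + y) j with hF
  have hFm : ∀ j, Measurable (F j) := fun j =>
    measurable_cq hg (by fun_prop) (by fun_prop) k j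
  set G : ℝ → ℝ≥0∞ := fun y => limsup (fun j => F j y) atTop with hG
  have hGm : Measurable G := Measurable.limsup hFm
  have hG1 : ∀ y, G y ≤ 1 := fun y => mT_aux_le g k _ _
  -- natural points of the line are in the domain
  have hnat : ∀ y, 0 < y → y ≤ x → 0 < v0 - y / k ∧ 0 < τ + y ∧
      (1 + k) * (v0 - y / k) + (τ + y) < M := by
    intro y hy hyx
    have h1 : y / k < v0 := by rw [div_lt_iff₀ hk]; linarith
    have h2 : (1 + k) * (v0 - y / k) + (τ + y) = (1 + k) * v0 + τ - y / k := by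
      field_simp; ring
    have h3 : 0 < y / k := div_pos hy hk
    exact ⟨by linarith, by linarith, by rw [h2]; linarith⟩
  have e0 : ∫ y in (0 : ℝ)..x, mT ν k (v0 - y / k) (τ + y) = ∫ y in Ioc 0 x, (G y).toReal := by
    rw [intervalIntegral.integral_of_le hx.le]
    refine setIntegral_congr_fun measurableSet_Ioc fun y hy => ?_
    obtain ⟨a1, a2, a3⟩ := hnat y hy.1 hy.2
    show mT ν k (v0 - y / k) (τ + y) = (G y).toReal
    rw [N.mT_ext he a1 a2 a3]
    rfl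
  have e1 : ∫ y in Ioc 0 x, (G y).toReal = (∫⁻ y in Ioc 0 x, G y).toReal := by
    rw [integral_toReal hGm.aemeasurable]
    exact Eventually.of_forall fun y => (hG1 y).trans_lt ENNReal.one_lt_top
  have hfin : (∫⁻ y in Ioc 0 x, G y) ≠ ⊤ := by
    have : (∫⁻ y in Ioc 0 x, G y) ≤ ∫⁻ y in Ioc 0 x, 1 := lintegral_mono fun y => hG1 y
    refine (this.trans_lt ?_).ne
    simp
  have e2 : limsup (fun j => ∫⁻ y in Ioc 0 x, F j y) atTop ≤ ∫⁻ y in Ioc 0 x, G y := by
    refine limsup_lintegral_le (fun _ => 1) hFm (fun j => ?_) ?_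
    · exact Eventually.of_forall fun y => cq_le _ _ _ _ _
    · simp
  -- lower bound of the integrals
  have e3 : ∀ᶠ j : ℕ in atTop, ENNReal.ofReal (q * x - 2 * (1 / ((j : ℝ) + 1))) ≤
      ∫⁻ y in Ioc 0 x, F j y := by
    filter_upwards [ev_small (δ := k * v0 - x) (by linarith),
      ev_small (δ := v0) hv0] with j hj hj'
    set h := 1 / ((j : ℝ) + 1) with hh
    have hh0 : 0 < h := by positivity
    have hj1 : ((j : ℝ) + 1) * h = 1 := by rw [hh]; field_simp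
    have hj2 : (0 : ℝ) < (j : ℝ) + 1 := by positivity
    have hav := N.average hg he (x := x) hv0.le hv1 hx.le hh0 (by linarith)
    rw [← hτ] at hav
    -- the flat losses
    set Lf : ℝ → ℝ := fun y => loss g k v0 τ (τ + y) h with hLf
    have hLc : Continuous Lf := by
      simp only [hLf]
      unfold loss
      exact (hg.comp (continuous_W k continuous_const continuous_const (by fun_prop)
        continuous_const)).sub (hg.comp (continuous_W k continuous_const continuous_const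
        (by fun_prop) continuous_const))
    have hflat : ∀ y, 0 < y → y ≤ x → 0 ≤ Lf y ∧ Lf y ≤ h ∧
        Lf y ≤ loss g k (v0 - y / k) (τ + y) (τ + y) h := by
      intro y hy hyx
      obtain ⟨a1, a2, a3⟩ := hnat y hy hyx
      have hdiv : 0 < y / k := div_pos hy hk
      have b0 : τ + y + h ≤ M := by nlinarith
      have b1 : v0 + (τ + y) ≤ M := by nlinarith
      have m1 := he _ (W_mem (k := k) (v := v0) (n := τ) (l := τ + y) (h := 0) hk.le hv0.le hτ0
        (by linarith) le_rfl hrec (by linarith) b1)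
      have m2 := he _ (W_mem (k := k) (v := v0) (n := τ) (l := τ + y) (h := h) hk.le hv0.le hτ0
        (by linarith) hh0.le hrec b0 b1)
      have m3 := he _ (W_mem (k := k) (v := v0 - y / k) (n := τ + y) (l := τ + y) (h := 0) hk.le
        a1.le a2.le le_rfl le_rfl a3.le (by linarith) (by linarith))
      have m4 := he _ (W_mem (k := k) (v := v0 - y / k) (n := τ + y) (l := τ + y) (h := h) hk.le
        a1.le a2.le le_rfl hh0.le a3.le b0 (by linarith))
      have c1 := N.loss_mem (v := v0) (n := τ) (l := τ + y) (h := h) hv0.le hτ0 (by linarith)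
        hh0.le hrec b0 b1
      have c2 := N.loss_anti (v := v0) (n := τ) (l := τ + y) (h := h) (v' := v0 - y / k)
        (n' := τ + y) a1.le (by linarith) hτ0 a2.le (by
          have : k * (v0 - y / k) = k * v0 - y := by field_simp
          rw [this]; linarith) (by linarith) le_rfl hh0.le hrec b0 b1
      simp only [hLf]
      unfold loss at c1 c2 ⊢
      rw [m1, m2, m3, m4]
      exact ⟨c1.1, c1.2, c2⟩
    have f1 : ∀ y ∈ Ioc 0 x, ENNReal.ofReal (((j : ℝ) + 1) * Lf y) ≤ F j y := by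
      intro y hy
      obtain ⟨c0, c1, c2⟩ := hflat y hy.1 hy.2
      refine ENNReal.ofReal_le_ofReal (le_min ?_ ?_)
      · calc ((j : ℝ) + 1) * Lf y ≤ ((j : ℝ) + 1) * h := mul_le_mul_of_nonneg_left c1 hj2.le
          _ = 1 := hj1
      · exact mul_le_mul_of_nonneg_left c2 hj2.le
    have f2 : ∫⁻ y in Ioc 0 x, ENNReal.ofReal (((j : ℝ) + 1) * Lf y) ≤ ∫⁻ y in Ioc 0 x, F j y :=
      setLIntegral_mono' measurableSet_Ioc f1
    have f3 : ENNReal.ofReal (∫ y in Ioc 0 x, ((j : ℝ) + 1) * Lf y) =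
        ∫⁻ y in Ioc 0 x, ENNReal.ofReal (((j : ℝ) + 1) * Lf y) := by
      rw [ofReal_integral_eq_lintegral_ofReal]
      · have : Continuous fun y => ((j : ℝ) + 1) * Lf y := by fun_prop
        exact this.integrableOn_Ioc
      · rw [EventuallyLE, ae_restrict_iff' measurableSet_Ioc]
        exact Eventually.of_forall fun y hy =>
          mul_nonneg hj2.le (hflat y hy.1 hy.2).1
    refine le_trans ?_ (f3 ▸ f2)
    refine ENNReal.ofReal_le_ofReal ?_
    rw [integral_const_mul, ← intervalIntegral.integral_of_le hx.le]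
    have := mul_le_mul_of_nonneg_left hav hj2.le
    have e5 : ((j : ℝ) + 1) * (h * (q * x - 2 * h)) = q * x - 2 * h := by
      rw [← mul_assoc, hj1, one_mul]
    rw [e5] at this
    exact this
  have e4 : ENNReal.ofReal (q * x) ≤ limsup (fun j => ∫⁻ y in Ioc 0 x, F j y) atTop := by
    have t1 : Tendsto (fun j : ℕ => ENNReal.ofReal (q * x - 2 * (1 / ((j : ℝ) + 1)))) atTop
        (𝓝 (ENNReal.ofReal (q * x))) := by
      refine ENNReal.tendsto_ofReal ?_
      have := (tendsto_const_nhds (x := q * x)).sub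
        (one_div_succ_tendsto.const_mul (2 : ℝ))
      simpa using this
    rw [← t1.limsup_eq]
    exact limsup_le_limsup e3
  have e5 := ENNReal.toReal_mono hfin (e4.trans e2)
  rw [ENNReal.toReal_ofReal (mul_nonneg N.q0.le hx.le)] at e5
  rw [e0, e1]
  exact e5

/-! ### a global measurable version -/

/-- global version of `m`: measurable and antitone in `v` -/
noncomputable def mG (ν : (Fin 6 → ℝ) → ℝ) (k M v t : ℝ) : ℝ := by
  classical
  exact if v ≤ 0 then 1 else if 0 < t ∧ (1 + k) * v + t < M then mT ν k v t else 0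

theorem mG_eq {ν : (Fin 6 → ℝ) → ℝ} {k M v t : ℝ} (hv : 0 < v) (ht : 0 < t)
    (h : (1 + k) * v + t < M) : mG ν k M v t = mT ν k v t := by
  unfold mG
  rw [if_neg hv.not_ge, if_pos ⟨ht, h⟩]

theorem mG_mem (ν : (Fin 6 → ℝ) → ℝ) (k M v t : ℝ) : 0 ≤ mG ν k M v t ∧ mG ν k M v t ≤ 1 := by
  unfold mG
  split_ifs
  · norm_num
  · exact ⟨mT_nonneg _ _ _ _, mT_le_one _ _ _ _⟩
  · norm_num

theorem NP.mG_anti (N : NP k q s b θ c₀ M ν) (t : ℝ) : Antitone fun v => mG ν k M v t := by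
  intro v' v hvv
  show mG ν k M v t ≤ mG ν k M v' t
  by_cases h0 : v' ≤ 0
  · have : mG ν k M v' t = 1 := by unfold mG; rw [if_pos h0]
    rw [this]
    exact (mG_mem _ _ _ _ _).2
  · push Not at h0
    by_cases h1 : 0 < t ∧ (1 + k) * v + t < M
    · have hk := N.k0
      rw [mG_eq (h0.trans_le hvv) h1.1 h1.2, mG_eq h0 h1.1 (by nlinarith [h1.2])]
      exact N.mT_anti h0 hvv h1.1 h1.2
    · have : mG ν k M v t = 0 := by
        unfold mG
        rw [if_neg (h0.trans_le hvv).not_ge, if_neg h1]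
      rw [this]
      exact (mG_mem _ _ _ _ _).1

theorem NP.mG_measurable (N : NP k q s b θ c₀ M ν) :
    Measurable fun x : ℝ × ℝ => mG ν k M x.1 x.2 := by
  classical
  obtain ⟨g, hgl, he⟩ := N.exists_ext
  have e : (fun x : ℝ × ℝ => mG ν k M x.1 x.2) = fun x : ℝ × ℝ =>
      if x.1 ≤ 0 then (1 : ℝ) else if 0 < x.2 ∧ (1 + k) * x.1 + x.2 < M then
        (limsup (fun j => cq g k x.1 x.2 j) atTop).toReal else 0 := by
    funext x
    unfold mG
    split_ifs with h1 h2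
    · rfl
    · push Not at h1
      rw [N.mT_ext he h1 h2.1 h2.2]
      rfl
    · rfl
  rw [e]
  refine Measurable.ite ?_ measurable_const (Measurable.ite ?_ ?_ measurable_const)
  · exact (isClosed_le continuous_fst continuous_const).measurableSet
  · refine IsOpen.measurableSet ?_
    exact (isOpen_lt continuous_const continuous_snd).inter
      (isOpen_lt (by fun_prop : Continuous fun x : ℝ × ℝ => (1 + k) * x.1 + x.2)
        continuous_const)
  · refine Measurable.ennreal_toReal (Measurable.limsup fun j => ?_)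
    exact measurable_cq hgl.continuous continuous_fst continuous_snd k j

/-! ### good heights above the record -/

/-- if `θ < k`: for almost every height the rate just above the record is at least `q` -/
theorem NP.above (N : NP k q s b θ c₀ M ν) (hθk : θ < k) :
    ∀ᵐ t : ℝ, t ∈ Ioo 0 θ → ∀ c < q, ∃ v, 1 - t / θ < v ∧ v < 1 ∧ (1 + k) * v + t < M ∧
      c < mT ν k v t := by
  have hk := N.k0
  have hθ := N.θ0
  -- `φ t = sup of m` over the levels above the record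
  set φ : ℕ → ℝ → ℝ := fun i t => mG ν k M (1 - t / θ + 1 / ((i : ℝ) + 1)) t with hφ
  set Φ : ℝ → ℝ := fun t => ⨆ i, φ i t with hΦ
  have hφm : ∀ i, Measurable (φ i) := fun i => by
    have : Measurable fun t : ℝ => ((1 - t / θ + 1 / ((i : ℝ) + 1), t) : ℝ × ℝ) := by fun_prop
    exact N.mG_measurable.comp this
  have hΦm : Measurable Φ := Measurable.iSup hφm
  have hbdd : ∀ t, BddAbove (range fun i => φ i t) := fun t =>
    ⟨1, by rintro _ ⟨i, rfl⟩; exact (mG_mem _ _ _ _ _).2⟩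
  have hΦ01 : ∀ t, 0 ≤ Φ t ∧ Φ t ≤ 1 := fun t =>
    ⟨(mG_mem _ _ _ _ _).1.trans (le_ciSup (hbdd t) 0), ciSup_le fun i => (mG_mem _ _ _ _ _).2⟩
  have hle : ∀ t v, 1 - t / θ < v → mG ν k M v t ≤ Φ t := by
    intro t v hv
    obtain ⟨i, hi⟩ := exists_nat_one_div_lt (sub_pos.2 hv)
    refine le_trans ?_ (le_ciSup (hbdd t) i)
    exact N.mG_anti t (by linarith)
  have hloc : LocallyIntegrable Φ volume := by
    refine (locallyIntegrable_const (1 : ℝ)).mono hΦm.aestronglyMeasurable ?_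
    refine Eventually.of_forall fun t => ?_
    rw [Real.norm_eq_abs, abs_of_nonneg (hΦ01 t).1, norm_one]
    exact (hΦ01 t).2
  have hi : ∀ a c, IntervalIntegrable Φ volume a c := fun a c =>
    (hloc.integrableOn_isCompact isCompact_uIcc).mono_set uIoc_subset_uIcc |>
      fun h => intervalIntegrable_iff.2 h
  -- average of `Φ`
  have havg : ∀ t ∈ Ioo 0 θ, ∀ x, 0 < x → x < k * (1 - t / θ) →
      q * x ≤ ∫ y in t..(t + x), Φ y := by
    intro t ht x hx hxk
    have h1 : t / θ < 1 := by rw [div_lt_one hθ]; exact ht.2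
    have h0 : 0 < t / θ := div_pos ht.1 hθ
    have hs := N.sweep (v0 := 1 - t / θ) (x := x) (by linarith) (by linarith) hx hxk
    have e1 : θ * (1 - (1 - t / θ)) = t := by field_simp; ring
    rw [e1] at hs
    refine hs.trans ?_
    have e2 : ∫ y in t..(t + x), Φ y = ∫ y in (0 : ℝ)..x, Φ (t + y) := by
      rw [intervalIntegral.integral_comp_add_left (fun y => Φ y) t, add_zero]
    rw [e2, intervalIntegral.integral_of_le hx.le, intervalIntegral.integral_of_le hx.le]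
    have hnat : ∀ y ∈ Ioc 0 x, mT ν k (1 - t / θ - y / k) (t + y) ≤ Φ (t + y) := by
      intro y hy
      have h2 : y / k < 1 - t / θ := by rw [div_lt_iff₀ hk]; nlinarith [hy.2]
      have h3 : 0 < y / k := div_pos hy.1 hk
      have hrec := N.rec_le (v := 1 - t / θ) (by linarith) (by linarith)
      rw [e1] at hrec
      have h4 : (1 + k) * (1 - t / θ - y / k) + (t + y) =
          (1 + k) * (1 - t / θ) + t - y / k := by field_simp; ring
      rw [← mG_eq (M := M) (by linarith) (by linarith [ht.1, hy.1]) (by rw [h4]; linarith)]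
      refine hle _ _ ?_
      have h5 : (t + y) / θ = t / θ + y / θ := by ring
      have h6 : y / k < y / θ := by
        apply div_lt_div_of_pos_left hy.1 hθ hθk
      linarith
    refine setIntegral_mono_on ?_ ?_ measurableSet_Ioc hnat
    · -- integrability of `m` along the line
      have hc : Measurable fun y : ℝ => ((1 - t / θ - y / k, t + y) : ℝ × ℝ) := by fun_prop
      have hm : Measurable fun y : ℝ => mG ν k M (1 - t / θ - y / k) (t + y) :=
        N.mG_measurable.comp hc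
      have hI : IntegrableOn (fun y : ℝ => mG ν k M (1 - t / θ - y / k) (t + y)) (Ioc 0 x) := by
        refine Measure.integrableOn_of_bounded (M := 1) (by simp) hm.aestronglyMeasurable ?_
        refine Eventually.of_forall fun y => ?_
        rw [Real.norm_eq_abs, abs_of_nonneg (mG_mem _ _ _ _ _).1]
        exact (mG_mem _ _ _ _ _).2
      refine hI.congr_fun (fun y hy => ?_) measurableSet_Ioc
      have h2 : y / k < 1 - t / θ := by rw [div_lt_iff₀ hk]; nlinarith [hy.2]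
      have h3 : 0 < y / k := div_pos hy.1 hk
      have hrec := N.rec_le (v := 1 - t / θ) (by linarith) (by linarith)
      rw [e1] at hrec
      have h4 : (1 + k) * (1 - t / θ - y / k) + (t + y) =
          (1 + k) * (1 - t / θ) + t - y / k := by field_simp; ring
      exact mG_eq (by linarith) (by linarith [ht.1, hy.1]) (by rw [h4]; linarith)
    · have := hi t (t + x)
      have h7 : IntervalIntegrable (fun y => Φ (t + y)) volume 0 x := by
        have := (hi t (t + x)).comp_add_left t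
        simpa using this
      exact (intervalIntegrable_iff_integrableOn_Ioc_of_le hx.le).1 h7
  -- Lebesgue
  filter_upwards [_root_.LocallyIntegrable.ae_hasDerivAt_integral hloc] with t hd ht c hc
  have hq : q ≤ Φ t := by
    have hda := hd t
    by_contra hcon
    push Not at hcon
    have h1 : t / θ < 1 := by rw [div_lt_one hθ]; exact ht.2
    have hpos : 0 < k * (1 - t / θ) := mul_pos hk (by linarith)
    have hs := (hasDerivAt_iff_tendsto_slope_zero.1 hda)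
    have hs' : Tendsto (fun x : ℝ => x⁻¹ • ((∫ y in t..(t + x), Φ y) - ∫ y in t..t, Φ y))
        (𝓝[>] 0) (𝓝 (Φ t)) :=
      hs.mono_left (nhdsWithin_mono _ fun x hx => (ne_of_gt hx : x ≠ 0))
    have hev : ∀ᶠ x : ℝ in 𝓝[>] 0, q ≤ x⁻¹ • ((∫ y in t..(t + x), Φ y) - ∫ y in t..t, Φ y) := by
      filter_upwards [Ioo_mem_nhdsGT hpos] with x hx
      have := havg t ht x hx.1 hx.2
      rw [intervalIntegral.integral_same, sub_zero, smul_eq_mul, ← div_eq_inv_mul,
        le_div_iff₀ hx.1]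
      exact this
    exact absurd (ge_of_tendsto hs' hev) (not_le.2 hcon)
  have h1 : t / θ < 1 := by rw [div_lt_one hθ]; exact ht.2
  have h0 : 0 < t / θ := div_pos ht.1 hθ
  have hM := N.M1
  have hlt : (1 + k) * (1 - t / θ) + t < M := by
    have e : t = θ * (t / θ) := by field_simp
    nlinarith
  -- choose a level
  obtain ⟨i0, hi0⟩ := exists_lt_of_lt_ciSup (hc.trans_le hq : c < ⨆ i, φ i t)
  set δ := min (t / θ) ((M - ((1 + k) * (1 - t / θ) + t)) / (1 + k)) with hδ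
  have hk1 : (0 : ℝ) < 1 + k := by linarith
  have hδ0 : 0 < δ := lt_min h0 (div_pos (by linarith) hk1)
  set v := 1 - t / θ + min (1 / ((i0 : ℝ) + 1)) (δ / 2) with hv
  have hmin : 0 < min (1 / ((i0 : ℝ) + 1)) (δ / 2) := lt_min (by positivity) (by linarith)
  have hmin2 : min (1 / ((i0 : ℝ) + 1)) (δ / 2) < δ := (min_le_right _ _).trans_lt (by linarith)
  have hvM : (1 + k) * v + t < M := by
    have : (1 + k) * min (1 / ((i0 : ℝ) + 1)) (δ / 2) <
        M - ((1 + k) * (1 - t / θ) + t) := by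
      calc (1 + k) * min (1 / ((i0 : ℝ) + 1)) (δ / 2) < (1 + k) * δ :=
            mul_lt_mul_of_pos_left hmin2 hk1
        _ ≤ (1 + k) * ((M - ((1 + k) * (1 - t / θ) + t)) / (1 + k)) :=
            mul_le_mul_of_nonneg_left (min_le_right _ _) hk1.le
        _ = _ := by field_simp
    rw [hv]; nlinarith
  refine ⟨v, by linarith, ?_, hvM, ?_⟩
  · have : δ ≤ t / θ := min_le_left _ _
    linarith
  · rw [← mG_eq (M := M) (by linarith) ht.1 hvM]
    refine hi0.trans_le (N.mG_anti t ?_)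
    rw [hv]
    have := min_le_left (1 / ((i0 : ℝ) + 1)) (δ / 2)
    linarith

end Crest.Agent.R138.P120
end

-- ▼ part R138/End_615
section

/-!
# R138: the real-analysis end of LOCAL GROWTH (helper615)

Frame (i): `g (v, t) = P v t - b v + q t ≤ 0`, `g = 0` on the record curve `t = τ v`.
One straight path of slope `μ` from a generic record point.
-/

set_option autoImplicit false
set_option linter.unusedVariables false

open Set Filter Topology MeasureTheory
open scoped NNReal ENNReal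

namespace Crest.Agent.R138.End615

/-- lower bound of the increment of a Lipschitz function on `[0, h]` whose derivative is `≥ η`
off `W`. -/
theorem lip_path {φ : ℝ → ℝ} {K : ℝ≥0} {h η : ℝ} (hh : 0 ≤ h)
    (hφ : LipschitzOnWith K φ (Icc 0 h)) {W : Set ℝ} (hW : MeasurableSet W) (hη : 0 ≤ η)
    (hd : ∀ᵐ y : ℝ, y ∈ Ioo 0 h → y ∉ W → η ≤ deriv φ y) :
    η * h - (η + K) * (volume (W ∩ Icc 0 h)).toReal ≤ φ h - φ 0 := by
  have hac : AbsolutelyContinuousOnInterval φ 0 h := by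
    apply LipschitzOnWith.absolutelyContinuousOnInterval (K := K)
    rwa [uIcc_of_le hh]
  rw [← hac.integral_deriv_eq_sub, intervalIntegral.integral_of_le hh]
  have e1 : η * h - (η + K) * (volume (W ∩ Icc 0 h)).toReal =
      ∫ y in Ioc 0 h, (η - W.indicator (fun _ => η + (K : ℝ)) y) := by
    rw [integral_sub (integrable_const _)]
    · rw [integral_const, integral_indicator hW, integral_const]
      simp only [measureReal_def, Measure.restrict_apply MeasurableSet.univ, univ_inter,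
        Real.volume_Ioc, sub_zero, smul_eq_mul, ENNReal.toReal_ofReal hh]
      have e2 : volume (W ∩ Icc 0 h) = ((volume.restrict (Ioc 0 h)) W) := by
        rw [Measure.restrict_apply hW]
        apply measure_congr
        exact (ae_eq_refl W).inter Ioc_ae_eq_Icc.symm
      rw [e2]
      ring
    · exact (integrable_const _).indicator hW
  rw [e1]
  have hint : IntegrableOn (deriv φ) (Ioc 0 h) := by
    have := hac.intervalIntegrable_deriv
    rwa [intervalIntegrable_iff_integrableOn_Ioc_of_le hh] at this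
  refine integral_mono_ae ?_ hint ?_
  · exact (integrable_const _).sub ((integrable_const _).indicator hW)
  · rw [EventuallyLE, ae_restrict_iff' measurableSet_Ioc]
    have hne : ∀ᵐ y : ℝ, y ≠ h := by
      rw [ae_iff]; simp
    filter_upwards [hd, hne] with y hy hyh hy0
    have hyI : y ∈ Ioo 0 h := ⟨hy0.1, lt_of_le_of_ne hy0.2 hyh⟩
    by_cases hyW : y ∈ W
    · rw [indicator_of_mem hyW]
      have : ‖deriv φ y‖ ≤ K :=
        norm_deriv_le_of_lipschitzOn (Icc_mem_nhds hyI.1 hyI.2) hφ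
      have := (abs_le.1 this).1
      linarith
    · rw [indicator_of_notMem hyW]
      have := hy hyI hyW
      linarith

/-- almost all parallel segments of slope `μ` see only good points -/
theorem ae_parallel {p : ℝ × ℝ → Prop} (hp : ∀ᵐ x : ℝ × ℝ, p x) {μ : ℝ} (hμ : μ ≠ 0)
    (v0 t0 : ℝ) : ∀ᵐ x : ℝ, ∀ᵐ y : ℝ, p (v0 + x - y, t0 + μ * y) := by
  set N : Set (ℝ × ℝ) := toMeasurable volume {x | ¬ p x} with hN
  have hNm : MeasurableSet N := measurableSet_toMeasurable _ _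
  have hN0 : volume N = 0 := by rw [hN, measure_toMeasurable]; exact hp
  have hsub : ∀ x, x ∉ N → p x := fun x hx => by
    by_contra hcon
    exact hx (subset_toMeasurable _ _ hcon)
  have h0 : ∀ᵐ z : ℝ × ℝ, z.swap ∉ N := by
    have h00 : ∀ᵐ z : ℝ × ℝ, z ∉ N := measure_eq_zero_iff_ae_notMem.1 hN0
    exact (Measure.measurePreserving_swap (μ := (volume : Measure ℝ))
      (ν := (volume : Measure ℝ))).quasiMeasurePreserving.ae h00
  have h1 : ∀ᵐ t : ℝ, ∀ᵐ v : ℝ, (v, t) ∉ N := Measure.ae_ae_of_ae_prod h0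
  have hq : Measure.QuasiMeasurePreserving (fun y : ℝ => t0 + μ * y) volume volume := by
    have ha : Measure.QuasiMeasurePreserving (fun y : ℝ => μ * y) volume volume := by
      refine ⟨by fun_prop, ?_⟩
      rw [Real.map_volume_mul_left hμ]
      exact Measure.smul_absolutelyContinuous
    exact (measurePreserving_add_left volume t0).quasiMeasurePreserving.comp ha
  have h2 : ∀ᵐ y : ℝ, ∀ᵐ v : ℝ, (v, t0 + μ * y) ∉ N := hq.ae h1
  have h3 : ∀ᵐ y : ℝ, ∀ᵐ x : ℝ, (v0 + x - y, t0 + μ * y) ∉ N := by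
    filter_upwards [h2] with y hy
    have h4 := (measurePreserving_add_right volume (v0 - y)).quasiMeasurePreserving.ae hy
    filter_upwards [h4] with x hx
    have : v0 + x - y = x + (v0 - y) := by ring
    rwa [this]
  have h5 : ∀ᵐ x : ℝ, ∀ᵐ y : ℝ, (v0 + x - y, t0 + μ * y) ∉ N := by
    refine (Measure.ae_ae_comm ?_).2 h3
    have hm : Measurable fun x : ℝ × ℝ => (v0 + x.1 - x.2, t0 + μ * x.2) := by fun_prop
    exact (hm hNm).compl
  filter_upwards [h5] with x hx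
  filter_upwards [hx] with y hy
  exact hsub _ hy

/-- the increment of `g` along a straight path of slope `μ` -/
theorem plane_path {g : ℝ × ℝ → ℝ} {K : ℝ≥0} {Ω : Set (ℝ × ℝ)} (hg : LipschitzOnWith K g Ω)
    {v0 t0 μ h r η : ℝ} (hμ : 0 < μ) (hh : 0 < h) (hr : 0 < r)
    (hΩ : ∀ x ∈ Icc (-r) 0, ∀ y ∈ Icc 0 h, (v0 + x - y, t0 + μ * y) ∈ Ω)
    {W : Set ℝ} (hW : MeasurableSet W) (hη : 0 ≤ η) {D : Set (ℝ × ℝ)}
    (hd : ∀ᵐ z : ℝ × ℝ, z ∈ D → η ≤ deriv (fun y => g (z.1 - y, z.2 + μ * y)) 0)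
    (hD : ∀ x ∈ Ioo (-r) 0, ∀ y ∈ Ioo 0 h, t0 + μ * y ∉ W → (v0 + x - y, t0 + μ * y) ∈ D) :
    η * h - (η + K * max 1 μ) * (volume ({y | t0 + μ * y ∈ W} ∩ Icc 0 h)).toReal ≤
      g (v0 - h, t0 + μ * h) - g (v0, t0) := by
  have hpar := ae_parallel hd hμ.ne' v0 t0
  set μ' : ℝ≥0 := ⟨μ, hμ.le⟩ with hμ'
  have hK : ((K * max 1 μ' : ℝ≥0) : ℝ) = K * max 1 μ := by push_cast; rfl
  have hlip : ∀ x ∈ Icc (-r) 0,
      LipschitzOnWith (K * max 1 μ') (fun y => g (v0 + x - y, t0 + μ * y)) (Icc 0 h) := by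
    intro x hx
    refine LipschitzOnWith.of_dist_le_mul fun y hy y' hy' => ?_
    refine (hg.dist_le_mul _ (hΩ x hx y hy) _ (hΩ x hx y' hy')).trans ?_
    rw [hK, mul_assoc]
    refine mul_le_mul_of_nonneg_left ?_ K.2
    rw [Prod.dist_eq, Real.dist_eq, Real.dist_eq, Real.dist_eq]
    refine max_le ?_ ?_
    · have e : v0 + x - y - (v0 + x - y') = -(y - y') := by ring
      simp only
      rw [e, abs_neg]
      calc |y - y'| = 1 * |y - y'| := (one_mul _).symm
        _ ≤ max 1 μ * |y - y'| := mul_le_mul_of_nonneg_right (le_max_left _ _) (abs_nonneg _)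
    · have e : t0 + μ * y - (t0 + μ * y') = μ * (y - y') := by ring
      simp only
      rw [e, abs_mul, abs_of_pos hμ]
      exact mul_le_mul_of_nonneg_right (le_max_right _ _) (abs_nonneg _)
  have hkey : ∀ᵐ x : ℝ, x ∈ Ioo (-r) 0 →
      η * h - (η + K * max 1 μ) * (volume ({y | t0 + μ * y ∈ W} ∩ Icc 0 h)).toReal ≤
      g (v0 + x - h, t0 + μ * h) - g (v0 + x, t0) := by
    filter_upwards [hpar] with x hx hxr
    have hWm : MeasurableSet {y : ℝ | t0 + μ * y ∈ W} := by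
      have : Measurable fun y : ℝ => t0 + μ * y := by fun_prop
      exact this hW
    have h1 := lip_path hh.le (hlip x (Ioo_subset_Icc_self hxr)) hWm hη (by
      filter_upwards [hx] with y hy hy0 hyW
      have h2 := hy (hD x hxr y hy0 hyW)
      have h3 : deriv (fun y => g (v0 + x - y, t0 + μ * y)) y =
          deriv (fun y' => g (v0 + x - y - y', t0 + μ * y + μ * y')) 0 := by
        have h4 := deriv_comp_const_add (f := fun y => g (v0 + x - y, t0 + μ * y)) y 0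
        simp only [add_zero] at h4
        rw [← h4]
        congr 1
        funext y'
        congr 1
        ext <;> simp <;> ring
      rw [h3]
      exact h2)
    rw [hK] at h1
    simpa using h1
  refine le_of_forall_pos_le_add fun ε hε => ?_
  -- choose a small shift
  set ρ : ℝ := min r (ε / (2 * (K + 1))) with hρ
  have hρ0 : 0 < ρ := lt_min hr (by positivity)
  obtain ⟨x, hx, hxk⟩ : ∃ x ∈ Ioo (-ρ) 0, x ∈ Ioo (-r) 0 →
      η * h - (η + K * max 1 μ) * (volume ({y | t0 + μ * y ∈ W} ∩ Icc 0 h)).toReal ≤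
      g (v0 + x - h, t0 + μ * h) - g (v0 + x, t0) := by
    by_contra hcon
    push Not at hcon
    have h1 : volume (Ioo (-ρ) 0) = 0 := by
      refine measure_mono_null (fun x hx => ?_) hkey
      obtain ⟨h2, h3⟩ := hcon x hx
      simp only [mem_compl_iff, Set.mem_ofPred_eq, Classical.not_imp, not_le]
      exact ⟨h2, h3⟩
    rw [Real.volume_Ioo] at h1
    simp at h1
    linarith
  have hxr : x ∈ Ioo (-r) 0 := ⟨by linarith [hx.1, min_le_left r (ε / (2 * (K + 1)))], hx.2⟩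
  have h1 := hxk hxr
  have hxI : x ∈ Icc (-r) 0 := Ioo_subset_Icc_self hxr
  have h0I : (0 : ℝ) ∈ Icc (-r) 0 := ⟨by linarith, le_rfl⟩
  have hh0 : (0 : ℝ) ∈ Icc 0 h := ⟨le_rfl, hh.le⟩
  have hhh : h ∈ Icc 0 h := ⟨hh.le, le_rfl⟩
  have h2 := hg.dist_le_mul _ (hΩ x hxI h hhh) _ (hΩ 0 h0I h hhh)
  have h3 := hg.dist_le_mul _ (hΩ x hxI 0 hh0) _ (hΩ 0 h0I 0 hh0)
  rw [Real.dist_eq, Prod.dist_eq, Real.dist_eq, Real.dist_eq] at h2 h3
  simp only [add_zero, sub_zero, mul_zero, sub_self, abs_zero] at h2 h3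
  have e2 : |v0 + x - h - (v0 - h)| = -x := by
    rw [show v0 + x - h - (v0 - h) = x by ring, abs_of_neg hx.2]
  have e3 : |v0 + x - v0| = -x := by
    rw [show v0 + x - v0 = x by ring, abs_of_neg hx.2]
  rw [e2, max_eq_left (by linarith [hx.2])] at h2
  rw [e3, max_eq_left (by linarith [hx.2])] at h3
  have h4 : (K : ℝ) * (-x) ≤ ε / 2 := by
    have h5 : -x ≤ ε / (2 * (K + 1)) := by
      have := hx.1
      have := min_le_right r (ε / (2 * (K + 1)))
      linarith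
    have hK0 : (0 : ℝ) ≤ K := K.2
    calc (K : ℝ) * (-x) ≤ (K + 1) * (ε / (2 * (K + 1))) := by
          refine mul_le_mul (by linarith) h5 (by linarith [hx.2]) (by linarith)
      _ = ε / 2 := by field_simp
  have h6 := (abs_le.1 h2).2
  have h7 := (abs_le.1 h3).1
  linarith

/-- right density points -/
theorem ae_right_density {N : Set ℝ} (hN : MeasurableSet N) : ∀ᵐ t : ℝ, t ∈ N → ∀ ε : ℝ, 0 < ε →
    ∀ᶠ h in 𝓝[>] (0 : ℝ), volume (Nᶜ ∩ Icc t (t + h)) ≤ ENNReal.ofReal (ε * h) := by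
  filter_upwards [Besicovitch.ae_tendsto_measure_inter_div_of_measurableSet volume hN.compl]
    with t ht htN ε hε
  rw [indicator_of_notMem (by simpa using htN)] at ht
  have h1 := ht.eventually (gt_mem_nhds (show (0 : ℝ≥0∞) < ENNReal.ofReal (ε / 2) by
    rw [ENNReal.ofReal_pos]; positivity))
  filter_upwards [h1, self_mem_nhdsWithin] with h hh1 (hh0 : 0 < h)
  rw [Real.volume_closedBall] at hh1
  have h2 := (ENNReal.div_lt_iff (Or.inl (by simpa using hh0)) (Or.inl ENNReal.ofReal_ne_top)).1 hh1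
  refine (measure_mono ?_).trans h2.le |>.trans ?_
  · refine inter_subset_inter_right _ fun y hy => ?_
    rw [Metric.mem_closedBall, Real.dist_eq, abs_le]
    constructor <;> linarith [hy.1, hy.2]
  · rw [← ENNReal.ofReal_mul (by positivity)]
    apply ENNReal.ofReal_le_ofReal
    linarith

theorem volume_pre {μ t0 h : ℝ} (hμ : 0 < μ) (W : Set ℝ) :
    volume ({y | t0 + μ * y ∈ W} ∩ Icc 0 h) =
      ENNReal.ofReal μ⁻¹ * volume (W ∩ Icc t0 (t0 + μ * h)) := by
  have e : {y | t0 + μ * y ∈ W} ∩ Icc 0 h =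
      (μ * ·) ⁻¹' ((t0 + ·) ⁻¹' (W ∩ Icc t0 (t0 + μ * h))) := by
    ext y
    simp only [mem_inter_iff, Set.mem_ofPred_eq, mem_Icc, mem_preimage]
    constructor
    · rintro ⟨h1, h2, h3⟩
      exact ⟨h1, by nlinarith, by nlinarith⟩
    · rintro ⟨h1, h2, h3⟩
      refine ⟨h1, ?_, ?_⟩
      · by_contra hcon
        push Not at hcon
        nlinarith
      · by_contra hcon
        push Not at hcon
        nlinarith
  rw [e, Real.volume_preimage_mul_left hμ.ne', measure_preimage_add, abs_of_pos (inv_pos.2 hμ)]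


end Crest.Agent.R138.End615
end

-- ▼ part R138/Tii_615
section

/-!
# R138: TEXT II, real-analysis part, case assembly (helper615)

`tii_of_good`: the contact lemma applied at a generic record point; all cases of `(k, θ)`.
-/

set_option autoImplicit false
set_option linter.unusedVariables false

open Set Filter Topology MeasureTheory
open scoped NNReal ENNReal

namespace Crest.Agent.R138.Tii615

open Crest.Agent.R138.End615

variable {k q s c θ T : ℝ} {P m : ℝ → ℝ → ℝ} {K : ℝ≥0}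

/-- the derivative along `y ↦ (v - y, t + μ y)` -/
theorem deriv_path {g : ℝ × ℝ → ℝ} {D : ℝ × ℝ →L[ℝ] ℝ} {z : ℝ × ℝ} (h : HasFDerivAt g D z)
    (μ : ℝ) : deriv (fun y => g (z.1 - y, z.2 + μ * y)) 0 = -D (1, 0) + μ * D (0, 1) := by
  have h1 : HasDerivAt (fun y : ℝ => (z.1 - y, z.2 + μ * y)) (-1, μ) 0 := by
    have a : HasDerivAt (fun y : ℝ => z.1 - y) (-1) 0 := by
      simpa using (hasDerivAt_id (0 : ℝ)).const_sub z.1
    have b : HasDerivAt (fun y : ℝ => z.2 + μ * y) μ 0 := by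
      simpa using ((hasDerivAt_id (0 : ℝ)).const_mul μ).const_add z.2
    exact a.prodMk b
  have h2 : HasFDerivAt g D ((fun y : ℝ => (z.1 - y, z.2 + μ * y)) 0) := by simpa using h
  have h3 := h2.comp_hasDerivAt (0 : ℝ) h1
  have e : D (-1, μ) = -D (1, 0) + μ * D (0, 1) := by
    have : ((-1 : ℝ), μ) = (-1 : ℝ) • ((1 : ℝ), (0 : ℝ)) + μ • ((0 : ℝ), (1 : ℝ)) := by
      ext <;> simp
    rw [this, map_add, map_smul, map_smul]
    simp
  rw [← e]
  exact h3.deriv

/-- `g = P - c v + q t` -/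
def gg (P : ℝ → ℝ → ℝ) (c q : ℝ) (x : ℝ × ℝ) : ℝ := P x.1 x.2 - c * x.1 + q * x.2

theorem gg_fderiv {D : ℝ × ℝ →L[ℝ] ℝ} {z : ℝ × ℝ}
    (h : HasFDerivAt (fun x : ℝ × ℝ => P x.1 x.2) D z) :
    HasFDerivAt (gg P c q)
      (D - c • ContinuousLinearMap.fst ℝ ℝ ℝ + q • ContinuousLinearMap.snd ℝ ℝ ℝ) z := by
  unfold gg
  exact (h.sub ((hasFDerivAt_fst).const_mul c)).add ((hasFDerivAt_snd).const_mul q)

theorem gg_lip {Ω : Set (ℝ × ℝ)} (hP : LipschitzOnWith K (fun x : ℝ × ℝ => P x.1 x.2) Ω) :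
    LipschitzOnWith (K + Real.toNNReal (|c| + |q|)) (gg P c q) Ω := by
  refine LipschitzOnWith.of_dist_le_mul fun x hx y hy => ?_
  have h1 := hP.dist_le_mul x hx y hy
  rw [Real.dist_eq] at h1 ⊢
  have h2 : |x.1 - y.1| ≤ dist x y := by rw [← Real.dist_eq]; exact le_max_left _ _
  have h3 : |x.2 - y.2| ≤ dist x y := by rw [← Real.dist_eq]; exact le_max_right _ _
  have e : gg P c q x - gg P c q y =
      (P x.1 x.2 - P y.1 y.2) + (-c * (x.1 - y.1)) + q * (x.2 - y.2) := by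
    unfold gg; ring
  rw [e]
  have e2 : ((K + Real.toNNReal (|c| + |q|) : ℝ≥0) : ℝ) = K + (|c| + |q|) := by
    rw [NNReal.coe_add, Real.coe_toNNReal _ (by positivity)]
  rw [e2]
  calc |(P x.1 x.2 - P y.1 y.2) + (-c * (x.1 - y.1)) + q * (x.2 - y.2)|
      ≤ |P x.1 x.2 - P y.1 y.2| + |-c * (x.1 - y.1)| + |q * (x.2 - y.2)| := abs_add_three _ _ _
    _ ≤ K * dist x y + |c| * dist x y + |q| * dist x y := by
        rw [abs_mul, abs_mul, abs_neg]
        gcongr
    _ = _ := by ring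

theorem deriv_gg {D : ℝ × ℝ →L[ℝ] ℝ} {z : ℝ × ℝ}
    (h : HasFDerivAt (fun x : ℝ × ℝ => P x.1 x.2) D z) (μ : ℝ) :
    deriv (fun y => gg P c q (z.1 - y, z.2 + μ * y)) 0 =
      c + μ * q - (D (1, 0) - μ * D (0, 1)) := by
  rw [deriv_path (gg_fderiv h)]
  simp
  ring



end Crest.Agent.R138.Tii615
end

-- ▼ part R138/End2_615
section

/-!
# R138: TEXT II, real-analysis part over the domain `(1 + k) v + t ≤ M` (helper615)

* `no_contact'` : the contact lemma over an arbitrary region;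
* `end_lin` : `c ≤ 2 s` from the sweep and the a.e. table, domain of doc 1951 (E0), equalities
  `M = 1 + k`, `M = θ` allowed;
* `gt_seg`, `gt_lin` : growth along straight segments from the a.e. table.
-/

set_option autoImplicit false
set_option linter.unusedVariables false

open Set Filter Topology MeasureTheory
open scoped NNReal ENNReal

namespace Crest.Agent.R138.End2615

open Crest.Agent.R138.End615 Crest.Agent.R138.Tii615

/-- **contact lemma**, arbitrary region `Ω` -/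
theorem no_contact' {g : ℝ × ℝ → ℝ} {K : ℝ≥0} {Ω : Set (ℝ × ℝ)} {μ η v0 t0 : ℝ}
    (hg : LipschitzOnWith K g Ω) (hg0 : ∀ x ∈ Ω, g x ≤ 0)
    (hg1 : g (v0, t0) = 0) (hμ : 0 < μ) (hη : 0 < η) {D : Set (ℝ × ℝ)}
    (hd : ∀ᵐ z : ℝ × ℝ, z ∈ D → η ≤ deriv (fun y => g (z.1 - y, z.2 + μ * y)) 0)
    {W : Set ℝ} (hW : MeasurableSet W)
    (hdens : ∀ ε : ℝ, 0 < ε → ∀ᶠ h in 𝓝[>] (0 : ℝ),
      volume (W ∩ Icc t0 (t0 + h)) ≤ ENNReal.ofReal (ε * h))
    {δ : ℝ} (hδ : 0 < δ)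
    (hΩ : ∀ y ∈ Icc 0 δ, ∀ v ∈ Icc (v0 - δ) (v0 - y), (v, t0 + μ * y) ∈ Ω)
    (hD : ∀ y ∈ Ioo 0 δ, t0 + μ * y ∉ W → ∀ v ∈ Ioo (v0 - δ) (v0 - y), (v, t0 + μ * y) ∈ D) :
    False := by
  set K' : ℝ := η + K * max 1 μ with hK'
  have hK'0 : 0 < K' := by
    have : (0 : ℝ) ≤ K * max 1 μ := mul_nonneg K.2 (le_max_of_le_left zero_le_one)
    linarith
  have h1 := hdens (η / (2 * K')) (by positivity)
  have hmap : Tendsto (fun h : ℝ => μ * h) (𝓝[>] 0) (𝓝[>] 0) := by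
    refine tendsto_nhdsWithin_iff.2 ⟨?_, ?_⟩
    · have : Tendsto (fun h : ℝ => μ * h) (𝓝 0) (𝓝 (μ * 0)) := by
        exact (continuous_const.mul continuous_id).tendsto 0
      rw [mul_zero] at this
      exact this.mono_left nhdsWithin_le_nhds
    · filter_upwards [self_mem_nhdsWithin] with h (hh : 0 < h)
      exact mul_pos hμ hh
  have h2 := hmap.eventually h1
  have hsmall : ∀ᶠ h in 𝓝[>] (0 : ℝ), h < δ / 2 := by
    apply nhdsWithin_le_nhds
    exact gt_mem_nhds (by linarith)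
  obtain ⟨h, ⟨hh2, hh0⟩, hhδ⟩ := ((h2.and self_mem_nhdsWithin).and hsmall).exists
  have hh0' : 0 < h := hh0
  have hmem : ∀ x ∈ Icc (-h) 0, ∀ y ∈ Icc 0 h, (v0 + x - y, t0 + μ * y) ∈ Ω := by
    intro x hx y hy
    exact hΩ y ⟨hy.1, by linarith [hy.2]⟩ _ ⟨by linarith [hx.1, hy.2], by linarith [hx.2]⟩
  have h3 := plane_path hg (v0 := v0) (t0 := t0) hμ hh0' hh0' hmem hW hη.le hd (by
    intro x hx y hy hyW
    refine hD y ⟨hy.1, by linarith [hy.2]⟩ hyW _ ⟨by linarith [hx.1, hy.2], by linarith [hx.2]⟩)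
  have h4 : g (v0 - h, t0 + μ * h) ≤ 0 := by
    apply hg0
    have := hmem 0 ⟨by linarith, le_rfl⟩ h ⟨hh0'.le, le_rfl⟩
    simpa using this
  rw [hg1, sub_zero] at h3
  have h5 : (volume ({y | t0 + μ * y ∈ W} ∩ Icc 0 h)).toReal ≤ η / (2 * K') * h := by
    rw [volume_pre hμ]
    apply ENNReal.toReal_le_of_le_ofReal (by positivity)
    calc ENNReal.ofReal μ⁻¹ * volume (W ∩ Icc t0 (t0 + μ * h))
        ≤ ENNReal.ofReal μ⁻¹ * ENNReal.ofReal (η / (2 * K') * (μ * h)) := by gcongr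
      _ = ENNReal.ofReal (η / (2 * K') * h) := by
          rw [← ENNReal.ofReal_mul (by positivity)]
          congr 1
          field_simp
  have h6 : K' * (volume ({y | t0 + μ * y ∈ W} ∩ Icc 0 h)).toReal ≤ η * h / 2 := by
    calc _ ≤ K' * (η / (2 * K') * h) := mul_le_mul_of_nonneg_left h5 hK'0.le
      _ = η * h / 2 := by field_simp
  have h7 : 0 < η * h := mul_pos hη hh0'
  linarith

/-- closed domain -/
def Om (M k : ℝ) : Set (ℝ × ℝ) := {x | 0 ≤ x.1 ∧ x.1 ≤ 1 ∧ 0 ≤ x.2 ∧ (1 + k) * x.1 + x.2 ≤ M}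

/-- open domain -/
def Dom (M k : ℝ) : Set (ℝ × ℝ) := {x | 0 < x.1 ∧ x.1 < 1 ∧ 0 < x.2 ∧ (1 + k) * x.1 + x.2 < M}

variable {k q s c θ M : ℝ} {P m : ℝ → ℝ → ℝ} {K : ℝ≥0}

theorem Dom_sub : Dom M k ⊆ Om M k := fun x hx => ⟨hx.1.le, hx.2.1.le, hx.2.2.1.le, hx.2.2.2.le⟩

theorem Dom_left (hk : 0 < k) {v v' t : ℝ} (h : (v, t) ∈ Dom M k) (h0 : 0 < v') (hv : v' ≤ v) :
    (v', t) ∈ Dom M k := by
  refine ⟨h0, lt_of_le_of_lt hv h.2.1, h.2.2.1, ?_⟩
  have h1 := h.2.2.2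
  simp only at h1 ⊢
  nlinarith

/-- horizontal exit: where `m > s`, `g` is strictly negative -/
theorem exit' (hk : 0 < k) (hs : 0 ≤ s) (hc : 2 * s < c)
    (hP : LipschitzOnWith K (fun x : ℝ × ℝ => P x.1 x.2) (Om M k))
    (hle : ∀ x ∈ Om M k, P x.1 x.2 - c * x.1 + q * x.2 ≤ 0)
    (hanti : ∀ t v v', (v, t) ∈ Dom M k → (v', t) ∈ Dom M k → v ≤ v' → m v' t ≤ m v t)
    (h5 : ∀ᵐ x : ℝ × ℝ, x ∈ Dom M k → s < m x.1 x.2 →
      ∃ D : ℝ × ℝ →L[ℝ] ℝ, HasFDerivAt (fun x : ℝ × ℝ => P x.1 x.2) D x ∧ D (1, 0) ≤ 2 * s) :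
    ∀ᵐ t : ℝ, ∀ v, (v, t) ∈ Dom M k → s < m v t → gg P c q (v, t) ≤ -(c - 2 * s) * v := by
  have h1 : ∀ᵐ t : ℝ, ∀ᵐ v : ℝ, (v, t) ∈ Dom M k → s < m v t →
      ∃ D : ℝ × ℝ →L[ℝ] ℝ, HasFDerivAt (fun x : ℝ × ℝ => P x.1 x.2) D (v, t) ∧
        D (1, 0) ≤ 2 * s := by
    have h0 := (Measure.measurePreserving_swap (μ := (volume : Measure ℝ))
      (ν := (volume : Measure ℝ))).quasiMeasurePreserving.ae h5
    exact Measure.ae_ae_of_ae_prod h0
  filter_upwards [h1] with t ht v0 hv0 hmv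
  have hlip := gg_lip (c := c) (q := q) hP
  set K' : ℝ≥0 := K + Real.toNNReal (|c| + |q|) with hK'
  have hc' : 0 < c - 2 * s := by linarith
  have hv00 : 0 < v0 := hv0.1
  have hΩ : ∀ y, 0 ≤ y → y ≤ v0 → (y, t) ∈ Om M k := by
    intro y hy hy'
    refine ⟨hy, hy'.trans hv0.2.1.le, hv0.2.2.1.le, ?_⟩
    have h1 := hv0.2.2.2
    simp only at h1 ⊢
    nlinarith
  have hψ : LipschitzOnWith K' (fun y => - gg P c q (y, t)) (Icc 0 v0) := by
    refine LipschitzOnWith.of_dist_le_mul fun y hy y' hy' => ?_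
    have := hlip.dist_le_mul (y, t) (hΩ y hy.1 hy.2) (y', t) (hΩ y' hy'.1 hy'.2)
    rw [dist_neg_neg]
    refine this.trans_eq ?_
    congr 1
    rw [Prod.dist_eq]
    simp
  have h2 := lip_path (η := c - 2 * s) (W := ∅) hv00.le hψ MeasurableSet.empty hc'.le (by
    filter_upwards [ht] with y hy hy0 _
    have hyD : (y, t) ∈ Dom M k := Dom_left hk hv0 hy0.1 hy0.2.le
    have hm' : s < m y t := hmv.trans_le (hanti t y v0 hyD hv0 hy0.2.le)
    obtain ⟨D, hD, hD2⟩ := hy hyD hm'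
    have h3 : HasDerivAt (fun y : ℝ => (y, t)) (1, 0) y :=
      (hasDerivAt_id y).prodMk (hasDerivAt_const y t)
    have h4 := ((gg_fderiv (c := c) (q := q) hD).comp_hasDerivAt y h3).neg
    have h5 : deriv (fun y => - gg P c q (y, t)) y = c - D (1, 0) := by
      refine (HasDerivAt.deriv h4).trans ?_
      simp
    rw [h5]
    linarith)
  simp only [empty_inter, measure_empty, ENNReal.toReal_zero, mul_zero, sub_zero] at h2
  have h6 : gg P c q (0, t) ≤ 0 := hle (0, t) (hΩ 0 le_rfl hv00.le)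
  linarith

/-- **TEXT II, real-analysis end** (domain of doc 1951): the record `t = θ (1 - v)`, good heights
(W), (B) and the a.e. table give `c ≤ 2 s`. -/
theorem end_lin (hk : 0 < k) (hq : 0 < q) (hs : 0 ≤ s) (hθ : 0 < θ) (hM1 : 1 + k ≤ M)
    (hM2 : θ ≤ M)
    (hP : LipschitzOnWith K (fun x : ℝ × ℝ => P x.1 x.2) (Om M k))
    (hle : ∀ x ∈ Om M k, P x.1 x.2 - c * x.1 + q * x.2 ≤ 0)
    (heq : ∀ v ∈ Icc (0 : ℝ) 1, P v (θ * (1 - v)) - c * v + q * (θ * (1 - v)) = 0)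
    (hm : Measurable fun x : ℝ × ℝ => m x.1 x.2)
    (hanti : ∀ t v v', (v, t) ∈ Dom M k → (v', t) ∈ Dom M k → v ≤ v' → m v' t ≤ m v t)
    (hW : ∀ᵐ t : ℝ, ∀ v, (v, t) ∈ Dom M k → t < θ * (1 - v) → 0 < m v t)
    (hB : θ < k → ∀ᵐ t : ℝ, t ∈ Ioo 0 θ → ∃ v, (v, t) ∈ Dom M k ∧ θ * (1 - v) < t ∧ 0 < m v t)
    (h5 : ∀ᵐ x : ℝ × ℝ, x ∈ Dom M k → 0 < m x.1 x.2 →
      ∃ D : ℝ × ℝ →L[ℝ] ℝ, HasFDerivAt (fun x : ℝ × ℝ => P x.1 x.2) D x ∧
        (k ≠ 1 → D (1, 0) - k / 2 * D (0, 1) ≤ 2 * s) ∧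
        (k = 1 → D (1, 0) - D (0, 1) ≤ s + m x.1 x.2 ∧ (s < m x.1 x.2 → D (1, 0) ≤ 2 * s))) :
    c ≤ 2 * s := by
  by_contra hcon
  push Not at hcon
  set g := gg P c q with hg
  set K' : ℝ≥0 := K + Real.toNNReal (|c| + |q|) with hK'
  have hlip : LipschitzOnWith K' g (Om M k) := gg_lip hP
  have hη : 0 < c - 2 * s := by linarith
  -- record points are in the closed domain
  have hrecΩ : ∀ v ∈ Icc (0 : ℝ) 1, (v, θ * (1 - v)) ∈ Om M k := by
    intro v hv
    refine ⟨hv.1, hv.2, mul_nonneg hθ.le (by linarith [hv.2]), ?_⟩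
    simp only
    have h1 : (1 + k) * v ≤ M * v := mul_le_mul_of_nonneg_right hM1 hv.1
    have h2 : θ * (1 - v) ≤ M * (1 - v) := mul_le_mul_of_nonneg_right hM2 (by linarith [hv.2])
    nlinarith
  -- the slope
  obtain ⟨μ, hμ0, hμk, hμ1⟩ : ∃ μ : ℝ, 0 < μ ∧ μ ≤ k ∧ ((k ≠ 1 ∧ μ = k / 2) ∨ (k = 1 ∧ μ = 1)) := by
    by_cases h : k = 1
    · exact ⟨1, one_pos, h.ge, Or.inr ⟨h, rfl⟩⟩
    · exact ⟨k / 2, by positivity, by linarith, Or.inl ⟨h, rfl⟩⟩
  -- the good points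
  set D : Set (ℝ × ℝ) := {x | x ∈ Dom M k ∧ 0 < m x.1 x.2 ∧ (k = 1 → m x.1 x.2 ≤ s)} with hD
  have hd : ∀ᵐ z : ℝ × ℝ, z ∈ D → c - 2 * s ≤ deriv (fun y => g (z.1 - y, z.2 + μ * y)) 0 := by
    filter_upwards [h5] with z hz hzD
    obtain ⟨hz1, hz2, hz3⟩ := hzD
    obtain ⟨L, hL, hL1, hL2⟩ := hz hz1 hz2
    rw [hg, deriv_gg hL]
    have hμq : 0 < μ * q := mul_pos hμ0 hq
    rcases hμ1 with ⟨h1, h2⟩ | ⟨h1, h2⟩
    · have := hL1 h1
      rw [h2] at hμq ⊢
      linarith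
    · have h3 := (hL2 h1).1
      have h4 := hz3 h1
      rw [h2] at hμq ⊢
      linarith
  -- the threshold near the record, `k = 1`
  have hexit : ∀ᵐ t : ℝ, k = 1 → ∀ v, (v, t) ∈ Dom M k → s < m v t →
      g (v, t) ≤ -(c - 2 * s) * v := by
    by_cases h : k = 1
    · have h6 := exit' (m := m) (q := q) hk hs hcon hP hle hanti (by
        filter_upwards [h5] with x hx hxI hxm
        obtain ⟨L, hL, -, hL2⟩ := hx hxI (hs.trans_lt hxm)
        exact ⟨L, hL, (hL2 h).2 hxm⟩)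
      filter_upwards [h6] with t ht _
      exact ht
    · exact Eventually.of_forall fun t h' => absurd h' h
  -- bad heights of measure zero
  obtain ⟨N, hNm, hN0, hNsub⟩ : ∃ N : Set ℝ, MeasurableSet N ∧ volume N = 0 ∧ ∀ t ∉ N,
      (∀ v, (v, t) ∈ Dom M k → t < θ * (1 - v) → 0 < m v t) ∧
      (k = 1 → ∀ v, (v, t) ∈ Dom M k → s < m v t → g (v, t) ≤ -(c - 2 * s) * v) := by
    set A : Set ℝ := {t | ¬ ((∀ v, (v, t) ∈ Dom M k → t < θ * (1 - v) → 0 < m v t) ∧
      (k = 1 → ∀ v, (v, t) ∈ Dom M k → s < m v t → g (v, t) ≤ -(c - 2 * s) * v))} with hA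
    refine ⟨toMeasurable volume A, measurableSet_toMeasurable _ _, ?_, fun t ht => ?_⟩
    · rw [measure_toMeasurable]
      exact hW.and hexit
    · by_contra hcon'
      exact ht (subset_toMeasurable _ _ hcon')
  -- near the record `m ≤ s` if `k = 1`
  have hnear : ∀ v0 ∈ Ioo (0 : ℝ) 1, ∃ ρ > 0, ∀ t ∉ N, ∀ v, (v, t) ∈ Dom M k →
      |v - v0| < ρ → |t - θ * (1 - v0)| < ρ → k = 1 → m v t ≤ s := by
    intro v0 hv0
    refine ⟨min (v0 / 2) ((c - 2 * s) * v0 / (2 * (K' + 1))), ?_, ?_⟩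
    · have h1 := hv0.1
      have h2 : 0 < (c - 2 * s) * v0 := mul_pos (by linarith) h1
      have h3 : (0 : ℝ) < 2 * (K' + 1) := by positivity
      exact lt_min (by linarith) (div_pos h2 h3)
    · intro t htN v hv hvv htt hk1
      by_contra hms
      push Not at hms
      have h1 := (hNsub t htN).2 hk1 v hv hms
      have h2 := hlip.dist_le_mul (v, t) (Dom_sub hv)
        (v0, θ * (1 - v0)) (hrecΩ v0 (Ioo_subset_Icc_self hv0))
      have h3 : g (v0, θ * (1 - v0)) = 0 := heq v0 (Ioo_subset_Icc_self hv0)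
      rw [h3, dist_zero_right, Prod.dist_eq, Real.dist_eq, Real.dist_eq] at h2
      have h4 : max |v - v0| |t - θ * (1 - v0)| < (c - 2 * s) * v0 / (2 * (K' + 1)) :=
        max_lt (hvv.trans_le (min_le_right _ _)) (htt.trans_le (min_le_right _ _))
      have h5 : -g (v, t) ≤ K' * max |v - v0| |t - θ * (1 - v0)| :=
        (neg_le_abs _).trans h2
      have h6 : (K' : ℝ) * max |v - v0| |t - θ * (1 - v0)| ≤
          (K' + 1) * ((c - 2 * s) * v0 / (2 * (K' + 1))) :=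
        mul_le_mul (by linarith) h4.le (le_max_of_le_left (abs_nonneg _)) (by positivity)
      have h7 : ((K' : ℝ) + 1) * ((c - 2 * s) * v0 / (2 * (K' + 1))) = (c - 2 * s) * v0 / 2 := by
        have : (0 : ℝ) < (K' : ℝ) + 1 := by positivity
        field_simp
      have h8 : v0 / 2 < v := by
        have := (abs_lt.1 (hvv.trans_le (min_le_left _ _))).1
        linarith
      have h10 : (c - 2 * s) * (v0 / 2) < (c - 2 * s) * v := mul_lt_mul_of_pos_left h8 hη
      linarith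
  rcases lt_or_ge θ k with hθk | hθk
  · -- near side
    have hBk := hB hθk
    set E : ℕ → Set ℝ := fun n => {t | t ∈ Ioo 0 θ ∧
      (1 + k) * (1 - t / θ + 1 / ((n : ℝ) + 1)) + t < M ∧ 1 - t / θ + 1 / ((n : ℝ) + 1) < 1 ∧
      0 < m (1 - t / θ + 1 / ((n : ℝ) + 1)) t} with hE
    have hEm : ∀ n, MeasurableSet (E n) := by
      intro n
      have m1 : Measurable fun t : ℝ => 1 - t / θ + 1 / ((n : ℝ) + 1) := by fun_prop
      have m1' : Measurable fun t : ℝ => (1 + k) * (1 - t / θ + 1 / ((n : ℝ) + 1)) + t := by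
        fun_prop
      have m2 : Measurable fun t : ℝ => ((1 - t / θ + 1 / ((n : ℝ) + 1), t) : ℝ × ℝ) := by fun_prop
      have m3 : Measurable fun t : ℝ => m (1 - t / θ + 1 / ((n : ℝ) + 1)) t := hm.comp m2
      exact measurableSet_Ioo.inter ((measurableSet_lt m1' measurable_const).inter
        ((measurableSet_lt m1 measurable_const).inter (measurableSet_lt measurable_const m3)))
    have hcover : ∀ᵐ t : ℝ, t ∈ Ioo 0 θ → ∃ n, t ∈ E n := by
      filter_upwards [hBk] with t ht htI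
      obtain ⟨v, hv, hv1, hv2⟩ := ht htI
      have h1 : 1 - t / θ < v := by
        have : θ * (1 - v) / θ < t / θ := by gcongr
        rw [mul_div_cancel_left₀ _ hθ.ne'] at this
        linarith
      obtain ⟨n, hn⟩ := exists_nat_one_div_lt (show 0 < v - (1 - t / θ) by linarith)
      have h2 : 0 < t / θ := div_pos htI.1 hθ
      have h3 : t / θ < 1 := by rw [div_lt_one hθ]; exact htI.2
      have h4 : (0 : ℝ) < 1 / ((n : ℝ) + 1) := by positivity
      have h6 : (1 - t / θ + 1 / ((n : ℝ) + 1), t) ∈ Dom M k :=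
        Dom_left hk hv (by linarith) (by linarith)
      exact ⟨n, htI, h6.2.2.2, h6.2.1, hv2.trans_le (hanti t _ v h6 hv (by linarith))⟩
    obtain ⟨n, hn⟩ : ∃ n, volume (E n) ≠ 0 := by
      by_contra hcon'
      push Not at hcon'
      have h1 : volume (⋃ n, E n) = 0 := measure_iUnion_null hcon'
      have h2 : volume (Ioo 0 θ) = 0 := by
        have h3 : ∀ᵐ t : ℝ, t ∉ ⋃ n, E n := measure_eq_zero_iff_ae_notMem.1 h1
        refine measure_eq_zero_iff_ae_notMem.2 ?_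
        filter_upwards [hcover, h3] with t ht ht3 htI
        exact ht3 (mem_iUnion.2 (ht htI))
      rw [Real.volume_Ioo] at h2
      simp at h2
      linarith
    -- a density point
    obtain ⟨t0, ht0E, ht0d⟩ : ∃ t0 ∈ E n, ∀ ε : ℝ, 0 < ε → ∀ᶠ h in 𝓝[>] (0 : ℝ),
        volume ((E n)ᶜ ∩ Icc t0 (t0 + h)) ≤ ENNReal.ofReal (ε * h) := by
      by_contra hcon'
      push Not at hcon'
      apply hn
      refine measure_eq_zero_iff_ae_notMem.2 ?_
      filter_upwards [ae_right_density (hEm n)] with t ht htE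
      obtain ⟨ε, hε, h1⟩ := hcon' t htE
      refine h1 ?_
      filter_upwards [ht htE ε hε] with h hh
      exact not_lt.2 hh
    have ht0I : t0 ∈ Ioo 0 θ := ht0E.1
    set v0 : ℝ := 1 - t0 / θ with hv0
    have hv0I : v0 ∈ Ioo (0 : ℝ) 1 := by
      have h1 : 0 < t0 / θ := div_pos ht0I.1 hθ
      have h2 : t0 / θ < 1 := by rw [div_lt_one hθ]; exact ht0I.2
      exact ⟨by rw [hv0]; linarith, by rw [hv0]; linarith⟩
    have hrec : θ * (1 - v0) = t0 := by rw [hv0]; field_simp; ring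
    obtain ⟨ρ, hρ, hρs⟩ := hnear v0 hv0I
    -- bad heights
    have hdens : ∀ ε : ℝ, 0 < ε → ∀ᶠ h in 𝓝[>] (0 : ℝ),
        volume (((E n)ᶜ ∪ N) ∩ Icc t0 (t0 + h)) ≤ ENNReal.ofReal (ε * h) := by
      intro ε hε
      filter_upwards [ht0d ε hε] with h hh
      rw [union_inter_distrib_right]
      refine (measure_union_le _ _).trans ?_
      have : volume (N ∩ Icc t0 (t0 + h)) = 0 := measure_mono_null inter_subset_left hN0
      rw [this, add_zero]
      exact hh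
    set N1 : ℝ := 1 / ((n : ℝ) + 1) with hN1
    have hN1p : 0 < N1 := by positivity
    -- the record point is interior
    have hroom : (1 + k) * v0 + t0 < M := by
      have h1 : (1 + k) * v0 + t0 = (1 + k) * v0 + θ * (1 - v0) := by rw [hrec]
      rw [h1]
      have h2 : θ * (1 - v0) < (1 + k) * (1 - v0) :=
        mul_lt_mul_of_pos_right (by linarith) (by linarith [hv0I.2])
      nlinarith
    set δ : ℝ := min (min ρ (ρ / μ)) (min (v0 / 2) (θ * N1 / μ)) with hδ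
    have hδ0 : 0 < δ := by
      refine lt_min (lt_min hρ (div_pos hρ hμ0)) (lt_min (by linarith [hv0I.1]) ?_)
      positivity
    have hδ1 : δ ≤ ρ := (min_le_left _ _).trans (min_le_left _ _)
    have hδ2 : δ ≤ ρ / μ := (min_le_left _ _).trans (min_le_right _ _)
    have hδ3 : δ ≤ v0 / 2 := (min_le_right _ _).trans (min_le_left _ _)
    have hδ4 : δ ≤ θ * N1 / μ := (min_le_right _ _).trans (min_le_right _ _)
    rw [le_div_iff₀ hμ0] at hδ2 hδ4
    have hmemD : ∀ y ∈ Icc 0 δ, ∀ v ∈ Icc (v0 - δ) (v0 - y), (v, t0 + μ * y) ∈ Dom M k := by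
      intro y hy v hv
      have hμy : 0 ≤ μ * y := mul_nonneg hμ0.le hy.1
      refine ⟨?_, ?_, ?_, ?_⟩
      · simp only; linarith [hv.1, hv0I.1]
      · simp only; linarith [hv.2, hy.1, hv0I.2]
      · simp only; linarith [ht0I.1]
      · simp only
        have h1 : (1 + k) * v ≤ (1 + k) * (v0 - y) := mul_le_mul_of_nonneg_left hv.2 (by linarith)
        have h2 : μ * y ≤ k * y := mul_le_mul_of_nonneg_right hμk hy.1
        nlinarith [hy.1]
    refine no_contact' hlip hle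
      (by rw [hg]; have := heq v0 (Ioo_subset_Icc_self hv0I); rw [hrec] at this; exact this)
      hμ0 hη hd ((hEm n).compl.union hNm) hdens hδ0 (fun y hy v hv => Dom_sub (hmemD y hy v hv)) ?_
    intro y hy hyW v hv
    have hvD := hmemD y (Ioo_subset_Icc_self hy) v (Ioo_subset_Icc_self hv)
    have hμy : 0 < μ * y := mul_pos hμ0 hy.1
    have hμy' : μ * y < δ * μ := by rw [mul_comm δ]; exact mul_lt_mul_of_pos_left hy.2 hμ0
    rw [mem_union, not_or, mem_compl_iff, not_not] at hyW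
    obtain ⟨hyE, hyN⟩ := hyW
    refine ⟨hvD, ?_, ?_⟩
    · have h1 : (t0 + μ * y) / θ < 1 := by rw [div_lt_one hθ]; exact hyE.1.2
      have h3 : (1 - (t0 + μ * y) / θ + N1, t0 + μ * y) ∈ Dom M k :=
        ⟨by simp only; linarith, hyE.2.2.1, hvD.2.2.1, hyE.2.1⟩
      refine hyE.2.2.2.trans_le (hanti _ v _ hvD h3 ?_)
      have h4 : μ * y / θ < N1 := by
        rw [div_lt_iff₀ hθ, mul_comm N1]; linarith
      have h2 : 1 - (t0 + μ * y) / θ = v0 - μ * y / θ := by rw [hv0]; ring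
      rw [h2]
      linarith [hv.2, hy.1]
    · refine hρs _ hyN v hvD ?_ ?_
      · rw [abs_lt]
        constructor <;> linarith [hv.1, hv.2, hy.1]
      · rw [hrec, abs_lt]
        constructor <;> linarith
  · -- below the record
    obtain ⟨v0, hv0I⟩ : ∃ v0 : ℝ, v0 ∈ Ioo (0 : ℝ) 1 := ⟨1 / 2, by constructor <;> norm_num⟩
    obtain ⟨t0, ht0⟩ : ∃ t0 : ℝ, t0 = θ * (1 - v0) := ⟨_, rfl⟩
    have ht0p : 0 < t0 := by
      rw [ht0]; exact mul_pos hθ (by linarith [hv0I.2])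
    obtain ⟨ρ, hρ, hρs⟩ := hnear v0 hv0I
    have hrec := hrecΩ v0 (Ioo_subset_Icc_self hv0I)
    rw [← ht0] at hrec
    have hroom : (1 + k) * v0 + t0 ≤ M := hrec.2.2.2
    have hg1 : g (v0, t0) = 0 := by rw [ht0]; exact heq v0 (Ioo_subset_Icc_self hv0I)
    set δ : ℝ := min (min ρ (ρ / μ)) (v0 / 2) with hδ
    have hδ0 : 0 < δ := lt_min (lt_min hρ (div_pos hρ hμ0)) (by linarith [hv0I.1])
    have hδ1 : δ ≤ ρ := (min_le_left _ _).trans (min_le_left _ _)
    have hδ2 : δ ≤ ρ / μ := (min_le_left _ _).trans (min_le_right _ _)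
    have hδ3 : δ ≤ v0 / 2 := min_le_right _ _
    rw [le_div_iff₀ hμ0] at hδ2
    refine no_contact' hlip hle hg1 hμ0 hη hd hNm (fun ε hε => ?_) hδ0 ?_ ?_
    · refine Eventually.of_forall fun h => ?_
      have : volume (N ∩ Icc t0 (t0 + h)) = 0 := measure_mono_null inter_subset_left hN0
      rw [this]
      exact bot_le
    · intro y hy v hv
      have hμy : 0 ≤ μ * y := mul_nonneg hμ0.le hy.1
      refine ⟨?_, ?_, ?_, ?_⟩
      · simp only; linarith [hv.1, hv0I.1]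
      · simp only; linarith [hv.2, hy.1, hv0I.2]
      · simp only; linarith
      · simp only
        have h1 : (1 + k) * v ≤ (1 + k) * (v0 - y) := mul_le_mul_of_nonneg_left hv.2 (by linarith)
        have h2 : μ * y ≤ k * y := mul_le_mul_of_nonneg_right hμk hy.1
        nlinarith [hy.1]
    intro y hy hyN v hv
    have hμy : 0 < μ * y := mul_pos hμ0 hy.1
    have hμy' : μ * y < δ * μ := by rw [mul_comm δ]; exact mul_lt_mul_of_pos_left hy.2 hμ0
    have hvD : (v, t0 + μ * y) ∈ Dom M k := by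
      refine ⟨?_, ?_, ?_, ?_⟩
      · simp only; linarith [hv.1, hv0I.1]
      · simp only; linarith [hv.2, hy.1, hv0I.2]
      · simp only; linarith
      · simp only
        have h1 : (1 + k) * v < (1 + k) * (v0 - y) := mul_lt_mul_of_pos_left hv.2 (by linarith)
        have h2 : μ * y ≤ k * y := mul_le_mul_of_nonneg_right hμk hy.1.le
        nlinarith [hy.1]
    refine ⟨hvD, ?_, ?_⟩
    · refine (hNsub _ hyN).1 v hvD ?_
      have h1 : θ * (1 - v) > θ * (1 - v0 + y) := by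
        refine mul_lt_mul_of_pos_left ?_ hθ
        linarith [hv.2]
      have h2 : μ * y ≤ θ * y := mul_le_mul_of_nonneg_right (hμk.trans hθk) hy.1.le
      rw [ht0]
      linarith
    · refine hρs _ hyN v hvD ?_ ?_
      · rw [abs_lt]
        constructor <;> linarith [hv.1, hv.2, hy.1]
      · rw [← ht0, abs_lt]
        constructor <;> linarith

end Crest.Agent.R138.End2615
end

-- ▼ part R138/P4_120
section

/-!
# R138: TEXT II, everything except the a.e. table (helper120)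

`NP.T2` : `NP` and the a.e. table give `b ≤ 2 s`.
`ExtP.false_of_table` : `ExtP` and the a.e. table give `False`.
-/

set_option autoImplicit false
set_option linter.unusedVariables false

open Filter Topology MeasureTheory Set
open scoped NNReal ENNReal

namespace Crest.Agent.R138.P120

open Crest.Agent.R138.Ex926 Crest.Agent.R138.End2615

variable {k q s b θ c₀ M : ℝ} {ν : (Fin 6 → ℝ) → ℝ}

/-- log density of the natural class -/
def PP (ν : (Fin 6 → ℝ) → ℝ) (k s v t : ℝ) : ℝ :=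
  ν (X6 v (k * v) t) - (1 - s) * (1 - v) + (2 + k) * v + 2 * t

/-- the a.e. table (output of the blow-up at almost every natural point) -/
def Table (ν : (Fin 6 → ℝ) → ℝ) (k s M : ℝ) : Prop :=
  ∀ᵐ x : ℝ × ℝ, x ∈ End2615.Dom M k → 0 < mT ν k x.1 x.2 →
    ∃ D : ℝ × ℝ →L[ℝ] ℝ, HasFDerivAt (fun x : ℝ × ℝ => PP ν k s x.1 x.2) D x ∧
      (k ≠ 1 → D (1, 0) - k / 2 * D (0, 1) ≤ 2 * s) ∧
      (k = 1 → D (1, 0) - D (0, 1) ≤ s + mT ν k x.1 x.2 ∧
        (s < mT ν k x.1 x.2 → D (1, 0) ≤ 2 * s))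

theorem abs_W_sub_le {k v t v' t' d : ℝ} (hk : 0 ≤ k) (hv : |v - v'| ≤ d) (ht : |t - t'| ≤ d)
    (a : Fin 6) : |W k v t t 0 a - W k v' t' t' 0 a| ≤ (2 + k) * d := by
  have hd : 0 ≤ d := (abs_nonneg _).trans hv
  rw [abs_le] at hv ht ⊢
  fin_cases a
  · show -((2 + k) * d) ≤ ((1 + k) * v + t) - ((1 + k) * v' + t') ∧
      ((1 + k) * v + t) - ((1 + k) * v' + t') ≤ (2 + k) * d
    constructor <;> nlinarith [hv.1, hv.2, ht.1, ht.2]
  · show -((2 + k) * d) ≤ (k * v + t) - (k * v' + t') ∧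
      (k * v + t) - (k * v' + t') ≤ (2 + k) * d
    constructor <;> nlinarith [hv.1, hv.2, ht.1, ht.2]
  · show -((2 + k) * d) ≤ (t + 0) - (t' + 0) ∧ (t + 0) - (t' + 0) ≤ (2 + k) * d
    constructor <;> nlinarith [hv.1, hv.2, ht.1, ht.2]
  · show -((2 + k) * d) ≤ (v + t) - (v' + t') ∧ (v + t) - (v' + t') ≤ (2 + k) * d
    constructor <;> nlinarith [hv.1, hv.2, ht.1, ht.2]
  · show -((2 + k) * d) ≤ v - v' ∧ v - v' ≤ (2 + k) * d
    constructor <;> nlinarith [hv.1, hv.2, ht.1, ht.2]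
  · show -((2 + k) * d) ≤ k * v - k * v' ∧ k * v - k * v' ≤ (2 + k) * d
    constructor <;> nlinarith [hv.1, hv.2, ht.1, ht.2]

theorem NP.PP_lip (N : NP k q s b θ c₀ M ν) : ∃ K : ℝ≥0,
    LipschitzOnWith K (fun x : ℝ × ℝ => PP ν k s x.1 x.2 - c₀) (Om M k) := by
  have hk := N.k0
  refine ⟨⟨6 * (2 + k) + (|1 - s| + (2 + k) + 2), by positivity⟩, ?_⟩
  apply LipschitzOnWith.of_dist_le_mul
  intro x hx y hy
  have m1 : W k x.1 x.2 x.2 0 ∈ LEG M := W_mem hk.le hx.1 hx.2.2.1 le_rfl le_rfl hx.2.2.2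
    (by nlinarith [hx.1, hx.2.2.1, hx.2.2.2]) (by nlinarith [hx.1, hx.2.2.1, hx.2.2.2])
  have m2 : W k y.1 y.2 y.2 0 ∈ LEG M := W_mem hk.le hy.1 hy.2.2.1 le_rfl le_rfl hy.2.2.2
    (by nlinarith [hy.1, hy.2.2.1, hy.2.2.2]) (by nlinarith [hy.1, hy.2.2.1, hy.2.2.2])
  have hd1 : |x.1 - y.1| ≤ dist x y := by
    rw [← Real.dist_eq, Prod.dist_eq]; exact le_max_left _ _
  have hd2 : |x.2 - y.2| ≤ dist x y := by
    rw [← Real.dist_eq, Prod.dist_eq]; exact le_max_right _ _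
  have h1 := N.lipOn.dist_le_mul _ m1 _ m2
  have h2 : dist (W k x.1 x.2 x.2 0) (W k y.1 y.2 y.2 0) ≤ (2 + k) * dist x y := by
    rw [dist_pi_le_iff (by positivity)]
    intro a
    rw [Real.dist_eq]
    exact abs_W_sub_le hk.le hd1 hd2 a
  have h3 : |ν (W k x.1 x.2 x.2 0) - ν (W k y.1 y.2 y.2 0)| ≤ 6 * ((2 + k) * dist x y) := by
    rw [← Real.dist_eq]
    refine h1.trans ?_
    have : ((6 : ℝ≥0) : ℝ) = 6 := by norm_num
    rw [this]
    gcongr
  have hd0 : (0 : ℝ) ≤ dist x y := dist_nonneg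
  have h4 : |(1 - s) * (x.1 - y.1)| ≤ |1 - s| * dist x y := by
    rw [abs_mul]; gcongr
  show dist (PP ν k s x.1 x.2 - c₀) (PP ν k s y.1 y.2 - c₀) ≤
    (6 * (2 + k) + (|1 - s| + (2 + k) + 2)) * dist x y
  rw [Real.dist_eq]
  unfold PP
  rw [X6_eq, X6_eq]
  rw [abs_le] at h3 h4 hd1 hd2 ⊢
  constructor <;> nlinarith [h3.1, h3.2, h4.1, h4.2, hd1.1, hd1.2, hd2.1, hd2.2]

/-- **TEXT II without the table** -/
theorem NP.T2 (N : NP k q s b θ c₀ M ν) (hs : 0 ≤ s) (h5 : Table ν k s M) : b ≤ 2 * s := by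
  have hk := N.k0
  have hθ := N.θ0
  obtain ⟨K, hK⟩ := N.PP_lip
  have hm0 : ∀ x ∈ End2615.Dom M k, mG ν k M x.1 x.2 = mT ν k x.1 x.2 := fun x hx =>
    mG_eq hx.1 hx.2.2.1 hx.2.2.2
  refine end_lin (P := fun v t => PP ν k s v t - c₀) (m := fun v t => mG ν k M v t) hk N.q0 hs hθ
    N.M1 N.M2 hK ?_ ?_ N.mG_measurable ?_ ?_ ?_ ?_
  · -- `g ≤ 0`
    intro x hx
    have h := N.dmax x.1 x.2 x.2 hx.1 hx.2.1 hx.2.2.1 le_rfl (by nlinarith [hx.1]) hx.2.2.2
    show PP ν k s x.1 x.2 - c₀ - b * x.1 + q * x.2 ≤ 0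
    unfold PP
    rw [X6_eq]
    linarith
  · -- record
    intro v hv
    have h := N.record v hv.1 hv.2
    show PP ν k s v (θ * (1 - v)) - c₀ - b * v + q * (θ * (1 - v)) = 0
    unfold PP
    rw [X6_eq]
    linarith
  · intro t v v' _ _ hvv
    exact N.mG_anti t hvv
  · refine Eventually.of_forall fun t v hv htv => ?_
    show 0 < mG ν k M v t
    rw [hm0 _ hv]
    exact N.q0.trans_le (N.mT_wide hv.1 hv.2.2.1 htv)
  · intro hθk
    filter_upwards [N.above hθk] with t ht ht0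
    obtain ⟨v, h1, h2, h3, h4⟩ := ht ht0 0 N.q0
    have h5 : t / θ < 1 := by rw [div_lt_one hθ]; exact ht0.2
    have hv0 : 0 < v := by linarith
    have hD : (v, t) ∈ End2615.Dom M k := ⟨hv0, h2, ht0.1, h3⟩
    refine ⟨v, hD, ?_, ?_⟩
    · have : t = θ * (t / θ) := by field_simp
      nlinarith
    · show 0 < mG ν k M v t
      rw [hm0 _ hD]
      exact h4
  · filter_upwards [h5] with x hx hxD hxm
    have hxm' : 0 < mG ν k M x.1 x.2 := hxm
    rw [hm0 _ hxD] at hxm'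
    obtain ⟨D, hD, hD1, hD2⟩ := hx hxD hxm'
    refine ⟨D, hD.sub_const c₀, hD1, ?_⟩
    show k = 1 → D (1, 0) - D (0, 1) ≤ s + mG ν k M x.1 x.2 ∧
      (s < mG ν k M x.1 x.2 → D (1, 0) ≤ 2 * s)
    rw [hm0 _ hxD]
    exact hD2

/-- **TEXT II from the a.e. table** -/
theorem ExtP.false_of_table {B : Base} {ι : ℕ → Type} [∀ n, DecidableEq (ι n)]
    {I : ∀ n, Finset (ι n)} {x : ∀ n, ι n → Flg101.Inc} {line : ∀ n, ι n → ℕ}
    {own : (Fin 2 → ℝ) → ℝ} (h : ExtP B I x line ν own M s b q k θ c₀)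
    (h5 : Table ν k s M) : False := by
  have N : NP k q s b θ c₀ M ν := NP.of_ext h.k0 h.q0 h.θ0 h.M0.1 h.M0.2 h.lip h.submod h.own_z
    h.dmax h.record
  have := N.T2 h.s0 h5
  linarith [h.bs]

end Crest.Agent.R138.P120
end

-- ▼ part R138/AeT6_501

/-!
# R138: the a.e. table (helper501)

`DlOut` = output of 848's decoupling theorem at almost every natural point.
`ExtB.ae_table` = the a.e. table over the frame-free interface, local own slope.
`ExtP.table` = 120's `Table`; `ExtP.false_of_DlOut`.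
-/

set_option autoImplicit false
set_option linter.unusedVariables false
set_option linter.unusedSectionVars false

open Filter Topology MeasureTheory
open scoped NNReal

namespace Crest.Agent.R138.AeT501

open Crest.Agent.R138.Ex926 Crest.Agent.R138.FM501 Crest.Agent.R138.Flg101
open Crest.Agent.R138.TwMaj480 Crest.Agent.R138.Tw628

/-- first order data of `ν` at the natural point `z = (v, t)`, `X = X6 v (k v) t` -/
def DlAt (ν : (Fin 6 → ℝ) → ℝ) (M k : ℝ) (z : ℝ × ℝ) : Prop :=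
  ∃ (L : ℝ × ℝ →L[ℝ] ℝ) (r0 r2 J : ℝ),
    HasFDerivAt (fun z : ℝ × ℝ => ν (X6 z.1 (k * z.1) z.2)) L z ∧
    Tendsto (fun h : ℝ => (ν (X6 z.1 (k * z.1) z.2) - ν (X6 z.1 (k * z.1) z.2 + h • Dl848.e 2)) / h)
      (𝓝[>] 0) (𝓝 r2) ∧
    ∀ h : ℕ → ℝ, (∀ l, 0 < h l) → Tendsto h atTop (𝓝 0) → ∀ lam : (Fin 6 → ℝ) → ℝ,
      IsTan (LEG M) D6 ν (fun _ => X6 z.1 (k * z.1) z.2) h lam →
      ∃ g : (Fin 6 → ℝ) → ℝ, (∀ c ∈ D6, g c = lam c) ∧
        Dl848.Lim g 1 k (L (1, 0)) (L (0, 1)) r0 r2 J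

/-- output of the decoupling theorem -/
def DlOut (ν : (Fin 6 → ℝ) → ℝ) (M k : ℝ) : Prop :=
  ∀ᵐ z : ℝ × ℝ, 0 < z.1 → 0 < z.2 → (1 + k) * z.1 + z.2 < M → DlAt ν M k z

section

variable {ι : ℕ → Type} [∀ n, DecidableEq (ι n)]
variable {B : Base} {I : ∀ n, Finset (ι n)}
    {x : ∀ n, ι n → Inc} {line : ∀ n, ι n → ℕ} {ν : (Fin 6 → ℝ) → ℝ} {own : (Fin 2 → ℝ) → ℝ}
    {M k u₀ u₁ : ℝ} {w : ℝ → ℝ}

/-- `w` is differentiable a.e. -/
theorem ExtB.ae_w (hE : ExtB B I x line ν own M k u₀ u₁ w) :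
    ∀ᵐ v : ℝ, u₀ < v → v < u₁ → ∃ σ, HasDerivAt w (-σ) v := by
  have hlip : LipschitzOnWith 1 w (Set.Ioo u₀ u₁) := by
    refine LipschitzOnWith.of_dist_le_mul fun a ha b hb => ?_
    rw [NNReal.coe_one, one_mul, Real.dist_eq, Real.dist_eq]
    rcases le_total a b with h | h
    · have := hE.w_lip a b ha.1 h hb.2
      rw [abs_of_nonneg this.1, abs_sub_comm, abs_of_nonneg (by linarith)]
      exact this.2
    · have := hE.w_lip b a hb.1 h ha.2
      rw [abs_sub_comm, abs_of_nonneg this.1, abs_of_nonneg (by linarith)]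
      exact this.2
  filter_upwards [hlip.ae_differentiableWithinAt_of_mem] with v hv h0 h1
  have h2 := hv ⟨h0, h1⟩
  have h3 := h2.differentiableAt (isOpen_Ioo.mem_nhds ⟨h0, h1⟩)
  exact ⟨-(deriv w v), by rw [neg_neg]; exact h3.hasDerivAt⟩

/-- the table at one point with first order data -/
theorem ExtB.table_at (hE : ExtB B I x line ν own M k u₀ u₁ w) {z : ℝ × ℝ} (hv0 : u₀ < z.1)
    (hv1 : z.1 < u₁) (ht : 0 < z.2) (hM : (1 + k) * z.1 + z.2 < M) {σ : ℝ}
    (hw : HasDerivAt w (-σ) z.1) (hD : DlAt ν M k z) :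
    ∃ (m : ℝ) (D : ℝ × ℝ →L[ℝ] ℝ), 0 ≤ m ∧ m ≤ 1 ∧
      Tendsto (fun h : ℝ => (ν (X6 z.1 (k * z.1) z.2) -
        ν (X6 z.1 (k * z.1) z.2 + h • Dl848.e 2)) / h) (𝓝[>] 0) (𝓝 m) ∧
      HasFDerivAt (fun z : ℝ × ℝ => ν (X6 z.1 (k * z.1) z.2) - w z.1 + (2 + k) * z.1 + 2 * z.2)
        D z ∧
      (0 < m → (k ≠ 1 → D (1, 0) - k / 2 * D (0, 1) ≤ 2 * (1 - σ)) ∧
        (k = 1 → D (1, 0) - D (0, 1) ≤ (1 - σ) + m ∧ (1 - σ < m → D (1, 0) ≤ 2 * (1 - σ)))) := by
  obtain ⟨v, t⟩ := z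
  simp only at hv0 hv1 ht hM hw
  obtain ⟨L, r0, r2, J, hL, hr2, H⟩ := hD
  have hvp : 0 ≤ v := hE.u0.trans hv0.le
  have hk := hE.k0
  have hkv : 0 ≤ k * v := mul_nonneg hk.le hvp
  have hMM : t + v + k * v < M := by linarith
  -- a tangent
  obtain ⟨φ, hφ, lam, htan⟩ := exists_tangent isClosed_D6 (P := LEG M) (ν := ν) (K := 6)
    (by norm_num) (nu_lip_of hE.lip) (X := X6 v (k * v) t)
    (fun C => X6_add_mem hvp hkv ht.le hMM C) (g := fun l : ℕ => 1 / ((l : ℝ) + 1))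
    (fun l => by positivity) tendsto_one_div_add_atTop_nhds_zero_nat zero_mem_D6
  set h : ℕ → ℝ := fun l => 1 / ((φ l : ℝ) + 1) with hh
  have hpos : ∀ l, 0 < h l := fun l => by simp only [hh]; positivity
  have h0 : Tendsto h atTop (𝓝 0) :=
    tendsto_one_div_add_atTop_nhds_zero_nat.comp hφ.tendsto_atTop
  obtain ⟨g, hg, hLim⟩ := H h hpos h0 lam htan
  -- the derivative of the log density
  have hw1 : HasFDerivAt (fun z : ℝ × ℝ => w z.1)
      ((ContinuousLinearMap.fst ℝ ℝ ℝ).smulRight (-σ)) (v, t) := by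
    have h1 : HasFDerivAt w (ContinuousLinearMap.smulRight (1 : ℝ →L[ℝ] ℝ) (-σ)) v :=
      hw.hasFDerivAt
    have h2 := h1.comp (v, t) (hasFDerivAt_fst (𝕜 := ℝ) (E := ℝ) (F := ℝ) (p := (v, t)))
    refine h2.congr_fderiv ?_
    ext <;> simp
  have hP : HasFDerivAt (fun z : ℝ × ℝ => ν (X6 z.1 (k * z.1) z.2) - w z.1 + (2 + k) * z.1 +
      2 * z.2) (L - (ContinuousLinearMap.fst ℝ ℝ ℝ).smulRight (-σ) +
        (2 + k) • ContinuousLinearMap.fst ℝ ℝ ℝ + (2 : ℝ) • ContinuousLinearMap.snd ℝ ℝ ℝ)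
      (v, t) := by
    exact ((hL.sub hw1).add ((hasFDerivAt_fst (𝕜 := ℝ) (E := ℝ) (F := ℝ)
      (p := (v, t))).const_mul (2 + k))).add
      ((hasFDerivAt_snd (𝕜 := ℝ) (E := ℝ) (F := ℝ) (p := (v, t))).const_mul 2)
  -- bounds for the rate
  have hquot : ∀ᶠ y : ℝ in 𝓝[>] (0 : ℝ), 0 ≤ (ν (X6 v (k * v) t) -
      ν (X6 v (k * v) t + y • Dl848.e 2)) / y ∧ (ν (X6 v (k * v) t) -
      ν (X6 v (k * v) t + y • Dl848.e 2)) / y ≤ 1 := by
    have h1 : ∀ᶠ y in 𝓝[>] (0 : ℝ), y < M - (t + v + k * v) := by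
      refine Filter.Eventually.filter_mono nhdsWithin_le_nhds ?_
      exact Iio_mem_nhds (by linarith)
    filter_upwards [self_mem_nhdsWithin, h1] with y hy h2
    have hy : 0 < y := hy
    have e0 : (X6 v (k * v) t + y • Dl848.e 2) 0 = t + v + k * v := by
      simp [X6, Dl848.e_20]
    have e1 : (X6 v (k * v) t + y • Dl848.e 2) 1 = t + k * v := by
      simp [X6, Dl848.e_21]
    have e2 : (X6 v (k * v) t + y • Dl848.e 2) 2 = t + y := by
      simp [X6, Dl848.e_22]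
    have e3 : (X6 v (k * v) t + y • Dl848.e 2) 3 = t + v := by
      simp [X6, Dl848.e_23]
    have e4 : (X6 v (k * v) t + y • Dl848.e 2) 4 = v := by
      simp [X6, Dl848.e_24]
    have e5 : (X6 v (k * v) t + y • Dl848.e 2) 5 = k * v := by
      simp [X6, Dl848.e_25]
    have m1 : X6 v (k * v) t ∈ LEG M := by
      rw [mem_LEG]
      refine ⟨fun a => ?_, ?_, ?_, ?_, ?_⟩
      · fin_cases a
        · show 0 ≤ t + v + k * v ∧ t + v + k * v ≤ M; constructor <;> linarith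
        · show 0 ≤ t + k * v ∧ t + k * v ≤ M; constructor <;> linarith
        · show 0 ≤ t ∧ t ≤ M; constructor <;> linarith
        · show 0 ≤ t + v ∧ t + v ≤ M; constructor <;> linarith
        · show 0 ≤ v ∧ v ≤ M; constructor <;> linarith
        · show 0 ≤ k * v ∧ k * v ≤ M; constructor <;> linarith
      · show t + v + k * v ≤ t + k * v + v; linarith
      · show t + v ≤ t + v; exact le_rfl
      · show t + v + k * v ≤ k * v + (t + v); linarith
      · show t + k * v ≤ k * v + t; linarith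
    have m2 : X6 v (k * v) t + y • Dl848.e 2 ∈ LEG M := by
      rw [mem_LEG, e0, e1, e2, e3, e4, e5]
      refine ⟨fun a => ?_, ?_, ?_, ?_, ?_⟩
      · fin_cases a
        · show 0 ≤ (X6 v (k * v) t + y • Dl848.e 2) 0 ∧ (X6 v (k * v) t + y • Dl848.e 2) 0 ≤ M
          rw [e0]; constructor <;> linarith
        · show 0 ≤ (X6 v (k * v) t + y • Dl848.e 2) 1 ∧ (X6 v (k * v) t + y • Dl848.e 2) 1 ≤ M
          rw [e1]; constructor <;> linarith
        · show 0 ≤ (X6 v (k * v) t + y • Dl848.e 2) 2 ∧ (X6 v (k * v) t + y • Dl848.e 2) 2 ≤ M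
          rw [e2]; constructor <;> linarith
        · show 0 ≤ (X6 v (k * v) t + y • Dl848.e 2) 3 ∧ (X6 v (k * v) t + y • Dl848.e 2) 3 ≤ M
          rw [e3]; constructor <;> linarith
        · show 0 ≤ (X6 v (k * v) t + y • Dl848.e 2) 4 ∧ (X6 v (k * v) t + y • Dl848.e 2) 4 ≤ M
          rw [e4]; constructor <;> linarith
        · show 0 ≤ (X6 v (k * v) t + y • Dl848.e 2) 5 ∧ (X6 v (k * v) t + y • Dl848.e 2) 5 ≤ M
          rw [e5]; constructor <;> linarith
      · linarith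
      · linarith
      · linarith
      · linarith
    have hle : X6 v (k * v) t ≤ X6 v (k * v) t + y • Dl848.e 2 := by
      refine Dl848.le6 ?_ ?_ ?_ ?_ ?_ ?_
      · rw [e0]; exact le_rfl
      · rw [e1]; exact le_rfl
      · rw [e2]; show t ≤ t + y; linarith
      · rw [e3]; exact le_rfl
      · rw [e4]; exact le_rfl
      · rw [e5]; exact le_rfl
    obtain ⟨l1, l2⟩ := hE.lip _ m1 _ m2 hle
    rw [Fin.sum_univ_six, e0, e1, e2, e3, e4, e5] at l2
    have l3 : ν (X6 v (k * v) t) - ν (X6 v (k * v) t + y • Dl848.e 2) ≤ y := by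
      have f0 : X6 v (k * v) t 0 = t + v + k * v := rfl
      have f1 : X6 v (k * v) t 1 = t + k * v := rfl
      have f2 : X6 v (k * v) t 2 = t := rfl
      have f3 : X6 v (k * v) t 3 = t + v := rfl
      have f4 : X6 v (k * v) t 4 = v := rfl
      have f5 : X6 v (k * v) t 5 = k * v := rfl
      rw [f0, f1, f2, f3, f4, f5] at l2
      linarith
    exact ⟨div_nonneg l1 hy.le, by rw [div_le_one hy]; exact l3⟩
  refine ⟨r2, _, ge_of_tendsto hr2 (hquot.mono fun y hy => hy.1),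
    le_of_tendsto hr2 (hquot.mono fun y hy => hy.2), hr2, hP, fun hm => ?_⟩
  obtain ⟨c1, c2⟩ := hE.at_point hv0 hv1 ht.le hw hpos h0 htan hg hLim hm
  have d1 : (L - (ContinuousLinearMap.fst ℝ ℝ ℝ).smulRight (-σ) +
      (2 + k) • ContinuousLinearMap.fst ℝ ℝ ℝ + (2 : ℝ) • ContinuousLinearMap.snd ℝ ℝ ℝ) (1, 0) =
      L (1, 0) + σ + (2 + k) := by
    simp
  have d2 : (L - (ContinuousLinearMap.fst ℝ ℝ ℝ).smulRight (-σ) +
      (2 + k) • ContinuousLinearMap.fst ℝ ℝ ℝ + (2 : ℝ) • ContinuousLinearMap.snd ℝ ℝ ℝ) (0, 1) =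
      L (0, 1) + 2 := by
    simp
  rw [d1, d2]
  exact ⟨c1, c2⟩

/-- **The a.e. table over the frame-free interface**, with local own slope `σ = -w'(v)`. -/
theorem ExtB.ae_table (hE : ExtB B I x line ν own M k u₀ u₁ w) (hDl : DlOut ν M k) :
    ∀ᵐ z : ℝ × ℝ, u₀ < z.1 → z.1 < u₁ → 0 < z.2 → (1 + k) * z.1 + z.2 < M →
      ∃ (σ m : ℝ) (D : ℝ × ℝ →L[ℝ] ℝ), HasDerivAt w (-σ) z.1 ∧ 0 ≤ σ ∧ σ ≤ 1 ∧ 0 ≤ m ∧ m ≤ 1 ∧
      Tendsto (fun h : ℝ => (ν (X6 z.1 (k * z.1) z.2) -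
        ν (X6 z.1 (k * z.1) z.2 + h • Dl848.e 2)) / h) (𝓝[>] 0) (𝓝 m) ∧
      HasFDerivAt (fun z : ℝ × ℝ => ν (X6 z.1 (k * z.1) z.2) - w z.1 + (2 + k) * z.1 + 2 * z.2)
        D z ∧
      (0 < m → (k ≠ 1 → D (1, 0) - k / 2 * D (0, 1) ≤ 2 * (1 - σ)) ∧
        (k = 1 → D (1, 0) - D (0, 1) ≤ (1 - σ) + m ∧ (1 - σ < m → D (1, 0) ≤ 2 * (1 - σ)))) := by
  have h1 : ∀ᵐ z : ℝ × ℝ, u₀ < z.1 → z.1 < u₁ → ∃ σ, HasDerivAt w (-σ) z.1 :=
    Measure.quasiMeasurePreserving_fst.ae hE.ae_w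
  filter_upwards [h1, hDl] with z hz1 hz2 hv0 hv1 ht hM
  obtain ⟨σ, hσ⟩ := hz1 hv0 hv1
  obtain ⟨s0, s1⟩ := hE.slope_mem hv0 hv1 hσ
  obtain ⟨m, D, a1, a2, a3, a4, a5⟩ := hE.table_at hv0 hv1 ht hM hσ
    (hz2 (lt_of_le_of_lt hE.u0 hv0) ht hM)
  exact ⟨σ, m, D, hσ, s0, s1, a1, a2, a3, a4, a5⟩

end

section

variable {ι : ℕ → Type} [∀ n, DecidableEq (ι n)]
variable {B : Base} {I : ∀ n, Finset (ι n)}
    {x : ∀ n, ι n → Inc} {line : ∀ n, ι n → ℕ} {ν : (Fin 6 → ℝ) → ℝ} {own : (Fin 2 → ℝ) → ℝ}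
    {M s b q k θ c₀ : ℝ}

/-- the rate of the a.e. table is 120's `mT` -/
theorem mT_eq {k v t m : ℝ} (hm0 : 0 ≤ m) (hm1 : m ≤ 1)
    (h : Tendsto (fun h : ℝ => (ν (X6 v (k * v) t) - ν (X6 v (k * v) t + h • Dl848.e 2)) / h)
      (𝓝[>] 0) (𝓝 m)) : P120.mT ν k v t = m := by
  refine P120.mT_eq_of_tendsto hm0 hm1 ?_
  have h1 : Tendsto (fun j : ℕ => 1 / ((j : ℝ) + 1)) atTop (𝓝[>] 0) := by
    rw [tendsto_nhdsWithin_iff]
    exact ⟨tendsto_one_div_add_atTop_nhds_zero_nat,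
      Eventually.of_forall fun j => by show (0 : ℝ) < 1 / ((j : ℝ) + 1); positivity⟩
  have h2 := h.comp h1
  refine h2.congr fun j => ?_
  show (ν (X6 v (k * v) t) - ν (X6 v (k * v) t + (1 / ((j : ℝ) + 1)) • Dl848.e 2)) /
    (1 / ((j : ℝ) + 1)) = ((j : ℝ) + 1) * (ν (P120.W k v t t 0) -
      ν (P120.W k v t t (1 / ((j : ℝ) + 1))))
  have e1 : X6 v (k * v) t + (1 / ((j : ℝ) + 1)) • Dl848.e 2 =
      P120.W k v t t (1 / ((j : ℝ) + 1)) := by
    refine Dl848.ext6 ?_ ?_ ?_ ?_ ?_ ?_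
    · simp [X6, P120.W, Dl848.e_20]; ring
    · simp [X6, P120.W, Dl848.e_21]; ring
    · simp [X6, P120.W, Dl848.e_22]
    · simp [X6, P120.W, Dl848.e_23]; ring
    · simp [X6, P120.W, Dl848.e_24]
    · simp [X6, P120.W, Dl848.e_25]
  rw [e1, P120.X6_eq]
  have hj : (0 : ℝ) < (j : ℝ) + 1 := by positivity
  field_simp

/-- **120's `Table`** -/
theorem ExtP.table_of_DlOut (hE : ExtP B I x line ν own M s b q k θ c₀) (hDl : DlOut ν M k) :
    P120.Table ν k s M := by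
  have h1 := hE.toB.ae_table hDl
  unfold P120.Table
  filter_upwards [h1] with z hz hzD hm
  obtain ⟨σ, m, D, hσ, s0, s1, m0, m1, hmt, hD, hc⟩ := hz hzD.1 hzD.2.1 hzD.2.2.1 hzD.2.2.2
  have hmT := mT_eq m0 m1 hmt
  have hder : HasDerivAt (fun v : ℝ => (1 - s) * (1 - v)) (-(1 - s)) z.1 := by
    have := ((hasDerivAt_id z.1).const_sub 1).const_mul (1 - s)
    simpa using this
  have hσs : σ = 1 - s := by
    have := hσ.unique hder
    linarith
  rw [hmT] at hm ⊢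
  refine ⟨D, hD, ?_, ?_⟩
  · intro hk1
    have := (hc hm).1 hk1
    rw [hσs] at this
    linarith
  · intro hk1
    obtain ⟨a1, a2⟩ := (hc hm).2 hk1
    rw [hσs] at a1 a2
    refine ⟨by linarith, fun hsm => ?_⟩
    have := a2 (by linarith)
    linarith

/-- `EXT` is contradictory, modulo the decoupling theorem -/
theorem ExtP.false_of_DlOut (hE : ExtP B I x line ν own M s b q k θ c₀) (hDl : DlOut ν M k) :
    False :=
  P120.ExtP.false_of_table hE (ExtP.table_of_DlOut hE hDl)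

end

end Crest.Agent.R138.AeT501
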