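import Mathlib

-- ▼ part R138/Dec1_848
section

/-!
# R138: decoupling lemma, algebraic part (helper848)

`ν : (Fin 4 → ℝ) → ℝ` (log of the number of objects in the box of side exponents `p`), near the
natural surface `X k v t = ((1+k)v+t, kv+t, t, v+t)`.

* `SubOn`: increments `E ν i s p = ν p - ν (p + s e_i)` lie in `[0, C s]` and are antitone in the
  other coordinates (number of children of a smaller box).
* `D ν i h p`: defect of separation of the direction `i` on the window `p + [0,h]^4`.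
* `D_two_le`, `D_zero_le`, `M_le_of_lt`, `M_le_of_gt`: the defects at a natural box are bounded by
  differences of increments at two natural boxes (stationarity).
* `sep`: `ν` is additively separated on the window up to the sum of the defects;
  `halfSep` : the same with the pair `(1,3)` kept together.
-/

set_option autoImplicit false

open scoped BigOperators

namespace Crest.Agent.R138.Dec848

/-- exponent vectors -/
abbrev V4 := Fin 4 → ℝ

/-- unit vectors -/
noncomputable def e (i : Fin 4) : V4 := Pi.single i 1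

/-- the natural box -/
def X (k v t : ℝ) : V4 := ![(1 + k) * v + t, k * v + t, t, v + t]

/-- increment of `ν` in direction `i` -/
noncomputable def E (ν : V4 → ℝ) (i : Fin 4) (s : ℝ) (p : V4) : ℝ := ν p - ν (p + s • e i)

/-- the hypotheses on the counting exponent on a region `S` -/
structure SubOn (ν : V4 → ℝ) (S : Set V4) (C H : ℝ) : Prop where
  nonneg : ∀ p ∈ S, ∀ i s, 0 ≤ s → s ≤ H → 0 ≤ E ν i s p
  le : ∀ p ∈ S, ∀ i s, 0 ≤ s → s ≤ H → E ν i s p ≤ C * s
  sub : ∀ p ∈ S, ∀ p' ∈ S, ∀ i s, p ≤ p' → p i = p' i → 0 ≤ s → s ≤ H → E ν i s p' ≤ E ν i s p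

/-- far corner of the window in the directions `≠ i` -/
noncomputable def far (i : Fin 4) (h : ℝ) (p : V4) : V4 := fun j => if j = i then p j else p j + h

/-- defect of separation of direction `i` on the window `p + [0,h]^4` -/
noncomputable def D (ν : V4 → ℝ) (i : Fin 4) (h : ℝ) (p : V4) : ℝ :=
  E ν i h p - E ν i h (far i h p)

/-- the remaining mixed difference `(1,3)` -/
noncomputable def M (ν : V4 → ℝ) (h : ℝ) (p : V4) : ℝ := E ν 1 h p - E ν 1 h (p + h • e 3)






theorem X_zero (k v t : ℝ) : X k v t 0 = (1 + k) * v + t := rfl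








/-- the ball around `p` (sup norm) -/
def Bx (p : V4) (r : ℝ) : Set V4 := {q | ∀ i, |q i - p i| ≤ r}


section

variable {ν : V4 → ℝ} {S : Set V4} {C H : ℝ}


















end

end Crest.Agent.R138.Dec848
end

-- ▼ part R138/Dec2_848

/-!
# R138: decoupling lemma, measure part (helper848)

For almost every `(v,t)` the defects `D ν i h (X k v t)` are `o(h)` as `h → 0`:
`i = 0, 2` for every `k > 0`, all `i` for `k ≠ 1`.
-/

set_option autoImplicit false

open MeasureTheory Filter Topology Set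
open scoped ENNReal

namespace Crest.Agent.R138.Dec848






/-- telescoping of a shift in an integral -/
theorem lint_shift {A : Set (ℝ × ℝ)} (hA : MeasurableSet A) (hAv : volume A ≠ ∞) (c : ℝ × ℝ)
    {G D D' : ℝ × ℝ → ℝ≥0∞} (hG : Measurable G) (hD' : Measurable D')
    {g : ℝ≥0∞} (hg : g ≠ ∞)
    (h1 : ∀ x ∈ A, D x + G (x + c) ≤ G x + D' (x + c)) (h2 : ∀ x ∈ A, G x ≤ g)
    (h3 : ∀ x ∈ A, G (x + c) ≤ g) :
    ∫⁻ x in A, D x ≤ g * volume (A \ (fun x => x - c) ⁻¹' A)
      + ∫⁻ x in (fun x => x - c) ⁻¹' A, D' x := by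
  set A' : Set (ℝ × ℝ) := (fun x => x - c) ⁻¹' A with hA'
  have mA' : MeasurableSet A' := (measurable_id.sub_const c) hA
  have hpre : (fun x : ℝ × ℝ => x + c) ⁻¹' A' = A := by
    ext x; simp [hA']
  have tr : ∀ F : ℝ × ℝ → ℝ≥0∞, Measurable F → ∫⁻ x in A, F (x + c) = ∫⁻ x in A', F x := by
    intro F hF
    have := (measurePreserving_add_right (volume : Measure (ℝ × ℝ)) c).setLIntegral_comp_preimage
      mA' hF
    rwa [hpre] at this
  have hvA' : volume A' = volume A := by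
    have := (measurePreserving_add_right (volume : Measure (ℝ × ℝ)) c).measure_preimage
      mA'.nullMeasurableSet
    rw [hpre] at this
    exact this.symm
  have hgA' : ∀ x ∈ A', G x ≤ g := by
    intro x hx
    have := h3 (x - c) hx
    simpa using this
  have fin : ∫⁻ x in A', G x ≠ ∞ := by
    refine ne_of_lt (lt_of_le_of_lt (setLIntegral_mono measurable_const hgA') ?_)
    rw [setLIntegral_const, hvA']
    exact ENNReal.mul_lt_top hg.lt_top hAv.lt_top
  have s1 : ∫⁻ x in A, D x + G (x + c) ≤ ∫⁻ x in A, G x + D' (x + c) :=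
    setLIntegral_mono (hG.add (hD'.comp (measurable_id.add_const c))) h1
  have hGc : Measurable (fun x => G (x + c)) := hG.comp (measurable_id.add_const c)
  have s2 : ∫⁻ x in A, D x + G (x + c) = (∫⁻ x in A, D x) + ∫⁻ x in A', G x := by
    rw [lintegral_add_right _ hGc, tr G hG]
  have s3 : ∫⁻ x in A, G x + D' (x + c) = (∫⁻ x in A, G x) + ∫⁻ x in A', D' x := by
    rw [lintegral_add_left hG, tr D' hD']
  have s4 : ∫⁻ x in A, G x ≤ (∫⁻ x in A', G x) + g * volume (A \ A') := by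
    rw [← lintegral_inter_add_sdiff G A mA']
    refine add_le_add (lintegral_mono_set inter_subset_right) ?_
    refine (setLIntegral_mono measurable_const (fun x hx => h2 x hx.1)).trans ?_
    rw [setLIntegral_const]
  rw [s2, s3] at s1
  have s5 : (∫⁻ x in A, D x) + ∫⁻ x in A', G x
      ≤ (g * volume (A \ A') + ∫⁻ x in A', D' x) + ∫⁻ x in A', G x := by
    refine s1.trans ?_
    refine (add_le_add s4 le_rfl).trans ?_
    apply le_of_eq; ring
  exact (ENNReal.add_le_add_iff_right fin).1 s5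

theorem vol_Icc_diff (a b c : ℝ) :
    volume (Icc a b \ Icc (a + c) (b + c)) ≤ ENNReal.ofReal |c| := by
  rcases le_total 0 c with h | h
  · have : Icc a b \ Icc (a + c) (b + c) ⊆ Icc a (a + c) := by
      rintro x ⟨⟨h1, h2⟩, h3⟩
      refine ⟨h1, ?_⟩
      by_contra h4
      exact h3 ⟨by linarith [not_le.1 h4], by linarith⟩
    refine (measure_mono this).trans ?_
    rw [Real.volume_Icc, abs_of_nonneg h]
    apply le_of_eq; congr 1; ring
  · have : Icc a b \ Icc (a + c) (b + c) ⊆ Icc (b + c) b := by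
      rintro x ⟨⟨h1, h2⟩, h3⟩
      refine ⟨?_, h2⟩
      by_contra h4
      exact h3 ⟨by linarith, by linarith [not_le.1 h4]⟩
    refine (measure_mono this).trans ?_
    rw [Real.volume_Icc, abs_of_nonpos h]
    apply le_of_eq; congr 1; ring

/-- the rectangle -/
def Rc (v₀ v₁ t₀ t₁ : ℝ) : Set (ℝ × ℝ) := Icc v₀ v₁ ×ˢ Icc t₀ t₁

theorem measurableSet_Rc (v₀ v₁ t₀ t₁ : ℝ) : MeasurableSet (Rc v₀ v₁ t₀ t₁) :=
  measurableSet_Icc.prod measurableSet_Icc

theorem vol_Rc (v₀ v₁ t₀ t₁ : ℝ) :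
    volume (Rc v₀ v₁ t₀ t₁) = ENNReal.ofReal (v₁ - v₀) * ENNReal.ofReal (t₁ - t₀) := by
  rw [Rc, Measure.volume_eq_prod, Measure.prod_prod, Real.volume_Icc, Real.volume_Icc]

theorem preimage_Rc (v₀ v₁ t₀ t₁ : ℝ) (c : ℝ × ℝ) :
    (fun x => x - c) ⁻¹' Rc v₀ v₁ t₀ t₁ = Rc (v₀ + c.1) (v₁ + c.1) (t₀ + c.2) (t₁ + c.2) := by
  ext x
  simp only [Rc, mem_preimage, mem_prod, Prod.fst_sub, Prod.snd_sub, mem_Icc]
  constructor
  · rintro ⟨⟨h1, h2⟩, h3, h4⟩
    exact ⟨⟨by linarith, by linarith⟩, by linarith, by linarith⟩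
  · rintro ⟨⟨h1, h2⟩, h3, h4⟩
    exact ⟨⟨by linarith, by linarith⟩, by linarith, by linarith⟩

theorem vol_Rc_diff {v₀ v₁ t₀ t₁ : ℝ} (hv : v₀ ≤ v₁) (ht : t₀ ≤ t₁) (c : ℝ × ℝ) :
    volume (Rc v₀ v₁ t₀ t₁ \ (fun x => x - c) ⁻¹' Rc v₀ v₁ t₀ t₁)
      ≤ ENNReal.ofReal (|c.1| * (t₁ - t₀) + |c.2| * (v₁ - v₀)) := by
  rw [preimage_Rc]
  have hsub : Rc v₀ v₁ t₀ t₁ \ Rc (v₀ + c.1) (v₁ + c.1) (t₀ + c.2) (t₁ + c.2) ⊆
      (Icc v₀ v₁ \ Icc (v₀ + c.1) (v₁ + c.1)) ×ˢ Icc t₀ t₁ ∪
      Icc v₀ v₁ ×ˢ (Icc t₀ t₁ \ Icc (t₀ + c.2) (t₁ + c.2)) := by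
    rintro ⟨v, t⟩ ⟨⟨h1, h2⟩, h3⟩
    by_cases h4 : v ∈ Icc (v₀ + c.1) (v₁ + c.1)
    · right
      refine ⟨h1, h2, fun h5 => h3 ⟨h4, h5⟩⟩
    · left
      exact ⟨⟨h1, h4⟩, h2⟩
  refine (measure_mono hsub).trans ((measure_union_le _ _).trans ?_)
  rw [ENNReal.ofReal_add (by have := abs_nonneg c.1; nlinarith)
    (by have := abs_nonneg c.2; nlinarith)]
  refine add_le_add ?_ ?_
  · rw [Measure.volume_eq_prod, Measure.prod_prod, Real.volume_Icc,
      ENNReal.ofReal_mul (abs_nonneg _)]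
    gcongr
    exact vol_Icc_diff _ _ _
  · rw [Measure.volume_eq_prod, Measure.prod_prod, Real.volume_Icc, mul_comm,
      ENNReal.ofReal_mul (abs_nonneg _)]
    gcongr
    exact vol_Icc_diff _ _ _

section

variable {ν : V4 → ℝ} {S : Set V4} {C H : ℝ}














end

end Crest.Agent.R138.Dec848
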