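import Crest.Agent.R138.Nx4_638
import Crest.Agent.R138.Dl5_848
import Crest.Agent.R138.Dec2_848
import Crest.Agent.R138.AeT6_501

-- ▼ part R138/Nx5_638
section

/-!
# R138, TEXT I, L15 (helper638): GEO-D
-/

set_option autoImplicit false
set_option linter.unusedVariables false

open Finset Filter Topology

namespace Crest.Agent.R138.Nx638

open Crest.Agent.R138.Ex926 (Base U flab olab Bx6 LEG QProf mem_LEG half_pow_levc_le le_half_pow_levc
  half_pow_lev_le le_half_pow_lev)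
open Crest.Agent.R138.Flag51 Crest.Agent.R138.Flg101 Crest.Agent.R138.Mk163
open Crest.Agent.R138.L15

noncomputable section

variable {B : Base} {I : ℕ → Finset (ℕ × ℝ)} {L : ℕ → ℕ → Ln} {lev : ℕ → ℚ → ℕ}
    {r0 A : ℕ → ℝ} {q g : ℝ} {f : ℕ → ℚ → ℕ → ℤ → ℕ} {b : ℕ → ℚ → ℕ → Ln}
    {e : ℕ → ℚ → ℕ → E2} {w1 w2 : ℕ → ℚ → ℝ} {fl : ℕ → ℕ × ℝ → E2} {sc : ℕ → ℝ} {k s θ : ℝ}
    {c : Bool}

open Classical in
/-- **[GEO-D]** -/
theorem geoD : GeoD B I L lev r0 A q g f b e w1 w2 fl sc k s θ c := by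
  intro hJ v l nn r hv0 hv hl hln hLEG ε hε
  have hM : v + nn ≤ MM k θ := (((mem_LEG.1 hLEG).1 0).2 : _)
  have h2 : (0:ℝ) < ε / 2 := by positivity
  filter_upwards [geoD_lab hJ hv0 hv hl hln hM (r := r) h2,
    ev_const B (by norm_num : (0:ℝ) < 41 ^ 4) h2] with n h1 h3 x hx
  set p : Fin 4 → ℕ := ![B.lev n (v + nn), B.levc n nn, B.levc n l, B.lev n (v + l)] with hp
  set S := (I n).filter fun y =>
      (xx L lev w1 w2 fl c n y).cell (B.levc n v) (B.levc n r) =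
        (xx L lev w1 w2 fl c n x).cell (B.levc n v) (B.levc n r) ∧
      ∀ i : Fin 4, |(xx L lev w1 w2 fl c n y).co (B.levc n v) (B.levc n r) i -
        (xx L lev w1 w2 fl c n x).co (B.levc n v) (B.levc n r) i| ≤
          10 * B.d n ^ (![v + nn, nn, l, v + l] i) with hS
  set lab : ℕ × ℝ → _ := fun y => (xx L lev w1 w2 fl c n y).lab (B.levc n v) (B.levc n r) p with hlab
  set N := N0 lev A q w1 w2 n * B.d n ^ (-(bex s (2 * s + g) q v l nn + ε / 2)) with hNdef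
  have hcount : (S.image lab).card ≤ 41 ^ 4 := by
    have := card_lab_le (K := fun _ => 20) S (xx L lev w1 w2 fl c n) (i := B.levc n v)
      (j := B.levc n r) (p := p) (xx L lev w1 w2 fl c n x)
      (fun t ht => (mem_filter.1 ht).2.1)
      (fun t ht i => ((mem_filter.1 ht).2.2 i).trans ?_)
    · refine this.trans (le_of_eq ?_)
      simp
    · have k1 := le_half_pow_lev B n (add_nonneg hv0 (hl.trans hln))
      have k2 := le_half_pow_levc B n (hl.trans hln)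
      have k3 := le_half_pow_levc B n hl
      have k4 := le_half_pow_lev B n (add_nonneg hv0 hl)
      have d1 := (d_pos B n (v + nn)).le
      have d4 := (d_pos B n (v + l)).le
      rw [hp]
      fin_cases i
      · show 10 * B.d n ^ (v + nn) ≤ ((20 : ℕ) : ℝ) * (1 / 2) ^ (B.lev n (v + nn))
        push_cast; linarith
      · show 10 * B.d n ^ nn ≤ ((20 : ℕ) : ℝ) * (1 / 2) ^ (B.levc n nn)
        push_cast; linarith
      · show 10 * B.d n ^ l ≤ ((20 : ℕ) : ℝ) * (1 / 2) ^ (B.levc n l)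
        push_cast; linarith
      · show 10 * B.d n ^ (v + l) ≤ ((20 : ℕ) : ℝ) * (1 / 2) ^ (B.lev n (v + l))
        push_cast; linarith
  have hN0 : 0 ≤ N := le_trans (Nat.cast_nonneg _) (h1 x hx)
  have hsum : (S.card : ℝ) ≤ 41 ^ 4 * N := by
    rw [card_eq_sum_card_image lab S]
    push_cast
    have : ∀ a ∈ S.image lab, ((S.filter fun y => lab y = a).card : ℝ) ≤ N := by
      intro a ha
      obtain ⟨y, hy, rfl⟩ := mem_image.1 ha
      refine le_trans ?_ (h1 y (mem_filter.1 hy).1)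
      exact_mod_cast card_le_card fun z hz => by
        rw [mem_filter] at hz ⊢
        exact ⟨(mem_filter.1 hz.1).1, hz.2⟩
    refine (sum_le_sum this).trans ?_
    rw [sum_const, nsmul_eq_mul]
    refine mul_le_mul_of_nonneg_right ?_ hN0
    exact_mod_cast hcount
  refine hsum.trans ?_
  have hd : B.d n ^ (-(bex s (2 * s + g) q v l nn + ε)) =
      B.d n ^ (-(ε / 2)) * B.d n ^ (-(bex s (2 * s + g) q v l nn + ε / 2)) := by
    rw [← d_add]; congr 1; ring
  rw [hd]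
  calc 41 ^ 4 * N ≤ B.d n ^ (-(ε / 2)) * N := mul_le_mul_of_nonneg_right h3 hN0
    _ = _ := by rw [hNdef]; ring

end

end Crest.Agent.R138.Nx638
end

-- ▼ part R138/Dl6_848
section

/-!
# R138: decoupling on the legal region, integral estimate for the directions 0 and 2 (helper848)
-/

set_option autoImplicit false

open MeasureTheory Filter Topology Set
open scoped ENNReal

namespace Crest.Agent.R138.Dl848

open Crest.Agent.R138.Dec848 (Rc measurableSet_Rc vol_Rc preimage_Rc vol_Rc_diff lint_shift)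

theorem Pr.tr {ν : V6 → ℝ} {S : Set V6} (h : Pr ν S) {x0 : V6} {r : ℝ}
    (hS : ∀ c ∈ LB r, x0 + c ∈ S) : Pr (fun c => ν (x0 + c)) (LB r) := by
  refine ⟨fun p hp q hq hpq => h.anti _ (hS p hp) _ (hS q hq) (by gcongr),
    fun p hp q hq h1 h2 => ?_⟩
  have e1 : (x0 + p) ⊓ (x0 + q) = x0 + (p ⊓ q) := by
    ext i; simp only [Pi.inf_apply, Pi.add_apply]; exact min_add_add_left _ _ _
  have e2 : (x0 + p) ⊔ (x0 + q) = x0 + (p ⊔ q) := by
    ext i; simp only [Pi.sup_apply, Pi.add_apply]; exact max_add_add_left _ _ _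
  have := h.sup _ (hS p hp) _ (hS q hq) (by rw [e1]; exact hS _ h1) (by rw [e2]; exact hS _ h2)
  rwa [e1, e2] at this

theorem Inc_tr (ν : V6 → ℝ) (x0 d c : V6) : Inc (fun c => ν (x0 + c)) d c = Inc ν d (x0 + c) := by
  unfold Inc; rw [add_assoc]

/-- increments at natural boxes with raised levels -/
noncomputable def GU (ν : V6 → ℝ) (a b φ : ℝ → ℝ) (i : Fin 6) (N R δ : ℝ) (x : ℝ × ℝ) : ℝ :=
  Inc ν ((2 * N) • e i)
    (X (a (x.1 - δ)) (b (x.1 - δ)) (x.2 - φ (x.1 - δ)) + w45 R R + (-N) • e i)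

/-- increments at natural boxes with levels relative to the base point -/
noncomputable def VU (ν : V6 → ℝ) (a b φ : ℝ → ℝ) (i : Fin 6) (N R δ : ℝ) (x : ℝ × ℝ) : ℝ :=
  Inc ν ((2 * N) • e i)
    (Y a b φ x + pt i (a (x.1 - δ) - a x.1) (b (x.1 - δ) - b x.1) (φ x.1 - φ (x.1 - δ))
      (R - (a (x.1 - δ) - a x.1)) (R - (b (x.1 - δ) - b x.1)) (-N))

section

variable {ν : V6 → ℝ} {S : Set V6} {K Λ : ℝ} {a b φ : ℝ → ℝ}

/-- the admissible cases -/
def Case (a b φ : ℝ → ℝ) (i : Fin 6) (δ : ℝ) : Prop :=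
  (i = 2 ∧ (∀ s, φ s = 0) ∧ 0 ≤ δ) ∨ (i = 0 ∧ (∀ s, φ s = a s + b s) ∧ δ ≤ 0)

theorem Sf.U_bound (h : Sf ν S K Λ a b φ) {x : ℝ × ℝ} {i : Fin 6} {r D δ N R : ℝ}
    (hc : Case a b φ i δ) (hN : 0 ≤ N) (hD : Λ * |δ| ≤ D)
    (hS : ∀ c ∈ LB r, Y a b φ x + c ∈ S) (hR : D + 2 * N ≤ R) (hr : 4 * D + 4 * N + 4 * R ≤ r) :
    0 ≤ VU ν a b φ i N R δ x - VU ν a b φ i N R (-δ) x ∧
    0 ≤ GU ν a b φ i N (R + D) (-δ) x ∧
    VU ν a b φ i N R δ x - VU ν a b φ i N R (-δ) x ≤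
      MJ ν a b φ δ N (R + D) x + (GU ν a b φ i N (R + D) δ x - GU ν a b φ i N (R + D) (-δ) x) := by
  have hD' : Λ * |(-δ)| ≤ D := by rwa [abs_neg]
  obtain ⟨h1, h2, h3⟩ := h.small hD x.1
  obtain ⟨h1', h2', h3'⟩ := h.small hD' x.1
  have hD0 : 0 ≤ D := (abs_nonneg _).trans h1
  have hf := h.pr.tr hS
  have hi : i = 0 ∨ i = 2 := by
    rcases hc with hc | hc
    · exact Or.inr hc.1
    · exact Or.inl hc.1
  have hmono : (x.1 - δ ≤ x.1 - -δ ∧ i = 2 ∧ (∀ s, φ s = 0)) ∨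
      (x.1 - -δ ≤ x.1 - δ ∧ i = 0 ∧ (∀ s, φ s = a s + b s)) := by
    rcases hc with hc | hc
    · left; exact ⟨by linarith [hc.2.2], hc.1, hc.2.1⟩
    · right; exact ⟨by linarith [hc.2.2], hc.1, hc.2.1⟩
  have key := U_le hf hi (α1 := a (x.1 - δ) - a x.1) (β1 := b (x.1 - δ) - b x.1)
    (θ1 := φ x.1 - φ (x.1 - δ)) (α2 := a (x.1 - -δ) - a x.1) (β2 := b (x.1 - -δ) - b x.1)
    (θ2 := φ x.1 - φ (x.1 - -δ)) (N := N) (D := D) (R := R) hN h1 h2 h3 h1' h2' h3'
    (by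
      rcases hmono with ⟨hm, _, hφ⟩ | ⟨hm, _, hφ⟩
      · rw [hφ, hφ, hφ]; linarith [h.ma hm, h.mb hm]
      · rw [hφ, hφ, hφ]; linarith)
    (by
      rcases hmono with ⟨hm, _, hφ⟩ | ⟨hm, _, hφ⟩
      · rw [hφ, hφ, hφ]; linarith [h.ma hm, h.mb hm]
      · rw [hφ, hφ, hφ]; linarith [h.ma hm, h.mb hm])
    (by
      rcases hmono with ⟨hm, _, hφ⟩ | ⟨hm, _, hφ⟩
      · rw [hφ, hφ, hφ]
      · rw [hφ, hφ, hφ]; linarith [h.ma hm, h.mb hm])
    (by
      rcases hmono with ⟨hm, _, hφ⟩ | ⟨hm, _, hφ⟩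
      · rw [hφ, hφ, hφ]; linarith [h.ma hm, h.mb hm]
      · rw [hφ, hφ, hφ]; linarith [h.ma hm, h.mb hm])
    (by
      rcases hmono with ⟨hm, rfl, hφ⟩ | ⟨hm, rfl, hφ⟩
      · rw [X_2, X_2, hφ, hφ, hφ]
      · rw [X_0, X_0, hφ, hφ, hφ]; ring)
    hR hr
  simp only [Inc_tr] at key
  have e1 : Y a b φ x + X (a (x.1 - δ) - a x.1) (b (x.1 - δ) - b x.1)
      (φ x.1 - φ (x.1 - δ) - N) = X (a (x.1 - δ)) (b (x.1 - δ)) (x.2 - φ (x.1 - δ) - N) :=
    (Y_shift' a b φ x δ N).symm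
  have e2 : Y a b φ x + X (a (x.1 - δ) - a x.1) (b (x.1 - δ) - b x.1)
      (φ x.1 - φ (x.1 - δ) + N) = X (a (x.1 - δ)) (b (x.1 - δ)) (x.2 - φ (x.1 - δ) + N) :=
    (Y_shift a b φ x δ N).symm
  have e3 : ∀ δ' : ℝ, Y a b φ x + pt i (a (x.1 - δ') - a x.1) (b (x.1 - δ') - b x.1)
      (φ x.1 - φ (x.1 - δ')) (R + D) (R + D) (-N) =
      X (a (x.1 - δ')) (b (x.1 - δ')) (x.2 - φ (x.1 - δ')) + w45 (R + D) (R + D) + (-N) • e i := by
    intro δ'
    have := Y_shift a b φ x δ' 0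
    rw [add_zero, add_zero] at this
    rw [pt, this, add_assoc, add_assoc, add_assoc]
  rw [e1, e2, e3, e3] at key
  refine ⟨key.1, ?_, key.2⟩
  -- nonnegativity of the far increment
  unfold GU
  rw [← e3]
  have hsN : |(-N)| ≤ N := by rw [abs_neg, abs_of_nonneg hN]
  have hsN' : |(-N + 2 * N)| ≤ N := by
    rw [show -N + 2 * N = N by ring, abs_of_nonneg hN]
  apply h.pr.nonneg
  · apply hS
    exact pt_mem hi h1' h2' h3' hsN (by linarith) (by linarith) (by linarith) (by linarith)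
      (by linarith)
  · rw [add_assoc, pt_add]
    apply hS
    exact pt_mem hi h1' h2' h3' hsN' (by linarith) (by linarith) (by linarith) (by linarith)
      (by linarith)
  · exact e_nonneg (by linarith) i

theorem Sf.meas_GU (h : Sf ν S K Λ a b φ) (i : Fin 6) (N R δ : ℝ) :
    Measurable (GU ν a b φ i N R δ) := by
  have ca := h.ca
  have cb := h.cb
  have cφ := h.cφ
  unfold GU
  refine Continuous.measurable ?_
  refine cont_Inc h.cν continuous_const (((cont_X ?_ ?_ ?_).add continuous_const).add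
    continuous_const) <;> fun_prop

theorem Sf.meas_VU (h : Sf ν S K Λ a b φ) (i : Fin 6) (N R δ : ℝ) :
    Measurable (VU ν a b φ i N R δ) := by
  have ca := h.ca
  have cb := h.cb
  have cφ := h.cφ
  unfold VU Y pt
  refine Continuous.measurable ?_
  refine cont_Inc h.cν continuous_const ((cont_X ?_ ?_ ?_).add (((cont_X ?_ ?_ ?_).add
    (cont_w45 ?_ ?_)).add continuous_const)) <;> fun_prop

theorem Sf.int_U (h : Sf ν S K Λ a b φ) {i : Fin 6} {r D δ N R τ₀ τ₁ s₀ s₁ : ℝ}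
    (hc : Case a b φ i δ) (hN : 0 ≤ N) (hD : Λ * |δ| ≤ D) (hτ : τ₀ ≤ τ₁) (hs : s₀ ≤ s₁)
    (hS : ∀ x ∈ Rc τ₀ τ₁ s₀ s₁, ∀ c ∈ LB r, Y a b φ x + c ∈ S)
    (hR : D + 2 * N ≤ R) (hr : 4 * D + 4 * N + 4 * R ≤ r) :
    ∫⁻ x in Rc τ₀ τ₁ s₀ s₁,
        ENNReal.ofReal (VU ν a b φ i N R δ x - VU ν a b φ i N R (-δ) x)
      ≤ ENNReal.ofReal (K * (2 * N) * (2 * |δ| * (s₁ - s₀)) +
        K * (R + D) * (2 * N * (τ₁ - τ₀))) := by
  have hD0 : 0 ≤ D := le_trans (mul_nonneg h.Λ0 (abs_nonneg _)) hD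
  have hRD : 0 ≤ R + D := by linarith
  have h2N : 0 ≤ 2 * N := by linarith
  have key := lint_shift2 (A := Rc τ₀ τ₁ s₀ s₁) (measurableSet_Rc _ _ _ _)
    (by rw [vol_Rc]; exact ENNReal.mul_ne_top ENNReal.ofReal_ne_top ENNReal.ofReal_ne_top)
    ((2 * δ, 0) : ℝ × ℝ)
    (G := fun x => ENNReal.ofReal (GU ν a b φ i N (R + D) δ x))
    (D := fun x => ENNReal.ofReal (VU ν a b φ i N R δ x - VU ν a b φ i N R (-δ) x))
    (D' := fun x => ENNReal.ofReal (MJ ν a b φ δ N (R + D) x))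
    (h.meas_GU _ _ _ _).ennreal_ofReal
    (h.meas_MJ _ _ _).ennreal_ofReal (g := ENNReal.ofReal (K * (2 * N))) ENNReal.ofReal_ne_top
    (by
      intro x hx
      obtain ⟨n1, n2, n3⟩ := h.U_bound hc hN hD (hS x hx) hR hr
      have e1 : GU ν a b φ i N (R + D) δ (x + (2 * δ, 0)) = GU ν a b φ i N (R + D) (-δ) x := by
        unfold GU
        simp only [Prod.fst_add, Prod.snd_add, add_zero]
        rw [show x.1 + 2 * δ - δ = x.1 - -δ by ring]
      rw [e1, ← ENNReal.ofReal_add n1 n2]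
      refine le_trans (ENNReal.ofReal_le_ofReal ?_) ENNReal.ofReal_add_le
      linarith)
    (by
      intro x _
      apply ENNReal.ofReal_le_ofReal
      exact (le_abs_self _).trans ((h.inc_le _ _).trans
        (mul_le_mul_of_nonneg_left (norm_smul_e h2N i) h.K0)))
    (by
      intro x _
      apply ENNReal.ofReal_le_ofReal
      exact (le_abs_self _).trans ((h.inc_le _ _).trans
        (mul_le_mul_of_nonneg_left (norm_smul_e h2N i) h.K0)))
  refine key.trans ?_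
  have hKN : 0 ≤ K * (2 * N) := mul_nonneg h.K0 h2N
  have p1 : 0 ≤ s₁ - s₀ := by linarith
  have p2 : 0 ≤ τ₁ - τ₀ := by linarith
  have hKR : 0 ≤ K * (R + D) := mul_nonneg h.K0 hRD
  rw [ENNReal.ofReal_add (by positivity) (by positivity)]
  refine add_le_add ?_ (h.int_MJ hN hRD hD hτ hs hS (by linarith))
  rw [ENNReal.ofReal_mul hKN]
  gcongr
  refine (vol_Rc_diff hτ hs _).trans ?_
  apply ENNReal.ofReal_le_ofReal
  simp [abs_mul]

end

end Crest.Agent.R138.Dl848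
end

-- ▼ part R138/Dl8_848
section

/-!
# R138: decoupling on the legal region, blow-ups (helper848)
-/

set_option autoImplicit false

open MeasureTheory Filter Topology Set
open scoped ENNReal

namespace Crest.Agent.R138.Dl848

/-- `g` is the blow-up of `ν` at `p0` along the scales `s` -/
def BU {α : Type*} (ν : V6 → ℝ) (p0 : V6) (l : Filter α) (s : α → ℝ) (g : V6 → ℝ) : Prop :=
  ∀ c, Tendsto (fun a => (ν (p0 + s a • c) - ν p0) / s a) l (𝓝 (g c))

section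

variable {α : Type*} {ν : V6 → ℝ} {K : ℝ} {p0 : V6} {s : α → ℝ} {g : V6 → ℝ}

theorem conv_var {l : Filter α} (hlip : ∀ p q, |ν p - ν q| ≤ K * ‖p - q‖)
    (hs : ∀ᶠ a in l, 0 < s a) {c : V6} {C : α → V6} (hC : Tendsto C l (𝓝 c)) {y : ℝ}
    (h : Tendsto (fun a => (ν (p0 + s a • c) - ν p0) / s a) l (𝓝 y)) :
    Tendsto (fun a => (ν (p0 + s a • C a) - ν p0) / s a) l (𝓝 y) := by
  have h1 : Tendsto (fun a => (ν (p0 + s a • C a) - ν p0) / s a -
      (ν (p0 + s a • c) - ν p0) / s a) l (𝓝 0) := by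
    rw [tendsto_zero_iff_abs_tendsto_zero]
    have h2 : Tendsto (fun a => K * ‖C a - c‖) l (𝓝 0) := by
      have := (tendsto_iff_norm_sub_tendsto_zero.1 hC).const_mul K
      rwa [mul_zero] at this
    refine squeeze_zero' (Filter.Eventually.of_forall fun _ => abs_nonneg _) ?_ h2
    filter_upwards [hs] with a ha
    simp only [Function.comp]
    rw [← sub_div, abs_div, abs_of_pos ha, div_le_iff₀ ha]
    have := hlip (p0 + s a • C a) (p0 + s a • c)
    rw [add_sub_add_left_eq_sub, ← smul_sub, norm_smul, Real.norm_eq_abs, abs_of_pos ha] at this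
    rw [show ν (p0 + s a • C a) - ν p0 - (ν (p0 + s a • c) - ν p0) =
      ν (p0 + s a • C a) - ν (p0 + s a • c) by ring]
    linarith
  have := h1.add h
  simpa using this

theorem BU.inc {l : Filter α} (hg : BU ν p0 l s g) (hlip : ∀ p q, |ν p - ν q| ≤ K * ‖p - q‖)
    (hs : ∀ᶠ a in l, 0 < s a) {c d : V6} {C D : α → V6} (hC : Tendsto C l (𝓝 c))
    (hD : Tendsto D l (𝓝 d)) :
    Tendsto (fun a => Inc ν (s a • D a) (p0 + s a • C a) / s a) l (𝓝 (Inc g d c)) := by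
  have h1 := conv_var hlip hs hC (hg c)
  have h2 := conv_var hlip hs (hC.add hD) (hg (c + d))
  refine (h1.sub h2).congr fun a => ?_
  unfold Inc
  rw [← sub_div, smul_add, add_assoc]
  congr 1; ring

theorem exists_BU (U : Ultrafilter α) (hlip : ∀ p q, |ν p - ν q| ≤ K * ‖p - q‖)
    (hs : ∀ᶠ a in (U : Filter α), 0 < s a) : ∃ g, BU ν p0 U s g := by
  have : ∀ c : V6, ∃ y, Tendsto (fun a => (ν (p0 + s a • c) - ν p0) / s a) U (𝓝 y) := by
    intro c
    have hc : IsCompact (Set.Icc (-(K * ‖c‖)) (K * ‖c‖)) := isCompact_Icc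
    have h1 : (↑(U.map fun a => (ν (p0 + s a • c) - ν p0) / s a) : Filter ℝ) ≤
        𝓟 (Set.Icc (-(K * ‖c‖)) (K * ‖c‖)) := by
      rw [le_principal_iff]
      change ∀ᶠ a in (U : Filter α), (ν (p0 + s a • c) - ν p0) / s a ∈
        Set.Icc (-(K * ‖c‖)) (K * ‖c‖)
      filter_upwards [hs] with a ha
      apply abs_le.1
      rw [abs_div, abs_of_pos ha, div_le_iff₀ ha]
      have := hlip (p0 + s a • c) p0
      rw [add_sub_cancel_left, norm_smul, Real.norm_eq_abs, abs_of_pos ha] at this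
      linarith
    obtain ⟨x, _, hx2⟩ := hc.ultrafilter_le_nhds _ h1
    exact ⟨x, hx2⟩
  choose g hg using this
  exact ⟨g, hg⟩

theorem BU.zero {l : Filter α} [l.NeBot] (hg : BU ν p0 l s g) : g 0 = 0 := by
  have := hg 0
  simp only [smul_zero, add_zero, sub_self, zero_div] at this
  exact tendsto_nhds_unique this tendsto_const_nhds

/-- the blow-up of a profile is a profile -/
theorem BU.pr {S : Set V6} {l : Filter α} [l.NeBot] (hg : BU ν p0 l s g) (hν : Pr ν S) {r : ℝ}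
    (hr : 0 < r) (hS : ∀ c ∈ LB r, p0 + c ∈ S) (hs : ∀ᶠ a in l, 0 < s a)
    (hs0 : Tendsto s l (𝓝 0)) : Pr g LEG := by
  have mem : ∀ c ∈ LEG, ∀ᶠ a in l, p0 + s a • c ∈ S := by
    intro c hc
    obtain ⟨M, hM0, hM⟩ := exists_bound c 0
    have h1 : ∀ᶠ a in l, s a < r / (M + 1) := hs0.eventually_lt_const (by positivity)
    filter_upwards [hs, h1] with a ha1 ha2
    apply hS
    refine ⟨LEG_smul ha1.le hc, fun i => ?_⟩
    rw [Pi.smul_apply, smul_eq_mul, abs_mul, abs_of_pos ha1]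
    have h2 := (hM i).1
    rw [lt_div_iff₀ (by linarith)] at ha2
    nlinarith [abs_nonneg (c i)]
  refine ⟨fun p hp q hq hpq => ?_, fun p hp q hq h1 h2 => ?_⟩
  · refine le_of_tendsto_of_tendsto (hg q) (hg p) ?_
    filter_upwards [hs, mem p hp, mem q hq] with a ha m1 m2
    have := hν.anti _ m1 _ m2 (by gcongr)
    exact div_le_div_of_nonneg_right (by linarith) ha.le
  · refine le_of_tendsto_of_tendsto ((hg p).add (hg q)) ((hg _).add (hg _)) ?_
    filter_upwards [hs, mem p hp, mem q hq, mem _ h1, mem _ h2] with a ha m1 m2 m3 m4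
    have e1 : (p0 + s a • p) ⊓ (p0 + s a • q) = p0 + s a • (p ⊓ q) := by
      ext i
      simp only [Pi.inf_apply, Pi.add_apply, Pi.smul_apply, smul_eq_mul]
      rw [mul_min_of_nonneg _ _ ha.le]
      exact min_add_add_left _ _ _
    have e2 : (p0 + s a • p) ⊔ (p0 + s a • q) = p0 + s a • (p ⊔ q) := by
      ext i
      simp only [Pi.sup_apply, Pi.add_apply, Pi.smul_apply, smul_eq_mul]
      rw [mul_max_of_nonneg _ _ ha.le]
      exact max_add_add_left _ _ _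
    have := hν.sup _ m1 _ m2 (by rw [e1]; exact m3) (by rw [e2]; exact m4)
    rw [e1, e2] at this
    rw [← add_div, ← add_div]
    exact div_le_div_of_nonneg_right (by linarith) ha.le

end

theorem tendsto_X {α : Type*} {l : Filter α} {f g k : α → ℝ} {x y z : ℝ}
    (hf : Tendsto f l (𝓝 x)) (hg : Tendsto g l (𝓝 y)) (hk : Tendsto k l (𝓝 z)) :
    Tendsto (fun a => X (f a) (g a) (k a)) l (𝓝 (X x y z)) := by
  rw [tendsto_pi_nhds]
  refine forall6 ?_ ?_ ?_ ?_ ?_ ?_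
  · exact (hk.add hf).add hg
  · exact hk.add hg
  · exact hk
  · exact hk.add hf
  · exact hf
  · exact hg

theorem tendsto_w45 {α : Type*} {l : Filter α} {f g : α → ℝ} {x y : ℝ}
    (hf : Tendsto f l (𝓝 x)) (hg : Tendsto g l (𝓝 y)) :
    Tendsto (fun a => w45 (f a) (g a)) l (𝓝 (w45 x y)) := by
  rw [tendsto_pi_nhds]
  refine forall6 ?_ ?_ ?_ ?_ ?_ ?_
  · exact tendsto_const_nhds
  · exact tendsto_const_nhds
  · exact tendsto_const_nhds
  · exact tendsto_const_nhds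
  · exact hf
  · exact hg

theorem hd_pos (m : ℕ) : 0 < (1 / 2 : ℝ) ^ m := by positivity

theorem hd_tendsto : Tendsto (fun m : ℕ => (1 / 2 : ℝ) ^ m) atTop (𝓝 0) :=
  tendsto_pow_atTop_nhds_zero_of_lt_one (by norm_num) (by norm_num)

theorem two_hd (m : ℕ) : (2 : ℝ) ^ m * (1 / 2 : ℝ) ^ m = 1 := by rw [← mul_pow]; norm_num

/-- difference quotients -/
theorem slope_conv {α : Type*} {l : Filter α} {s : α → ℝ} (hs : ∀ᶠ a in l, 0 < s a)
    (hs0 : Tendsto s l (𝓝 0)) {f : ℝ → ℝ} {f' τ : ℝ} (hf : HasDerivAt f f' τ) (u : ℝ) :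
    Tendsto (fun a => (f (τ + u * s a) - f τ) / s a) l (𝓝 (f' * u)) := by
  rcases eq_or_ne u 0 with hu | hu
  · subst hu
    simpa using tendsto_const_nhds
  · have h1 := hasDerivAt_iff_tendsto_slope_zero.1 hf
    have h2 : Tendsto (fun a => u * s a) l (𝓝[≠] 0) := by
      apply tendsto_nhdsWithin_iff.2
      refine ⟨?_, ?_⟩
      · have := hs0.const_mul u
        rwa [mul_zero] at this
      · filter_upwards [hs] with a ha
        exact mul_ne_zero hu ha.ne'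
    have h3 := (h1.comp h2).const_mul u
    rw [mul_comm u f'] at h3
    refine h3.congr' ?_
    filter_upwards [hs] with a ha
    simp only [Function.comp, smul_eq_mul]
    field_simp

section

variable {ν : V6 → ℝ} {S : Set V6} {K Λ : ℝ} {a b : ℝ → ℝ}

/-- dyadic smallness of the defects at a point -/
structure Dy (ν : V6 → ℝ) (a b : ℝ → ℝ) (τ t : ℝ) : Prop where
  mj : ∀ n N R : ℕ, Tendsto (fun m : ℕ => (2 : ℝ) ^ m * MJ ν a b (fun _ => 0)
      (n * (1 / 2 : ℝ) ^ m) (N * (1 / 2 : ℝ) ^ m) (R * (1 / 2 : ℝ) ^ m) (τ, t)) atTop (𝓝 0)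
  u2 : ∀ n N : ℕ, ∃ R₀ : ℝ, ∀ R : ℕ, R₀ ≤ R → Tendsto (fun m : ℕ => (2 : ℝ) ^ m *
      (VU ν a b (fun _ => 0) 2 (N * (1 / 2 : ℝ) ^ m) (R * (1 / 2 : ℝ) ^ m)
        (n * (1 / 2 : ℝ) ^ m) (τ, t)
      - VU ν a b (fun _ => 0) 2 (N * (1 / 2 : ℝ) ^ m) (R * (1 / 2 : ℝ) ^ m)
        (-(n * (1 / 2 : ℝ) ^ m)) (τ, t))) atTop (𝓝 0)
  u0 : ∀ n N : ℕ, ∃ R₀ : ℝ, ∀ R : ℕ, R₀ ≤ R → Tendsto (fun m : ℕ => (2 : ℝ) ^ m *
      (VU ν a b (fun s => a s + b s) 0 (N * (1 / 2 : ℝ) ^ m) (R * (1 / 2 : ℝ) ^ m)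
        (-(n * (1 / 2 : ℝ) ^ m)) (τ, t + (a τ + b τ))
      - VU ν a b (fun s => a s + b s) 0 (N * (1 / 2 : ℝ) ^ m) (R * (1 / 2 : ℝ) ^ m)
        (-(-(n * (1 / 2 : ℝ) ^ m))) (τ, t + (a τ + b τ)))) atTop (𝓝 0)

/-- the limit of the `VU` increments -/
theorem VU_conv {φ : ℝ → ℝ} {U : Ultrafilter ℕ} (hU : (U : Filter ℕ) ≤ atTop)
    (hlip : ∀ p q, |ν p - ν q| ≤ K * ‖p - q‖) {τ t x y z : ℝ} {f : V6 → ℝ}
    (hf : BU ν (X (a τ) (b τ) t) U (fun m : ℕ => (1 / 2 : ℝ) ^ m) f)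
    (hx : HasDerivAt a x τ) (hy : HasDerivAt b y τ) (hz : HasDerivAt φ z τ) (i : Fin 6)
    (N R u : ℝ) :
    Tendsto (fun m : ℕ => (2 : ℝ) ^ m * VU ν a b φ i (N * (1 / 2 : ℝ) ^ m)
      (R * (1 / 2 : ℝ) ^ m) (-(u * (1 / 2 : ℝ) ^ m)) (τ, t + φ τ)) U
      (𝓝 (Inc f ((2 * N) • e i) (pt i (x * u) (y * u) (-(z * u)) (R - x * u) (R - y * u)
        (-N)))) := by
  have hs : ∀ᶠ m in (U : Filter ℕ), 0 < (1 / 2 : ℝ) ^ m := Filter.Eventually.of_forall hd_pos
  have hs0 : Tendsto (fun m : ℕ => (1 / 2 : ℝ) ^ m) U (𝓝 0) := hd_tendsto.mono_left hU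
  have ha := slope_conv hs hs0 hx u
  have hb := slope_conv hs hs0 hy u
  have hφ := slope_conv hs hs0 hz u
  have hC : Tendsto (fun m : ℕ => pt i ((a (τ + u * (1 / 2 : ℝ) ^ m) - a τ) / (1 / 2 : ℝ) ^ m)
      ((b (τ + u * (1 / 2 : ℝ) ^ m) - b τ) / (1 / 2 : ℝ) ^ m)
      (-((φ (τ + u * (1 / 2 : ℝ) ^ m) - φ τ) / (1 / 2 : ℝ) ^ m))
      (R - (a (τ + u * (1 / 2 : ℝ) ^ m) - a τ) / (1 / 2 : ℝ) ^ m)
      (R - (b (τ + u * (1 / 2 : ℝ) ^ m) - b τ) / (1 / 2 : ℝ) ^ m) (-N)) U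
      (𝓝 (pt i (x * u) (y * u) (-(z * u)) (R - x * u) (R - y * u) (-N))) := by
    unfold pt
    exact ((tendsto_X ha hb hφ.neg).add (tendsto_w45 (tendsto_const_nhds.sub ha)
      (tendsto_const_nhds.sub hb))).add tendsto_const_nhds
  have key := hf.inc hlip hs hC (tendsto_const_nhds (x := (2 * N) • e i))
  refine key.congr fun m => ?_
  have hm := hd_pos m
  have e1 : (1 / 2 : ℝ) ^ m • ((2 * N) • e i) = (2 * (N * (1 / 2 : ℝ) ^ m)) • e i := by
    rw [smul_smul]; congr 1; ring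
  have e2 : X (a τ) (b τ) t + (1 / 2 : ℝ) ^ m •
      pt i ((a (τ + u * (1 / 2 : ℝ) ^ m) - a τ) / (1 / 2 : ℝ) ^ m)
      ((b (τ + u * (1 / 2 : ℝ) ^ m) - b τ) / (1 / 2 : ℝ) ^ m)
      (-((φ (τ + u * (1 / 2 : ℝ) ^ m) - φ τ) / (1 / 2 : ℝ) ^ m))
      (R - (a (τ + u * (1 / 2 : ℝ) ^ m) - a τ) / (1 / 2 : ℝ) ^ m)
      (R - (b (τ + u * (1 / 2 : ℝ) ^ m) - b τ) / (1 / 2 : ℝ) ^ m) (-N) =
      Y a b φ (τ, t + φ τ) + pt i (a (τ - -(u * (1 / 2 : ℝ) ^ m)) - a τ)
        (b (τ - -(u * (1 / 2 : ℝ) ^ m)) - b τ) (φ τ - φ (τ - -(u * (1 / 2 : ℝ) ^ m)))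
        (R * (1 / 2 : ℝ) ^ m - (a (τ - -(u * (1 / 2 : ℝ) ^ m)) - a τ))
        (R * (1 / 2 : ℝ) ^ m - (b (τ - -(u * (1 / 2 : ℝ) ^ m)) - b τ))
        (-(N * (1 / 2 : ℝ) ^ m)) := by
    rw [sub_neg_eq_add]
    have hne := hm.ne'
    set h := (1 / 2 : ℝ) ^ m with hh
    unfold pt Y
    rw [smul_add, smul_add, X_smul, w45_smul, smul_smul]
    have f1 : h * ((a (τ + u * h) - a τ) / h) = a (τ + u * h) - a τ := by field_simp
    have f2 : h * ((b (τ + u * h) - b τ) / h) = b (τ + u * h) - b τ := by field_simp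
    have f3 : h * -((φ (τ + u * h) - φ τ) / h) = φ τ - φ (τ + u * h) := by field_simp; ring
    have f4 : h * (R - (a (τ + u * h) - a τ) / h) = R * h - (a (τ + u * h) - a τ) := by
      field_simp
    have f5 : h * (R - (b (τ + u * h) - b τ) / h) = R * h - (b (τ + u * h) - b τ) := by
      field_simp
    have f6 : h * -N = -(N * h) := by ring
    rw [f1, f2, f3, f4, f5, f6]
    simp
  rw [e1, e2]
  unfold VU
  rw [div_eq_iff hm.ne', mul_comm ((2 : ℝ) ^ m), mul_assoc, two_hd, mul_one]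

/-- the dyadic blow-ups are decoupled -/
theorem Dy.good {τ t x y r : ℝ} (hD : Dy ν a b τ t) (hν : Pr ν S)
    (hlip : ∀ p q, |ν p - ν q| ≤ K * ‖p - q‖) (hx : HasDerivAt a x τ) (hy : HasDerivAt b y τ)
    (hx0 : 0 < x) (hy0 : 0 < y) (hr : 0 < r) (hS : ∀ c ∈ LB r, X (a τ) (b τ) t + c ∈ S)
    {U : Ultrafilter ℕ} (hU : (U : Filter ℕ) ≤ atTop) {f : V6 → ℝ}
    (hf : BU ν (X (a τ) (b τ) t) U (fun m : ℕ => (1 / 2 : ℝ) ^ m) f) :
    Good3 f ∧ Good4 f 0 ∧ Good4 f 2 := by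
  have hs : ∀ᶠ m in (U : Filter ℕ), 0 < (1 / 2 : ℝ) ^ m := Filter.Eventually.of_forall hd_pos
  have hs0 : Tendsto (fun m : ℕ => (1 / 2 : ℝ) ^ m) U (𝓝 0) := hd_tendsto.mono_left hU
  have hpr : Pr f LEG := hf.pr hν hr hS hs hs0
  have hJ : ∀ n N R : ℕ, Inc f (w45 R R) (T x y (-n) (-N)) = Inc f (w45 R R) (T x y (-n) N) := by
    intro n N R
    have ha := slope_conv hs hs0 hx (-n)
    have hb := slope_conv hs hs0 hy (-n)
    have lim : ∀ N' : ℝ, Tendsto (fun m : ℕ => (2 : ℝ) ^ m *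
        Inc ν (w45 (R * (1 / 2 : ℝ) ^ m) (R * (1 / 2 : ℝ) ^ m))
          (X (a (τ - n * (1 / 2 : ℝ) ^ m)) (b (τ - n * (1 / 2 : ℝ) ^ m))
            (t + N' * (1 / 2 : ℝ) ^ m))) U (𝓝 (Inc f (w45 R R) (T x y (-n) N'))) := by
      intro N'
      have hC : Tendsto (fun m : ℕ => X ((a (τ + -n * (1 / 2 : ℝ) ^ m) - a τ) / (1 / 2 : ℝ) ^ m)
        ((b (τ + -n * (1 / 2 : ℝ) ^ m) - b τ) / (1 / 2 : ℝ) ^ m) N') U
        (𝓝 (T x y (-n) N')) := tendsto_X ha hb tendsto_const_nhds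
      have key := hf.inc hlip hs hC (tendsto_const_nhds (x := w45 R R))
      refine key.congr fun m => ?_
      have hm := hd_pos m
      have e2 : X (a τ) (b τ) t + (1 / 2 : ℝ) ^ m •
          X ((a (τ + -n * (1 / 2 : ℝ) ^ m) - a τ) / (1 / 2 : ℝ) ^ m)
          ((b (τ + -n * (1 / 2 : ℝ) ^ m) - b τ) / (1 / 2 : ℝ) ^ m) N' =
          X (a (τ - n * (1 / 2 : ℝ) ^ m)) (b (τ - n * (1 / 2 : ℝ) ^ m))
            (t + N' * (1 / 2 : ℝ) ^ m) := by
        rw [neg_mul, ← sub_eq_add_neg]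
        set h := (1 / 2 : ℝ) ^ m with hh
        have hne := hm.ne'
        have f1 : h * ((a (τ - n * h) - a τ) / h) = a (τ - n * h) - a τ := by field_simp
        have f2 : h * ((b (τ - n * h) - b τ) / h) = b (τ - n * h) - b τ := by field_simp
        rw [X_smul, X_add, f1, f2]
        congr 1 <;> ring
      rw [e2, w45_smul, mul_comm _ (R : ℝ), div_eq_iff hm.ne', mul_comm ((2 : ℝ) ^ m), mul_assoc,
        two_hd, mul_one]
    have l1 := lim (-N)
    have l2 := lim N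
    have l3 := (hD.mj n N R).mono_left hU
    have l4 := l1.sub l2
    have e3 : (fun m : ℕ => (2 : ℝ) ^ m * MJ ν a b (fun _ => 0)
      (n * (1 / 2 : ℝ) ^ m) (N * (1 / 2 : ℝ) ^ m) (R * (1 / 2 : ℝ) ^ m) (τ, t)) =
      fun m : ℕ => ((2 : ℝ) ^ m * Inc ν (w45 (R * (1 / 2 : ℝ) ^ m) (R * (1 / 2 : ℝ) ^ m))
          (X (a (τ - n * (1 / 2 : ℝ) ^ m)) (b (τ - n * (1 / 2 : ℝ) ^ m))
            (t + -N * (1 / 2 : ℝ) ^ m))) -
        (2 : ℝ) ^ m * Inc ν (w45 (R * (1 / 2 : ℝ) ^ m) (R * (1 / 2 : ℝ) ^ m))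
          (X (a (τ - n * (1 / 2 : ℝ) ^ m)) (b (τ - n * (1 / 2 : ℝ) ^ m))
            (t + N * (1 / 2 : ℝ) ^ m)) := by
      ext m
      unfold MJ
      rw [← mul_sub]
      simp only [sub_zero]
      rw [neg_mul, ← sub_eq_add_neg]
    rw [e3] at l3
    exact sub_eq_zero.1 (tendsto_nhds_unique l4 l3)
  have h2 : ∀ n N : ℕ, ∃ R₀ : ℝ, ∀ R : ℕ, R₀ ≤ R → ∀ u v : ℝ,
      u = (if (2 : Fin 6) = 0 then (n : ℝ) else -n) →
      v = (if (2 : Fin 6) = 0 then -((x + y) * n) else 0) →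
      Inc f ((2 * N : ℝ) • e 2) (pt 2 (x * u) (y * u) v (R - x * u) (R - y * u) (-N)) =
      Inc f ((2 * N : ℝ) • e 2) (pt 2 (x * (-u)) (y * (-u)) (-v) (R - x * (-u)) (R - y * (-u))
        (-N)) := by
    intro n N
    obtain ⟨R₀, hR₀⟩ := hD.u2 n N
    refine ⟨R₀, fun R hR u v hu hv => ?_⟩
    rw [if_neg (by decide)] at hu hv
    have l1 := VU_conv hU hlip hf hx hy (hasDerivAt_const τ (0 : ℝ)) 2 N R (-n)
    have l2 := VU_conv hU hlip hf hx hy (hasDerivAt_const τ (0 : ℝ)) 2 N R n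
    have l3 := (hR₀ R hR).mono_left hU
    have l4 := l1.sub l2
    have e3 : (fun m : ℕ => (2 : ℝ) ^ m *
      (VU ν a b (fun _ => 0) 2 (N * (1 / 2 : ℝ) ^ m) (R * (1 / 2 : ℝ) ^ m)
        (n * (1 / 2 : ℝ) ^ m) (τ, t)
      - VU ν a b (fun _ => 0) 2 (N * (1 / 2 : ℝ) ^ m) (R * (1 / 2 : ℝ) ^ m)
        (-(n * (1 / 2 : ℝ) ^ m)) (τ, t))) = fun m : ℕ =>
        (2 : ℝ) ^ m * VU ν a b (fun _ => 0) 2 (N * (1 / 2 : ℝ) ^ m) (R * (1 / 2 : ℝ) ^ m)
          (-(-n * (1 / 2 : ℝ) ^ m)) (τ, t + 0) -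
        (2 : ℝ) ^ m * VU ν a b (fun _ => 0) 2 (N * (1 / 2 : ℝ) ^ m) (R * (1 / 2 : ℝ) ^ m)
          (-(n * (1 / 2 : ℝ) ^ m)) (τ, t + 0) := by
      ext m
      rw [← mul_sub, add_zero, neg_mul, neg_neg]
    rw [e3] at l3
    have := sub_eq_zero.1 (tendsto_nhds_unique l4 l3)
    rw [hu, hv]
    simp only [zero_mul, neg_zero, neg_neg] at this ⊢
    exact this
  have h0 : ∀ n N : ℕ, ∃ R₀ : ℝ, ∀ R : ℕ, R₀ ≤ R → ∀ u v : ℝ,
      u = (if (0 : Fin 6) = 0 then (n : ℝ) else -n) →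
      v = (if (0 : Fin 6) = 0 then -((x + y) * n) else 0) →
      Inc f ((2 * N : ℝ) • e 0) (pt 0 (x * u) (y * u) v (R - x * u) (R - y * u) (-N)) =
      Inc f ((2 * N : ℝ) • e 0) (pt 0 (x * (-u)) (y * (-u)) (-v) (R - x * (-u)) (R - y * (-u))
        (-N)) := by
    intro n N
    obtain ⟨R₀, hR₀⟩ := hD.u0 n N
    refine ⟨R₀, fun R hR u v hu hv => ?_⟩
    rw [if_pos rfl] at hu hv
    have l1 := VU_conv hU hlip hf hx hy (hx.add hy) 0 N R n
    have l2 := VU_conv hU hlip hf hx hy (hx.add hy) 0 N R (-n)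
    have l3 := (hR₀ R hR).mono_left hU
    have l4 := l1.sub l2
    have e3 : (fun m : ℕ => (2 : ℝ) ^ m *
      (VU ν a b (fun s => a s + b s) 0 (N * (1 / 2 : ℝ) ^ m) (R * (1 / 2 : ℝ) ^ m)
        (-(n * (1 / 2 : ℝ) ^ m)) (τ, t + (a τ + b τ))
      - VU ν a b (fun s => a s + b s) 0 (N * (1 / 2 : ℝ) ^ m) (R * (1 / 2 : ℝ) ^ m)
        (-(-(n * (1 / 2 : ℝ) ^ m))) (τ, t + (a τ + b τ)))) = fun m : ℕ =>
        (2 : ℝ) ^ m * VU ν a b (fun s => a s + b s) 0 (N * (1 / 2 : ℝ) ^ m)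
          (R * (1 / 2 : ℝ) ^ m) (-(n * (1 / 2 : ℝ) ^ m)) (τ, t + (a τ + b τ)) -
        (2 : ℝ) ^ m * VU ν a b (fun s => a s + b s) 0 (N * (1 / 2 : ℝ) ^ m)
          (R * (1 / 2 : ℝ) ^ m) (-(-n * (1 / 2 : ℝ) ^ m)) (τ, t + (a τ + b τ)) := by
      ext m
      rw [← mul_sub, neg_mul]
    rw [e3] at l3
    have := sub_eq_zero.1 (tendsto_nhds_unique l4 l3)
    rw [hu, hv]
    simp only [mul_neg, neg_neg] at this ⊢
    exact this
  refine ⟨fun c hc c' hc' h4 h5 r4 r5 hr4 hr5 => F3 hpr hx0 hy0 hJ hc hc' h4 h5 hr4 hr5,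
    fun c hc c' hc' hi s hs hcs hcs' => F4' hpr hx0 hy0 hJ (Or.inl rfl) h0 hc hc' hi hs hcs hcs',
    fun c hc c' hc' hi s hs hcs hcs' => F4' hpr hx0 hy0 hJ (Or.inr rfl) h2 hc hc' hi hs hcs hcs'⟩

end

end Crest.Agent.R138.Dl848
end

-- ▼ part R138/Dec3_848
section

/-!
# R138: decoupling lemma, existence of the rates (helper848)

If the defect `D ν i h` is `o(h)` at almost every natural box, then the one-sided rate
`lim E ν i w (X k v t) / w` exists at almost every natural box.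
-/

set_option autoImplicit false

open MeasureTheory Filter Topology Set
open scoped ENNReal

namespace Crest.Agent.R138.Dec848

/-- a free ultrafilter -/
noncomputable def UF : Ultrafilter ℕ := hyperfilter ℕ

theorem UF_le : (UF : Filter ℕ) ≤ atTop := Nat.hyperfilter_le_atTop

instance UF_neBot : (UF : Filter ℕ).NeBot := UF.neBot


section

variable {ν : V4 → ℝ} {S : Set V4} {C H : ℝ}







/-- bounded sequences converge along `UF` -/
theorem exists_tendsto_UF {f : ℕ → ℝ} {K : ℝ} (h : ∀ n, |f n| ≤ K) :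
    ∃ x, Tendsto f UF (𝓝 x) := by
  have hc : IsCompact (Set.Icc (-K) K) := isCompact_Icc
  have h1 : (↑(UF.map f) : Filter ℝ) ≤ 𝓟 (Set.Icc (-K) K) := by
    rw [le_principal_iff]
    change ∀ᶠ n in (UF : Filter ℕ), f n ∈ Set.Icc (-K) K
    exact Filter.Eventually.of_forall fun n => abs_le.1 (h n)
  obtain ⟨x, _, hx2⟩ := hc.ultrafilter_le_nhds _ h1
  exact ⟨x, hx2⟩


end

end Crest.Agent.R138.Dec848
end

-- ▼ part R138/Dl7_848
section

/-!
# R138: almost additive interval functions have derivatives (helper848)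
-/

set_option autoImplicit false

open MeasureTheory Filter Topology Set

namespace Crest.Agent.R138.Dl848

open Crest.Agent.R138.Dec848 (UF UF_le exists_tendsto_UF)

section

variable {m δ : ℝ → ℝ → ℝ} {C u₀ u₁ w₀ : ℝ}

/-- comparison of averages of small increments with a large increment -/
theorem avg_compare (hC : 0 ≤ C) (hcont : ∀ w, Continuous (m w))
    (bd : ∀ w ∈ Ioc 0 w₀, ∀ u ∈ Icc u₀ (u₁ + w₀), 0 ≤ m w u ∧ m w u ≤ C * w)
    (split : ∀ w ∈ Ioc 0 w₀, ∀ u ∈ Icc u₀ u₁, ∀ s ∈ Ioc 0 w, ∀ σ ∈ Icc 0 s, ∀ n : ℕ,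
      σ + n * s ≤ w → w ≤ σ + (n + 2) * s →
      |m w u - ∑ j ∈ Finset.range n, m s (u + σ + j * s)| ≤ δ w u + 4 * C * s)
    {w u s : ℝ} (hw : w ∈ Ioc 0 w₀) (hu : u ∈ Icc u₀ u₁) (hs : s ∈ Ioc 0 w) :
    |(1 / s) * (∫ τ in u..(u + w), m s τ) - m w u| ≤ δ w u + 6 * C * s := by
  have hs0 : 0 < s := hs.1
  obtain ⟨n, hn1, hn2⟩ : ∃ n : ℕ, s + n * s ≤ w ∧ w ≤ (n + 2) * s := by
    have h1 : 1 ≤ w / s := by rw [le_div_iff₀ hs0]; linarith [hs.2]
    obtain ⟨k, hk⟩ : ∃ k, ⌊w / s⌋₊ = k + 1 := by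
      have : 1 ≤ ⌊w / s⌋₊ := Nat.one_le_floor_iff _ |>.2 h1
      exact ⟨⌊w / s⌋₊ - 1, by omega⟩
    refine ⟨k, ?_, ?_⟩
    · have := Nat.floor_le (show 0 ≤ w / s by positivity)
      rw [hk, le_div_iff₀ hs0] at this
      push_cast at this; linarith
    · have := Nat.lt_floor_add_one (w / s)
      rw [hk, div_lt_iff₀ hs0] at this
      push_cast at this; linarith
  have hii : ∀ a b : ℝ, IntervalIntegrable (m s) volume a b :=
    fun a b => (hcont s).intervalIntegrable a b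
  have hns : (n : ℝ) * s ≤ w := by linarith
  have hn0 : (0 : ℝ) ≤ n * s := by positivity
  have hsw0 : s ∈ Ioc 0 w₀ := ⟨hs.1, hs.2.trans hw.2⟩
  have hsplit : (∫ τ in u..(u + w), m s τ) =
      (∫ σ in (0:ℝ)..s, ∑ j ∈ Finset.range n, m s (u + σ + j * s)) +
        ∫ τ in (u + n * s)..(u + w), m s τ := by
    have h1 : (∫ τ in u..(u + n * s), m s τ) =
        ∑ j ∈ Finset.range n, ∫ τ in (u + (j : ℝ) * s)..(u + ((j + 1 : ℕ) : ℝ) * s), m s τ := by
      have := intervalIntegral.sum_integral_adjacent_intervals (f := m s) (μ := volume)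
        (a := fun j : ℕ => u + (j : ℝ) * s) (n := n) (fun j _ => hii _ _)
      simp only [Nat.cast_zero, zero_mul, add_zero] at this
      rw [← this]
    have h2 : ∀ j : ℕ, (∫ τ in (u + (j : ℝ) * s)..(u + ((j + 1 : ℕ) : ℝ) * s), m s τ) =
        ∫ σ in (0:ℝ)..s, m s (u + σ + j * s) := by
      intro j
      have := intervalIntegral.integral_comp_add_right (a := 0) (b := s) (m s) (u + (j : ℝ) * s)
      rw [zero_add] at this
      rw [show u + ((j + 1 : ℕ) : ℝ) * s = s + (u + (j : ℝ) * s) by push_cast; ring, ← this]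
      congr 1; ext σ; congr 1; ring
    rw [← intervalIntegral.integral_add_adjacent_intervals (hii u (u + n * s)) (hii _ _), h1]
    congr 1
    rw [intervalIntegral.integral_finsetSum]
    · exact Finset.sum_congr rfl fun j _ => h2 j
    · intro j _
      exact ((hcont s).comp (by fun_prop)).intervalIntegrable _ _
  have hpt : ∀ σ ∈ Icc (0:ℝ) s,
      |m w u - ∑ j ∈ Finset.range n, m s (u + σ + j * s)| ≤ δ w u + 4 * C * s := by
    intro σ hσ
    exact split w hw u hu s hs σ hσ n (by linarith [hσ.2]) (by linarith [hσ.1])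
  have hF : Continuous fun σ => ∑ j ∈ Finset.range n, m s (u + σ + j * s) := by
    refine continuous_finsetSum _ fun j _ => ?_
    exact (hcont s).comp (by fun_prop)
  have hlow : s * (m w u - (δ w u + 4 * C * s)) ≤
      ∫ σ in (0:ℝ)..s, ∑ j ∈ Finset.range n, m s (u + σ + j * s) := by
    have := intervalIntegral.integral_mono_on (μ := volume) hs0.le
      (intervalIntegrable_const (c := m w u - (δ w u + 4 * C * s)))
      (hF.intervalIntegrable 0 s) (fun σ hσ => by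
        have := (abs_le.1 (hpt σ hσ)).2; linarith)
    rw [intervalIntegral.integral_const] at this
    simpa using this
  have hupp : (∫ σ in (0:ℝ)..s, ∑ j ∈ Finset.range n, m s (u + σ + j * s)) ≤
      s * (m w u + (δ w u + 4 * C * s)) := by
    have := intervalIntegral.integral_mono_on (μ := volume) hs0.le
      (hF.intervalIntegrable 0 s)
      (intervalIntegrable_const (c := m w u + (δ w u + 4 * C * s)))
      (fun σ hσ => by
        have := (abs_le.1 (hpt σ hσ)).1; linarith)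
    rw [intervalIntegral.integral_const] at this
    simpa using this
  have hmem : ∀ τ ∈ Icc (u + n * s) (u + w), τ ∈ Icc u₀ (u₁ + w₀) := by
    intro τ hτ
    exact ⟨by linarith [hτ.1, hu.1], by linarith [hτ.2, hu.2, hw.2]⟩
  have hrem0 : 0 ≤ ∫ τ in (u + n * s)..(u + w), m s τ := by
    apply intervalIntegral.integral_nonneg (by linarith)
    intro τ hτ
    exact (bd s hsw0 τ (hmem τ hτ)).1
  have hrem1 : (∫ τ in (u + n * s)..(u + w), m s τ) ≤ s * (2 * C * s) := by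
    have h5 := intervalIntegral.integral_mono_on (μ := volume) (show u + n * s ≤ u + w by linarith)
      (hii _ _) (intervalIntegrable_const (c := C * s)) (fun τ hτ => (bd s hsw0 τ (hmem τ hτ)).2)
    rw [intervalIntegral.integral_const] at h5
    refine h5.trans ?_
    simp only [smul_eq_mul]
    have h6 : (u + w - (u + n * s)) ≤ 2 * s := by linarith
    have h0 : 0 ≤ C * s := by positivity
    nlinarith
  rw [hsplit, mul_add]
  have u1 : (1 / s) * (∫ σ in (0:ℝ)..s, ∑ j ∈ Finset.range n, m s (u + σ + j * s)) ≤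
      m w u + (δ w u + 4 * C * s) := by
    rw [one_div, inv_mul_le_iff₀ hs0]; exact hupp
  have u2 : m w u - (δ w u + 4 * C * s) ≤
      (1 / s) * (∫ σ in (0:ℝ)..s, ∑ j ∈ Finset.range n, m s (u + σ + j * s)) := by
    rw [one_div, le_inv_mul_iff₀ hs0]; exact hlow
  have u3 : 0 ≤ (1 / s) * ∫ τ in (u + n * s)..(u + w), m s τ := by positivity
  have u4 : (1 / s) * (∫ τ in (u + n * s)..(u + w), m s τ) ≤ 2 * C * s := by
    rw [one_div, inv_mul_le_iff₀ hs0]; exact hrem1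
  have hCs : 0 ≤ C * s := by positivity
  rw [abs_le]
  constructor <;> linarith

/-- the additive function behind an almost additive interval function -/
theorem exists_V (hC : 0 ≤ C) (hw₀ : 0 < w₀) (hu : u₀ ≤ u₁) (hcont : ∀ w, Continuous (m w))
    (bd : ∀ w ∈ Ioc 0 w₀, ∀ u ∈ Icc u₀ (u₁ + w₀), 0 ≤ m w u ∧ m w u ≤ C * w)
    (split : ∀ w ∈ Ioc 0 w₀, ∀ u ∈ Icc u₀ u₁, ∀ s ∈ Ioc 0 w, ∀ σ ∈ Icc 0 s, ∀ n : ℕ,
      σ + n * s ≤ w → w ≤ σ + (n + 2) * s →
      |m w u - ∑ j ∈ Finset.range n, m s (u + σ + j * s)| ≤ δ w u + 4 * C * s) :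
    ∃ V : ℝ → ℝ, (∀ p ∈ Icc u₀ (u₁ + w₀), ∀ q ∈ Icc u₀ (u₁ + w₀), p ≤ q →
        0 ≤ V q - V p ∧ V q - V p ≤ C * (q - p)) ∧
      ∀ w ∈ Ioc 0 w₀, ∀ u ∈ Icc u₀ u₁, |V (u + w) - V u - m w u| ≤ δ w u := by
  set s : ℕ → ℝ := fun n => w₀ / ((n : ℝ) + 1) with hs
  have spos : ∀ n, 0 < s n := fun n => by positivity
  have sle : ∀ n, s n ≤ w₀ := fun n => by
    simp only [hs]
    rw [div_le_iff₀ (by positivity)]
    have : (0:ℝ) ≤ n := Nat.cast_nonneg n
    nlinarith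
  have s0 : Tendsto s atTop (𝓝 0) := by
    simp only [hs]
    have := (tendsto_one_div_add_atTop_nhds_zero_nat (𝕜 := ℝ)).const_mul w₀
    rw [mul_zero] at this
    refine this.congr fun n => ?_
    ring
  set J : ℕ → ℝ → ℝ := fun n τ => (1 / s n) * ∫ y in u₀..τ, m (s n) y with hJ
  have hJd : ∀ n, ∀ a b, J n b - J n a = (1 / s n) * ∫ y in a..b, m (s n) y := by
    intro n a b
    simp only [hJ]
    rw [← mul_sub, intervalIntegral.integral_interval_sub_left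
      ((hcont _).intervalIntegrable _ _) ((hcont _).intervalIntegrable _ _)]
  have hJb : ∀ n, ∀ a ∈ Icc u₀ (u₁ + w₀), ∀ b ∈ Icc u₀ (u₁ + w₀), a ≤ b →
      0 ≤ J n b - J n a ∧ J n b - J n a ≤ C * (b - a) := by
    intro n a ha b hb hab
    rw [hJd]
    have hsn : s n ∈ Ioc 0 w₀ := ⟨spos n, sle n⟩
    have hm : ∀ y ∈ Icc a b, y ∈ Icc u₀ (u₁ + w₀) := fun y hy =>
      ⟨ha.1.trans hy.1, hy.2.trans hb.2⟩
    have h1 : 0 ≤ ∫ y in a..b, m (s n) y := by
      apply intervalIntegral.integral_nonneg hab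
      intro y hy
      exact (bd _ hsn y (hm y hy)).1
    have h2 : (∫ y in a..b, m (s n) y) ≤ (b - a) * (C * s n) := by
      have := intervalIntegral.integral_mono_on (μ := volume) hab
        ((hcont (s n)).intervalIntegrable _ _)
        (intervalIntegrable_const (c := C * s n)) (fun y hy => (bd _ hsn y (hm y hy)).2)
      rw [intervalIntegral.integral_const] at this
      simpa using this
    have hsn' := spos n
    refine ⟨by positivity, ?_⟩
    rw [one_div, inv_mul_le_iff₀ hsn']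
    linarith
  have hJ0 : ∀ n, J n u₀ = 0 := by intro n; simp [hJ]
  have hex : ∀ τ, ∃ x, τ ∈ Icc u₀ (u₁ + w₀) → Tendsto (fun n => J n τ) UF (𝓝 x) := by
    intro τ
    by_cases hτ : τ ∈ Icc u₀ (u₁ + w₀)
    · obtain ⟨x, hx⟩ := exists_tendsto_UF (f := fun n => J n τ) (K := C * (τ - u₀)) (by
        intro n
        have := hJb n u₀ ⟨le_rfl, by linarith⟩ τ hτ hτ.1
        rw [hJ0, sub_zero] at this
        rw [abs_le]; constructor <;> linarith [this.1, this.2])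
      exact ⟨x, fun _ => hx⟩
    · exact ⟨0, fun h => absurd h hτ⟩
  choose I hI using hex
  refine ⟨I, ?_, ?_⟩
  · intro a ha b hb hab
    have := (hI b hb).sub (hI a ha)
    exact ⟨ge_of_tendsto' this fun n => (hJb n a ha b hb hab).1,
      le_of_tendsto' this fun n => (hJb n a ha b hb hab).2⟩
  · intro w hw t ht
    have m1 : t + w ∈ Icc u₀ (u₁ + w₀) := ⟨by linarith [ht.1, hw.1], by linarith [ht.2, hw.2]⟩
    have m2 : t ∈ Icc u₀ (u₁ + w₀) := ⟨ht.1, by linarith [ht.2]⟩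
    have hlim := (((hI _ m1).sub (hI _ m2)).sub_const (m w t)).abs
    have hlim2 : Tendsto (fun n => δ w t + 6 * C * s n) UF
        (𝓝 (δ w t + 6 * C * 0)) :=
      ((s0.mono_left UF_le).const_mul (6 * C)).const_add _
    have hev : ∀ᶠ n in (UF : Filter ℕ), |J n (t + w) - J n t - m w t| ≤ δ w t + 6 * C * s n := by
      have hsm : ∀ᶠ n in (UF : Filter ℕ), s n < w := (s0.mono_left UF_le).eventually_lt_const hw.1
      filter_upwards [hsm] with n hn
      rw [hJd]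
      exact avg_compare hC hcont bd split hw ht ⟨spos n, hn.le⟩
    have := le_of_tendsto_of_tendsto hlim hlim2 hev
    simpa using this

/-- two-sided derivative at almost every point with small defects -/
theorem rate_line (hC : 0 ≤ C) (hw₀ : 0 < w₀) (hu : u₀ ≤ u₁) (hcont : ∀ w, Continuous (m w))
    (bd : ∀ w ∈ Ioc 0 w₀, ∀ u ∈ Icc u₀ (u₁ + w₀), 0 ≤ m w u ∧ m w u ≤ C * w)
    (split : ∀ w ∈ Ioc 0 w₀, ∀ u ∈ Icc u₀ u₁, ∀ s ∈ Ioc 0 w, ∀ σ ∈ Icc 0 s, ∀ n : ℕ,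
      σ + n * s ≤ w → w ≤ σ + (n + 2) * s →
      |m w u - ∑ j ∈ Finset.range n, m s (u + σ + j * s)| ≤ δ w u + 4 * C * s) :
    ∀ᵐ u ∂(volume.restrict (Ioo u₀ u₁)),
      Tendsto (fun w => δ w u / w) (𝓝[>] 0) (𝓝 0) →
      Tendsto (fun w => δ w (u - w) / w) (𝓝[>] 0) (𝓝 0) →
      ∃ ρ, Tendsto (fun w => m w u / w) (𝓝[>] 0) (𝓝 ρ) ∧
        Tendsto (fun w => m w (u - w) / w) (𝓝[>] 0) (𝓝 ρ) := by
  obtain ⟨V, hV1, hV2⟩ := exists_V hC hw₀ hu hcont bd split
  have hLip : LipschitzOnWith (Real.toNNReal C) V (Icc u₀ (u₁ + w₀)) := by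
    apply LipschitzOnWith.of_dist_le_mul
    intro a ha b hb
    rw [Real.coe_toNNReal _ hC, Real.dist_eq, Real.dist_eq]
    rcases le_total a b with h | h
    · have := hV1 a ha b hb h
      rw [abs_sub_comm, abs_of_nonneg this.1, abs_sub_comm, abs_of_nonneg (by linarith)]
      exact this.2
    · have := hV1 b hb a ha h
      rw [abs_of_nonneg this.1, abs_of_nonneg (by linarith)]
      exact this.2
  have hdiff := hLip.ae_differentiableWithinAt_of_mem_real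
  have hall : ∀ᵐ t ∂(volume.restrict (Ioo u₀ u₁)), t ∈ Icc u₀ (u₁ + w₀) →
      DifferentiableWithinAt ℝ V (Icc u₀ (u₁ + w₀)) t := ae_restrict_of_ae hdiff
  filter_upwards [hall, ae_restrict_mem measurableSet_Ioo] with t hdt htt h1 h2
  have hnh : Icc u₀ (u₁ + w₀) ∈ 𝓝 t := Icc_mem_nhds htt.1 (by linarith [htt.2])
  have hder := ((hdt ⟨htt.1.le, by linarith [htt.2]⟩).differentiableAt hnh).hasDerivAt
  set f' := deriv V t with hf'
  have hp : Tendsto (fun w : ℝ => (V (t + w) - V t) / w) (𝓝[≠] 0) (𝓝 f') := by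
    have := hasDerivAt_iff_tendsto_slope_zero.1 hder
    refine this.congr fun w => ?_
    rw [smul_eq_mul]; ring
  have hpp : Tendsto (fun w : ℝ => (V (t + w) - V t) / w) (𝓝[>] 0) (𝓝 f') :=
    hp.mono_left (nhdsWithin_mono _ fun w hw => ne_of_gt hw)
  have hpm : Tendsto (fun w : ℝ => (V t - V (t - w)) / w) (𝓝[>] 0) (𝓝 f') := by
    have hneg : Tendsto (fun w : ℝ => -w) (𝓝[>] 0) (𝓝[≠] 0) := by
      apply tendsto_nhdsWithin_iff.2
      constructor
      · have : Tendsto (fun w : ℝ => -w) (𝓝 0) (𝓝 (-0)) := (continuous_neg).tendsto 0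
        rw [neg_zero] at this
        exact this.mono_left nhdsWithin_le_nhds
      · filter_upwards [self_mem_nhdsWithin] with w hw
        have : (0:ℝ) < w := hw
        simp only [mem_compl_iff, mem_singleton_iff, neg_eq_zero]
        exact this.ne'
    refine (hp.comp hneg).congr fun w => ?_
    simp only [Function.comp]
    rw [← sub_eq_add_neg, div_neg, ← neg_div]
    congr 1; ring
  have hsmall : ∀ᶠ w : ℝ in 𝓝[>] 0, w < min w₀ (t - u₀) :=
    (tendsto_id.mono_left nhdsWithin_le_nhds).eventually_lt_const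
      (lt_min hw₀ (by linarith [htt.1]))
  refine ⟨f', ?_, ?_⟩
  · have hz : Tendsto (fun w : ℝ => (V (t + w) - V t) / w - m w t / w) (𝓝[>] 0) (𝓝 0) := by
      rw [tendsto_zero_iff_abs_tendsto_zero]
      refine squeeze_zero' (Filter.Eventually.of_forall fun w => abs_nonneg _) ?_ h1
      filter_upwards [hsmall, self_mem_nhdsWithin] with w hw1 hw2
      have hw2' : 0 < w := hw2
      have hw3 := lt_min_iff.1 hw1
      simp only [Function.comp]
      rw [← sub_div, abs_div, abs_of_pos hw2']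
      exact div_le_div_of_nonneg_right (hV2 w ⟨hw2', hw3.1.le⟩ t ⟨htt.1.le, htt.2.le⟩) hw2'.le
    have := hpp.sub hz
    simpa using this
  · have hz : Tendsto (fun w : ℝ => (V t - V (t - w)) / w - m w (t - w) / w) (𝓝[>] 0) (𝓝 0) := by
      rw [tendsto_zero_iff_abs_tendsto_zero]
      refine squeeze_zero' (Filter.Eventually.of_forall fun w => abs_nonneg _) ?_ h2
      filter_upwards [hsmall, self_mem_nhdsWithin] with w hw1 hw2
      have hw2' : 0 < w := hw2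
      have hw3 := lt_min_iff.1 hw1
      simp only [Function.comp]
      rw [← sub_div, abs_div, abs_of_pos hw2']
      have := hV2 w ⟨hw2', hw3.1.le⟩ (t - w) ⟨by linarith [hw3.2], by linarith [htt.2]⟩
      rw [sub_add_cancel] at this
      exact div_le_div_of_nonneg_right this hw2'.le
    have := hpm.sub hz
    simpa using this

end

end Crest.Agent.R138.Dl848
end

-- ▼ part R138/Dl9_848
section

/-!
# R138: decoupling on the legal region, splitting of increments on lines (helper848)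
-/

set_option autoImplicit false

open MeasureTheory Filter Topology Set
open scoped ENNReal

namespace Crest.Agent.R138.Dl848

section

variable {ν : V6 → ℝ} {S : Set V6} {K : ℝ}

/-- defect of the increments in the direction `i` -/
noncomputable def d1 (ν : V6 → ℝ) (α β : ℝ) (i : Fin 6) (w t : ℝ) : ℝ :=
  Inc ν (w • e i) (X α β t + w45 w w)
    - Inc ν (w • e i) (X α β t + w45 w w + (X 0 0 w + (-w) • e i))

/-- defect of the `(4,5)`-increments -/
noncomputable def d2 (ν : V6 → ℝ) (α β : ℝ) (w t : ℝ) : ℝ :=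
  Inc ν (w45 w w) (X α β t) - Inc ν (w45 w w) (X α β (t + w))

theorem inc_abs (hlip : ∀ p q, |ν p - ν q| ≤ K * ‖p - q‖) (d p : V6) : |Inc ν d p| ≤ K * ‖d‖ := by
  have := hlip p (p + d)
  rwa [sub_add_cancel_left, norm_neg] at this

theorem X_pt (i : Fin 6) (α β t u v : ℝ) :
    X α β (t + u) + w45 v v = X α β t + pt i 0 0 u v v 0 := by
  unfold pt
  rw [zero_smul, add_zero, ← add_assoc, X_add, add_zero, add_zero]

theorem X_pt' (i : Fin 6) (α β t v : ℝ) :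
    X α β t + w45 v v = X α β t + pt i 0 0 0 v v 0 := by
  rw [← X_pt, add_zero]

theorem split_t (hν : Pr ν S) (hlip : ∀ p q, |ν p - ν q| ≤ K * ‖p - q‖) (hK : 0 ≤ K) {i : Fin 6}
    (hi : i = 0 ∨ i = 2) {α β t w s σ r : ℝ} {n : ℕ} (hS : ∀ c ∈ LB r, X α β t + c ∈ S)
    (hw : 0 < w) (hwr : 8 * w ≤ r) (hs : s ∈ Ioc 0 w) (hσ : σ ∈ Icc 0 s)
    (h1 : σ + n * s ≤ w) (h2 : w ≤ σ + (n + 2) * s) :
    |Inc ν (w • e i) (X α β t + w45 w w)
        - ∑ j ∈ Finset.range n, Inc ν (s • e i) (X α β (t + σ + j * s) + w45 s s)|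
      ≤ d1 ν α β i w t + d2 ν α β w t + 4 * K * s := by
  obtain ⟨hs0, hsw⟩ := hs
  obtain ⟨hσ0, hσs⟩ := hσ
  set p0 := X α β t with hp0
  have mem : ∀ u v z : ℝ, 0 ≤ u → u ≤ w → s ≤ v → v ≤ w → |z| ≤ v →
      p0 + pt i 0 0 u v v z ∈ S := by
    intro u v z hu hu' hv hv' hz
    apply hS
    apply pt_mem hi (D := w) (N := v) (by rw [abs_zero]; exact hw.le)
      (by rw [abs_zero]; exact hw.le) (by rw [abs_of_nonneg hu]; linarith) hz le_rfl le_rfl <;>
      linarith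
  have adds : ∀ (u v z z' : ℝ), p0 + pt i 0 0 u v v z + z' • e i = p0 + pt i 0 0 u v v (z + z') := by
    intro u v z z'; rw [add_assoc, pt_add]
  have add45 : ∀ (u v z z' : ℝ), p0 + pt i 0 0 u v v z + w45 z' z' =
      p0 + pt i 0 0 u (v + z') (v + z') z := by
    intro u v z z'; rw [add_assoc, pt_add45]
  have dis : ∀ (u v z u' v' z' c : ℝ), u + z = u' + z' → ∀ j, (c • e i) j = 0 ∨
      (p0 + pt i 0 0 u v v z) j = (p0 + pt i 0 0 u' v' v' z') j := by
    intro u v z u' v' z' c h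
    unfold pt
    rcases hi with rfl | rfl
    · refine forall6 (Or.inr ?_) (Or.inl ?_) (Or.inl ?_) (Or.inl ?_) (Or.inl ?_) (Or.inl ?_) <;>
        co6
      linarith
    · refine forall6 (Or.inl ?_) (Or.inl ?_) (Or.inr ?_) (Or.inl ?_) (Or.inl ?_) (Or.inl ?_) <;>
        co6
      linarith
  have lle : ∀ (u v z u' v' z' : ℝ), u ≤ u' → u + z ≤ u' + z' → v ≤ v' →
      p0 + pt i 0 0 u v v z ≤ p0 + pt i 0 0 u' v' v' z' := by
    intro u v z u' v' z' h h' h''
    refine add_le_add le_rfl ?_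
    unfold pt
    rcases hi with rfl | rfl <;> ll6
  set FA : ℝ → ℝ := fun u => ν (p0 + pt i 0 0 0 w w u) with hFA
  set FC : ℝ → ℝ := fun u => ν (p0 + pt i 0 0 w w w (u - w)) with hFC
  set H : ℝ → ℝ := fun u => Inc ν (w45 (w - s) (w - s)) (p0 + pt i 0 0 u s s 0) with hH
  have hab : ∀ z : ℝ, 0 ≤ z → z ≤ w → |z| ≤ w := fun z h h' => by rwa [abs_of_nonneg h]
  have hab' : ∀ z : ℝ, 0 ≤ z → z ≤ w → |z - w| ≤ w := fun z h h' => by
    rw [abs_le]; constructor <;> linarith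
  -- monotonicity and Lipschitz
  have hFA' : ∀ u u', 0 ≤ u → u ≤ u' → u' ≤ w → 0 ≤ FA u - FA u' ∧ FA u - FA u' ≤ K * (u' - u) := by
    intro u u' h h' h''
    have hq : p0 + pt i 0 0 0 w w u' = p0 + pt i 0 0 0 w w u + (u' - u) • e i := by
      rw [adds]; congr 2; ring
    constructor
    · have := hν.anti _ (mem 0 w u le_rfl hw.le hsw le_rfl (hab u h (h'.trans h''))) _
        (mem 0 w u' le_rfl hw.le hsw le_rfl (hab u' (h.trans h') h''))
        (lle _ _ _ _ _ _ le_rfl (by linarith) le_rfl)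
      simp only [hFA]; linarith
    · have h3 := inc_abs hlip ((u' - u) • e i) (p0 + pt i 0 0 0 w w u)
      rw [Inc, ← hq] at h3
      refine (le_abs_self _).trans (h3.trans (mul_le_mul_of_nonneg_left ?_ hK))
      exact norm_smul_e (by linarith) i
  have hFC' : ∀ u u', 0 ≤ u → u ≤ u' → u' ≤ w → 0 ≤ FC u - FC u' ∧ FC u - FC u' ≤ K * (u' - u) := by
    intro u u' h h' h''
    have hq : p0 + pt i 0 0 w w w (u' - w) = p0 + pt i 0 0 w w w (u - w) + (u' - u) • e i := by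
      rw [adds]; congr 2; ring
    constructor
    · have := hν.anti _ (mem w w (u - w) hw.le le_rfl hsw le_rfl (hab' u h (h'.trans h''))) _
        (mem w w (u' - w) hw.le le_rfl hsw le_rfl (hab' u' (h.trans h') h''))
        (lle _ _ _ _ _ _ le_rfl (by linarith) le_rfl)
      simp only [hFC]; linarith
    · have h3 := inc_abs hlip ((u' - u) • e i) (p0 + pt i 0 0 w w w (u - w))
      rw [Inc, ← hq] at h3
      refine (le_abs_self _).trans (h3.trans (mul_le_mul_of_nonneg_left ?_ hK))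
      exact norm_smul_e (by linarith) i
  -- one step
  have step : ∀ u, 0 ≤ u → u + s ≤ w →
      FC u - FC (u + s) ≤ Inc ν (s • e i) (p0 + pt i 0 0 u s s 0) ∧
      Inc ν (s • e i) (p0 + pt i 0 0 u s s 0) ≤ FA u - FA (u + s) + (H u - H (u + s)) := by
    intro u hu hus
    have habs : |s| ≤ s := by rw [abs_of_pos hs0]
    have habs0 : ∀ v : ℝ, 0 ≤ v → |(0:ℝ)| ≤ v := fun v hv => by rw [abs_zero]; exact hv
    have a1 : FC u - FC (u + s) = Inc ν (s • e i) (p0 + pt i 0 0 w w w (u - w)) := by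
      simp only [hFC, Inc]
      rw [adds, show u - w + s = u + s - w by ring]
    have a2 : FA u - FA (u + s) = Inc ν (s • e i) (p0 + pt i 0 0 0 w w u) := by
      simp only [hFA, Inc]
      rw [adds]
    have m1 := mem u s 0 hu (by linarith) le_rfl hsw (habs0 s hs0.le)
    have m1' : p0 + pt i 0 0 u s s 0 + s • e i ∈ S := by
      rw [adds, zero_add]; exact mem u s s hu (by linarith) le_rfl hsw habs
    have m2 := mem u w 0 hu (by linarith) hsw le_rfl (habs0 w hw.le)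
    have m2' : p0 + pt i 0 0 u w w 0 + s • e i ∈ S := by
      rw [adds, zero_add]; exact mem u w s hu (by linarith) hsw le_rfl (by linarith)
    have m3 := mem w w (u - w) hw.le le_rfl hsw le_rfl (hab' u hu (by linarith))
    have m3' : p0 + pt i 0 0 w w w (u - w) + s • e i ∈ S := by
      rw [adds]; exact mem w w _ hw.le le_rfl hsw le_rfl (by rw [abs_le]; constructor <;> linarith)
    have m4 := mem 0 w u le_rfl hw.le hsw le_rfl (hab u hu (by linarith))
    have m4' : p0 + pt i 0 0 0 w w u + s • e i ∈ S := by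
      rw [adds]; exact mem 0 w _ le_rfl hw.le hsw le_rfl (hab _ (by linarith) hus)
    have es : (0 : V6) ≤ s • e i := e_nonneg hs0.le i
    constructor
    · rw [a1]
      exact hν.sub m1 m3 m1' m3' (lle _ _ _ _ _ _ (by linarith) (by linarith) hsw) es
        (dis _ _ _ _ _ _ _ (by ring))
    · -- through the level w
      have b1 : Inc ν (s • e i) (p0 + pt i 0 0 u w w 0) ≤ FA u - FA (u + s) := by
        rw [a2]
        exact hν.sub m4 m2 m4' m2' (lle _ _ _ _ _ _ hu (by linarith) le_rfl) es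
          (dis _ _ _ _ _ _ _ (by ring))
      have sw := Inc_swap ν (s • e i) (w45 (w - s) (w - s)) (p0 + pt i 0 0 u s s 0)
      rw [add45, show s + (w - s) = w by ring] at sw
      have hws : 0 ≤ w - s := by linarith
      have m5 := mem (u + s) s 0 (by linarith) hus le_rfl hsw (habs0 s hs0.le)
      have m5' : p0 + pt i 0 0 (u + s) s s 0 + w45 (w - s) (w - s) ∈ S := by
        rw [add45, show s + (w - s) = w by ring]
        exact mem (u + s) w 0 (by linarith) hus hsw le_rfl (habs0 w hw.le)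
      have m6' : p0 + pt i 0 0 u s s 0 + s • e i + w45 (w - s) (w - s) ∈ S := by
        rw [add_right_comm, add45, show s + (w - s) = w by ring]; exact m2'
      have b2 : H (u + s) ≤
          Inc ν (w45 (w - s) (w - s)) (p0 + pt i 0 0 u s s 0 + s • e i) := by
        simp only [hH]
        refine hν.sub m1' m5 m6' m5' ?_ (w45_nonneg hws hws) ?_
        · rw [adds]; exact lle _ _ _ _ _ _ (by linarith) (by linarith) le_rfl
        · rw [adds]
          unfold pt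
          rcases hi with rfl | rfl <;>
          · refine forall6 (Or.inl ?_) (Or.inl ?_) (Or.inl ?_) (Or.inl ?_) (Or.inr ?_)
              (Or.inr ?_) <;> co6
      have b3 : H u = Inc ν (w45 (w - s) (w - s)) (p0 + pt i 0 0 u s s 0) := rfl
      linarith
  -- sums
  have hsum : FC σ - FC (σ + n * s) ≤
      ∑ j ∈ Finset.range n, Inc ν (s • e i) (X α β (t + σ + j * s) + w45 s s) ∧
      ∑ j ∈ Finset.range n, Inc ν (s • e i) (X α β (t + σ + j * s) + w45 s s) ≤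
        (FA σ - FA (σ + n * s)) + (H σ - H (σ + n * s)) := by
    clear h2
    induction n with
    | zero => simp
    | succ n ih =>
      push_cast at h1 ⊢
      have h1' : σ + n * s ≤ w := by linarith
      obtain ⟨i1, i2⟩ := ih h1'
      have hn0 : 0 ≤ (n : ℝ) * s := by positivity
      obtain ⟨j1, j2⟩ := step (σ + n * s) (by linarith) (by linarith)
      rw [Finset.sum_range_succ]
      have e1 : X α β (t + σ + n * s) + w45 s s = p0 + pt i 0 0 (σ + n * s) s s 0 := by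
        rw [add_assoc t, X_pt i]
      have e2 : σ + (n + 1) * s = σ + n * s + s := by ring
      rw [e1, e2]
      constructor <;> linarith
  have hn0 : 0 ≤ (n : ℝ) * s := by positivity
  -- the ends
  have c1 := hFC' 0 σ le_rfl hσ0 (by linarith)
  have c2 := hFC' (σ + n * s) w (by linarith) h1 le_rfl
  have c3 := hFA' 0 σ le_rfl hσ0 (by linarith)
  have c4 := hFA' (σ + n * s) w (by linarith) h1 le_rfl
  have em : Inc ν (w • e i) (p0 + w45 w w) = FA 0 - FA w := by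
    rw [hp0, X_pt' i, ← hp0, Inc, adds, zero_add]
  have ed1 : d1 ν α β i w t = (FA 0 - FA w) - (FC 0 - FC w) := by
    rw [d1, ← hp0, em]
    congr 1
    have e1 : p0 + w45 w w + (X 0 0 w + (-w) • e i) = p0 + pt i 0 0 w w w (0 - w) := by
      unfold pt; rw [zero_sub, add_assoc]; congr 1
      rw [← add_assoc, add_comm (w45 w w)]
    rw [e1, Inc, adds]
    simp only [hFC]
    congr 4; ring
  -- nonnegativity of d1
  have hd1 : 0 ≤ d1 ν α β i w t := by
    have e1 : p0 + w45 w w + (X 0 0 w + (-w) • e i) = p0 + pt i 0 0 w w w (-w) := by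
      unfold pt; rw [add_assoc]; congr 1
      rw [← add_assoc, add_comm (w45 w w)]
    rw [d1, ← hp0, e1]
    rw [hp0, X_pt' i, ← hp0]
    have m1 := mem 0 w 0 le_rfl hw.le hsw le_rfl (by rw [abs_zero]; exact hw.le)
    have m2 := mem w w (-w) hw.le le_rfl hsw le_rfl (by rw [abs_neg, abs_of_pos hw])
    have m1' : p0 + pt i 0 0 0 w w 0 + w • e i ∈ S := by
      rw [adds]
      exact mem 0 w _ le_rfl hw.le hsw le_rfl (by rw [zero_add, abs_of_pos hw])
    have m2' : p0 + pt i 0 0 w w w (-w) + w • e i ∈ S := by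
      rw [adds]
      exact mem w w _ hw.le le_rfl hsw le_rfl (by rw [neg_add_cancel, abs_zero]; exact hw.le)
    have := hν.sub m1 m2 m1' m2' (lle _ _ _ _ _ _ hw.le (by linarith) le_rfl) (e_nonneg hw.le i)
      (dis _ _ _ _ _ _ _ (by ring))
    linarith
  -- the (4,5)-part
  have hHmono : ∀ u u', 0 ≤ u → u ≤ u' → u' ≤ w → H u' ≤ H u := by
    intro u u' h h' h''
    have hws : 0 ≤ w - s := by linarith
    have m1 := mem u s 0 h (by linarith) le_rfl hsw (by rw [abs_zero]; exact hs0.le)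
    have m2 := mem u' s 0 (by linarith) h'' le_rfl hsw (by rw [abs_zero]; exact hs0.le)
    have m1' : p0 + pt i 0 0 u s s 0 + w45 (w - s) (w - s) ∈ S := by
      rw [add45, show s + (w - s) = w by ring]
      exact mem u w 0 h (by linarith) hsw le_rfl (by rw [abs_zero]; exact hw.le)
    have m2' : p0 + pt i 0 0 u' s s 0 + w45 (w - s) (w - s) ∈ S := by
      rw [add45, show s + (w - s) = w by ring]
      exact mem u' w 0 (by linarith) h'' hsw le_rfl (by rw [abs_zero]; exact hw.le)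
    refine hν.sub m1 m2 m1' m2' (lle _ _ _ _ _ _ h' (by linarith) le_rfl) (w45_nonneg hws hws) ?_
    unfold pt
    rcases hi with rfl | rfl <;>
    · refine forall6 (Or.inl ?_) (Or.inl ?_) (Or.inl ?_) (Or.inl ?_) (Or.inr ?_)
        (Or.inr ?_) <;> co6
  have hHd : H 0 - H w ≤ d2 ν α β w t := by
    have hws : 0 ≤ w - s := by linarith
    have mX : ∀ u, 0 ≤ u → u ≤ w → X α β (t + u) ∈ S := by
      intro u hu hu'
      have : X α β (t + u) = p0 + X 0 0 u := by rw [hp0, X_add, add_zero, add_zero]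
      rw [this]
      apply hS
      mm6
    have mXv : ∀ u v, 0 ≤ u → u ≤ w → 0 ≤ v → v ≤ w → X α β (t + u) + w45 v v ∈ S := by
      intro u v hu hu' hv hv'
      have : X α β (t + u) + w45 v v = p0 + (X 0 0 u + w45 v v) := by
        rw [hp0, ← add_assoc, X_add, add_zero, add_zero]
      rw [this]
      apply hS
      mm6
    have e0 : X α β t = X α β (t + 0) := by rw [add_zero]
    have key := hν.mix (p := X α β (t + 0)) (q := X α β (t + w)) (d1 := w45 s s)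
      (d := w45 (w - s) (w - s)) (d2 := 0) (mX 0 le_rfl hw.le) (mX w hw.le le_rfl)
      (mXv 0 s le_rfl hw.le hs0.le hsw) (mXv w s hw.le le_rfl hs0.le hsw)
      (by rw [add_assoc, w45_add, show s + (w - s) = w by ring]
          exact mXv 0 w le_rfl hw.le hw.le le_rfl)
      (by rw [add_assoc, w45_add, show s + (w - s) = w by ring]
          exact mXv w w hw.le le_rfl hw.le le_rfl)
      (by rw [add_zero, add_assoc, w45_add, show s + (w - s) = w by ring]
          exact mXv 0 w le_rfl hw.le hw.le le_rfl)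
      (by rw [add_zero, add_assoc, w45_add, show s + (w - s) = w by ring]
          exact mXv w w hw.le le_rfl hw.le le_rfl)
      (by ll6) (w45_nonneg hs0.le hs0.le) le_rfl
      (forall6 (Or.inl ⟨rfl, rfl, rfl⟩) (Or.inl ⟨rfl, rfl, rfl⟩) (Or.inl ⟨rfl, rfl, rfl⟩)
        (Or.inl ⟨rfl, rfl, rfl⟩) (Or.inr rfl) (Or.inr rfl))
    rw [add_zero, w45_add, show s + (w - s) = w by ring] at key
    unfold d2
    have e1 : H 0 = Inc ν (w45 (w - s) (w - s)) (X α β (t + 0) + w45 s s) := by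
      rw [X_pt i]
    have e2 : H w = Inc ν (w45 (w - s) (w - s)) (X α β (t + w) + w45 s s) := by
      rw [X_pt i]
    rw [e1, e2, e0]
    rw [e0] at key
    simp only [add_zero] at key ⊢
    exact key
  have q1 := hHmono 0 σ le_rfl hσ0 (by linarith)
  have q2 := hHmono (σ + n * s) w (by linarith) h1 le_rfl
  have q3 := hHmono 0 w le_rfl hw.le le_rfl
  rw [em]
  have hKs : K * (σ - 0) ≤ K * s := mul_le_mul_of_nonneg_left (by linarith) hK
  have hKs2 : K * (w - (σ + n * s)) ≤ K * (2 * s) := mul_le_mul_of_nonneg_left (by linarith) hK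
  have hKs0 : 0 ≤ K * s := mul_nonneg hK hs0.le
  rw [abs_le]
  constructor
  · linarith [hsum.2]
  · linarith [hsum.1]

/-- defect of the `(4,5)`-increments, along the surface -/
noncomputable def dJ (ν : V6 → ℝ) (a b : ℝ → ℝ) (Λ t : ℝ) (w τ : ℝ) : ℝ :=
  Inc ν (w45 (Λ * w) (Λ * w)) (X (a τ) (b τ) t)
    - Inc ν (w45 (Λ * w) (Λ * w)) (X (a τ) (b τ) (t + 2 * Λ * w))

/-- natural `(4,5)`-increment -/
noncomputable def mJ (ν : V6 → ℝ) (a b : ℝ → ℝ) (t : ℝ) (w τ : ℝ) : ℝ :=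
  Inc ν (w45 (a (τ + w) - a τ) (b (τ + w) - b τ)) (X (a τ) (b τ) t)

theorem norm_w45' {u v R : ℝ} (hu : |u| ≤ R) (hv : |v| ≤ R) : ‖w45 u v‖ ≤ R := by
  have hR : 0 ≤ R := (abs_nonneg _).trans hu
  rw [pi_norm_le_iff_of_nonneg hR]
  refine forall6 ?_ ?_ ?_ ?_ ?_ ?_ <;> simp [hR, hu, hv]

theorem split_J (hν : Pr ν S) (hlip : ∀ p q, |ν p - ν q| ≤ K * ‖p - q‖) (hK : 0 ≤ K)
    {a b : ℝ → ℝ} {Λ : ℝ} (hΛ : 0 ≤ Λ) (ma : Monotone a) (mb : Monotone b)
    (la : ∀ s t, |a s - a t| ≤ Λ * |s - t|) (lb : ∀ s t, |b s - b t| ≤ Λ * |s - t|)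
    {τ t w s σ r : ℝ} {n : ℕ} (hS : ∀ c ∈ LB r, X (a τ) (b τ) t + c ∈ S)
    (hw : 0 < w) (hwr : 8 * (Λ * w) ≤ r) (hs : s ∈ Ioc 0 w) (hσ : σ ∈ Icc 0 s)
    (h1 : σ + n * s ≤ w) (h2 : w ≤ σ + (n + 2) * s) :
    |mJ ν a b t w τ - ∑ j ∈ Finset.range n, mJ ν a b t s (τ + σ + j * s)|
      ≤ dJ ν a b Λ t w τ + 4 * (K * Λ) * s := by
  obtain ⟨hs0, hsw⟩ := hs
  obtain ⟨hσ0, hσs⟩ := hσ
  have hΛw : 0 ≤ Λ * w := by positivity
  have inca : ∀ u u', u ≤ u' → 0 ≤ a u' - a u ∧ a u' - a u ≤ Λ * (u' - u) := by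
    intro u u' h
    have := la u' u
    rw [abs_of_nonneg (by linarith : 0 ≤ u' - u)] at this
    exact ⟨by linarith [ma h], (le_abs_self _).trans this⟩
  have incb : ∀ u u', u ≤ u' → 0 ≤ b u' - b u ∧ b u' - b u ≤ Λ * (u' - u) := by
    intro u u' h
    have := lb u' u
    rw [abs_of_nonneg (by linarith : 0 ≤ u' - u)] at this
    exact ⟨by linarith [mb h], (le_abs_self _).trans this⟩
  have hbw : ∀ u, u ≤ w → Λ * u ≤ Λ * w := fun u h => mul_le_mul_of_nonneg_left h hΛ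
  -- memberships
  have mem : ∀ α β θ α' β' : ℝ, 0 ≤ α → α ≤ Λ * w → 0 ≤ β → β ≤ Λ * w → 0 ≤ θ →
      θ ≤ 2 * (Λ * w) → 0 ≤ α' → α' ≤ Λ * w → 0 ≤ β' → β' ≤ Λ * w →
      X (a τ) (b τ) t + (X α β θ + w45 α' β') ∈ S := by
    intro α β θ α' β' g1 g2 g3 g4 g5 g6 g7 g8 g9 g10
    apply hS
    mm6
  set FA : ℝ → ℝ := fun u =>
    ν (X (a τ) (b τ) t + w45 (a (τ + u) - a τ) (b (τ + u) - b τ)) with hFA
  set FC : ℝ → ℝ := fun u => ν (X (a τ) (b τ) (t + 2 * Λ * w) +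
    w45 (a (τ + u) - a τ) (b (τ + u) - b τ)) with hFC
  have memA : ∀ u, 0 ≤ u → u ≤ w →
      X (a τ) (b τ) t + w45 (a (τ + u) - a τ) (b (τ + u) - b τ) ∈ S := by
    intro u hu hu'
    have h3 := inca τ (τ + u) (by linarith)
    have h4 := incb τ (τ + u) (by linarith)
    rw [add_sub_cancel_left] at h3 h4
    have := mem 0 0 0 _ _ le_rfl hΛw le_rfl hΛw le_rfl (by linarith) h3.1
      (h3.2.trans (hbw u hu')) h4.1 (h4.2.trans (hbw u hu'))
    rwa [X_zero, zero_add] at this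
  have eC : ∀ u, X (a τ) (b τ) (t + 2 * Λ * w) + w45 (a (τ + u) - a τ) (b (τ + u) - b τ) =
      X (a τ) (b τ) t + (X 0 0 (2 * (Λ * w)) + w45 (a (τ + u) - a τ) (b (τ + u) - b τ)) := by
    intro u
    rw [← add_assoc, X_add]; congr 2 <;> ring
  have memC : ∀ u, 0 ≤ u → u ≤ w →
      X (a τ) (b τ) (t + 2 * Λ * w) + w45 (a (τ + u) - a τ) (b (τ + u) - b τ) ∈ S := by
    intro u hu hu'
    have h3 := inca τ (τ + u) (by linarith)
    have h4 := incb τ (τ + u) (by linarith)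
    rw [add_sub_cancel_left] at h3 h4
    rw [eC]
    exact mem 0 0 _ _ _ le_rfl hΛw le_rfl hΛw (by linarith) le_rfl h3.1
      (h3.2.trans (hbw u hu')) h4.1 (h4.2.trans (hbw u hu'))
  have addw : ∀ (p : V6) (u u' : ℝ), p + w45 (a (τ + u) - a τ) (b (τ + u) - b τ) +
      w45 (a (τ + u') - a (τ + u)) (b (τ + u') - b (τ + u)) =
      p + w45 (a (τ + u') - a τ) (b (τ + u') - b τ) := by
    intro p u u'
    rw [add_assoc, w45_add]; congr 2 <;> ring
  have lipF : ∀ p : V6, ∀ u u', u ≤ u' →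
      ν (p + w45 (a (τ + u) - a τ) (b (τ + u) - b τ)) -
        ν (p + w45 (a (τ + u') - a τ) (b (τ + u') - b τ)) ≤ K * Λ * (u' - u) := by
    intro p u u' h
    have h3 := inca (τ + u) (τ + u') (by linarith)
    have h4 := incb (τ + u) (τ + u') (by linarith)
    rw [add_sub_add_left_eq_sub] at h3 h4
    have h5 := inc_abs hlip (w45 (a (τ + u') - a (τ + u)) (b (τ + u') - b (τ + u)))
      (p + w45 (a (τ + u) - a τ) (b (τ + u) - b τ))
    rw [Inc, addw] at h5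
    refine (le_abs_self _).trans (h5.trans ?_)
    rw [mul_assoc]
    refine mul_le_mul_of_nonneg_left (norm_w45' ?_ ?_) hK
    · rw [abs_of_nonneg h3.1]; exact h3.2
    · rw [abs_of_nonneg h4.1]; exact h4.2
  have hFA' : ∀ u u', 0 ≤ u → u ≤ u' → u' ≤ w → 0 ≤ FA u - FA u' ∧
      FA u - FA u' ≤ K * Λ * (u' - u) := by
    intro u u' h h' h''
    refine ⟨?_, lipF _ u u' h'⟩
    have h3 := ma (by linarith : τ + u ≤ τ + u')
    have h4 := mb (by linarith : τ + u ≤ τ + u')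
    have := hν.anti _ (memA u h (h'.trans h'')) _ (memA u' (h.trans h') h'') (by ll6)
    simp only [hFA]; linarith
  have hFC' : ∀ u u', 0 ≤ u → u ≤ u' → u' ≤ w → 0 ≤ FC u - FC u' ∧
      FC u - FC u' ≤ K * Λ * (u' - u) := by
    intro u u' h h' h''
    refine ⟨?_, lipF _ u u' h'⟩
    have h3 := ma (by linarith : τ + u ≤ τ + u')
    have h4 := mb (by linarith : τ + u ≤ τ + u')
    have := hν.anti _ (memC u h (h'.trans h'')) _ (memC u' (h.trans h') h'') (by ll6)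
    simp only [hFC]; linarith
  -- one step
  have step : ∀ u, 0 ≤ u → u + s ≤ w →
      FC u - FC (u + s) ≤ mJ ν a b t s (τ + u) ∧ mJ ν a b t s (τ + u) ≤ FA u - FA (u + s) := by
    intro u hu hus
    have a3 := inca τ (τ + u) (by linarith)
    have b3 := incb τ (τ + u) (by linarith)
    have a4 := inca (τ + u) (τ + (u + s)) (by linarith)
    have b4 := incb (τ + u) (τ + (u + s)) (by linarith)
    rw [add_sub_cancel_left] at a3 b3
    rw [show τ + (u + s) - (τ + u) = s by ring] at a4 b4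
    have huw := hbw u (by linarith)
    have hsw' := hbw s hsw
    obtain ⟨d, hd⟩ : ∃ d, d = w45 (a (τ + (u + s)) - a (τ + u)) (b (τ + (u + s)) - b (τ + u)) :=
      ⟨_, rfl⟩
    have hd0 : (0 : V6) ≤ d := by rw [hd]; exact w45_nonneg a4.1 b4.1
    have eN : X (a (τ + u)) (b (τ + u)) t = X (a τ) (b τ) t +
        (X (a (τ + u) - a τ) (b (τ + u) - b τ) 0 + w45 0 0) := by
      have : w45 0 0 = 0 := by apply ext6 <;> simp
      rw [this, add_zero, X_add]; congr 1 <;> ring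
    have eNd : X (a (τ + u)) (b (τ + u)) t + d = X (a τ) (b τ) t +
        (X (a (τ + u) - a τ) (b (τ + u) - b τ) 0 +
          w45 (a (τ + (u + s)) - a (τ + u)) (b (τ + (u + s)) - b (τ + u))) := by
      rw [hd, ← add_assoc (X (a τ) (b τ) t), X_add]
      congr 2 <;> ring
    have mN : X (a (τ + u)) (b (τ + u)) t ∈ S := by
      rw [eN]
      exact mem _ _ _ _ _ a3.1 (a3.2.trans huw) b3.1 (b3.2.trans huw) le_rfl
        (by linarith) le_rfl hΛw le_rfl hΛw
    have mNd : X (a (τ + u)) (b (τ + u)) t + d ∈ S := by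
      rw [eNd]
      exact mem _ _ _ _ _ a3.1 (a3.2.trans huw) b3.1 (b3.2.trans huw) le_rfl
        (by linarith) a4.1 (a4.2.trans hsw') b4.1 (b4.2.trans hsw')
    have mA := memA u hu (by linarith)
    have mC := memC u hu (by linarith)
    have eAd := addw (X (a τ) (b τ) t) u (u + s)
    have eCd := addw (X (a τ) (b τ) (t + 2 * Λ * w)) u (u + s)
    rw [← hd] at eAd eCd
    have mAd : X (a τ) (b τ) t + w45 (a (τ + u) - a τ) (b (τ + u) - b τ) + d ∈ S := by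
      rw [eAd]; exact memA (u + s) (by linarith) hus
    have mCd : X (a τ) (b τ) (t + 2 * Λ * w) + w45 (a (τ + u) - a τ) (b (τ + u) - b τ) + d ∈
        S := by
      rw [eCd]; exact memC (u + s) (by linarith) hus
    have em : mJ ν a b t s (τ + u) = Inc ν d (X (a (τ + u)) (b (τ + u)) t) := by
      unfold mJ; rw [hd, add_assoc]
    have eA : FA u - FA (u + s) =
        Inc ν d (X (a τ) (b τ) t + w45 (a (τ + u) - a τ) (b (τ + u) - b τ)) := by
      simp only [hFA, Inc]; rw [eAd]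
    have eC' : FC u - FC (u + s) =
        Inc ν d (X (a τ) (b τ) (t + 2 * Λ * w) + w45 (a (τ + u) - a τ) (b (τ + u) - b τ)) := by
      simp only [hFC, Inc]; rw [eCd]
    have hdis : ∀ z z' : V6, z 4 = z' 4 → z 5 = z' 5 → ∀ j, d j = 0 ∨ z j = z' j := by
      intro z z' h4 h5
      rw [hd]
      exact forall6 (Or.inl rfl) (Or.inl rfl) (Or.inl rfl) (Or.inl rfl) (Or.inr h4) (Or.inr h5)
    rw [em, eA, eC']
    constructor
    · refine hν.sub mN mC mNd mCd ?_ hd0 (hdis _ _ ?_ ?_)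
      · clear hd hd0
        ll6
      · co6; ring
      · co6; ring
    · refine hν.sub mA mN mAd mNd ?_ hd0 (hdis _ _ ?_ ?_)
      · clear hd hd0
        ll6
      · co6; ring
      · co6; ring
  have hsum : FC σ - FC (σ + n * s) ≤
      ∑ j ∈ Finset.range n, mJ ν a b t s (τ + σ + j * s) ∧
      ∑ j ∈ Finset.range n, mJ ν a b t s (τ + σ + j * s) ≤ FA σ - FA (σ + n * s) := by
    clear h2
    induction n with
    | zero => simp
    | succ n ih =>
      push_cast at h1 ⊢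
      have h1' : σ + n * s ≤ w := by linarith
      obtain ⟨i1, i2⟩ := ih h1'
      have hn0 : 0 ≤ (n : ℝ) * s := by positivity
      obtain ⟨j1, j2⟩ := step (σ + n * s) (by linarith) (by linarith)
      rw [Finset.sum_range_succ]
      have e1 : τ + σ + n * s = τ + (σ + n * s) := by ring
      have e2 : σ + (n + 1) * s = σ + n * s + s := by ring
      rw [e1, e2]
      constructor <;> linarith
  have hn0 : 0 ≤ (n : ℝ) * s := by positivity
  have c1 := hFC' 0 σ le_rfl hσ0 (by linarith)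
  have c2 := hFC' (σ + n * s) w (by linarith) h1 le_rfl
  have c3 := hFA' 0 σ le_rfl hσ0 (by linarith)
  have c4 := hFA' (σ + n * s) w (by linarith) h1 le_rfl
  have z0 : w45 (a (τ + 0) - a τ) (b (τ + 0) - b τ) = 0 := by
    rw [add_zero, sub_self, sub_self]; apply ext6 <;> simp
  have hA0 : FA 0 = ν (X (a τ) (b τ) t) := by
    simp only [hFA]; rw [z0, add_zero]
  have hC0 : FC 0 = ν (X (a τ) (b τ) (t + 2 * Λ * w)) := by
    simp only [hFC]; rw [z0, add_zero]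
  have em : mJ ν a b t w τ = FA 0 - FA w := by rw [hA0]; rfl
  -- the defect
  have a5 := inca τ (τ + w) (by linarith)
  have b5 := incb τ (τ + w) (by linarith)
  rw [add_sub_cancel_left] at a5 b5
  have hmix := hν.mix (p := X (a τ) (b τ) t) (q := X (a τ) (b τ) (t + 2 * Λ * w)) (d1 := 0)
    (d := w45 (a (τ + w) - a τ) (b (τ + w) - b τ))
    (d2 := w45 (Λ * w - (a (τ + w) - a τ)) (Λ * w - (b (τ + w) - b τ)))
    (by have := memA 0 le_rfl hw.le; rwa [z0, add_zero] at this)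
    (by have := memC 0 le_rfl hw.le; rwa [z0, add_zero] at this)
    (by have := memA 0 le_rfl hw.le; rwa [z0] at this)
    (by have := memC 0 le_rfl hw.le; rwa [z0] at this)
    (by rw [add_zero]; exact memA w hw.le le_rfl)
    (by rw [add_zero]; exact memC w hw.le le_rfl)
    (by
      rw [add_zero, add_assoc, w45_add]
      have := mem 0 0 0 (a (τ + w) - a τ + (Λ * w - (a (τ + w) - a τ)))
        (b (τ + w) - b τ + (Λ * w - (b (τ + w) - b τ))) le_rfl hΛw le_rfl hΛw le_rfl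
        (by linarith) (by linarith) (by linarith) (by linarith) (by linarith)
      rwa [X_zero, zero_add] at this)
    (by
      rw [add_zero, add_assoc, w45_add]
      have := mem 0 0 (2 * (Λ * w)) (a (τ + w) - a τ + (Λ * w - (a (τ + w) - a τ)))
        (b (τ + w) - b τ + (Λ * w - (b (τ + w) - b τ))) le_rfl hΛw le_rfl hΛw (by linarith)
        (by linarith) (by linarith) (by linarith) (by linarith) (by linarith)
      rw [← add_assoc, X_add, add_zero, add_zero, ← mul_assoc] at this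
      exact this)
    (by
      have : 0 ≤ 2 * Λ * w := by positivity
      ll6)
    le_rfl (w45_nonneg (by linarith) (by linarith))
    (forall6 (Or.inl ⟨rfl, rfl, rfl⟩) (Or.inl ⟨rfl, rfl, rfl⟩) (Or.inl ⟨rfl, rfl, rfl⟩)
      (Or.inl ⟨rfl, rfl, rfl⟩) (Or.inr rfl) (Or.inr rfl))
  have ew : (0 : V6) + w45 (a (τ + w) - a τ) (b (τ + w) - b τ) +
      w45 (Λ * w - (a (τ + w) - a τ)) (Λ * w - (b (τ + w) - b τ)) = w45 (Λ * w) (Λ * w) := by
    rw [zero_add, w45_add]; congr 1 <;> ring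
  rw [ew, add_zero, add_zero] at hmix
  have ed : (FA 0 - FA w) - (FC 0 - FC w) ≤ dJ ν a b Λ t w τ := by
    have e1 : FA 0 - FA w = Inc ν (w45 (a (τ + w) - a τ) (b (τ + w) - b τ))
        (X (a τ) (b τ) t) := by rw [hA0]; rfl
    have e2 : FC 0 - FC w = Inc ν (w45 (a (τ + w) - a τ) (b (τ + w) - b τ))
        (X (a τ) (b τ) (t + 2 * Λ * w)) := by rw [hC0]; rfl
    rw [e1, e2]
    exact hmix
  have hdJ0 : 0 ≤ dJ ν a b Λ t w τ := by
    have m1 := mem 0 0 0 0 0 le_rfl hΛw le_rfl hΛw le_rfl (by linarith) le_rfl hΛw le_rfl hΛw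
    have m2 := mem 0 0 (2 * (Λ * w)) 0 0 le_rfl hΛw le_rfl hΛw (by linarith) le_rfl le_rfl hΛw
      le_rfl hΛw
    have m3 := mem 0 0 0 (Λ * w) (Λ * w) le_rfl hΛw le_rfl hΛw le_rfl (by linarith) hΛw le_rfl
      hΛw le_rfl
    have m4 := mem 0 0 (2 * (Λ * w)) (Λ * w) (Λ * w) le_rfl hΛw le_rfl hΛw (by linarith) le_rfl
      hΛw le_rfl hΛw le_rfl
    have w0 : w45 0 0 = 0 := by apply ext6 <;> simp
    rw [X_zero, w0, add_zero, add_zero] at m1
    rw [w0, add_zero, X_add, add_zero, add_zero, ← mul_assoc] at m2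
    rw [X_zero, zero_add] at m3
    rw [← add_assoc, X_add, add_zero, add_zero, ← mul_assoc] at m4
    have := hν.sub m1 m2 m3 m4 (by
      have : 0 ≤ 2 * Λ * w := by positivity
      ll6) (w45_nonneg hΛw hΛw)
      (forall6 (Or.inl rfl) (Or.inl rfl) (Or.inl rfl) (Or.inl rfl) (Or.inr rfl) (Or.inr rfl))
    unfold dJ; linarith
  have hKΛ : 0 ≤ K * Λ := mul_nonneg hK hΛ
  have hKs : K * Λ * (σ - 0) ≤ K * Λ * s := mul_le_mul_of_nonneg_left (by linarith) hKΛ
  have hKs2 : K * Λ * (w - (σ + n * s)) ≤ K * Λ * (2 * s) :=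
    mul_le_mul_of_nonneg_left (by linarith) hKΛ
  have hKs0 : 0 ≤ K * Λ * s := mul_nonneg hKΛ hs0.le
  rw [em, abs_le]
  constructor
  · linarith [hsum.2]
  · linarith [hsum.1]

end

end Crest.Agent.R138.Dl848
end

-- ▼ part R138/Dl10_848
section

/-!
# R138: decoupling on the legal region, generic points (helper848)
-/

set_option autoImplicit false

open MeasureTheory Filter Topology Set
open scoped ENNReal

namespace Crest.Agent.R138.Dl848

/-- scaling of increments -/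
theorem Inc_scale {f g : V6 → ℝ} {c : ℝ} (h : ∀ z, g z = (1 / c) * f (c • z)) (d p : V6) :
    Inc g d p = (1 / c) * Inc f (c • d) (c • p) := by
  unfold Inc; rw [h, h, smul_add]; ring

theorem good3_scale {f g : V6 → ℝ} {c : ℝ} (hc : 0 < c) (h : ∀ z, g z = (1 / c) * f (c • z))
    (hf : Good3 f) : Good3 g := by
  intro p hp p' hp' h4 h5 r4 r5 hr4 hr5
  rw [Inc_scale h, Inc_scale h, w45_smul]
  congr 1
  exact hf _ (LEG_smul hc.le hp) _ (LEG_smul hc.le hp') (by simp [h4]) (by simp [h5]) _ _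
    (by positivity) (by positivity)

theorem good4_scale {f g : V6 → ℝ} {c : ℝ} (hc : 0 < c) (h : ∀ z, g z = (1 / c) * f (c • z))
    {i : Fin 6} (hf : Good4 f i) : Good4 g i := by
  intro p hp p' hp' hi s hs hps hps'
  rw [Inc_scale h, Inc_scale h, smul_smul]
  congr 1
  refine hf _ (LEG_smul hc.le hp) _ (LEG_smul hc.le hp') (by simp [hi]) _ (by positivity) ?_ ?_
  · rw [← smul_smul, ← smul_add]; exact LEG_smul hc.le hps
  · rw [← smul_smul, ← smul_add]; exact LEG_smul hc.le hps'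

section

variable {ν : V6 → ℝ} {S : Set V6} {K : ℝ} {p0 : V6}

/-- from dyadic scales to all scales -/
theorem good_real (hlip : ∀ p q, |ν p - ν q| ≤ K * ‖p - q‖)
    (HG : ∀ U : Ultrafilter ℕ, (U : Filter ℕ) ≤ atTop → ∀ f,
      BU ν p0 U (fun m : ℕ => (1 / 2 : ℝ) ^ m) f → Good3 f ∧ Good4 f 0 ∧ Good4 f 2)
    {W : Ultrafilter ℝ} (hW : (W : Filter ℝ) ≤ 𝓝[>] 0) {g : V6 → ℝ} (hg : BU ν p0 W id g) :
    Good3 g ∧ Good4 g 0 ∧ Good4 g 2 := by
  have hpos : ∀ᶠ w in (W : Filter ℝ), 0 < w := hW self_mem_nhdsWithin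
  have hW0 : Tendsto (fun w : ℝ => w) W (𝓝 0) := (tendsto_id.mono_left hW).mono_right
    nhdsWithin_le_nhds
  have hle : ∀ᶠ w in (W : Filter ℝ), w < 1 := hW0.eventually_lt_const one_pos
  have hex : ∀ w : ℝ, ∃ m : ℕ, 0 < w → w ≤ 1 →
      (1 / 2 : ℝ) ^ (m + 1) < w ∧ w ≤ (1 / 2 : ℝ) ^ m := by
    intro w
    by_cases h : 0 < w ∧ w ≤ 1
    · obtain ⟨m, h1, h2⟩ := exists_nat_pow_near_of_lt_one h.1 h.2
        (by norm_num : (0:ℝ) < 1 / 2) (by norm_num)
      exact ⟨m, fun _ _ => ⟨h1, h2⟩⟩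
    · exact ⟨0, fun h1 h2 => absurd ⟨h1, h2⟩ h⟩
  choose mf hmf using hex
  have hm : ∀ᶠ w in (W : Filter ℝ), (1 / 2 : ℝ) ^ (mf w + 1) < w ∧ w ≤ (1 / 2 : ℝ) ^ (mf w) := by
    filter_upwards [hpos, hle] with w h1 h2
    exact hmf w h1 h2.le
  have hmt : Tendsto mf W atTop := by
    rw [tendsto_atTop]
    intro N
    have h1 : ∀ᶠ w in (W : Filter ℝ), w < (1 / 2 : ℝ) ^ N := hW0.eventually_lt_const (hd_pos N)
    filter_upwards [hm, h1] with w h2 h3
    by_contra hc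
    have h4 : mf w + 1 ≤ N := by omega
    have : (1 / 2 : ℝ) ^ N ≤ (1 / 2 : ℝ) ^ (mf w + 1) :=
      pow_le_pow_of_le_one (by norm_num) (by norm_num) h4
    linarith [h2.1]
  -- the ratio
  have hlam : ∀ᶠ w in (W : Filter ℝ), w / (1 / 2 : ℝ) ^ (mf w) ∈ Icc (1 / 2 : ℝ) 1 := by
    filter_upwards [hm] with w h2
    have := hd_pos (mf w)
    constructor
    · rw [le_div_iff₀ this]
      have := h2.1
      rw [pow_succ] at this
      linarith
    · rw [div_le_one this]; exact h2.2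
  obtain ⟨lam, hlamI, hlamT⟩ : ∃ lam ∈ Icc (1 / 2 : ℝ) 1,
      Tendsto (fun w : ℝ => w / (1 / 2 : ℝ) ^ (mf w)) W (𝓝 lam) := by
    have hc : IsCompact (Icc (1 / 2 : ℝ) 1) := isCompact_Icc
    have h1 : (↑(W.map fun w : ℝ => w / (1 / 2 : ℝ) ^ (mf w)) : Filter ℝ) ≤
        𝓟 (Icc (1 / 2 : ℝ) 1) := by
      rw [le_principal_iff]; exact hlam
    obtain ⟨x, hx1, hx2⟩ := hc.ultrafilter_le_nhds _ h1
    exact ⟨x, hx1, hx2⟩
  have hlam0 : 0 < lam := by have := hlamI.1; linarith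
  set U : Ultrafilter ℕ := W.map mf with hUdef
  have hU : (U : Filter ℕ) ≤ atTop := hmt
  obtain ⟨f, hf⟩ := exists_BU (p0 := p0) (s := fun m : ℕ => (1 / 2 : ℝ) ^ m) U hlip
    (Filter.Eventually.of_forall hd_pos)
  obtain ⟨g3, g40, g42⟩ := HG U hU f hf
  -- the blow-up along W in terms of the dyadic one
  have hgf : ∀ z, g z = (1 / lam) * f (lam • z) := by
    intro z
    have h1 : Tendsto (fun w : ℝ => (ν (p0 + (1 / 2 : ℝ) ^ (mf w) • (lam • z)) - ν p0) /
        (1 / 2 : ℝ) ^ (mf w)) W (𝓝 (f (lam • z))) := (hf (lam • z))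
    have h2 := conv_var (s := fun w : ℝ => (1 / 2 : ℝ) ^ (mf w)) hlip
      (Filter.Eventually.of_forall fun w => hd_pos (mf w))
      (C := fun w : ℝ => (w / (1 / 2 : ℝ) ^ (mf w)) • z) (hlamT.smul_const z) h1
    have h3 := (hlamT.inv₀ hlam0.ne').mul h2
    have h4 := hg z
    simp only [id] at h4
    have h5 : Tendsto (fun w : ℝ => (ν (p0 + w • z) - ν p0) / w) W
        (𝓝 (lam⁻¹ * f (lam • z))) := by
      refine h3.congr' ?_
      filter_upwards [hpos] with w hw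
      have hh := (hd_pos (mf w)).ne'
      rw [smul_smul]
      have e1 : (1 / 2 : ℝ) ^ (mf w) * (w / (1 / 2 : ℝ) ^ (mf w)) = w := by field_simp
      rw [e1]
      field_simp
    rw [one_div]
    exact tendsto_nhds_unique h4 h5
  exact ⟨good3_scale hlam0 hgf g3, good4_scale hlam0 hgf g40, good4_scale hlam0 hgf g42⟩

/-- generic points -/
def GP (ν : V6 → ℝ) (p0 : V6) : Prop :=
  ∀ W : Ultrafilter ℝ, (W : Filter ℝ) ≤ 𝓝[>] 0 → ∀ g, BU ν p0 W id g →
    Good3 g ∧ Good4 g 0 ∧ Good4 g 2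

/-- differences of increments which vanish for all blow-ups tend to zero -/
theorem diff_zero (hlip : ∀ p q, |ν p - ν q| ≤ K * ‖p - q‖) {c c' d : V6}
    {C C' D : ℝ → V6} (hC : Tendsto C (𝓝[>] 0) (𝓝 c)) (hC' : Tendsto C' (𝓝[>] 0) (𝓝 c'))
    (hD : Tendsto D (𝓝[>] 0) (𝓝 d))
    (h : ∀ W : Ultrafilter ℝ, (W : Filter ℝ) ≤ 𝓝[>] 0 → ∀ g, BU ν p0 W id g →
      Inc g d c = Inc g d c') :
    Tendsto (fun w => (Inc ν (w • D w) (p0 + w • C w) - Inc ν (w • D w) (p0 + w • C' w)) / w)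
      (𝓝[>] 0) (𝓝 0) := by
  rw [tendsto_iff_ultrafilter]
  intro W hW
  have hpos : ∀ᶠ w in (W : Filter ℝ), 0 < id w := hW self_mem_nhdsWithin
  obtain ⟨g, hg⟩ := exists_BU (p0 := p0) (s := id) W hlip hpos
  have h1 := hg.inc hlip hpos (hC.mono_left hW) (hD.mono_left hW)
  have h2 := hg.inc hlip hpos (hC'.mono_left hW) (hD.mono_left hW)
  have h3 := h1.sub h2
  rw [h W hW g hg, sub_self] at h3
  refine h3.congr fun w => ?_
  simp only [id]
  rw [sub_div]

theorem smul_e_mem {i : Fin 6} (hi : i = 0 ∨ i = 2) {θ u : ℝ} (hu : 1 ≤ u) {s : ℝ}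
    (hs : |s| ≤ 1) : X 0 0 θ + w45 u u + s • e i ∈ LEG := by
  have := abs_le.1 hs
  rcases hi with rfl | rfl <;> (refine mem_LEG ?_ ?_ ?_ ?_ <;> co6 <;> linarith)

/-- the defects of the directions `0, 2` are small at generic points -/
theorem GP.d1 {α β t : ℝ} (h : GP ν (X α β t)) (hlip : ∀ p q, |ν p - ν q| ≤ K * ‖p - q‖)
    {i : Fin 6} (hi : i = 0 ∨ i = 2) (θ : ℝ) :
    Tendsto (fun w => d1 ν α β i w (t + θ * w) / w) (𝓝[>] 0) (𝓝 0) := by
  have hG4 : ∀ W : Ultrafilter ℝ, (W : Filter ℝ) ≤ 𝓝[>] 0 → ∀ g, BU ν (X α β t) W id g →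
      Good4 g i := by
    intro W hW g hg
    rcases hi with rfl | rfl
    · exact (h W hW g hg).2.1
    · exact (h W hW g hg).2.2
  have hei : (e i : V6) i = 1 := by simp [e]
  have key := diff_zero (p0 := X α β t) hlip (c := X 0 0 θ + w45 1 1)
    (c' := X 0 0 θ + w45 1 1 + (X 0 0 1 + (-1 : ℝ) • e i)) (d := e i)
    (tendsto_const_nhds (x := X 0 0 θ + w45 1 1))
    (tendsto_const_nhds (x := X 0 0 θ + w45 1 1 + (X 0 0 1 + (-1 : ℝ) • e i)))
    (tendsto_const_nhds (x := e i)) (by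
      intro W hW g hg
      have := hG4 W hW g hg (X 0 0 θ + w45 1 1) (LEG_add (X_mem_LEG _ _ _)
        (w45_mem_LEG zero_le_one zero_le_one)) (X 0 0 θ + w45 1 1 + (X 0 0 1 + (-1 : ℝ) • e i))
        (by
          have := smul_e_mem hi (θ := θ + 1) (u := 1) le_rfl (s := -1) (by norm_num)
          have e1 : X 0 0 θ + w45 1 1 + (X 0 0 1 + (-1 : ℝ) • e i) =
              X 0 0 (θ + 1) + w45 1 1 + (-1 : ℝ) • e i := by
            rw [← add_assoc, add_right_comm (X 0 0 θ), X_add, add_zero]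
          rw [e1]; exact this)
        (by
          rw [Pi.add_apply (X 0 0 θ + w45 1 1), Pi.add_apply (X 0 0 1), Pi.smul_apply, hei]
          rcases hi with rfl | rfl <;> co6 <;> simp) 1 zero_le_one
        (smul_e_mem hi le_rfl (by norm_num))
        (by
          have e1 : X 0 0 θ + w45 1 1 + (X 0 0 1 + (-1 : ℝ) • e i) + (1 : ℝ) • e i =
              X 0 0 (θ + 1) + w45 1 1 := by
            rw [← add_assoc, add_assoc, ← add_smul, neg_add_cancel, zero_smul, add_zero,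
              add_right_comm, X_add, add_zero]
          rw [e1]
          exact LEG_add (X_mem_LEG _ _ _) (w45_mem_LEG zero_le_one zero_le_one))
      rwa [one_smul] at this)
  refine key.congr fun w => ?_
  unfold Dl848.d1
  have e1 : X α β t + w • (X 0 0 θ + w45 1 1) = X α β (t + θ * w) + w45 w w := by
    rw [smul_add, X_smul, w45_smul, ← add_assoc, X_add]
    congr 2 <;> ring
  have e2 : X α β t + w • (X 0 0 θ + w45 1 1 + (X 0 0 1 + (-1 : ℝ) • e i)) =
      X α β (t + θ * w) + w45 w w + (X 0 0 w + (-w) • e i) := by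
    rw [smul_add, ← add_assoc, e1, smul_add, X_smul, smul_smul]
    congr 3 <;> ring
  rw [e1, e2]

theorem GP.d2 {α β t : ℝ} (h : GP ν (X α β t)) (hlip : ∀ p q, |ν p - ν q| ≤ K * ‖p - q‖)
    (θ : ℝ) : Tendsto (fun w => d2 ν α β w (t + θ * w) / w) (𝓝[>] 0) (𝓝 0) := by
  have key := diff_zero (p0 := X α β t) hlip (c := X 0 0 θ)
    (c' := X 0 0 (θ + 1)) (d := w45 1 1)
    (tendsto_const_nhds (x := X 0 0 θ)) (tendsto_const_nhds (x := X 0 0 (θ + 1)))
    (tendsto_const_nhds (x := w45 1 1)) (by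
      intro W hW g hg
      exact (h W hW g hg).1 (X 0 0 θ) (X_mem_LEG _ _ _) (X 0 0 (θ + 1)) (X_mem_LEG _ _ _) rfl rfl
        1 1 zero_le_one zero_le_one)
  refine key.congr fun w => ?_
  unfold Dl848.d2
  have e1 : X α β t + w • (X 0 0 θ) = X α β (t + θ * w) := by
    rw [X_smul, X_add]
    congr 1 <;> ring
  have e2 : X α β t + w • (X 0 0 (θ + 1)) = X α β (t + θ * w + w) := by
    rw [X_smul, X_add]
    congr 1 <;> ring
  rw [e1, e2, w45_smul, mul_one]

theorem tendsto_id_pos : Tendsto (fun w : ℝ => w) (𝓝[>] 0) (𝓝 0) :=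
  tendsto_id.mono_left nhdsWithin_le_nhds

theorem GP.dJ {a b : ℝ → ℝ} {τ t x y Λ : ℝ} (h : GP ν (X (a τ) (b τ) t))
    (hlip : ∀ p q, |ν p - ν q| ≤ K * ‖p - q‖) (hΛ : 0 ≤ Λ) (hx : HasDerivAt a x τ)
    (hy : HasDerivAt b y τ) (u : ℝ) :
    Tendsto (fun w => dJ ν a b Λ t w (τ + u * w) / w) (𝓝[>] 0) (𝓝 0) := by
  have hs : ∀ᶠ w : ℝ in 𝓝[>] 0, 0 < w := self_mem_nhdsWithin
  have ha := slope_conv hs tendsto_id_pos hx u
  have hb := slope_conv hs tendsto_id_pos hy u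
  have key := diff_zero (p0 := X (a τ) (b τ) t) hlip (c := X (x * u) (y * u) 0)
    (c' := X (x * u) (y * u) (2 * Λ)) (d := w45 Λ Λ)
    (tendsto_X ha hb tendsto_const_nhds) (tendsto_X ha hb tendsto_const_nhds)
    (tendsto_const_nhds (x := w45 Λ Λ)) (by
      intro W hW g hg
      exact (h W hW g hg).1 (X (x * u) (y * u) 0) (X_mem_LEG _ _ _)
        (X (x * u) (y * u) (2 * Λ)) (X_mem_LEG _ _ _) rfl rfl Λ Λ hΛ hΛ)
  refine key.congr' ?_
  filter_upwards [hs] with w hw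
  unfold Dl848.dJ
  have e1 : ∀ v : ℝ, X (a τ) (b τ) t + w • (X ((a (τ + u * w) - a τ) / w)
      ((b (τ + u * w) - b τ) / w) v) = X (a (τ + u * w)) (b (τ + u * w)) (t + w * v) := by
    intro v
    have hne := hw.ne'
    have f1 : w * ((a (τ + u * w) - a τ) / w) = a (τ + u * w) - a τ := by field_simp
    have f2 : w * ((b (τ + u * w) - b τ) / w) = b (τ + u * w) - b τ := by field_simp
    rw [X_smul, X_add, f1, f2]
    congr 1 <;> ring
  rw [e1, e1, w45_smul, mul_zero, add_zero, mul_comm w Λ]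
  congr 3
  ring_nf

end

end Crest.Agent.R138.Dl848
end

-- ▼ part R138/Dl11_848
section

/-!
# R138: decoupling on the legal region, tangents at generic points (helper848)
-/

set_option autoImplicit false

open MeasureTheory Filter Topology Set
open scoped ENNReal

namespace Crest.Agent.R138.Dl848

/-- the profile along the natural surface -/
def PP (ν : V6 → ℝ) (a b : ℝ → ℝ) (z : ℝ × ℝ) : ℝ := ν (X (a z.1) (b z.1) z.2)

/-- the rate in the direction `i` -/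
def RateI (ν : V6 → ℝ) (α β t : ℝ) (i : Fin 6) (ρ : ℝ) : Prop :=
  Tendsto (fun w => Inc ν (w • e i) (X α β t + w45 w w) / w) (𝓝[>] 0) (𝓝 ρ) ∧
  Tendsto (fun w => Inc ν (w • e i) (X α β (t - w) + w45 w w) / w) (𝓝[>] 0) (𝓝 ρ)

/-- the natural `(4,5)`-rate -/
def RateJ (ν : V6 → ℝ) (a b : ℝ → ℝ) (τ t ρ : ℝ) : Prop :=
  Tendsto (fun w => mJ ν a b t w τ / w) (𝓝[>] 0) (𝓝 ρ) ∧
  Tendsto (fun w => mJ ν a b t w (τ - w) / w) (𝓝[>] 0) (𝓝 ρ)

section

variable {ν : V6 → ℝ} {K : ℝ} {a b : ℝ → ℝ} {τ t x y r0 r2 J : ℝ}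

theorem mul_tendsto {s : ℝ} (hs : 0 < s) : Tendsto (fun w : ℝ => s * w) (𝓝[>] 0) (𝓝[>] 0) := by
  apply tendsto_nhdsWithin_iff.2
  constructor
  · have := tendsto_id_pos.const_mul s
    rwa [mul_zero] at this
  · filter_upwards [self_mem_nhdsWithin] with w hw
    have : (0:ℝ) < w := hw
    exact mul_pos hs this

theorem rate_transfer {F : ℝ → ℝ} {ρ s : ℝ} (hs : 0 < s)
    (hF : Tendsto (fun w => F w / w) (𝓝[>] 0) (𝓝 ρ)) :
    Tendsto (fun w => F (s * w) / w) (𝓝[>] 0) (𝓝 (ρ * s)) := by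
  have := (hF.comp (mul_tendsto hs)).mul_const s
  refine this.congr' ?_
  filter_upwards [self_mem_nhdsWithin] with w hw
  have h1 : (0:ℝ) < w := hw
  simp only [Function.comp]
  field_simp

/-- all blow-ups at a generic point satisfy the relations `Lim` -/
theorem lim_of_rates (hlip : ∀ p q, |ν p - ν q| ≤ K * ‖p - q‖) (hGP : GP ν (X (a τ) (b τ) t))
    (hx : HasDerivAt a x τ) (hy : HasDerivAt b y τ) {L : ℝ × ℝ →L[ℝ] ℝ}
    (hP : HasFDerivAt (PP ν a b) L (τ, t)) (h0 : RateI ν (a τ) (b τ) t 0 r0)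
    (h2 : RateI ν (a τ) (b τ) t 2 r2) (hJ : RateJ ν a b τ t J) {W : Ultrafilter ℝ}
    (hW : (W : Filter ℝ) ≤ 𝓝[>] 0) {g : V6 → ℝ} (hg : BU ν (X (a τ) (b τ) t) W id g) :
    Lim g x y (L (1, 0)) (L (0, 1)) r0 r2 J := by
  have hpos : ∀ᶠ w in (W : Filter ℝ), 0 < id w := hW self_mem_nhdsWithin
  have hpos' : ∀ᶠ w in (W : Filter ℝ), 0 < w := hpos
  have hW0 : Tendsto (fun w : ℝ => w) W (𝓝 0) := tendsto_id_pos.mono_left hW
  obtain ⟨g3, g40, g42⟩ := hGP W hW g hg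
  set p0 := X (a τ) (b τ) t with hp0
  -- rates
  have ratei : ∀ (i : Fin 6) (ρ : ℝ), RateI ν (a τ) (b τ) t i ρ → ∀ s : ℝ, 0 < s →
      Inc g (s • e i) (w45 s s) = ρ * s ∧
      Inc g (s • e i) (X 0 0 (-s) + w45 s s) = ρ * s := by
    intro i ρ hρ s hs
    constructor
    · have h3 := (rate_transfer hs hρ.1).mono_left hW
      have h4 := hg.inc hlip hpos (tendsto_const_nhds (x := w45 s s))
        (tendsto_const_nhds (x := s • e i))
      refine tendsto_nhds_unique (h4.congr fun w => ?_) h3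
      simp only [id]
      rw [w45_smul, smul_smul, mul_comm w s]
    · have h3 := (rate_transfer hs hρ.2).mono_left hW
      have h4 := hg.inc hlip hpos (tendsto_const_nhds (x := X 0 0 (-s) + w45 s s))
        (tendsto_const_nhds (x := s • e i))
      refine tendsto_nhds_unique (h4.congr fun w => ?_) h3
      simp only [id]
      rw [smul_add, X_smul, w45_smul, smul_smul, mul_comm w s, ← add_assoc, hp0, X_add, mul_zero,
        add_zero, add_zero]
      congr 4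
      ring
  refine ⟨hg.zero, g3, g40, g42, ?_, fun s hs => (ratei 0 r0 h0 s hs).1,
    fun s hs => (ratei 0 r0 h0 s hs).2, fun s hs => (ratei 2 r2 h2 s hs).1,
    fun s hs => (ratei 2 r2 h2 s hs).2, ?_, ?_⟩
  · -- derivative of the profile
    intro u v
    have ha := slope_conv hpos' hW0 hx u
    have hb := slope_conv hpos' hW0 hy u
    have h1 := conv_var (s := id) hlip hpos (C := fun w : ℝ => X ((a (τ + u * w) - a τ) / w)
      ((b (τ + u * w) - b τ) / w) v) (tendsto_X ha hb tendsto_const_nhds) (hg (T x y u v))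
    have h2 : Tendsto (fun w : ℝ => (PP ν a b ((τ, t) + w • (u, v)) - PP ν a b (τ, t)) / w) W
        (𝓝 (L (u, v))) := by
      have h3 := hP.hasLineDerivAt (u, v)
      have h4 := hasDerivAt_iff_tendsto_slope_zero.1 h3
      have h5 : Tendsto (fun w : ℝ => w) W (𝓝[≠] 0) := by
        apply tendsto_nhdsWithin_iff.2
        refine ⟨hW0, ?_⟩
        filter_upwards [hpos'] with w hw
        exact hw.ne'
      refine (h4.comp h5).congr fun w => ?_
      simp only [Function.comp, zero_add, zero_smul, add_zero, smul_eq_mul]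
      rw [div_eq_inv_mul]
    have h3 : L (u, v) = u * L (1, 0) + v * L (0, 1) := by
      have : ((u, v) : ℝ × ℝ) = u • (1, 0) + v • (0, 1) := by
        ext <;> simp
      rw [this, map_add, map_smul, map_smul, smul_eq_mul, smul_eq_mul]
    rw [← h3]
    refine tendsto_nhds_unique h1 (h2.congr' ?_)
    filter_upwards [hpos'] with w hw
    have hne := hw.ne'
    simp only [id]
    have f1 : w * ((a (τ + u * w) - a τ) / w) = a (τ + u * w) - a τ := by field_simp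
    have f2 : w * ((b (τ + u * w) - b τ) / w) = b (τ + u * w) - b τ := by field_simp
    rw [X_smul, f1, f2, hp0, X_add]
    unfold PP
    simp only [Prod.smul_mk, Prod.mk_add_mk, smul_eq_mul]
    rw [mul_comm w u]
    congr 3
    ring_nf
  · intro s hs
    have h3 := (rate_transfer hs hJ.1).mono_left hW
    have ha := slope_conv hpos' hW0 hx s
    have hb := slope_conv hpos' hW0 hy s
    have h4 := hg.inc hlip hpos (tendsto_const_nhds (x := (0 : V6))) (tendsto_w45 ha hb)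
    refine tendsto_nhds_unique (h4.congr' ?_) h3
    filter_upwards [hpos'] with w hw
    have hne := hw.ne'
    simp only [id]
    have f1 : w * ((a (τ + s * w) - a τ) / w) = a (τ + s * w) - a τ := by field_simp
    have f2 : w * ((b (τ + s * w) - b τ) / w) = b (τ + s * w) - b τ := by field_simp
    rw [w45_smul, f1, f2, smul_zero, add_zero]
    rfl
  · intro s hs
    have h3 := (rate_transfer (F := fun w => mJ ν a b t w (τ - w)) hs hJ.2).mono_left hW
    have ha := slope_conv hpos' hW0 hx (-s)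
    have hb := slope_conv hpos' hW0 hy (-s)
    have h4 := hg.inc hlip hpos (tendsto_X ha hb (tendsto_const_nhds (x := (0:ℝ))))
      (tendsto_w45 ha.neg hb.neg)
    have e1 : -(x * -s) = x * s := by ring
    have e2 : -(y * -s) = y * s := by ring
    rw [e1, e2] at h4
    refine tendsto_nhds_unique (h4.congr' ?_) h3
    filter_upwards [hpos'] with w hw
    have hne := hw.ne'
    simp only [id]
    have f1 : w * ((a (τ + -s * w) - a τ) / w) = a (τ - s * w) - a τ := by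
      rw [neg_mul, ← sub_eq_add_neg]; field_simp
    have f2 : w * ((b (τ + -s * w) - b τ) / w) = b (τ - s * w) - b τ := by
      rw [neg_mul, ← sub_eq_add_neg]; field_simp
    rw [w45_smul, mul_neg, mul_neg, f1, f2, X_smul, f1, f2, hp0, X_add]
    unfold mJ
    rw [sub_add_cancel, neg_sub, neg_sub]
    congr 3 <;> ring

/-- the function of the coordinates `1, 3` at scale `h` -/
noncomputable def bt (ν : V6 → ℝ) (p0 : V6) (R h u v : ℝ) : ℝ :=
  (ν (p0 + h • w45 R R) - ν (p0 + h • ![0, u, 0, v, R, R])) / h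




/-- **the tangent at a generic point of the natural surface** -/
structure Tan (ν : V6 → ℝ) (p0 : V6) (x y Pτ Pt r0 r2 J : ℝ) : Prop where
  A : ∀ M R ε : ℝ, 2 * M ≤ R → 0 < ε → ∀ᶠ h in 𝓝[>] (0:ℝ), ∀ c ∈ LEG, ∀ c' ∈ LEG,
    (∀ i, |c i| ≤ M) → (∀ i, |c' i| ≤ M) → c 4 = c' 4 → c 5 = c' 5 →
    |ν (p0 + h • c) - ν (p0 + h • c') + h * (r0 * (c 0 - c' 0) + r2 * (c 2 - c' 2)
      + bt ν p0 R h (c 1) (c 3) - bt ν p0 R h (c' 1) (c' 3))| ≤ ε * h
  B : ∀ M R ε : ℝ, 2 * M ≤ R → 0 < ε → ∀ᶠ h in 𝓝[>] (0:ℝ), ∀ v, |v| ≤ M →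
    |bt ν p0 R h v v + (Pt + r0 + r2) * v| ≤ ε
  C : x ≠ y → ∀ r1 r3 : ℝ, r1 + r3 = -(Pt + r0 + r2) →
    y * r1 + x * r3 = -(Pτ + J + r0 * (x + y)) → ∀ M R ε : ℝ, 2 * M ≤ R → 0 < ε →
    ∀ᶠ h in 𝓝[>] (0:ℝ), ∀ u v, |u| ≤ M → |v| ≤ M →
    |bt ν p0 R h u v - (r1 * u + r3 * v)| ≤ ε
  D : ∀ M ε : ℝ, 0 < ε → ∀ᶠ h in 𝓝[>] (0:ℝ), ∀ u v, |u| ≤ M → |v| ≤ M →
    |ν (p0 + h • T x y u v) - ν p0 - h * (u * Pτ + v * Pt)| ≤ ε * h







end

end Crest.Agent.R138.Dl848
end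

-- ▼ part R138/Dl12_848
section

/-!
# R138: decoupling on the legal region, dyadic limits at almost every point (helper848)
-/

set_option autoImplicit false

open MeasureTheory Filter Topology Set
open scoped ENNReal

namespace Crest.Agent.R138.Dl848

open Crest.Agent.R138.Dec848 (Rc measurableSet_Rc vol_Rc)

section

variable {ν : V6 → ℝ} {S : Set V6} {K Λ : ℝ} {a b φ : ℝ → ℝ}

theorem exists_m₀ (C : ℝ) {r : ℝ} (hr : 0 < r) :
    ∃ m₀ : ℕ, ∀ m, m₀ ≤ m → C * (1 / 2 : ℝ) ^ m ≤ r := by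
  have h1 := hd_tendsto.const_mul C
  rw [mul_zero] at h1
  obtain ⟨m₀, hm₀⟩ := eventually_atTop.1 (h1.eventually_lt_const hr)
  exact ⟨m₀, fun m hm => (hm₀ m hm).le⟩

theorem Sf.ae_MJ (h : Sf ν S K Λ a b φ) {r τ₀ τ₁ s₀ s₁ : ℝ} (hr : 0 < r) (hτ : τ₀ ≤ τ₁)
    (hs : s₀ ≤ s₁) (hS : ∀ x ∈ Rc τ₀ τ₁ s₀ s₁, ∀ c ∈ LB r, Y a b φ x + c ∈ S) (n N R : ℕ) :
    ∀ᵐ x ∂(volume.restrict (Rc τ₀ τ₁ s₀ s₁)), Tendsto (fun m : ℕ => (2 : ℝ) ^ m *
      MJ ν a b φ (n * (1 / 2 : ℝ) ^ m) (N * (1 / 2 : ℝ) ^ m) (R * (1 / 2 : ℝ) ^ m) x)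
      atTop (𝓝 0) := by
  obtain ⟨m₀, hm₀⟩ := exists_m₀ (4 * (Λ * n) + N + R) hr
  have hD : ∀ m : ℕ, Λ * |(n : ℝ) * (1 / 2 : ℝ) ^ m| ≤ Λ * n * (1 / 2 : ℝ) ^ m := by
    intro m; rw [abs_of_nonneg (by positivity)]; apply le_of_eq; ring
  have hK := h.K0
  have hτ' : 0 ≤ τ₁ - τ₀ := by linarith
  apply ae_dyadic (measurableSet_Rc _ _ _ _) (fun m => h.meas_MJ _ _ _)
    (K := K * R * (2 * N * (τ₁ - τ₀))) (by positivity) m₀
  · intro m hm x hx
    exact (h.MJ_nonneg (by positivity) (by positivity) (hD m) (hS x hx)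
      (by have := hm₀ m hm; linarith)).2
  · intro m hm
    refine (h.int_MJ (by positivity) (by positivity) (hD m) hτ hs hS
      (by have := hm₀ m hm; linarith)).trans ?_
    apply ENNReal.ofReal_le_ofReal; apply le_of_eq; ring

theorem Sf.ae_VU (h : Sf ν S K Λ a b φ) {i : Fin 6} {δ : ℕ → ℝ} {r τ₀ τ₁ s₀ s₁ : ℝ} (hr : 0 < r)
    (hτ : τ₀ ≤ τ₁) (hs : s₀ ≤ s₁)
    (hS : ∀ x ∈ Rc τ₀ τ₁ s₀ s₁, ∀ c ∈ LB r, Y a b φ x + c ∈ S) {n N R : ℕ}
    (hδ : ∀ m, |δ m| = n * (1 / 2 : ℝ) ^ m) (hc : ∀ m, Case a b φ i (δ m))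
    (hR : Λ * n + 2 * N ≤ R) :
    ∀ᵐ x ∂(volume.restrict (Rc τ₀ τ₁ s₀ s₁)), Tendsto (fun m : ℕ => (2 : ℝ) ^ m *
      (VU ν a b φ i (N * (1 / 2 : ℝ) ^ m) (R * (1 / 2 : ℝ) ^ m) (δ m) x
        - VU ν a b φ i (N * (1 / 2 : ℝ) ^ m) (R * (1 / 2 : ℝ) ^ m) (-(δ m)) x))
      atTop (𝓝 0) := by
  obtain ⟨m₀, hm₀⟩ := exists_m₀ (4 * (Λ * n) + 4 * N + 4 * R) hr
  have hD : ∀ m : ℕ, Λ * |δ m| ≤ Λ * n * (1 / 2 : ℝ) ^ m := by
    intro m; rw [hδ]; apply le_of_eq; ring
  have hK := h.K0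
  have hΛ := h.Λ0
  have hτ' : 0 ≤ τ₁ - τ₀ := by linarith
  have hs' : 0 ≤ s₁ - s₀ := by linarith
  have hR' : ∀ m : ℕ, Λ * n * (1 / 2 : ℝ) ^ m + 2 * (N * (1 / 2 : ℝ) ^ m) ≤
      R * (1 / 2 : ℝ) ^ m := by
    intro m
    have := mul_le_mul_of_nonneg_right hR (hd_pos m).le
    linarith
  apply ae_dyadic (measurableSet_Rc _ _ _ _)
    (fun m => (h.meas_VU _ _ _ _).sub (h.meas_VU _ _ _ _))
    (K := K * (2 * N) * (2 * n * (s₁ - s₀)) + K * (R + Λ * n) * (2 * N * (τ₁ - τ₀)))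
    (by positivity) m₀
  · intro m hm x hx
    exact (h.U_bound (hc m) (by positivity) (hD m) (hS x hx) (hR' m)
      (by have := hm₀ m hm; linarith)).1
  · intro m hm
    refine (h.int_U (hc m) (by positivity) (hD m) hτ hs hS (hR' m)
      (by have := hm₀ m hm; linarith)).trans ?_
    rw [hδ]
    apply ENNReal.ofReal_le_ofReal; apply le_of_eq; ring

theorem ae_of_local {P Q : ℝ × ℝ → Prop}
    (h : ∀ z, P z → ∃ u ∈ 𝓝 z, ∀ᵐ z' ∂(volume.restrict u), Q z') : ∀ᵐ z, P z → Q z := by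
  rw [ae_iff]
  apply measure_null_of_locally_null
  intro z hz
  have hP : P z := by
    by_contra hn
    exact hz fun h' => absurd h' hn
  obtain ⟨u, hu, hae⟩ := h z hP
  refine ⟨{z | ¬ (P z → Q z)} ∩ u, ?_, ?_⟩
  · exact inter_mem self_mem_nhdsWithin (mem_nhdsWithin_of_mem_nhds hu)
  · refine measure_mono_null ?_ (le_antisymm ((Measure.le_restrict_apply u {z | ¬ Q z}).trans
      (le_of_eq (ae_iff.1 hae))) bot_le)
    rintro w ⟨h1, h2⟩
    exact ⟨fun hQ => h1 fun _ => hQ, h2⟩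

/-- points which have a neighbourhood inside `S` -/
def Loc (S : Set V6) (a b : ℝ → ℝ) (z : ℝ × ℝ) : Prop :=
  ∃ r > 0, ∀ z' : ℝ × ℝ, |z'.1 - z.1| ≤ r → |z'.2 - z.2| ≤ r → ∀ c ∈ LB r,
    X (a z'.1) (b z'.1) z'.2 + c ∈ S

theorem Rc_nhds (z : ℝ × ℝ) {r : ℝ} (hr : 0 < r) :
    Rc (z.1 - r) (z.1 + r) (z.2 - r) (z.2 + r) ∈ 𝓝 z := by
  unfold Rc
  exact prod_mem_nhds (Icc_mem_nhds (by linarith) (by linarith))
    (Icc_mem_nhds (by linarith) (by linarith))

theorem Rc_abs {z z' : ℝ × ℝ} {r : ℝ} (h : z' ∈ Rc (z.1 - r) (z.1 + r) (z.2 - r) (z.2 + r)) :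
    |z'.1 - z.1| ≤ r ∧ |z'.2 - z.2| ≤ r := by
  obtain ⟨⟨h1, h2⟩, h3, h4⟩ := h
  exact ⟨abs_le.2 ⟨by linarith, by linarith⟩, abs_le.2 ⟨by linarith, by linarith⟩⟩

/-- the shear -/
theorem mp_shear (hφ : Continuous φ) :
    MeasurePreserving (fun z : ℝ × ℝ => (z.1, z.2 + φ z.1)) volume volume := by
  have := MeasurePreserving.skew_product (MeasurePreserving.id (volume : Measure ℝ))
    (μc := (volume : Measure ℝ)) (μd := (volume : Measure ℝ)) (g := fun x y => y + φ x)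
    (by
      unfold Function.uncurry
      exact Continuous.measurable (by fun_prop))
    (Filter.Eventually.of_forall fun x => map_add_right_eq_self _ _)
  exact this

/-- dyadic limits at almost every point -/
theorem ae_Dy (hν : Pr ν S) (hlip : ∀ p q, |ν p - ν q| ≤ K * ‖p - q‖) (hK : 0 ≤ K)
    (hΛ : 0 ≤ Λ) (ma : Monotone a) (mb : Monotone b)
    (la : ∀ s t, |a s - a t| ≤ Λ * |s - t|) (lb : ∀ s t, |b s - b t| ≤ Λ * |s - t|) :
    ∀ᵐ z : ℝ × ℝ, Loc S a b z → Dy ν a b z.1 z.2 := by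
  have hSf0 : Sf ν S K Λ a b (fun _ => 0) :=
    ⟨hν, hK, hlip, hΛ, ma, mb, la, lb, fun s t => by rw [sub_self, abs_zero]; positivity⟩
  have hSf1 : Sf ν S K Λ a b (fun s => a s + b s) :=
    ⟨hν, hK, hlip, hΛ, ma, mb, la, lb, fun s t => by
      have h1 := abs_le.1 (la s t)
      have h2 := abs_le.1 (lb s t)
      rw [abs_le]; constructor <;> linarith⟩
  have hc := hSf1.cφ
  -- the first two conditions
  have A1 : ∀ᵐ z : ℝ × ℝ, Loc S a b z → ((∀ n N R : ℕ, Tendsto (fun m : ℕ => (2 : ℝ) ^ m *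
      MJ ν a b (fun _ => 0) (n * (1 / 2 : ℝ) ^ m) (N * (1 / 2 : ℝ) ^ m) (R * (1 / 2 : ℝ) ^ m) z)
      atTop (𝓝 0)) ∧ (∀ n N R : ℕ, Λ * n + 2 * N ≤ R → Tendsto (fun m : ℕ => (2 : ℝ) ^ m *
      (VU ν a b (fun _ => 0) 2 (N * (1 / 2 : ℝ) ^ m) (R * (1 / 2 : ℝ) ^ m) (n * (1 / 2 : ℝ) ^ m) z
        - VU ν a b (fun _ => 0) 2 (N * (1 / 2 : ℝ) ^ m) (R * (1 / 2 : ℝ) ^ m)
          (-(n * (1 / 2 : ℝ) ^ m)) z)) atTop (𝓝 0))) := by
    apply ae_of_local
    rintro z ⟨r, hr, hz⟩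
    have hS : ∀ x ∈ Rc (z.1 - r) (z.1 + r) (z.2 - r) (z.2 + r), ∀ c ∈ LB r,
        Y a b (fun _ => 0) x + c ∈ S := by
      intro x hx c hc
      obtain ⟨h1, h2⟩ := Rc_abs hx
      have := hz x h1 h2 c hc
      rwa [Y, sub_zero]
    refine ⟨_, Rc_nhds z hr, ?_⟩
    have B1 := fun n N R : ℕ => hSf0.ae_MJ hr (by linarith) (by linarith) hS n N R
    have B2 := fun (n N R : ℕ) (hR : Λ * n + 2 * N ≤ R) => hSf0.ae_VU (i := 2)
      (δ := fun m => n * (1 / 2 : ℝ) ^ m) hr (by linarith) (by linarith) hS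
      (fun m => abs_of_nonneg (by positivity))
      (fun m => Or.inl ⟨rfl, fun _ => rfl, by positivity⟩) hR
    have C1 := ae_all_iff.2 fun n => ae_all_iff.2 fun N => ae_all_iff.2 fun R => B1 n N R
    have C2 := ae_all_iff.2 fun n => ae_all_iff.2 fun N => ae_all_iff.2 fun R =>
      ae_all_iff.2 fun hR => B2 n N R hR
    filter_upwards [C1, C2] with x h1 h2
    exact ⟨h1, h2⟩
  -- the last condition
  have A2 : ∀ᵐ z : ℝ × ℝ, Loc S a b z → ∀ n N R : ℕ, Λ * n + 2 * N ≤ R →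
      Tendsto (fun m : ℕ => (2 : ℝ) ^ m *
      (VU ν a b (fun s => a s + b s) 0 (N * (1 / 2 : ℝ) ^ m) (R * (1 / 2 : ℝ) ^ m)
        (-(n * (1 / 2 : ℝ) ^ m)) (z.1, z.2 + (a z.1 + b z.1))
      - VU ν a b (fun s => a s + b s) 0 (N * (1 / 2 : ℝ) ^ m) (R * (1 / 2 : ℝ) ^ m)
        (-(-(n * (1 / 2 : ℝ) ^ m))) (z.1, z.2 + (a z.1 + b z.1)))) atTop (𝓝 0) := by
    apply ae_of_local
    rintro z ⟨r, hr, hz⟩
    set w : ℝ × ℝ := (z.1, z.2 + (a z.1 + b z.1)) with hw
    set ρ := r / (1 + 2 * Λ) with hρ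
    have hρ0 : 0 < ρ := by positivity
    have hρr : ρ + 2 * Λ * ρ = r := by rw [hρ]; field_simp
    have hρr' : ρ ≤ r := by have : 0 ≤ 2 * Λ * ρ := by positivity
                            linarith
    have hS : ∀ x ∈ Rc (w.1 - ρ) (w.1 + ρ) (w.2 - ρ) (w.2 + ρ), ∀ c ∈ LB r,
        Y a b (fun s => a s + b s) x + c ∈ S := by
      intro x hx c hc
      obtain ⟨h1, h2⟩ := Rc_abs hx
      have h3 := abs_le.1 (la x.1 z.1)
      have h4 := abs_le.1 (lb x.1 z.1)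
      have h5 : Λ * |x.1 - z.1| ≤ Λ * ρ := mul_le_mul_of_nonneg_left h1 hΛ
      have h6 := abs_le.1 h2
      simp only [hw] at h6
      refine hz (x.1, x.2 - (a x.1 + b x.1)) (h1.trans hρr') ?_ c hc
      rw [abs_le]
      constructor <;> simp only <;> linarith
    have B2 := fun (n N R : ℕ) (hR : Λ * n + 2 * N ≤ R) => hSf1.ae_VU (i := 0)
      (δ := fun m => -(n * (1 / 2 : ℝ) ^ m)) hr (by linarith) (by linarith) hS
      (fun m => by rw [abs_neg]; exact abs_of_nonneg (by positivity))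
      (fun m => Or.inr ⟨rfl, fun _ => rfl, neg_nonpos.2 (by positivity)⟩) hR
    have C2 := ae_all_iff.2 fun n => ae_all_iff.2 fun N => ae_all_iff.2 fun R =>
      ae_all_iff.2 fun hR => B2 n N R hR
    have hmp := (mp_shear hc).restrict_preimage
      (measurableSet_Rc (w.1 - ρ) (w.1 + ρ) (w.2 - ρ) (w.2 + ρ))
    refine ⟨_, ?_, hmp.quasiMeasurePreserving.ae C2⟩
    have hcont : Continuous fun z : ℝ × ℝ => (z.1, z.2 + (a z.1 + b z.1)) := by
      have ca := hSf1.ca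
      have cb := hSf1.cb
      fun_prop
    exact hcont.continuousAt.preimage_mem_nhds (Rc_nhds w hρ0)
  filter_upwards [A1, A2] with z h1 h2 hz
  obtain ⟨h3, h4⟩ := h1 hz
  exact ⟨h3, fun n N => ⟨Λ * n + 2 * N, fun R hR => h4 n N R hR⟩,
    fun n N => ⟨Λ * n + 2 * N, fun R hR => h2 hz n N R hR⟩⟩

/-- almost every point with good derivatives is generic -/
theorem ae_GP (hν : Pr ν S) (hlip : ∀ p q, |ν p - ν q| ≤ K * ‖p - q‖) (hK : 0 ≤ K)
    (hΛ : 0 ≤ Λ) (ma : Monotone a) (mb : Monotone b)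
    (la : ∀ s t, |a s - a t| ≤ Λ * |s - t|) (lb : ∀ s t, |b s - b t| ≤ Λ * |s - t|) :
    ∀ᵐ z : ℝ × ℝ, Loc S a b z → ∀ x y : ℝ, 0 < x → 0 < y → HasDerivAt a x z.1 →
      HasDerivAt b y z.1 → GP ν (X (a z.1) (b z.1) z.2) := by
  filter_upwards [ae_Dy hν hlip hK hΛ ma mb la lb] with z hz hL x y hx hy ha hb
  obtain ⟨r, hr, hS⟩ := hL
  intro W hW g hg
  refine good_real hlip (fun U hU f hf => ?_) hW hg
  exact (hz ⟨r, hr, hS⟩).good hν hlip ha hb hx hy hr
    (hS z (by rw [sub_self, abs_zero]; exact hr.le) (by rw [sub_self, abs_zero]; exact hr.le))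
    hU hf

end

end Crest.Agent.R138.Dl848
end

-- ▼ part R138/Dl13_848
section

/-!
# R138: decoupling on the legal region, rates at almost every point (helper848)
-/

set_option autoImplicit false

open MeasureTheory Filter Topology Set
open scoped ENNReal

namespace Crest.Agent.R138.Dl848

/-- limits along the positive rationals -/
theorem tendsto_rat {f : ℝ → ℝ} (hf : ContinuousOn f (Ioi 0)) {ρ : ℝ} :
    Tendsto f (𝓝[>] 0) (𝓝 ρ) ↔
      Tendsto (fun q : ℚ => f q) (comap (fun q : ℚ => (q : ℝ)) (𝓝[>] 0)) (𝓝 ρ) := by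
  constructor
  · intro h
    exact h.comp tendsto_comap
  · intro h
    rw [(closed_nhds_basis ρ).tendsto_right_iff]
    rintro V ⟨hV, hVc⟩
    obtain ⟨U, hU, hUV⟩ := mem_comap.1 (h hV)
    obtain ⟨ε, hε, hεU⟩ := mem_nhdsGT_iff_exists_Ioo_subset.1 hU
    filter_upwards [Ioo_mem_nhdsGT hε] with w hw
    by_contra hn
    have hopen : IsOpen (Ioo 0 ε ∩ f ⁻¹' Vᶜ) :=
      (hf.mono Ioo_subset_Ioi_self).isOpen_inter_preimage isOpen_Ioo hVc.isOpen_compl
    obtain ⟨q, hq⟩ := Rat.denseRange_cast.exists_mem_open hopen ⟨w, hw, hn⟩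
    exact hq.2 (hUV (hεU hq.1))

theorem meas_rate {F G : ℝ → ℝ × ℝ → ℝ} (hF : ∀ w, Measurable (F w)) (hG : ∀ w, Measurable (G w))
    (cF : ∀ z, ContinuousOn (fun w => F w z) (Ioi 0))
    (cG : ∀ z, ContinuousOn (fun w => G w z) (Ioi 0)) :
    MeasurableSet {z | ∃ ρ, Tendsto (fun w => F w z) (𝓝[>] 0) (𝓝 ρ) ∧
      Tendsto (fun w => G w z) (𝓝[>] 0) (𝓝 ρ)} := by
  set l : Filter ℚ := comap (fun q : ℚ => (q : ℝ)) (𝓝[>] 0) with hl
  have h1 : MeasurableSet {z | ∃ ρ, Tendsto (fun q : ℚ => F q z) l (𝓝 ρ)} :=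
    measurableSet_exists_tendsto fun q => hF q
  have h2 : MeasurableSet {z | Tendsto (fun q : ℚ => F q z - G q z) l (𝓝 0)} :=
    measurableSet_tendsto (𝓝 0) fun q => (hF q).sub (hG q)
  have e : {z | ∃ ρ, Tendsto (fun w => F w z) (𝓝[>] 0) (𝓝 ρ) ∧
      Tendsto (fun w => G w z) (𝓝[>] 0) (𝓝 ρ)} =
      {z | ∃ ρ, Tendsto (fun q : ℚ => F q z) l (𝓝 ρ)} ∩
      {z | Tendsto (fun q : ℚ => F q z - G q z) l (𝓝 0)} := by
    ext z
    constructor
    · rintro ⟨ρ, h3, h4⟩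
      have h3' := (tendsto_rat (cF z)).1 h3
      have h4' := (tendsto_rat (cG z)).1 h4
      refine ⟨⟨ρ, h3'⟩, ?_⟩
      have := h3'.sub h4'
      rw [sub_self] at this
      exact this
    · rintro ⟨⟨ρ, h3⟩, h4⟩
      have h4' : Tendsto (fun q : ℚ => F q z - G q z) l (𝓝 0) := h4
      refine ⟨ρ, (tendsto_rat (cF z)).2 h3, (tendsto_rat (cG z)).2 ?_⟩
      have := h3.sub h4'
      simpa using this
  rw [e]
  exact h1.inter h2

theorem ae_of_local' {α : Type*} [TopologicalSpace α] [SecondCountableTopology α]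
    [MeasurableSpace α] {μ : Measure α} {P Q : α → Prop}
    (h : ∀ z, P z → ∃ u ∈ 𝓝 z, ∀ᵐ z' ∂(μ.restrict u), Q z') : ∀ᵐ z ∂μ, P z → Q z := by
  rw [ae_iff]
  apply measure_null_of_locally_null
  intro z hz
  have hP : P z := by
    by_contra hn
    exact hz fun h' => absurd h' hn
  obtain ⟨u, hu, hae⟩ := h z hP
  refine ⟨{z | ¬ (P z → Q z)} ∩ u, ?_, ?_⟩
  · exact inter_mem self_mem_nhdsWithin (mem_nhdsWithin_of_mem_nhds hu)
  · refine measure_mono_null ?_ (le_antisymm ((Measure.le_restrict_apply u {z | ¬ Q z}).trans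
      (le_of_eq (ae_iff.1 hae))) bot_le)
    rintro w ⟨h1, h2⟩
    exact ⟨fun hQ => h1 fun _ => hQ, h2⟩

/-- from lines to the plane -/
theorem fubini_fst {P D Q : ℝ × ℝ → Prop} (hP : MeasurableSet {z | P z})
    (hQ : MeasurableSet {z | Q z}) (hD : ∀ᵐ z, P z → D z)
    (hline : ∀ τ, ∀ᵐ t, P (τ, t) → D (τ, t) → Q (τ, t)) : ∀ᵐ z, P z → Q z := by
  have hm : MeasurableSet {z | P z → Q z} := by
    have e : {z | P z → Q z} = {z | P z}ᶜ ∪ {z | Q z} := by
      ext z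
      by_cases h : P z <;> simp [h]
    rw [e]
    exact hP.compl.union hQ
  have hD' : ∀ᵐ z ∂((volume : Measure ℝ).prod volume), P z → D z := hD
  have h1 := Measure.ae_ae_of_ae_prod hD'
  have h2 : ∀ᵐ z ∂((volume : Measure ℝ).prod volume), P z → Q z := by
    rw [Measure.ae_prod_iff_ae_ae hm]
    filter_upwards [h1] with τ h3
    filter_upwards [h3, hline τ] with t h4 h5 h6
    exact h5 h6 (h4 h6)
  exact h2

theorem mp_swap : MeasurePreserving (Prod.swap : ℝ × ℝ → ℝ × ℝ) volume volume :=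
  Measure.measurePreserving_swap

theorem fubini_snd {P D Q : ℝ × ℝ → Prop} (hP : MeasurableSet {z | P z})
    (hQ : MeasurableSet {z | Q z}) (hD : ∀ᵐ z, P z → D z)
    (hline : ∀ t, ∀ᵐ τ, P (τ, t) → D (τ, t) → Q (τ, t)) : ∀ᵐ z, P z → Q z := by
  have h1 := fubini_fst (P := fun z => P z.swap) (D := fun z => D z.swap) (Q := fun z => Q z.swap)
    (measurable_swap hP) (measurable_swap hQ) (mp_swap.quasiMeasurePreserving.ae hD) hline
  have h2 := mp_swap.quasiMeasurePreserving.ae h1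
  simpa using h2

section

variable {ν : V6 → ℝ} {S : Set V6} {K Λ : ℝ} {a b : ℝ → ℝ}

theorem cν_of (hlip : ∀ p q, |ν p - ν q| ≤ K * ‖p - q‖) (hK : 0 ≤ K) : Continuous ν := by
  have : LipschitzWith (Real.toNNReal K) ν := by
    apply LipschitzWith.of_dist_le_mul
    intro p q
    rw [Real.coe_toNNReal _ hK, Real.dist_eq, dist_eq_norm]
    exact hlip p q
  exact this.continuous

theorem cont_smul_e {α : Type*} [TopologicalSpace α] {f : α → ℝ} (hf : Continuous f)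
    (i : Fin 6) : Continuous fun x => f x • e i := hf.smul continuous_const

/-- rates on the lines `τ = const` -/
theorem ae_rate_t (hν : Pr ν S) (hlip : ∀ p q, |ν p - ν q| ≤ K * ‖p - q‖) (hK : 0 ≤ K)
    {i : Fin 6} (hi : i = 0 ∨ i = 2) (τ : ℝ) :
    ∀ᵐ t : ℝ, Loc S a b (τ, t) →
      (Tendsto (fun w => (d1 ν (a τ) (b τ) i w t + d2 ν (a τ) (b τ) w t) / w) (𝓝[>] 0) (𝓝 0) →
      Tendsto (fun w => (d1 ν (a τ) (b τ) i w (t - w) + d2 ν (a τ) (b τ) w (t - w)) / w)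
        (𝓝[>] 0) (𝓝 0) → ∃ ρ, RateI ν (a τ) (b τ) t i ρ) := by
  have hc := cν_of hlip hK
  apply ae_of_local'
  rintro t0 ⟨r, hr, hz⟩
  have hS : ∀ u ∈ Icc (t0 - r) (t0 + r), ∀ c ∈ LB r, X (a τ) (b τ) u + c ∈ S := by
    intro u hu c hc
    exact hz (τ, u) (by rw [sub_self, abs_zero]; exact hr.le)
      (abs_le.2 ⟨by linarith [hu.1], by linarith [hu.2]⟩) c hc
  have key := rate_line (m := fun w t => Inc ν (w • e i) (X (a τ) (b τ) t + w45 w w))
    (δ := fun w t => d1 ν (a τ) (b τ) i w t + d2 ν (a τ) (b τ) w t) (C := K) (w₀ := r / 8)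
    (u₀ := t0 - r / 2) (u₁ := t0 + r / 2) hK (by positivity) (by linarith)
    (fun w => by
      refine cont_Inc hc continuous_const ((cont_X continuous_const continuous_const
        continuous_id).add continuous_const))
    (by
      rintro w ⟨hw0, hw⟩ u ⟨hu0, hu1⟩
      have hSu := hS u ⟨by linarith, by linarith⟩
      constructor
      · apply hν.nonneg
        · rw [X_pt']
          exact hSu _ (pt_mem hi (D := 0) (N := 0) (by rw [abs_zero]) (by rw [abs_zero])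
            (by rw [abs_zero]; linarith) (by rw [abs_zero]) hw0.le hw0.le (by linarith)
            (by linarith) (by linarith))
        · rw [X_pt', add_assoc, pt_add]
          exact hSu _ (pt_mem hi (D := 0) (N := w) (by rw [abs_zero]) (by rw [abs_zero])
            (by rw [abs_zero]; linarith) (by rw [zero_add, abs_of_pos hw0]) le_rfl le_rfl
            (by linarith) (by linarith) (by linarith))
        · exact e_nonneg hw0.le i
      · exact (le_abs_self _).trans ((inc_abs hlip _ _).trans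
          (mul_le_mul_of_nonneg_left (norm_smul_e hw0.le i) hK)))
    (by
      rintro w ⟨hw0, hw⟩ u ⟨hu0, hu1⟩ s hs σ hσ n h1 h2
      exact split_t hν hlip hK hi (hS u ⟨by linarith, by linarith⟩) hw0 (by linarith) hs hσ
        h1 h2)
  exact ⟨Ioo (t0 - r / 2) (t0 + r / 2), Ioo_mem_nhds (by linarith) (by linarith), key⟩

/-- rates on the lines `t = const` -/
theorem ae_rate_τ (hν : Pr ν S) (hlip : ∀ p q, |ν p - ν q| ≤ K * ‖p - q‖) (hK : 0 ≤ K)
    (hΛ : 0 ≤ Λ) (ma : Monotone a) (mb : Monotone b)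
    (la : ∀ s t, |a s - a t| ≤ Λ * |s - t|) (lb : ∀ s t, |b s - b t| ≤ Λ * |s - t|) (t : ℝ) :
    ∀ᵐ τ : ℝ, Loc S a b (τ, t) →
      (Tendsto (fun w => dJ ν a b Λ t w τ / w) (𝓝[>] 0) (𝓝 0) →
      Tendsto (fun w => dJ ν a b Λ t w (τ - w) / w) (𝓝[>] 0) (𝓝 0) →
      ∃ ρ, RateJ ν a b τ t ρ) := by
  have hc := cν_of hlip hK
  have ca := cont_of_lip hΛ la
  have cb := cont_of_lip hΛ lb
  apply ae_of_local'
  rintro τ0 ⟨r, hr, hz⟩
  have hS : ∀ u ∈ Icc (τ0 - r) (τ0 + r), ∀ c ∈ LB r, X (a u) (b u) t + c ∈ S := by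
    intro u hu c hc
    exact hz (u, t) (abs_le.2 ⟨by linarith [hu.1], by linarith [hu.2]⟩)
      (by rw [sub_self, abs_zero]; exact hr.le) c hc
  have hw₀ : 0 < r / (8 * (Λ + 1)) := by positivity
  have hw1 : r / (8 * (Λ + 1)) ≤ r / 8 := by
    apply div_le_div_of_nonneg_left hr.le (by norm_num) (by linarith)
  have hw2 : 8 * (Λ * (r / (8 * (Λ + 1)))) ≤ r := by
    have e1 : 8 * (Λ * (r / (8 * (Λ + 1)))) = r * (Λ / (Λ + 1)) := by field_simp
    rw [e1]
    exact mul_le_of_le_one_right hr.le ((div_le_one (by linarith)).2 (by linarith))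
  have inca : ∀ u u', u ≤ u' → 0 ≤ a u' - a u ∧ a u' - a u ≤ Λ * (u' - u) := by
    intro u u' h
    have := la u' u
    rw [abs_of_nonneg (by linarith : 0 ≤ u' - u)] at this
    exact ⟨by linarith [ma h], (le_abs_self _).trans this⟩
  have incb : ∀ u u', u ≤ u' → 0 ≤ b u' - b u ∧ b u' - b u ≤ Λ * (u' - u) := by
    intro u u' h
    have := lb u' u
    rw [abs_of_nonneg (by linarith : 0 ≤ u' - u)] at this
    exact ⟨by linarith [mb h], (le_abs_self _).trans this⟩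
  have key := rate_line (m := fun w τ => mJ ν a b t w τ)
    (δ := fun w τ => dJ ν a b Λ t w τ) (C := K * Λ) (w₀ := r / (8 * (Λ + 1)))
    (u₀ := τ0 - r / 2) (u₁ := τ0 + r / 2) (by positivity) hw₀ (by linarith)
    (fun w => by
      unfold mJ
      refine cont_Inc hc (cont_w45 ?_ ?_) (cont_X ?_ ?_ ?_) <;> fun_prop)
    (by
      rintro w ⟨hw0, hw⟩ u ⟨hu0, hu1⟩
      have hSu := hS u ⟨by linarith, by linarith⟩
      have h3 := inca u (u + w) (by linarith)
      have h4 := incb u (u + w) (by linarith)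
      rw [add_sub_cancel_left] at h3 h4
      have h5 : Λ * w ≤ Λ * (r / (8 * (Λ + 1))) := mul_le_mul_of_nonneg_left hw hΛ
      constructor
      · apply hν.nonneg
        · have := hSu 0 (mem_LB (mem_LEG (by simp) (by simp) (by simp) (by simp))
            (by simpa using hr.le) (by simpa using hr.le) (by simpa using hr.le)
            (by simpa using hr.le) (by simpa using hr.le) (by simpa using hr.le))
          rwa [add_zero] at this
        · apply hSu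
          mm6
        · exact w45_nonneg h3.1 h4.1
      · refine (le_abs_self _).trans ((inc_abs hlip _ _).trans ?_)
        rw [mul_assoc]
        refine mul_le_mul_of_nonneg_left (norm_w45' ?_ ?_) hK
        · rw [abs_of_nonneg h3.1]; exact h3.2
        · rw [abs_of_nonneg h4.1]; exact h4.2)
    (by
      rintro w ⟨hw0, hw⟩ u ⟨hu0, hu1⟩ s hs σ hσ n h1 h2
      have h5 : Λ * w ≤ Λ * (r / (8 * (Λ + 1))) := mul_le_mul_of_nonneg_left hw hΛ
      exact split_J hν hlip hK hΛ ma mb la lb (hS u ⟨by linarith, by linarith⟩) hw0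
        (by linarith) hs hσ h1 h2)
  exact ⟨Ioo (τ0 - r / 2) (τ0 + r / 2), Ioo_mem_nhds (by linarith) (by linarith), key⟩

end

end Crest.Agent.R138.Dl848
end

-- ▼ part R138/Dl14_848
section

/-!
# R138: decoupling on the legal region at almost every natural point (helper848)
-/

set_option autoImplicit false

open MeasureTheory Filter Topology Set
open scoped ENNReal

namespace Crest.Agent.R138.Dl848

/-- points with positive derivatives -/
def Dp (a b : ℝ → ℝ) (τ : ℝ) : Prop :=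
  (DifferentiableAt ℝ a τ ∧ 0 < deriv a τ) ∧ (DifferentiableAt ℝ b τ ∧ 0 < deriv b τ)

section

variable {ν : V6 → ℝ} {S : Set V6} {K Λ : ℝ} {a b : ℝ → ℝ}

theorem meas_Dp (a b : ℝ → ℝ) : MeasurableSet {z : ℝ × ℝ | Dp a b z.1} := by
  have h : ∀ g : ℝ → ℝ, MeasurableSet {τ | DifferentiableAt ℝ g τ ∧ 0 < deriv g τ} := fun g =>
    (measurableSet_of_differentiableAt ℝ g).inter
      (measurableSet_lt measurable_const (measurable_deriv g))
  exact measurable_fst ((h a).inter (h b))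

theorem isOpen_Loc (S : Set V6) (a b : ℝ → ℝ) : IsOpen {z | Loc S a b z} := by
  rw [isOpen_iff_mem_nhds]
  rintro z ⟨r, hr, hz⟩
  filter_upwards [Rc_nhds z (half_pos hr)] with z' hz'
  obtain ⟨h1, h2⟩ := Rc_abs hz'
  refine ⟨r / 2, half_pos hr, fun z'' h3 h4 c hc => hz z'' ?_ ?_ c ⟨hc.1, fun i =>
    (hc.2 i).trans (by linarith)⟩⟩
  · have := abs_add_le (z''.1 - z'.1) (z'.1 - z.1)
    rw [sub_add_sub_cancel] at this
    linarith
  · have := abs_add_le (z''.2 - z'.2) (z'.2 - z.2)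
    rw [sub_add_sub_cancel] at this
    linarith

theorem meas_P (S : Set V6) (a b : ℝ → ℝ) :
    MeasurableSet {z : ℝ × ℝ | Loc S a b z ∧ Dp a b z.1} :=
  (isOpen_Loc S a b).measurableSet.inter (meas_Dp a b)

theorem div_contOn {f : ℝ → ℝ} (hf : Continuous f) : ContinuousOn (fun w => f w / w) (Ioi 0) :=
  hf.continuousOn.div continuousOn_id fun _ hw => ne_of_gt hw

theorem meas_QI (hlip : ∀ p q, |ν p - ν q| ≤ K * ‖p - q‖) (hK : 0 ≤ K)
    (hΛ : 0 ≤ Λ) (la : ∀ s t, |a s - a t| ≤ Λ * |s - t|) (lb : ∀ s t, |b s - b t| ≤ Λ * |s - t|)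
    (i : Fin 6) : MeasurableSet {z : ℝ × ℝ | ∃ ρ, RateI ν (a z.1) (b z.1) z.2 i ρ} := by
  have hc := cν_of hlip hK
  have ca := cont_of_lip hΛ la
  have cb := cont_of_lip hΛ lb
  apply meas_rate (F := fun w z => Inc ν (w • e i) (X (a z.1) (b z.1) z.2 + w45 w w) / w)
    (G := fun w z => Inc ν (w • e i) (X (a z.1) (b z.1) (z.2 - w) + w45 w w) / w)
  · intro w
    refine (Continuous.measurable ?_).div_const w
    refine cont_Inc hc continuous_const ((cont_X ?_ ?_ ?_).add continuous_const) <;> fun_prop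
  · intro w
    refine (Continuous.measurable ?_).div_const w
    refine cont_Inc hc continuous_const ((cont_X ?_ ?_ ?_).add continuous_const) <;> fun_prop
  · intro z
    apply div_contOn
    refine cont_Inc hc (cont_smul_e continuous_id i) (continuous_const.add
      (cont_w45 continuous_id continuous_id))
  · intro z
    apply div_contOn
    refine cont_Inc hc (cont_smul_e continuous_id i) ((cont_X continuous_const continuous_const
      (continuous_const.sub continuous_id)).add (cont_w45 continuous_id continuous_id))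

theorem meas_QJ (hlip : ∀ p q, |ν p - ν q| ≤ K * ‖p - q‖) (hK : 0 ≤ K)
    (hΛ : 0 ≤ Λ) (la : ∀ s t, |a s - a t| ≤ Λ * |s - t|)
    (lb : ∀ s t, |b s - b t| ≤ Λ * |s - t|) :
    MeasurableSet {z : ℝ × ℝ | ∃ ρ, RateJ ν a b z.1 z.2 ρ} := by
  have hc := cν_of hlip hK
  have ca := cont_of_lip hΛ la
  have cb := cont_of_lip hΛ lb
  apply meas_rate (F := fun w z => mJ ν a b z.2 w z.1 / w)
    (G := fun w z => mJ ν a b z.2 w (z.1 - w) / w)
  · intro w
    refine (Continuous.measurable ?_).div_const w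
    unfold mJ
    refine cont_Inc hc (cont_w45 ?_ ?_) (cont_X ?_ ?_ ?_) <;> fun_prop
  · intro w
    refine (Continuous.measurable ?_).div_const w
    unfold mJ
    refine cont_Inc hc (cont_w45 ?_ ?_) (cont_X ?_ ?_ ?_) <;> fun_prop
  · intro z
    apply div_contOn
    unfold mJ
    refine cont_Inc hc (cont_w45 ?_ ?_) (cont_X ?_ ?_ ?_) <;> fun_prop
  · intro z
    apply div_contOn
    unfold mJ
    refine cont_Inc hc (cont_w45 ?_ ?_) (cont_X ?_ ?_ ?_) <;> fun_prop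

theorem ae_rateI (hν : Pr ν S) (hlip : ∀ p q, |ν p - ν q| ≤ K * ‖p - q‖) (hK : 0 ≤ K)
    (hΛ : 0 ≤ Λ) (ma : Monotone a) (mb : Monotone b)
    (la : ∀ s t, |a s - a t| ≤ Λ * |s - t|) (lb : ∀ s t, |b s - b t| ≤ Λ * |s - t|)
    {i : Fin 6} (hi : i = 0 ∨ i = 2) :
    ∀ᵐ z : ℝ × ℝ, (Loc S a b z ∧ Dp a b z.1) → ∃ ρ, RateI ν (a z.1) (b z.1) z.2 i ρ := by
  refine fubini_fst (D := fun z : ℝ × ℝ =>
    Tendsto (fun w => (d1 ν (a z.1) (b z.1) i w z.2 + d2 ν (a z.1) (b z.1) w z.2) / w)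
      (𝓝[>] 0) (𝓝 0) ∧
    Tendsto (fun w => (d1 ν (a z.1) (b z.1) i w (z.2 - w) + d2 ν (a z.1) (b z.1) w (z.2 - w)) / w)
      (𝓝[>] 0) (𝓝 0)) (meas_P S a b) (meas_QI hlip hK hΛ la lb i) ?_ ?_
  · filter_upwards [ae_GP hν hlip hK hΛ ma mb la lb] with z hz h
    have hG := hz h.1 _ _ h.2.1.2 h.2.2.2 h.2.1.1.hasDerivAt h.2.2.1.hasDerivAt
    constructor
    · have := (hG.d1 hlip hi 0).add (hG.d2 hlip 0)
      rw [add_zero] at this
      refine this.congr fun w => ?_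
      rw [zero_mul, add_zero, add_div]
    · have := (hG.d1 hlip hi (-1)).add (hG.d2 hlip (-1))
      rw [add_zero] at this
      refine this.congr fun w => ?_
      rw [neg_one_mul, ← sub_eq_add_neg, add_div]
  · intro τ
    filter_upwards [ae_rate_t (a := a) (b := b) hν hlip hK hi τ] with t ht h1 h2
    exact ht h1.1 h2.1 h2.2

theorem ae_rateJ (hν : Pr ν S) (hlip : ∀ p q, |ν p - ν q| ≤ K * ‖p - q‖) (hK : 0 ≤ K)
    (hΛ : 0 ≤ Λ) (ma : Monotone a) (mb : Monotone b)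
    (la : ∀ s t, |a s - a t| ≤ Λ * |s - t|) (lb : ∀ s t, |b s - b t| ≤ Λ * |s - t|) :
    ∀ᵐ z : ℝ × ℝ, (Loc S a b z ∧ Dp a b z.1) → ∃ ρ, RateJ ν a b z.1 z.2 ρ := by
  refine fubini_snd (D := fun z : ℝ × ℝ =>
    Tendsto (fun w => dJ ν a b Λ z.2 w z.1 / w) (𝓝[>] 0) (𝓝 0) ∧
    Tendsto (fun w => dJ ν a b Λ z.2 w (z.1 - w) / w) (𝓝[>] 0) (𝓝 0))
    (meas_P S a b) (meas_QJ hlip hK hΛ la lb) ?_ ?_
  · filter_upwards [ae_GP hν hlip hK hΛ ma mb la lb] with z hz h
    have hG := hz h.1 _ _ h.2.1.2 h.2.2.2 h.2.1.1.hasDerivAt h.2.2.1.hasDerivAt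
    constructor
    · refine (hG.dJ hlip hΛ h.2.1.1.hasDerivAt h.2.2.1.hasDerivAt 0).congr fun w => ?_
      rw [zero_mul, add_zero]
    · refine (hG.dJ hlip hΛ h.2.1.1.hasDerivAt h.2.2.1.hasDerivAt (-1)).congr fun w => ?_
      rw [neg_one_mul, ← sub_eq_add_neg]
  · intro t
    filter_upwards [ae_rate_τ (a := a) (b := b) hν hlip hK hΛ ma mb la lb t] with τ hτ h1 h2
    exact hτ h1.1 h2.1 h2.2

/-- the profile is Lipschitz -/
theorem lip_PP (hlip : ∀ p q, |ν p - ν q| ≤ K * ‖p - q‖) (hK : 0 ≤ K)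
    (hΛ : 0 ≤ Λ) (la : ∀ s t, |a s - a t| ≤ Λ * |s - t|)
    (lb : ∀ s t, |b s - b t| ≤ Λ * |s - t|) :
    LipschitzWith (Real.toNNReal (K * (1 + 2 * Λ))) (PP ν a b) := by
  apply LipschitzWith.of_dist_le_mul
  intro z z'
  rw [Real.coe_toNNReal _ (by positivity), Real.dist_eq, dist_eq_norm]
  unfold PP
  refine (hlip _ _).trans ?_
  rw [mul_assoc]
  refine mul_le_mul_of_nonneg_left ?_ hK
  have n1 : |z.1 - z'.1| ≤ ‖z - z'‖ := norm_fst_le (z - z')
  have n2 : |z.2 - z'.2| ≤ ‖z - z'‖ := norm_snd_le (z - z')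
  have h1 := (la z.1 z'.1).trans (mul_le_mul_of_nonneg_left n1 hΛ)
  have h2 := (lb z.1 z'.1).trans (mul_le_mul_of_nonneg_left n1 hΛ)
  have h3 := abs_le.1 h1
  have h4 := abs_le.1 h2
  have h5 := abs_le.1 n2
  have hN : 0 ≤ ‖z - z'‖ := norm_nonneg _
  have hΛN : 0 ≤ Λ * ‖z - z'‖ := mul_nonneg hΛ hN
  rw [pi_norm_le_iff_of_nonneg (by positivity)]
  refine forall6 ?_ ?_ ?_ ?_ ?_ ?_ <;> rw [Real.norm_eq_abs, Pi.sub_apply] <;>
    simp only [X_0, X_1, X_2, X_3, X_4, X_5] <;> rw [abs_le] <;> constructor <;> linarith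

/-- **decoupling at almost every natural point** -/
theorem ae_lim (hν : Pr ν S) (hlip : ∀ p q, |ν p - ν q| ≤ K * ‖p - q‖) (hK : 0 ≤ K)
    (hΛ : 0 ≤ Λ) (ma : Monotone a) (mb : Monotone b)
    (la : ∀ s t, |a s - a t| ≤ Λ * |s - t|) (lb : ∀ s t, |b s - b t| ≤ Λ * |s - t|) :
    ∀ᵐ z : ℝ × ℝ, Loc S a b z → ∀ x y : ℝ, 0 < x → 0 < y → HasDerivAt a x z.1 →
      HasDerivAt b y z.1 → ∃ (L : ℝ × ℝ →L[ℝ] ℝ) (r0 r2 J : ℝ), HasFDerivAt (PP ν a b) L z ∧
        RateI ν (a z.1) (b z.1) z.2 0 r0 ∧ RateI ν (a z.1) (b z.1) z.2 2 r2 ∧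
        RateJ ν a b z.1 z.2 J ∧ GP ν (X (a z.1) (b z.1) z.2) ∧
        ∀ W : Ultrafilter ℝ, (W : Filter ℝ) ≤ 𝓝[>] 0 → ∀ g,
          BU ν (X (a z.1) (b z.1) z.2) W id g → Lim g x y (L (1, 0)) (L (0, 1)) r0 r2 J := by
  filter_upwards [ae_GP hν hlip hK hΛ ma mb la lb,
    ae_rateI hν hlip hK hΛ ma mb la lb (Or.inl rfl),
    ae_rateI hν hlip hK hΛ ma mb la lb (Or.inr rfl),
    ae_rateJ hν hlip hK hΛ ma mb la lb,
    (lip_PP hlip hK hΛ la lb).ae_differentiableAt] with z hG h0 h2 hJ hd hL x y hx hy ha hb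
  have hP : Loc S a b z ∧ Dp a b z.1 :=
    ⟨hL, ⟨ha.differentiableAt, by rw [ha.deriv]; exact hx⟩,
      hb.differentiableAt, by rw [hb.deriv]; exact hy⟩
  obtain ⟨r0, h0⟩ := h0 hP
  obtain ⟨r2, h2⟩ := h2 hP
  obtain ⟨J, hJ⟩ := hJ hP
  have hGP := hG hL x y hx hy ha hb
  exact ⟨fderiv ℝ (PP ν a b) z, r0, r2, J, hd.hasFDerivAt, h0, h2, hJ, hGP, fun W hW g hg =>
    lim_of_rates hlip hGP ha hb hd.hasFDerivAt h0 h2 hJ hW hg⟩

end

end Crest.Agent.R138.Dl848
end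

-- ▼ part R138/AeT7_501

/-!
# R138: `EXT` is contradictory (helper501)

Wrapper from 848's `Dl848.ae_lim` (global Lipschitz function) to `DlOut` (profile on `LEG M`).
-/

set_option autoImplicit false
set_option linter.unusedVariables false
set_option linter.unusedSectionVars false

open Filter Topology MeasureTheory
open scoped NNReal

namespace Crest.Agent.R138.AeT501

open Crest.Agent.R138.Ex926 Crest.Agent.R138.FM501 Crest.Agent.R138.Flg101

theorem X6_eq_X (v r t : ℝ) : X6 v r t = Dl848.X v r t := by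
  refine Dl848.ext6 ?_ ?_ ?_ ?_ ?_ ?_ <;> rfl

/-- natural points of the open region have a legal neighbourhood -/
theorem loc_of {M k : ℝ} (hk : 0 < k) {z : ℝ × ℝ} (h1 : 0 < z.1) (h2 : 0 < z.2)
    (h3 : (1 + k) * z.1 + z.2 < M) :
    Dl848.Loc (LEG M) (fun v => v) (fun v => k * v) z := by
  set r : ℝ := min (min (z.1 / 2) (z.2 / 2)) (min (k * z.1 / (k + 1)) ((M - (1 + k) * z.1 - z.2) /
    (3 + k))) with hr
  have hk1 : (0 : ℝ) < k + 1 := by linarith
  have hk3 : (0 : ℝ) < 3 + k := by linarith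
  have hr0 : 0 < r := by
    rw [hr]
    refine lt_min (lt_min (by linarith) (by linarith)) (lt_min ?_ ?_)
    · exact div_pos (mul_pos hk h1) hk1
    · exact div_pos (by linarith) hk3
  have r1 : r ≤ z.1 / 2 := (min_le_left _ _).trans (min_le_left _ _)
  have r2 : r ≤ z.2 / 2 := (min_le_left _ _).trans (min_le_right _ _)
  have r3 : r * (k + 1) ≤ k * z.1 := by
    have : r ≤ k * z.1 / (k + 1) := (min_le_right _ _).trans (min_le_left _ _)
    rwa [le_div_iff₀ hk1] at this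
  have r4 : r * (3 + k) ≤ M - (1 + k) * z.1 - z.2 := by
    have : r ≤ (M - (1 + k) * z.1 - z.2) / (3 + k) := (min_le_right _ _).trans (min_le_right _ _)
    rwa [le_div_iff₀ hk3] at this
  refine ⟨r, hr0, fun z' a1 a2 c hc => ?_⟩
  obtain ⟨⟨c1, c2, c3, c4⟩, hb⟩ := hc
  have b0 := abs_le.1 (hb 0)
  have b1 := abs_le.1 (hb 1)
  have b2 := abs_le.1 (hb 2)
  have b3 := abs_le.1 (hb 3)
  have b4 := abs_le.1 (hb 4)
  have b5 := abs_le.1 (hb 5)
  have d1 := abs_le.1 a1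
  have d2 := abs_le.1 a2
  have r3' : k * r + r ≤ k * z.1 := by linarith [r3, mul_comm r (k + 1), add_mul k 1 r]
  have r4' : 3 * r + k * r ≤ M - (z.1 + k * z.1) - z.2 := by
    have e1 : r * (3 + k) = 3 * r + k * r := by ring
    have e2 : (1 + k) * z.1 = z.1 + k * z.1 := by ring
    rw [e1, e2] at r4
    exact r4
  have k1 : k * z'.1 ≤ k * z.1 + k * r := by
    have := mul_le_mul_of_nonneg_left d1.2 hk.le
    rw [mul_sub] at this
    linarith
  have k2 : k * z.1 - k * r ≤ k * z'.1 := by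
    have := mul_le_mul_of_nonneg_left d1.1 hk.le
    rw [mul_sub, mul_neg] at this
    linarith
  have e0 : (Dl848.X z'.1 (k * z'.1) z'.2 + c) 0 = z'.2 + z'.1 + k * z'.1 + c 0 := rfl
  have e1 : (Dl848.X z'.1 (k * z'.1) z'.2 + c) 1 = z'.2 + k * z'.1 + c 1 := rfl
  have e2 : (Dl848.X z'.1 (k * z'.1) z'.2 + c) 2 = z'.2 + c 2 := rfl
  have e3 : (Dl848.X z'.1 (k * z'.1) z'.2 + c) 3 = z'.2 + z'.1 + c 3 := rfl
  have e4 : (Dl848.X z'.1 (k * z'.1) z'.2 + c) 4 = z'.1 + c 4 := rfl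
  have e5 : (Dl848.X z'.1 (k * z'.1) z'.2 + c) 5 = k * z'.1 + c 5 := rfl
  have p1 : 0 ≤ z'.1 + c 4 := by linarith
  have p2 : 0 ≤ z'.2 + c 2 := by linarith
  have p3 : 0 ≤ k * z'.1 + c 5 := by linarith
  have kz : 0 ≤ k * z'.1 - r := by linarith
  have z1 : 0 ≤ z'.1 - r := by linarith
  have z2 : 0 ≤ z'.2 - r := by linarith
  have top : z'.2 + z'.1 + k * z'.1 + r ≤ M := by linarith
  clear r1 r2 r3 r4 r3' r4' k1 k2 d1 d2 a1 a2 h1 h2 h3 hr
  rw [mem_LEG, e0, e1, e2, e3, e4, e5]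
  refine ⟨fun a => ?_, ?_, ?_, ?_, ?_⟩
  · fin_cases a
    · show 0 ≤ (Dl848.X z'.1 (k * z'.1) z'.2 + c) 0 ∧ (Dl848.X z'.1 (k * z'.1) z'.2 + c) 0 ≤ M
      rw [e0]; constructor <;> linarith
    · show 0 ≤ (Dl848.X z'.1 (k * z'.1) z'.2 + c) 1 ∧ (Dl848.X z'.1 (k * z'.1) z'.2 + c) 1 ≤ M
      rw [e1]; constructor <;> linarith
    · show 0 ≤ (Dl848.X z'.1 (k * z'.1) z'.2 + c) 2 ∧ (Dl848.X z'.1 (k * z'.1) z'.2 + c) 2 ≤ M
      rw [e2]; constructor <;> linarith
    · show 0 ≤ (Dl848.X z'.1 (k * z'.1) z'.2 + c) 3 ∧ (Dl848.X z'.1 (k * z'.1) z'.2 + c) 3 ≤ M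
      rw [e3]; constructor <;> linarith
    · show 0 ≤ (Dl848.X z'.1 (k * z'.1) z'.2 + c) 4 ∧ (Dl848.X z'.1 (k * z'.1) z'.2 + c) 4 ≤ M
      rw [e4]; constructor <;> linarith
    · show 0 ≤ (Dl848.X z'.1 (k * z'.1) z'.2 + c) 5 ∧ (Dl848.X z'.1 (k * z'.1) z'.2 + c) 5 ≤ M
      rw [e5]; constructor <;> linarith
  · linarith
  · linarith
  · linarith
  · linarith

/-- **`DlOut`** from the one-step growth and submodularity on `LEG M` -/
theorem dlOut_of {ν : (Fin 6 → ℝ) → ℝ} {M k : ℝ} (hk : 0 < k)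
    (lip : ∀ p ∈ LEG M, ∀ p' ∈ LEG M, p ≤ p' → 0 ≤ ν p - ν p' ∧ ν p - ν p' ≤ ∑ a, (p' a - p a))
    (submod : ∀ p ∈ LEG M, ∀ p' ∈ LEG M, p ⊓ p' ∈ LEG M →
      ν p + ν p' ≤ ν (p ⊔ p') + ν (p ⊓ p')) : DlOut ν M k := by
  have hl : LipschitzOnWith 6 ν (LEG M) := by
    refine LipschitzOnWith.of_dist_le_mul fun p hp q hq => ?_
    rw [Real.dist_eq, dist_eq_norm]
    exact_mod_cast nu_lip_of lip p hp q hq
  obtain ⟨ν', hν', heq⟩ := hl.extend_real
  have hlip : ∀ p q, |ν' p - ν' q| ≤ 6 * ‖p - q‖ := by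
    intro p q
    have := hν'.dist_le_mul p q
    rw [Real.dist_eq, dist_eq_norm] at this
    exact_mod_cast this
  have hPr : Dl848.Pr ν' (LEG M) := by
    refine ⟨fun p hp q hq hpq => ?_, fun p hp q hq hi hs => ?_⟩
    · rw [← heq hp, ← heq hq]
      linarith [(lip p hp q hq hpq).1]
    · rw [← heq hp, ← heq hq, ← heq hi, ← heq hs]
      exact submod p hp q hq hi
  have hΛ : (0 : ℝ) ≤ 1 + k := by linarith
  have key := Dl848.ae_lim (a := fun v => v) (b := fun v => k * v) (Λ := 1 + k) hPr hlip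
    (by norm_num) hΛ (fun s t h => h) (fun s t h => mul_le_mul_of_nonneg_left h hk.le)
    (fun s t => by nlinarith [abs_nonneg (s - t)])
    (fun s t => by
      rw [← mul_sub, abs_mul, abs_of_pos hk]
      nlinarith [abs_nonneg (s - t)])
  unfold DlOut
  filter_upwards [key] with z hz h1 h2 h3
  have hloc := loc_of hk h1 h2 h3
  obtain ⟨L, r0, r2, J, hL, -, -, -, -, H⟩ := hz hloc 1 k one_pos hk (hasDerivAt_id z.1)
    (by simpa using (hasDerivAt_id z.1).const_mul k)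
  have h2k : (fun v : ℝ => v) z.1 = z.1 := rfl
  have hX : ∀ v r t : ℝ, Dl848.X v r t = X6 v r t := fun v r t => (X6_eq_X v r t).symm
  have hkz : 0 ≤ k * z.1 := (mul_pos hk h1).le
  have hMM : z.2 + z.1 + k * z.1 < M := by linarith
  -- membership
  have hmem := X6_add_mem h1.le hkz h2.le hMM
  have hX0 : X6 z.1 (k * z.1) z.2 ∈ LEG M := by
    obtain ⟨h0, hh0, HH⟩ := hmem 0
    have := HH (h0 / 2) (by positivity) (by linarith) 0 zero_mem_D6 (by simp)
    simpa using this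
  have he2 : Dl848.e 2 ∈ D6 := by
    refine ⟨fun a => ?_, ?_, ?_, ?_, ?_⟩
    · have := Dl848.e_nonneg (s := 1) zero_le_one 2 a
      simpa using this
    · simp
    · simp
    · simp
    · simp
  have he2L : Dl848.e 2 ∈ Dl848.LEG := ⟨by simp, by simp, by simp, by simp⟩
  have hz0 : (0 : Fin 6 → ℝ) ∈ Dl848.LEG := ⟨by simp, by simp, by simp, by simp⟩
  refine ⟨L, r0, r2, J, ?_, ?_, ?_⟩
  · -- the derivative
    refine hL.congr_of_eventuallyEq ?_
    obtain ⟨r, hr, Hr⟩ := hloc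
    filter_upwards [Dl848.Rc_nhds z hr] with z' hz'
    obtain ⟨a1, a2⟩ := Dl848.Rc_abs hz'
    have h0B : (0 : Fin 6 → ℝ) ∈ Dl848.LB r := ⟨hz0, fun i => by simp [hr.le]⟩
    have h4 := Hr z' a1 a2 0 h0B
    rw [add_zero] at h4
    show ν (X6 z'.1 (k * z'.1) z'.2) = ν' (Dl848.X z'.1 (k * z'.1) z'.2)
    rw [← heq h4, hX]
  · -- the rate
    rw [tendsto_iff_ultrafilter]
    intro W hW
    obtain ⟨g, hg⟩ := Dl848.exists_BU (p0 := Dl848.X z.1 (k * z.1) z.2) (s := id) W hlip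
      (hW self_mem_nhdsWithin)
    have hLim := H W hW g hg
    have h4 := hLim.g2 0 hz0 1 zero_le_one (by simpa using he2L)
    rw [one_smul, mul_one] at h4
    unfold Dl848.Inc at h4
    rw [zero_add, hLim.zero, zero_sub] at h4
    have h5 := (hg (Dl848.e 2)).neg
    rw [h4] at h5
    refine h5.congr' ?_
    obtain ⟨h0, hh0, HH⟩ := hmem ‖Dl848.e 2‖
    have h6 : ∀ᶠ y in 𝓝[>] (0 : ℝ), y < h0 :=
      Filter.Eventually.filter_mono nhdsWithin_le_nhds (Iio_mem_nhds hh0)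
    filter_upwards [hW self_mem_nhdsWithin, hW h6] with y hy hy2
    have hy : 0 < y := hy
    have m1 := HH y hy hy2 _ he2 le_rfl
    simp only [id, hX]
    rw [heq hX0, heq m1, ← neg_div, neg_sub]
  · -- tangents
    intro h hpos h0 lam htan
    set W : Ultrafilter ℝ := (hyperfilter ℕ).map h with hWdef
    have hUA : (hyperfilter ℕ : Filter ℕ) ≤ atTop := by
      rw [← Nat.cofinite_eq_atTop]; exact hyperfilter_le_cofinite
    have hht : Tendsto h (hyperfilter ℕ : Filter ℕ) (𝓝[>] 0) := by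
      rw [tendsto_nhdsWithin_iff]
      exact ⟨h0.mono_left hUA, Eventually.of_forall hpos⟩
    have hW : (W : Filter ℝ) ≤ 𝓝[>] 0 := by
      rw [hWdef, Ultrafilter.coe_map]; exact hht
    obtain ⟨g, hg⟩ := Dl848.exists_BU (p0 := Dl848.X z.1 (k * z.1) z.2) (s := id) W hlip
      (hW self_mem_nhdsWithin)
    refine ⟨g, fun c hc => ?_, H W hW g hg⟩
    have h4 := hg c
    rw [hWdef, Ultrafilter.coe_map, tendsto_map'_iff] at h4
    have h5 : Tendsto (fun l => (ν' (Dl848.X z.1 (k * z.1) z.2 + h l • c) -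
        ν' (Dl848.X z.1 (k * z.1) z.2)) / h l) (hyperfilter ℕ : Filter ℕ) (𝓝 (lam c)) := by
      rw [Metric.tendsto_nhds]
      intro ε hε
      have h6 := (htan ‖c‖ (ε / 2) (by positivity)).filter_mono hUA
      filter_upwards [h6] with l hl
      obtain ⟨m1, m2⟩ := hl c hc le_rfl
      rw [hX, ← heq hX0, ← heq m1, Real.dist_eq]
      have hp := hpos l
      have e1 : (ν (X6 z.1 (k * z.1) z.2 + h l • c) - ν (X6 z.1 (k * z.1) z.2)) / h l - lam c =
          (ν (X6 z.1 (k * z.1) z.2 + h l • c) - ν (X6 z.1 (k * z.1) z.2) - h l * lam c) / h l := by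
        field_simp
      rw [e1, abs_div, abs_of_pos hp, div_lt_iff₀ hp]
      nlinarith
    exact tendsto_nhds_unique h4 h5

section

variable {ι : ℕ → Type} [∀ n, DecidableEq (ι n)]
variable {B : Base} {I : ∀ n, Finset (ι n)}
    {x : ∀ n, ι n → Inc} {line : ∀ n, ι n → ℕ} {ν : (Fin 6 → ℝ) → ℝ} {own : (Fin 2 → ℝ) → ℝ}

theorem ExtB.dlOut {M k u₀ u₁ : ℝ} {w : ℝ → ℝ} (hE : ExtB B I x line ν own M k u₀ u₁ w) :
    DlOut ν M k := dlOut_of hE.k0 hE.lip hE.submod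



/-- **TEXT II: `EXT` is contradictory** -/
theorem ExtP.false {M s b q k θ c₀ : ℝ} (hE : ExtP B I x line ν own M s b q k θ c₀) : False :=
  ExtP.false_of_DlOut hE hE.toB.dlOut

end

end Crest.Agent.R138.AeT501
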