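import Mathlib
import Crest.Agent.R138.Tilt_51
import Crest.Agent.R138.TiltG_51
import Crest.Agent.R138.KDef_294

-- ▼ part R138/Norm_70
section

/-!
# R138: affine normalisation of a class (helper70)

Frame (i), TEXT I, lemma NORM.  The class lies in a container with frame `E`, base line `L0`,
widths `W1 ≤ W2`.  The affine map `nrm` (heights untouched) sends it to the unit container.
`DMax` and `Near` of helper51 transform with `M ↦ 8 M W1^(1+p) W2^(1+q)`, at every cell (`q ≤ 2`).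
-/

set_option autoImplicit false
set_option linter.unusedVariables false

open Finset

namespace Crest.Agent.R138.Norm70

open Crest.Agent.R138.Flag51 Crest.Agent.R138.Tilt51

noncomputable section

/-- linear part of the normalisation -/
def lin (E : E2) (W1 W2 : ℝ) (x : E2) : E2 := !₂[dt x E / W1, cr E x / W2]

/-- the normalised line -/
def nrm (E : E2) (L0 : Ln) (W1 W2 : ℝ) (t : Ln) : Ln :=
  (lin E W1 W2 (t.1 - L0.1), lin E W1 W2 (t.2 - L0.2))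

/-- inverse of `lin` -/
def unlin (E : E2) (W1 W2 : ℝ) (y : E2) : E2 :=
  !₂[W1 * y 0 * E 0 - W2 * y 1 * E 1, W1 * y 0 * E 1 + W2 * y 1 * E 0]

/-- inverse of `nrm` -/
def unnrm (E : E2) (L0 : Ln) (W1 W2 : ℝ) (l : Ln) : Ln :=
  (L0.1 + unlin E W1 W2 l.1, L0.2 + unlin E W1 W2 l.2)

theorem lin_zero_apply (E : E2) (W1 W2 : ℝ) (x : E2) : lin E W1 W2 x 0 = dt x E / W1 := by
  simp [lin]

theorem lin_one_apply (E : E2) (W1 W2 : ℝ) (x : E2) : lin E W1 W2 x 1 = cr E x / W2 := by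
  simp [lin]

theorem pos_nrm (E : E2) (L0 : Ln) (W1 W2 : ℝ) (t : Ln) (z : ℝ) :
    pos (nrm E L0 W1 W2 t) z = lin E W1 W2 (pos t z - pos L0 z) := by
  ext i
  fin_cases i
  · simp [pos, nrm, lin, dt]; ring
  · simp [pos, nrm, lin, cr]; ring

theorem lin_unlin {E : E2} {W1 W2 : ℝ} (hE : dt E E = 1) (h1 : 0 < W1) (h2 : 0 < W2) (y : E2) :
    lin E W1 W2 (unlin E W1 W2 y) = y := by
  have hE' : E 0 * E 0 + E 1 * E 1 = 1 := hE
  ext i
  fin_cases i
  · have : lin E W1 W2 (unlin E W1 W2 y) 0 = (W1 * y 0 * (E 0 * E 0 + E 1 * E 1)) / W1 := by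
      simp [lin, dt, unlin]; ring
    show lin E W1 W2 (unlin E W1 W2 y) 0 = y 0
    rw [this, hE']; field_simp
  · have : lin E W1 W2 (unlin E W1 W2 y) 1 = (W2 * y 1 * (E 0 * E 0 + E 1 * E 1)) / W2 := by
      simp [lin, cr, unlin]; ring
    show lin E W1 W2 (unlin E W1 W2 y) 1 = y 1
    rw [this, hE']; field_simp

theorem pos_unnrm (E : E2) (L0 : Ln) (W1 W2 : ℝ) (l : Ln) (z : ℝ) :
    pos (unnrm E L0 W1 W2 l) z = pos L0 z + unlin E W1 W2 (pos l z) := by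
  ext i
  fin_cases i
  · simp [pos, unnrm, unlin]; ring
  · simp [pos, unnrm, unlin]; ring

theorem lin_sub (E : E2) (W1 W2 : ℝ) (x y : E2) :
    lin E W1 W2 (x - y) = lin E W1 W2 x - lin E W1 W2 y := by
  ext i
  fin_cases i
  · simp [lin, dt]; ring
  · simp [lin, cr]; ring

/-- `nrm t` relative to `l` is the linear image of `t` relative to `unnrm l` -/
theorem pos_nrm_sub {E : E2} {W1 W2 : ℝ} (hE : dt E E = 1) (h1 : 0 < W1) (h2 : 0 < W2)
    (L0 t l : Ln) (z : ℝ) :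
    pos (nrm E L0 W1 W2 t) z - pos l z
      = lin E W1 W2 (pos t z - pos (unnrm E L0 W1 W2 l) z) := by
  rw [pos_nrm, pos_unnrm]
  have : pos t z - (pos L0 z + unlin E W1 W2 (pos l z))
      = (pos t z - pos L0 z) - unlin E W1 W2 (pos l z) := by abel
  rw [this, lin_sub _ _ _ (pos t z - pos L0 z), lin_unlin hE h1 h2]

/-! ### parallelograms -/

/-- identity `(x·n₂)|n₁|² = (x·n₁)(n₁·n₂) + (n₁×x)(n₁×n₂)` -/
theorem three_id (n1 n2 x : E2) :
    dt x n2 * dt n1 n1 = dt x n1 * dt n1 n2 + cr n1 x * cr n1 n2 := by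
  simp only [dt, cr]; ring

theorem abs_dt_le_mul {n1 n2 : E2} {N1 N2 : ℝ} (h1 : dt n1 n1 = N1 ^ 2) (h2 : dt n2 n2 = N2 ^ 2)
    (p1 : 0 ≤ N1) (p2 : 0 ≤ N2) : |dt n1 n2| ≤ N1 * N2 := by
  have := unit_id n1 n2
  rw [h1, h2] at this
  apply abs_le_of_sq_le_sq' _ (by positivity) |> abs_le.2
  nlinarith [sq_nonneg (cr n1 n2)]

/-- the intersection of two slabs lies in a rectangle of twice the area -/
theorem two_slabs {n1 n2 : E2} {V N1 N2 b1 b2 : ℝ} (hV : 0 < V) (hcr : |cr n1 n2| * V = 1)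
    (h1 : dt n1 n1 = N1 ^ 2) (h2 : dt n2 n2 = N2 ^ 2) (p1 : 0 < N1) (p2 : 0 < N2)
    (hb1 : 0 ≤ b1) (hb2 : 0 ≤ b2) (hb : b1 * N2 ≤ b2 * N1) :
    ∃ e' : E2, dt e' e' = 1 ∧ ∀ x : E2, |dt x n1| ≤ b1 → |dt x n2| ≤ b2 →
      |dt x e'| ≤ b1 / N1 ∧ |cr e' x| ≤ 2 * V * N1 * b2 := by
  refine ⟨(1 / N1) • n1, ?_, fun x hx1 hx2 => ?_⟩
  · have : dt ((1 / N1) • n1) ((1 / N1) • n1) = dt n1 n1 / N1 ^ 2 := by
      simp only [dt, PiLp.smul_apply, smul_eq_mul]; field_simp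
    rw [this, h1]; field_simp
  · have e1 : dt x ((1 / N1) • n1) = dt x n1 / N1 := by
      simp only [dt, PiLp.smul_apply, smul_eq_mul]; field_simp
    have e2 : cr ((1 / N1) • n1) x = cr n1 x / N1 := by
      simp only [cr, PiLp.smul_apply, smul_eq_mul]; field_simp
    rw [e1, e2, abs_div, abs_div, abs_of_pos p1]
    refine ⟨div_le_div_of_nonneg_right hx1 p1.le, ?_⟩
    rw [div_le_iff₀ p1]
    have hid := three_id n1 n2 x
    have hdd := abs_dt_le_mul h1 h2 p1.le p2.le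
    have k1 : |cr n1 x| * |cr n1 n2| ≤ 2 * N1 ^ 2 * b2 := by
      rw [← abs_mul]
      have : cr n1 x * cr n1 n2 = dt x n2 * dt n1 n1 - dt x n1 * dt n1 n2 := by linarith
      rw [this, h1]
      refine (abs_sub _ _).trans ?_
      rw [abs_mul, abs_mul, abs_of_nonneg (sq_nonneg N1)]
      have k2 : |dt x n2| * N1 ^ 2 ≤ b2 * N1 ^ 2 := mul_le_mul_of_nonneg_right hx2 (sq_nonneg _)
      have k3 : |dt x n1| * |dt n1 n2| ≤ b1 * (N1 * N2) :=
        mul_le_mul hx1 hdd (abs_nonneg _) hb1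
      have k4 : b1 * (N1 * N2) ≤ b2 * N1 ^ 2 := by nlinarith
      linarith
    calc |cr n1 x| = |cr n1 x| * (|cr n1 n2| * V) := by rw [hcr, mul_one]
      _ = (|cr n1 x| * |cr n1 n2|) * V := by ring
      _ ≤ (2 * N1 ^ 2 * b2) * V := mul_le_mul_of_nonneg_right k1 hV.le
      _ = 2 * V * N1 * b2 * N1 := by ring

/-- two slabs with `N W1 ≤ 1`: rectangle form, one order -/
theorem rect_aux {n1 n2 : E2} {W1 W2 N1 N2 b1 b2 c : ℝ} (hW1 : 0 < W1) (hW2 : 0 < W2)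
    (hcr : |cr n1 n2| * (W1 * W2) = 1)
    (h1 : dt n1 n1 = N1 ^ 2) (h2 : dt n2 n2 = N2 ^ 2) (p1 : 0 < N1) (p2 : 0 < N2)
    (u1 : N1 * W1 ≤ 1) (hb1 : 0 < b1) (hb2 : 0 < b2) (hb2c : b2 ≤ c) (hb : b1 * N2 ≤ b2 * N1) :
    ∃ (e' : E2) (a1' a2' : ℝ), dt e' e' = 1 ∧ a1' * a2' = 2 * W1 * W2 * b1 * b2 ∧
      W1 * b1 ≤ a1' ∧ a1' ≤ a2' ∧ a2' ≤ 2 * W2 * c ∧
      ∀ x : E2, |dt x n1| ≤ b1 → |dt x n2| ≤ b2 → |dt x e'| ≤ a1' ∧ |cr e' x| ≤ a2' := by
  have hV : 0 < W1 * W2 := mul_pos hW1 hW2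
  have hNN : 1 ≤ W1 * W2 * (N1 * N2) := by
    have h3 := unit_id n1 n2
    rw [h1, h2] at h3
    have h4 : |cr n1 n2| ≤ N1 * N2 := by
      apply abs_le_of_sq_le_sq' _ (by positivity) |> abs_le.2
      nlinarith [sq_nonneg (dt n1 n2)]
    calc (1 : ℝ) = |cr n1 n2| * (W1 * W2) := hcr.symm
      _ ≤ (N1 * N2) * (W1 * W2) := mul_le_mul_of_nonneg_right h4 hV.le
      _ = W1 * W2 * (N1 * N2) := by ring
  obtain ⟨e', g1, g2⟩ := two_slabs (b1 := b1) (b2 := b2) hV hcr h1 h2 p1 p2 hb1.le hb2.le hb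
  refine ⟨e', b1 / N1, 2 * (W1 * W2) * N1 * b2, g1, by field_simp, ?_, ?_, ?_, g2⟩
  · rw [le_div_iff₀ p1]
    calc W1 * b1 * N1 = b1 * (N1 * W1) := by ring
      _ ≤ b1 * 1 := mul_le_mul_of_nonneg_left u1 hb1.le
      _ = b1 := mul_one _
  · rw [div_le_iff₀ p1]
    have k4 : (0:ℝ) ≤ (W1 * W2 * N1) * (b2 * N1) := by positivity
    calc b1 = b1 * 1 := (mul_one _).symm
      _ ≤ b1 * (W1 * W2 * (N1 * N2)) := mul_le_mul_of_nonneg_left hNN hb1.le
      _ = (W1 * W2 * N1) * (b1 * N2) := by ring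
      _ ≤ (W1 * W2 * N1) * (b2 * N1) := mul_le_mul_of_nonneg_left hb (by positivity)
      _ ≤ 2 * (W1 * W2) * N1 * b2 * N1 := by
        have e : 2 * (W1 * W2) * N1 * b2 * N1 = 2 * ((W1 * W2 * N1) * (b2 * N1)) := by ring
        rw [e]; linarith
  · calc 2 * (W1 * W2) * N1 * b2 = (2 * W2 * b2) * (N1 * W1) := by ring
      _ ≤ (2 * W2 * b2) * 1 := mul_le_mul_of_nonneg_left u1 (by positivity)
      _ = 2 * W2 * b2 := mul_one _
      _ ≤ 2 * W2 * c := mul_le_mul_of_nonneg_left hb2c (by positivity)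

theorem norm_bd {W1 W2 a b : ℝ} (hW1 : 0 < W1) (hW : W1 ≤ W2) (hab : a * a + b * b = 1) :
    0 < (a / W1) ^ 2 + (b / W2) ^ 2 ∧ (a / W1) ^ 2 + (b / W2) ^ 2 ≤ (1 / W1) ^ 2 := by
  have hW2 : 0 < W2 := hW1.trans_le hW
  constructor
  · have h1 : (a / W2) ^ 2 ≤ (a / W1) ^ 2 := by
      rw [div_pow, div_pow]
      exact div_le_div_of_nonneg_left (sq_nonneg a) (by positivity)
        (pow_le_pow_left₀ hW1.le hW 2)
    calc (0 : ℝ) < (1 / W2) ^ 2 := by positivity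
      _ = (a * a + b * b) / W2 ^ 2 := by rw [hab]; ring
      _ = (a / W2) ^ 2 + (b / W2) ^ 2 := by ring
      _ ≤ (a / W1) ^ 2 + (b / W2) ^ 2 := by linarith
  · have h1 : (b / W2) ^ 2 ≤ (b / W1) ^ 2 := by
      rw [div_pow, div_pow]
      exact div_le_div_of_nonneg_left (sq_nonneg b) (by positivity)
        (pow_le_pow_left₀ hW1.le hW 2)
    calc (a / W1) ^ 2 + (b / W2) ^ 2 ≤ (a / W1) ^ 2 + (b / W1) ^ 2 := by linarith
      _ = (a * a + b * b) / W1 ^ 2 := by ring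
      _ = (1 / W1) ^ 2 := by rw [hab]; ring

/-- **(N1)** the preimage of a plank is contained in a plank -/
theorem exists_plank {E e : E2} {W1 W2 a1 a2 : ℝ} (hE : dt E E = 1) (he : dt e e = 1)
    (hW1 : 0 < W1) (hW : W1 ≤ W2) (ha1 : 0 < a1) (ha : a1 ≤ a2) :
    ∃ (e' : E2) (a1' a2' : ℝ), dt e' e' = 1 ∧ a1' * a2' = 2 * W1 * W2 * a1 * a2 ∧
      W1 * a1 ≤ a1' ∧ a1' ≤ a2' ∧ a2' ≤ 2 * W2 * a2 ∧
      ∀ x : E2, |dt (lin E W1 W2 x) e| ≤ a1 → |cr e (lin E W1 W2 x)| ≤ a2 →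
        |dt x e'| ≤ a1' ∧ |cr e' x| ≤ a2' := by
  have hW2 : 0 < W2 := hW1.trans_le hW
  have ha2 : 0 < a2 := ha1.trans_le ha
  have hE' : E 0 * E 0 + E 1 * E 1 = 1 := hE
  have he' : e 0 * e 0 + e 1 * e 1 = 1 := he
  obtain ⟨n1, n2, d1, d2, q1, q2, q3⟩ : ∃ n1 n2 : E2, (∀ x, dt (lin E W1 W2 x) e = dt x n1) ∧
      (∀ x, cr e (lin E W1 W2 x) = dt x n2) ∧ dt n1 n1 = (e 0 / W1) ^ 2 + (e 1 / W2) ^ 2 ∧
      dt n2 n2 = (e 1 / W1) ^ 2 + (e 0 / W2) ^ 2 ∧ cr n1 n2 = 1 / (W1 * W2) := by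
    refine ⟨!₂[e 0 / W1 * E 0 - e 1 / W2 * E 1, e 0 / W1 * E 1 + e 1 / W2 * E 0],
      !₂[-(e 1) / W1 * E 0 - e 0 / W2 * E 1, -(e 1) / W1 * E 1 + e 0 / W2 * E 0],
      fun x => by simp [lin, dt, cr]; ring, fun x => by simp [lin, dt, cr]; ring, ?_, ?_, ?_⟩
    · trans ((e 0 / W1) ^ 2 + (e 1 / W2) ^ 2) * (E 0 * E 0 + E 1 * E 1)
      · simp [dt]; ring
      · rw [hE', mul_one]
    · trans ((e 1 / W1) ^ 2 + (e 0 / W2) ^ 2) * (E 0 * E 0 + E 1 * E 1)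
      · simp [dt]; ring
      · rw [hE', mul_one]
    · trans (e 0 * e 0 + e 1 * e 1) * (E 0 * E 0 + E 1 * E 1) / (W1 * W2)
      · simp [cr]; field_simp; ring
      · rw [hE', he', one_mul]
  have hp1 : 0 < dt n1 n1 := by rw [q1]; exact (norm_bd hW1 hW he').1
  have hp2 : 0 < dt n2 n2 := by rw [q2]; exact (norm_bd hW1 hW (by linarith)).1
  have hcr : |cr n1 n2| * (W1 * W2) = 1 := by
    rw [q3, abs_of_pos (by positivity)]; field_simp
  have hcr' : |cr n2 n1| * (W1 * W2) = 1 := by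
    rw [abs_cr_swap n1 n2]; exact hcr
  have u1 : Real.sqrt (dt n1 n1) * W1 ≤ 1 := by
    rw [← le_div_iff₀ hW1]
    apply Real.sqrt_le_iff.2
    exact ⟨by positivity, by rw [q1]; exact (norm_bd hW1 hW he').2⟩
  have u2 : Real.sqrt (dt n2 n2) * W1 ≤ 1 := by
    rw [← le_div_iff₀ hW1]
    apply Real.sqrt_le_iff.2
    exact ⟨by positivity, by rw [q2]; exact (norm_bd hW1 hW (by linarith)).2⟩
  have p1 := Real.sqrt_pos.2 hp1
  have p2 := Real.sqrt_pos.2 hp2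
  have s1 := (Real.sq_sqrt hp1.le).symm
  have s2 := (Real.sq_sqrt hp2.le).symm
  rcases le_total (a1 * Real.sqrt (dt n2 n2)) (a2 * Real.sqrt (dt n1 n1)) with hc | hc
  · obtain ⟨e', a1', a2', g0, g1, g2, g3, g4, g5⟩ :=
      rect_aux hW1 hW2 hcr s1 s2 p1 p2 u1 ha1 ha2 le_rfl hc
    exact ⟨e', a1', a2', g0, g1, g2, g3, g4, fun x hx1 hx2 =>
      g5 x (by rw [← d1]; exact hx1) (by rw [← d2]; exact hx2)⟩
  · obtain ⟨e', a1', a2', g0, g1, g2, g3, g4, g5⟩ :=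
      rect_aux hW1 hW2 hcr' s2 s1 p2 p1 u2 ha2 ha1 ha hc
    refine ⟨e', a1', a2', g0, by rw [g1]; ring, ?_, g3, g4, fun x hx1 hx2 =>
      g5 x (by rw [← d2]; exact hx2) (by rw [← d1]; exact hx1)⟩
    exact (mul_le_mul_of_nonneg_left ha hW1.le).trans g2

/-- **(N1)**, lines: for every cell at once -/
theorem inPlank_nrm {E e : E2} {W1 W2 a1 a2 : ℝ} (L0 l : Ln) (hE : dt E E = 1) (he : dt e e = 1)
    (hW1 : 0 < W1) (hW : W1 ≤ W2) (ha1 : 0 < a1) (ha : a1 ≤ a2) :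
    ∃ (l' : Ln) (e' : E2) (a1' a2' : ℝ), dt e' e' = 1 ∧ a1' * a2' = 2 * W1 * W2 * a1 * a2 ∧
      W1 * a1 ≤ a1' ∧ a1' ≤ a2' ∧ a2' ≤ 2 * W2 * a2 ∧
      ∀ (t : Ln) (z0 ρ : ℝ), InPlank (nrm E L0 W1 W2 t) l e a1 a2 z0 ρ →
        InPlank t l' e' a1' a2' z0 ρ := by
  obtain ⟨e', a1', a2', g0, g1, g2, g3, g4, g5⟩ := exists_plank (a1 := a1) (a2 := a2) hE he hW1 hW
    ha1 ha
  refine ⟨unnrm E L0 W1 W2 l, e', a1', a2', g0, g1, g2, g3, g4, fun t z0 ρ h z hz => ?_⟩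
  obtain ⟨h1, h2⟩ := h z hz
  rw [pos_nrm_sub hE hW1 (hW1.trans_le hW)] at h1 h2
  exact g5 _ h1 h2

/-- **(N2)** penalised maximality of the normalised family, at every cell -/
theorem dmax_nrm {ι : Type*} {S : Finset ι} {L : ι → Ln} {m : ι → ℝ}
    {z0 ρ M p q r0 R0 : ℝ} (h : DMax S L m z0 ρ M p q r0 R0) (hm : ∀ t ∈ S, 0 ≤ m t)
    {E : E2} {W1 W2 : ℝ} (L0 : Ln) (hE : dt E E = 1) (hW1 : 0 < W1) (hW : W1 ≤ W2)
    (hM : 0 ≤ M) (hp : 0 ≤ p) (hpq : p ≤ q) (hq : q ≤ 2) (hr0 : 0 < r0) :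
    DMax S (fun t => nrm E L0 W1 W2 (L t)) m z0 ρ (8 * M * W1 ^ (1 + p) * W2 ^ (1 + q)) p q
      (r0 / W1) (R0 / (2 * W2)) := by
  classical
  have hW2 : 0 < W2 := hW1.trans_le hW
  intro l e a1 a2 he h1 h12 h2
  have ha1 : 0 < a1 := (div_pos hr0 hW1).trans_le h1
  have ha2 : 0 < a2 := ha1.trans_le h12
  obtain ⟨l', e', a1', a2', g0, g1, g2, g3, g4, g5⟩ := inPlank_nrm L0 l hE he hW1 hW ha1 h12
  have hb1 : 0 < a1' := (mul_pos hW1 ha1).trans_le g2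
  have hb2 : 0 < a2' := hb1.trans_le g3
  have k1 : r0 ≤ a1' := by
    refine le_trans ?_ g2
    rw [div_le_iff₀ hW1] at h1; linarith
  have k2 : a2' ≤ R0 := by
    refine g4.trans ?_
    rw [le_div_iff₀ (by positivity)] at h2; linarith
  have k3 : ∑ t ∈ S with InPlank (nrm E L0 W1 W2 (L t)) l e a1 a2 z0 ρ, m t
      ≤ ∑ t ∈ S with InPlank (L t) l' e' a1' a2' z0 ρ, m t := by
    refine sum_le_sum_of_subset_of_nonneg ?_ ?_
    · intro t ht
      rw [mem_filter] at ht ⊢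
      exact ⟨ht.1, g5 _ _ _ ht.2⟩
    · intro t ht _
      exact hm t (mem_filter.1 ht).1
  refine k3.trans ((h l' e' a1' a2' g0 k1 g3 k2).trans ?_)
  have e1 : M * a1' ^ (1 + p) * a2' ^ (1 + q) = M * (a1' * a2') ^ (1 + p) * a2' ^ (q - p) := by
    rw [Real.mul_rpow hb1.le hb2.le]
    have : a2' ^ (1 + q) = a2' ^ (1 + p) * a2' ^ (q - p) := by
      rw [← Real.rpow_add hb2]; congr 1; ring
    rw [this]; ring
  rw [e1, g1]
  have e2 : a2' ^ (q - p) ≤ (2 * W2 * a2) ^ (q - p) :=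
    Real.rpow_le_rpow hb2.le g4 (by linarith)
  have e3 : (2 * W1 * W2 * a1 * a2) ^ (1 + p) =
      2 ^ (1 + p) * W1 ^ (1 + p) * W2 ^ (1 + p) * a1 ^ (1 + p) * a2 ^ (1 + p) := by
    rw [Real.mul_rpow (by positivity) ha2.le, Real.mul_rpow (by positivity) ha1.le,
      Real.mul_rpow (by positivity) hW2.le, Real.mul_rpow (by norm_num) hW1.le]
  have e4 : (2 * W2 * a2) ^ (q - p) = 2 ^ (q - p) * W2 ^ (q - p) * a2 ^ (q - p) := by
    rw [Real.mul_rpow (by positivity) ha2.le, Real.mul_rpow (by norm_num) hW2.le]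
  have e5 : (2:ℝ) ^ (1 + p) * 2 ^ (q - p) ≤ 8 := by
    rw [← Real.rpow_add (by norm_num)]
    calc (2:ℝ) ^ (1 + p + (q - p)) ≤ 2 ^ (3 : ℝ) :=
          Real.rpow_le_rpow_of_exponent_le (by norm_num) (by linarith)
      _ = 8 := by norm_num
  have e6 : W2 ^ (1 + p) * W2 ^ (q - p) = W2 ^ (1 + q) := by
    rw [← Real.rpow_add hW2]; congr 1; ring
  have e7 : a2 ^ (1 + p) * a2 ^ (q - p) = a2 ^ (1 + q) := by
    rw [← Real.rpow_add ha2]; congr 1; ring
  calc M * (2 * W1 * W2 * a1 * a2) ^ (1 + p) * a2' ^ (q - p)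
      ≤ M * (2 * W1 * W2 * a1 * a2) ^ (1 + p) * (2 * W2 * a2) ^ (q - p) :=
        mul_le_mul_of_nonneg_left e2 (by positivity)
    _ = ((2:ℝ) ^ (1 + p) * 2 ^ (q - p)) * (M * W1 ^ (1 + p) * (W2 ^ (1 + p) * W2 ^ (q - p)) *
          a1 ^ (1 + p) * (a2 ^ (1 + p) * a2 ^ (q - p))) := by rw [e3, e4]; ring
    _ ≤ 8 * (M * W1 ^ (1 + p) * (W2 ^ (1 + p) * W2 ^ (q - p)) *
          a1 ^ (1 + p) * (a2 ^ (1 + p) * a2 ^ (q - p))) :=
        mul_le_mul_of_nonneg_right e5 (by positivity)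
    _ = 8 * M * W1 ^ (1 + p) * W2 ^ (1 + q) * a1 ^ (1 + p) * a2 ^ (1 + q) := by
        rw [e6, e7]; ring

/-! ### images of planks -/

/-- the normal vector of the image plane -/
def imgN (E e : E2) (W1 W2 : ℝ) : E2 := !₂[W1 * dt E e, W2 * cr E e]

/-- frame of the image plank -/
def imgE (E e : E2) (W1 W2 : ℝ) : E2 :=
  (1 / Real.sqrt (dt (imgN E e W1 W2) (imgN E e W1 W2))) • imgN E e W1 W2

theorem dt_lin_imgN {E e : E2} {W1 W2 : ℝ} (hE : dt E E = 1) (h1 : 0 < W1) (h2 : 0 < W2)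
    (x : E2) : dt (lin E W1 W2 x) (imgN E e W1 W2) = dt x e := by
  have e1 : dt (lin E W1 W2 x) (imgN E e W1 W2) = dt x E * dt E e + cr E x * cr E e := by
    simp [lin, imgN, dt, cr]; field_simp
  rw [e1]
  have := dt_of (e := e) hE x
  rw [this]
  have h3 : dt e E = dt E e := by simp only [dt]; ring
  have h4 : cr e E = - cr E e := by simp only [cr]; ring
  rw [h3, h4]; ring

theorem imgN_sq {E e : E2} {W1 W2 : ℝ} (hE : dt E E = 1) (he : dt e e = 1) (h1 : 0 < W1)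
    (h : W1 ≤ W2) : W1 ^ 2 ≤ dt (imgN E e W1 W2) (imgN E e W1 W2) := by
  have e1 : dt (imgN E e W1 W2) (imgN E e W1 W2) = W1 ^ 2 * dt E e ^ 2 + W2 ^ 2 * cr E e ^ 2 := by
    simp only [imgN, dt]; simp; ring
  rw [e1]
  have := unit_id E e
  rw [hE, he] at this
  have h3 : W1 ^ 2 ≤ W2 ^ 2 := pow_le_pow_left₀ h1.le h 2
  have h4 : 0 ≤ cr E e ^ 2 := sq_nonneg _
  calc W1 ^ 2 = W1 ^ 2 * (dt E e ^ 2 + cr E e ^ 2) := by rw [← this]; ring
    _ = W1 ^ 2 * dt E e ^ 2 + W1 ^ 2 * cr E e ^ 2 := by ring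
    _ ≤ W1 ^ 2 * dt E e ^ 2 + W2 ^ 2 * cr E e ^ 2 := by
      have := mul_le_mul_of_nonneg_right h3 h4
      linarith

theorem imgE_unit {E e : E2} {W1 W2 : ℝ} (hE : dt E E = 1) (he : dt e e = 1) (h1 : 0 < W1)
    (h : W1 ≤ W2) : dt (imgE E e W1 W2) (imgE E e W1 W2) = 1 := by
  have hN : 0 < dt (imgN E e W1 W2) (imgN E e W1 W2) :=
    (by positivity : (0:ℝ) < W1 ^ 2).trans_le (imgN_sq hE he h1 h)
  have hs := Real.sq_sqrt hN.le
  have hp := Real.sqrt_pos.2 hN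
  have : dt (imgE E e W1 W2) (imgE E e W1 W2)
      = dt (imgN E e W1 W2) (imgN E e W1 W2) /
        Real.sqrt (dt (imgN E e W1 W2) (imgN E e W1 W2)) ^ 2 := by
    simp only [imgE]
    generalize Real.sqrt (dt (imgN E e W1 W2) (imgN E e W1 W2)) = r at hp ⊢
    simp only [dt, PiLp.smul_apply, smul_eq_mul]; field_simp
  rw [this, hs]; field_simp

/-- the image of a plank whose frame is tilted by at most `θ` -/
theorem lin_plank {E e : E2} {W1 W2 w1 w2 θ A : ℝ} (hE : dt E E = 1) (he : dt e e = 1)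
    (h1 : 0 < W1) (h : W1 ≤ W2) (hw1 : 0 ≤ w1) (hA1 : w1 + θ * w2 ≤ A * W1)
    (hA2 : w1 + w2 ≤ A * W2) (hθ : |cr E e| ≤ θ) {x : E2} (hx1 : |dt x e| ≤ w1)
    (hx2 : |cr e x| ≤ w2) :
    |dt (lin E W1 W2 x) (imgE E e W1 W2)| ≤ w1 / W1 ∧
      |cr (imgE E e W1 W2) (lin E W1 W2 x)| ≤ 2 * A := by
  have hW2 : 0 < W2 := h1.trans_le h
  have hNsq := imgN_sq (W2 := W2) hE he h1 h
  have hN : 0 < dt (imgN E e W1 W2) (imgN E e W1 W2) :=
    (by positivity : (0:ℝ) < W1 ^ 2).trans_le hNsq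
  have hp := Real.sqrt_pos.2 hN
  have hge : W1 ≤ Real.sqrt (dt (imgN E e W1 W2) (imgN E e W1 W2)) :=
    Real.le_sqrt_of_sq_le hNsq
  constructor
  · have e1 : dt (lin E W1 W2 x) (imgE E e W1 W2) = dt x e /
        Real.sqrt (dt (imgN E e W1 W2) (imgN E e W1 W2)) := by
      rw [← dt_lin_imgN (e := e) hE h1 hW2 x]
      simp only [imgE]
      generalize Real.sqrt (dt (imgN E e W1 W2) (imgN E e W1 W2)) = r at hp ⊢
      simp only [dt, PiLp.smul_apply, smul_eq_mul]; field_simp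
    rw [e1, abs_div, abs_of_pos hp]
    exact div_le_div₀ hw1 hx1 h1 hge
  · -- coordinates
    have hu := imgE_unit (W2 := W2) hE he h1 h
    have hc0 : |(imgE E e W1 W2) 0| ≤ 1 := by
      rw [abs_le]; simp only [dt] at hu
      constructor <;> nlinarith [sq_nonneg ((imgE E e W1 W2) 0), sq_nonneg ((imgE E e W1 W2) 1)]
    have hc1 : |(imgE E e W1 W2) 1| ≤ 1 := by
      rw [abs_le]; simp only [dt] at hu
      constructor <;> nlinarith [sq_nonneg ((imgE E e W1 W2) 0), sq_nonneg ((imgE E e W1 W2) 1)]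
    have hy0 : |lin E W1 W2 x 0| ≤ A := by
      rw [lin_zero_apply, abs_div, abs_of_pos h1, div_le_iff₀ h1]
      have : dt x E = dt E e * dt x e - cr E e * cr e x := dt_of he x
      rw [this]
      refine (abs_sub _ _).trans ?_
      rw [abs_mul, abs_mul]
      have g1 : |dt E e| * |dt x e| ≤ 1 * w1 :=
        mul_le_mul (abs_dt_le_one hE he) hx1 (abs_nonneg _) zero_le_one
      have g2 : |cr E e| * |cr e x| ≤ θ * w2 :=
        mul_le_mul hθ hx2 (abs_nonneg _) ((abs_nonneg _).trans hθ)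
      linarith
    have hy1 : |lin E W1 W2 x 1| ≤ A := by
      rw [lin_one_apply, abs_div, abs_of_pos hW2, div_le_iff₀ hW2]
      have : cr E x = cr E e * dt x e + dt E e * cr e x := cr_of he x
      rw [this]
      refine (abs_add_le _ _).trans ?_
      rw [abs_mul, abs_mul]
      have g1 : |cr E e| * |dt x e| ≤ 1 * w1 :=
        mul_le_mul (abs_cr_le_one hE he) hx1 (abs_nonneg _) zero_le_one
      have g2 : |dt E e| * |cr e x| ≤ 1 * w2 :=
        mul_le_mul (abs_dt_le_one hE he) hx2 (abs_nonneg _) zero_le_one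
      linarith
    have : cr (imgE E e W1 W2) (lin E W1 W2 x) = (imgE E e W1 W2) 0 * lin E W1 W2 x 1 -
        (imgE E e W1 W2) 1 * lin E W1 W2 x 0 := rfl
    rw [this]
    refine (abs_sub _ _).trans ?_
    rw [abs_mul, abs_mul]
    have g1 : |(imgE E e W1 W2) 0| * |lin E W1 W2 x 1| ≤ 1 * A :=
      mul_le_mul hc0 hy1 (abs_nonneg _) zero_le_one
    have g2 : |(imgE E e W1 W2) 1| * |lin E W1 W2 x 0| ≤ 1 * A :=
      mul_le_mul hc1 hy0 (abs_nonneg _) zero_le_one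
    linarith

/-- **(N3)**, one line: image of the plank `(b, e; w1, w2)`, dimensions `(w1/W1, 2A)` -/
theorem inPlank_img {E e : E2} {W1 W2 w1 w2 θ A z0 ρ : ℝ} {t b : Ln} (L0 : Ln) (hE : dt E E = 1)
    (he : dt e e = 1) (h1 : 0 < W1) (h : W1 ≤ W2) (hw1 : 0 ≤ w1)
    (hA1 : w1 + θ * w2 ≤ A * W1) (hA2 : w1 + w2 ≤ A * W2)
    (hθ : |cr E e| ≤ θ) (ht : InPlank t b e w1 w2 z0 ρ) :
    InPlank (nrm E L0 W1 W2 t) (nrm E L0 W1 W2 b) (imgE E e W1 W2) (w1 / W1) (2 * A) z0 ρ := by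
  intro z hz
  obtain ⟨g1, g2⟩ := ht z hz
  have : pos (nrm E L0 W1 W2 t) z - pos (nrm E L0 W1 W2 b) z
      = lin E W1 W2 (pos t z - pos b z) := by
    rw [pos_nrm, pos_nrm, ← lin_sub]; congr 1; abel
  rw [this]
  exact lin_plank hE he h1 h hw1 hA1 hA2 hθ g1 g2

/-- the numerical part of (N3) -/
theorem vol_img {W1 W2 w1 w2 A M p q : ℝ} (h1 : 0 < W1) (h2 : 0 < W2) (hw1 : 0 < w1)
    (hw2 : 0 < w2) (hA : 0 < A) :
    8 * M * W1 ^ (1 + p) * W2 ^ (1 + q) * (w1 / W1) ^ (1 + p) * (2 * A) ^ (1 + q)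
      = 8 * (2 * A * W2 / w2) ^ (1 + q) * (M * w1 ^ (1 + p) * w2 ^ (1 + q)) := by
  have e1 : (w1 / W1) ^ (1 + p) = w1 ^ (1 + p) / W1 ^ (1 + p) := Real.div_rpow hw1.le h1.le _
  have e2 : (2 * A * W2 / w2) ^ (1 + q) = (2 * A) ^ (1 + q) * W2 ^ (1 + q) / w2 ^ (1 + q) := by
    rw [Real.div_rpow (by positivity) hw2.le, Real.mul_rpow (by positivity) h2.le]
  have hA' : 0 < W1 ^ (1 + p) := by positivity
  have hB' : 0 < w2 ^ (1 + q) := by positivity
  rw [e1, e2]; field_simp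


end

end Crest.Agent.R138.Norm70
end

-- ▼ part R138/Norm2_70
section

/-!
# R138: normalisation of a configuration with one deep level (helper70)

Frame (i), TEXT I, lemma NORM, finite form.  `I` = incidences (line, small cell); every incidence
lies in its top plank (label `g`, dimensions `(a1, a2)`, the small cell).  If the gap is not
negative, most flags of one line agree up to `θ = (a1/a2)/X`, and a dense part of `I` splits into
classes contained in one container; the affine map sends the container to the unit cube.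
-/

set_option autoImplicit false
set_option linter.unusedVariables false

open Finset

namespace Crest.Agent.R138.Norm70

open Crest.Agent.R138.Flag51 Crest.Agent.R138.Tilt51

noncomputable section

variable {Λ κ β : Type*}

open Classical in
/-- configuration with one deep level -/
structure Cfg1 (I : Finset (Λ × κ)) (L : Λ → Ln) (zc : κ → ℝ) (g : Λ × κ → β) (bK : β → Ln)
    (eK : β → E2) (a1 a2 z0 ρ ρ' M0 M1 E1 p q r0 R0 : ℝ) : Prop where
  cell : ∀ x ∈ I, ∀ y ∈ I, g x = g y → x.2 = y.2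
  unit : ∀ x ∈ I, dt (eK (g x)) (eK (g x)) = 1
  mem : ∀ x ∈ I, InPlank (L x.1) (bK (g x)) (eK (g x)) a1 a2 (zc x.2) ρ'
  low : ∀ x ∈ I, M1 * a1 ^ (1 + p) * a2 ^ (1 + q) ≤ E1 * ((I.filter fun y => g y = g x).card : ℝ)
  dmax : ∀ (l : Ln) (e : E2) (b1 b2 : ℝ), dt e e = 1 → r0 ≤ b1 → b1 ≤ b2 → b2 ≤ R0 →
    (((I.image Prod.fst).filter fun i => InPlank (L i) l e b1 b2 z0 ρ).card : ℝ) ≤
      M0 * b1 ^ (1 + p) * b2 ^ (1 + q)
  hz : ∀ x ∈ I, |zc x.2 - z0| ≤ ρ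

open Classical in
/-- lines alive in the small cell `j` -/
def sl (I : Finset (Λ × κ)) (j : κ) : Finset Λ := (I.image Prod.fst).filter fun i => (i, j) ∈ I

theorem mem_sl {I : Finset (Λ × κ)} {i : Λ} {j : κ} : i ∈ sl I j ↔ (i, j) ∈ I := by
  classical
  unfold sl
  rw [mem_filter, mem_image]
  exact ⟨fun h => h.2, fun h => ⟨⟨(i, j), h, rfl⟩, h⟩⟩

variable {I : Finset (Λ × κ)} {L : Λ → Ln} {zc : κ → ℝ} {g : Λ × κ → β} {bK : β → Ln}
  {eK : β → E2} {a1 a2 z0 ρ ρ' M0 M1 E1 p q r0 R0 : ℝ}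

theorem Cfg1.near (h : Cfg1 I L zc g bK eK a1 a2 z0 ρ ρ' M0 M1 E1 p q r0 R0) (j : κ) :
    Near (sl I j) L (fun _ => (1 : ℝ)) (fun i => g (i, j)) bK eK a1 a2 (zc j) ρ' M1 E1 p q := by
  classical
  refine ⟨fun t ht => h.unit _ (mem_sl.1 ht), fun t ht => h.mem _ (mem_sl.1 ht), fun t ht => ?_⟩
  have h1 := h.low (t, j) (mem_sl.1 ht)
  have h2 : (I.filter fun y => g y = g (t, j)).card ≤
      ((sl I j).filter fun s => g (s, j) = g (t, j)).card := by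
    refine card_le_card_of_injOn Prod.fst ?_ ?_
    · intro y hy
      rw [mem_coe, mem_filter] at hy
      have hj : y.2 = j := h.cell y hy.1 (t, j) (mem_sl.1 ht) hy.2
      have hy' : (y.1, j) = y := by rw [← hj]
      rw [mem_coe, mem_filter, mem_sl, hy']
      exact hy
    · intro y hy y' hy' heq
      rw [mem_coe, mem_filter] at hy hy'
      have hj : y.2 = j := h.cell y hy.1 (t, j) (mem_sl.1 ht) hy.2
      have hj' : y'.2 = j := h.cell y' hy'.1 (t, j) (mem_sl.1 ht) hy'.2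
      exact Prod.ext heq (hj.trans hj'.symm)
  have h3 : ((I.filter fun y => g y = g (t, j)).card : ℝ) ≤
      ∑ s ∈ sl I j with g (s, j) = g (t, j), (1 : ℝ) := by
    rw [sum_const, nsmul_eq_mul, mul_one]; exact_mod_cast h2
  rcases le_or_gt 0 E1 with hE | hE
  · exact h1.trans (mul_le_mul_of_nonneg_left h3 hE)
  · -- `E1 < 0`: impossible to use monotonicity; the sets have equal size
    have h4 : ((sl I j).filter fun s => g (s, j) = g (t, j)).card ≤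
        (I.filter fun y => g y = g (t, j)).card := by
      refine card_le_card_of_injOn (fun s => (s, j)) ?_ ?_
      · intro s hs
        rw [mem_coe, mem_filter, mem_sl] at hs
        rw [mem_coe, mem_filter]
        exact hs
      · intro s _ s' _ heq
        exact (Prod.mk.inj heq).1
    have h5 := le_antisymm h2 h4
    have h6 : ((I.filter fun y => g y = g (t, j)).card : ℝ) =
        ∑ s ∈ sl I j with g (s, j) = g (t, j), (1 : ℝ) := by
      rw [sum_const, nsmul_eq_mul, mul_one]; exact_mod_cast h5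
    rw [h6] at h1
    exact h1

theorem Cfg1.dMax (h : Cfg1 I L zc g bK eK a1 a2 z0 ρ ρ' M0 M1 E1 p q r0 R0) (j : κ) :
    DMax (sl I j) L (fun _ => (1 : ℝ)) z0 ρ M0 p q r0 R0 := by
  classical
  intro l e b1 b2 he h1 h2 h3
  refine le_trans ?_ (h.dmax l e b1 b2 he h1 h2 h3)
  rw [sum_const, nsmul_eq_mul, mul_one]
  have : ((sl I j).filter fun t => InPlank (L t) l e b1 b2 z0 ρ) ⊆
      (I.image Prod.fst).filter fun i => InPlank (L i) l e b1 b2 z0 ρ := by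
    refine filter_subset_filter _ ?_
    unfold sl; exact filter_subset _ _
  exact_mod_cast card_le_card this

/-- the constant of the flag lemma for two small cells -/
def kap (E1 M0 M1 lam p q X : ℝ) : ℝ :=
  TiltG51.c0 p q * (E1 * (M0 / M1) * lam ^ (2 + p + q)) * (E1 * (M0 / M1) * lam ^ (2 + p + q)) /
    (1 - 2 ^ (p - q)) * X ^ (q - p)

theorem kap_nonneg {lam X : ℝ} (hpq : p < q) (hX : 0 ≤ X) (hE1 : 0 ≤ E1) (hM0 : 0 < M0)
    (hM1 : 0 < M1) (hlam : 0 ≤ lam) : 0 ≤ kap E1 M0 M1 lam p q X := by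
  have h2 : (2:ℝ) ^ (p - q) < 1 := Real.rpow_lt_one_of_one_lt_of_neg (by norm_num) (by linarith)
  have h3 : 0 < 1 - (2:ℝ) ^ (p - q) := by linarith
  unfold kap
  have h5 : 0 ≤ X ^ (q - p) := Real.rpow_nonneg hX _
  have h6 : 0 ≤ E1 * (M0 / M1) * lam ^ (2 + p + q) := by positivity
  have h7 := TiltG51.c0_pos p q
  positivity

open Classical in
/-- two small cells: few lines have different flags -/
theorem Cfg1.pair (h : Cfg1 I L zc g bK eK a1 a2 z0 ρ ρ' M0 M1 E1 p q r0 R0)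
    (hp : 0 ≤ p) (hpq : p < q) (hρ' : 0 < ρ') (hρ : ρ' ≤ ρ)
    (ha1 : 0 < a1) (ha12 : a1 ≤ a2) (hr0 : r0 ≤ 3 * (ρ / ρ') * a1)
    (hR0 : 8 * (3 * (ρ / ρ') * a2) ≤ R0) (hM0 : 0 < M0) (hM1 : 0 < M1) (hE1 : 0 ≤ E1)
    {θ : ℝ} (hθ : a1 ≤ θ * a2) (j j' : κ) :
    (((sl I j).filter fun i => (i, j') ∈ I ∧
      θ ≤ |cr (eK (g (i, j))) (eK (g (i, j')))|).card : ℝ) ≤
      kap E1 M0 M1 (3 * (ρ / ρ')) p q (a1 / (θ * a2)) * ((sl I j).card : ℝ) := by
  have ha2 : 0 < a2 := ha1.trans_le ha12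
  have hρ0 : 0 < ρ := hρ'.trans_le hρ
  have hl : 0 < 3 * (ρ / ρ') := by positivity
  have hθ0 : 0 < θ := by
    by_contra hc
    have : θ * a2 ≤ 0 := mul_nonpos_of_nonpos_of_nonneg (not_lt.1 hc) ha2.le
    linarith
  by_cases hE : ∃ i ∈ sl I j, i ∈ sl I j'
  · obtain ⟨i0, hi0, hi0'⟩ := hE
    have hz1 : |zc j - z0| ≤ ρ := h.hz (i0, j) (mem_sl.1 hi0)
    have hz2 : |zc j' - z0| ≤ ρ := h.hz (i0, j') (mem_sl.1 hi0')
    have n1 := (h.near j).extend hρ' hρ hz1 ha1 ha2 hM0.le hM1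
    have n2 := (h.near j').extend hρ' hρ hz2 ha1 ha2 hM0.le hM1
    have hlam : 3 * (ρ / ρ') * a1 ≤ 3 * (ρ / ρ') * a2 := mul_le_mul_of_nonneg_left ha12 hl.le
    have hEE : 0 ≤ E1 * (M0 / M1) * (3 * (ρ / ρ')) ^ (2 + p + q) := by positivity
    have key := TiltG51.flag2 n1 n2 (h.dMax j) (fun _ _ => zero_le_one) (h.dMax j')
      (fun _ _ => zero_le_one) hp hpq (w := 3 * (ρ / ρ') * a1) (by positivity) le_rfl
      (by positivity) (by positivity) hlam le_rfl (by rw [min_self]; exact hr0) hR0 hM0.le hM0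
      hEE hEE (θ := θ) (by
        rw [max_self]
        calc 3 * (ρ / ρ') * a1 ≤ 3 * (ρ / ρ') * (θ * a2) := mul_le_mul_of_nonneg_left hθ hl.le
          _ = θ * (3 * (ρ / ρ') * a2) := by ring)
    rw [max_self, sum_const, nsmul_eq_mul, mul_one, sum_const, nsmul_eq_mul, mul_one] at key
    have hX : 3 * (ρ / ρ') * a1 / (θ * (3 * (ρ / ρ') * a2)) = a1 / (θ * a2) := by
      field_simp
    rw [hX] at key
    refine le_trans ?_ key
    refine Nat.cast_le.2 (card_le_card ?_)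
    intro i hi
    rw [mem_filter] at hi ⊢
    exact ⟨hi.1, i, mem_sl.2 hi.2.1, close_self (by positivity) _, hi.2.2⟩
  · have : ((sl I j).filter fun i => (i, j') ∈ I ∧
        θ ≤ |cr (eK (g (i, j))) (eK (g (i, j')))|) = ∅ := by
      rw [filter_eq_empty_iff]
      intro i hi hc
      exact hE ⟨i, hi, mem_sl.2 hc.1⟩
    rw [this, card_empty, Nat.cast_zero]
    have h2 : (2:ℝ) ^ (p - q) < 1 := Real.rpow_lt_one_of_one_lt_of_neg (by norm_num) (by linarith)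
    have h3 : 0 < 1 - (2:ℝ) ^ (p - q) := by linarith
    unfold kap
    have h4 : 0 ≤ a1 / (θ * a2) := by positivity
    have h5 : 0 ≤ (a1 / (θ * a2)) ^ (q - p) := Real.rpow_nonneg h4 _
    have h6 : 0 ≤ E1 * (M0 / M1) * (3 * (ρ / ρ')) ^ (2 + p + q) := by positivity
    have h7 := TiltG51.c0_pos p q
    positivity

end

end Crest.Agent.R138.Norm70
end

-- ▼ part R138/Norm3_70
section

/-!
# R138: flags of lines, labels, popular classes, pruning (helper70)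
-/

set_option autoImplicit false
set_option linter.unusedVariables false

open Finset

namespace Crest.Agent.R138.Norm70

open Crest.Agent.R138.Flag51 Crest.Agent.R138.Tilt51

noncomputable section

/-! ### choice of the flag of a line -/

section flags

variable {Λ κ β : Type*} {I : Finset (Λ × κ)} {L : Λ → Ln} {zc : κ → ℝ} {g : Λ × κ → β}
  {bK : β → Ln} {eK : β → E2} {a1 a2 z0 ρ ρ' M0 M1 E1 p q r0 R0 : ℝ}

open Classical in
/-- averaging over pairs of cells -/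
theorem choose_flag (I : Finset (Λ × κ)) (hI : I.Nonempty) (T : Λ → κ → κ → Prop) {K N n1 : ℝ}
    (hK : 0 ≤ K)
    (hT : ∀ j j', (((sl I j).filter fun i => (i, j') ∈ I ∧ T i j j').card : ℝ) ≤
      K * ((sl I j).card : ℝ))
    (hN : ((I.image Prod.snd).card : ℝ) ≤ N) (hn1 : 0 < n1)
    (hn : ∀ x ∈ I, n1 ≤ ((I.filter fun y => y.1 = x.1).card : ℝ)) (hs : 4 * (K * N) ≤ n1) :
    ∃ φ : Λ → κ, (∀ x ∈ I, (x.1, φ x.1) ∈ I) ∧
      4 * ((I.filter fun x => T x.1 (φ x.1) x.2).card : ℝ) ≤ (I.card : ℝ) := by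
  obtain ⟨x0, hx0⟩ := hI
  set S := I.image Prod.fst with hS
  set C := I.image Prod.snd with hC
  set ce : Λ → Finset κ := fun i => C.filter fun j => (i, j) ∈ I with hce
  have mem_ce : ∀ i j, j ∈ ce i ↔ (i, j) ∈ I := by
    intro i j
    rw [hce]; simp only [mem_filter]
    exact ⟨fun h => h.2, fun h => ⟨mem_image.2 ⟨(i, j), h, rfl⟩, h⟩⟩
  set b : Λ → κ → ℕ := fun i j => ((ce i).filter fun j' => T i j j').card with hb
  -- minimiser
  have hmin : ∀ i ∈ S, ∃ j ∈ ce i, ∀ j' ∈ ce i, b i j ≤ b i j' := by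
    intro i hi
    obtain ⟨x, hx, rfl⟩ := mem_image.1 hi
    obtain ⟨j, hj, hj2⟩ := exists_min_image (ce x.1) (b x.1) ⟨x.2, (mem_ce _ _).2 hx⟩
    exact ⟨j, hj, hj2⟩
  set φ : Λ → κ := fun i => if h : ∃ j ∈ ce i, ∀ j' ∈ ce i, b i j ≤ b i j' then h.choose else x0.2
    with hφ
  have hφ1 : ∀ i ∈ S, φ i ∈ ce i ∧ ∀ j' ∈ ce i, b i (φ i) ≤ b i j' := by
    intro i hi
    have h := hmin i hi
    simp only [hφ, dif_pos h]
    exact ⟨h.choose_spec.1, h.choose_spec.2⟩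
  refine ⟨φ, fun x hx => (mem_ce _ _).1 (hφ1 x.1 (mem_image_of_mem _ hx)).1, ?_⟩
  -- sum over lines of the square
  have hcard : ∀ i ∈ S, (ce i).card = (I.filter fun y => y.1 = i).card := by
    intro i _
    refine card_bij (fun j _ => (i, j)) ?_ ?_ ?_
    · intro j hj; rw [mem_filter]; exact ⟨(mem_ce _ _).1 hj, rfl⟩
    · intro j _ j' _ h; exact (Prod.mk.inj h).2
    · intro y hy
      rw [mem_filter] at hy
      have : (i, y.2) = y := by rw [← hy.2]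
      exact ⟨y.2, (mem_ce _ _).2 (by rw [this]; exact hy.1), this⟩
  have hbad : (I.filter fun x => T x.1 (φ x.1) x.2).card = ∑ i ∈ S, b i (φ i) := by
    rw [card_eq_sum_card_fiberwise (f := Prod.fst) (t := S)]
    · refine sum_congr rfl fun i hi => ?_
      rw [hb]
      refine card_bij' (fun y _ => y.2) (fun j _ => (i, j)) ?_ ?_ ?_ ?_
      · intro y hy
        rw [mem_filter, mem_filter] at hy
        have : (i, y.2) = y := by rw [← hy.2]
        rw [mem_filter, mem_ce, this]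
        refine ⟨hy.1.1, ?_⟩
        have h2 := hy.1.2
        rw [hy.2] at h2
        exact h2
      · intro j hj
        rw [mem_filter, mem_ce] at hj
        rw [mem_filter, mem_filter]
        exact ⟨⟨hj.1, hj.2⟩, rfl⟩
      · intro y hy
        rw [mem_filter] at hy
        exact Prod.ext hy.2.symm rfl
      · intro j _; rfl
    · intro x hx
      rw [mem_coe, mem_filter] at hx
      exact mem_coe.2 (mem_image_of_mem _ hx.1)
  -- double sum
  have hdouble : ∑ i ∈ S, ∑ j ∈ ce i, (b i j : ℝ) ≤ K * N * (I.card : ℝ) := by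
    have e1 : ∀ i ∈ S, ∑ j ∈ ce i, (b i j : ℝ) =
        ∑ j ∈ C, ∑ j' ∈ C, if (i, j) ∈ I ∧ (i, j') ∈ I ∧ T i j j' then (1:ℝ) else 0 := by
      intro i _
      rw [hce]; simp only
      rw [sum_filter]
      refine sum_congr rfl fun j _ => ?_
      by_cases h : (i, j) ∈ I
      · rw [if_pos h, hb]; simp only
        rw [hce]; simp only
        rw [filter_filter, card_filter, Nat.cast_sum]
        refine sum_congr rfl fun j' _ => ?_
        by_cases h2 : (i, j') ∈ I ∧ T i j j'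
        · rw [if_pos h2, if_pos ⟨h, h2⟩]; simp
        · rw [if_neg h2, if_neg (fun hc => h2 hc.2)]; simp
      · rw [if_neg h]
        symm
        refine sum_eq_zero fun j' _ => if_neg fun hc => h hc.1
    rw [sum_congr rfl e1, sum_comm]
    have e2 : ∀ j ∈ C, ∑ i ∈ S, ∑ j' ∈ C,
        (if (i, j) ∈ I ∧ (i, j') ∈ I ∧ T i j j' then (1:ℝ) else 0) ≤
        (C.card : ℝ) * (K * ((sl I j).card : ℝ)) := by
      intro j _
      rw [sum_comm, ← nsmul_eq_mul]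
      refine sum_le_card_nsmul _ _ _ fun j' _ => ?_
      refine le_trans (le_of_eq ?_) (hT j j')
      rw [← sum_filter, sum_const, nsmul_eq_mul, mul_one]
      congr 2
      ext i
      rw [mem_filter, mem_filter, mem_sl]
      constructor
      · rintro ⟨_, h1, h2, h3⟩; exact ⟨h1, h2, h3⟩
      · rintro ⟨h1, h2, h3⟩; exact ⟨mem_image.2 ⟨(i, j), h1, rfl⟩, h1, h2, h3⟩
    refine (sum_le_sum e2).trans ?_
    rw [← mul_sum, ← mul_sum]
    have e3 : ∑ j ∈ C, ((sl I j).card : ℝ) = (I.card : ℝ) := by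
      rw [card_eq_sum_card_fiberwise (f := Prod.snd) (s := I) (t := C)
        (fun x hx => mem_coe.2 (mem_image_of_mem _ (mem_coe.1 hx)))]
      push_cast
      refine sum_congr rfl fun j _ => ?_
      norm_cast
      refine card_bij (fun i _ => (i, j)) ?_ ?_ ?_
      · intro i hi; rw [mem_filter]; exact ⟨mem_sl.1 hi, rfl⟩
      · intro i _ i' _ h; exact (Prod.mk.inj h).1
      · intro y hy
        rw [mem_filter] at hy
        have : (y.1, j) = y := by rw [← hy.2]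
        exact ⟨y.1, mem_sl.2 (by rw [this]; exact hy.1), this⟩
    rw [e3]
    have : (0:ℝ) ≤ K * (I.card : ℝ) := by positivity
    calc (C.card : ℝ) * (K * (I.card : ℝ)) ≤ N * (K * (I.card : ℝ)) :=
          mul_le_mul_of_nonneg_right hN this
      _ = K * N * (I.card : ℝ) := by ring
  have hsq : n1 * ((I.filter fun x => T x.1 (φ x.1) x.2).card : ℝ) ≤
      ∑ i ∈ S, ∑ j ∈ ce i, (b i j : ℝ) := by
    rw [hbad]; push_cast; rw [mul_sum]
    refine sum_le_sum fun i hi => ?_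
    obtain ⟨x, hx, rfl⟩ := mem_image.1 hi
    have h1 := hn x hx
    rw [← hcard _ hi] at h1
    calc n1 * (b x.1 (φ x.1) : ℝ) ≤ ((ce x.1).card : ℝ) * (b x.1 (φ x.1) : ℝ) :=
          mul_le_mul_of_nonneg_right h1 (Nat.cast_nonneg _)
      _ = ∑ j ∈ ce x.1, (b x.1 (φ x.1) : ℝ) := by rw [sum_const, nsmul_eq_mul]
      _ ≤ ∑ j ∈ ce x.1, (b x.1 j : ℝ) :=
          sum_le_sum fun j hj => by exact_mod_cast (hφ1 x.1 hi).2 j hj
  have h3 : n1 * (4 * ((I.filter fun x => T x.1 (φ x.1) x.2).card : ℝ)) ≤ n1 * (I.card : ℝ) := by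
    have h0 : (0:ℝ) ≤ (I.card : ℝ) := Nat.cast_nonneg _
    calc n1 * (4 * ((I.filter fun x => T x.1 (φ x.1) x.2).card : ℝ))
        = 4 * (n1 * ((I.filter fun x => T x.1 (φ x.1) x.2).card : ℝ)) := by ring
      _ ≤ 4 * (K * N * (I.card : ℝ)) :=
          mul_le_mul_of_nonneg_left (hsq.trans hdouble) (by norm_num)
      _ = (4 * (K * N)) * (I.card : ℝ) := by ring
      _ ≤ n1 * (I.card : ℝ) := mul_le_mul_of_nonneg_right hs h0
  exact le_of_mul_le_mul_left h3 hn1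

end flags

/-! ### pruning with thresholds relative to the original fibres -/

open Classical in
theorem prune_rel {α β γ : Type*} (I A0 : Finset α) (hA0 : A0 ⊆ I) (f : α → β) (g : α → γ)
    {δ : ℝ} (hδ : 0 ≤ δ) :
    ∃ A ⊆ A0, (A0.card : ℝ) - 2 * δ * (I.card : ℝ) ≤ (A.card : ℝ) ∧
      (∀ x ∈ A, δ * ((I.filter fun y => f y = f x).card : ℝ) ≤
        ((A.filter fun y => f y = f x).card : ℝ)) ∧
      (∀ x ∈ A, δ * ((I.filter fun y => g y = g x).card : ℝ) ≤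
        ((A.filter fun y => g y = g x).card : ℝ)) := by
  set F : β → ℝ := fun b => δ * ((I.filter fun y => f y = b).card : ℝ) with hF
  set G : γ → ℝ := fun b => δ * ((I.filter fun y => g y = b).card : ℝ) with hG
  have hF0 : ∀ b, 0 ≤ F b := fun b => by rw [hF]; positivity
  have hG0 : ∀ b, 0 ≤ G b := fun b => by rw [hG]; positivity
  set Ψ : Finset α → ℝ := fun A => (A.card : ℝ) - ∑ b ∈ A.image f, F b - ∑ b ∈ A.image g, G b
    with hΨ
  obtain ⟨A, hA, hmax⟩ := exists_max_image A0.powerset Ψ ⟨A0, mem_powerset_self A0⟩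
  rw [mem_powerset] at hA
  have hsumF : ∀ B ⊆ I, ∑ b ∈ B.image f, F b ≤ δ * (I.card : ℝ) := by
    intro B hB
    rw [hF, ← mul_sum]
    refine mul_le_mul_of_nonneg_left ?_ hδ
    rw [card_eq_sum_card_fiberwise (f := f) (s := I) (t := I.image f)
      (fun x hx => mem_coe.2 (mem_image_of_mem _ (mem_coe.1 hx)))]
    push_cast
    exact sum_le_sum_of_subset_of_nonneg (image_subset_image hB) fun _ _ _ => Nat.cast_nonneg _
  have hsumG : ∀ B ⊆ I, ∑ b ∈ B.image g, G b ≤ δ * (I.card : ℝ) := by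
    intro B hB
    rw [hG, ← mul_sum]
    refine mul_le_mul_of_nonneg_left ?_ hδ
    rw [card_eq_sum_card_fiberwise (f := g) (s := I) (t := I.image g)
      (fun x hx => mem_coe.2 (mem_image_of_mem _ (mem_coe.1 hx)))]
    push_cast
    exact sum_le_sum_of_subset_of_nonneg (image_subset_image hB) fun _ _ _ => Nat.cast_nonneg _
  refine ⟨A, hA, ?_, ?_, ?_⟩
  · have h1 := hmax A0 (mem_powerset_self A0)
    have h2 := hsumF A0 hA0
    have h3 := hsumG A0 hA0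
    have h4 : 0 ≤ ∑ b ∈ A.image f, F b := sum_nonneg fun b _ => hF0 b
    have h5 : 0 ≤ ∑ b ∈ A.image g, G b := sum_nonneg fun b _ => hG0 b
    simp only [hΨ] at h1
    linarith
  · intro x hx
    set B := A.filter fun y => f y ≠ f x with hB
    have hBA : B ⊆ A := filter_subset _ _
    have h1 := hmax B (mem_powerset.2 (hBA.trans hA))
    have h2 : ∑ b ∈ B.image g, G b ≤ ∑ b ∈ A.image g, G b :=
      sum_le_sum_of_subset_of_nonneg (image_subset_image hBA) fun b _ _ => hG0 b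
    have h3 : ∑ b ∈ B.image f, F b + F (f x) ≤ ∑ b ∈ A.image f, F b := by
      have hnot : f x ∉ B.image f := by
        intro hc
        obtain ⟨y, hy, hy2⟩ := mem_image.1 hc
        rw [hB, mem_filter] at hy
        exact hy.2 hy2
      have : ∑ b ∈ insert (f x) (B.image f), F b = F (f x) + ∑ b ∈ B.image f, F b :=
        sum_insert hnot
      rw [add_comm, ← this]
      refine sum_le_sum_of_subset_of_nonneg ?_ fun b _ _ => hF0 b
      intro b hb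
      rcases mem_insert.1 hb with h | h
      · rw [h]; exact mem_image_of_mem _ hx
      · exact image_subset_image hBA h
    have h4 : (A.card : ℝ) = (B.card : ℝ) + ((A.filter fun y => f y = f x).card : ℝ) := by
      have := card_filter_add_card_filter_not (s := A) (fun y => f y = f x)
      rw [hB]; push_cast [← this]; ring
    simp only [hΨ] at h1
    have h5 : F (f x) = δ * ((I.filter fun y => f y = f x).card : ℝ) := rfl
    linarith
  · intro x hx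
    set B := A.filter fun y => g y ≠ g x with hB
    have hBA : B ⊆ A := filter_subset _ _
    have h1 := hmax B (mem_powerset.2 (hBA.trans hA))
    have h2 : ∑ b ∈ B.image f, F b ≤ ∑ b ∈ A.image f, F b :=
      sum_le_sum_of_subset_of_nonneg (image_subset_image hBA) fun b _ _ => hF0 b
    have h3 : ∑ b ∈ B.image g, G b + G (g x) ≤ ∑ b ∈ A.image g, G b := by
      have hnot : g x ∉ B.image g := by
        intro hc
        obtain ⟨y, hy, hy2⟩ := mem_image.1 hc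
        rw [hB, mem_filter] at hy
        exact hy.2 hy2
      have : ∑ b ∈ insert (g x) (B.image g), G b = G (g x) + ∑ b ∈ B.image g, G b :=
        sum_insert hnot
      rw [add_comm, ← this]
      refine sum_le_sum_of_subset_of_nonneg ?_ fun b _ _ => hG0 b
      intro b hb
      rcases mem_insert.1 hb with h | h
      · rw [h]; exact mem_image_of_mem _ hx
      · exact image_subset_image hBA h
    have h4 : (A.card : ℝ) = (B.card : ℝ) + ((A.filter fun y => g y = g x).card : ℝ) := by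
      have := card_filter_add_card_filter_not (s := A) (fun y => g y = g x)
      rw [hB]; push_cast [← this]; ring
    simp only [hΨ] at h1
    have h5 : G (g x) = δ * ((I.filter fun y => g y = g x).card : ℝ) := rfl
    linarith

/-! ### popular labels -/

theorem pigeon {α γ : Type*} [DecidableEq γ] (s : Finset α) (hs : s.Nonempty) (f : α → γ) (t : Finset γ)
    (hf : ∀ a ∈ s, f a ∈ t) {K : ℕ} (ht : t.card ≤ K) :
    ∃ y, (s.card : ℝ) ≤ K * ((s.filter fun a => f a = y).card : ℝ) := by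
  obtain ⟨a0, ha0⟩ := hs
  by_contra hcon
  push Not at hcon
  have h1 : (s.card : ℝ) = ∑ y ∈ t, ((s.filter fun a => f a = y).card : ℝ) := by
    rw [card_eq_sum_card_fiberwise (f := f) (s := s) (t := t)
      (fun x hx => mem_coe.2 (hf x (mem_coe.1 hx)))]
    push_cast; rfl
  have hK : 0 < K := lt_of_lt_of_le (card_pos.2 ⟨_, hf a0 ha0⟩) ht
  have hK' : (0:ℝ) < K := by exact_mod_cast hK
  have h2 : ∑ y ∈ t, ((s.filter fun a => f a = y).card : ℝ) < ∑ y ∈ t, (s.card : ℝ) / K := by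
    refine sum_lt_sum_of_nonempty ⟨_, hf a0 ha0⟩ fun y _ => ?_
    rw [lt_div_iff₀ hK', mul_comm]; exact hcon y
  rw [sum_const, nsmul_eq_mul, ← h1] at h2
  have h3 : (t.card : ℝ) * ((s.card : ℝ) / K) ≤ K * ((s.card : ℝ) / K) := by
    refine mul_le_mul_of_nonneg_right (by exact_mod_cast ht) (by positivity)
  have h4 : (K : ℝ) * ((s.card : ℝ) / K) = s.card := by field_simp
  linarith

theorem popular {α β γ : Type*} [Nonempty γ] [DecidableEq β] [DecidableEq γ] (A : Finset α) (g : α → β) (f : α → γ) {K : ℝ}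
    (h : ∀ x ∈ A, ∃ y, ((A.filter fun z => g z = g x).card : ℝ) ≤
      K * ((A.filter fun z => g z = g x ∧ f z = y).card : ℝ)) :
    ∃ pop : β → γ, (A.card : ℝ) ≤ K * ((A.filter fun z => f z = pop (g z)).card : ℝ) := by
  classical
  set pop : β → γ := fun a => if hx : ∃ y, ((A.filter fun z => g z = a).card : ℝ) ≤
      K * ((A.filter fun z => g z = a ∧ f z = y).card : ℝ) then hx.choose
    else Classical.arbitrary γ with hpop
  have hp : ∀ x ∈ A, ((A.filter fun z => g z = g x).card : ℝ) ≤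
      K * ((A.filter fun z => g z = g x ∧ f z = pop (g x)).card : ℝ) := by
    intro x hx
    have := h x hx
    simp only [hpop]
    rw [dif_pos this]
    exact this.choose_spec
  refine ⟨pop, ?_⟩
  rw [card_eq_sum_card_fiberwise (f := g) (s := A) (t := A.image g)
      (fun x hx => mem_coe.2 (mem_image_of_mem _ (mem_coe.1 hx))),
    card_eq_sum_card_fiberwise (f := g) (s := A.filter fun z => f z = pop (g z)) (t := A.image g)
      (fun x hx => mem_coe.2 (mem_image_of_mem _ (mem_filter.1 (mem_coe.1 hx)).1))]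
  push_cast
  rw [mul_sum]
  refine sum_le_sum fun a ha => ?_
  obtain ⟨x, hx, rfl⟩ := mem_image.1 ha
  refine (hp x hx).trans (le_of_eq ?_)
  congr 3
  ext z
  rw [mem_filter, mem_filter, mem_filter]
  constructor
  · rintro ⟨h1, h2, h3⟩; exact ⟨⟨h1, by rw [h2]; exact h3⟩, h2⟩
  · rintro ⟨⟨h1, h2⟩, h3⟩; exact ⟨h1, h3, by rw [← h3]; exact h2⟩

end

end Crest.Agent.R138.Norm70
end

-- ▼ part R138/Norm4_70
section

/-!
# R138: NORM, the container class and the normalised configuration (helper70)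
-/

set_option autoImplicit false
set_option linter.unusedVariables false

open Finset

namespace Crest.Agent.R138.Norm70

open Crest.Agent.R138.Flag51 Crest.Agent.R138.Tilt51

noncomputable section

/-- entries of the projection on `e` -/
def pr0 (e : E2) : ℝ := e 0 * e 0
def pr1 (e : E2) : ℝ := e 0 * e 1

theorem cr_sq {e e' : E2} (h : dt e e = 1) (h' : dt e' e' = 1) :
    cr e e' ^ 2 = (pr0 e - pr0 e') ^ 2 + (pr1 e - pr1 e') ^ 2 := by
  have h1 : e 0 * e 0 + e 1 * e 1 = 1 := h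
  have h2 : e' 0 * e' 0 + e' 1 * e' 1 = 1 := h'
  simp only [cr, pr0, pr1]
  linear_combination (e' 0 ^ 2 - e 0 ^ 2) * h1 + (e 0 ^ 2 - e' 0 ^ 2) * h2

theorem pr_le {e e' : E2} (h : dt e e = 1) (h' : dt e' e' = 1) {θ : ℝ} (hθ : |cr e e'| ≤ θ) :
    |pr0 e - pr0 e'| ≤ θ ∧ |pr1 e - pr1 e'| ≤ θ := by
  have h0 : 0 ≤ θ := (abs_nonneg _).trans hθ
  have h1 := cr_sq h h'
  have h2 : cr e e' ^ 2 ≤ θ ^ 2 := by
    rw [← sq_abs]; exact pow_le_pow_left₀ (abs_nonneg _) hθ 2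
  constructor
  · apply abs_le_of_sq_le_sq' _ h0 |> abs_le.2
    nlinarith [sq_nonneg (pr1 e - pr1 e')]
  · apply abs_le_of_sq_le_sq' _ h0 |> abs_le.2
    nlinarith [sq_nonneg (pr0 e - pr0 e')]

theorem cr_le_of_pr {e e' : E2} (h : dt e e = 1) (h' : dt e' e' = 1) {θ : ℝ} (hθ : 0 ≤ θ)
    (h0 : |pr0 e - pr0 e'| ≤ θ) (h1 : |pr1 e - pr1 e'| ≤ θ) : |cr e e'| ≤ 2 * θ := by
  have h2 := cr_sq h h'
  have a0 : (pr0 e - pr0 e') ^ 2 ≤ θ ^ 2 := by
    rw [← sq_abs]; exact pow_le_pow_left₀ (abs_nonneg _) h0 2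
  have a1 : (pr1 e - pr1 e') ^ 2 ≤ θ ^ 2 := by
    rw [← sq_abs]; exact pow_le_pow_left₀ (abs_nonneg _) h1 2
  apply abs_le_of_sq_le_sq' _ (by positivity) |> abs_le.2
  nlinarith [sq_nonneg θ]

theorem floor_mem {x c : ℝ} (h : |x - c| ≤ 1) : ⌊x⌋ ∈ Icc (⌊c⌋ - 1) (⌊c⌋ + 1) := by
  rw [abs_le] at h
  rw [mem_Icc]
  constructor
  · rw [← Int.floor_sub_one]; exact Int.floor_le_floor (by linarith)
  · rw [← Int.floor_add_one]; exact Int.floor_le_floor (by linarith)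

theorem card_three (a : ℤ) : (Icc (a - 1) (a + 1)).card = 3 := by
  rw [Int.card_Icc]; omega

theorem floor_div_mem {x c W : ℝ} (hW : 0 < W) (h : |x - c| ≤ W) :
    ⌊x / W⌋ ∈ Icc (⌊c / W⌋ - 1) (⌊c / W⌋ + 1) := by
  apply floor_mem
  rw [← sub_div, abs_div, abs_of_pos hW, div_le_one hW]; exact h

theorem abs_le_of_floor {x y W : ℝ} (hW : 0 < W) (h : ⌊x / W⌋ = ⌊y / W⌋) : |x - y| ≤ W := by
  have h1 := Int.abs_sub_lt_one_of_floor_eq_floor h
  rw [← sub_div, abs_div, abs_of_pos hW, div_lt_one hW] at h1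
  exact h1.le

/-- an affine function bounded at the two ends -/
theorem affine_ends {A B W z0 ρ : ℝ} (hρ : 0 < ρ) (h1 : |A + (z0 + ρ) * B| ≤ W)
    (h2 : |A + (z0 - ρ) * B| ≤ W) {z : ℝ} (hz : |z - z0| ≤ ρ) : |A + z * B| ≤ W := by
  rw [abs_le] at *
  obtain ⟨a, b⟩ := hz
  constructor
  · have e : 2 * ρ * (A + z * B) = (z - z0 + ρ) * (A + (z0 + ρ) * B) +
        (ρ - (z - z0)) * (A + (z0 - ρ) * B) := by ring
    have k1 : (z - z0 + ρ) * (-W) ≤ (z - z0 + ρ) * (A + (z0 + ρ) * B) :=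
      mul_le_mul_of_nonneg_left h1.1 (by linarith)
    have k2 : (ρ - (z - z0)) * (-W) ≤ (ρ - (z - z0)) * (A + (z0 - ρ) * B) :=
      mul_le_mul_of_nonneg_left h2.1 (by linarith)
    have k3 : 2 * ρ * (-W) ≤ 2 * ρ * (A + z * B) := by
      rw [e]; linarith
    exact le_of_mul_le_mul_left k3 (by linarith)
  · have e : 2 * ρ * (A + z * B) = (z - z0 + ρ) * (A + (z0 + ρ) * B) +
        (ρ - (z - z0)) * (A + (z0 - ρ) * B) := by ring
    have k1 : (z - z0 + ρ) * (A + (z0 + ρ) * B) ≤ (z - z0 + ρ) * W :=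
      mul_le_mul_of_nonneg_left h1.2 (by linarith)
    have k2 : (ρ - (z - z0)) * (A + (z0 - ρ) * B) ≤ (ρ - (z - z0)) * W :=
      mul_le_mul_of_nonneg_left h2.2 (by linarith)
    have k3 : 2 * ρ * (A + z * B) ≤ 2 * ρ * W := by
      rw [e]; linarith
    exact le_of_mul_le_mul_left k3 (by linarith)

theorem inPlank_of_ends {t l : Ln} {e : E2} {b1 b2 z0 ρ : ℝ} (hρ : 0 < ρ)
    (h1 : |dt (pos t (z0 + ρ)) e - dt (pos l (z0 + ρ)) e| ≤ b1)
    (h2 : |dt (pos t (z0 - ρ)) e - dt (pos l (z0 - ρ)) e| ≤ b1)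
    (h3 : |cr e (pos t (z0 + ρ)) - cr e (pos l (z0 + ρ))| ≤ b2)
    (h4 : |cr e (pos t (z0 - ρ)) - cr e (pos l (z0 - ρ))| ≤ b2) : InPlank t l e b1 b2 z0 ρ := by
  intro z hz
  have f1 : ∀ z, dt (pos t z) e - dt (pos l z) e = (dt t.1 e - dt l.1 e) +
      z * (dt t.2 e - dt l.2 e) := by
    intro z; simp [dt, pos]; ring
  have f2 : ∀ z, cr e (pos t z) - cr e (pos l z) = (cr e t.1 - cr e l.1) +
      z * (cr e t.2 - cr e l.2) := by
    intro z; simp [cr, pos]; ring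
  rw [f1] at h1 h2
  rw [f2] at h3 h4
  rw [dt_sub, cr_sub, f1, f2]
  exact ⟨affine_ends hρ h1 h2 hz, affine_ends hρ h3 h4 hz⟩

/-- distance of a line of the plank `(b, e; c1, c2)` to `b` in the frame `E` -/
theorem frame_change {t b : Ln} {E e : E2} {c1 c2 θ z0 ρ : ℝ} (hE : dt E E = 1)
    (he : dt e e = 1) (hθ : |cr E e| ≤ θ) (h : InPlank t b e c1 c2 z0 ρ) {z : ℝ}
    (hz : |z - z0| ≤ ρ) :
    |dt (pos t z) E - dt (pos b z) E| ≤ c1 + θ * c2 ∧
      |cr E (pos t z) - cr E (pos b z)| ≤ c1 + c2 := by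
  obtain ⟨g1, g2⟩ := h z hz
  rw [← dt_sub, ← cr_sub]
  constructor
  · rw [dt_of he (pos t z - pos b z)]
    refine (abs_sub _ _).trans ?_
    rw [abs_mul, abs_mul]
    have k1 : |dt E e| * |dt (pos t z - pos b z) e| ≤ 1 * c1 :=
      mul_le_mul (abs_dt_le_one hE he) g1 (abs_nonneg _) zero_le_one
    have k2 : |cr E e| * |cr e (pos t z - pos b z)| ≤ θ * c2 :=
      mul_le_mul hθ g2 (abs_nonneg _) ((abs_nonneg _).trans hθ)
    linarith
  · rw [cr_of he (pos t z - pos b z)]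
    refine (abs_add_le _ _).trans ?_
    rw [abs_mul, abs_mul]
    have k1 : |cr E e| * |dt (pos t z - pos b z) e| ≤ 1 * c1 :=
      mul_le_mul (abs_cr_le_one hE he) g1 (abs_nonneg _) zero_le_one
    have k2 : |dt E e| * |cr e (pos t z - pos b z)| ≤ 1 * c2 :=
      mul_le_mul (abs_dt_le_one hE he) g2 (abs_nonneg _) zero_le_one
    linarith

section cls

variable {Λ κ β : Type*} {I : Finset (Λ × κ)} {L : Λ → Ln} {zc : κ → ℝ} {g : Λ × κ → β}
  {bK : β → Ln} {eK : β → E2} {a1 a2 z0 ρ ρ' M0 M1 E1 p q r0 R0 : ℝ}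

open Classical in
/-- flags of the lines -/
theorem Cfg1.exists_flags (h : Cfg1 I L zc g bK eK a1 a2 z0 ρ ρ' M0 M1 E1 p q r0 R0)
    (hI : I.Nonempty) (hp : 0 ≤ p) (hpq : p < q) (hρ' : 0 < ρ') (hρ : ρ' ≤ ρ)
    (ha1 : 0 < a1) (ha12 : a1 ≤ a2) (hr0 : r0 ≤ 3 * (ρ / ρ') * a1)
    (hR0 : 8 * (3 * (ρ / ρ') * a2) ≤ R0) (hM0 : 0 < M0) (hM1 : 0 < M1) (hE1 : 0 ≤ E1)
    {θ N n1 : ℝ} (hθ : a1 ≤ θ * a2)
    (hN : ((I.image Prod.snd).card : ℝ) ≤ N) (hn1 : 0 < n1)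
    (hn : ∀ x ∈ I, n1 ≤ ((I.filter fun y => y.1 = x.1).card : ℝ))
    (hs : θ = 1 ∨ 4 * (kap E1 M0 M1 (3 * (ρ / ρ')) p q (a1 / (θ * a2)) * N) ≤ n1) :
    ∃ φ : Λ → κ, (∀ x ∈ I, (x.1, φ x.1) ∈ I) ∧
      4 * ((I.filter fun x => θ < |cr (eK (g (x.1, φ x.1))) (eK (g x))|).card : ℝ) ≤
        (I.card : ℝ) := by
  have ha2 : 0 < a2 := ha1.trans_le ha12
  have hθ0 : 0 < θ := by
    by_contra hc
    have : θ * a2 ≤ 0 := mul_nonpos_of_nonpos_of_nonneg (not_lt.1 hc) ha2.le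
    linarith
  rcases hs with hs | hs
  · obtain ⟨φ, h1, h2⟩ := choose_flag I hI
      (fun i j j' => θ < |cr (eK (g (i, j))) (eK (g (i, j')))|)
      (K := 0) (N := N) le_rfl (fun j j' => by
        rw [zero_mul]
        refine le_of_eq ?_
        rw [Nat.cast_eq_zero, card_eq_zero, filter_eq_empty_iff]
        rintro i hi ⟨c2, c3⟩
        rw [hs] at c3
        exact absurd (abs_cr_le_one (h.unit _ (mem_sl.1 hi)) (h.unit _ c2)) (not_le.2 c3))
        hN hn1 hn (by simpa using hn1.le)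
    exact ⟨φ, h1, h2⟩
  · obtain ⟨φ, h1, h2⟩ := choose_flag I hI
      (fun i j j' => θ < |cr (eK (g (i, j))) (eK (g (i, j')))|)
      (K := kap E1 M0 M1 (3 * (ρ / ρ')) p q (a1 / (θ * a2))) (N := N)
      (kap_nonneg hpq (by positivity) hE1 hM0 hM1 (by
        have : 0 < ρ := hρ'.trans_le hρ
        positivity)) (fun j j' => by
        refine le_trans ?_ (h.pair hp hpq hρ' hρ ha1 ha12 hr0 hR0 hM0 hM1 hE1 hθ j j')
        refine Nat.cast_le.2 (card_le_card ?_)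
        intro i hi
        rw [mem_filter] at hi ⊢
        exact ⟨hi.1, hi.2.1, hi.2.2.le⟩) hN hn1 hn hs
    exact ⟨φ, h1, h2⟩

/-- labels of a line: quantised flag, quantised position at the two ends -/
abbrev Lab := (ℤ × ℤ) × ((ℤ × ℤ) × (ℤ × ℤ))

/-- quantised flag -/
def fl (fe : Λ → E2) (θ : ℝ) (i : Λ) : ℤ × ℤ := (⌊pr0 (fe i) / θ⌋, ⌊pr1 (fe i) / θ⌋)

/-- quantised position in the frame `E` -/
def pl (L : Λ → Ln) (E : E2) (W1 W2 z0 ρ : ℝ) (i : Λ) : (ℤ × ℤ) × (ℤ × ℤ) :=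
  ((⌊dt (pos (L i) (z0 + ρ)) E / W1⌋, ⌊cr E (pos (L i) (z0 + ρ)) / W2⌋),
    (⌊dt (pos (L i) (z0 - ρ)) E / W1⌋, ⌊cr E (pos (L i) (z0 - ρ)) / W2⌋))

theorem inPlank_of_pl {E : E2} {W1 W2 : ℝ} (hρ : 0 < ρ) (hW1 : 0 < W1) (hW2 : 0 < W2) {i i' : Λ}
    (h : pl L E W1 W2 z0 ρ i = pl L E W1 W2 z0 ρ i') :
    InPlank (L i) (L i') E W1 W2 z0 ρ := by
  simp only [pl, Prod.mk.injEq] at h
  obtain ⟨⟨h1, h2⟩, h3, h4⟩ := h
  exact inPlank_of_ends hρ (abs_le_of_floor hW1 h1) (abs_le_of_floor hW1 h3)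
    (abs_le_of_floor hW2 h2) (abs_le_of_floor hW2 h4)

theorem pl_mem {E e : E2} {b : Ln} {c1 c2 W1 W2 θ : ℝ} (hρ : 0 < ρ) (hW1 : 0 < W1) (hW2 : 0 < W2)
    (hE : dt E E = 1) (he : dt e e = 1) (hθ : |cr E e| ≤ θ) (h1 : c1 + θ * c2 ≤ W1)
    (h2 : c1 + c2 ≤ W2) {i : Λ} (h : InPlank (L i) b e c1 c2 z0 ρ) :
    pl L E W1 W2 z0 ρ i ∈
      (Icc (⌊dt (pos b (z0 + ρ)) E / W1⌋ - 1) (⌊dt (pos b (z0 + ρ)) E / W1⌋ + 1) ×ˢ
        Icc (⌊cr E (pos b (z0 + ρ)) / W2⌋ - 1) (⌊cr E (pos b (z0 + ρ)) / W2⌋ + 1)) ×ˢ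
      (Icc (⌊dt (pos b (z0 - ρ)) E / W1⌋ - 1) (⌊dt (pos b (z0 - ρ)) E / W1⌋ + 1) ×ˢ
        Icc (⌊cr E (pos b (z0 - ρ)) / W2⌋ - 1) (⌊cr E (pos b (z0 - ρ)) / W2⌋ + 1)) := by
  have e1 : |(z0 + ρ) - z0| ≤ ρ := by rw [add_sub_cancel_left, abs_of_pos hρ]
  have e2 : |(z0 - ρ) - z0| ≤ ρ := by rw [sub_sub_cancel_left, abs_neg, abs_of_pos hρ]
  obtain ⟨a, b'⟩ := frame_change hE he hθ h e1
  obtain ⟨c, d⟩ := frame_change hE he hθ h e2
  rw [mem_product, mem_product, mem_product]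
  exact ⟨⟨floor_div_mem hW1 (a.trans h1), floor_div_mem hW2 (b'.trans h2)⟩,
    floor_div_mem hW1 (c.trans h1), floor_div_mem hW2 (d.trans h2)⟩

open Classical in
/-- **container classes**: `fe` = flag of a line, most incidences agree with it up to `θ` -/
theorem exists_class (I : Finset (Λ × κ)) (g : Λ × κ → β) (L : Λ → Ln) (fe : Λ → E2)
    (bK : β → Ln) (eK : β → E2) {c1 c2 θ : ℝ} (hρ : 0 < ρ) (hc1 : 0 < c1) (hc2 : 0 < c2)
    (hθ : c1 ≤ θ * c2) (hθ1 : θ ≤ 1) (hI : I.Nonempty)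
    (hu : ∀ x ∈ I, dt (fe x.1) (fe x.1) = 1) (hue : ∀ x ∈ I, dt (eK (g x)) (eK (g x)) = 1)
    (hmem : ∀ x ∈ I, InPlank (L x.1) (bK (g x)) (eK (g x)) c1 c2 z0 ρ)
    (hbad : 4 * ((I.filter fun x => θ < |cr (fe x.1) (eK (g x))|).card : ℝ) ≤ (I.card : ℝ)) :
    ∃ I' ⊆ I, ∃ (E : E2), ∃ x0 ∈ I', dt E E = 1 ∧
      (∀ x ∈ I', InPlank (L x.1) (L x0.1) E (4 * θ * c2) (4 * c2) z0 ρ) ∧
      (∀ x ∈ I', |cr (fe x.1) (eK (g x))| ≤ θ) ∧ (∀ x ∈ I', |cr E (eK (g x))| ≤ 3 * θ) ∧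
      (∀ x ∈ I', ((I.filter fun y => y.1 = x.1).card : ℝ) ≤
        2000 * ((I'.filter fun y => y.1 = x.1).card : ℝ)) ∧
      (∀ x ∈ I', ((I.filter fun y => g y = g x).card : ℝ) ≤
        2000 * ((I'.filter fun y => g y = g x).card : ℝ)) := by
  have hθ0 : 0 < θ := by
    by_contra hc
    have : θ * c2 ≤ 0 := mul_nonpos_of_nonpos_of_nonneg (not_lt.1 hc) hc2.le
    linarith
  have hIc : (0:ℝ) < (I.card : ℝ) := by exact_mod_cast card_pos.2 hI
  set W1 : ℝ := 4 * θ * c2 with hW1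
  set W2 : ℝ := 4 * c2 with hW2
  have hW1p : 0 < W1 := by positivity
  have hW2p : 0 < W2 := by positivity
  set S := I.image Prod.fst with hS
  -- representative frames
  obtain ⟨x00, hx00⟩ := hI
  set EE : ℤ × ℤ → E2 := fun l => if h : ∃ i ∈ S, fl fe θ i = l then fe h.choose else fe x00.1
    with hEE
  have hfeS : ∀ i ∈ S, dt (fe i) (fe i) = 1 := by
    intro i hi
    obtain ⟨x, hx, rfl⟩ := mem_image.1 hi
    exact hu x hx
  have hEEu : ∀ l, dt (EE l) (EE l) = 1 := by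
    intro l
    simp only [hEE]
    split_ifs with h
    · exact hfeS _ h.choose_spec.1
    · exact hu _ hx00
  have hEEc : ∀ i ∈ S, |cr (EE (fl fe θ i)) (fe i)| ≤ 2 * θ := by
    intro i hi
    have hex : ∃ i' ∈ S, fl fe θ i' = fl fe θ i := ⟨i, hi, rfl⟩
    have h1 : EE (fl fe θ i) = fe hex.choose := by simp only [hEE, dif_pos hex]
    rw [h1]
    have h2 := hex.choose_spec
    have h3 := h2.2
    exact cr_le_of_pr (hfeS _ h2.1) (hfeS _ hi) hθ0.le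
      (abs_le_of_floor hθ0 (congrArg Prod.fst h3)) (abs_le_of_floor hθ0 (congrArg Prod.snd h3))
  -- labels
  set lab : Λ × κ → Lab := fun x => (fl fe θ x.1, pl L (EE (fl fe θ x.1)) W1 W2 z0 ρ x.1) with hlab
  set A1 := I.filter fun x => ¬ θ < |cr (fe x.1) (eK (g x))| with hA1
  have hA1c : (3 / 4 : ℝ) * (I.card : ℝ) ≤ (A1.card : ℝ) := by
    have h1 := card_filter_add_card_filter_not (s := I) (fun x => θ < |cr (fe x.1) (eK (g x))|)
    have h2 : ((I.filter fun x => θ < |cr (fe x.1) (eK (g x))|).card : ℝ) + (A1.card : ℝ) =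
        (I.card : ℝ) := by
      rw [hA1]; exact_mod_cast h1
    linarith
  have hpop : ∀ x ∈ A1, ∃ y, ((A1.filter fun z => g z = g x).card : ℝ) ≤
      729 * ((A1.filter fun z => g z = g x ∧ lab z = y).card : ℝ) := by
    intro x hx
    set G := A1.filter fun z => g z = g x with hG
    have hxG : x ∈ G := by rw [hG, mem_filter]; exact ⟨hx, rfl⟩
    have hGI : ∀ z ∈ G, z ∈ I ∧ |cr (fe z.1) (eK (g x))| ≤ θ := by
      intro z hz
      rw [hG, mem_filter, hA1, mem_filter] at hz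
      refine ⟨hz.1.1, ?_⟩
      rw [← hz.2]; exact not_lt.1 hz.1.2
    have hxI : x ∈ I := (hGI x hxG).1
    -- first pigeonhole
    obtain ⟨l, hl⟩ := pigeon (K := 9) G ⟨x, hxG⟩ (fun z => fl fe θ z.1)
      (Icc (⌊pr0 (eK (g x)) / θ⌋ - 1) (⌊pr0 (eK (g x)) / θ⌋ + 1) ×ˢ
        Icc (⌊pr1 (eK (g x)) / θ⌋ - 1) (⌊pr1 (eK (g x)) / θ⌋ + 1))
      (fun z hz => by
        obtain ⟨h1, h2⟩ := hGI z hz
        have h3 := pr_le (hu z h1) (hue x hxI) h2
        rw [mem_product]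
        exact ⟨floor_div_mem hθ0 h3.1, floor_div_mem hθ0 h3.2⟩)
      (by rw [card_product, card_three, card_three])
    have hGpos : 0 < (G.card : ℝ) := by exact_mod_cast card_pos.2 ⟨x, hxG⟩
    set G2 := G.filter fun z => fl fe θ z.1 = l with hG2
    have hG2ne : G2.Nonempty := by
      rw [← card_pos]
      by_contra hc
      have : G2.card = 0 := by omega
      have hl2 : (G.card : ℝ) ≤ 9 * (G2.card : ℝ) := by exact_mod_cast hl
      rw [this] at hl2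
      simp only [Nat.cast_zero, mul_zero] at hl2
      linarith
    -- second pigeonhole
    obtain ⟨y, hy⟩ := pigeon (K := 81) G2 hG2ne (fun z => pl L (EE l) W1 W2 z0 ρ z.1)
      ((Icc (⌊dt (pos (bK (g x)) (z0 + ρ)) (EE l) / W1⌋ - 1)
          (⌊dt (pos (bK (g x)) (z0 + ρ)) (EE l) / W1⌋ + 1) ×ˢ
        Icc (⌊cr (EE l) (pos (bK (g x)) (z0 + ρ)) / W2⌋ - 1)
          (⌊cr (EE l) (pos (bK (g x)) (z0 + ρ)) / W2⌋ + 1)) ×ˢ
      (Icc (⌊dt (pos (bK (g x)) (z0 - ρ)) (EE l) / W1⌋ - 1)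
          (⌊dt (pos (bK (g x)) (z0 - ρ)) (EE l) / W1⌋ + 1) ×ˢ
        Icc (⌊cr (EE l) (pos (bK (g x)) (z0 - ρ)) / W2⌋ - 1)
          (⌊cr (EE l) (pos (bK (g x)) (z0 - ρ)) / W2⌋ + 1)))
      (fun z hz => by
        rw [hG2, mem_filter] at hz
        obtain ⟨hz1, hz2⟩ := hz
        obtain ⟨h1, h2⟩ := hGI z hz1
        have hzS : z.1 ∈ S := mem_image_of_mem _ h1
        have h3 : |cr (EE l) (eK (g x))| ≤ 3 * θ := by
          refine (abs_cr_triangle (hEEu l) (hu z h1) (hue x hxI)).trans ?_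
          have := hEEc z.1 hzS
          rw [hz2] at this
          linarith
        have h4 : InPlank (L z.1) (bK (g x)) (eK (g x)) c1 c2 z0 ρ := by
          have h5 := hmem z h1
          rw [hG, mem_filter] at hz1
          rw [hz1.2] at h5
          exact h5
        refine pl_mem hρ hW1p hW2p (hEEu l) (hue x hxI) h3 ?_ ?_ h4
        · rw [hW1]; nlinarith
        · rw [hW2]; nlinarith)
      (by rw [card_product, card_product, card_product, card_three, card_three, card_three,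
            card_three])
    refine ⟨(l, y), ?_⟩
    have h6 : (G2.filter fun z => pl L (EE l) W1 W2 z0 ρ z.1 = y).card ≤
        (A1.filter fun z => g z = g x ∧ lab z = (l, y)).card := by
      refine card_le_card ?_
      intro z hz
      rw [mem_filter, hG2, mem_filter, hG, mem_filter] at hz
      obtain ⟨⟨⟨h1, h2⟩, h3⟩, h4⟩ := hz
      rw [mem_filter]
      refine ⟨h1, h2, ?_⟩
      simp only [hlab, Prod.mk.injEq]
      rw [h3]
      exact ⟨rfl, h4⟩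
    have h7 : ((G2.filter fun z => pl L (EE l) W1 W2 z0 ρ z.1 = y).card : ℝ) ≤
        ((A1.filter fun z => g z = g x ∧ lab z = (l, y)).card : ℝ) := by exact_mod_cast h6
    push_cast at hl hy
    calc (G.card : ℝ) ≤ 9 * (G2.card : ℝ) := hl
      _ ≤ 9 * (81 * ((G2.filter fun z => pl L (EE l) W1 W2 z0 ρ z.1 = y).card : ℝ)) :=
          mul_le_mul_of_nonneg_left hy (by norm_num)
      _ ≤ 9 * (81 * ((A1.filter fun z => g z = g x ∧ lab z = (l, y)).card : ℝ)) := by gcongr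
      _ = 729 * ((A1.filter fun z => g z = g x ∧ lab z = (l, y)).card : ℝ) := by ring
  obtain ⟨pop, hpop'⟩ := popular (γ := Lab) A1 g lab hpop
  set A2 := A1.filter fun z => lab z = pop (g z) with hA2
  have hA2I : A2 ⊆ I := (filter_subset _ _).trans (filter_subset _ _)
  obtain ⟨A, hA, hc, hp1, hp2⟩ := prune_rel I A2 hA2I (Prod.fst : Λ × κ → Λ) g
    (δ := 1 / 2000) (by norm_num)
  have hAne : A.Nonempty := by
    rw [← card_pos]
    have : (0:ℝ) < (A.card : ℝ) := by linarith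
    exact_mod_cast this
  obtain ⟨x0, hx0⟩ := hAne
  have hAI : A ⊆ I := hA.trans hA2I
  refine ⟨A.filter fun x => lab x = lab x0, (filter_subset _ _).trans hAI, EE (fl fe θ x0.1), x0,
    by rw [mem_filter]; exact ⟨hx0, rfl⟩, hEEu _, ?_, ?_, ?_, ?_, ?_⟩
  · intro x hx
    rw [mem_filter] at hx
    have h1 := hx.2
    simp only [hlab, Prod.mk.injEq] at h1
    obtain ⟨h2, h3⟩ := h1
    rw [h2] at h3
    exact inPlank_of_pl hρ hW1p hW2p h3
  · intro x hx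
    rw [mem_filter] at hx
    have h1 : x ∈ A1 := (filter_subset _ _) (hA hx.1)
    rw [hA1, mem_filter] at h1
    exact not_lt.1 h1.2
  · intro x hx
    rw [mem_filter] at hx
    have h1 : x ∈ A1 := (filter_subset _ _) (hA hx.1)
    rw [hA1, mem_filter] at h1
    have h2 := hx.2
    simp only [hlab, Prod.mk.injEq] at h2
    have h3 := hEEc x.1 (mem_image_of_mem _ h1.1)
    rw [h2.1] at h3
    refine (abs_cr_triangle (hEEu _) (hu x h1.1) (hue x h1.1)).trans ?_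
    have h4 := not_lt.1 h1.2
    linarith
  · intro x hx
    rw [mem_filter] at hx
    have h1 := hp1 x hx.1
    have h2 : (A.filter fun y => y.1 = x.1) ⊆
        (A.filter fun x => lab x = lab x0).filter fun y => y.1 = x.1 := by
      intro y hy
      rw [mem_filter] at hy
      rw [mem_filter, mem_filter]
      refine ⟨⟨hy.1, ?_⟩, hy.2⟩
      rw [← hx.2]
      simp only [hlab]
      rw [hy.2]
    have h3 : ((A.filter fun y => y.1 = x.1).card : ℝ) ≤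
        (((A.filter fun x => lab x = lab x0).filter fun y => y.1 = x.1).card : ℝ) := by
      exact_mod_cast card_le_card h2
    linarith
  · intro x hx
    rw [mem_filter] at hx
    have h1 := hp2 x hx.1
    have h2 : (A.filter fun y => g y = g x) ⊆
        (A.filter fun x => lab x = lab x0).filter fun y => g y = g x := by
      intro y hy
      rw [mem_filter] at hy
      rw [mem_filter, mem_filter]
      refine ⟨⟨hy.1, ?_⟩, hy.2⟩
      have h4 : y ∈ A2 := hA hy.1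
      have h5 : x ∈ A2 := hA hx.1
      rw [hA2, mem_filter] at h4 h5
      rw [h4.2, hy.2, ← h5.2]; exact hx.2
    have h3 : ((A.filter fun y => g y = g x).card : ℝ) ≤
        (((A.filter fun x => lab x = lab x0).filter fun y => g y = g x).card : ℝ) := by
      exact_mod_cast card_le_card h2
    linarith

end cls

end

end Crest.Agent.R138.Norm70
end

-- ▼ part R138/Norm5_70
section

/-!
# R138: NORM, final finite form (helper70)

`Cfg1.norm_of_flags`: flags `fe` of lines with precision `θ` (any admissible precision) give a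
normalised configuration.  `Cfg1.norm`: the flag lemma gives `θ = min 1 (a1 / (a2 X))` as soon as
`4 κ(X) N ≤ n1`.
-/

set_option autoImplicit false
set_option linter.unusedVariables false

open Finset

namespace Crest.Agent.R138.Norm70

open Crest.Agent.R138.Flag51 Crest.Agent.R138.Tilt51

noncomputable section

variable {Λ κ β : Type*} {I : Finset (Λ × κ)} {L : Λ → Ln} {zc : κ → ℝ} {g : Λ × κ → β}
  {bK : β → Ln} {eK : β → E2} {a1 a2 z0 ρ ρ' M0 M1 E1 p q r0 R0 : ℝ}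

open Classical in
/-- a sub-configuration inside the container `(L0, E; W1, W2)`, normalised -/
theorem Cfg1.nrm_sub (h : Cfg1 I L zc g bK eK a1 a2 z0 ρ ρ' M0 M1 E1 p q r0 R0)
    (hp : 0 ≤ p) (hpq : p ≤ q) (hq : q ≤ 2) (ha1 : 0 < a1) (ha2 : 0 < a2) (hr0 : 0 < r0)
    (hM0 : 0 ≤ M0) (hE1 : 0 ≤ E1) {I' : Finset (Λ × κ)} (hI' : I' ⊆ I) {E : E2} (L0 : Ln)
    {W1 W2 θ A K : ℝ} (hE : dt E E = 1) (hW1 : 0 < W1) (hW : W1 ≤ W2) (hA : 0 < A)
    (hA1 : a1 + θ * a2 ≤ A * W1) (hA2 : a1 + a2 ≤ A * W2)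
    (hθ : ∀ x ∈ I', |cr E (eK (g x))| ≤ θ)
    (hK : ∀ x ∈ I', ((I.filter fun y => g y = g x).card : ℝ) ≤
        K * ((I'.filter fun y => g y = g x).card : ℝ)) :
    Cfg1 I' (fun i => nrm E L0 W1 W2 (L i)) zc g (fun a => nrm E L0 W1 W2 (bK a))
      (fun a => imgE E (eK a) W1 W2) (a1 / W1) (2 * A) z0 ρ ρ'
      (8 * M0 * W1 ^ (1 + p) * W2 ^ (1 + q)) (8 * M1 * W1 ^ (1 + p) * W2 ^ (1 + q))
      (8 * (2 * A * W2 / a2) ^ (1 + q) * K * E1) p q (r0 / W1) (R0 / (2 * W2)) := by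
  have hW2 : 0 < W2 := hW1.trans_le hW
  refine ⟨fun x hx y hy => h.cell x (hI' hx) y (hI' hy), fun x hx =>
    imgE_unit hE (h.unit x (hI' hx)) hW1 hW, fun x hx =>
    inPlank_img L0 hE (h.unit x (hI' hx)) hW1 hW ha1.le hA1 hA2 (hθ x hx) (h.mem x (hI' hx)),
    fun x hx => ?_, ?_, fun x hx => h.hz x (hI' hx)⟩
  · rw [vol_img hW1 hW2 ha1 ha2 hA]
    have h1 := h.low x (hI' hx)
    have h2 := hK x hx
    calc 8 * (2 * A * W2 / a2) ^ (1 + q) * (M1 * a1 ^ (1 + p) * a2 ^ (1 + q))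
        ≤ 8 * (2 * A * W2 / a2) ^ (1 + q) *
          (E1 * (K * ((I'.filter fun y => g y = g x).card : ℝ))) := by
          refine mul_le_mul_of_nonneg_left (h1.trans ?_) (by positivity)
          exact mul_le_mul_of_nonneg_left h2 hE1
      _ = _ := by ring
  · have hD : DMax (I'.image Prod.fst) L (fun _ => (1:ℝ)) z0 ρ M0 p q r0 R0 := by
      have hD0 : DMax (I.image Prod.fst) L (fun _ => (1:ℝ)) z0 ρ M0 p q r0 R0 := by
        intro l e b1 b2 he h1 h2 h3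
        rw [sum_const, nsmul_eq_mul, mul_one]
        exact h.dmax l e b1 b2 he h1 h2 h3
      exact hD0.subset (image_subset_image hI') fun _ _ => zero_le_one
    have hD' := dmax_nrm hD (fun _ _ => zero_le_one) L0 hE hW1 hW hM0 hp hpq hq hr0
    intro l e b1 b2 he h1 h2 h3
    have := hD' l e b1 b2 he h1 h2 h3
    rw [sum_const, nsmul_eq_mul, mul_one] at this
    exact this




end

end Crest.Agent.R138.Norm70
end

-- ▼ part R138/Norm6_70
section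

/-!
# R138: NORM over the literal configurations of helper294, part 1 (helper70)

`Ok.dm` : penalised maximality of the level `m` for `r ≤ b1 ≤ b2 ≤ 48 / 2^m`;
`Ok.pig` : a part of the top objects with deep planks of common dimensions.
-/

set_option autoImplicit false
set_option linter.unusedVariables false

open Finset

namespace Crest.Agent.R138.Norm70

open Crest.Agent.R138.Flag51 Crest.Agent.R138.Tilt51 Crest.Agent.R138.K294

noncomputable section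

open Classical in
/-- objects of the top level -/
def tob (F : Cf) : Finset (Ln × ℤ) := F.I.image (ob F.top)

theorem mem_tob {F : Cf} {o : Ln × ℤ} : o ∈ tob F ↔ ∃ x ∈ F.I, ob F.top x = o := by
  classical
  unfold tob; rw [mem_image]

theorem mono_plank {t l : Ln} {e : E2} {a1 a2 b1 b2 z0 ρ : ℝ} (h : InPlank t l e a1 a2 z0 ρ)
    (h1 : a1 ≤ b1) (h2 : a2 ≤ b2) : InPlank t l e b1 b2 z0 ρ := fun z hz =>
  ⟨(h z hz).1.trans h1, (h z hz).2.trans h2⟩

variable {F : Cf} {q : ℝ}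

/-- the cell of level `m` -/
def j0 (F : Cf) (h : F.I.Nonempty) : ℤ := zc F.m h.choose.2

theorem j0_eq (h : F.Ok q) {x : Ln × ℝ} (hx : x ∈ F.I) : zc F.m x.2 = j0 F h.ne :=
  h.cell x hx _ h.ne.choose_spec

theorem D0_pos (h : F.Ok q) : 0 < F.D0 := by
  classical
  -- a plank with one object
  obtain ⟨x, hx⟩ := h.ne
  have hr := h.r0
  have hrm : F.r ≤ 1 / 2 ^ F.m := by
    refine h.rle.trans ?_
    unfold Cf.top
    exact one_div_le_one_div_of_le (by positivity)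
      (pow_le_pow_right₀ (by norm_num) (Nat.le_add_right _ _))
  set K : Plk := ⟨zc F.m x.2, x.1, !₂[1, 0], F.r, F.r⟩ with hK
  have hleg : Legal F.m F.r K := ⟨by simp [hK, dt], le_rfl, le_rfl, hrm⟩
  have h1 := h.up K hleg
  have h2 : ob F.m x ∈ objs F.m F.I K := by
    unfold objs
    rw [mem_filter]
    refine ⟨mem_image_of_mem _ hx, rfl, ?_⟩
    intro z _
    have : pos (ob F.m x).1 z - pos K.l z = 0 := by simp [ob, hK]
    rw [this]
    simp [dt, cr, hK, hr.le]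
  have h3 : (1:ℝ) ≤ ((objs F.m F.I K).card : ℝ) := by
    exact_mod_cast card_pos.2 ⟨_, h2⟩
  have h4 : 0 < cap q F.m K := by unfold cap; simp only [hK]; positivity
  by_contra hc
  have : F.D0 * cap q F.m K ≤ 0 := mul_nonpos_of_nonpos_of_nonneg (not_lt.1 hc) h4.le
  linarith

open Classical in
/-- penalised maximality of the level `m`, enlarged to `b2 ≤ 48 / 2^m` -/
theorem Ok_dm (h : F.Ok q) (hq : 0 ≤ q) (l : Ln) (e : E2) (b1 b2 : ℝ) (he : dt e e = 1)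
    (h1 : F.r ≤ b1) (h12 : b1 ≤ b2) (h2 : b2 ≤ 48 / 2 ^ F.m) :
    (((F.I.image Prod.fst).filter fun i => InPlank i l e b1 b2 (zm F.m (j0 F h.ne))
      (zr F.m)).card : ℝ) ≤ (97 ^ 4 * F.D0 * (2 ^ F.m) ^ q) * b1 ^ (1 + (0:ℝ)) * b2 ^ (1 + q) := by
  have hr := h.r0
  have hb1 : 0 < b1 := hr.trans_le h1
  have hb2 : 0 < b2 := hb1.trans_le h12
  have h2m : (0:ℝ) < 2 ^ F.m := by positivity
  have hrm : F.r ≤ 1 / 2 ^ F.m := by
    refine h.rle.trans ?_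
    unfold Cf.top
    exact one_div_le_one_div_of_le (by positivity)
      (pow_le_pow_right₀ (by norm_num) (Nat.le_add_right _ _))
  set v1 : ℝ := max (b1 / 48) F.r with hv1
  set v2 : ℝ := max (b2 / 48) F.r with hv2
  have hv1p : 0 < v1 := lt_max_of_lt_right hr
  have hv2p : 0 < v2 := lt_max_of_lt_right hr
  have hv12 : v1 ≤ v2 := max_le_max (div_le_div_of_nonneg_right h12 (by norm_num)) le_rfl
  have hv1b : v1 ≤ b1 := max_le (by linarith) h1
  have hv2b : v2 ≤ b2 := max_le (by linarith) (h1.trans h12)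
  have hv2m : v2 ≤ 1 / 2 ^ F.m := by
    refine max_le ?_ hrm
    rw [div_le_iff₀ (by norm_num : (0:ℝ) < 48)]
    calc b2 ≤ 48 / 2 ^ F.m := h2
      _ = 1 / 2 ^ F.m * 48 := by ring
  have c1 : b1 ≤ 48 * v1 := by
    have := le_max_left (b1 / 48) F.r
    rw [← hv1] at this; linarith
  have c2 : b2 ≤ 48 * v2 := by
    have := le_max_left (b2 / 48) F.r
    rw [← hv2] at this; linarith
  set S := (F.I.image Prod.fst).filter fun i => InPlank i l e b1 b2 (zm F.m (j0 F h.ne)) (zr F.m)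
    with hS
  have hcapA : ∀ t0 ∈ S, ((S.filter fun t => InPlank (id t) (id t0) e v1 v2
      (zm F.m (j0 F h.ne)) (zr F.m)).card : ℝ) ≤ F.D0 * (v1 * v2 * (v2 * 2 ^ F.m) ^ q) := by
    intro t0 ht0
    have hleg : Legal F.m F.r ⟨j0 F h.ne, t0, e, v1, v2⟩ :=
      ⟨he, le_max_right _ _, hv12, hv2m⟩
    refine le_trans ?_ (h.up _ hleg)
    refine Nat.cast_le.2 (card_le_card_of_injOn (fun t => (t, j0 F h.ne)) ?_ ?_)
    · intro t ht
      rw [mem_coe, mem_filter, hS, mem_filter, mem_image] at ht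
      obtain ⟨⟨⟨x, hx, rfl⟩, _⟩, h3⟩ := ht
      unfold objs
      rw [mem_coe, mem_filter, mem_image]
      refine ⟨⟨x, hx, ?_⟩, rfl, h3⟩
      unfold ob
      rw [j0_eq h hx]
    · intro t _ t' _ heq
      exact (Prod.mk.inj heq).1
  have hcov := cover S id (e := e) (w1 := v1) (w2 := v2) (z0 := zm F.m (j0 F h.ne)) (ρ := zr F.m)
    hv1p hv2p (zr_pos _) (n := 48) (l := l)
    (fun t ht => by
      rw [hS, mem_filter] at ht
      exact mono_plank ht.2 (by push_cast; exact c1) (by push_cast; exact c2))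
    (A := F.D0 * (v1 * v2 * (v2 * 2 ^ F.m) ^ q)) (by
      have := D0_pos h
      positivity) hcapA
  have e1 : v1 * v2 * (v2 * 2 ^ F.m) ^ q ≤ b1 * b2 * (b2 * 2 ^ F.m) ^ q := by
    have k1 : (v2 * 2 ^ F.m) ^ q ≤ (b2 * 2 ^ F.m) ^ q :=
      Real.rpow_le_rpow (by positivity) (mul_le_mul_of_nonneg_right hv2b h2m.le) hq
    exact mul_le_mul (mul_le_mul hv1b hv2b hv2p.le hb1.le) k1 (by positivity) (by positivity)
  have e2 : b1 * b2 * (b2 * 2 ^ F.m) ^ q = (2 ^ F.m) ^ q * b1 ^ (1 + (0:ℝ)) * b2 ^ (1 + q) := by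
    rw [Real.mul_rpow hb2.le h2m.le, add_zero, Real.rpow_one, Real.rpow_add hb2, Real.rpow_one]
    ring
  calc (S.card : ℝ) ≤ (2 * ((48:ℕ):ℝ) + 1) ^ 4 * (F.D0 * (v1 * v2 * (v2 * 2 ^ F.m) ^ q)) := hcov
    _ ≤ (2 * ((48:ℕ):ℝ) + 1) ^ 4 * (F.D0 * (b1 * b2 * (b2 * 2 ^ F.m) ^ q)) := by
        have := D0_pos h
        gcongr
    _ = _ := by rw [e2]; push_cast; ring

end

end Crest.Agent.R138.Norm70
end

-- ▼ part R138/Norm7_70
section

/-!
# R138: NORM over `Cf`, part 2: common dimensions of the deep planks (helper70)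
-/

set_option autoImplicit false
set_option linter.unusedVariables false

open Finset

namespace Crest.Agent.R138.Norm70

open Crest.Agent.R138.Flag51 Crest.Agent.R138.Tilt51 Crest.Agent.R138.K294

noncomputable section

/-- dyadic index of a width -/
def dyi (r w : ℝ) : ℕ := ⌊Real.logb 2 (w / r)⌋₊

theorem dyi_spec {r w : ℝ} (hr : 0 < r) (h : r ≤ w) :
    2 ^ dyi r w * r ≤ w ∧ w ≤ 2 ^ (dyi r w + 1) * r := by
  have hx : 1 ≤ w / r := by rw [le_div_iff₀ hr]; linarith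
  have hx0 : 0 < w / r := lt_of_lt_of_le one_pos hx
  have hl : 0 ≤ Real.logb 2 (w / r) := Real.logb_nonneg (by norm_num) hx
  have h1 := Nat.floor_le hl
  have h2 := (Nat.lt_floor_add_one (Real.logb 2 (w / r))).le
  have e : (2:ℝ) ^ Real.logb 2 (w / r) = w / r :=
    Real.rpow_logb (by norm_num) (by norm_num) hx0
  constructor
  · rw [← le_div_iff₀ hr, ← e, ← Real.rpow_natCast]
    exact Real.rpow_le_rpow_of_exponent_le (by norm_num) h1
  · rw [← div_le_iff₀ hr, ← e, ← Real.rpow_natCast]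
    refine Real.rpow_le_rpow_of_exponent_le (by norm_num) ?_
    push_cast; exact h2

theorem dyi_mono {r w w' : ℝ} (hr : 0 < r) (h0 : 0 < w) (h : w ≤ w') : dyi r w ≤ dyi r w' := by
  unfold dyi
  refine Nat.floor_le_floor ?_
  exact Real.logb_le_logb_of_le (by norm_num) (by positivity)
    (div_le_div_of_nonneg_right h hr.le)

variable {F : Cf} {q : ℝ}

theorem tob_legal (h : F.Ok q) {o : Ln × ℤ} (ho : o ∈ tob F) :
    Legal F.top F.r (F.K (F.cl o)) ∧ InK F.top (F.K (F.cl o)) o := by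
  obtain ⟨x, hx, rfl⟩ := mem_tob.1 ho
  exact ⟨h.legal x hx, h.mem x hx⟩

theorem cls_eq (F : Cf) (x : Ln × ℝ) :
    F.cls x = (by classical exact (tob F).filter fun o => F.cl o = F.cl (ob F.top x)) := by
  classical
  unfold Cf.cls tob
  congr

open Classical in
theorem tob_low (h : F.Ok q) {o : Ln × ℤ} (ho : o ∈ tob F) :
    F.D1 * cap q F.top (F.K (F.cl o)) ≤ (((tob F).filter fun o' => F.cl o' = F.cl o).card : ℝ) := by
  obtain ⟨x, hx, rfl⟩ := mem_tob.1 ho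
  have := h.low x hx
  rw [cls_eq] at this
  exact this

open Classical in
theorem tob_own (h : F.Ok q) {o : Ln × ℤ} (ho : o ∈ tob F) :
    F.nu ≤ (((tob F).filter fun o' => o'.1 = o.1).card : ℝ) := by
  obtain ⟨x, hx, rfl⟩ := mem_tob.1 ho
  refine (h.own x hx).trans ?_
  unfold ownc
  refine Nat.cast_le.2 (card_le_card ?_)
  intro o' ho'
  rw [mem_image] at ho'
  obtain ⟨y, hy, rfl⟩ := ho'
  rw [mem_filter] at hy
  rw [mem_filter]
  refine ⟨mem_tob.2 ⟨y, hy.1, rfl⟩, ?_⟩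
  have := hy.2
  unfold ob at this ⊢
  exact (Prod.mk.inj this).1

theorem tob_cells (h : F.Ok q) {o : Ln × ℤ} (ho : o ∈ tob F) :
    o.2 ∈ Ico (2 ^ F.M * j0 F h.ne) (2 ^ F.M * j0 F h.ne + 2 ^ F.M) := by
  obtain ⟨x, hx, rfl⟩ := mem_tob.1 ho
  have hj := j0_eq h hx
  unfold zc at hj
  have h1 := Int.floor_le ((2:ℝ) ^ F.m * x.2)
  have h2 := Int.lt_floor_add_one ((2:ℝ) ^ F.m * x.2)
  rw [hj] at h1 h2
  rw [mem_Ico]
  unfold ob zc Cf.top
  have hk : (0:ℝ) < 2 ^ F.M := by positivity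
  constructor
  · rw [Int.le_floor]
    push_cast
    calc (2:ℝ) ^ F.M * (j0 F h.ne : ℝ) ≤ 2 ^ F.M * (2 ^ F.m * x.2) := by gcongr
      _ = 2 ^ (F.m + F.M) * x.2 := by rw [pow_add]; ring
  · rw [Int.floor_lt]
    push_cast
    calc (2:ℝ) ^ (F.m + F.M) * x.2 = 2 ^ F.M * (2 ^ F.m * x.2) := by rw [pow_add]; ring
      _ < 2 ^ F.M * (j0 F h.ne + 1) := by gcongr
      _ = _ := by ring

open Classical in
/-- **common dimensions**: a sub-family of the top objects which is a `Cfg1`. -/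
theorem Ok_cfg1 (h : F.Ok q) (hq : 0 ≤ q) (hq2 : q ≤ 2) {T : ℕ}
    (hT : ∀ o ∈ tob F, dyi F.r (F.K (F.cl o)).w2 < T) :
    ∃ A ⊆ tob F, A.Nonempty ∧ ∃ a1 a2 : ℝ, F.r ≤ a1 ∧ a1 ≤ a2 ∧ a2 ≤ 2 / 2 ^ F.top ∧
      Cfg1 A (fun l => l) (fun j => zm F.top j) F.cl (fun a => (F.K a).l) (fun a => (F.K a).e)
        a1 a2 (zm F.m (j0 F h.ne)) (zr F.m) (zr F.top) (97 ^ 4 * F.D0 * (2 ^ F.m) ^ q)
        (F.D1 * (2 ^ F.top) ^ q) (64 * (T:ℝ) ^ 2) 0 q F.r (48 / 2 ^ F.m) ∧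
      (∀ x ∈ A, F.nu / (4 * (T:ℝ) ^ 2) ≤ ((A.filter fun y => y.1 = x.1).card : ℝ)) ∧
      ((A.image Prod.snd).card : ℝ) ≤ 2 ^ F.M := by
  obtain ⟨x0, hx0⟩ := h.ne
  have ho0 : ob F.top x0 ∈ tob F := mem_tob.2 ⟨x0, hx0, rfl⟩
  have hr := h.r0
  have hTpos : 0 < T := lt_of_le_of_lt (Nat.zero_le _) (hT _ ho0)
  have hTr : (0:ℝ) < (T:ℝ) ^ 2 := by
    have : (0:ℝ) < (T:ℝ) := by exact_mod_cast hTpos
    positivity
  obtain ⟨y, hy⟩ := pigeon (K := T ^ 2) (tob F) ⟨_, ho0⟩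
    (fun o => (dyi F.r (F.K (F.cl o)).w1, dyi F.r (F.K (F.cl o)).w2)) (range T ×ˢ range T)
    (fun o ho => by
      have hl := (tob_legal h ho).1
      rw [mem_product, mem_range, mem_range]
      exact ⟨lt_of_le_of_lt (dyi_mono hr (hr.trans_le hl.r1) hl.w12) (hT o ho), hT o ho⟩)
    (by rw [card_product, card_range, sq])
  set J1 := (tob F).filter fun o =>
    (dyi F.r (F.K (F.cl o)).w1, dyi F.r (F.K (F.cl o)).w2) = y with hJ1
  have hJ1c : ((tob F).card : ℝ) ≤ (T:ℝ) ^ 2 * (J1.card : ℝ) := by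
    have := hy; push_cast at this; convert this
  have htpos : (0:ℝ) < ((tob F).card : ℝ) := by exact_mod_cast card_pos.2 ⟨_, ho0⟩
  obtain ⟨A, hA, hAc, hp1, hp2⟩ := prune_rel (tob F) J1 (filter_subset _ _)
    (Prod.fst : Ln × ℤ → Ln) F.cl (δ := 1 / (4 * (T:ℝ) ^ 2)) (by positivity)
  have hAsub : A ⊆ tob F := hA.trans (filter_subset _ _)
  have hAne : A.Nonempty := by
    rw [← card_pos]
    have e1 : 2 * (1 / (4 * (T:ℝ) ^ 2)) * ((tob F).card : ℝ) ≤ (J1.card : ℝ) / 2 := by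
      have : 2 * (1 / (4 * (T:ℝ) ^ 2)) * ((tob F).card : ℝ) =
          ((tob F).card : ℝ) / (2 * (T:ℝ) ^ 2) := by field_simp; ring
      rw [this, div_le_iff₀ (by positivity)]
      linarith
    have e2 : (0:ℝ) < (J1.card : ℝ) := by
      by_contra hc
      have : (T:ℝ) ^ 2 * (J1.card : ℝ) ≤ 0 :=
        mul_nonpos_of_nonneg_of_nonpos hTr.le (not_lt.1 hc)
      linarith
    have : (0:ℝ) < (A.card : ℝ) := by linarith
    exact_mod_cast this
  obtain ⟨o1, ho1⟩ := hAne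
  have hlab : ∀ o ∈ A, dyi F.r (F.K (F.cl o)).w1 = y.1 ∧ dyi F.r (F.K (F.cl o)).w2 = y.2 := by
    intro o ho
    have := hA ho
    rw [hJ1, mem_filter] at this
    rw [← this.2]
    exact ⟨rfl, rfl⟩
  have hw : ∀ o ∈ A, 2 ^ y.1 * F.r ≤ (F.K (F.cl o)).w1 ∧
      (F.K (F.cl o)).w1 ≤ 2 ^ (y.1 + 1) * F.r ∧ 2 ^ y.2 * F.r ≤ (F.K (F.cl o)).w2 ∧
      (F.K (F.cl o)).w2 ≤ 2 ^ (y.2 + 1) * F.r := by
    intro o ho
    have hl := (tob_legal h (hAsub ho)).1
    have h1 := dyi_spec hr hl.r1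
    have h2 := dyi_spec hr (hl.r1.trans hl.w12)
    rw [(hlab o ho).1] at h1
    rw [(hlab o ho).2] at h2
    exact ⟨h1.1, h1.2, h2.1, h2.2⟩
  have hl1 := (tob_legal h (hAsub ho1)).1
  have hy12 : y.1 ≤ y.2 := by
    rw [← (hlab o1 ho1).1, ← (hlab o1 ho1).2]
    exact dyi_mono hr (hr.trans_le hl1.r1) hl1.w12
  have hone : ∀ n : ℕ, (1:ℝ) ≤ 2 ^ n := fun n => one_le_pow₀ (by norm_num)
  refine ⟨A, hAsub, ⟨o1, ho1⟩, 2 ^ (y.1 + 1) * F.r, 2 ^ (y.2 + 1) * F.r, ?_, ?_, ?_, ?_, ?_, ?_⟩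
  · have := hone (y.1 + 1); nlinarith
  · exact mul_le_mul_of_nonneg_right
      (pow_le_pow_right₀ (by norm_num) (by omega)) hr.le
  · have := (hw o1 ho1).2.2.1
    calc 2 ^ (y.2 + 1) * F.r = 2 * (2 ^ y.2 * F.r) := by rw [pow_succ]; ring
      _ ≤ 2 * (1 / 2 ^ F.top) := by
          have := this.trans hl1.w2
          linarith
      _ = 2 / 2 ^ F.top := by ring
  · refine ⟨?_, ?_, ?_, ?_, ?_, ?_⟩
    · intro x hx y' hy' hxy
      have h1 := (tob_legal h (hAsub hx)).2.1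
      have h2 := (tob_legal h (hAsub hy')).2.1
      rw [h1, h2, hxy]
    · intro x hx
      exact (tob_legal h (hAsub hx)).1.unit
    · intro x hx
      obtain ⟨h1, h2⟩ := (tob_legal h (hAsub hx)).2
      rw [h1]
      exact mono_plank h2 (hw x hx).2.1 (hw x hx).2.2.2
    · intro x hx
      have h1 := tob_low h (hAsub hx)
      have h2 : 1 / (4 * (T:ℝ) ^ 2) * (((tob F).filter fun y => F.cl y = F.cl x).card : ℝ) ≤
          ((A.filter fun y => F.cl y = F.cl x).card : ℝ) := by convert hp2 x hx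
      have h3 := hw x hx
      set w1 := (F.K (F.cl x)).w1 with hw1
      set w2 := (F.K (F.cl x)).w2 with hw2
      have hw1p : 0 < w1 := hr.trans_le (tob_legal h (hAsub hx)).1.r1
      have hw2p : 0 < w2 := hw1p.trans_le (tob_legal h (hAsub hx)).1.w12
      have k1 : 2 ^ (y.1 + 1) * F.r ≤ 2 * w1 := by
        rw [pow_succ]; linarith [h3.1]
      have k2 : 2 ^ (y.2 + 1) * F.r ≤ 2 * w2 := by
        rw [pow_succ]; linarith [h3.2.2.1]
      have p1 : 0 < 2 ^ (y.1 + 1) * F.r := by positivity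
      have p2 : 0 < 2 ^ (y.2 + 1) * F.r := by positivity
      have k3 : (2 ^ (y.2 + 1) * F.r) ^ (1 + q) ≤ 8 * w2 ^ (1 + q) := by
        calc (2 ^ (y.2 + 1) * F.r) ^ (1 + q) ≤ (2 * w2) ^ (1 + q) :=
              Real.rpow_le_rpow p2.le k2 (by linarith)
          _ = 2 ^ (1 + q) * w2 ^ (1 + q) := Real.mul_rpow (by norm_num) hw2p.le
          _ ≤ 8 * w2 ^ (1 + q) := by
              refine mul_le_mul_of_nonneg_right ?_ (by positivity)
              calc (2:ℝ) ^ (1 + q) ≤ 2 ^ (3:ℝ) :=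
                    Real.rpow_le_rpow_of_exponent_le (by norm_num) (by linarith)
                _ = 8 := by norm_num
      have k4 : cap q F.top (F.K (F.cl x)) = w1 * (w2 ^ (1 + q) * (2 ^ F.top) ^ q) := by
        unfold cap
        rw [← hw1, ← hw2, Real.mul_rpow hw2p.le (by positivity), Real.rpow_add hw2p, Real.rpow_one]
        ring
      rw [add_zero, Real.rpow_one]
      have hD1 := h.D1p
      have hfin : F.D1 * (2 ^ F.top) ^ q * (2 ^ (y.1 + 1) * F.r) *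
          (2 ^ (y.2 + 1) * F.r) ^ (1 + q) ≤
          64 * (T:ℝ) ^ 2 * ((A.filter fun y => F.cl y = F.cl x).card : ℝ) := by
       calc F.D1 * (2 ^ F.top) ^ q * (2 ^ (y.1 + 1) * F.r) * (2 ^ (y.2 + 1) * F.r) ^ (1 + q)
          ≤ F.D1 * (2 ^ F.top) ^ q * (2 * w1) * (8 * w2 ^ (1 + q)) := by gcongr
        _ = 16 * (F.D1 * cap q F.top (F.K (F.cl x))) := by rw [k4]; ring
        _ ≤ 16 * ((((tob F).filter fun o' => F.cl o' = F.cl x).card : ℝ)) := by gcongr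
        _ ≤ 16 * (4 * (T:ℝ) ^ 2 * ((A.filter fun y => F.cl y = F.cl x).card : ℝ)) := by
            refine mul_le_mul_of_nonneg_left ?_ (by norm_num)
            rw [div_mul_eq_mul_div, one_mul, div_le_iff₀ (by positivity)] at h2
            linarith
        _ = _ := by ring
      convert hfin
    · intro l e b1 b2 he h1 h12 h2
      refine le_trans ?_ (Ok_dm h hq l e b1 b2 he h1 h12 h2)
      refine Nat.cast_le.2 (card_le_card ?_)
      refine filter_subset_filter _ ?_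
      intro i hi
      simp only [mem_image] at hi ⊢
      obtain ⟨o, ho, rfl⟩ := hi
      obtain ⟨x, hx, rfl⟩ := mem_tob.1 (hAsub ho)
      exact ⟨x, hx, rfl⟩
    · intro o ho
      obtain ⟨x, hx, rfl⟩ := mem_tob.1 (hAsub ho)
      have h1 := cell_sub (m := F.m) (m' := F.top) (Nat.le_add_right _ _) x.2
      have h2 := zr_pos F.top
      have h3 := j0_eq h hx
      rw [← h3]
      show |zm F.top (zc F.top x.2) - zm F.m (zc F.m x.2)| ≤ zr F.m
      linarith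
  · intro x hx
    have h1 := hp1 x hx
    have h2 := tob_own h (hAsub hx)
    have e : F.nu / (4 * (T:ℝ) ^ 2) = 1 / (4 * (T:ℝ) ^ 2) * F.nu := by ring
    rw [e]
    have h3 : 1 / (4 * (T:ℝ) ^ 2) * F.nu ≤
        1 / (4 * (T:ℝ) ^ 2) * (((tob F).filter fun o' => o'.1 = x.1).card : ℝ) :=
      mul_le_mul_of_nonneg_left h2 (by positivity)
    have h4 : 1 / (4 * (T:ℝ) ^ 2) * (((tob F).filter fun o' => o'.1 = x.1).card : ℝ) ≤
        ((A.filter fun y => y.1 = x.1).card : ℝ) := by convert h1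
    exact h3.trans h4
  · have h1 : A.image Prod.snd ⊆ Ico (2 ^ F.M * j0 F h.ne) (2 ^ F.M * j0 F h.ne + 2 ^ F.M) := by
      intro j hj
      obtain ⟨o, ho, rfl⟩ := mem_image.1 hj
      exact tob_cells h (hAsub ho)
    have h2 := card_le_card h1
    rw [Int.card_Ico] at h2
    have h3 : (2 ^ F.M * j0 F h.ne + 2 ^ F.M - 2 ^ F.M * j0 F h.ne : ℤ).toNat = 2 ^ F.M := by
      rw [add_sub_cancel_left]
      exact Int.toNat_natCast (2 ^ F.M) ▸ by norm_cast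
    rw [h3] at h2
    exact_mod_cast h2

end

end Crest.Agent.R138.Norm70
end

-- ▼ part R138/Norm8_70
section

/-!
# R138: NORM over `Cf`, part 3: the normalised configuration is a `Cf` (helper70)
-/

set_option autoImplicit false
set_option linter.unusedVariables false

open Finset

namespace Crest.Agent.R138.Norm70

open Crest.Agent.R138.Flag51 Crest.Agent.R138.Tilt51 Crest.Agent.R138.K294

noncomputable section

section cls

variable {Λ κ β : Type*} {I : Finset (Λ × κ)} {L : Λ → Ln} {zc : κ → ℝ} {g : Λ × κ → β}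
  {bK : β → Ln} {eK : β → E2} {a1 a2 z0 ρ ρ' M0 M1 E1 p q r0 R0 : ℝ}

open Classical in
/-- **container class** (no affine map yet) -/
theorem Cfg1.cont (h : Cfg1 I L zc g bK eK a1 a2 z0 ρ ρ' M0 M1 E1 p q r0 R0)
    (hI : I.Nonempty) (hp : 0 ≤ p) (hpq : p < q) (hρ' : 0 < ρ') (hρ : ρ' ≤ ρ)
    (ha1 : 0 < a1) (ha12 : a1 ≤ a2) (hr0' : r0 ≤ 3 * (ρ / ρ') * a1)
    (hR0 : 8 * (3 * (ρ / ρ') * a2) ≤ R0) (hM0 : 0 < M0) (hM1 : 0 < M1) (hE1 : 0 ≤ E1)
    {X N n1 : ℝ} (hX : 0 < X) (hX1 : X ≤ 1)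
    (hN : ((I.image Prod.snd).card : ℝ) ≤ N) (hn1 : 0 < n1)
    (hn : ∀ x ∈ I, n1 ≤ ((I.filter fun y => y.1 = x.1).card : ℝ))
    (hs : 4 * (kap E1 M0 M1 (3 * (ρ / ρ')) p q X * N) ≤ n1) :
    ∃ θ : ℝ, 0 < θ ∧ θ ≤ 1 ∧ a1 ≤ θ * a2 ∧ X * θ * a2 ≤ a1 ∧
    ∃ I' ⊆ I, ∃ (E : E2), ∃ x0 ∈ I', dt E E = 1 ∧
      (∀ x ∈ I', InPlank (L x.1) (L x0.1) E (12 * θ * (ρ / ρ') * a2) (12 * (ρ / ρ') * a2) z0 ρ) ∧
      (∀ x ∈ I', |cr E (eK (g x))| ≤ 3 * θ) ∧
      (∀ x ∈ I', ((I.filter fun y => y.1 = x.1).card : ℝ) ≤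
        2000 * ((I'.filter fun y => y.1 = x.1).card : ℝ)) ∧
      (∀ x ∈ I', ((I.filter fun y => g y = g x).card : ℝ) ≤
        2000 * ((I'.filter fun y => g y = g x).card : ℝ)) := by
  have ha2 : 0 < a2 := ha1.trans_le ha12
  have hρ0 : 0 < ρ := hρ'.trans_le hρ
  obtain ⟨θ, hθ0, hθ1, hθa, hθX, hcase⟩ : ∃ θ : ℝ, 0 < θ ∧ θ ≤ 1 ∧ a1 ≤ θ * a2 ∧
      X * θ * a2 ≤ a1 ∧ (θ = 1 ∨ a1 / (θ * a2) = X) := by
    by_cases hc : a1 / (a2 * X) ≤ 1
    · refine ⟨a1 / (a2 * X), by positivity, hc, ?_, ?_, Or.inr (by field_simp)⟩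
      · have : a1 / (a2 * X) * a2 = a1 / X := by field_simp
        rw [this, le_div_iff₀ hX]; nlinarith
      · have : X * (a1 / (a2 * X)) * a2 = a1 := by field_simp
        rw [this]
    · refine ⟨1, one_pos, le_rfl, by linarith, ?_, Or.inl rfl⟩
      rw [not_le, lt_div_iff₀ (by positivity)] at hc
      linarith
  have hs' : θ = 1 ∨ 4 * (kap E1 M0 M1 (3 * (ρ / ρ')) p q (a1 / (θ * a2)) * N) ≤ n1 := by
    rcases hcase with hc | hc
    · exact Or.inl hc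
    · rw [hc]; exact Or.inr hs
  obtain ⟨φ, f1, f2⟩ := h.exists_flags hI hp hpq hρ' hρ ha1 ha12 hr0' hR0 hM0 hM1 hE1 hθa hN
    hn1 hn hs'
  have hfe : ∀ x ∈ I, dt (eK (g (x.1, φ x.1))) (eK (g (x.1, φ x.1))) = 1 :=
    fun x hx => h.unit _ (f1 x hx)
  obtain ⟨I', hI', E, x0, hx0, hE, g1, g2, g3, g4, g5⟩ := exists_class (ρ := ρ) (z0 := z0) I g L
    (fun i => eK (g (i, φ i)))
    bK eK (c1 := 3 * (ρ / ρ') * a1) (c2 := 3 * (ρ / ρ') * a2) (θ := θ) hρ0 (by positivity)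
    (by positivity)
    (by
      calc 3 * (ρ / ρ') * a1 ≤ 3 * (ρ / ρ') * (θ * a2) :=
            mul_le_mul_of_nonneg_left hθa (by positivity)
        _ = θ * (3 * (ρ / ρ') * a2) := by ring) hθ1 hI hfe h.unit
    (fun x hx => inPlank_extend (h.mem x hx) hρ' hρ (h.hz x hx)) f2
  have e1 : 4 * θ * (3 * (ρ / ρ') * a2) = 12 * θ * (ρ / ρ') * a2 := by ring
  have e2 : 4 * (3 * (ρ / ρ') * a2) = 12 * (ρ / ρ') * a2 := by ring
  rw [e1, e2] at g1
  exact ⟨θ, hθ0, hθ1, hθa, hθX, I', hI', E, x0, hx0, hE, g1, g3, g4, g5⟩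

end cls

theorem unnrm_nrm {E : E2} {W1 W2 : ℝ} (hE : dt E E = 1) (h1 : 0 < W1) (h2 : 0 < W2) (L0 t : Ln) :
    unnrm E L0 W1 W2 (nrm E L0 W1 W2 t) = t := by
  have hE' : E 0 * E 0 + E 1 * E 1 = 1 := hE
  have key : ∀ x : E2, unlin E W1 W2 (lin E W1 W2 x) = x := by
    intro x
    ext i
    fin_cases i
    · have : unlin E W1 W2 (lin E W1 W2 x) 0 = x 0 * (E 0 * E 0 + E 1 * E 1) := by
        simp [lin, dt, cr, unlin]; field_simp; ring
      show unlin E W1 W2 (lin E W1 W2 x) 0 = x 0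
      rw [this, hE', mul_one]
    · have : unlin E W1 W2 (lin E W1 W2 x) 1 = x 1 * (E 0 * E 0 + E 1 * E 1) := by
        simp [lin, dt, cr, unlin]; field_simp; ring
      show unlin E W1 W2 (lin E W1 W2 x) 1 = x 1
      rw [this, hE', mul_one]
  unfold unnrm nrm
  simp only [key]
  ext i <;> simp

theorem nrm_inj {E : E2} {W1 W2 : ℝ} (hE : dt E E = 1) (h1 : 0 < W1) (h2 : 0 < W2) (L0 : Ln)
    {t t' : Ln} (h : nrm E L0 W1 W2 t = nrm E L0 W1 W2 t') : t = t' := by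
  rw [← unnrm_nrm hE h1 h2 L0 t, h, unnrm_nrm hE h1 h2 L0 t']

variable {F : Cf} {q : ℝ}

open Classical in
/-- the normalised configuration -/
def nF (F : Cf) (A : Finset (Ln × ℤ)) (E : E2) (L0 : Ln) (W1 W2 c1 c2 D0 D1 nu : ℝ) : Cf where
  m := F.m
  M := F.M
  r := c1
  I := (F.I.filter fun x => ob F.top x ∈ A).image fun x => (nrm E L0 W1 W2 x.1, x.2)
  cl := fun o => F.cl (unnrm E L0 W1 W2 o.1, o.2)
  K := fun a => ⟨(F.K a).j, nrm E L0 W1 W2 (F.K a).l, imgE E (F.K a).e W1 W2, c1, c2⟩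
  D0 := D0
  D1 := D1
  nu := nu

open Classical in
theorem nF_card (F : Cf) (A : Finset (Ln × ℤ)) (E : E2) (L0 : Ln) (W1 W2 c1 c2 D0 D1 nu : ℝ) :
    (nF F A E L0 W1 W2 c1 c2 D0 D1 nu).I.card ≤ F.I.card :=
  card_image_le.trans (card_filter_le _ _)

open Classical in
theorem nF_ok (h : F.Ok q) {A : Finset (Ln × ℤ)} (hA : A ⊆ tob F) (hAne : A.Nonempty) {E : E2}
    {L0 : Ln} {W1 W2 c1 c2 N0 N1 E1 s0 S0 nu : ℝ} (hE : dt E E = 1) (hW1 : 0 < W1) (hW : W1 ≤ W2)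
    (hc : Cfg1 A (fun l => nrm E L0 W1 W2 l) (fun j => zm F.top j) F.cl
      (fun a => nrm E L0 W1 W2 (F.K a).l) (fun a => imgE E (F.K a).e W1 W2) c1 c2
      (zm F.m (j0 F h.ne)) (zr F.m) (zr F.top) N0 N1 E1 0 q s0 S0)
    (hc1 : 0 < c1) (hs0 : s0 ≤ c1) (hc12 : c1 ≤ c2) (hc2 : c2 ≤ 1 / 2 ^ F.top)
    (hS0 : 1 / 2 ^ F.m ≤ S0) (hN0 : 0 < N0) (hN1 : 0 < N1) (hE1 : 0 < E1) (hnu : 0 < nu)
    (hown : ∀ x ∈ A, nu ≤ ((A.filter fun y => y.1 = x.1).card : ℝ)) :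
    (nF F A E L0 W1 W2 c1 c2 (N0 / (2 ^ F.m) ^ q) (N1 / (E1 * (2 ^ F.top) ^ q)) nu).Ok q := by
  have hW2 : 0 < W2 := hW1.trans_le hW
  have h2m : (0:ℝ) < (2 ^ F.m) ^ q := by positivity
  have h2t : (0:ℝ) < (2 ^ F.top) ^ q := by positivity
  have htop : (nF F A E L0 W1 W2 c1 c2 (N0 / (2 ^ F.m) ^ q) (N1 / (E1 * (2 ^ F.top) ^ q)) nu).top
      = F.top := rfl
  have memI : ∀ {x'}, x' ∈ (nF F A E L0 W1 W2 c1 c2 (N0 / (2 ^ F.m) ^ q)
      (N1 / (E1 * (2 ^ F.top) ^ q)) nu).I ↔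
      ∃ x ∈ F.I, ob F.top x ∈ A ∧ (nrm E L0 W1 W2 x.1, x.2) = x' := by
    intro x'
    simp only [nF, mem_image, mem_filter]
    constructor
    · rintro ⟨x, ⟨h1, h2⟩, h3⟩; exact ⟨x, h1, h2, h3⟩
    · rintro ⟨x, h1, h2, h3⟩; exact ⟨x, ⟨h1, h2⟩, h3⟩
  have hcl : ∀ x : Ln × ℝ, (nF F A E L0 W1 W2 c1 c2 (N0 / (2 ^ F.m) ^ q)
      (N1 / (E1 * (2 ^ F.top) ^ q)) nu).cl (ob F.top (nrm E L0 W1 W2 x.1, x.2))
      = F.cl (ob F.top x) := by
    intro x
    simp only [nF, ob]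
    rw [unnrm_nrm hE hW1 hW2]
  refine ⟨h.M1, hc1, hc12.trans hc2, ?_, ?_, by show 0 < N1 / (E1 * (2 ^ F.top) ^ q); positivity,
    hnu, ?_, ?_, ?_, ?_, ?_⟩
  · obtain ⟨o, ho⟩ := hAne
    obtain ⟨x, hx, rfl⟩ := mem_tob.1 (hA ho)
    exact ⟨_, memI.2 ⟨x, hx, ho, rfl⟩⟩
  · intro x' hx' y' hy'
    obtain ⟨x, hx, _, rfl⟩ := memI.1 hx'
    obtain ⟨y, hy, _, rfl⟩ := memI.1 hy'
    exact h.cell x hx y hy
  · intro x' hx'
    obtain ⟨x, hx, hxA, rfl⟩ := memI.1 hx'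
    rw [htop, hcl]
    exact ⟨imgE_unit hE (h.legal x hx).unit hW1 hW, le_rfl, hc12, hc2⟩
  · intro x' hx'
    obtain ⟨x, hx, hxA, rfl⟩ := memI.1 hx'
    rw [htop, hcl]
    have h1 := hc.mem _ hxA
    have h2 := (h.mem x hx).1
    refine ⟨h2, ?_⟩
    show InPlank (nrm E L0 W1 W2 x.1) (nrm E L0 W1 W2 (F.K (F.cl (ob F.top x))).l)
      (imgE E (F.K (F.cl (ob F.top x))).e W1 W2) c1 c2 (zm F.top (F.K (F.cl (ob F.top x))).j)
      (zr F.top)
    rw [← h2]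
    exact h1
  · intro x' hx'
    obtain ⟨x, hx, hxA, rfl⟩ := memI.1 hx'
    rw [htop, hcl]
    have h1 := hc.low _ hxA
    -- the classes
    have h2 : (A.filter fun y => F.cl y = F.cl (ob F.top x)).card ≤
        ((nF F A E L0 W1 W2 c1 c2 (N0 / (2 ^ F.m) ^ q)
          (N1 / (E1 * (2 ^ F.top) ^ q)) nu).cls (nrm E L0 W1 W2 x.1, x.2)).card := by
      refine card_le_card_of_injOn (fun y => (nrm E L0 W1 W2 y.1, y.2)) ?_ ?_
      · intro y hy
        rw [mem_coe, mem_filter] at hy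
        obtain ⟨z, hz, hz2⟩ := mem_tob.1 (hA hy.1)
        rw [mem_coe]
        unfold Cf.cls
        rw [mem_filter, mem_image]
        refine ⟨⟨(nrm E L0 W1 W2 z.1, z.2), memI.2 ⟨z, hz, by rw [hz2]; exact hy.1, rfl⟩, ?_⟩, ?_⟩
        · rw [← hz2]; rfl
        · rw [htop, hcl x, ← hy.2, ← hz2]
          exact hcl z
      · intro y _ y' _ heq
        have h3 := Prod.mk.inj heq
        exact Prod.ext (nrm_inj hE hW1 hW2 L0 h3.1) h3.2
    have h2' : ((A.filter fun y => F.cl y = F.cl (ob F.top x)).card : ℝ) ≤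
        (((nF F A E L0 W1 W2 c1 c2 (N0 / (2 ^ F.m) ^ q)
          (N1 / (E1 * (2 ^ F.top) ^ q)) nu).cls (nrm E L0 W1 W2 x.1, x.2)).card : ℝ) := by
      exact_mod_cast h2
    have hc2p : 0 < c2 := hc1.trans_le hc12
    have h3 : N1 * c1 ^ (1 + (0:ℝ)) * c2 ^ (1 + q) ≤
        E1 * ((A.filter fun y => F.cl y = F.cl (ob F.top x)).card : ℝ) := by convert h1
    rw [add_zero, Real.rpow_one] at h3
    refine le_trans ?_ h2'
    have e1 : N1 / (E1 * (2 ^ F.top) ^ q) * (c1 * c2 * (c2 * 2 ^ F.top) ^ q) =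
        N1 * c1 * c2 ^ (1 + q) / E1 := by
      rw [Real.mul_rpow hc2p.le (by positivity), Real.rpow_add hc2p, Real.rpow_one]
      field_simp
    show N1 / (E1 * (2 ^ F.top) ^ q) * (c1 * c2 * (c2 * 2 ^ F.top) ^ q) ≤ _
    rw [e1, div_le_iff₀ hE1]
    linarith
  · intro x' hx'
    obtain ⟨x, hx, hxA, rfl⟩ := memI.1 hx'
    have h1 := hown _ hxA
    refine h1.trans ?_
    unfold ownc
    refine Nat.cast_le.2 (card_le_card_of_injOn (fun y => (nrm E L0 W1 W2 y.1, y.2)) ?_ ?_)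
    · intro y hy
      rw [mem_coe, mem_filter] at hy
      obtain ⟨z, hz, hz2⟩ := mem_tob.1 (hA hy.1)
      have hz3 : z.1 = x.1 := by
        have := hy.2
        rw [← hz2] at this
        exact this
      rw [mem_coe, mem_image]
      refine ⟨(nrm E L0 W1 W2 z.1, z.2), ?_, ?_⟩
      · rw [mem_filter]
        refine ⟨memI.2 ⟨z, hz, by rw [hz2]; exact hy.1, rfl⟩, ?_⟩
        show (nrm E L0 W1 W2 z.1, zc F.m z.2) = (nrm E L0 W1 W2 x.1, zc F.m x.2)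
        rw [hz3, h.cell z hz x hx]
      · rw [← hz2]; rfl
    · intro y _ y' _ heq
      have h3 := Prod.mk.inj heq
      exact Prod.ext (nrm_inj hE hW1 hW2 L0 h3.1) h3.2
  · intro K hK
    show ((objs F.m _ K).card : ℝ) ≤ N0 / (2 ^ F.m) ^ q * cap q F.m K
    have hw1 : 0 < K.w1 := hc1.trans_le hK.r1
    have hw2 : 0 < K.w2 := hw1.trans_le hK.w12
    have hcap : N0 / (2 ^ F.m) ^ q * cap q F.m K = N0 * K.w1 ^ (1 + (0:ℝ)) * K.w2 ^ (1 + q) := by
      unfold cap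
      rw [Real.mul_rpow hw2.le (by positivity), add_zero, Real.rpow_one, Real.rpow_add hw2,
        Real.rpow_one]
      field_simp
    rw [hcap]
    rcases (objs F.m (nF F A E L0 W1 W2 c1 c2 (N0 / (2 ^ F.m) ^ q)
      (N1 / (E1 * (2 ^ F.top) ^ q)) nu).I K).eq_empty_or_nonempty with hemp | ⟨o, ho⟩
    · rw [hemp]; simp; positivity
    · have hKj : K.j = j0 F h.ne := by
        unfold objs at ho
        rw [mem_filter, mem_image] at ho
        obtain ⟨⟨x', hx', rfl⟩, h2, _⟩ := ho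
        obtain ⟨x, hx, _, rfl⟩ := memI.1 hx'
        rw [← h2]
        exact j0_eq (x := x) h hx
      have hd := hc.dmax K.l K.e K.w1 K.w2 hK.unit (hs0.trans hK.r1) hK.w12 (hK.w2.trans hS0)
      refine le_trans ?_ hd
      have hsub : objs F.m (nF F A E L0 W1 W2 c1 c2 (N0 / (2 ^ F.m) ^ q)
          (N1 / (E1 * (2 ^ F.top) ^ q)) nu).I K ⊆
          ((A.image Prod.fst).filter fun i => InPlank (nrm E L0 W1 W2 i) K.l K.e K.w1 K.w2
            (zm F.m (j0 F h.ne)) (zr F.m)).image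
            fun i => (nrm E L0 W1 W2 i, j0 F h.ne) := by
        intro o ho
        unfold objs at ho
        rw [mem_filter, mem_image] at ho
        obtain ⟨⟨x', hx', rfl⟩, h2, h3⟩ := ho
        obtain ⟨x, hx, hxA, rfl⟩ := memI.1 hx'
        rw [hKj] at h3
        rw [mem_image]
        refine ⟨x.1, ?_, ?_⟩
        · rw [mem_filter]
          exact ⟨mem_image.2 ⟨_, hxA, rfl⟩, h3⟩
        · show (nrm E L0 W1 W2 x.1, j0 F h.ne) = (nrm E L0 W1 W2 x.1, zc F.m x.2)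
          rw [j0_eq h hx]
      have := (card_le_card hsub).trans card_image_le
      refine (Nat.cast_le.2 this).trans (le_of_eq ?_)
      congr 2
      ext i
      simp only [mem_filter, mem_image]

end

end Crest.Agent.R138.Norm70
end

-- ▼ part R138/Norm9_70
section

/-!
# R138: NORM over `Cf`, part 4: numbers and the final statement (helper70)

`norm_cf` = leaf L3 of doc 1983.
-/

set_option autoImplicit false
set_option linter.unusedVariables false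

open Finset Filter Topology

namespace Crest.Agent.R138.Norm70

open Crest.Agent.R138.Flag51 Crest.Agent.R138.Tilt51 Crest.Agent.R138.K294

noncomputable section

/-- polynomial against exponential -/
theorem growth (C a B : ℝ) (ha : 0 < a) :
    ∃ M₀ : ℕ, ∀ M : ℕ, M₀ ≤ M → C * (B * M + 1) ^ 6 ≤ (2:ℝ) ^ (a * M) := by
  have h1 : (1:ℝ) < 2 ^ a := Real.one_lt_rpow (by norm_num) ha
  have h2 := (isLittleO_pow_const_const_pow_of_one_lt 6 h1 : (fun n : ℕ => (n:ℝ) ^ 6) =o[atTop]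
    fun n => ((2:ℝ) ^ a) ^ n)
  have h3 : ∀ᶠ n : ℕ in atTop, |C| * (|B| + 1) ^ 6 * (n:ℝ) ^ 6 ≤ ((2:ℝ) ^ a) ^ n := by
    have hc : (0:ℝ) < 1 / (|C| * (|B| + 1) ^ 6 + 1) := by positivity
    filter_upwards [h2.bound hc] with n hn
    rw [Real.norm_of_nonneg (by positivity), Real.norm_of_nonneg (by positivity)] at hn
    have hp : 0 < |C| * (|B| + 1) ^ 6 + 1 := by positivity
    rw [div_mul_eq_mul_div, one_mul, le_div_iff₀ hp] at hn
    have : (0:ℝ) ≤ (n:ℝ) ^ 6 := by positivity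
    nlinarith
  obtain ⟨M₀, hM₀⟩ := eventually_atTop.1 h3
  refine ⟨max M₀ 1, fun M hM => ?_⟩
  have hM1 : (1:ℝ) ≤ M := by exact_mod_cast (le_max_right _ _).trans hM
  have h4 := hM₀ M ((le_max_left _ _).trans hM)
  have e1 : (2:ℝ) ^ (a * M) = ((2:ℝ) ^ a) ^ M := by
    rw [Real.rpow_mul (by norm_num), Real.rpow_natCast]
  rw [e1]
  refine le_trans ?_ h4
  have h5 : (B * M + 1) ^ 6 ≤ ((|B| + 1) * M) ^ 6 := by
    have : |B * M + 1| ≤ (|B| + 1) * M := by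
      refine (abs_add_le _ _).trans ?_
      rw [abs_mul, abs_one, abs_of_nonneg (by linarith : (0:ℝ) ≤ M)]
      nlinarith
    calc (B * M + 1) ^ 6 = |B * M + 1| ^ 6 := by
          rw [← abs_pow]; exact (abs_of_nonneg (by positivity)).symm
      _ ≤ ((|B| + 1) * M) ^ 6 := pow_le_pow_left₀ (abs_nonneg _) this 6
  calc C * (B * M + 1) ^ 6 ≤ |C| * (B * M + 1) ^ 6 :=
        mul_le_mul_of_nonneg_right (le_abs_self C) (by positivity)
    _ ≤ |C| * ((|B| + 1) * M) ^ 6 := mul_le_mul_of_nonneg_left h5 (abs_nonneg _)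
    _ = |C| * (|B| + 1) ^ 6 * (M:ℝ) ^ 6 := by ring

variable {F : Cf} {q : ℝ}

theorem zr_ratio (F : Cf) : zr F.m / zr F.top = 2 ^ F.M := by
  unfold zr Cf.top
  have : (2:ℝ) ^ (F.m + F.M + 1) = 2 ^ (F.m + 1) * 2 ^ F.M := by
    rw [← pow_add]; congr 1; ring
  rw [this]; field_simp

theorem nu_le (h : F.Ok q) : F.nu ≤ 2 ^ F.M := by
  classical
  obtain ⟨x, hx⟩ := h.ne
  have ho : ob F.top x ∈ tob F := mem_tob.2 ⟨x, hx, rfl⟩
  refine (tob_own h ho).trans ?_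
  have h1 : (((tob F).filter fun o' => o'.1 = (ob F.top x).1)).card ≤
      (Ico (2 ^ F.M * j0 F h.ne) (2 ^ F.M * j0 F h.ne + 2 ^ F.M)).card := by
    refine card_le_card_of_injOn Prod.snd ?_ ?_
    · intro o ho
      rw [mem_coe, mem_filter] at ho
      exact mem_coe.2 (tob_cells h ho.1)
    · intro o ho o' ho' heq
      rw [mem_coe, mem_filter] at ho ho'
      exact Prod.ext (ho.2.trans ho'.2.symm) heq
  have h2 : (Ico (2 ^ F.M * j0 F h.ne) (2 ^ F.M * j0 F h.ne + 2 ^ F.M)).card = 2 ^ F.M := by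
    rw [Int.card_Ico, add_sub_cancel_left]
    exact Int.toNat_natCast (2 ^ F.M) ▸ by norm_cast
  rw [h2] at h1
  exact_mod_cast h1

theorem val_nonneg (h : F.Ok q) (hv : 0 ≤ F.val) : 4 ^ F.M * F.D0 ≤ F.D1 * F.nu ^ 2 := by
  have hD0 := D0_pos h
  have hD1 := h.D1p
  have hnu := h.nup
  have hM : (0:ℝ) < F.M := by exact_mod_cast h.M1
  unfold Cf.val at hv
  have h1 : 0 ≤ Real.logb 2 (F.D1 * F.nu ^ 2 / (4 ^ F.M * F.D0)) := by
    by_contra hc
    have := div_neg_of_neg_of_pos (not_le.1 hc) hM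
    linarith
  have h2 : 1 ≤ F.D1 * F.nu ^ 2 / (4 ^ F.M * F.D0) := by
    by_contra hc
    have := Real.logb_neg (b := 2) (by norm_num) (by positivity) (not_le.1 hc)
    linarith
  rwa [le_div_iff₀ (by positivity), one_mul] at h2

/-- the smallness condition of the flag lemma -/
theorem small_cond (h : F.Ok q) {q0 : ℝ} (hq0 : 0 < q0) (hq : q0 ≤ q) (hq2 : q ≤ 2)
    (hv : 0 ≤ F.val) {T : ℝ} (hT : 1 ≤ T)
    (hbig : 16 * 3538944 * (64 * 97 ^ 4 * 81) ^ 2 * T ^ 6 ≤ (1 - 2 ^ (-q0)) * 2 ^ F.M) :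
    4 * (kap (64 * T ^ 2) (97 ^ 4 * F.D0 * (2 ^ F.m) ^ q) (F.D1 * (2 ^ F.top) ^ q)
      (3 * (zr F.m / zr F.top)) 0 q (2 ^ (-(5 * (F.M:ℝ) / q))) * 2 ^ F.M) ≤
      F.nu / (4 * T ^ 2) := by
  have hqp : 0 < q := hq0.trans_le hq
  have hD0 := D0_pos h
  have hD1 := h.D1p
  have hnu := h.nup
  have hv' := val_nonneg h hv
  have hnuM := nu_le h
  have hP : (0:ℝ) < 2 ^ F.M := by positivity
  have hP4 : (4:ℝ) ^ F.M = (2 ^ F.M) ^ 2 := by
    rw [← pow_mul, mul_comm, pow_mul]; norm_num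
  rw [zr_ratio]
  -- the factor `E`
  have e1 : 64 * T ^ 2 * (97 ^ 4 * F.D0 * (2 ^ F.m) ^ q / (F.D1 * (2 ^ F.top) ^ q)) *
      (3 * 2 ^ F.M) ^ (2 + 0 + q) ≤ 64 * 97 ^ 4 * 81 * T ^ 2 * F.nu ^ 2 := by
    have k1 : (3 * (2:ℝ) ^ F.M) ^ (2 + 0 + q) = 3 ^ (2 + q) * ((2 ^ F.M) ^ 2 * (2 ^ F.M) ^ q) := by
      rw [Real.mul_rpow (by norm_num) hP.le, add_zero, Real.rpow_add hP]
      norm_num
    have k2 : (3:ℝ) ^ (2 + q) ≤ 81 := by
      calc (3:ℝ) ^ (2 + q) ≤ 3 ^ (4:ℝ) :=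
            Real.rpow_le_rpow_of_exponent_le (by norm_num) (by linarith)
        _ = 81 := by norm_num
    have k3 : ((2:ℝ) ^ F.top) ^ q = (2 ^ F.m) ^ q * (2 ^ F.M) ^ q := by
      unfold Cf.top
      rw [pow_add, Real.mul_rpow (by positivity) hP.le]
    have p1 : (0:ℝ) < (2 ^ F.m) ^ q := by positivity
    have p2 : (0:ℝ) < (2 ^ F.M) ^ q := by positivity
    rw [k1, k3]
    calc 64 * T ^ 2 * (97 ^ 4 * F.D0 * (2 ^ F.m) ^ q / (F.D1 * ((2 ^ F.m) ^ q * (2 ^ F.M) ^ q))) *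
          (3 ^ (2 + q) * ((2 ^ F.M) ^ 2 * (2 ^ F.M) ^ q))
        = 64 * 97 ^ 4 * T ^ 2 * 3 ^ (2 + q) * (4 ^ F.M * F.D0 / F.D1) := by
          rw [hP4]; field_simp
      _ ≤ 64 * 97 ^ 4 * T ^ 2 * 81 * (F.nu ^ 2) := by
          have k5 : 4 ^ F.M * F.D0 / F.D1 ≤ F.nu ^ 2 := by
            rw [div_le_iff₀ hD1]; linarith
          gcongr
      _ = _ := by ring
  have hγ : 0 < 1 - (2:ℝ) ^ (-q0) := by
    have : (2:ℝ) ^ (-q0) < 1 := Real.rpow_lt_one_of_one_lt_of_neg (by norm_num) (by linarith)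
    linarith
  have hγ' : 1 - (2:ℝ) ^ (-q0) ≤ 1 - (2:ℝ) ^ (0 - q) := by
    have : (2:ℝ) ^ (0 - q) ≤ 2 ^ (-q0) :=
      Real.rpow_le_rpow_of_exponent_le (by norm_num) (by linarith)
    linarith
  have e2 : ((2:ℝ) ^ (-(5 * (F.M:ℝ) / q))) ^ (q - 0) = 1 / (2 ^ F.M) ^ 5 := by
    rw [sub_zero, ← Real.rpow_mul (by norm_num)]
    have : -(5 * (F.M:ℝ) / q) * q = -((F.M * 5 : ℕ) : ℝ) := by push_cast; field_simp
    rw [this, Real.rpow_neg (by norm_num), Real.rpow_natCast, pow_mul, one_div]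
  have e3 : TiltG51.c0 0 q ≤ 3538944 := by
    unfold TiltG51.c0
    rw [add_zero, Real.rpow_one]
    calc (32:ℝ) * 48 ^ (1 + q) ≤ 32 * 48 ^ (3:ℝ) := by
          refine mul_le_mul_of_nonneg_left ?_ (by norm_num)
          exact Real.rpow_le_rpow_of_exponent_le (by norm_num) (by linarith)
      _ = 3538944 := by norm_num
  unfold kap
  rw [e2]
  set Ee := 64 * T ^ 2 * (97 ^ 4 * F.D0 * (2 ^ F.m) ^ q / (F.D1 * (2 ^ F.top) ^ q)) *
      (3 * 2 ^ F.M) ^ (2 + 0 + q) with hEe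
  have hEe0 : 0 ≤ Ee := by rw [hEe]; positivity
  have hc0 := TiltG51.c0_pos 0 q
  have k6 : TiltG51.c0 0 q * Ee * Ee ≤
      3538944 * (64 * 97 ^ 4 * 81 * T ^ 2 * F.nu ^ 2) * (64 * 97 ^ 4 * 81 * T ^ 2 * F.nu ^ 2) := by
    gcongr
  have k7 : TiltG51.c0 0 q * Ee * Ee / (1 - 2 ^ (0 - q)) ≤
      3538944 * (64 * 97 ^ 4 * 81 * T ^ 2 * F.nu ^ 2) * (64 * 97 ^ 4 * 81 * T ^ 2 * F.nu ^ 2) /
        (1 - 2 ^ (-q0)) :=
    div_le_div₀ (by positivity) k6 hγ hγ'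
  have hT0 : 0 < T := by linarith
  rw [le_div_iff₀ (by positivity)]
  calc 4 * (TiltG51.c0 0 q * Ee * Ee / (1 - 2 ^ (0 - q)) * (1 / (2 ^ F.M) ^ 5) * 2 ^ F.M) *
        (4 * T ^ 2)
      ≤ 4 * (3538944 * (64 * 97 ^ 4 * 81 * T ^ 2 * F.nu ^ 2) *
          (64 * 97 ^ 4 * 81 * T ^ 2 * F.nu ^ 2) / (1 - 2 ^ (-q0)) * (1 / (2 ^ F.M) ^ 5) *
          2 ^ F.M) * (4 * T ^ 2) := by gcongr
    _ = (16 * 3538944 * (64 * 97 ^ 4 * 81) ^ 2 * T ^ 6) * (F.nu ^ 3 * F.nu) /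
          ((1 - 2 ^ (-q0)) * (2 ^ F.M) ^ 4) := by field_simp; ring
    _ ≤ ((1 - 2 ^ (-q0)) * 2 ^ F.M) * ((2 ^ F.M) ^ 3 * F.nu) /
          ((1 - 2 ^ (-q0)) * (2 ^ F.M) ^ 4) := by gcongr
    _ = F.nu := by field_simp

end

end Crest.Agent.R138.Norm70
end

-- ▼ part R138/NormA_70

/-!
# R138: NORM, literal leaf L3 over `K294.Cf` (helper70)

`norm_cf` : a configuration with nonnegative value can be replaced by a normalised one (resolution
`≥ 2^-(m + (5/q0 + 5) M)`, all lines in one box of size `2/2^m`, deep planks of equal dimensions),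
the value drops by at most `η`.
-/

set_option autoImplicit false
set_option linter.unusedVariables false

open Finset Filter Topology

namespace Crest.Agent.R138.Norm70

open Crest.Agent.R138.Flag51 Crest.Agent.R138.Tilt51 Crest.Agent.R138.K294

noncomputable section

variable {F : Cf} {q : ℝ}

theorem dyi_bound (h : F.Ok q) {R : ℝ} (hR : (2:ℝ) ^ (-((F.m:ℝ) + R * F.M)) ≤ F.r) :
    ∀ o ∈ tob F, dyi F.r (F.K (F.cl o)).w2 < ⌊|R| * F.M⌋₊ + 1 := by
  intro o ho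
  have hr := h.r0
  have hl := (tob_legal h ho).1
  have hw2p : 0 < (F.K (F.cl o)).w2 := hr.trans_le (hl.r1.trans hl.w12)
  rw [Nat.lt_succ_iff]
  unfold dyi
  refine Nat.floor_le_floor ?_
  have hM : (0:ℝ) ≤ F.M := Nat.cast_nonneg _
  rw [Real.logb_le_iff_le_rpow (by norm_num) (by positivity), div_le_iff₀ hr]
  have e1 : (1:ℝ) / 2 ^ F.top = 2 ^ (-((F.m:ℝ) + F.M)) := by
    rw [Real.rpow_neg (by norm_num), one_div]
    congr 1
    unfold Cf.top
    rw [← Real.rpow_natCast]; push_cast; rfl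
  calc (F.K (F.cl o)).w2 ≤ 1 / 2 ^ F.top := hl.w2
    _ = 2 ^ (-((F.m:ℝ) + F.M)) := e1
    _ ≤ 2 ^ (|R| * F.M + -((F.m:ℝ) + R * F.M)) := by
        refine Real.rpow_le_rpow_of_exponent_le (by norm_num) ?_
        have := mul_le_mul_of_nonneg_right (le_abs_self R) hM
        linarith
    _ = 2 ^ (|R| * F.M) * 2 ^ (-((F.m:ℝ) + R * F.M)) := Real.rpow_add (by norm_num) _ _
    _ ≤ 2 ^ (|R| * F.M) * F.r := mul_le_mul_of_nonneg_left hR (by positivity)

open Classical in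
/-- one configuration, explicit constants -/
theorem norm_one (h : F.Ok q) {q0 : ℝ} (hq0 : 0 < q0) (hq : q0 ≤ q) (hq2 : q ≤ 2)
    (hv : 0 ≤ F.val) {T : ℕ} (hT1 : 1 ≤ T) (hT : ∀ o ∈ tob F, dyi F.r (F.K (F.cl o)).w2 < T)
    (hbig : 16 * 3538944 * (64 * 97 ^ 4 * 81) ^ 2 * (T:ℝ) ^ 6 ≤ (1 - 2 ^ (-q0)) * 2 ^ F.M) :
    ∃ F' : Cf, F'.Ok q ∧ F'.m = F.m ∧ F'.M = F.M ∧
      2 ^ (-(5 * (F.M:ℝ) / q)) / (12 * 2 ^ F.top) ≤ F'.r ∧ F'.I.card ≤ F.I.card ∧
      (∀ a, (F'.K a).w1 = F'.r ∧ (F'.K a).w2 = 2 / (3 * 2 ^ F.top)) ∧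
      (∀ x ∈ F'.I, ∀ y ∈ F'.I, zc F.m y.2 = zc F.m x.2) ∧
      (∀ x ∈ F'.I, ∀ z, zc F.m z = zc F.m x.2 →
        |pos x.1 z 0| ≤ 1 / 2 ^ F.m ∧ |pos x.1 z 1| ≤ 1 / 2 ^ F.m) ∧
      F.D1 * F.nu ^ 2 / (4 ^ F.M * F.D0) ≤
        (97 ^ 4 * 524288000 * 64000000 * (T:ℝ) ^ 6) * (F'.D1 * F'.nu ^ 2 / (4 ^ F'.M * F'.D0)) := by
  have hqp : 0 < q := hq0.trans_le hq
  have hD0 := D0_pos h
  have hD1 := h.D1p
  have hnu := h.nup
  have hr := h.r0
  have hTr : (1:ℝ) ≤ (T:ℝ) := by exact_mod_cast hT1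
  have hTp : (0:ℝ) < (T:ℝ) := by linarith
  have hP : (0:ℝ) < 2 ^ F.M := by positivity
  have hP1 : (1:ℝ) ≤ 2 ^ F.M := one_le_pow₀ (by norm_num)
  have hm : (0:ℝ) < 2 ^ F.m := by positivity
  have htop : (2:ℝ) ^ F.top = 2 ^ F.m * 2 ^ F.M := by unfold Cf.top; rw [pow_add]
  have htp : (0:ℝ) < 2 ^ F.top := by positivity
  obtain ⟨A, hA, hAne, a1, a2, hra1, ha12, ha2, hC, hown, hcells⟩ := Ok_cfg1 h hqp.le hq2 hT
  have ha1 : 0 < a1 := hr.trans_le hra1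
  have ha2p : 0 < a2 := ha1.trans_le ha12
  have hsm := small_cond h hq0 hq hq2 hv hTr hbig
  have hratio := zr_ratio F
  -- a2 bounds
  have hA2 : 2 ^ F.M * a2 ≤ 2 / 2 ^ F.m := by
    have := mul_le_mul_of_nonneg_left ha2 hP.le
    rw [htop] at this
    calc 2 ^ F.M * a2 ≤ 2 ^ F.M * (2 / (2 ^ F.m * 2 ^ F.M)) := this
      _ = 2 / 2 ^ F.m := by field_simp
  obtain ⟨θ, hθ0, hθ1, hθa, hθX, I', hI', E, x0, hx0, hE, g1, g2, g3, g4⟩ :=
    hC.cont hAne le_rfl hqp (zr_pos _) (zr_anti (Nat.le_add_right _ _)) ha1 ha12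
      (by rw [hratio]; nlinarith)
      (by
        rw [hratio]
        calc 8 * (3 * 2 ^ F.M * a2) = 24 * (2 ^ F.M * a2) := by ring
          _ ≤ 24 * (2 / 2 ^ F.m) := by gcongr
          _ = 48 / 2 ^ F.m := by ring)
      (by positivity) (by positivity) (by positivity)
      (X := 2 ^ (-(5 * (F.M:ℝ) / q))) (by positivity)
      (Real.rpow_le_one_of_one_le_of_nonpos (by norm_num) (by
        have : 0 ≤ 5 * (F.M:ℝ) / q := by positivity
        linarith))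
      (by convert hcells) (n1 := F.nu / (4 * (T:ℝ) ^ 2)) (by positivity)
      (fun x hx => by convert hown x hx) hsm
  rw [hratio] at g1
  -- scaled container
  set W1 : ℝ := 12 * θ * 2 ^ F.top * a2 with hW1
  set W2 : ℝ := 12 * 2 ^ F.top * a2 with hW2
  have hW1p : 0 < W1 := by positivity
  have hW2p : 0 < W2 := by positivity
  have hW12 : W1 ≤ W2 := by
    rw [hW1, hW2]
    have : 12 * θ * 2 ^ F.top * a2 = θ * (12 * 2 ^ F.top * a2) := by ring
    rw [this]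
    exact mul_le_of_le_one_left (by positivity) hθ1
  have hAp : (0:ℝ) < 1 / (3 * 2 ^ F.top) := by positivity
  have hcc := hC.nrm_sub (θ := 3 * θ) (K := 2000) (A := 1 / (3 * 2 ^ F.top)) le_rfl hqp.le hq2 ha1
    ha2p hr (by positivity) (by positivity) hI' x0.1 hE hW1p hW12 hAp
    (by
      have : 1 / (3 * 2 ^ F.top) * W1 = 4 * θ * a2 := by rw [hW1]; field_simp; norm_num
      rw [this]; linarith)
    (by
      have : 1 / (3 * 2 ^ F.top) * W2 = 4 * a2 := by rw [hW2]; field_simp; norm_num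
      rw [this]; linarith) g2 g4
  have hown' : ∀ x ∈ I', F.nu / (8000 * (T:ℝ) ^ 2) ≤
      ((I'.filter fun y => y.1 = x.1).card : ℝ) := by
    intro x hx
    have k1 := hown x (hI' hx)
    have k2 : ((A.filter fun y => y.1 = x.1).card : ℝ) ≤
        2000 * ((I'.filter fun y => y.1 = x.1).card : ℝ) := by convert g3 x hx
    have k3 : F.nu / (8000 * (T:ℝ) ^ 2) = F.nu / (4 * (T:ℝ) ^ 2) / 2000 := by
      field_simp; norm_num
    rw [k3, div_le_iff₀ (by norm_num)]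
    linarith
  have hc1 : 0 < a1 / W1 := by positivity
  have hc2 : 2 * (1 / (3 * (2:ℝ) ^ F.top)) ≤ 1 / 2 ^ F.top := by
    have : 2 * (1 / (3 * (2:ℝ) ^ F.top)) = (2 / 3) * (1 / 2 ^ F.top) := by field_simp
    rw [this]
    have : (0:ℝ) < 1 / 2 ^ F.top := by positivity
    linarith
  have hc12 : a1 / W1 ≤ 2 * (1 / (3 * 2 ^ F.top)) := by
    rw [div_le_iff₀ hW1p, hW1]
    have : 2 * (1 / (3 * 2 ^ F.top)) * (12 * θ * 2 ^ F.top * a2) = 8 * (θ * a2) := by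
      field_simp; norm_num
    rw [this]
    have : 0 < θ * a2 := by positivity
    linarith
  have hS0 : 1 / 2 ^ F.m ≤ 48 / 2 ^ F.m / (2 * W2) := by
    rw [div_div, div_le_div_iff₀ hm (by positivity), hW2]
    have : 2 ^ F.top * a2 ≤ 2 := by
      rw [htop]
      calc 2 ^ F.m * 2 ^ F.M * a2 = 2 ^ F.m * (2 ^ F.M * a2) := by ring
        _ ≤ 2 ^ F.m * (2 / 2 ^ F.m) := mul_le_mul_of_nonneg_left hA2 hm.le
        _ = 2 := by field_simp
    nlinarith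
  have e8 : (8:ℝ) ^ (1 + q) ≤ 512 := by
    calc (8:ℝ) ^ (1 + q) ≤ 8 ^ (3:ℝ) :=
          Real.rpow_le_rpow_of_exponent_le (by norm_num) (by linarith)
      _ = 512 := by norm_num
  have eW : 2 * (1 / (3 * 2 ^ F.top)) * W2 / a2 = 8 := by rw [hW2]; field_simp; norm_num
  rw [eW] at hcc
  set N0 : ℝ := 8 * (97 ^ 4 * F.D0 * (2 ^ F.m) ^ q) * W1 ^ (1 + (0:ℝ)) * W2 ^ (1 + q) with hN0
  set N1 : ℝ := 8 * (F.D1 * (2 ^ F.top) ^ q) * W1 ^ (1 + (0:ℝ)) * W2 ^ (1 + q) with hN1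
  set E1 : ℝ := 8 * 8 ^ (1 + q) * 2000 * (64 * (T:ℝ) ^ 2) with hE1
  have hok := nF_ok h (hI'.trans hA) ⟨x0, hx0⟩ (nu := F.nu / (8000 * (T:ℝ) ^ 2)) hE hW1p hW12 hcc
    hc1 (div_le_div_of_nonneg_right hra1 hW1p.le) hc12 hc2 hS0 (by positivity) (by positivity)
    (by positivity) (by positivity) (fun x hx => by convert hown' x hx)
  refine ⟨_, hok, rfl, rfl, ?_, nF_card _ _ _ _ _ _ _ _ _ _ _, ?_, ?_, ?_, ?_⟩
  · show 2 ^ (-(5 * (F.M:ℝ) / q)) / (12 * 2 ^ F.top) ≤ a1 / W1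
    rw [div_le_div_iff₀ (by positivity) hW1p, hW1]
    calc 2 ^ (-(5 * (F.M:ℝ) / q)) * (12 * θ * 2 ^ F.top * a2)
        = (2 ^ (-(5 * (F.M:ℝ) / q)) * θ * a2) * (12 * 2 ^ F.top) := by ring
      _ ≤ a1 * (12 * 2 ^ F.top) := mul_le_mul_of_nonneg_right hθX (by positivity)
  · intro a
    refine ⟨rfl, ?_⟩
    show 2 * (1 / (3 * (2:ℝ) ^ F.top)) = 2 / (3 * 2 ^ F.top)
    ring
  · intro x hx y hy
    exact (hok.cell x hx y hy).symm
  · intro x' hx' z hz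
    have hx'' : x' ∈ (F.I.filter fun x => ob F.top x ∈ I').image
        fun x => (nrm E x0.1 W1 W2 x.1, x.2) := hx'
    rw [mem_image] at hx''
    obtain ⟨x, hx, rfl⟩ := hx''
    rw [mem_filter] at hx
    have hzz : |z - zm F.m (j0 F h.ne)| ≤ zr F.m := by
      rw [← j0_eq h hx.1, ← hz]
      exact abs_sub_zm _ _
    obtain ⟨k1, k2⟩ := g1 _ hx.2 z hzz
    have k3 : (ob F.top x).1 = x.1 := rfl
    rw [k3] at k1 k2
    show |pos (nrm E x0.1 W1 W2 x.1) z 0| ≤ _ ∧ |pos (nrm E x0.1 W1 W2 x.1) z 1| ≤ _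
    rw [pos_nrm, lin_zero_apply, lin_one_apply, abs_div, abs_div, abs_of_pos hW1p,
      abs_of_pos hW2p, div_le_div_iff₀ hW1p hm, div_le_div_iff₀ hW2p hm, hW1, hW2, htop]
    constructor
    · calc |dt (pos x.1 z - pos x0.1 z) E| * 2 ^ F.m
          ≤ (12 * θ * 2 ^ F.M * a2) * 2 ^ F.m := mul_le_mul_of_nonneg_right k1 hm.le
        _ = 1 * (12 * θ * (2 ^ F.m * 2 ^ F.M) * a2) := by ring
    · calc |cr E (pos x.1 z - pos x0.1 z)| * 2 ^ F.m
          ≤ (12 * 2 ^ F.M * a2) * 2 ^ F.m := mul_le_mul_of_nonneg_right k2 hm.le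
        _ = 1 * (12 * (2 ^ F.m * 2 ^ F.M) * a2) := by ring
  · show F.D1 * F.nu ^ 2 / (4 ^ F.M * F.D0) ≤
      (97 ^ 4 * 524288000 * 64000000 * (T:ℝ) ^ 6) * (N1 / (E1 * (2 ^ F.top) ^ q) *
        (F.nu / (8000 * (T:ℝ) ^ 2)) ^ 2 / (4 ^ F.M * (N0 / (2 ^ F.m) ^ q)))
    have p1 : (0:ℝ) < (2 ^ F.m) ^ q := by positivity
    have p2 : (0:ℝ) < (2 ^ F.top) ^ q := by positivity
    have p3 : (0:ℝ) < W1 ^ (1 + (0:ℝ)) := by positivity
    have p4 : (0:ℝ) < W2 ^ (1 + q) := by positivity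
    have k1 : N1 / (E1 * (2 ^ F.top) ^ q) * (F.nu / (8000 * (T:ℝ) ^ 2)) ^ 2 /
        (4 ^ F.M * (N0 / (2 ^ F.m) ^ q)) =
        (F.D1 * F.nu ^ 2 / (4 ^ F.M * F.D0)) / (97 ^ 4 * E1 * (8000 * (T:ℝ) ^ 2) ^ 2) := by
      rw [hN0, hN1]; field_simp
    rw [k1]
    have hE1p : 0 < E1 := by rw [hE1]; positivity
    have k2 : E1 ≤ 524288000 * (T:ℝ) ^ 2 := by
      rw [hE1]
      calc 8 * 8 ^ (1 + q) * 2000 * (64 * (T:ℝ) ^ 2) ≤ 8 * 512 * 2000 * (64 * (T:ℝ) ^ 2) := by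
            gcongr
        _ = 524288000 * (T:ℝ) ^ 2 := by ring
    rw [← mul_div_assoc, le_div_iff₀ (by positivity), mul_comm]
    have hpos : 0 < F.D1 * F.nu ^ 2 / (4 ^ F.M * F.D0) := by positivity
    refine mul_le_mul_of_nonneg_right ?_ hpos.le
    calc 97 ^ 4 * E1 * (8000 * (T:ℝ) ^ 2) ^ 2
        ≤ 97 ^ 4 * (524288000 * (T:ℝ) ^ 2) * (8000 * (T:ℝ) ^ 2) ^ 2 := by gcongr
      _ = 97 ^ 4 * 524288000 * 64000000 * (T:ℝ) ^ 6 := by ring

/-- **L3 = NORM.** -/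
theorem norm_cf {q0 : ℝ} (hq0 : 0 < q0) (R : ℝ) {η : ℝ} (hη : 0 < η) :
    ∃ M₀ : ℕ, ∀ q, q0 ≤ q → q ≤ 2 → ∀ F : Cf, F.Ok q → M₀ ≤ F.M →
      (2:ℝ) ^ (-((F.m:ℝ) + R * F.M)) ≤ F.r → 0 ≤ F.val →
      ∃ F' : Cf, F'.Ok q ∧ F'.m = F.m ∧ F'.M = F.M ∧
        (2:ℝ) ^ (-((F'.m:ℝ) + (5 / q0 + 5) * F'.M)) ≤ F'.r ∧ F'.I.card ≤ F.I.card ∧
        F.val - η ≤ F'.val ∧
        (∀ a, (F'.K a).w1 = F'.r ∧ (F'.K a).w2 = 2 / (3 * 2 ^ F.top)) ∧
        (∀ x ∈ F'.I, ∀ z, zc F.m z = zc F.m x.2 →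
          |pos x.1 z 0| ≤ 1 / 2 ^ F.m ∧ |pos x.1 z 1| ≤ 1 / 2 ^ F.m) := by
  have hγ : 0 < 1 - (2:ℝ) ^ (-q0) := by
    have : (2:ℝ) ^ (-q0) < 1 := Real.rpow_lt_one_of_one_lt_of_neg (by norm_num) (by linarith)
    linarith
  obtain ⟨M1, hM1⟩ := growth (16 * 3538944 * (64 * 97 ^ 4 * 81) ^ 2 / (1 - (2:ℝ) ^ (-q0))) 1 |R|
    one_pos
  obtain ⟨M2, hM2⟩ := growth (97 ^ 4 * 524288000 * 64000000) η |R| hη
  refine ⟨max (max M1 M2) 4, fun q hq hq2 F h hM hR hv => ?_⟩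
  have hMM1 : M1 ≤ F.M := (le_max_left _ _).trans ((le_max_left _ _).trans hM)
  have hMM2 : M2 ≤ F.M := (le_max_right _ _).trans ((le_max_left _ _).trans hM)
  have hM4 : 4 ≤ F.M := (le_max_right _ _).trans hM
  have hM4r : (4:ℝ) ≤ F.M := by exact_mod_cast hM4
  have hMp : (0:ℝ) < F.M := by linarith
  have hTle : ((⌊|R| * F.M⌋₊ + 1 : ℕ) : ℝ) ≤ |R| * F.M + 1 := by
    push_cast
    have := Nat.floor_le (by positivity : (0:ℝ) ≤ |R| * F.M)
    linarith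
  have hT0 : (0:ℝ) ≤ ((⌊|R| * F.M⌋₊ + 1 : ℕ) : ℝ) := Nat.cast_nonneg _
  have hT6 : ((⌊|R| * F.M⌋₊ + 1 : ℕ) : ℝ) ^ 6 ≤ (|R| * F.M + 1) ^ 6 :=
    pow_le_pow_left₀ hT0 hTle 6
  have hbig : 16 * 3538944 * (64 * 97 ^ 4 * 81) ^ 2 * ((⌊|R| * F.M⌋₊ + 1 : ℕ) : ℝ) ^ 6 ≤
      (1 - 2 ^ (-q0)) * 2 ^ F.M := by
    have k1 := hM1 F.M hMM1
    rw [one_mul, Real.rpow_natCast, div_mul_eq_mul_div, div_le_iff₀ hγ] at k1
    refine le_trans ?_ (k1.trans (le_of_eq (mul_comm _ _)))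
    exact mul_le_mul_of_nonneg_left hT6 (by norm_num)
  obtain ⟨F', g1, g2, g3, g4, g5, g6, g7, g8, g9⟩ := norm_one h hq0 hq hq2 hv (Nat.le_add_left _ _)
    (dyi_bound h hR) hbig
  refine ⟨F', g1, g2, g3, ?_, g5, ?_, g6, g8⟩
  · refine le_trans ?_ g4
    rw [g2, g3]
    have hqp : 0 < q := hq0.trans_le hq
    have e1 : (12 * 2 ^ F.top : ℝ) ≤ 2 ^ ((F.m:ℝ) + 2 * F.M) := by
      have : ((F.m:ℝ) + 2 * F.M) = ((F.m + F.M : ℕ) : ℝ) + F.M := by push_cast; ring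
      rw [this, Real.rpow_add (by norm_num), Real.rpow_natCast, Real.rpow_natCast, mul_comm]
      have h16 : (12:ℝ) ≤ 2 ^ F.M := by
        calc (12:ℝ) ≤ 2 ^ 4 := by norm_num
          _ ≤ 2 ^ F.M := pow_le_pow_right₀ (by norm_num) hM4
      exact mul_le_mul_of_nonneg_left h16 (by unfold Cf.top; positivity)
    calc (2:ℝ) ^ (-((F.m:ℝ) + (5 / q0 + 5) * F.M))
        ≤ 2 ^ (-(5 * (F.M:ℝ) / q) - ((F.m:ℝ) + 2 * F.M)) := by
          refine Real.rpow_le_rpow_of_exponent_le (by norm_num) ?_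
          have : 5 * (F.M:ℝ) / q ≤ 5 * F.M / q0 :=
            div_le_div_of_nonneg_left (by positivity) hq0 hq
          have e2 : (5 / q0 + 5) * (F.M:ℝ) = 5 * F.M / q0 + 5 * F.M := by ring
          rw [e2]; linarith
      _ = 2 ^ (-(5 * (F.M:ℝ) / q)) / 2 ^ ((F.m:ℝ) + 2 * F.M) := Real.rpow_sub (by norm_num) _ _
      _ ≤ 2 ^ (-(5 * (F.M:ℝ) / q)) / (12 * 2 ^ F.top) :=
          div_le_div_of_nonneg_left (by positivity) (by positivity) e1
  · have hD0 := D0_pos h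
    have hD1 := h.D1p
    have hnu := h.nup
    have hD0' := D0_pos g1
    have hD1' := g1.D1p
    have hnu' := g1.nup
    have k2 := hM2 F.M hMM2
    have k3 : F.D1 * F.nu ^ 2 / (4 ^ F.M * F.D0) ≤
        2 ^ (η * F.M) * (F'.D1 * F'.nu ^ 2 / (4 ^ F'.M * F'.D0)) := by
      refine g9.trans (mul_le_mul_of_nonneg_right ?_ (by positivity))
      refine le_trans ?_ k2
      exact mul_le_mul_of_nonneg_left hT6 (by norm_num)
    have k4 := Real.logb_le_logb_of_le (b := 2) (by norm_num) (by positivity) k3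
    rw [Real.logb_mul (by positivity) (by positivity), Real.logb_rpow (by norm_num) (by norm_num)]
      at k4
    show Real.logb 2 (F.D1 * F.nu ^ 2 / (4 ^ F.M * F.D0)) / F.M - η ≤
      Real.logb 2 (F'.D1 * F'.nu ^ 2 / (4 ^ F'.M * F'.D0)) / F'.M
    rw [g3] at k4 ⊢
    rw [sub_le_iff_le_add, div_le_iff₀ hMp, add_mul, div_mul_cancel₀ _ hMp.ne']
    linarith

end

end Crest.Agent.R138.Norm70
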