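import Mathlib
import Crest.Agent.R138.GrDef_63
import Crest.Agent.R138.Uni_926
import Crest.Agent.R138.Ex_926

-- ▼ part R138/GrW1_294
section

/-!
# R138: discrete half of the shell (helper294)

`KMreg` = the unweighted, two-sided uniform statement for distinct grid lines;
`GridU` = the unweighted `L^{3/2}` inequality.  Here: `KMreg → GridU`.
-/

set_option autoImplicit false
set_option linter.unusedVariables false

open Finset

namespace Crest.Agent.R138.GrW294

open Crest.Agent.R138.Defs (E2)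
open Crest.Agent.R138.Gr63

/-- the cell of an incidence (a line and a height). -/
noncomputable def key (N : ℕ) (x : GLine × ℤ) : (ℤ × ℤ) × ℤ := (cell N x.1 x.2, x.2)

open Classical in
/-- plank density of a finite set of distinct grid lines. -/
def Dens (N : ℕ) (s : Finset GLine) (Δ : ℝ) : Prop :=
  ∀ (b : OrthonormalBasis (Fin 2) ℝ E2) (p0 v0 : E2) (w : Fin 2 → ℝ),
    (∀ i, 1 / (N : ℝ) ≤ w i ∧ w i ≤ 1) →
    ((s.filter (fun l => InPl b p0 v0 w (gp N l) (gv N l))).card : ℝ) ≤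
      Δ * (w 0 * w 1) * (N : ℝ) ^ 2

open Classical in
/-- **KMreg**: the unweighted two-sided uniform form.
`s` distinct grid lines, `I` incidences (line, height); every line has between `ν` and `N^η ν`
incidences, every cell of `I` carries between `μ` and `N^η μ` of them. -/
def KMreg : Prop :=
  ∀ ε : ℝ, 0 < ε → ∃ η : ℝ, 0 < η ∧ ∃ C : ℝ, 0 < C ∧ ∀ N : ℕ, 1 ≤ N →
    ∀ (s : Finset GLine) (I : Finset (GLine × ℤ)) (Δ μ ν : ℝ), s.Nonempty → 0 < μ → 0 < ν →
    (∀ l ∈ s, Bd N l) →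
    (∀ x ∈ I, x.1 ∈ s ∧ |x.2| ≤ (N : ℤ)) →
    (∀ l ∈ s, ν ≤ ((I.filter (fun x => x.1 = l)).card : ℝ) ∧
      ((I.filter (fun x => x.1 = l)).card : ℝ) ≤ (N : ℝ) ^ η * ν) →
    (∀ x ∈ I, μ ≤ ((I.filter (fun y => key N y = key N x)).card : ℝ) ∧
      ((I.filter (fun y => key N y = key N x)).card : ℝ) ≤ (N : ℝ) ^ η * μ) →
    Dens N s Δ →
    μ * ν ^ 2 ≤ C * (N : ℝ) ^ ε * Δ * (N : ℝ) ^ 2

/-- **GridU**: the unweighted `L^{3/2}` inequality. -/
def GridU : Prop :=
  ∀ ε : ℝ, 0 < ε → ∃ C : ℝ, 0 < C ∧ ∀ N : ℕ, 1 ≤ N → ∀ (s : Finset GLine) (Δ : ℝ),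
    (∀ l ∈ s, Bd N l) → Dens N s Δ →
    ∑ q ∈ cells N s, cw N s (fun _ => 1) q ^ (3 / 2 : ℝ) ≤
      C * (N : ℝ) ^ ε * Real.sqrt Δ * N * s.card

/-! ### elementary facts -/

/-- the box of all grid lines with coordinates at most `N`. -/
noncomputable def GBox (N : ℕ) : Finset GLine :=
  (Icc (-(N : ℤ)) N ×ˢ Icc (-(N : ℤ)) N) ×ˢ (Icc (-(N : ℤ)) N ×ˢ Icc (-(N : ℤ)) N)

theorem card_Icc_le {N : ℕ} (hN : 1 ≤ N) : (Icc (-(N : ℤ)) N).card ≤ 3 * N := by
  rw [Int.card_Icc]; omega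

theorem card_le_of_Bd {N : ℕ} (hN : 1 ≤ N) {s : Finset GLine} (hs : ∀ l ∈ s, Bd N l) :
    (s.card : ℝ) ≤ 81 * (N : ℝ) ^ 4 := by
  have h1 : s ⊆ GBox N := by
    intro l hl
    obtain ⟨h1, h2, h3, h4⟩ := hs l hl
    simp only [GBox, mem_product, mem_Icc]
    rw [abs_le] at h1 h2 h3 h4
    exact ⟨⟨h1, h2⟩, ⟨h3, h4⟩⟩
  have h2 := card_le_card h1
  have h3 := card_Icc_le hN
  have h4 : (GBox N).card ≤ (3 * N) ^ 4 := by
    unfold GBox
    rw [card_product, card_product]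
    calc _ ≤ ((3 * N) * (3 * N)) * ((3 * N) * (3 * N)) := by gcongr
      _ = (3 * N) ^ 4 := by ring
  have h5 : s.card ≤ (3 * N) ^ 4 := h2.trans h4
  have h6 : (s.card : ℝ) ≤ ((3 * N) ^ 4 : ℕ) := by exact_mod_cast h5
  push_cast at h6
  linarith [h6, show (3 * (N : ℝ)) ^ 4 = 81 * (N : ℝ) ^ 4 by ring]

theorem one_le_of_Dens {N : ℕ} (hN : 1 ≤ N) {s : Finset GLine} {Δ : ℝ} (h : Dens N s Δ)
    (hs : s.Nonempty) : 1 ≤ Δ := by
  classical
  obtain ⟨l, hl⟩ := hs
  have hN0 : (0 : ℝ) < N := by exact_mod_cast hN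
  have hN1 : (1 : ℝ) ≤ N := by exact_mod_cast hN
  have b : OrthonormalBasis (Fin 2) ℝ E2 := EuclideanSpace.basisFun (Fin 2) ℝ
  have h1 := h b (gp N l) (gv N l) (fun _ => 1 / (N : ℝ)) (fun i => ⟨le_rfl, by
    rw [div_le_one hN0]; exact hN1⟩)
  have h2 : 1 ≤ (s.filter (fun l' => InPl b (gp N l) (gv N l) (fun _ => 1 / (N : ℝ))
      (gp N l') (gv N l'))).card := by
    rw [Nat.succ_le_iff, card_pos]
    refine ⟨l, mem_filter.2 ⟨hl, ?_⟩⟩
    intro z _ i
    simp only [sub_self, smul_zero, add_zero, inner_zero_left, abs_zero]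
    positivity
  have h3 : (1 : ℝ) ≤ Δ * (1 / (N : ℝ) * (1 / (N : ℝ))) * (N : ℝ) ^ 2 := by
    refine le_trans ?_ h1
    exact_mod_cast h2
  have h4 : Δ * (1 / (N : ℝ) * (1 / (N : ℝ))) * (N : ℝ) ^ 2 = Δ := by
    field_simp
  rwa [h4] at h3

theorem Dens.mono {N : ℕ} {s t : Finset GLine} {Δ : ℝ} (h : Dens N s Δ) (ht : t ⊆ s) :
    Dens N t Δ := by
  classical
  intro b p0 v0 w hw
  refine le_trans ?_ (h b p0 v0 w hw)
  have := card_le_card (filter_subset_filter
    (fun l => InPl b p0 v0 w (gp N l) (gv N l)) ht)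
  exact_mod_cast this

open Classical in
/-- all incidences of `s`. -/
noncomputable def inc (N : ℕ) (s : Finset GLine) : Finset (GLine × ℤ) :=
  s ×ˢ Icc (-(N : ℤ)) N

open Classical in
/-- the number of incidences in a cell. -/
theorem cw_one_eq {N : ℕ} {s : Finset GLine} {q : (ℤ × ℤ) × ℤ} (hq : |q.2| ≤ (N : ℤ)) :
    cw N s (fun _ => 1) q = (((inc N s).filter (fun y => key N y = q)).card : ℝ) := by
  unfold cw
  rw [sum_const, nsmul_eq_mul, mul_one]
  congr 1
  refine card_bij (fun l _ => (l, q.2)) ?_ ?_ ?_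
  · intro l hl
    rw [mem_filter] at hl ⊢
    refine ⟨?_, ?_⟩
    · simp only [inc, mem_product, mem_Icc]
      exact ⟨hl.1, abs_le.1 hq⟩
    · simp only [key, hl.2]
  · intro a _ b _ h
    exact (Prod.mk.inj h).1
  · rintro ⟨l, j⟩ hx
    rw [mem_filter] at hx
    obtain ⟨h1, h2⟩ := hx
    simp only [inc, mem_product] at h1
    simp only [key] at h2
    have h3 : j = q.2 := by rw [← h2]
    subst h3
    refine ⟨l, ?_, rfl⟩
    rw [mem_filter]
    exact ⟨h1.1, by rw [← h2]⟩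

open Classical in
/-- sum over cells = sum over incidences. -/
theorem sum_cells_eq {N : ℕ} {s : Finset GLine} (g : (ℤ × ℤ) × ℤ → ℝ) :
    ∑ q ∈ cells N s, cw N s (fun _ => 1) q * g q = ∑ x ∈ inc N s, g (key N x) := by
  have h1 : ∀ x ∈ inc N s, key N x ∈ cells N s := by
    intro x hx
    exact mem_image_of_mem (fun x : GLine × ℤ => (cell N x.1 x.2, x.2)) hx
  rw [← sum_fiberwise_of_maps_to h1 (fun x => g (key N x))]
  refine sum_congr rfl fun q hq => ?_
  have hq2 : |q.2| ≤ (N : ℤ) := by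
    unfold cells at hq
    obtain ⟨x, hx, rfl⟩ := mem_image.1 hq
    simp only [mem_product, mem_Icc] at hx
    exact abs_le.2 hx.2
  rw [cw_one_eq hq2]
  rw [sum_congr rfl (g := fun _ => g q) (fun x hx => by rw [(mem_filter.1 hx).2])]
  rw [sum_const, nsmul_eq_mul]


theorem card_inc_le {N : ℕ} (hN : 1 ≤ N) {s : Finset GLine} (hs : ∀ l ∈ s, Bd N l) :
    (inc N s).card ≤ 243 * N ^ 5 := by
  have h1 := card_le_of_Bd hN hs
  have h2 := card_Icc_le hN
  have h3 : s.card ≤ 81 * N ^ 4 := by exact_mod_cast h1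
  unfold inc
  rw [card_product]
  calc _ ≤ (81 * N ^ 4) * (3 * N) := by gcongr
    _ = 243 * N ^ 5 := by ring

/-- the number of dyadic scales. -/
def Lg (N : ℕ) : ℕ := Nat.log 2 (243 * N ^ 5) + 1

theorem lt_two_pow_Lg (N : ℕ) : 243 * N ^ 5 < 2 ^ Lg N := by
  unfold Lg
  exact Nat.lt_pow_succ_log_self (by norm_num) _

theorem Lg_pos (N : ℕ) : 1 ≤ Lg N := by unfold Lg; omega

theorem Lg_le {a : ℝ} (ha : 0 < a) {N : ℕ} (hN : 1 ≤ N) :
    (Lg N : ℝ) ≤ (17 + 10 / a) * (N : ℝ) ^ a := by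
  have hN1 : (1 : ℝ) ≤ N := by exact_mod_cast hN
  have hN0 : (0 : ℝ) < N := by linarith
  have h0 : (1 : ℝ) ≤ (N : ℝ) ^ a := Real.one_le_rpow hN1 ha.le
  have hn : 243 * N ^ 5 ≠ 0 := by positivity
  -- `Nat.log 2 n ≤ 2 log n`
  have h1 : ((Nat.log 2 (243 * N ^ 5) : ℕ) : ℝ) * Real.log 2 ≤
      Real.log (243 * (N : ℝ) ^ 5) := by
    have h2 : 2 ^ Nat.log 2 (243 * N ^ 5) ≤ 243 * N ^ 5 := Nat.pow_log_le_self 2 hn
    have h3 : ((2 : ℝ) ^ Nat.log 2 (243 * N ^ 5)) ≤ 243 * (N : ℝ) ^ 5 := by exact_mod_cast h2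
    have h4 := Real.log_le_log (by positivity) h3
    rwa [Real.log_pow] at h4
  have h5 : Real.log (243 * (N : ℝ) ^ 5) = Real.log 243 + 5 * Real.log N := by
    rw [Real.log_mul (by norm_num) (by positivity), Real.log_pow]; norm_num
  have h6 : Real.log 243 ≤ 8 * Real.log 2 := by
    rw [show (8 : ℝ) * Real.log 2 = Real.log (2 ^ 8) by rw [Real.log_pow]; norm_num]
    exact Real.log_le_log (by norm_num) (by norm_num)
  have h7 : Real.log N ≤ (N : ℝ) ^ a / a := Real.log_le_rpow_div hN0.le ha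
  have hl2 : (1 / 2 : ℝ) < Real.log 2 := by have := Real.log_two_gt_d9; linarith
  have hl2' : Real.log 2 < 1 := by have := Real.log_two_lt_d9; linarith
  rw [h5] at h1
  have h8 : 0 ≤ (N : ℝ) ^ a / a := by positivity
  have hL : ((Nat.log 2 (243 * N ^ 5) : ℕ) : ℝ) ≤ 16 + 10 * ((N : ℝ) ^ a / a) := by
    by_contra hcon
    push Not at hcon
    have h9 : (16 + 10 * ((N : ℝ) ^ a / a)) * Real.log 2 <
        ((Nat.log 2 (243 * N ^ 5) : ℕ) : ℝ) * Real.log 2 :=
      mul_lt_mul_of_pos_right hcon (by linarith)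
    nlinarith
  unfold Lg
  push_cast
  have h10 : (17 + 10 / a) * (N : ℝ) ^ a = 17 * (N : ℝ) ^ a + 10 * ((N : ℝ) ^ a / a) := by
    ring
  rw [h10]
  linarith

/-! ### one level set -/

/-- the two partitions: lines and cells. -/
noncomputable def part (N : ℕ) (j : Fin 2) (x : GLine × ℤ) : GLine ⊕ ((ℤ × ℤ) × ℤ) :=
  if j = 0 then Sum.inl x.1 else Sum.inr (key N x)

open Classical in
theorem level {N : ℕ} (hN : 1 ≤ N) {ε η C : ℝ} (hC : 0 < C)
    (hK : 8 * (Lg N : ℝ) ^ 2 ≤ (N : ℝ) ^ η)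
    (hreg : ∀ (s : Finset GLine) (I : Finset (GLine × ℤ)) (Δ μ ν : ℝ), s.Nonempty → 0 < μ →
      0 < ν → (∀ l ∈ s, Bd N l) →
      (∀ x ∈ I, x.1 ∈ s ∧ |x.2| ≤ (N : ℤ)) →
      (∀ l ∈ s, ν ≤ ((I.filter (fun x => x.1 = l)).card : ℝ) ∧
        ((I.filter (fun x => x.1 = l)).card : ℝ) ≤ (N : ℝ) ^ η * ν) →
      (∀ x ∈ I, μ ≤ ((I.filter (fun y => key N y = key N x)).card : ℝ) ∧
        ((I.filter (fun y => key N y = key N x)).card : ℝ) ≤ (N : ℝ) ^ η * μ) →
      Dens N s Δ →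
      μ * ν ^ 2 ≤ C * (N : ℝ) ^ ε * Δ * (N : ℝ) ^ 2)
    {s : Finset GLine} {Δ : ℝ} (hs : ∀ l ∈ s, Bd N l) (hΔ : Dens N s Δ)
    {I : Finset (GLine × ℤ)} (hI : I ⊆ inc N s) {m : ℝ} (hm0 : 0 ≤ m)
    (hm : ∀ x ∈ I, m ≤ ((I.filter (fun y => key N y = key N x)).card : ℝ)) :
    Real.sqrt m * I.card ≤
      4 * (Lg N : ℝ) ^ 5 * Real.sqrt (128 * C * (N : ℝ) ^ ε) * Real.sqrt Δ * N * s.card := by
  have hN1 : (1 : ℝ) ≤ N := by exact_mod_cast hN
  have hN0 : (0 : ℝ) < N := by linarith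
  rcases I.eq_empty_or_nonempty with rfl | hIne
  · simp only [card_empty, Nat.cast_zero, mul_zero]
    positivity
  have hL1 : (1 : ℝ) ≤ Lg N := by exact_mod_cast Lg_pos N
  obtain ⟨H, hH⟩ : ∃ H, Lg N = H + 1 := ⟨Lg N - 1, by have := Lg_pos N; omega⟩
  have hsum : ∑ i ∈ I, (1 : ℝ) < 2 ^ (H + 1) * 1 := by
    rw [sum_const, nsmul_eq_mul, mul_one, mul_one, ← hH]
    have h1 : I.card < 2 ^ Lg N :=
      lt_of_le_of_lt ((card_le_card hI).trans (card_inc_le hN hs)) (lt_two_pow_Lg N)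
    exact_mod_cast h1
  obtain ⟨I', hI'I, hI'ne, hIcard, M, hM1, hM⟩ :=
    Ex926.uniformise I hIne (fun _ => (1 : ℝ)) one_pos (fun _ _ => le_rfl) (part N) hsum
  have hHL : ((H : ℝ) + 1) = Lg N := by rw [hH]; push_cast; ring
  simp only [sum_const, nsmul_eq_mul, mul_one, Fintype.card_fin, hHL] at hIcard hM
  set K : ℝ := 4 * (Lg N : ℝ) ^ 2 with hKdef
  have hK0 : 0 < K := by positivity
  have hc0 : ∀ (A : Finset (GLine × ℤ)) (x : GLine × ℤ),
      Ex926.cls A (part N 0) x = A.filter (fun y => y.1 = x.1) := by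
    intro A x
    ext y
    simp [Ex926.cls, part]
  have hc1 : ∀ (A : Finset (GLine × ℤ)) (x : GLine × ℤ),
      Ex926.cls A (part N 1) x = A.filter (fun y => key N y = key N x) := by
    intro A x
    ext y
    simp [Ex926.cls, part]
  have hM0 := hM 0
  have hM1' := hM 1
  simp only [hc0] at hM0
  simp only [hc1] at hM1'
  have hMp0 : 0 < M 0 := lt_of_lt_of_le one_pos (hM1 0)
  have hMp1 : 0 < M 1 := lt_of_lt_of_le one_pos (hM1 1)
  set s' : Finset GLine := I'.image Prod.fst with hs'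
  have hs's : s' ⊆ s := by
    intro l hl
    obtain ⟨x, hx, rfl⟩ := mem_image.1 hl
    have := hI (hI'I hx)
    simp only [inc, mem_product] at this
    exact this.1
  have hKK : 2 * K ≤ (N : ℝ) ^ η := by rw [hKdef]; linarith
  have key1 := hreg s' I' Δ (M 1 / K) (M 0 / K) (hI'ne.image _) (by positivity) (by positivity)
    (fun l hl => hs l (hs's hl))
    (fun x hx => ⟨mem_image_of_mem _ hx, by
      have := hI (hI'I hx)
      simp only [inc, mem_product, mem_Icc] at this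
      exact abs_le.2 this.2⟩)
    (by
      intro l hl
      obtain ⟨x, hx, rfl⟩ := mem_image.1 hl
      obtain ⟨h1, h2, h3⟩ := hM0 x hx
      constructor
      · rw [div_le_iff₀ hK0]
        calc M 0 ≤ 2 * ((2 : ℕ) : ℝ) * (Lg N : ℝ) ^ 2 *
              ((I'.filter (fun y => y.1 = x.1)).card : ℝ) := h3
          _ = _ := by rw [hKdef]; push_cast; ring
      · have h4 : ((I'.filter (fun y => y.1 = x.1)).card : ℝ) ≤
            ((I.filter (fun y => y.1 = x.1)).card : ℝ) := by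
          exact_mod_cast card_le_card (filter_subset_filter _ hI'I)
        calc ((I'.filter (fun y => y.1 = x.1)).card : ℝ) ≤ 2 * M 0 := h4.trans h2
          _ = 2 * K * (M 0 / K) := by field_simp
          _ ≤ (N : ℝ) ^ η * (M 0 / K) := by gcongr)
    (by
      intro x hx
      obtain ⟨h1, h2, h3⟩ := hM1' x hx
      constructor
      · rw [div_le_iff₀ hK0]
        calc M 1 ≤ 2 * ((2 : ℕ) : ℝ) * (Lg N : ℝ) ^ 2 *
              ((I'.filter (fun y => key N y = key N x)).card : ℝ) := h3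
          _ = _ := by rw [hKdef]; push_cast; ring
      · have h4 : ((I'.filter (fun y => key N y = key N x)).card : ℝ) ≤
            ((I.filter (fun y => key N y = key N x)).card : ℝ) := by
          exact_mod_cast card_le_card (filter_subset_filter _ hI'I)
        calc ((I'.filter (fun y => key N y = key N x)).card : ℝ) ≤ 2 * M 1 := h4.trans h2
          _ = 2 * K * (M 1 / K) := by field_simp
          _ ≤ (N : ℝ) ^ η * (M 1 / K) := by gcongr)
    (hΔ.mono hs's)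
  -- the number of incidences
  have hIc : (I.card : ℝ) ≤ K * s.card * M 0 := by
    have h1 : (I'.card : ℝ) ≤ s'.card * (2 * M 0) := by
      have h2 : I'.card = ∑ l ∈ s', (I'.filter (fun y => y.1 = l)).card :=
        card_eq_sum_card_fiberwise fun x hx => mem_image_of_mem _ hx
      rw [h2]
      push_cast
      rw [← nsmul_eq_mul]
      refine sum_le_card_nsmul _ _ _ ?_
      intro l hl
      obtain ⟨x, hx, rfl⟩ := mem_image.1 hl
      obtain ⟨-, h2, -⟩ := hM0 x hx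
      have h4 : ((I'.filter (fun y => y.1 = x.1)).card : ℝ) ≤
          ((I.filter (fun y => y.1 = x.1)).card : ℝ) := by
        exact_mod_cast card_le_card (filter_subset_filter _ hI'I)
      exact h4.trans h2
    have h3 : (s'.card : ℝ) ≤ s.card := by exact_mod_cast card_le_card hs's
    calc (I.card : ℝ) ≤ 2 * (Lg N : ℝ) ^ 2 * I'.card := hIcard
      _ ≤ 2 * (Lg N : ℝ) ^ 2 * (s'.card * (2 * M 0)) := by gcongr
      _ ≤ 2 * (Lg N : ℝ) ^ 2 * (s.card * (2 * M 0)) := by gcongr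
      _ = _ := by rw [hKdef]; ring
  have hmM : m ≤ 2 * M 1 := by
    obtain ⟨x, hx⟩ := hI'ne
    exact (hm x (hI'I hx)).trans (hM1' x hx).2.1
  have hΔ0 : 0 ≤ Δ := by
    have := one_le_of_Dens hN (hΔ.mono hs's) (hI'ne.image _)
    linarith
  have hfin : 2 * M 1 * M 0 ^ 2 ≤ 2 * K ^ 3 * (C * (N : ℝ) ^ ε * Δ * (N : ℝ) ^ 2) := by
    have h1 : M 1 * M 0 ^ 2 = K ^ 3 * (M 1 / K * (M 0 / K) ^ 2) := by field_simp
    calc 2 * M 1 * M 0 ^ 2 = 2 * (M 1 * M 0 ^ 2) := by ring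
      _ = 2 * (K ^ 3 * (M 1 / K * (M 0 / K) ^ 2)) := by rw [h1]
      _ ≤ 2 * (K ^ 3 * (C * (N : ℝ) ^ ε * Δ * (N : ℝ) ^ 2)) := by gcongr
      _ = _ := by ring
  have hs0 : (0 : ℝ) ≤ s.card := Nat.cast_nonneg _
  calc Real.sqrt m * I.card ≤ Real.sqrt (2 * M 1) * (K * s.card * M 0) := by
        gcongr
    _ = K * s.card * Real.sqrt (2 * M 1 * M 0 ^ 2) := by
        rw [Real.sqrt_mul (show (0 : ℝ) ≤ 2 * M 1 by positivity) (M 0 ^ 2),
          Real.sqrt_sq hMp0.le]
        ring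
    _ ≤ K * s.card * Real.sqrt (2 * K ^ 3 * (C * (N : ℝ) ^ ε * Δ * (N : ℝ) ^ 2)) := by
        gcongr
    _ = K * s.card * Real.sqrt (((Lg N : ℝ) ^ 3) ^ 2 * (128 * C * (N : ℝ) ^ ε) * Δ *
          (N : ℝ) ^ 2) := by
        congr 2
        rw [hKdef]; ring
    _ = K * s.card * ((Lg N : ℝ) ^ 3 * Real.sqrt (128 * C * (N : ℝ) ^ ε) * Real.sqrt Δ * N) := by
        rw [Real.sqrt_mul (by positivity), Real.sqrt_mul (by positivity),
          Real.sqrt_mul (by positivity), Real.sqrt_sq (by positivity), Real.sqrt_sq hN0.le]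
    _ = _ := by rw [hKdef]; ring

/-! ### summing over the level sets -/

open Classical in
/-- multiplicity of an incidence -/
noncomputable def mult (N : ℕ) (s : Finset GLine) (x : GLine × ℤ) : ℕ :=
  ((inc N s).filter (fun y => key N y = key N x)).card

theorem mult_congr {N : ℕ} {s : Finset GLine} {x y : GLine × ℤ} (h : key N y = key N x) :
    mult N s y = mult N s x := by
  unfold mult; rw [h]

theorem rpow_three_half {x : ℝ} (hx : 0 ≤ x) : x ^ (3 / 2 : ℝ) = x * Real.sqrt x := by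
  rw [Real.sqrt_eq_rpow]
  rcases hx.eq_or_lt with rfl | hx
  · rw [Real.zero_rpow (by norm_num), zero_mul]
  · rw [show (3 / 2 : ℝ) = 1 + 1 / 2 by norm_num, Real.rpow_add hx, Real.rpow_one]

open Classical in
theorem sum_cw_eq {N : ℕ} {s : Finset GLine} :
    ∑ q ∈ cells N s, cw N s (fun _ => 1) q ^ (3 / 2 : ℝ) =
      ∑ x ∈ inc N s, Real.sqrt (mult N s x) := by
  have h0 : ∀ q, 0 ≤ cw N s (fun _ => 1) q := fun q => by
    unfold cw; exact sum_nonneg fun _ _ => zero_le_one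
  calc _ = ∑ q ∈ cells N s, cw N s (fun _ => 1) q * Real.sqrt (cw N s (fun _ => 1) q) :=
        sum_congr rfl fun q _ => rpow_three_half (h0 q)
    _ = ∑ x ∈ inc N s, Real.sqrt (cw N s (fun _ => 1) (key N x)) :=
        sum_cells_eq (fun q => Real.sqrt (cw N s (fun _ => 1) q))
    _ = _ := by
        refine sum_congr rfl fun x hx => ?_
        rw [cw_one_eq (q := key N x) ?_]
        · rfl
        · simp only [inc, mem_product, mem_Icc] at hx
          exact abs_le.2 hx.2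

open Classical in
theorem gridU_of_KMreg (h : KMreg) : GridU := by
  intro ε hε
  obtain ⟨η, hη, C, hC, hreg⟩ := h ε hε
  set a : ℝ := ε / 12 with ha
  have ha0 : 0 < a := by positivity
  set B : ℝ := 8 * (17 + 10 / (η / 4)) ^ 2 with hB
  have hB0 : 0 < B := by positivity
  set N0 : ℝ := B ^ (2 / η) with hN0def
  have hN00 : 0 < N0 := Real.rpow_pos_of_pos hB0 _
  set D : ℝ := 4 * Real.sqrt 2 * Real.sqrt (128 * C) * (17 + 10 / a) ^ 6 with hD
  have hD0 : 0 ≤ D := by positivity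
  set E : ℝ := 3 * Real.sqrt (243 * N0 ^ 5) with hE
  have hE0 : 0 ≤ E := by positivity
  refine ⟨D + E + 1, by positivity, ?_⟩
  intro N hN s Δ hs hΔ
  have hN1 : (1 : ℝ) ≤ N := by exact_mod_cast hN
  have hNp : (0 : ℝ) < N := by linarith
  have hNε : 1 ≤ (N : ℝ) ^ ε := Real.one_le_rpow hN1 hε.le
  rcases s.eq_empty_or_nonempty with rfl | hne
  · have : cells N (∅ : Finset GLine) = ∅ := by simp [cells]
    rw [this]; simp
  have hΔ1 := one_le_of_Dens hN hΔ hne
  have hΔ0 : 0 ≤ Δ := by linarith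
  have hsq : 1 ≤ Real.sqrt Δ := by rw [Real.one_le_sqrt]; exact hΔ1
  have hs0 : (0 : ℝ) ≤ s.card := Nat.cast_nonneg _
  have hmle : ∀ x, mult N s x ≤ (inc N s).card := fun x => card_le_card (filter_subset _ _)
  have hinc := card_inc_le hN hs
  rw [sum_cw_eq]
  by_cases hK : 8 * (Lg N : ℝ) ^ 2 ≤ (N : ℝ) ^ η
  · -- main case
    set F : ℝ := 4 * (Lg N : ℝ) ^ 5 * Real.sqrt (128 * C * (N : ℝ) ^ ε) * Real.sqrt Δ * N *
      s.card with hF
    have hmap : ∀ x ∈ inc N s, Nat.log 2 (mult N s x) ∈ range (Lg N) := by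
      intro x hx
      rw [mem_range]
      refine Nat.log_lt_of_lt_pow ?_ ?_
      · have : 0 < mult N s x := card_pos.2 ⟨x, mem_filter.2 ⟨hx, rfl⟩⟩
        omega
      · exact lt_of_le_of_lt ((hmle x).trans hinc) (lt_two_pow_Lg N)
    rw [← sum_fiberwise_of_maps_to hmap]
    have hlev : ∀ i ∈ range (Lg N),
        ∑ x ∈ (inc N s).filter (fun x => Nat.log 2 (mult N s x) = i),
          Real.sqrt (mult N s x) ≤ Real.sqrt 2 * F := by
      intro i _
      set I := (inc N s).filter (fun x => Nat.log 2 (mult N s x) = i) with hI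
      have hIm : ∀ x ∈ I, (2 : ℝ) ^ i ≤ (mult N s x : ℝ) ∧ (mult N s x : ℝ) ≤ 2 * 2 ^ i := by
        intro x hx
        rw [hI, mem_filter] at hx
        have hpos : 0 < mult N s x := card_pos.2 ⟨x, mem_filter.2 ⟨hx.1, rfl⟩⟩
        constructor
        · have := Nat.pow_log_le_self 2 hpos.ne'
          rw [hx.2] at this
          exact_mod_cast this
        · have := Nat.lt_pow_succ_log_self (b := 2) (by norm_num) (mult N s x)
          rw [hx.2] at this
          have h2 : (mult N s x : ℝ) < 2 ^ (i + 1) := by exact_mod_cast this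
          rw [pow_succ] at h2
          linarith
      have hcl : ∀ x ∈ I, (2 : ℝ) ^ i ≤ ((I.filter (fun y => key N y = key N x)).card : ℝ) := by
        intro x hx
        have h1 : I.filter (fun y => key N y = key N x) =
            (inc N s).filter (fun y => key N y = key N x) := by
          ext y
          simp only [hI, mem_filter]
          constructor
          · rintro ⟨⟨h1, -⟩, h3⟩; exact ⟨h1, h3⟩
          · rintro ⟨h1, h3⟩
            refine ⟨⟨h1, ?_⟩, h3⟩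
            rw [mult_congr h3]
            rw [hI, mem_filter] at hx
            exact hx.2
        rw [h1]
        exact (hIm x hx).1
      have hl := level hN (ε := ε) hC hK (hreg N hN) hs hΔ (filter_subset _ _) (by positivity) hcl
      calc ∑ x ∈ I, Real.sqrt (mult N s x) ≤ ∑ x ∈ I, Real.sqrt 2 * Real.sqrt (2 ^ i) := by
            refine sum_le_sum fun x hx => ?_
            rw [← Real.sqrt_mul (by norm_num)]
            exact Real.sqrt_le_sqrt (hIm x hx).2
        _ = Real.sqrt 2 * (Real.sqrt (2 ^ i) * I.card) := by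
            rw [sum_const, nsmul_eq_mul]; ring
        _ ≤ Real.sqrt 2 * F := by gcongr
    calc _ ≤ ∑ i ∈ range (Lg N), Real.sqrt 2 * F := sum_le_sum hlev
      _ = (Lg N : ℝ) * (Real.sqrt 2 * F) := by rw [sum_const, card_range, nsmul_eq_mul]
      _ = 4 * Real.sqrt 2 * Real.sqrt (128 * C) * (Lg N : ℝ) ^ 6 * (N : ℝ) ^ (ε / 2) *
            Real.sqrt Δ * N * s.card := by
          rw [hF, Real.sqrt_mul (by positivity) ((N : ℝ) ^ ε),
            Real.sqrt_eq_rpow ((N : ℝ) ^ ε), ← Real.rpow_mul hNp.le,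
            show ε * (1 / 2) = ε / 2 by ring]
          ring
      _ ≤ 4 * Real.sqrt 2 * Real.sqrt (128 * C) * ((17 + 10 / a) * (N : ℝ) ^ a) ^ 6 *
            (N : ℝ) ^ (ε / 2) * Real.sqrt Δ * N * s.card := by
          have := Lg_le ha0 hN
          gcongr
      _ = D * (N : ℝ) ^ ε * Real.sqrt Δ * N * s.card := by
          have h1 : ((N : ℝ) ^ a) ^ 6 * (N : ℝ) ^ (ε / 2) = (N : ℝ) ^ ε := by
            rw [← Real.rpow_natCast, ← Real.rpow_mul hNp.le, ← Real.rpow_add hNp]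
            congr 1
            rw [ha]; push_cast; ring
          rw [hD, mul_pow, ← h1]
          ring
      _ ≤ (D + E + 1) * (N : ℝ) ^ ε * Real.sqrt Δ * N * s.card := by
          gcongr
          linarith
  · -- small `N`
    push Not at hK
    have hNN0 : (N : ℝ) ≤ N0 := by
      have h1 := Lg_le (a := η / 4) (by positivity) hN
      have h2 : 8 * (Lg N : ℝ) ^ 2 ≤ B * (N : ℝ) ^ (η / 2) := by
        calc 8 * (Lg N : ℝ) ^ 2 ≤ 8 * ((17 + 10 / (η / 4)) * (N : ℝ) ^ (η / 4)) ^ 2 := by gcongr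
          _ = B * ((N : ℝ) ^ (η / 4)) ^ 2 := by rw [hB]; ring
          _ = B * (N : ℝ) ^ (η / 2) := by
              rw [← Real.rpow_natCast ((N : ℝ) ^ (η / 4)), ← Real.rpow_mul hNp.le]
              congr 2
              push_cast; ring
      have h3 : (N : ℝ) ^ η = (N : ℝ) ^ (η / 2) * (N : ℝ) ^ (η / 2) := by
        rw [← Real.rpow_add hNp]; congr 1; ring
      have h4 : (N : ℝ) ^ (η / 2) < B := by
        have h5 : 0 < (N : ℝ) ^ (η / 2) := Real.rpow_pos_of_pos hNp _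
        have h6 : (N : ℝ) ^ (η / 2) * (N : ℝ) ^ (η / 2) < B * (N : ℝ) ^ (η / 2) := by
          rw [← h3]; exact hK.trans_le h2
        exact lt_of_mul_lt_mul_right h6 h5.le
      have h5 : ((N : ℝ) ^ (η / 2)) ^ (2 / η) ≤ B ^ (2 / η) :=
        Real.rpow_le_rpow (by positivity) h4.le (by positivity)
      rw [← Real.rpow_mul hNp.le, show η / 2 * (2 / η) = 1 by field_simp, Real.rpow_one] at h5
      exact h5
    have hm2 : ∀ x ∈ inc N s, Real.sqrt (mult N s x) ≤ Real.sqrt (243 * N0 ^ 5) := by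
      intro x _
      apply Real.sqrt_le_sqrt
      have h1 : (mult N s x : ℝ) ≤ 243 * (N : ℝ) ^ 5 := by
        exact_mod_cast (hmle x).trans hinc
      have h2 : (N : ℝ) ^ 5 ≤ N0 ^ 5 := by gcongr
      linarith
    have hic : ((inc N s).card : ℝ) ≤ 3 * N * s.card := by
      have h1 := card_Icc_le hN
      have h2 : (inc N s).card ≤ s.card * (3 * N) := by
        unfold inc; rw [card_product]; gcongr
      have h3 : ((inc N s).card : ℝ) ≤ ((s.card * (3 * N) : ℕ) : ℝ) := by exact_mod_cast h2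
      push_cast at h3
      linarith
    calc ∑ x ∈ inc N s, Real.sqrt (mult N s x) ≤ ∑ x ∈ inc N s, Real.sqrt (243 * N0 ^ 5) :=
          sum_le_sum hm2
      _ = (inc N s).card * Real.sqrt (243 * N0 ^ 5) := by rw [sum_const, nsmul_eq_mul]
      _ ≤ (3 * N * s.card) * Real.sqrt (243 * N0 ^ 5) := by gcongr
      _ = E * 1 * 1 * N * s.card := by rw [hE]; ring
      _ ≤ (D + E + 1) * (N : ℝ) ^ ε * Real.sqrt Δ * N * s.card := by
          gcongr
          linarith

end Crest.Agent.R138.GrW294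
end

-- ▼ part R138/GrW2_294
section

/-!
# R138: discrete half of the shell, part 2 (helper294): `GridU → GridW` (weights)
-/

set_option autoImplicit false
set_option linter.unusedVariables false

open Finset

namespace Crest.Agent.R138.GrW294

open Crest.Agent.R138.Defs (E2)
open Crest.Agent.R138.Gr63

open Classical in
theorem cw_eq {N : ℕ} {s : Finset GLine} {A : GLine → ℝ} {q : (ℤ × ℤ) × ℤ}
    (hq : |q.2| ≤ (N : ℤ)) :
    cw N s A q = ∑ x ∈ (inc N s).filter (fun y => key N y = q), A x.1 := by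
  unfold cw
  symm
  refine sum_nbij' (fun x => x.1) (fun l => (l, q.2)) ?_ ?_ ?_ ?_ ?_
  · intro x hx
    rw [mem_filter] at hx
    obtain ⟨h1, h2⟩ := hx
    rw [inc, mem_product] at h1
    refine mem_filter.2 ⟨h1.1, ?_⟩
    rw [← h2]
    rfl
  · intro l hl
    rw [mem_filter] at hl
    refine mem_filter.2 ⟨?_, ?_⟩
    · rw [inc, mem_product, mem_Icc]; exact ⟨hl.1, abs_le.1 hq⟩
    · simp only [key, hl.2]
  · intro x hx
    rw [mem_filter] at hx
    have : x.2 = q.2 := by rw [← hx.2]; rfl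
    simp only [← this]
  · intro l _; rfl
  · intro x _; rfl

theorem abs_of_mem_cells {N : ℕ} {s : Finset GLine} {q : (ℤ × ℤ) × ℤ} (hq : q ∈ cells N s) :
    |q.2| ≤ (N : ℤ) := by
  classical
  unfold cells at hq
  obtain ⟨x, hx, rfl⟩ := mem_image.1 hq
  simp only [mem_product, mem_Icc] at hx
  exact abs_le.2 hx.2

open Classical in
theorem sum_cw {N : ℕ} {s : Finset GLine} {A : GLine → ℝ} :
    ∑ q ∈ cells N s, cw N s A q = ((Icc (-(N : ℤ)) N).card : ℝ) * ∑ l ∈ s, A l := by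
  have h1 : ∀ x ∈ inc N s, key N x ∈ cells N s := by
    intro x hx
    exact mem_image_of_mem (fun x : GLine × ℤ => (cell N x.1 x.2, x.2)) hx
  calc ∑ q ∈ cells N s, cw N s A q =
      ∑ q ∈ cells N s, ∑ x ∈ (inc N s).filter (fun y => key N y = q), A x.1 :=
        sum_congr rfl fun q hq => cw_eq (abs_of_mem_cells hq)
    _ = ∑ x ∈ inc N s, A x.1 := sum_fiberwise_of_maps_to h1 (fun x => A x.1)
    _ = _ := by
        unfold inc
        rw [sum_product]
        simp only [sum_const, nsmul_eq_mul]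
        rw [mul_sum]

theorem cw_nonneg {N : ℕ} {s : Finset GLine} {A : GLine → ℝ} (hA : ∀ l ∈ s, 0 ≤ A l)
    (q : (ℤ × ℤ) × ℤ) : 0 ≤ cw N s A q := by
  classical
  unfold cw
  exact sum_nonneg fun l hl => hA l (mem_filter.1 hl).1

open Classical in
/-- only the cells met by the lines count. -/
theorem sum_cells_sub {N : ℕ} {s t : Finset GLine} (ht : t ⊆ s) (A : GLine → ℝ) :
    ∑ q ∈ cells N s, cw N t A q ^ (3 / 2 : ℝ) = ∑ q ∈ cells N t, cw N t A q ^ (3 / 2 : ℝ) := by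
  symm
  refine sum_subset ?_ ?_
  · unfold cells
    exact image_subset_image (product_subset_product_left ht)
  · intro q hq hqt
    have hq2 := abs_of_mem_cells hq
    have : t.filter (fun l => cell N l q.2 = q.1) = ∅ := by
      rw [filter_eq_empty_iff]
      intro l hl hlq
      apply hqt
      unfold cells
      refine mem_image.2 ⟨(l, q.2), ?_, ?_⟩
      · rw [mem_product, mem_Icc]; exact ⟨hl, abs_le.1 hq2⟩
      · simp only [hlq]
    unfold cw
    rw [this, sum_empty, Real.zero_rpow (by norm_num)]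

open Classical in
/-- a class of comparable weights. -/
theorem class_bound {N : ℕ} {s : Finset GLine} {A : GLine → ℝ} {Δ C E : ℝ} (hΔ : 0 < Δ)
    (hpl : ∀ (b : OrthonormalBasis (Fin 2) ℝ E2) (p0 v0 : E2) (w : Fin 2 → ℝ),
      (∀ i, 1 / (N : ℝ) ≤ w i ∧ w i ≤ 1) →
      ∑ l ∈ s.filter (fun l => InPl b p0 v0 w (gp N l) (gv N l)), A l ≤
        Δ * (w 0 * w 1) * (N : ℝ) ^ 2)
    (hE : 0 ≤ E)
    (hU : ∀ Δ' : ℝ, Dens N s Δ' →
      ∑ q ∈ cells N s, cw N s (fun _ => 1) q ^ (3 / 2 : ℝ) ≤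
        E * Real.sqrt Δ' * N * s.card)
    (i : ℕ) (hA1 : ∀ l ∈ s, A l ≤ Δ / 2 ^ i) (hA2 : ∀ l ∈ s, Δ / 2 ^ (i + 1) ≤ A l) :
    ∑ q ∈ cells N s, cw N s A q ^ (3 / 2 : ℝ) ≤
      2 * Real.sqrt 2 * E * Real.sqrt Δ * N * ∑ l ∈ s, A l := by
  have hd : 0 < Δ / 2 ^ i := by positivity
  have hd' : 0 < Δ / 2 ^ (i + 1) := by positivity
  have hA0 : ∀ l ∈ s, 0 ≤ A l := fun l hl => hd'.le.trans (hA2 l hl)
  have hdens : Dens N s (2 ^ (i + 1)) := by
    intro b p0 v0 w hw
    have h1 := hpl b p0 v0 w hw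
    have h2 : ((s.filter (fun l => InPl b p0 v0 w (gp N l) (gv N l))).card : ℝ) *
        (Δ / 2 ^ (i + 1)) ≤ ∑ l ∈ s.filter (fun l => InPl b p0 v0 w (gp N l) (gv N l)), A l := by
      rw [← nsmul_eq_mul]
      exact card_nsmul_le_sum _ _ _ fun l hl => hA2 l (mem_filter.1 hl).1
    have h3 := h2.trans h1
    rw [mul_div_assoc', div_le_iff₀ (by positivity)] at h3
    have h4 : ((s.filter (fun l => InPl b p0 v0 w (gp N l) (gv N l))).card : ℝ) * Δ ≤
        (2 ^ (i + 1) * (w 0 * w 1) * (N : ℝ) ^ 2) * Δ := by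
      linarith [h3, show Δ * (w 0 * w 1) * (N : ℝ) ^ 2 * 2 ^ (i + 1) =
        (2 ^ (i + 1) * (w 0 * w 1) * (N : ℝ) ^ 2) * Δ by ring]
    exact le_of_mul_le_mul_right h4 hΔ
  have hcw : ∀ q ∈ cells N s, cw N s A q ^ (3 / 2 : ℝ) ≤
      (Δ / 2 ^ i * Real.sqrt (Δ / 2 ^ i)) * cw N s (fun _ => 1) q ^ (3 / 2 : ℝ) := by
    intro q _
    have h1 : cw N s A q ≤ (Δ / 2 ^ i) * cw N s (fun _ => 1) q := by
      unfold cw
      rw [mul_sum]
      exact sum_le_sum fun l hl => by rw [mul_one]; exact hA1 l (mem_filter.1 hl).1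
    have h2 : 0 ≤ cw N s (fun _ => 1) q := cw_nonneg (fun _ _ => zero_le_one) q
    calc cw N s A q ^ (3 / 2 : ℝ) ≤ ((Δ / 2 ^ i) * cw N s (fun _ => 1) q) ^ (3 / 2 : ℝ) :=
          Real.rpow_le_rpow (cw_nonneg hA0 q) h1 (by norm_num)
      _ = (Δ / 2 ^ i) ^ (3 / 2 : ℝ) * cw N s (fun _ => 1) q ^ (3 / 2 : ℝ) :=
          Real.mul_rpow hd.le h2
      _ = _ := by rw [rpow_three_half hd.le]
  have hcard : Δ / 2 ^ i * s.card ≤ 2 * ∑ l ∈ s, A l := by
    have h1 : (s.card : ℝ) * (Δ / 2 ^ (i + 1)) ≤ ∑ l ∈ s, A l := by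
      rw [← nsmul_eq_mul]
      exact card_nsmul_le_sum _ _ _ hA2
    have h2 : Δ / 2 ^ i * s.card = 2 * ((s.card : ℝ) * (Δ / 2 ^ (i + 1))) := by
      rw [pow_succ]; field_simp
    rw [h2]; linarith
  have hs0 : (0 : ℝ) ≤ s.card := Nat.cast_nonneg _
  calc ∑ q ∈ cells N s, cw N s A q ^ (3 / 2 : ℝ) ≤
        ∑ q ∈ cells N s, (Δ / 2 ^ i * Real.sqrt (Δ / 2 ^ i)) *
          cw N s (fun _ => 1) q ^ (3 / 2 : ℝ) := sum_le_sum hcw
    _ = (Δ / 2 ^ i * Real.sqrt (Δ / 2 ^ i)) *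
          ∑ q ∈ cells N s, cw N s (fun _ => 1) q ^ (3 / 2 : ℝ) := by rw [mul_sum]
    _ ≤ (Δ / 2 ^ i * Real.sqrt (Δ / 2 ^ i)) * (E * Real.sqrt (2 ^ (i + 1)) * N * s.card) := by
        have := hU _ hdens
        gcongr
    _ = E * (Real.sqrt (Δ / 2 ^ i) * Real.sqrt (2 ^ (i + 1))) * N * (Δ / 2 ^ i * s.card) := by
        ring
    _ = E * (Real.sqrt 2 * Real.sqrt Δ) * N * (Δ / 2 ^ i * s.card) := by
        congr 3
        rw [← Real.sqrt_mul hd.le, ← Real.sqrt_mul (by norm_num : (0 : ℝ) ≤ 2)]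
        congr 1
        rw [pow_succ]; field_simp
    _ ≤ E * (Real.sqrt 2 * Real.sqrt Δ) * N * (2 * ∑ l ∈ s, A l) := by gcongr
    _ = _ := by ring

open Classical in
/-- negligible weights. -/
theorem small_bound {N : ℕ} (hN : 1 ≤ N) {s : Finset GLine} {A : GLine → ℝ} {Δ : ℝ}
    (hΔ : 0 ≤ Δ) (hs : ∀ l ∈ s, Bd N l) (hA0 : ∀ l ∈ s, 0 ≤ A l)
    (hA : ∀ l ∈ s, A l * (N : ℝ) ^ 4 ≤ Δ) :
    ∑ q ∈ cells N s, cw N s A q ^ (3 / 2 : ℝ) ≤ 27 * Real.sqrt Δ * N * ∑ l ∈ s, A l := by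
  have hNp : (0 : ℝ) < N := by exact_mod_cast hN
  have hS : 0 ≤ ∑ l ∈ s, A l := sum_nonneg hA0
  have h1 : ∀ q ∈ cells N s, cw N s A q ^ (3 / 2 : ℝ) ≤ (9 * Real.sqrt Δ) * cw N s A q := by
    intro q _
    have h0 := cw_nonneg (N := N) hA0 q
    rw [rpow_three_half h0, mul_comm]
    refine mul_le_mul_of_nonneg_right ?_ h0
    have h2 : cw N s A q ≤ 81 * Δ := by
      have h3 : cw N s A q ≤ ∑ l ∈ s, A l := by
        unfold cw
        exact sum_le_sum_of_subset_of_nonneg (filter_subset _ _) fun l hl _ => hA0 l hl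
      have h4 : (∑ l ∈ s, A l) * (N : ℝ) ^ 4 ≤ s.card * Δ := by
        rw [sum_mul, ← nsmul_eq_mul]
        exact sum_le_card_nsmul _ _ _ hA
      have h5 : (∑ l ∈ s, A l) * (N : ℝ) ^ 4 ≤ (81 * Δ) * (N : ℝ) ^ 4 := by
        calc _ ≤ s.card * Δ := h4
          _ ≤ (81 * (N : ℝ) ^ 4) * Δ := by
              have := card_le_of_Bd hN hs
              gcongr
          _ = _ := by ring
      exact h3.trans (le_of_mul_le_mul_right h5 (by positivity))
    calc Real.sqrt (cw N s A q) ≤ Real.sqrt (81 * Δ) := Real.sqrt_le_sqrt h2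
      _ = 9 * Real.sqrt Δ := by
          rw [Real.sqrt_mul (by norm_num), show (81 : ℝ) = 9 ^ 2 by norm_num,
            Real.sqrt_sq (by norm_num)]
  have hic : ((Icc (-(N : ℤ)) N).card : ℝ) ≤ 3 * N := by exact_mod_cast card_Icc_le hN
  calc ∑ q ∈ cells N s, cw N s A q ^ (3 / 2 : ℝ) ≤
        ∑ q ∈ cells N s, (9 * Real.sqrt Δ) * cw N s A q := sum_le_sum h1
    _ = (9 * Real.sqrt Δ) * (((Icc (-(N : ℤ)) N).card : ℝ) * ∑ l ∈ s, A l) := by
        rw [← mul_sum, sum_cw]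
    _ ≤ (9 * Real.sqrt Δ) * ((3 * N) * ∑ l ∈ s, A l) := by gcongr
    _ = _ := by ring

open Classical in
/-- every weight is at most the plank density. -/
theorem weight_le {N : ℕ} (hN : 1 ≤ N) {s : Finset GLine} {A : GLine → ℝ} {Δ : ℝ}
    (hA0 : ∀ l ∈ s, 0 ≤ A l)
    (hpl : ∀ (b : OrthonormalBasis (Fin 2) ℝ E2) (p0 v0 : E2) (w : Fin 2 → ℝ),
      (∀ i, 1 / (N : ℝ) ≤ w i ∧ w i ≤ 1) →
      ∑ l ∈ s.filter (fun l => InPl b p0 v0 w (gp N l) (gv N l)), A l ≤
        Δ * (w 0 * w 1) * (N : ℝ) ^ 2) :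
    ∀ l ∈ s, A l ≤ Δ := by
  intro l hl
  have hN0 : (0 : ℝ) < N := by exact_mod_cast hN
  have hN1 : (1 : ℝ) ≤ N := by exact_mod_cast hN
  have b : OrthonormalBasis (Fin 2) ℝ E2 := EuclideanSpace.basisFun (Fin 2) ℝ
  have h1 := hpl b (gp N l) (gv N l) (fun _ => 1 / (N : ℝ)) (fun i => ⟨le_rfl, by
    rw [div_le_one hN0]; exact hN1⟩)
  have hmem : l ∈ s.filter (fun l' => InPl b (gp N l) (gv N l) (fun _ => 1 / (N : ℝ))
      (gp N l') (gv N l')) := by
    refine mem_filter.2 ⟨hl, ?_⟩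
    intro z _ i
    simp only [sub_self, smul_zero, add_zero, inner_zero_left, abs_zero]
    positivity
  have h2 := single_le_sum (f := A) (fun l' hl' => hA0 l' (mem_filter.1 hl').1) hmem
  have h3 := h2.trans h1
  have h4 : Δ * (1 / (N : ℝ) * (1 / (N : ℝ))) * (N : ℝ) ^ 2 = Δ := by
    field_simp
  rwa [h4] at h3

open Classical in
theorem gridW_of_gridU (h : GridU) : GridW := by
  intro ε hε
  obtain ⟨C, hC, hU⟩ := h (ε / 2) (by positivity)
  set a : ℝ := ε / 2 with ha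
  have ha0 : 0 < a := by positivity
  set D : ℝ := 2 * (17 + 10 / a) * (27 + 2 * Real.sqrt 2 * C) with hD
  refine ⟨D, by positivity, ?_⟩
  intro N hN s A Δ hΔ0 hA0 hs hpl
  have hN1 : (1 : ℝ) ≤ N := by exact_mod_cast hN
  have hNp : (0 : ℝ) < N := by linarith
  have hAΔ := weight_le hN hA0 hpl
  have hS : 0 ≤ ∑ l ∈ s, A l := sum_nonneg hA0
  rcases hΔ0.eq_or_lt with hΔz | hΔ
  · -- zero density
    have hz : ∀ l ∈ s, A l = 0 := fun l hl => le_antisymm (hΔz ▸ hAΔ l hl) (hA0 l hl)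
    have : ∀ q ∈ cells N s, cw N s A q ^ (3 / 2 : ℝ) = 0 := by
      intro q _
      have : cw N s A q = 0 := by
        unfold cw
        exact sum_eq_zero fun l hl => hz l (mem_filter.1 hl).1
      rw [this, Real.zero_rpow (by norm_num)]
    rw [sum_eq_zero this]
    positivity
  -- the class function
  set c : GLine → ℕ := fun l =>
    if A l * (N : ℝ) ^ 4 ≤ Δ then 0 else Nat.log 2 ⌊Δ / A l⌋₊ + 1 with hc
  set R := range (Lg N + 1) with hR
  have hcR : ∀ l ∈ s, c l ∈ R := by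
    intro l hl
    rw [hR, mem_range, hc]
    dsimp only
    split_ifs with h1
    · omega
    · push Not at h1
      have hAl : 0 < A l := by
        by_contra hcon
        have : A l = 0 := le_antisymm (not_lt.1 hcon) (hA0 l hl)
        rw [this, zero_mul] at h1
        linarith
      have h2 : ⌊Δ / A l⌋₊ ≤ N ^ 4 := by
        have h3 : Δ / A l ≤ ((N ^ 4 : ℕ) : ℝ) := by
          rw [div_le_iff₀ hAl]; push_cast; linarith [mul_comm (A l) ((N : ℝ) ^ 4)]
        have := Nat.floor_le_floor h3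
        rwa [Nat.floor_natCast] at this
      have h3 : N ^ 4 ≤ 243 * N ^ 5 := by
        calc N ^ 4 ≤ 243 * N ^ 4 := by omega
          _ ≤ 243 * N ^ 5 := by gcongr <;> omega
      have h4 : Nat.log 2 ⌊Δ / A l⌋₊ ≤ Nat.log 2 (243 * N ^ 5) := Nat.log_mono_right (h2.trans h3)
      unfold Lg
      omega
  set t : ℕ → Finset GLine := fun i => s.filter (fun l => c l = i) with ht
  have hts : ∀ i, t i ⊆ s := fun i => filter_subset _ _
  have hcwt : ∀ q, cw N s A q = ∑ i ∈ R, cw N (t i) A q := by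
    intro q
    unfold cw
    rw [← sum_fiberwise_of_maps_to (s := s.filter (fun l => cell N l q.2 = q.1)) (g := c)
      (t := R) (fun l hl => hcR l (mem_filter.1 hl).1) A]
    refine sum_congr rfl fun i _ => ?_
    refine sum_congr ?_ fun _ _ => rfl
    ext l
    simp only [ht, mem_filter]
    tauto
  have hRc : (R.card : ℝ) = Lg N + 1 := by rw [hR, card_range]; push_cast; ring
  have hL1 : (1 : ℝ) ≤ Lg N := by exact_mod_cast Lg_pos N
  have hpow : ∀ q, cw N s A q ^ (3 / 2 : ℝ) ≤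
      (Lg N + 1 : ℝ) * ∑ i ∈ R, cw N (t i) A q ^ (3 / 2 : ℝ) := by
    intro q
    have hn : ∀ i ∈ R, 0 ≤ cw N (t i) A q := fun i _ =>
      cw_nonneg (fun l hl => hA0 l (hts i hl)) q
    have h1 := Real.rpow_sum_le_const_mul_sum_rpow_of_nonneg R (f := fun i => cw N (t i) A q)
      (p := 3 / 2) (by norm_num) hn
    rw [← hcwt q, hRc] at h1
    refine h1.trans ?_
    refine mul_le_mul_of_nonneg_right ?_ (sum_nonneg fun i hi => Real.rpow_nonneg (hn i hi) _)
    calc (Lg N + 1 : ℝ) ^ (3 / 2 - 1 : ℝ) ≤ (Lg N + 1 : ℝ) ^ (1 : ℝ) :=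
          Real.rpow_le_rpow_of_exponent_le (by linarith) (by norm_num)
      _ = _ := Real.rpow_one _
  set E : ℝ := C * (N : ℝ) ^ (ε / 2) with hE
  have hE0 : 0 ≤ E := by positivity
  have hNε : 1 ≤ (N : ℝ) ^ (ε / 2) := Real.one_le_rpow hN1 (by positivity)
  have hclass : ∀ i ∈ R, ∑ q ∈ cells N s, cw N (t i) A q ^ (3 / 2 : ℝ) ≤
      (27 + 2 * Real.sqrt 2 * C) * (N : ℝ) ^ (ε / 2) * Real.sqrt Δ * N * ∑ l ∈ t i, A l := by
    intro i _
    rw [sum_cells_sub (hts i)]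
    have hSi : 0 ≤ ∑ l ∈ t i, A l := sum_nonneg fun l hl => hA0 l (hts i hl)
    rcases Nat.eq_zero_or_pos i with rfl | hi
    · have h1 := small_bound hN hΔ.le (s := t 0) (A := A) (fun l hl => hs l (hts 0 hl))
        (fun l hl => hA0 l (hts 0 hl)) (by
          intro l hl
          simp only [ht, hc, mem_filter] at hl
          by_contra hcon
          rw [if_neg hcon] at hl
          omega)
      refine h1.trans ?_
      have : 27 ≤ (27 + 2 * Real.sqrt 2 * C) * (N : ℝ) ^ (ε / 2) := by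
        calc (27 : ℝ) = 27 * 1 := by ring
          _ ≤ (27 + 2 * Real.sqrt 2 * C) * (N : ℝ) ^ (ε / 2) := by
              gcongr
              have : 0 ≤ 2 * Real.sqrt 2 * C := by positivity
              linarith
      gcongr
    · obtain ⟨k, rfl⟩ : ∃ k, i = k + 1 := ⟨i - 1, by omega⟩
      have hmem : ∀ l ∈ t (k + 1), 0 < A l ∧ Nat.log 2 ⌊Δ / A l⌋₊ = k := by
        intro l hl
        have hls := hts _ hl
        simp only [ht, hc, mem_filter] at hl
        obtain ⟨-, h2⟩ := hl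
        split_ifs at h2 with h3
        push Not at h3
        refine ⟨?_, by omega⟩
        by_contra hcon
        have : A l = 0 := le_antisymm (not_lt.1 hcon) (hA0 l hls)
        rw [this, zero_mul] at h3
        linarith
      have h1 := class_bound (N := N) (s := t (k + 1)) (A := A) (C := C) (E := E) hΔ (by
          intro b p0 v0 w hw
          refine le_trans ?_ (hpl b p0 v0 w hw)
          exact sum_le_sum_of_subset_of_nonneg (filter_subset_filter _ (hts _))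
            fun l hl _ => hA0 l (mem_filter.1 hl).1) hE0
        (fun Δ' hΔ' => hU N hN (t (k + 1)) Δ' (fun l hl => hs l (hts _ hl)) hΔ') k
        (by
          intro l hl
          obtain ⟨h2, h3⟩ := hmem l hl
          have h4 : 1 ≤ Δ / A l := by rw [one_le_div h2]; exact hAΔ l (hts _ hl)
          have h5 : ⌊Δ / A l⌋₊ ≠ 0 := by
            have : 1 ≤ ⌊Δ / A l⌋₊ := by rw [Nat.one_le_floor_iff]; exact h4
            omega
          have h6 := Nat.pow_log_le_self 2 h5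
          rw [h3] at h6
          have h7 : ((2 : ℝ) ^ k) ≤ Δ / A l := by
            refine le_trans ?_ (Nat.floor_le (by positivity))
            exact_mod_cast h6
          rw [le_div_iff₀ h2] at h7
          rw [le_div_iff₀ (by positivity)]
          linarith)
        (by
          intro l hl
          obtain ⟨h2, h3⟩ := hmem l hl
          have h6 := Nat.lt_pow_succ_log_self (b := 2) (by norm_num) ⌊Δ / A l⌋₊
          rw [h3] at h6
          have h7 : Δ / A l < (2 : ℝ) ^ (k + 1) := by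
            refine lt_of_lt_of_le (Nat.lt_floor_add_one _) ?_
            exact_mod_cast h6
          rw [div_lt_iff₀ h2] at h7
          rw [div_le_iff₀ (by positivity)]
          linarith)
      refine h1.trans ?_
      have : 2 * Real.sqrt 2 * E ≤ (27 + 2 * Real.sqrt 2 * C) * (N : ℝ) ^ (ε / 2) := by
        rw [hE]
        have : 0 ≤ 27 * (N : ℝ) ^ (ε / 2) := by positivity
        linarith
      gcongr
  have hsumt : ∑ i ∈ R, ∑ l ∈ t i, A l = ∑ l ∈ s, A l :=
    sum_fiberwise_of_maps_to hcR A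
  calc ∑ q ∈ cells N s, cw N s A q ^ (3 / 2 : ℝ) ≤
        ∑ q ∈ cells N s, (Lg N + 1 : ℝ) * ∑ i ∈ R, cw N (t i) A q ^ (3 / 2 : ℝ) :=
          sum_le_sum fun q _ => hpow q
    _ = (Lg N + 1 : ℝ) * ∑ i ∈ R, ∑ q ∈ cells N s, cw N (t i) A q ^ (3 / 2 : ℝ) := by
          rw [← mul_sum, sum_comm]
    _ ≤ (Lg N + 1 : ℝ) * ∑ i ∈ R,
          (27 + 2 * Real.sqrt 2 * C) * (N : ℝ) ^ (ε / 2) * Real.sqrt Δ * N * ∑ l ∈ t i, A l := by
          gcongr with i hi
          exact hclass i hi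
    _ = (Lg N + 1 : ℝ) * ((27 + 2 * Real.sqrt 2 * C) * (N : ℝ) ^ (ε / 2) * Real.sqrt Δ * N *
          ∑ l ∈ s, A l) := by rw [← mul_sum, hsumt]
    _ ≤ (2 * ((17 + 10 / a) * (N : ℝ) ^ a)) * ((27 + 2 * Real.sqrt 2 * C) * (N : ℝ) ^ (ε / 2) *
          Real.sqrt Δ * N * ∑ l ∈ s, A l) := by
          have h1 := Lg_le ha0 hN
          have h2 : (Lg N + 1 : ℝ) ≤ 2 * ((17 + 10 / a) * (N : ℝ) ^ a) := by linarith
          gcongr
    _ = D * ((N : ℝ) ^ a * (N : ℝ) ^ (ε / 2)) * Real.sqrt Δ * N * ∑ l ∈ s, A l := by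
          rw [hD]; ring
    _ = _ := by
          rw [← Real.rpow_add hNp, ha, add_halves]

theorem gridW_of_KMreg (h : KMreg) : GridW := gridW_of_gridU (gridU_of_KMreg h)

end Crest.Agent.R138.GrW294
end

-- ▼ part R138/GrW3_294

/-!
# R138: discrete half of the shell, part 3 (helper294)

`KMseq` = sequence form over the free ultrafilter `U` of `Ex_926` (all uniformities up to
`N^o(1)`, base `d n = 1 / N n`).  Here: `KMseq → KMreg`, hence `KMseq → GridW`.
-/

set_option autoImplicit false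
set_option linter.unusedVariables false

open Finset Filter Topology

namespace Crest.Agent.R138.GrW294

open Crest.Agent.R138.Defs (E2)
open Crest.Agent.R138.Gr63
open Crest.Agent.R138.Ex926 (Base U)

open Classical in
/-- **KMseq**: the sequence form.  `d n = 1 / N n` is a base; distinct grid lines `s n`,
incidences `I n`, every line has `ν` up to `N^o(1)` incidences, every cell of `I n` carries
`μ` up to `N^o(1)` incidences, plank density `Δ`. -/
def KMseq : Prop :=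
  ∀ (B : Base) (N : ℕ → ℕ) (s : ℕ → Finset GLine) (I : ℕ → Finset (GLine × ℤ))
    (Δ μ ν : ℕ → ℝ),
    (∀ n, 2 ≤ N n) → (∀ n, B.d n = 1 / (N n : ℝ)) →
    (∀ n, (s n).Nonempty) → (∀ n, (I n).Nonempty) → (∀ n, 1 ≤ Δ n) → (∀ n, 0 < μ n) →
    (∀ n, 0 < ν n) →
    (∀ n, ∀ l ∈ s n, Bd (N n) l) →
    (∀ n, ∀ x ∈ I n, x.1 ∈ s n ∧ |x.2| ≤ (N n : ℤ)) →
    (∀ n, ∀ l ∈ s n, ν n ≤ (((I n).filter (fun x => x.1 = l)).card : ℝ)) →
    (∀ n, ∀ x ∈ I n, μ n ≤ (((I n).filter (fun y => key (N n) y = key (N n) x)).card : ℝ)) →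
    (∀ η : ℝ, 0 < η → ∀ᶠ n in (U : Filter ℕ), ∀ l ∈ s n,
      (((I n).filter (fun x => x.1 = l)).card : ℝ) ≤ (N n : ℝ) ^ η * ν n) →
    (∀ η : ℝ, 0 < η → ∀ᶠ n in (U : Filter ℕ), ∀ x ∈ I n,
      (((I n).filter (fun y => key (N n) y = key (N n) x)).card : ℝ) ≤ (N n : ℝ) ^ η * μ n) →
    (∀ n, Dens (N n) (s n) (Δ n)) →
    ∀ ε : ℝ, 0 < ε → ∀ᶠ n in (U : Filter ℕ),
      μ n * ν n ^ 2 ≤ (N n : ℝ) ^ ε * Δ n * (N n : ℝ) ^ 2

open Classical in
theorem KMreg_of_KMseq (h : KMseq) : KMreg := by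
  intro ε hε
  by_contra hcon
  push Not at hcon
  have hcon2 : ∀ n : ℕ, ∃ (N : ℕ) (_ : 1 ≤ N) (s : Finset GLine) (I : Finset (GLine × ℤ))
      (Δ μ ν : ℝ) (_ : s.Nonempty) (_ : 0 < μ) (_ : 0 < ν)
      (_ : ∀ l ∈ s, Bd N l)
      (_ : ∀ x ∈ I, x.1 ∈ s ∧ |x.2| ≤ (N : ℤ))
      (_ : ∀ l ∈ s, ν ≤ ((I.filter (fun x => x.1 = l)).card : ℝ) ∧
        ((I.filter (fun x => x.1 = l)).card : ℝ) ≤ (N : ℝ) ^ (1 / ((n : ℝ) + 1)) * ν)
      (_ : ∀ x ∈ I, μ ≤ ((I.filter (fun y => key N y = key N x)).card : ℝ) ∧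
        ((I.filter (fun y => key N y = key N x)).card : ℝ) ≤ (N : ℝ) ^ (1 / ((n : ℝ) + 1)) * μ)
      (_ : Dens N s Δ),
      (2187 * 2 ^ 7 + (n : ℝ)) * (N : ℝ) ^ ε * Δ * (N : ℝ) ^ 2 < μ * ν ^ 2 := by
    intro n
    obtain ⟨N, hN, s, I, Δ, μ, ν, h1, h2, h3, h4, h5, h6, h7, h8, h9⟩ :=
      hcon (1 / ((n : ℝ) + 1)) (by positivity) (2187 * 2 ^ 7 + (n : ℝ)) (by positivity)
    exact ⟨N, hN, s, I, Δ, μ, ν, h1, h2, h3, h4, h5, h6, h7, h8, h9⟩
  choose N hN s I Δ μ ν hs hμ hν hBd hI hreg1 hreg2 hdens hlt using hcon2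
  have hΔ1 : ∀ n, 1 ≤ Δ n := fun n => one_le_of_Dens (hN n) (hdens n) (hs n)
  have hIne : ∀ n, (I n).Nonempty := by
    intro n
    obtain ⟨l, hl⟩ := hs n
    have h1 := (hreg1 n l hl).1
    have h2 : 0 < (((I n).filter (fun x => x.1 = l)).card : ℝ) := (hν n).trans_le h1
    have h3 : 0 < ((I n).filter (fun x => x.1 = l)).card := by exact_mod_cast h2
    obtain ⟨x, hx⟩ := card_pos.1 h3
    exact ⟨x, (mem_filter.1 hx).1⟩
  -- `N n` tends to infinity
  have hIsub : ∀ n, I n ⊆ inc (N n) (s n) := by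
    intro n x hx
    obtain ⟨h1, h2⟩ := hI n x hx
    unfold inc
    rw [mem_product, mem_Icc]
    exact ⟨h1, abs_le.1 h2⟩
  have hμle : ∀ n, μ n ≤ 243 * (N n : ℝ) ^ 5 := by
    intro n
    obtain ⟨x, hx⟩ := hIne n
    have h1 := (hreg2 n x hx).1
    have h2 : ((I n).filter (fun y => key (N n) y = key (N n) x)).card ≤ 243 * N n ^ 5 :=
      (card_le_card (filter_subset _ _)).trans
        ((card_le_card (hIsub n)).trans (card_inc_le (hN n) (hBd n)))
    refine h1.trans ?_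
    exact_mod_cast h2
  have hνle : ∀ n, ν n ≤ 3 * (N n : ℝ) := by
    intro n
    obtain ⟨l, hl⟩ := hs n
    have h1 := (hreg1 n l hl).1
    have h2 : ((I n).filter (fun x => x.1 = l)).card ≤ 3 * N n := by
      have h3 : ((I n).filter (fun x => x.1 = l)).card ≤ (Icc (-(N n : ℤ)) (N n)).card := by
        refine card_le_card_of_injOn (fun x => x.2) ?_ ?_
        · intro x hx
          have hx' := (mem_filter.1 (Finset.mem_coe.1 hx)).1
          simp only [coe_Icc, Set.mem_Icc]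
          exact abs_le.1 (hI n x hx').2
        · intro x hx y hy hxy
          have h4 := (mem_filter.1 (Finset.mem_coe.1 hx)).2
          have h5 := (mem_filter.1 (Finset.mem_coe.1 hy)).2
          exact Prod.ext (h4.trans h5.symm) hxy
      exact h3.trans (card_Icc_le (hN n))
    refine h1.trans ?_
    exact_mod_cast h2
  have hNlow : ∀ n : ℕ, 2187 * 2 ^ 7 + (n : ℝ) ≤ 2187 * (N n : ℝ) ^ 7 := by
    intro n
    have hN1 : (1 : ℝ) ≤ N n := by exact_mod_cast hN n
    have h1 : μ n * ν n ^ 2 ≤ 2187 * (N n : ℝ) ^ 7 := by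
      have h2 := hμle n
      have h3 := hνle n
      have h4 := (hν n).le
      have h5 := (hμ n).le
      calc μ n * ν n ^ 2 ≤ (243 * (N n : ℝ) ^ 5) * (3 * (N n : ℝ)) ^ 2 := by gcongr
        _ = 2187 * (N n : ℝ) ^ 7 := by ring
    have h2 := (hlt n).le.trans h1
    have h3 : 1 ≤ (N n : ℝ) ^ ε := Real.one_le_rpow hN1 hε.le
    have h4 : (2187 * 2 ^ 7 + (n : ℝ)) * 1 * 1 * 1 ≤
        (2187 * 2 ^ 7 + (n : ℝ)) * (N n : ℝ) ^ ε * Δ n * (N n : ℝ) ^ 2 := by
      have h5 := hΔ1 n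
      have h6 : (1 : ℝ) ≤ (N n : ℝ) ^ 2 := one_le_pow₀ hN1
      gcongr
    linarith
  have hN2 : ∀ n, 2 ≤ N n := by
    intro n
    by_contra hlt2
    have h1 : N n = 1 := by have := hN n; omega
    have h2 := hNlow n
    rw [h1] at h2
    have h3 : (0 : ℝ) ≤ n := Nat.cast_nonneg _
    norm_num at h2
    linarith
  have hNinf : Tendsto (fun n => (N n : ℝ)) atTop atTop := by
    have h1 : Tendsto (fun n => 2187 * (N n : ℝ) ^ 7) atTop atTop := by
      refine tendsto_atTop_mono hNlow ?_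
      exact tendsto_atTop_add_const_left _ _ tendsto_natCast_atTop_atTop
    have h2 : Tendsto (fun n => (N n : ℝ) ^ 7) atTop atTop := by
      have := h1.const_mul_atTop (show (0 : ℝ) < 1 / 2187 by norm_num)
      refine this.congr fun n => ?_
      ring
    refine tendsto_atTop.2 fun b => ?_
    filter_upwards [tendsto_atTop.1 h2 ((max b 0) ^ 7)] with n hn
    have h3 : max b 0 ≤ (N n : ℝ) := by
      by_contra hc
      push Not at hc
      have : (N n : ℝ) ^ 7 < (max b 0) ^ 7 := by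
        apply pow_lt_pow_left₀ hc (Nat.cast_nonneg _) (by norm_num)
      linarith
    exact (le_max_left _ _).trans h3
  let B : Base :=
    { d := fun n => 1 / (N n : ℝ)
      pos := fun n => by
        have : (0 : ℝ) < N n := by
          have := hN n
          exact_mod_cast this
        positivity
      lt := fun n => by
        have : (1 : ℝ) < N n := by
          have := hN2 n
          exact_mod_cast this
        rw [div_lt_one (by linarith)]
        exact this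
      lim0 := by
        have h1 : Tendsto (fun n => 1 / (N n : ℝ)) atTop (𝓝 0) := by
          have := tendsto_inv_atTop_zero.comp hNinf
          refine this.congr fun n => ?_
          simp
        exact h1.mono_left Ex926.U_le_atTop }
  have hev : ∀ η : ℝ, 0 < η → ∀ᶠ n : ℕ in (U : Filter ℕ), (1 / ((n : ℝ) + 1)) ≤ η := by
    intro η hη
    obtain ⟨k, hk⟩ := exists_nat_one_div_lt hη
    filter_upwards [Ex926.ev_ge k] with n hn
    have h1 : (k : ℝ) ≤ n := by exact_mod_cast hn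
    calc 1 / ((n : ℝ) + 1) ≤ 1 / ((k : ℝ) + 1) := by gcongr
      _ ≤ η := hk.le
  have hpowle : ∀ η : ℝ, 0 < η → ∀ᶠ n in (U : Filter ℕ),
      (N n : ℝ) ^ (1 / ((n : ℝ) + 1)) ≤ (N n : ℝ) ^ η := by
    intro η hη
    filter_upwards [hev η hη] with n hn
    have hN1 : (1 : ℝ) ≤ N n := by exact_mod_cast hN n
    exact Real.rpow_le_rpow_of_exponent_le hN1 hn
  have hfin := h B N s I Δ μ ν hN2 (fun n => rfl) hs hIne hΔ1 hμ hν hBd hI
    (fun n l hl => (hreg1 n l hl).1) (fun n x hx => (hreg2 n x hx).1)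
    (by
      intro η hη
      filter_upwards [hpowle η hη] with n hn l hl
      refine (hreg1 n l hl).2.trans ?_
      have := (hν n).le
      gcongr)
    (by
      intro η hη
      filter_upwards [hpowle η hη] with n hn x hx
      refine (hreg2 n x hx).2.trans ?_
      have := (hμ n).le
      gcongr)
    hdens ε hε
  obtain ⟨n, hn⟩ := hfin.exists
  have h1 := hlt n
  have hN1 : (1 : ℝ) ≤ N n := by exact_mod_cast hN n
  have h2 : (N n : ℝ) ^ ε * Δ n * (N n : ℝ) ^ 2 ≤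
      (2187 * 2 ^ 7 + (n : ℝ)) * (N n : ℝ) ^ ε * Δ n * (N n : ℝ) ^ 2 := by
    have h3 : 0 ≤ (N n : ℝ) ^ ε * Δ n * (N n : ℝ) ^ 2 := by
      have := hΔ1 n
      positivity
    have h4 : (1 : ℝ) ≤ 2187 * 2 ^ 7 + (n : ℝ) := by
      have : (0 : ℝ) ≤ n := Nat.cast_nonneg _
      linarith
    calc _ = 1 * ((N n : ℝ) ^ ε * Δ n * (N n : ℝ) ^ 2) := by ring
      _ ≤ (2187 * 2 ^ 7 + (n : ℝ)) * ((N n : ℝ) ^ ε * Δ n * (N n : ℝ) ^ 2) := by gcongr
      _ = _ := by ring
  linarith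

/-- **the discrete half of the shell.** -/
theorem gridW_of_KMseq (h : KMseq) : GridW := gridW_of_KMreg (KMreg_of_KMseq h)

end Crest.Agent.R138.GrW294
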