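import Crest.Agent.R138.KDef_294
import Crest.Agent.R138.GrW3_294
import Mathlib
import Crest.Agent.R138.Ps3_926

-- ▼ part R138/Vb_294
section

/-!
# R138, TEXT I (helper294): elementary bounds for the value of a configuration

* `cover2` : a plank of a deep cell is covered by few planks `(a1, a2)` of the coarse cell;
* `val_le` : `val ≤ 2 + 10 / M` for every penalty `q`;
* `val_two` : `val ≤ 13 / M` for `q = 2`;
* `Ok.up_shift`, `Ok.down_shift` : change of the penalty.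
-/

set_option autoImplicit false
set_option linter.unusedVariables false

open Finset

namespace Crest.Agent.R138.K294

open Crest.Agent.R138.Flag51

noncomputable section

theorem pos_dt (t l : Ln) (z z' : ℝ) (e : E2) :
    dt (pos t z - pos l z) e = dt (pos t z' - pos l z') e + (z - z') * dt (t.2 - l.2) e := by
  simp only [dt, pos, PiLp.sub_apply, PiLp.add_apply, PiLp.smul_apply, smul_eq_mul]; ring

theorem pos_cr (t l : Ln) (z z' : ℝ) (e : E2) :
    cr e (pos t z - pos l z) = cr e (pos t z' - pos l z') + (z - z') * cr e (t.2 - l.2) := by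
  simp only [cr, pos, PiLp.sub_apply, PiLp.add_apply, PiLp.smul_apply, smul_eq_mul]; ring

/-- velocities of the lines of a plank -/
theorem vel_le {t l : Ln} {e : E2} {w1 w2 z0 ρ : ℝ} (hρ : 0 < ρ) (h : InPlank t l e w1 w2 z0 ρ) :
    |dt (t.2 - l.2) e| ≤ w1 / ρ ∧ |cr e (t.2 - l.2)| ≤ w2 / ρ := by
  have h1 := h (z0 + ρ) (by rw [add_sub_cancel_left, abs_of_pos hρ])
  have h2 := h (z0 - ρ) (by rw [sub_sub_cancel_left, abs_neg, abs_of_pos hρ])
  have e1 := pos_dt t l (z0 + ρ) (z0 - ρ) e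
  have e2 := pos_cr t l (z0 + ρ) (z0 - ρ) e
  have e3 : z0 + ρ - (z0 - ρ) = 2 * ρ := by ring
  rw [e3] at e1 e2
  constructor
  · rw [le_div_iff₀ hρ]
    have : 2 * ρ * dt (t.2 - l.2) e = dt (pos t (z0 + ρ) - pos l (z0 + ρ)) e -
      dt (pos t (z0 - ρ) - pos l (z0 - ρ)) e := by linarith
    have h4 : |2 * ρ * dt (t.2 - l.2) e| ≤ w1 + w1 := by
      rw [this]; exact (abs_sub _ _).trans (add_le_add h1.1 h2.1)
    rw [abs_mul, abs_of_pos (by linarith : 0 < 2 * ρ)] at h4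
    linarith
  · rw [le_div_iff₀ hρ]
    have : 2 * ρ * cr e (t.2 - l.2) = cr e (pos t (z0 + ρ) - pos l (z0 + ρ)) -
      cr e (pos t (z0 - ρ) - pos l (z0 - ρ)) := by linarith
    have h4 : |2 * ρ * cr e (t.2 - l.2)| ≤ w2 + w2 := by
      rw [this]; exact (abs_sub _ _).trans (add_le_add h1.2 h2.2)
    rw [abs_mul, abs_of_pos (by linarith : 0 < 2 * ρ)] at h4
    linarith

/-- position / velocity cell of a line: positions at `z1` -/
def pcell (e : E2) (a1 a2 z1 ρ : ℝ) (t : Ln) : (ℤ × ℤ) × (ℤ × ℤ) :=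
  ((⌊dt (pos t z1) e / (a1 / 2)⌋, ⌊cr e (pos t z1) / (a2 / 2)⌋),
    (⌊dt t.2 e / (a1 / (4 * ρ))⌋, ⌊cr e t.2 / (a2 / (4 * ρ))⌋))

theorem inPlank_of_pcell {e : E2} {a1 a2 z1 z0 ρ : ℝ} (h1 : 0 < a1) (h2 : 0 < a2) (hρ : 0 < ρ)
    (hz : |z1 - z0| ≤ ρ) {t l : Ln} (h : pcell e a1 a2 z1 ρ t = pcell e a1 a2 z1 ρ l) :
    InPlank t l e a1 a2 z0 ρ := by
  unfold pcell at h
  simp only [Prod.mk.injEq] at h
  obtain ⟨⟨p1, p2⟩, v1, v2⟩ := h
  have q1 := abs_le_of_floor (by positivity) p1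
  have q2 := abs_le_of_floor (by positivity) p2
  have q3 := abs_le_of_floor (by positivity) v1
  have q4 := abs_le_of_floor (by positivity) v2
  rw [← dt_sub] at q1 q3
  rw [← cr_sub] at q2 q4
  intro z hz'
  have hzz : |z - z1| ≤ 2 * ρ := by
    have : z - z1 = (z - z0) - (z1 - z0) := by ring
    rw [this]; exact (abs_sub _ _).trans (by linarith)
  rw [pos_dt t l z z1, pos_cr t l z z1]
  constructor
  · calc |dt (pos t z1 - pos l z1) e + (z - z1) * dt (t.2 - l.2) e|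
        ≤ |dt (pos t z1 - pos l z1) e| + |(z - z1) * dt (t.2 - l.2) e| := abs_add_le _ _
      _ = |dt (pos t z1 - pos l z1) e| + |z - z1| * |dt (t.2 - l.2) e| := by rw [abs_mul]
      _ ≤ a1 / 2 + (2 * ρ) * (a1 / (4 * ρ)) := by gcongr
      _ = a1 := by field_simp; ring
  · calc |cr e (pos t z1 - pos l z1) + (z - z1) * cr e (t.2 - l.2)|
        ≤ |cr e (pos t z1 - pos l z1)| + |(z - z1) * cr e (t.2 - l.2)| := abs_add_le _ _
      _ = |cr e (pos t z1 - pos l z1)| + |z - z1| * |cr e (t.2 - l.2)| := by rw [abs_mul]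
      _ ≤ a2 / 2 + (2 * ρ) * (a2 / (4 * ρ)) := by gcongr
      _ = a2 := by field_simp; ring

open Classical in
/-- **second cover lemma**: the lines of a plank `(l, e; w1, w2)` of the cell `(z1, ρ')` are covered
by few planks `(t0, e; a1, a2)` of the larger cell `(z0, ρ)`. -/
theorem cover2 {ι : Type*} (S : Finset ι) (L : ι → Ln) {e : E2} {w1 w2 a1 a2 z1 z0 ρ' ρ : ℝ}
    (h1 : 0 < a1) (h2 : 0 < a2) (hρ : 0 < ρ) (hρ' : 0 < ρ') (hz : |z1 - z0| ≤ ρ)
    {n1 n2 n3 n4 : ℕ} (b1 : w1 ≤ n1 * (a1 / 2)) (b2 : w2 ≤ n2 * (a2 / 2))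
    (b3 : w1 / ρ' ≤ n3 * (a1 / (4 * ρ))) (b4 : w2 / ρ' ≤ n4 * (a2 / (4 * ρ))) {l : Ln}
    (hS : ∀ t ∈ S, InPlank (L t) l e w1 w2 z1 ρ') {A : ℝ} (hA0 : 0 ≤ A)
    (hA : ∀ t0 ∈ S, ((S.filter fun t => InPlank (L t) (L t0) e a1 a2 z0 ρ).card : ℝ) ≤ A) :
    (S.card : ℝ) ≤ (((2 * n1 + 1) * (2 * n2 + 1)) * ((2 * n3 + 1) * (2 * n4 + 1))) * A := by
  set g : ι → (ℤ × ℤ) × (ℤ × ℤ) := fun t => pcell e a1 a2 z1 ρ (L t) with hg
  have c1 : (S.card : ℝ) ≤ (S.image g).card * A := by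
    have : S.card = ∑ c ∈ S.image g, (S.filter fun t => g t = c).card :=
      card_eq_sum_card_image g S
    rw [this]
    push_cast
    calc ∑ c ∈ S.image g, ((S.filter fun t => g t = c).card : ℝ) ≤ ∑ c ∈ S.image g, A := by
          refine sum_le_sum fun c hc => ?_
          obtain ⟨t0, ht0, rfl⟩ := mem_image.1 hc
          refine le_trans ?_ (hA t0 ht0)
          refine Nat.cast_le.2 (card_le_card fun t ht => ?_)
          rw [mem_filter] at ht ⊢
          exact ⟨ht.1, inPlank_of_pcell h1 h2 hρ hz ht.2⟩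
      _ = (S.image g).card * A := by rw [sum_const, nsmul_eq_mul]
  set c0 := pcell e a1 a2 z1 ρ l with hc0
  have c2 : S.image g ⊆ ((Icc (c0.1.1 - n1) (c0.1.1 + n1)) ×ˢ (Icc (c0.1.2 - n2) (c0.1.2 + n2))) ×ˢ
      ((Icc (c0.2.1 - n3) (c0.2.1 + n3)) ×ˢ (Icc (c0.2.2 - n4) (c0.2.2 + n4))) := by
    intro c hc
    obtain ⟨t, ht, rfl⟩ := mem_image.1 hc
    have a := hS t ht z1 (by rw [sub_self, abs_zero]; exact hρ'.le)
    have v := vel_le hρ' (hS t ht)
    rw [dt_sub, cr_sub] at a v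
    rw [mem_product, mem_product, mem_product]
    exact ⟨⟨floor_mem_Icc (by positivity) (a.1.trans b1),
      floor_mem_Icc (by positivity) (a.2.trans b2)⟩,
      floor_mem_Icc (by positivity) (v.1.trans b3), floor_mem_Icc (by positivity) (v.2.trans b4)⟩
  have c3 : ((S.image g).card : ℝ) ≤
      ((2 * n1 + 1) * (2 * n2 + 1)) * ((2 * n3 + 1) * (2 * n4 + 1)) := by
    have := card_le_card c2
    rw [card_product, card_product, card_product] at this
    have h5 : ∀ (x : ℤ) (n : ℕ), (Icc (x - n) (x + n)).card = 2 * n + 1 := by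
      intro x n; rw [Int.card_Icc]; omega
    rw [h5, h5, h5, h5] at this
    exact_mod_cast this
  exact c1.trans (mul_le_mul_of_nonneg_right c3 hA0)

variable {q : ℝ} {F : Cf}

open Classical in
/-- the lines of the class of `x` -/
def Cf.lns (F : Cf) (x : Ln × ℝ) : Finset Ln := (F.cls x).image Prod.fst

theorem Cf.Ok.inK (h : F.Ok q) {x : Ln × ℝ} (hx : x ∈ F.I) {o : Ln × ℤ} (ho : o ∈ F.cls x) :
    InK F.top (F.K (F.cl (ob F.top x))) o := by
  classical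
  unfold Cf.cls at ho
  rw [mem_filter, mem_image] at ho
  obtain ⟨⟨y, hy, rfl⟩, hc⟩ := ho
  rw [← hc]
  exact h.mem y hy

theorem Cf.Ok.card_lns (h : F.Ok q) {x : Ln × ℝ} (hx : x ∈ F.I) :
    (F.lns x).card = (F.cls x).card := by
  classical
  unfold Cf.lns
  refine card_image_of_injOn fun a ha b hb hab => ?_
  rw [Finset.mem_coe] at ha hb
  exact Prod.ext hab ((h.inK hx ha).1.trans (h.inK hx hb).1.symm)

theorem Cf.Ok.zc_eq (h : F.Ok q) {x : Ln × ℝ} (hx : x ∈ F.I) {o : Ln × ℤ} (ho : o ∈ F.cls x) :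
    ∃ y ∈ F.I, y.1 = o.1 ∧ zc F.m y.2 = zc F.m x.2 := by
  classical
  unfold Cf.cls at ho
  rw [mem_filter, mem_image] at ho
  obtain ⟨⟨y, hy, rfl⟩, hc⟩ := ho
  exact ⟨y, hy, rfl, h.cell y hy x hx⟩

open Classical in
/-- the lines of a class in a legal plank `(a1, a2)` of the coarse cell -/
theorem Cf.Ok.lns_le (h : F.Ok q) {x : Ln × ℝ} (hx : x ∈ F.I) (t0 : Ln) {a1 a2 : ℝ}
    (hr : F.r ≤ a1) (h12 : a1 ≤ a2) (h2 : a2 ≤ 1 / 2 ^ F.m) :
    (((F.lns x).filter fun t => InPlank t t0 (F.K (F.cl (ob F.top x))).e a1 a2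
      (zm F.m (zc F.m x.2)) (zr F.m)).card : ℝ) ≤ F.D0 * (a1 * a2 * (a2 * 2 ^ F.m) ^ q) := by
  have hu := h.up ⟨zc F.m x.2, t0, (F.K (F.cl (ob F.top x))).e, a1, a2⟩
    ⟨(h.legal x hx).unit, hr, h12, h2⟩
  refine le_trans (Nat.cast_le.2 ?_) hu
  refine card_le_card_of_injOn (fun t => (t, zc F.m x.2)) (fun t ht => ?_)
    (fun a _ b _ hab => (Prod.ext_iff.1 hab).1)
  rw [Finset.mem_coe, mem_filter] at ht
  rw [Finset.mem_coe]
  unfold objs
  rw [mem_filter, mem_image]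
  obtain ⟨h1, h3⟩ := ht
  unfold Cf.lns at h1
  obtain ⟨o, ho, rfl⟩ := mem_image.1 h1
  obtain ⟨y, hy, hy1, hy2⟩ := h.zc_eq hx ho
  refine ⟨⟨y, hy, ?_⟩, rfl, h3⟩
  unfold ob
  rw [hy1, hy2]

theorem Cf.Ok.D0p (h : F.Ok q) : 0 ≤ F.D0 := by
  obtain ⟨x, hx⟩ := h.ne
  have hl := h.legal x hx
  have h1 := h.lns_le hx x.1 (a1 := F.r) (a2 := 1 / 2 ^ F.m) le_rfl
    (h.rle.trans (one_div_le_one_div_of_le (by positivity)
      (pow_le_pow_right₀ one_le_two (Nat.le_add_right _ _)))) le_rfl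
  have h2 : 0 < F.r * (1 / 2 ^ F.m) * (1 / 2 ^ F.m * 2 ^ F.m) ^ q := by
    have := h.r0
    positivity
  by_contra h3
  push Not at h3
  have := mul_neg_of_neg_of_pos h3 h2
  have h4 : (0:ℝ) ≤ _ := (Nat.cast_nonneg _).trans h1
  linarith

theorem Cf.Ok.zhyp (h : F.Ok q) {x : Ln × ℝ} (hx : x ∈ F.I) :
    |zm F.top (F.K (F.cl (ob F.top x))).j - zm F.m (zc F.m x.2)| ≤ zr F.m := by
  have h1 : (F.K (F.cl (ob F.top x))).j = zc F.top x.2 := (h.mem x hx).1.symm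
  rw [h1]
  have h2 := cell_sub (m := F.m) (m' := F.top) (Nat.le_add_right _ _) x.2
  have := zr_pos F.top
  linarith

/-- `ρ_m = 2^M ρ_top` -/
theorem zr_top (F : Cf) : zr F.m = 2 ^ F.M * zr F.top := by
  unfold zr Cf.top
  rw [show F.m + F.M + 1 = F.M + (F.m + 1) by ring, pow_add 2 F.M]
  field_simp

theorem Cf.Ok.card_le_of (h : F.Ok q) {x : Ln × ℝ} (hx : x ∈ F.I) {a1 a2 : ℝ} {n1 n2 n3 n4 : ℕ}
    (hr : F.r ≤ a1) (h12 : a1 ≤ a2) (h2 : a2 ≤ 1 / 2 ^ F.m)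
    (b1 : (F.K (F.cl (ob F.top x))).w1 ≤ n1 * (a1 / 2))
    (b2 : (F.K (F.cl (ob F.top x))).w2 ≤ n2 * (a2 / 2))
    (b3 : 2 ^ F.M * (F.K (F.cl (ob F.top x))).w1 ≤ n3 * (a1 / 4))
    (b4 : 2 ^ F.M * (F.K (F.cl (ob F.top x))).w2 ≤ n4 * (a2 / 4)) :
    ((F.cls x).card : ℝ) ≤ (((2 * n1 + 1) * (2 * n2 + 1)) * ((2 * n3 + 1) * (2 * n4 + 1))) *
      (F.D0 * (a1 * a2 * (a2 * 2 ^ F.m) ^ q)) := by
  classical
  have ha1 : 0 < a1 := h.r0.trans_le hr
  have ha2 : 0 < a2 := ha1.trans_le h12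
  have hD := h.D0p
  rw [← h.card_lns hx]
  have hz := zr_pos F.top
  have conv : ∀ {w a : ℝ} {n : ℕ}, 2 ^ F.M * w ≤ n * (a / 4) →
      w / zr F.top ≤ n * (a / (4 * zr F.m)) := by
    intro w a n hw
    rw [zr_top F, div_le_iff₀ hz]
    have e1 : (n:ℝ) * (a / (4 * (2 ^ F.M * zr F.top))) * zr F.top = (n * (a / 4)) / 2 ^ F.M := by
      field_simp
    rw [e1, le_div_iff₀ (by positivity)]
    linarith
  refine cover2 (F.lns x) id ha1 ha2 (zr_pos F.m) hz (h.zhyp hx) b1 b2 (conv b3) (conv b4)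
    (l := (F.K (F.cl (ob F.top x))).l) (e := (F.K (F.cl (ob F.top x))).e) (fun t ht => ?_)
    (by positivity) (fun t0 ht0 => ?_)
  · unfold Cf.lns at ht
    obtain ⟨o, ho, rfl⟩ := mem_image.1 ht
    exact (h.inK hx ho).2
  · exact h.lns_le hx t0 hr h12 h2

/-- the own number of cells is at most `2^M` -/
theorem Cf.Ok.nu_le (h : F.Ok q) : F.nu ≤ 2 ^ F.M := by
  classical
  obtain ⟨x, hx⟩ := h.ne
  refine (h.own x hx).trans ?_
  unfold ownc
  have h1 : (F.I.filter fun y => ob F.m y = ob F.m x).image (ob F.top) ⊆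
      (Ico (2 ^ F.M * zc F.m x.2) (2 ^ F.M * (zc F.m x.2 + 1))).image fun j => (x.1, j) := by
    intro o ho
    obtain ⟨y, hy, rfl⟩ := mem_image.1 ho
    rw [mem_filter] at hy
    obtain ⟨hyI, hyo⟩ := hy
    unfold ob at hyo
    rw [Prod.mk.injEq] at hyo
    rw [mem_image]
    refine ⟨zc F.top y.2, ?_, ?_⟩
    · rw [← hyo.2, mem_Ico]
      unfold zc Cf.top
      have f1 := Int.floor_le ((2:ℝ) ^ F.m * y.2)
      have f2 := Int.lt_floor_add_one ((2:ℝ) ^ F.m * y.2)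
      have hk : (0:ℝ) < 2 ^ F.M := by positivity
      constructor
      · rw [Int.le_floor]
        push_cast
        calc (2:ℝ) ^ F.M * ⌊(2:ℝ) ^ F.m * y.2⌋ ≤ 2 ^ F.M * (2 ^ F.m * y.2) := by gcongr
          _ = 2 ^ (F.m + F.M) * y.2 := by rw [pow_add]; ring
      · rw [Int.floor_lt]
        push_cast
        calc (2:ℝ) ^ (F.m + F.M) * y.2 = 2 ^ F.M * (2 ^ F.m * y.2) := by rw [pow_add]; ring
          _ < 2 ^ F.M * (⌊(2:ℝ) ^ F.m * y.2⌋ + 1) := by gcongr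
    · unfold ob; rw [hyo.1]
  have h2 := (card_le_card h1).trans card_image_le
  rw [Int.card_Ico] at h2
  have h3 : (2 ^ F.M * (zc F.m x.2 + 1) - 2 ^ F.M * zc F.m x.2 : ℤ) = 2 ^ F.M := by ring
  rw [h3] at h2
  have h4 : ((2:ℤ) ^ F.M).toNat = 2 ^ F.M := by
    rw [Int.toNat_pow_of_nonneg (by norm_num)]; rfl
  rw [h4] at h2
  exact_mod_cast h2

/-- **trivial bound for `D1`** -/
theorem Cf.Ok.D1_le (h : F.Ok q) : F.D1 ≤ 729 * 4 ^ F.M * F.D0 := by
  obtain ⟨x, hx⟩ := h.ne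
  have hl := h.legal x hx
  have hlow := h.low x hx
  set K := F.K (F.cl (ob F.top x)) with hK
  have hw1 : 0 < K.w1 := h.r0.trans_le hl.r1
  have hw2 : 0 < K.w2 := hw1.trans_le hl.w12
  have hM : (2:ℝ) ≤ 2 ^ F.M := by
    calc (2:ℝ) = 2 ^ 1 := by norm_num
      _ ≤ 2 ^ F.M := pow_le_pow_right₀ one_le_two h.M1
  have hM0 : (0:ℝ) < 2 ^ F.M := by positivity
  have h1 := h.card_le_of hx (a1 := 2 ^ F.M * K.w1) (a2 := 2 ^ F.M * K.w2) (n1 := 1) (n2 := 1)
    (n3 := 4) (n4 := 4) (hl.r1.trans (by nlinarith)) (by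
      exact mul_le_mul_of_nonneg_left hl.w12 hM0.le) (by
      have := mul_le_mul_of_nonneg_left hl.w2 hM0.le
      refine this.trans (le_of_eq ?_)
      unfold Cf.top; rw [pow_add]; field_simp)
    (by push_cast; rw [← hK]; nlinarith) (by push_cast; rw [← hK]; nlinarith)
    (by push_cast; rw [← hK]; linarith) (by push_cast; rw [← hK]; linarith)
  have h2 := hlow.trans h1
  unfold cap at h2
  have e1 : (K.w2 * 2 ^ F.top) = 2 ^ F.M * K.w2 * 2 ^ F.m := by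
    unfold Cf.top; rw [pow_add]; ring
  rw [e1] at h2
  set X := (2 ^ F.M * K.w2 * 2 ^ F.m) ^ q with hX
  have hX0 : 0 < X := by positivity
  have e2 : (((2 * ((1:ℕ):ℝ) + 1) * (2 * ((1:ℕ):ℝ) + 1)) * ((2 * ((4:ℕ):ℝ) + 1) *
      (2 * ((4:ℕ):ℝ) + 1))) * (F.D0 * (2 ^ F.M * K.w1 * (2 ^ F.M * K.w2) * X)) =
      (729 * 4 ^ F.M * F.D0) * (K.w1 * K.w2 * X) := by
    have : (4:ℝ) ^ F.M = 2 ^ F.M * 2 ^ F.M := by
      rw [← mul_pow]; norm_num
    rw [this]; push_cast; ring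
  rw [e2] at h2
  exact le_of_mul_le_mul_right h2 (by positivity)

theorem Cf.Ok.D0p' (h : F.Ok q) : 0 < F.D0 := by
  have h1 := h.D1p
  have h2 := h.D1_le
  have h3 : (0:ℝ) < 729 * 4 ^ F.M := by positivity
  by_contra h4
  push Not at h4
  have := mul_nonpos_of_nonneg_of_nonpos h3.le h4
  linarith


/-- **`q = 2`: the value is `≤ 0`** up to a constant -/
theorem Cf.Ok.D1_le_two (h : F.Ok 2) : F.D1 ≤ 8192 * F.D0 := by
  obtain ⟨x, hx⟩ := h.ne
  have hl := h.legal x hx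
  have hlow := h.low x hx
  set K := F.K (F.cl (ob F.top x)) with hK
  have hr := h.r0
  have hw1 : 0 < K.w1 := hr.trans_le hl.r1
  have hw2 : 0 < K.w2 := hw1.trans_le hl.w12
  have hM0 : (0:ℝ) < 2 ^ F.M := by positivity
  have hM1 : (1:ℝ) ≤ 2 ^ F.M := one_le_pow₀ one_le_two
  have hrw2 : F.r ≤ K.w2 := hl.r1.trans hl.w12
  have c1 : ∀ {y : ℝ}, 0 ≤ y → y ≤ (⌈y / F.r⌉₊ : ℝ) * F.r := by
    intro y hy
    have := Nat.le_ceil (y / F.r)
    rwa [div_le_iff₀ hr] at this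
  have c2 : ∀ {y : ℝ}, 0 ≤ y → (2 * (⌈y / F.r⌉₊ : ℝ) + 1) * F.r ≤ 2 * y + 3 * F.r := by
    intro y hy
    have h1 := Nat.ceil_lt_add_one (div_nonneg hy hr.le)
    have h2 : (⌈y / F.r⌉₊ : ℝ) * F.r ≤ (y / F.r + 1) * F.r :=
      mul_le_mul_of_nonneg_right h1.le hr.le
    have h3 : (y / F.r + 1) * F.r = y + F.r := by field_simp
    nlinarith
  have h1 := h.card_le_of hx (a1 := F.r) (a2 := F.r) (n1 := ⌈2 * K.w1 / F.r⌉₊)
    (n2 := ⌈2 * K.w2 / F.r⌉₊) (n3 := ⌈4 * (2 ^ F.M * K.w1) / F.r⌉₊)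
    (n4 := ⌈4 * (2 ^ F.M * K.w2) / F.r⌉₊) le_rfl le_rfl
    (h.rle.trans (one_div_le_one_div_of_le (by positivity)
      (pow_le_pow_right₀ one_le_two (Nat.le_add_right _ _))))
    (by have := c1 (y := 2 * K.w1) (by positivity); rw [← hK]; linarith)
    (by have := c1 (y := 2 * K.w2) (by positivity); rw [← hK]; linarith)
    (by have := c1 (y := 4 * (2 ^ F.M * K.w1)) (by positivity); rw [← hK]; linarith)
    (by have := c1 (y := 4 * (2 ^ F.M * K.w2)) (by positivity); rw [← hK]; linarith)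
  have h2 := hlow.trans h1
  have d1 := c2 (y := 2 * K.w1) (by positivity)
  have d2 := c2 (y := 2 * K.w2) (by positivity)
  have d3 := c2 (y := 4 * (2 ^ F.M * K.w1)) (by positivity)
  have d4 := c2 (y := 4 * (2 ^ F.M * K.w2)) (by positivity)
  set n1 : ℝ := (⌈2 * K.w1 / F.r⌉₊ : ℝ) with hn1
  set n2 : ℝ := (⌈2 * K.w2 / F.r⌉₊ : ℝ) with hn2
  set n3 : ℝ := (⌈4 * (2 ^ F.M * K.w1) / F.r⌉₊ : ℝ) with hn3
  set n4 : ℝ := (⌈4 * (2 ^ F.M * K.w2) / F.r⌉₊ : ℝ) with hn4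
  have k1 : F.r ≤ 2 ^ F.M * K.w1 := hl.r1.trans (by nlinarith)
  have k2 : F.r ≤ 2 ^ F.M * K.w2 := hrw2.trans (by nlinarith)
  have m1 : (2 * n1 + 1) * F.r ≤ 7 * K.w1 := by have := hl.r1; linarith
  have m2 : (2 * n2 + 1) * F.r ≤ 7 * K.w2 := by linarith
  have m3 : (2 * n3 + 1) * F.r ≤ 11 * (2 ^ F.M * K.w1) := by linarith
  have m4 : (2 * n4 + 1) * F.r ≤ 11 * (2 ^ F.M * K.w2) := by linarith
  unfold cap at h2
  rw [show (2:ℝ) = ((2:ℕ):ℝ) by norm_num] at h2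
  simp only [Real.rpow_natCast] at h2
  push_cast at h2
  have hD := h.D0p
  have p1 : 0 ≤ (2 * n1 + 1) * F.r := by positivity
  have p2 : 0 ≤ (2 * n2 + 1) * F.r := by positivity
  have p3 : 0 ≤ (2 * n3 + 1) * F.r := by positivity
  have p4 : 0 ≤ (2 * n4 + 1) * F.r := by positivity
  have h3 : F.D1 * (K.w1 * K.w2 * (K.w2 * 2 ^ F.top) ^ 2) ≤
      (((7 * K.w1) * (7 * K.w2)) * ((11 * (2 ^ F.M * K.w1)) * (11 * (2 ^ F.M * K.w2)))) *
        (F.D0 * (2 ^ F.m) ^ 2) := by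
    refine h2.trans ?_
    calc (2 * n1 + 1) * (2 * n2 + 1) * ((2 * n3 + 1) * (2 * n4 + 1)) *
          (F.D0 * (F.r * F.r * (F.r * 2 ^ F.m) ^ 2)) =
          ((((2 * n1 + 1) * F.r) * ((2 * n2 + 1) * F.r)) * (((2 * n3 + 1) * F.r) *
            ((2 * n4 + 1) * F.r))) * (F.D0 * (2 ^ F.m) ^ 2) := by ring
      _ ≤ _ := by gcongr
  have e3 : (2:ℝ) ^ F.top = 2 ^ F.M * 2 ^ F.m := by unfold Cf.top; rw [pow_add]; ring
  rw [e3] at h3
  -- divide
  have h4 : (F.D1 * K.w2) * (K.w1 * K.w2 ^ 2 * (2 ^ F.M * 2 ^ F.m) ^ 2) ≤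
      (5929 * F.D0 * K.w1) * (K.w1 * K.w2 ^ 2 * (2 ^ F.M * 2 ^ F.m) ^ 2) := by
    calc (F.D1 * K.w2) * (K.w1 * K.w2 ^ 2 * (2 ^ F.M * 2 ^ F.m) ^ 2) =
          F.D1 * (K.w1 * K.w2 * (K.w2 * (2 ^ F.M * 2 ^ F.m)) ^ 2) := by ring
      _ ≤ _ := h3
      _ = _ := by ring
  have h5 : F.D1 * K.w2 ≤ 5929 * F.D0 * K.w1 := le_of_mul_le_mul_right h4 (by positivity)
  have h6 : 5929 * F.D0 * K.w1 ≤ 5929 * F.D0 * K.w2 := by
    have := hl.w12
    gcongr
  have h7 : F.D1 ≤ 5929 * F.D0 := le_of_mul_le_mul_right (h5.trans h6) hw2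
  linarith

theorem Cf.Ok.val_two (h : F.Ok 2) : F.val ≤ 13 / F.M := by
  have hM : (1:ℝ) ≤ F.M := by exact_mod_cast h.M1
  unfold Cf.val
  rw [div_le_div_iff_of_pos_right (by linarith)]
  have hD := h.D0p'
  have h1 : F.D1 * F.nu ^ 2 / (4 ^ F.M * F.D0) ≤ 8192 := by
    rw [div_le_iff₀ (by positivity)]
    have h2 : F.nu ^ 2 ≤ 4 ^ F.M := by
      have := pow_le_pow_left₀ h.nup.le h.nu_le 2
      refine this.trans (le_of_eq ?_)
      rw [← pow_mul, mul_comm, pow_mul]; norm_num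
    calc F.D1 * F.nu ^ 2 ≤ (8192 * F.D0) * 4 ^ F.M := by
          have := h.D1_le_two
          gcongr
      _ = 8192 * (4 ^ F.M * F.D0) := by ring
  have hpos : 0 < F.D1 * F.nu ^ 2 / (4 ^ F.M * F.D0) := by
    have := h.D1p; have := h.nup; positivity
  have h3 := Real.logb_le_logb_of_le one_lt_two hpos h1
  refine h3.trans (le_of_eq ?_)
  have e1 : (8192:ℝ) = 2 ^ 13 := by norm_num
  rw [e1, Real.logb_pow, Real.logb_self_eq_one one_lt_two]
  norm_num

end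

end Crest.Agent.R138.K294
end

-- ▼ part R138/En1_294
section

/-!
# R138: the enemy (helper294): `¬ KMseq` gives configurations `Cf` with value `≥ b0 - q`.
-/

set_option autoImplicit false
set_option linter.unusedVariables false

open Finset

namespace Crest.Agent.R138.K294

open Crest.Agent.R138.Flag51
open Crest.Agent.R138.Gr63
open Crest.Agent.R138.GrW294

noncomputable section

/-- the real line of a grid line, in the coordinates `z' = (z + 2) / 4`, `x' = x / 64` -/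
def rl (N : ℕ) (l : GLine) : Ln := ((1 / 64 : ℝ) • (gp N l - (2:ℝ) • gv N l), (1 / 16 : ℝ) • gv N l)

/-- the new height of the grid height `j` -/
def rh (N : ℕ) (j : ℤ) : ℝ := ((j:ℝ) / N + 2) / 4

theorem pos_rl (N : ℕ) (l : GLine) (z : ℝ) :
    pos (rl N l) ((z + 2) / 4) = (1 / 64 : ℝ) • (gp N l + z • gv N l) := by
  unfold pos rl
  ext i
  simp only [PiLp.add_apply, PiLp.smul_apply, PiLp.sub_apply, smul_eq_mul]
  ring

theorem rl_inj {N : ℕ} (hN : 1 ≤ N) {l l' : GLine} (h : rl N l = rl N l') : l = l' := by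
  have hN0 : (N : ℝ) ≠ 0 := by
    have : (0:ℝ) < N := by exact_mod_cast hN
    exact this.ne'
  unfold rl at h
  rw [Prod.mk.injEq] at h
  obtain ⟨h1, h2⟩ := h
  have e20 := congrFun (congrArg WithLp.ofLp h2) 0
  have e21 := congrFun (congrArg WithLp.ofLp h2) 1
  have e10 := congrFun (congrArg WithLp.ofLp h1) 0
  have e11 := congrFun (congrArg WithLp.ofLp h1) 1
  simp only [gp, gv, PiLp.smul_apply, PiLp.sub_apply, smul_eq_mul, Matrix.cons_val_zero,
    Matrix.cons_val_one] at e20 e21 e10 e11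
  have f20 : (l.2.1 : ℝ) = l'.2.1 := by
    have : (l.2.1 : ℝ) / N = l'.2.1 / N := by linarith
    field_simp at this; exact this
  have f21 : (l.2.2 : ℝ) = l'.2.2 := by
    have : (l.2.2 : ℝ) / N = l'.2.2 / N := by linarith
    field_simp at this; exact this
  have f10 : (l.1.1 : ℝ) = l'.1.1 := by
    have : (l.1.1 : ℝ) / N = l'.1.1 / N := by linarith
    field_simp at this; exact this
  have f11 : (l.1.2 : ℝ) = l'.1.2 := by
    have : (l.1.2 : ℝ) / N = l'.1.2 / N := by linarith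
    field_simp at this; exact this
  have g20 : l.2.1 = l'.2.1 := by exact_mod_cast f20
  have g21 : l.2.2 = l'.2.2 := by exact_mod_cast f21
  have g10 : l.1.1 = l'.1.1 := by exact_mod_cast f10
  have g11 : l.1.2 = l'.1.2 := by exact_mod_cast f11
  exact Prod.ext (Prod.ext g10 g11) (Prod.ext g20 g21)

theorem rh_mem {N : ℕ} (hN : 1 ≤ N) {j : ℤ} (hj : |j| ≤ (N : ℤ)) :
    1 / 4 ≤ rh N j ∧ rh N j ≤ 3 / 4 := by
  have hN0 : (0:ℝ) < N := by exact_mod_cast hN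
  have h1 : |(j:ℝ)| ≤ N := by exact_mod_cast hj
  rw [abs_le] at h1
  have h2 : -1 ≤ (j:ℝ) / N := by rw [le_div_iff₀ hN0]; linarith [h1.1]
  have h3 : (j:ℝ) / N ≤ 1 := by rw [div_le_one hN0]; exact h1.2
  unfold rh
  constructor <;> linarith

theorem zc0 {z : ℝ} (h : 0 ≤ z) (h1 : z < 1) : zc 0 z = 0 := by
  unfold zc
  rw [pow_zero, one_mul, Int.floor_eq_zero_iff]
  exact ⟨h, h1⟩

theorem zc_rh_inj {N M : ℕ} (hN : 1 ≤ N) (hM : 4 * N ≤ 2 ^ M) {j j' : ℤ}
    (h : zc M (rh N j) = zc M (rh N j')) : j = j' := by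
  have hN0 : (0:ℝ) < N := by exact_mod_cast hN
  have h1 := Int.abs_sub_lt_one_of_floor_eq_floor h
  have h2 : (2:ℝ) ^ M * rh N j - 2 ^ M * rh N j' = (2 ^ M / (4 * N)) * ((j:ℝ) - j') := by
    unfold rh; field_simp; ring
  have h3 : (1:ℝ) ≤ 2 ^ M / (4 * N) := by
    rw [le_div_iff₀ (by positivity)]
    have : ((4 * N : ℕ) : ℝ) ≤ ((2 ^ M : ℕ) : ℝ) := by exact_mod_cast hM
    push_cast at this; linarith
  rw [h2, abs_mul, abs_of_pos (by linarith)] at h1
  have h4 : |(j:ℝ) - j'| < 1 := by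
    have : |(j:ℝ) - j'| ≤ 2 ^ M / (4 * N) * |(j:ℝ) - j'| :=
      le_mul_of_one_le_left (abs_nonneg _) h3
    linarith
  have h5 : |j - j'| < 1 := by exact_mod_cast h4
  have := Int.abs_lt_one_iff.1 h5
  omega

theorem dt_le {x e : E2} {a : ℝ} (he : dt e e = 1) (h0 : |x 0| ≤ a) (h1 : |x 1| ≤ a) :
    |dt x e| ≤ 2 * a := by
  have ha : 0 ≤ a := (abs_nonneg _).trans h0
  have he0 : |e 0| ≤ 1 := by
    rw [← abs_one, ← sq_le_sq]; simp only [dt] at he; nlinarith [sq_nonneg (e 1)]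
  have he1 : |e 1| ≤ 1 := by
    rw [← abs_one, ← sq_le_sq]; simp only [dt] at he; nlinarith [sq_nonneg (e 0)]
  unfold dt
  calc |x 0 * e 0 + x 1 * e 1| ≤ |x 0 * e 0| + |x 1 * e 1| := abs_add_le _ _
    _ = |x 0| * |e 0| + |x 1| * |e 1| := by rw [abs_mul, abs_mul]
    _ ≤ a * 1 + a * 1 := by gcongr
    _ = 2 * a := by ring

theorem cr_le {x e : E2} {a : ℝ} (he : dt e e = 1) (h0 : |x 0| ≤ a) (h1 : |x 1| ≤ a) :
    |cr e x| ≤ 2 * a := by
  rw [← dt_rt]
  exact dt_le (rt_unit he) h0 h1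

/-- two incidences in the same grid cell: the lines are close over the cell of level `M` -/
theorem close_of_key {N M : ℕ} (hN : 1 ≤ N) (hM : 4 * N ≤ 2 ^ M) (hM' : 2 ^ M ≤ 8 * N)
    {x y : GLine × ℤ} (hx : Bd N x.1) (hy : Bd N y.1) (h : key N x = key N y) {e : E2}
    (he : dt e e = 1) :
    InPlank (rl N x.1) (rl N y.1) e (1 / 2 ^ M) (1 / 2 ^ M) (zm M (zc M (rh N y.2))) (zr M) := by
  have hN0 : (0:ℝ) < N := by exact_mod_cast hN
  have hMr : (4:ℝ) * N ≤ 2 ^ M := by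
    have : ((4 * N : ℕ) : ℝ) ≤ ((2 ^ M : ℕ) : ℝ) := by exact_mod_cast hM
    push_cast at this; exact this
  have hMr' : (2:ℝ) ^ M ≤ 8 * N := by
    have : ((2 ^ M : ℕ) : ℝ) ≤ ((8 * N : ℕ) : ℝ) := by exact_mod_cast hM'
    push_cast at this; exact this
  have hp : (0:ℝ) < 2 ^ M := by positivity
  unfold key at h
  rw [Prod.mk.injEq] at h
  obtain ⟨h1, h2⟩ := h
  rw [← h2] at h1 ⊢
  set j := x.2 with hj
  unfold cell at h1
  rw [Prod.mk.injEq] at h1
  obtain ⟨ha, hb⟩ := h1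
  have ha' := (Int.abs_sub_lt_one_of_floor_eq_floor ha).le
  have hb' := (Int.abs_sub_lt_one_of_floor_eq_floor hb).le
  obtain ⟨-, -, bx1, bx2⟩ := hx
  obtain ⟨-, -, by1, by2⟩ := hy
  have bx1' : |(x.1.2.1 : ℝ)| ≤ N := by exact_mod_cast bx1
  have bx2' : |(x.1.2.2 : ℝ)| ≤ N := by exact_mod_cast bx2
  have by1' : |(y.1.2.1 : ℝ)| ≤ N := by exact_mod_cast by1
  have by2' : |(y.1.2.2 : ℝ)| ≤ N := by exact_mod_cast by2
  intro z hz
  -- distance of heights
  have hzj : |z - rh N j| ≤ 1 / 2 ^ M := by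
    have e1 := abs_sub_zm M (rh N j)
    have e2 : |z - rh N j| ≤ |z - zm M (zc M (rh N j))| + |rh N j - zm M (zc M (rh N j))| := by
      have := abs_sub_le z (zm M (zc M (rh N j))) (rh N j)
      rwa [abs_sub_comm (zm M (zc M (rh N j))) (rh N j)] at this
    have := two_zr M
    linarith
  set w : ℝ := 4 * z - 2 with hw
  have hzw : z = (w + 2) / 4 := by rw [hw]; ring
  have hwj : |w - (j:ℝ) / N| ≤ 4 / 2 ^ M := by
    have : w - (j:ℝ) / N = 4 * (z - rh N j) := by rw [hw]; unfold rh; ring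
    rw [this, abs_mul, abs_of_pos (by norm_num : (0:ℝ) < 4)]
    calc 4 * |z - rh N j| ≤ 4 * (1 / 2 ^ M) := by gcongr
      _ = _ := by ring
  have hwj' : |w - (j:ℝ) / N| ≤ 1 / N := by
    refine hwj.trans ?_
    rw [div_le_div_iff₀ hp hN0]; linarith
  -- coordinates
  have key1 : ∀ {A A' C C' : ℝ}, |(A + C * (j:ℝ) / N) - (A' + C' * (j:ℝ) / N)| ≤ 1 → |C| ≤ N →
      |C'| ≤ N → |(1 / 64 : ℝ) * ((A / N + w * (C / N)) - (A' / N + w * (C' / N)))| ≤
        1 / 2 / 2 ^ M := by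
    intro A A' C C' hA hC hC'
    have e1 : (A / N + w * (C / N)) - (A' / N + w * (C' / N)) =
        (1 / N) * ((A + C * (j:ℝ) / N) - (A' + C' * (j:ℝ) / N)) +
        (w - (j:ℝ) / N) * ((C - C') / N) := by field_simp; ring
    have e2 : |(C - C') / N| ≤ 2 := by
      rw [abs_div, abs_of_pos hN0, div_le_iff₀ hN0]
      calc |C - C'| ≤ |C| + |C'| := abs_sub _ _
        _ ≤ 2 * N := by linarith
    have e3 : |(A / N + w * (C / N)) - (A' / N + w * (C' / N))| ≤ 3 / N := by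
      rw [e1]
      calc _ ≤ |(1 / (N:ℝ)) * ((A + C * (j:ℝ) / N) - (A' + C' * (j:ℝ) / N))| +
            |(w - (j:ℝ) / N) * ((C - C') / N)| := abs_add_le _ _
        _ = (1 / N) * |(A + C * (j:ℝ) / N) - (A' + C' * (j:ℝ) / N)| +
            |w - (j:ℝ) / N| * |(C - C') / N| := by
          rw [abs_mul, abs_mul, abs_of_pos (by positivity : (0:ℝ) < 1 / N)]
        _ ≤ (1 / N) * 1 + (1 / N) * 2 := by gcongr
        _ = 3 / N := by ring
    rw [abs_mul, abs_of_pos (by norm_num : (0:ℝ) < 1 / 64)]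
    calc 1 / 64 * |(A / N + w * (C / N)) - (A' / N + w * (C' / N))| ≤ 1 / 64 * (3 / N) := by
          gcongr
      _ ≤ 1 / 2 / 2 ^ M := by
        rw [div_div, ← div_div, div_mul_div_comm, one_mul]
        rw [div_div, div_le_div_iff₀ (by positivity) (by positivity)]
        nlinarith
  have c0 : |(pos (rl N x.1) z - pos (rl N y.1) z) 0| ≤ 1 / 2 / 2 ^ M := by
    rw [hzw, pos_rl, pos_rl]
    have := key1 (A := (x.1.1.1 : ℝ)) (A' := (y.1.1.1 : ℝ)) (C := (x.1.2.1 : ℝ))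
      (C' := (y.1.2.1 : ℝ)) ha' bx1' by1'
    simp only [PiLp.sub_apply, PiLp.smul_apply, PiLp.add_apply, smul_eq_mul, gp, gv,
      Matrix.cons_val_zero] at *
    rw [← mul_sub]; exact this
  have c1 : |(pos (rl N x.1) z - pos (rl N y.1) z) 1| ≤ 1 / 2 / 2 ^ M := by
    rw [hzw, pos_rl, pos_rl]
    have := key1 (A := (x.1.1.2 : ℝ)) (A' := (y.1.1.2 : ℝ)) (C := (x.1.2.2 : ℝ))
      (C' := (y.1.2.2 : ℝ)) hb' bx2' by2'
    simp only [PiLp.sub_apply, PiLp.smul_apply, PiLp.add_apply, smul_eq_mul, gp, gv,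
      Matrix.cons_val_one, Matrix.cons_val] at *
    rw [← mul_sub]; exact this
  have e1 := dt_le he c0 c1
  have e2 := cr_le he c0 c1
  have e3 : 2 * ((1:ℝ) / 2 / 2 ^ M) = 1 / 2 ^ M := by ring
  rw [e3] at e1 e2
  exact ⟨e1, e2⟩

/-- the orthonormal basis `(e, rt e)` -/
theorem exists_basis {e : E2} (he : dt e e = 1) : ∃ b : OrthonormalBasis (Fin 2) ℝ E2,
    (∀ x : E2, inner ℝ x (b 0) = dt x e) ∧ (∀ x : E2, inner ℝ x (b 1) = cr e x) := by
  have hin : ∀ x y : E2, inner ℝ x y = dt x y := by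
    intro x y
    simp [dt, PiLp.inner_apply, Fin.sum_univ_two]
    ring
  have hon : Orthonormal ℝ ![e, rt e] := by
    rw [orthonormal_iff_ite]
    intro i j
    fin_cases i <;> fin_cases j
    · show inner ℝ e e = _
      rw [hin]; simpa using he
    · show inner ℝ e (rt e) = _
      rw [hin, dt_rt]; simp only [cr]; simp; ring
    · show inner ℝ (rt e) e = _
      rw [real_inner_comm, hin, dt_rt]; simp only [cr]; simp; ring
    · show inner ℝ (rt e) (rt e) = _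
      rw [hin]; simpa using rt_unit he
  have hc : Fintype.card (Fin 2) = Module.finrank ℝ E2 := by simp
  set b0 : Module.Basis (Fin 2) ℝ E2 := basisOfOrthonormalOfCardEqFinrank hon hc with hb0
  have hb : (b0 : Fin 2 → E2) = ![e, rt e] := coe_basisOfOrthonormalOfCardEqFinrank hon hc
  refine ⟨b0.toOrthonormalBasis (by rw [hb]; exact hon), fun x => ?_, fun x => ?_⟩
  · rw [Module.Basis.coe_toOrthonormalBasis, hb]
    show inner ℝ x e = _
    rw [hin]
  · rw [Module.Basis.coe_toOrthonormalBasis, hb]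
    show inner ℝ x (rt e) = _
    rw [hin, dt_rt]

open Classical in
/-- upper density at level `0` -/
theorem dens_up {N M : ℕ} (hN : 1 ≤ N) (hM' : 2 ^ M ≤ 8 * N) {s : Finset GLine} {Δ : ℝ}
    (hΔ : 0 ≤ Δ) (hd : Dens N s Δ) (l0 : Ln) {e : E2} (he : dt e e = 1) {w1 w2 : ℝ}
    (h1 : 1 / 2 ^ M ≤ w1) (h12 : w1 ≤ w2) (h2 : w2 ≤ 1) :
    ((s.filter fun l => InPlank (rl N l) l0 e w1 w2 (1 / 2) (1 / 2)).card : ℝ) ≤
      129 ^ 4 * (64 * Δ * (w1 * w2) * (N : ℝ) ^ 2) := by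
  have hN0 : (0:ℝ) < N := by exact_mod_cast hN
  have hp : (0:ℝ) < 2 ^ M := by positivity
  have hMr' : (2:ℝ) ^ M ≤ 8 * N := by
    have : ((2 ^ M : ℕ) : ℝ) ≤ ((8 * N : ℕ) : ℝ) := by exact_mod_cast hM'
    push_cast at this; exact this
  have hw1 : 0 < w1 := lt_of_lt_of_le (by positivity) h1
  have hw2 : 0 < w2 := hw1.trans_le h12
  have h8 : 1 / (N:ℝ) ≤ 8 * w1 := by
    have : 1 / (N:ℝ) ≤ 8 * (1 / 2 ^ M) := by
      rw [mul_one_div, div_le_div_iff₀ hN0 hp]; linarith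
    linarith
  obtain ⟨b, hb0, hb1⟩ := exists_basis he
  have hn : ((64 : ℕ) : ℝ) = 64 := by norm_num
  have hcov := cover (s.filter fun l => InPlank (rl N l) l0 e w1 w2 (1 / 2) (1 / 2)) (rl N)
    (e := e) (w1 := w1 / 64) (w2 := w2 / 64) (z0 := 1 / 2) (ρ := 1 / 2) (by positivity)
    (by positivity) (by norm_num) (n := 64) (l := l0) (fun t ht => by
      rw [mem_filter] at ht
      have e1 : ((64 : ℕ) : ℝ) * (w1 / 64) = w1 := by rw [hn]; ring
      have e2 : ((64 : ℕ) : ℝ) * (w2 / 64) = w2 := by rw [hn]; ring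
      rw [e1, e2]; exact ht.2) (A := 64 * Δ * (w1 * w2) * (N : ℝ) ^ 2) (by positivity)
    (fun t0 ht0 => by
      -- widths
      set w : Fin 2 → ℝ := ![max w1 (1 / N), max w2 (1 / N)] with hw
      have hN1 : 1 / (N:ℝ) ≤ 1 := by
        rw [div_le_one hN0]; exact_mod_cast hN
      have hwb : ∀ i, 1 / (N : ℝ) ≤ w i ∧ w i ≤ 1 := by
        intro i
        fin_cases i
        · exact ⟨le_max_right _ _, max_le (h12.trans h2) hN1⟩
        · exact ⟨le_max_right _ _, max_le h2 hN1⟩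
      have h3 := hd b (gp N t0) (gv N t0) w hwb
      refine le_trans (Nat.cast_le.2 (card_le_card fun t ht => ?_)) (h3.trans ?_)
      · rw [mem_filter] at ht ⊢
        refine ⟨(mem_filter.1 ht.1).1, fun z hz i => ?_⟩
        have hz' : |(z + 2) / 4 - 1 / 2| ≤ 1 / 2 := by
          rw [abs_le] at hz ⊢; constructor <;> linarith [hz.1, hz.2]
        obtain ⟨a1, a2⟩ := ht.2 _ hz'
        rw [pos_rl, pos_rl, ← smul_sub] at a1 a2
        have e3 : gp N t - gp N t0 + z • (gv N t - gv N t0) =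
            (gp N t + z • gv N t) - (gp N t0 + z • gv N t0) := by
          rw [smul_sub]; abel
        rw [e3]
        have sc1 : ∀ x : E2, dt ((1 / 64 : ℝ) • x) e = 1 / 64 * dt x e := by
          intro x; simp only [dt, PiLp.smul_apply, smul_eq_mul]; ring
        have sc2 : ∀ x : E2, cr e ((1 / 64 : ℝ) • x) = 1 / 64 * cr e x := by
          intro x; simp only [cr, PiLp.smul_apply, smul_eq_mul]; ring
        rw [sc1, abs_mul, abs_of_pos (by norm_num : (0:ℝ) < 1 / 64)] at a1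
        rw [sc2, abs_mul, abs_of_pos (by norm_num : (0:ℝ) < 1 / 64)] at a2
        fin_cases i
        · show |inner ℝ _ (b 0)| ≤ max w1 (1 / N)
          rw [hb0]
          exact le_trans (by linarith) (le_max_left _ _)
        · show |inner ℝ _ (b 1)| ≤ max w2 (1 / N)
          rw [hb1]
          exact le_trans (by linarith) (le_max_left _ _)
      · have f1 : w 0 ≤ 8 * w1 := max_le (by linarith) h8
        have f2 : w 1 ≤ 8 * w2 := max_le (by linarith) (h8.trans (by linarith))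
        have f3 : 0 ≤ w 0 := hw1.le.trans (le_max_left _ _)
        have f4 : 0 ≤ w 1 := hw2.le.trans (le_max_left _ _)
        calc Δ * (w 0 * w 1) * (N:ℝ) ^ 2 ≤ Δ * ((8 * w1) * (8 * w2)) * (N:ℝ) ^ 2 := by gcongr
          _ = 64 * Δ * (w1 * w2) * (N:ℝ) ^ 2 := by ring)
  rw [hn] at hcov
  have : (2 * (64:ℝ) + 1) = 129 := by norm_num
  rw [this] at hcov
  exact hcov

open Classical in
/-- **configuration of a grid family** -/
theorem exists_cf {N : ℕ} (hN : 2 ≤ N) (s : Finset GLine) (I : Finset (GLine × ℤ)) (Δ μ ν : ℝ)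
    (hI : I.Nonempty) (hΔ : 0 < Δ) (hμ : 0 < μ) (hν : 0 < ν) (hBd : ∀ l ∈ s, Bd N l)
    (hmem : ∀ x ∈ I, x.1 ∈ s ∧ |x.2| ≤ (N : ℤ))
    (hown : ∀ l ∈ s, ν ≤ ((I.filter (fun x => x.1 = l)).card : ℝ))
    (hmul : ∀ x ∈ I, μ ≤ ((I.filter (fun y => key N y = key N x)).card : ℝ))
    (hd : Dens N s Δ) {q : ℝ} (hq : 0 ≤ q) :
    ∃ F : Cf, F.Ok q ∧ F.m = 0 ∧ 4 * N ≤ 2 ^ F.M ∧ 2 ^ F.M ≤ 8 * N ∧ F.r = 1 / 2 ^ F.M ∧
      F.I.card = I.card ∧ F.D1 = μ * 4 ^ F.M ∧ F.nu = ν ∧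
      F.D0 = 129 ^ 4 * (64 * Δ * (N : ℝ) ^ 2) * (2 ^ F.M) ^ q := by
  have hN1 : 1 ≤ N := by omega
  have hN0 : (0:ℝ) < N := by exact_mod_cast hN1
  set M : ℕ := Nat.clog 2 (4 * N) with hMdef
  have hM : 4 * N ≤ 2 ^ M := Nat.le_pow_clog one_lt_two _
  have hM1 : 1 ≤ M := by
    by_contra h
    have : M = 0 := by omega
    rw [this] at hM; omega
  have hM' : 2 ^ M ≤ 8 * N := by
    have h1 : 2 ^ (M - 1) < 4 * N := Nat.pow_pred_clog_lt_self one_lt_two (by omega)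
    have h2 : 2 ^ M = 2 * 2 ^ (M - 1) := by
      rw [← pow_succ']; congr 1; omega
    omega
  have hp : (0:ℝ) < 2 ^ M := by positivity
  -- the map on incidences
  set φ : GLine × ℤ → Ln × ℝ := fun x => (rl N x.1, rh N x.2) with hφ
  have hφi : Function.Injective φ := by
    intro x y h
    simp only [hφ, Prod.mk.injEq] at h
    have h1 := rl_inj hN1 h.1
    have h2 : x.2 = y.2 := zc_rh_inj hN1 hM (by rw [h.2])
    exact Prod.ext h1 h2
  have hobi : ∀ x y : GLine × ℤ, ob M (φ x) = ob M (φ y) → x = y := by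
    intro x y h
    simp only [ob, hφ, Prod.mk.injEq] at h
    exact Prod.ext (rl_inj hN1 h.1) (zc_rh_inj hN1 hM h.2)
  -- classes
  set cl : Ln × ℤ → ℕ := fun o => if h : ∃ x : GLine × ℤ, ob M (φ x) = o then
    Encodable.encode (key N h.choose) else 0 with hcl
  have hcl' : ∀ x, cl (ob M (φ x)) = Encodable.encode (key N x) := by
    intro x
    have hex : ∃ x' : GLine × ℤ, ob M (φ x') = ob M (φ x) := ⟨x, rfl⟩
    simp only [hcl]
    rw [dif_pos hex]
    rw [hobi _ _ hex.choose_spec]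
  obtain ⟨x0, hx0⟩ := hI
  set e : E2 := !₂[1, 0] with he0
  have he : dt e e = 1 := by simp [dt, he0]
  set K : ℕ → Plk := fun c => if h : ∃ x ∈ I, Encodable.encode (key N x) = c then
    ⟨zc M (rh N h.choose.2), rl N h.choose.1, e, 1 / 2 ^ M, 1 / 2 ^ M⟩
    else ⟨0, rl N x0.1, e, 1 / 2 ^ M, 1 / 2 ^ M⟩ with hK
  have hK' : ∀ x ∈ I, ∃ y ∈ I, key N y = key N x ∧ K (cl (ob M (φ x))) =
      ⟨zc M (rh N y.2), rl N y.1, e, 1 / 2 ^ M, 1 / 2 ^ M⟩ := by
    intro x hx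
    rw [hcl']
    have hex : ∃ y ∈ I, Encodable.encode (key N y) = Encodable.encode (key N x) := ⟨x, hx, rfl⟩
    refine ⟨hex.choose, hex.choose_spec.1, Encodable.encode_injective hex.choose_spec.2, ?_⟩
    simp only [hK]
    rw [dif_pos hex]
  -- the configuration
  refine ⟨⟨0, M, 1 / 2 ^ M, I.image φ, cl, K, 129 ^ 4 * (64 * Δ * (N : ℝ) ^ 2) * (2 ^ M) ^ q,
    μ * 4 ^ M, ν⟩, ?_, rfl, hM, hM', rfl, card_image_of_injective _ hφi, rfl, rfl, rfl⟩
  have htop : (0 + M) = M := by omega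
  have hz0 : ∀ x ∈ I, zc 0 (rh N x.2) = 0 := by
    intro x hx
    obtain ⟨a1, a2⟩ := rh_mem hN1 (hmem x hx).2
    exact zc0 (by linarith) (by linarith)
  constructor
  · exact hM1
  · show (0:ℝ) < 1 / 2 ^ M; positivity
  · show (1:ℝ) / 2 ^ M ≤ 1 / 2 ^ (0 + M); rw [htop]
  · exact ⟨φ x0, mem_image_of_mem _ hx0⟩
  · intro x hx y hy
    obtain ⟨x', hx', rfl⟩ := mem_image.1 hx
    obtain ⟨y', hy', rfl⟩ := mem_image.1 hy
    show zc 0 (rh N x'.2) = zc 0 (rh N y'.2)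
    rw [hz0 x' hx', hz0 y' hy']
  · show 0 < μ * 4 ^ M; positivity
  · exact hν
  · intro x hx
    obtain ⟨x', hx', rfl⟩ := mem_image.1 hx
    show Legal (0 + M) (1 / 2 ^ M) (K (cl (ob (0 + M) (φ x'))))
    rw [htop]
    obtain ⟨y, hy, hxy, hKy⟩ := hK' x' hx'
    rw [hKy]
    exact ⟨he, le_rfl, le_rfl, le_rfl⟩
  · intro x hx
    obtain ⟨x', hx', rfl⟩ := mem_image.1 hx
    show InK (0 + M) (K (cl (ob (0 + M) (φ x')))) (ob (0 + M) (φ x'))
    rw [htop]
    obtain ⟨y, hy, hxy, hKy⟩ := hK' x' hx'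
    rw [hKy]
    refine ⟨?_, ?_⟩
    · show zc M (rh N x'.2) = zc M (rh N y.2)
      have : x'.2 = y.2 := by
        have := congrArg Prod.snd hxy; simpa [key] using this.symm
      rw [this]
    · exact close_of_key hN1 hM hM' (hBd _ (hmem x' hx').1) (hBd _ (hmem y hy).1) hxy.symm he
  · intro x hx
    obtain ⟨x', hx', rfl⟩ := mem_image.1 hx
    show μ * 4 ^ M * cap q (0 + M) (K (cl (ob (0 + M) (φ x')))) ≤
      ((((I.image φ).image (ob (0 + M))).filter fun o => cl o = cl (ob (0 + M) (φ x'))).card : ℝ)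
    rw [htop]
    obtain ⟨y, hy, hxy, hKy⟩ := hK' x' hx'
    rw [hKy, hcl']
    have e1 : cap q M ⟨zc M (rh N y.2), rl N y.1, e, 1 / 2 ^ M, 1 / 2 ^ M⟩ = 1 / 4 ^ M := by
      unfold cap
      show (1:ℝ) / 2 ^ M * (1 / 2 ^ M) * (1 / 2 ^ M * 2 ^ M) ^ q = 1 / 4 ^ M
      have : (1:ℝ) / 2 ^ M * 2 ^ M = 1 := by field_simp
      rw [this, Real.one_rpow, mul_one, show (4:ℝ) = 2 * 2 by norm_num, mul_pow]
      field_simp
    rw [e1]
    have e2 : μ * 4 ^ M * (1 / 4 ^ M) = μ := by field_simp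
    rw [e2]
    refine (hmul x' hx').trans (Nat.cast_le.2 ?_)
    refine card_le_card_of_injOn (fun y => ob M (φ y)) (fun y hy => ?_)
      (fun a _ b _ h => hobi a b h)
    rw [Finset.mem_coe, mem_filter] at hy
    rw [Finset.mem_coe, mem_filter]
    refine ⟨mem_image_of_mem _ (mem_image_of_mem _ hy.1), ?_⟩
    rw [hcl', hy.2]
  · intro x hx
    obtain ⟨x', hx', rfl⟩ := mem_image.1 hx
    show ν ≤ (ownc 0 (0 + M) (I.image φ) (φ x') : ℝ)
    rw [htop]
    refine (hown x'.1 (hmem x' hx').1).trans (Nat.cast_le.2 ?_)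
    unfold ownc
    refine card_le_card_of_injOn (fun y => ob M (φ y)) (fun y hy => ?_)
      (fun a _ b _ h => hobi a b h)
    rw [Finset.mem_coe, mem_filter] at hy
    rw [Finset.mem_coe]
    refine mem_image_of_mem _ ?_
    rw [mem_filter]
    refine ⟨mem_image_of_mem _ hy.1, ?_⟩
    show (rl N y.1, zc 0 (rh N y.2)) = (rl N x'.1, zc 0 (rh N x'.2))
    rw [hy.2, hz0 y hy.1, hz0 x' hx']
  · intro P hP
    show ((objs 0 (I.image φ) P).card : ℝ) ≤
      129 ^ 4 * (64 * Δ * (N : ℝ) ^ 2) * (2 ^ M) ^ q * cap q 0 P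
    have hr : (1:ℝ) / 2 ^ M ≤ P.w1 := hP.r1
    have hw2 : P.w2 ≤ 1 := by have := hP.w2; simpa using this
    have hw1 : 0 < P.w1 := lt_of_lt_of_le (by positivity) hr
    have hw20 : 0 < P.w2 := hw1.trans_le hP.w12
    have hcard : (objs 0 (I.image φ) P).card ≤
        (s.filter fun l => InPlank (rl N l) P.l P.e P.w1 P.w2 (1 / 2) (1 / 2)).card := by
      refine le_trans (card_le_card (t := (s.filter fun l =>
        InPlank (rl N l) P.l P.e P.w1 P.w2 (1 / 2) (1 / 2)).image fun l => (rl N l, (0:ℤ))) ?_)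
        card_image_le
      intro o ho
      unfold objs at ho
      rw [mem_filter, mem_image] at ho
      obtain ⟨⟨x, hx, rfl⟩, hoK⟩ := ho
      obtain ⟨x', hx', rfl⟩ := mem_image.1 hx
      rw [mem_image]
      have hz := hz0 x' hx'
      obtain ⟨g1, g2⟩ := hoK
      have g1' : (0:ℤ) = P.j := by
        rw [← g1]; exact hz.symm
      refine ⟨x'.1, mem_filter.2 ⟨(hmem x' hx').1, ?_⟩, ?_⟩
      · have e1 : zm 0 P.j = 1 / 2 := by rw [← g1']; unfold zm; norm_num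
        have e2 : zr 0 = 1 / 2 := by unfold zr; norm_num
        rw [e1, e2] at g2
        exact g2
      · show (rl N x'.1, (0:ℤ)) = (rl N x'.1, zc 0 (rh N x'.2))
        rw [hz]
    have h1 := dens_up hN1 hM' hΔ.le hd P.l hP.unit hr hP.w12 hw2
    refine (Nat.cast_le.2 hcard).trans (h1.trans ?_)
    have h2 : 1 ≤ ((2:ℝ) ^ M) ^ q * (P.w2 * 2 ^ 0) ^ q := by
      rw [pow_zero, mul_one, ← Real.mul_rpow hp.le hw20.le]
      refine Real.one_le_rpow ?_ hq
      have : (1:ℝ) / 2 ^ M ≤ P.w2 := hr.trans hP.w12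
      rw [div_le_iff₀ hp] at this
      linarith
    unfold cap
    have h3 : 0 ≤ 129 ^ 4 * (64 * Δ * (P.w1 * P.w2) * (N:ℝ) ^ 2) := by positivity
    calc 129 ^ 4 * (64 * Δ * (P.w1 * P.w2) * (N:ℝ) ^ 2)
        ≤ 129 ^ 4 * (64 * Δ * (P.w1 * P.w2) * (N:ℝ) ^ 2) *
          (((2:ℝ) ^ M) ^ q * (P.w2 * 2 ^ 0) ^ q) := le_mul_of_one_le_right h3 h2
      _ = _ := by ring

open Filter in
open Crest.Agent.R138.Ex926 in
/-- **ENEMY**: if `KMseq` fails there are configurations of value `≥ b0 - q`, arbitrarily long,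
of polynomial size, with resolution `2^-M`, for every penalty `q ≥ 0`. -/
theorem enemy (h : ¬ KMseq) : ∃ b0 : ℝ, 0 < b0 ∧ ∀ q : ℝ, 0 ≤ q → ∀ M0 : ℕ, ∃ F : Cf, F.Ok q ∧
    M0 ≤ F.M ∧ F.m = 0 ∧ F.r = 1 / 2 ^ F.M ∧ (F.I.card : ℝ) ≤ 2 ^ (5 * F.M) ∧
    b0 - q ≤ F.val := by
  classical
  unfold KMseq at h
  push Not at h
  obtain ⟨B, N, s, I, Δ, μ, ν, hN2, hBd, hs, hI, hΔ, hμ, hν, hlBd, hmem, hown, hmul, -, -, hd,
    ε, hε, hfail⟩ := h
  refine ⟨ε / 2, by linarith, fun q hq M0 => ?_⟩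
  -- large `N`
  have hNlarge : ∀ A : ℝ, ∀ᶠ n in (U : Filter ℕ), A ≤ (N n : ℝ) := by
    intro A
    have h1 : ∀ᶠ n in (U : Filter ℕ), B.d n < 1 / (|A| + 1) :=
      B.lim0.eventually_lt_const (by positivity)
    filter_upwards [h1] with n hn
    rw [hBd n, div_lt_div_iff₀ (by have := hN2 n; positivity) (by positivity)] at hn
    have := le_abs_self A
    linarith
  set C : ℝ := 129 ^ 4 * 64 with hC
  -- threshold
  set A : ℝ := 2 ^ M0 * Real.exp ((2 * (3 * ε + Real.logb 2 C) / ε + 3)) with hA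
  have hfail' : ∀ᶠ n in (U : Filter ℕ), (N n : ℝ) ^ ε * Δ n * (N n : ℝ) ^ 2 < μ n * ν n ^ 2 :=
    hfail
  obtain ⟨n, hn1, hn2⟩ := (hfail'.and (hNlarge A)).exists
  obtain ⟨F, hF, hm, hM, hM', hr, hcard, hD1, hnu, hD0⟩ := exists_cf (hN2 n) (s n) (I n) (Δ n)
    (μ n) (ν n) (hI n) (by linarith [hΔ n]) (hμ n) (hν n) (hlBd n) (hmem n) (hown n) (hmul n)
    (hd n) hq
  have hN0 : (0:ℝ) < N n := by have := hN2 n; positivity
  have hMr : (4:ℝ) * N n ≤ 2 ^ F.M := by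
    have : ((4 * N n : ℕ) : ℝ) ≤ ((2 ^ F.M : ℕ) : ℝ) := by exact_mod_cast hM
    push_cast at this; exact this
  have hMr' : (2:ℝ) ^ F.M ≤ 8 * N n := by
    have : ((2 ^ F.M : ℕ) : ℝ) ≤ ((8 * N n : ℕ) : ℝ) := by exact_mod_cast hM'
    push_cast at this; exact this
  have hp : (0:ℝ) < 2 ^ F.M := by positivity
  have hM1 : (1:ℝ) ≤ F.M := by exact_mod_cast hF.M1
  refine ⟨F, hF, ?_, hm, hr, ?_, ?_⟩
  · -- `M0 ≤ M`
    have h1 : (2:ℝ) ^ M0 ≤ 2 ^ F.M := by
      have e1 : (1:ℝ) ≤ Real.exp ((2 * (3 * ε + Real.logb 2 C) / ε + 3)) := by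
        apply Real.one_le_exp
        have : 0 ≤ Real.logb 2 C := Real.logb_nonneg one_lt_two (by norm_num [hC])
        positivity
      have e2 : (2:ℝ) ^ M0 ≤ A := le_mul_of_one_le_right (by positivity) e1
      linarith
    exact (pow_le_pow_iff_right₀ one_lt_two).1 h1
  · -- cardinality
    rw [hcard]
    have h1 : I n ⊆ s n ×ˢ Icc (-(N n : ℤ)) (N n) := by
      intro x hx
      obtain ⟨a1, a2⟩ := hmem n x hx
      rw [mem_product, mem_Icc]
      exact ⟨a1, abs_le.1 a2⟩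
    have h2 := card_le_card h1
    rw [card_product] at h2
    have h3 := card_Icc_le (N := N n) (by have := hN2 n; omega)
    have h4 := card_le_of_Bd (N := N n) (by have := hN2 n; omega) (hlBd n)
    have h5 : ((I n).card : ℝ) ≤ (s n).card * (3 * N n) := by
      have : (I n).card ≤ (s n).card * (3 * N n) := h2.trans (Nat.mul_le_mul_left _ h3)
      exact_mod_cast this
    calc ((I n).card : ℝ) ≤ (s n).card * (3 * N n) := h5
      _ ≤ (81 * (N n : ℝ) ^ 4) * (3 * N n) := by gcongr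
      _ ≤ (4 * (N n : ℝ)) ^ 5 := by
        have : (0:ℝ) ≤ (N n : ℝ) ^ 5 := by positivity
        nlinarith
      _ ≤ (2 ^ F.M) ^ 5 := by gcongr
      _ = 2 ^ (5 * F.M) := by rw [← pow_mul]; ring_nf
  · -- value
    unfold Cf.val
    rw [hD1, hnu, hD0]
    rw [le_div_iff₀ (by linarith)]
    have hn1' : (N n : ℝ) ^ ε * Δ n * (N n : ℝ) ^ 2 < μ n * ν n ^ 2 := hn1
    have hΔ0 : 0 < Δ n := by linarith [hΔ n]
    have hμν : 0 < μ n * ν n ^ 2 := by have := hμ n; have := hν n; positivity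
    have e0 : μ n * 4 ^ F.M * ν n ^ 2 / (4 ^ F.M * (129 ^ 4 * (64 * Δ n * (N n : ℝ) ^ 2) *
        (2 ^ F.M) ^ q)) = μ n * ν n ^ 2 / (C * (Δ n * (N n : ℝ) ^ 2) * (2 ^ F.M) ^ q) := by
      rw [hC]; field_simp
    rw [e0]
    have e1 : (N n : ℝ) ^ ε / (C * (2 ^ F.M) ^ q) ≤
        μ n * ν n ^ 2 / (C * (Δ n * (N n : ℝ) ^ 2) * (2 ^ F.M) ^ q) := by
      rw [div_le_div_iff₀ (by positivity) (by positivity)]
      calc (N n : ℝ) ^ ε * (C * (Δ n * (N n : ℝ) ^ 2) * (2 ^ F.M) ^ q) =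
          ((N n : ℝ) ^ ε * Δ n * (N n : ℝ) ^ 2) * (C * (2 ^ F.M) ^ q) := by ring
        _ ≤ μ n * ν n ^ 2 * (C * (2 ^ F.M) ^ q) := by
          have : (0:ℝ) ≤ C * (2 ^ F.M) ^ q := by positivity
          exact mul_le_mul_of_nonneg_right hn1'.le this
    have e2 : Real.logb 2 ((N n : ℝ) ^ ε / (C * (2 ^ F.M) ^ q)) ≤
        Real.logb 2 (μ n * ν n ^ 2 / (C * (Δ n * (N n : ℝ) ^ 2) * (2 ^ F.M) ^ q)) :=
      Real.logb_le_logb_of_le one_lt_two (by positivity) e1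
    refine le_trans ?_ e2
    have hCpos : 0 < C := by norm_num [hC]
    have e3 : Real.logb 2 ((N n : ℝ) ^ ε / (C * (2 ^ F.M) ^ q)) =
        ε * Real.logb 2 (N n) - Real.logb 2 C - q * F.M := by
      rw [Real.logb_div (by positivity) (by positivity),
        Real.logb_mul (by positivity) (by positivity), Real.logb_rpow_eq_mul_logb_of_pos hN0,
        Real.logb_rpow_eq_mul_logb_of_pos hp, Real.logb_pow, Real.logb_self_eq_one one_lt_two]
      ring
    rw [e3]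
    -- `logb N ≥ M - 3`
    have e4 : (F.M : ℝ) - 3 ≤ Real.logb 2 (N n) := by
      have h8 : (2:ℝ) ^ (F.M : ℝ) ≤ 2 ^ ((3:ℝ) + Real.logb 2 (N n)) := by
        rw [Real.rpow_add (by norm_num), Real.rpow_logb (by norm_num) (by norm_num) hN0,
          Real.rpow_natCast]
        have : (2:ℝ) ^ (3:ℝ) = 8 := by norm_num
        rw [this]; exact hMr'
      have := (Real.rpow_le_rpow_left_iff one_lt_two).1 h8
      linarith
    -- `M` is large
    have e5 : 2 * (3 * ε + Real.logb 2 C) / ε ≤ F.M := by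
      have hz : Real.exp (2 * (3 * ε + Real.logb 2 C) / ε + 3) ≤ (2:ℝ) ^ F.M := by
        have e1 : Real.exp ((2 * (3 * ε + Real.logb 2 C) / ε + 3)) ≤ A :=
          le_mul_of_one_le_left (Real.exp_pos _).le (one_le_pow₀ (by norm_num))
        linarith
      have h2e : (2:ℝ) ^ F.M ≤ Real.exp F.M := by
        rw [← Real.exp_one_pow]
        exact pow_le_pow_left₀ (by norm_num) (by linarith [Real.add_one_le_exp (1:ℝ)]) _
      have := Real.exp_le_exp.1 (hz.trans h2e)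
      linarith
    rw [div_le_iff₀ hε] at e5
    have e6 := mul_le_mul_of_nonneg_left e4 hε.le
    clear_value C
    clear e3 e2 e1 e0 hfail hfail' hNlarge hd
    generalize Real.logb 2 (N n : ℝ) = X at *
    generalize Real.logb 2 C = Y at *
    generalize (F.M : ℝ) = m at *
    nlinarith [e5, e6]

end

end Crest.Agent.R138.K294
end

-- ▼ part R138/Jc_294
section

/-!
# R138, TEXT I (helper294): joint choice of the penalty

`joint`: if `KMseq` fails there are `q0, κ, g0 > 0` such that for all `R ≥ 1`, `C ≥ 5` there is a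
penalty `q ∈ [q0, 2 - g0 / (2R)]` and `β ≥ g0` with: `val ≤ β + κ (q - p) + o(1)` for all
penalties `p ∈ [q0, 2]` and all configurations of size `(R, C)`, and `q`-configurations with
`val ≥ β - o(1)` exist.
-/

set_option autoImplicit false
set_option linter.unusedVariables false

open Finset

namespace Crest.Agent.R138.K294

open Crest.Agent.R138.Flag51
open Crest.Agent.R138.GrW294

noncomputable section

/-- size of a configuration: resolution exponent `R`, polynomial exponent `C` -/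
structure Cf.Sz (F : Cf) (R C : ℝ) : Prop where
  res : (1 / 2 : ℝ) ^ ((F.m : ℝ) + R * F.M) ≤ F.r
  card : (F.I.card : ℝ) ≤ (2:ℝ) ^ (C * F.M)

variable {F : Cf} {R C : ℝ}

theorem Cf.Sz.resX (h : F.Sz R C) : (2:ℝ) ^ (-(R * F.M)) ≤ F.r * 2 ^ F.m := by
  have h1 := h.res
  have e1 : (1 / 2 : ℝ) ^ ((F.m : ℝ) + R * F.M) = 2 ^ (-(R * F.M)) / 2 ^ F.m := by
    rw [one_div, Real.inv_rpow (by norm_num), ← Real.rpow_neg (by norm_num), neg_add,
      Real.rpow_add (by norm_num), Real.rpow_neg (by norm_num), Real.rpow_natCast]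
    ring
  rw [e1, div_le_iff₀ (by positivity)] at h1
  exact h1

theorem logb_ge {X e : ℝ} (h : (2:ℝ) ^ e ≤ X) : e ≤ Real.logb 2 X := by
  rw [Real.le_logb_iff_rpow_le one_lt_two (lt_of_lt_of_le (by positivity) h)]
  exact h

/-- change of the penalty -/
theorem Cf.Ok.shift {p : ℝ} (h : F.Ok p) (hS : F.Sz R C) (hR : 0 ≤ R) (p' : ℝ) :
    ∃ F' : Cf, F'.Ok p' ∧ F'.Sz R C ∧ F'.m = F.m ∧ F'.M = F.M ∧ F'.r = F.r ∧ F'.I = F.I ∧
      F'.cl = F.cl ∧ F'.K = F.K ∧ F'.nu = F.nu ∧ F.val - R * |p - p'| ≤ F'.val := by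
  classical
  have hr := h.r0
  have hM : (1:ℝ) ≤ F.M := by exact_mod_cast h.M1
  have hD0 := h.D0p'
  have hD1 := h.D1p
  have hnu := h.nup
  have hX0 : 0 < F.r * 2 ^ F.m := by positivity
  have hX := logb_ge hS.resX
  have hpos : 0 < F.D1 * F.nu ^ 2 / (4 ^ F.M * F.D0) := by positivity
  rcases le_or_gt p p' with hp | hp
  · -- larger penalty
    set Z : ℝ := (F.r * 2 ^ F.m) ^ (p' - p) with hZ
    have hZ0 : 0 < Z := Real.rpow_pos_of_pos hX0 _
    refine ⟨{F with D0 := F.D0 / Z}, ⟨h.M1, h.r0, h.rle, h.ne, h.cell, h.D1p, h.nup, h.legal,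
      h.mem, ?_, h.own, ?_⟩, ⟨hS.res, hS.card⟩, rfl, rfl, rfl, rfl, rfl, rfl, rfl, ?_⟩
    · intro x hx
      refine le_trans ?_ (h.low x hx)
      show F.D1 * cap p' F.top (F.K (F.cl (ob F.top x))) ≤ _
      have hl := h.legal x hx
      have hw1 : 0 < (F.K (F.cl (ob F.top x))).w1 := hr.trans_le hl.r1
      have hw2 : 0 < (F.K (F.cl (ob F.top x))).w2 := hw1.trans_le hl.w12
      unfold cap
      have h1 : (F.K (F.cl (ob F.top x))).w2 * 2 ^ F.top ≤ 1 := by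
        have := hl.w2
        rwa [le_div_iff₀ (by positivity)] at this
      have h2 := Real.rpow_le_rpow_of_exponent_ge (by positivity) h1 hp
      gcongr
    · intro K hK
      show ((objs F.m F.I K).card : ℝ) ≤ F.D0 / Z * cap p' F.m K
      refine (h.up K hK).trans ?_
      have hw1 : 0 < K.w1 := hr.trans_le hK.r1
      have hw2 : 0 < K.w2 := hw1.trans_le hK.w12
      unfold cap
      have hy : 0 < K.w2 * 2 ^ F.m := by positivity
      have e1 : (K.w2 * 2 ^ F.m) ^ p' = (K.w2 * 2 ^ F.m) ^ p * (K.w2 * 2 ^ F.m) ^ (p' - p) := by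
        rw [← Real.rpow_add hy]; ring_nf
      have h3 : Z ≤ (K.w2 * 2 ^ F.m) ^ (p' - p) := by
        refine Real.rpow_le_rpow hX0.le ?_ (by linarith)
        have := hK.r1.trans hK.w12
        gcongr
      rw [e1, div_mul_eq_mul_div, le_div_iff₀ hZ0]
      calc F.D0 * (K.w1 * K.w2 * (K.w2 * 2 ^ F.m) ^ p) * Z ≤
            F.D0 * (K.w1 * K.w2 * (K.w2 * 2 ^ F.m) ^ p) * (K.w2 * 2 ^ F.m) ^ (p' - p) := by
            gcongr
        _ = _ := by ring
    · unfold Cf.val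
      show Real.logb 2 (F.D1 * F.nu ^ 2 / (4 ^ F.M * F.D0)) / F.M - R * |p - p'| ≤
        Real.logb 2 (F.D1 * F.nu ^ 2 / (4 ^ F.M * (F.D0 / Z))) / F.M
      have e1 : F.D1 * F.nu ^ 2 / (4 ^ F.M * (F.D0 / Z)) =
          (F.D1 * F.nu ^ 2 / (4 ^ F.M * F.D0)) * Z := by field_simp
      rw [e1, Real.logb_mul hpos.ne' hZ0.ne', add_div, hZ,
        Real.logb_rpow_eq_mul_logb_of_pos hX0]
      have h4 : (p' - p) * (-(R * F.M)) ≤ (p' - p) * Real.logb 2 (F.r * 2 ^ F.m) :=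
        mul_le_mul_of_nonneg_left hX (by linarith)
      have h5 : -(R * |p - p'|) ≤ (p' - p) * Real.logb 2 (F.r * 2 ^ F.m) / F.M := by
        rw [le_div_iff₀ (by linarith), abs_of_nonpos (by linarith)]
        linarith
      linarith
  · -- smaller penalty
    have hY0 : 0 < F.r * 2 ^ F.top := by positivity
    have hXY : F.r * 2 ^ F.m ≤ F.r * 2 ^ F.top := by
      have : (2:ℝ) ^ F.m ≤ 2 ^ F.top := pow_le_pow_right₀ one_le_two (Nat.le_add_right _ _)
      gcongr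
    have hY : -(R * F.M) ≤ Real.logb 2 (F.r * 2 ^ F.top) :=
      hX.trans (Real.logb_le_logb_of_le one_lt_two hX0 hXY)
    set Z : ℝ := (F.r * 2 ^ F.top) ^ (p - p') with hZ
    have hZ0 : 0 < Z := Real.rpow_pos_of_pos hY0 _
    refine ⟨{F with D1 := F.D1 * Z}, ⟨h.M1, h.r0, h.rle, h.ne, h.cell, by
      show 0 < F.D1 * Z; positivity, h.nup, h.legal,
      h.mem, ?_, h.own, ?_⟩, ⟨hS.res, hS.card⟩, rfl, rfl, rfl, rfl, rfl, rfl, rfl, ?_⟩
    · intro x hx
      refine le_trans ?_ (h.low x hx)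
      show F.D1 * Z * cap p' F.top (F.K (F.cl (ob F.top x))) ≤ _
      have hl := h.legal x hx
      have hw1 : 0 < (F.K (F.cl (ob F.top x))).w1 := hr.trans_le hl.r1
      have hw2 : 0 < (F.K (F.cl (ob F.top x))).w2 := hw1.trans_le hl.w12
      unfold cap
      set K := F.K (F.cl (ob F.top x)) with hK
      have hy : 0 < K.w2 * 2 ^ F.top := by positivity
      have e1 : (K.w2 * 2 ^ F.top) ^ p = (K.w2 * 2 ^ F.top) ^ p' * (K.w2 * 2 ^ F.top) ^ (p - p') := by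
        rw [← Real.rpow_add hy]; ring_nf
      have h3 : Z ≤ (K.w2 * 2 ^ F.top) ^ (p - p') := by
        refine Real.rpow_le_rpow hY0.le ?_ (by linarith)
        have := hl.r1.trans hl.w12
        gcongr
      rw [e1]
      calc F.D1 * Z * (K.w1 * K.w2 * (K.w2 * 2 ^ F.top) ^ p') =
            F.D1 * (K.w1 * K.w2 * (K.w2 * 2 ^ F.top) ^ p') * Z := by ring
        _ ≤ F.D1 * (K.w1 * K.w2 * (K.w2 * 2 ^ F.top) ^ p') * (K.w2 * 2 ^ F.top) ^ (p - p') := by
            gcongr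
        _ = _ := by ring
    · intro K hK
      show ((objs F.m F.I K).card : ℝ) ≤ F.D0 * cap p' F.m K
      refine (h.up K hK).trans ?_
      have hw1 : 0 < K.w1 := hr.trans_le hK.r1
      have hw2 : 0 < K.w2 := hw1.trans_le hK.w12
      unfold cap
      have h1 : K.w2 * 2 ^ F.m ≤ 1 := by
        have := hK.w2
        rwa [le_div_iff₀ (by positivity)] at this
      have h2 := Real.rpow_le_rpow_of_exponent_ge (by positivity) h1 hp.le
      gcongr
    · unfold Cf.val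
      show Real.logb 2 (F.D1 * F.nu ^ 2 / (4 ^ F.M * F.D0)) / F.M - R * |p - p'| ≤
        Real.logb 2 (F.D1 * Z * F.nu ^ 2 / (4 ^ F.M * F.D0)) / F.M
      have e1 : F.D1 * Z * F.nu ^ 2 / (4 ^ F.M * F.D0) =
          (F.D1 * F.nu ^ 2 / (4 ^ F.M * F.D0)) * Z := by field_simp
      rw [e1, Real.logb_mul hpos.ne' hZ0.ne', add_div, hZ,
        Real.logb_rpow_eq_mul_logb_of_pos hY0]
      have h4 : (p - p') * (-(R * F.M)) ≤ (p - p') * Real.logb 2 (F.r * 2 ^ F.top) :=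
        mul_le_mul_of_nonneg_left hY (by linarith)
      have h5 : -(R * |p - p'|) ≤ (p - p') * Real.logb 2 (F.r * 2 ^ F.top) / F.M := by
        rw [le_div_iff₀ (by linarith), abs_of_nonneg (by linarith)]
        linarith
      linarith

/-- value at a penalty `p ≤ 2` -/
theorem Cf.Ok.val_le_sub {p : ℝ} (h : F.Ok p) (hS : F.Sz R C) (hR : 0 ≤ R) (hp : p ≤ 2) :
    F.val ≤ R * (2 - p) + 13 / F.M := by
  obtain ⟨F', h', -, -, hM, -, -, -, -, -, hv⟩ := h.shift hS hR 2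
  have := h'.val_two
  rw [hM] at this
  have e : |p - 2| = 2 - p := by rw [abs_of_nonpos (by linarith)]; ring
  rw [e] at hv
  linarith

/-- **JOINT CHOICE of the penalty** (with the bound `g0 ≤ β + κ (q - 2)`) -/
theorem joint' (hK : ¬ KMseq) : ∃ q0 κ g0 : ℝ, 0 < q0 ∧ q0 ≤ 1 ∧ 0 < κ ∧ 0 < g0 ∧
    ∀ R C : ℝ, 1 ≤ R → 5 ≤ C → ∃ q β : ℝ, q0 ≤ q ∧ q ≤ 2 - g0 / R ∧ g0 ≤ β + κ * (q - 2) ∧
      (∀ η : ℝ, 0 < η → ∃ M0 : ℕ, ∀ p, q0 ≤ p → p ≤ 2 → ∀ F : Cf, F.Ok p → M0 ≤ F.M →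
        F.Sz R C → F.val ≤ β + κ * (q - p) + η) ∧
      (∀ η : ℝ, 0 < η → ∀ M0 : ℕ, ∃ F : Cf, F.Ok q ∧ M0 ≤ F.M ∧ F.Sz R C ∧ β - η ≤ F.val) := by
  classical
  obtain ⟨b0, hb0, hen⟩ := enemy hK
  set q0 : ℝ := min (b0 / 2) 1 with hq0
  have hq0p : 0 < q0 := lt_min (by linarith) one_pos
  have hq01 : q0 ≤ 1 := min_le_right _ _
  have hq0b : q0 ≤ b0 / 2 := min_le_left _ _
  set g0 : ℝ := b0 / 4 with hg0
  set κ : ℝ := b0 / 8 with hκ
  have hκ0 : 0 < κ := by positivity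
  refine ⟨q0, κ, g0, hq0p, hq01, hκ0, by positivity, fun R C hR hC => ?_⟩
  have hR0 : 0 ≤ R := by linarith
  -- the set of asymptotic values
  set V : Set ℝ := {y | ∀ M0 : ℕ, ∃ (F : Cf) (p : ℝ), q0 ≤ p ∧ p ≤ 2 ∧ F.Ok p ∧ M0 ≤ F.M ∧
    F.Sz R C ∧ y ≤ F.val + κ * p} with hV
  have hVmem : b0 / 2 + κ * q0 ∈ V := by
    intro M0
    obtain ⟨F, hF, hM, hm, hr, hc, hv⟩ := hen q0 hq0p.le M0
    have hM1 : (1:ℝ) ≤ F.M := by exact_mod_cast hF.M1
    refine ⟨F, q0, le_rfl, by linarith, hF, hM, ⟨?_, ?_⟩, by linarith⟩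
    · rw [hm, hr, Nat.cast_zero, zero_add, ← one_div_pow, ← Real.rpow_natCast]
      refine Real.rpow_le_rpow_of_exponent_ge (by norm_num) (by norm_num) ?_
      nlinarith
    · refine hc.trans ?_
      rw [← Real.rpow_natCast]
      refine Real.rpow_le_rpow_of_exponent_le one_le_two ?_
      push_cast
      nlinarith
  have hVb : ∀ y ∈ V, y ≤ 2 * R + 13 + 2 * κ := by
    intro y hy
    obtain ⟨F, p, h1, h2, h3, h4, h5, h6⟩ := hy 0
    have h7 := h3.val_le_sub h5 hR0 h2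
    have hM1 : (1:ℝ) ≤ F.M := by exact_mod_cast h3.M1
    have h8 : 13 / (F.M : ℝ) ≤ 13 := by rw [div_le_iff₀ (by linarith)]; linarith
    have h9 : κ * p ≤ κ * 2 := mul_le_mul_of_nonneg_left h2 hκ0.le
    have h10 : R * (2 - p) ≤ R * 2 := mul_le_mul_of_nonneg_left (by linarith) hR0
    linarith
  have hbdd : BddAbove V := ⟨_, hVb⟩
  set S : ℝ := sSup V with hS
  have hSge : b0 / 2 + κ * q0 ≤ S := le_csSup hbdd hVmem
  -- near-optimal configurations
  have hnear : ∀ n : ℕ, ∃ (F : Cf) (p : ℝ), q0 ≤ p ∧ p ≤ 2 ∧ F.Ok p ∧ n ≤ F.M ∧ F.Sz R C ∧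
      S - 1 / ((n:ℝ) + 1) ≤ F.val + κ * p := by
    intro n
    obtain ⟨y, hy, hlt⟩ := exists_lt_of_lt_csSup ⟨_, hVmem⟩
      (show S - 1 / ((n:ℝ) + 1) < S by have : (0:ℝ) < 1 / ((n:ℝ) + 1) := by positivity
                                       linarith)
    obtain ⟨F, p, h1, h2, h3, h4, h5, h6⟩ := hy n
    exact ⟨F, p, h1, h2, h3, h4, h5, hlt.le.trans h6⟩
  choose G P hP1 hP2 hOk hGM hSz hval using hnear
  -- convergent subsequence of the penalties
  obtain ⟨q, hq, φ, hφ, hlim⟩ := (isCompact_Icc (a := q0) (b := (2:ℝ))).tendsto_subseq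
    (fun n => ⟨hP1 n, hP2 n⟩ : ∀ n, P n ∈ Set.Icc q0 2)
  have hEX : ∀ η : ℝ, 0 < η → ∀ M0 : ℕ, ∃ F : Cf, F.Ok q ∧ M0 ≤ F.M ∧ F.Sz R C ∧
      S - κ * q - η ≤ F.val := by
    intro η hη M0
    have h1 : ∀ᶠ n in Filter.atTop, |P (φ n) - q| < η / (2 * (R + κ)) := by
      have := Metric.tendsto_atTop.1 hlim (η / (2 * (R + κ))) (by positivity)
      obtain ⟨N, hN⟩ := this
      exact Filter.eventually_atTop.2 ⟨N, fun n hn => by
        have := hN n hn; rwa [Real.dist_eq] at this⟩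
    have h2 : ∀ᶠ n in Filter.atTop, 1 / ((φ n : ℝ) + 1) < η / 2 := by
      have := (tendsto_one_div_add_atTop_nhds_zero_nat (𝕜 := ℝ)).comp hφ.tendsto_atTop
      exact this.eventually_lt_const (by linarith)
    have h3 : ∀ᶠ n in Filter.atTop, M0 ≤ φ n := hφ.tendsto_atTop.eventually_ge_atTop M0
    obtain ⟨n, e1, e2, e3⟩ := (h1.and (h2.and h3)).exists
    obtain ⟨F', hF', hSz', -, hM', -, -, -, -, -, hv'⟩ := (hOk (φ n)).shift (hSz (φ n)) hR0 q
    refine ⟨F', hF', ?_, hSz', ?_⟩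
    · rw [hM']; exact e3.trans (hGM _)
    · have h4 := hval (φ n)
      have h5 : (R + κ) * |P (φ n) - q| ≤ η / 2 := by
        have h6 : (R + κ) * |P (φ n) - q| ≤ (R + κ) * (η / (2 * (R + κ))) := by
          have : 0 ≤ R + κ := by linarith
          gcongr
        have h7 : (R + κ) * (η / (2 * (R + κ))) = η / 2 := by
          have : R + κ ≠ 0 := by positivity
          field_simp
        linarith
      have h8 : κ * (P (φ n) - q) ≤ κ * |P (φ n) - q| :=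
        mul_le_mul_of_nonneg_left (le_abs_self _) hκ0.le
      have h9 : (R + κ) * |P (φ n) - q| = R * |P (φ n) - q| + κ * |P (φ n) - q| := by ring
      linarith
  have hβ2 : g0 ≤ S - κ * q + κ * (q - 2) := by
    have h2 : 0 ≤ κ * q0 := by positivity
    have h3 : κ * 2 = b0 / 4 := by rw [hκ]; ring
    have h4 : κ * (q - 2) = κ * q - κ * 2 := by ring
    rw [hg0]; linarith
  have hβ : g0 ≤ S - κ * q := by
    have h1 : κ * (q - 2) ≤ 0 := mul_nonpos_of_nonneg_of_nonpos hκ0.le (by linarith [hq.2])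
    linarith
  refine ⟨q, S - κ * q, hq.1, ?_, hβ2, ?_, hEX⟩
  · -- `q ≤ 2 - g0 / R`
    have h1 : g0 ≤ R * (2 - q) := by
      refine le_of_forall_pos_le_add fun η hη => ?_
      obtain ⟨M0, hM0⟩ := exists_nat_gt (13 / (η / 2))
      obtain ⟨F, hF, hM, hFS, hv⟩ := hEX (η / 2) (by linarith) (M0 + 1)
      have h2 := hF.val_le_sub hFS hR0 hq.2
      have h3 : 13 / (F.M : ℝ) ≤ η / 2 := by
        have hM' : (M0 : ℝ) + 1 ≤ F.M := by exact_mod_cast hM
        have hM0' : (0:ℝ) ≤ M0 := Nat.cast_nonneg _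
        rw [div_lt_iff₀ (by linarith)] at hM0
        rw [div_le_iff₀ (by linarith)]
        nlinarith
      linarith
    have h2 : g0 / R ≤ 2 - q := by rw [div_le_iff₀ (by linarith)]; linarith
    linarith
  · -- upper bound
    intro η hη
    by_contra hcon
    push Not at hcon
    have hmem : S + η ∈ V := by
      intro M0
      obtain ⟨p, h1, h2, F, h3, h4, h5, h6⟩ := hcon M0
      refine ⟨F, p, h1, h2, h3, h4, h5, ?_⟩
      have : κ * (q - p) = κ * q - κ * p := by ring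
      linarith
    have := le_csSup hbdd hmem
    linarith


/-- asymptotic bound for all configurations of size `(R, C)` at the penalty `p` -/
def Bd (p b R C : ℝ) : Prop := ∀ η : ℝ, 0 < η → ∃ M0 : ℕ, ∀ F : Cf, F.Ok p → M0 ≤ F.M →
  F.Sz R C → F.val ≤ b + η

theorem Cf.Sz.mono {R' C' : ℝ} (h : F.Sz R C) (hR : R ≤ R') (hC : C ≤ C') : F.Sz R' C' := by
  have hM : (0:ℝ) ≤ F.M := Nat.cast_nonneg _
  refine ⟨le_trans ?_ h.res, h.card.trans ?_⟩
  · exact Real.rpow_le_rpow_of_exponent_ge (by norm_num) (by norm_num)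
      (by have := mul_le_mul_of_nonneg_right hR hM; linarith)
  · exact Real.rpow_le_rpow_of_exponent_le one_le_two (mul_le_mul_of_nonneg_right hC hM)

theorem Bd.mono {p b b' R' C' : ℝ} (h : Bd p b R C) (hb : b ≤ b') (hR : R' ≤ R) (hC : C' ≤ C) :
    Bd p b' R' C' := by
  intro η hη
  obtain ⟨M0, h0⟩ := h η hη
  exact ⟨M0, fun F hF hM hS => (h0 F hF hM (hS.mono hR hC)).trans (by linarith)⟩


end

end Crest.Agent.R138.K294
end

-- ▼ part R138/Ps3b_926

/-!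
# R138, Kakeya side, calculus of the extremiser, part 3b (helper926)

* `window_ok_lab` : window operation with an additional label of lines (constant on classes);
* `window_of_classes` : honest classes at level `v` of a family give configurations of the window
  `[u, v]` whose values tend to `ex (D1 nu² / D0) / (v - u) - 2`;
* `Bd`, `le_of_Bd` : bounds for all configurations.
-/

set_option autoImplicit false
set_option linter.unusedVariables false

open Filter Topology Finset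

namespace Crest.Agent.R138.Ps926

open Crest.Agent.R138.Ex926 Crest.Agent.R138.Dp76 Crest.Agent.R138.Flag51
open Crest.Agent.R138.K294


section

variable {B : Base} {m M : ℕ → ℕ} {r : ℕ → ℝ} {I : ∀ n : ℕ, Finset (Ln × ℝ)}




/-! ## Bounds for all configurations -/

/-- `b` bounds the values of all large configurations with relative resolution exponent `R` and
size exponent `C` -/
def Bd (p b R C : ℝ) : Prop :=
  ∀ η : ℝ, 0 < η → ∃ M0 : ℕ, ∀ F : Cf, F.Ok p → M0 ≤ F.M →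
    (2 : ℝ) ^ (-((F.m : ℝ) + R * F.M)) ≤ F.r → (F.I.card : ℝ) ≤ (2 : ℝ) ^ (C * F.M) →
    F.val ≤ b + η

theorem Bd.mono {p b R C R' C' : ℝ} (h : Bd p b R C) (hR : R' ≤ R) (hC : C' ≤ C) :
    Bd p b R' C' := by
  intro η hη
  obtain ⟨M0, h0⟩ := h η hη
  refine ⟨M0, fun F hF hM hr hI => h0 F hF hM (le_trans ?_ hr) (hI.trans ?_)⟩
  · refine Real.rpow_le_rpow_of_exponent_le (by norm_num) ?_
    have : R' * F.M ≤ R * F.M := mul_le_mul_of_nonneg_right hR (Nat.cast_nonneg _)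
    linarith
  · exact Real.rpow_le_rpow_of_exponent_le (by norm_num)
      (mul_le_mul_of_nonneg_right hC (Nat.cast_nonneg _))

/-- every limiting value is bounded by `b`. -/
theorem le_of_Bd {p b : ℝ} (h : ∀ R C : ℝ, Bd p b R C) : ∀ x ∈ valSet p, x ≤ b := by
  rintro x ⟨F, ⟨hOk, hM, C, hC⟩, hx⟩
  refine le_of_forall_pos_le_add fun η hη => ?_
  obtain ⟨M0, h0⟩ := h C C η hη
  refine le_of_tendsto hx ?_
  filter_upwards [hOk, hM.eventually_ge_atTop (M0 : ℝ), hC] with n a b c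
  refine h0 _ a (by exact_mod_cast b) ?_ c.1
  have h1 := c.2
  have h2 : (0 : ℝ) < 2 ^ (F n).m := by positivity
  have h3 : (2 : ℝ) ^ (-(((F n).m : ℝ) + C * (F n).M)) =
      (2 : ℝ) ^ (-(C * (F n).M)) / 2 ^ (F n).m := by
    rw [neg_add, Real.rpow_add (by norm_num), Real.rpow_neg (by norm_num) ((F n).m : ℝ),
      Real.rpow_natCast]
    field_simp
  rw [h3, div_le_iff₀ h2]
  exact h1

end

end Crest.Agent.R138.Ps926
namespace Crest.Agent.R138.Ps926.Fam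
end Crest.Agent.R138.Ps926.Fam
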