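import Mathlib
import Crest.Agent.R138.XDef_248
import Crest.Agent.R138.Ps3b_926_Mg
import Crest.Agent.R138.NormA_70
import Crest.Agent.R138.BunB_294

-- ▼ part R138/Sq_248
section

/-!
# R138, helper248: the choice of the penalty `q` (doc 1929, sections 0' and 1)

* `exists_qstar`      : from the signs of `β` at the two ends of `[q0,q2]` and upper semicontinuity we
  get `q`, `κ > 0` with `β q ≥ β q0 / 2 > 0` and `β (q+ε) ≤ β q - κ ε` for ALL `ε > 0`.
* `exists_qstar_of_lipschitz` : the same for a Lipschitz `β`.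
* `lipschitz_sup`     : a supremum of `K`-Lipschitz functions is `K`-Lipschitz.
* `sweep_deriv`       : the right derivatives `τ` in `q` of the two potentials satisfy
  `κ h ≤ τ u - τ v` (potentials arbitrary functions of `q`).
* `sweep_compact`     : the same for the compact sets of (log density, wide exponent).
* `sweep_near`        : quantitative version (finite families, no limits at all).
-/

namespace Crest.Agent.R138.Sq248

open Set Filter Topology






/-- Step 1 of doc 1929 for the compact set `A` of pairs (log density, wide exponent) of the lower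
level: every pair `x` of the upper level for which the window `[u,v]` is extremal at `q` has a
maximiser `y` of the lower level with `κ h + x.2 ≤ y.2`. -/
theorem sweep_compact {A : Set (ℝ × ℝ)} (hA : IsCompact A) (hne : A.Nonempty) {x : ℝ × ℝ}
    {q L b κ h ε0 : ℝ} (hε0 : 0 < ε0)
    (hwin : ∀ ε, 0 < ε → ε ≤ ε0 →
      (x.1 + (q + ε) * x.2) - sSup ((fun y : ℝ × ℝ => y.1 + (q + ε) * y.2) '' A)
        ≤ L + (b - κ * ε) * h)
    (heq : L + b * h ≤ (x.1 + q * x.2) - sSup ((fun y : ℝ × ℝ => y.1 + q * y.2) '' A)) :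
    ∃ y ∈ A, y.1 + q * y.2 = sSup ((fun y : ℝ × ℝ => y.1 + q * y.2) '' A) ∧
      κ * h + x.2 ≤ y.2 := by
  classical
  have hcont : ∀ p : ℝ, Continuous (fun y : ℝ × ℝ => y.1 + p * y.2) := fun p => by fun_prop
  have hbdd : ∀ p : ℝ, BddAbove ((fun y : ℝ × ℝ => y.1 + p * y.2) '' A) := fun p =>
    (hA.image (hcont p)).bddAbove
  -- maximisers for `q + ε0/(n+1)`
  have hε : ∀ n : ℕ, 0 < ε0 / ((n : ℝ) + 1) := fun n => by positivity
  have hε' : ∀ n : ℕ, ε0 / ((n : ℝ) + 1) ≤ ε0 := fun n => by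
    apply div_le_self hε0.le
    have : (0 : ℝ) ≤ n := Nat.cast_nonneg n
    linarith
  have hmax : ∀ n : ℕ, ∃ y ∈ A, sSup ((fun y : ℝ × ℝ => y.1 + (q + ε0 / ((n : ℝ) + 1)) * y.2) '' A)
      = y.1 + (q + ε0 / ((n : ℝ) + 1)) * y.2 := by
    intro n
    obtain ⟨y, hy, hys⟩ := hA.exists_sSup_image_eq hne
      (hcont (q + ε0 / ((n : ℝ) + 1))).continuousOn
    exact ⟨y, hy, hys⟩
  choose y hyA hyS using hmax
  obtain ⟨z, hzA, φ, hφ, hlim⟩ := hA.tendsto_subseq hyA
  have hεlim : Tendsto (fun n : ℕ => ε0 / ((φ n : ℝ) + 1)) atTop (𝓝 0) := by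
    have h1 : Tendsto (fun n : ℕ => ε0 / ((n : ℝ) + 1)) atTop (𝓝 0) := by
      have := tendsto_one_div_add_atTop_nhds_zero_nat (𝕜 := ℝ)
      have h2 := this.const_mul ε0
      simpa [div_eq_mul_inv] using h2
    exact h1.comp hφ.tendsto_atTop
  have hz1 : Tendsto (fun n => (y (φ n)).1) atTop (𝓝 z.1) :=
    (continuous_fst.tendsto z).comp hlim
  have hz2 : Tendsto (fun n => (y (φ n)).2) atTop (𝓝 z.2) :=
    (continuous_snd.tendsto z).comp hlim
  refine ⟨z, hzA, ?_, ?_⟩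
  · -- `z` is a maximiser at `q`
    apply le_antisymm
    · exact le_csSup (hbdd q) ⟨z, hzA, rfl⟩
    · obtain ⟨w, hwA, hwS⟩ := hA.exists_sSup_image_eq hne (hcont q).continuousOn
      have hwS' : sSup ((fun y : ℝ × ℝ => y.1 + q * y.2) '' A) = w.1 + q * w.2 := hwS
      rw [hwS']
      have hle : ∀ n : ℕ, w.1 + (q + ε0 / ((φ n : ℝ) + 1)) * w.2
          ≤ (y (φ n)).1 + (q + ε0 / ((φ n : ℝ) + 1)) * (y (φ n)).2 := by
        intro n
        rw [← hyS (φ n)]
        exact le_csSup (hbdd _) ⟨w, hwA, rfl⟩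
      have t1 : Tendsto (fun n : ℕ => w.1 + (q + ε0 / ((φ n : ℝ) + 1)) * w.2) atTop
          (𝓝 (w.1 + (q + 0) * w.2)) :=
        tendsto_const_nhds.add ((tendsto_const_nhds.add hεlim).mul_const _)
      have t2 : Tendsto (fun n : ℕ => (y (φ n)).1
          + (q + ε0 / ((φ n : ℝ) + 1)) * (y (φ n)).2) atTop (𝓝 (z.1 + (q + 0) * z.2)) :=
        hz1.add ((tendsto_const_nhds.add hεlim).mul hz2)
      have := le_of_tendsto_of_tendsto' t1 t2 hle
      simpa using this
  · have hge : ∀ n : ℕ, κ * h + x.2 ≤ (y (φ n)).2 := by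
      intro n
      set ε : ℝ := ε0 / ((φ n : ℝ) + 1) with hεdef
      have hεp : 0 < ε := hε (φ n)
      have h1 := hwin ε hεp (hε' (φ n))
      have h2 : sSup ((fun y : ℝ × ℝ => y.1 + (q + ε) * y.2) '' A)
          = (y (φ n)).1 + (q + ε) * (y (φ n)).2 := hyS (φ n)
      have h3 : (y (φ n)).1 + q * (y (φ n)).2
          ≤ sSup ((fun y : ℝ × ℝ => y.1 + q * y.2) '' A) :=
        le_csSup (hbdd q) ⟨y (φ n), hyA (φ n), rfl⟩
      rw [h2] at h1
      have h4 : ε * (κ * h + x.2 - (y (φ n)).2) ≤ 0 := by nlinarith [h1, h3, heq]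
      by_contra hcon
      push Not at hcon
      have : 0 < κ * h + x.2 - (y (φ n)).2 := by linarith
      have := mul_pos hεp this
      linarith
    exact ge_of_tendsto' hz2 hge


end Crest.Agent.R138.Sq248
end

-- ▼ part R138/Sq2_248
section

/-!
# R138, helper248: calculus of the extremiser (shape form, 829's design) and the generic level

`S` = compact set of shapes `x = (l, a)` (wide exponent, thin exponent), `φ v x` = exponent of the
maximal density of planks of level `v` and shape `x` (continuous in `x`).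
`D q v = sup_{x ∈ S} (φ v x + q * x.1)`, `Arg q v` = maximisers, `lp q v` = largest `l` of a maximiser.
-/

namespace Crest.Agent.R138.Sq248

open Set Filter Topology MeasureTheory

section shape

variable (S : Set (ℝ × ℝ)) (φ : ℝ → ℝ × ℝ → ℝ)

/-- penalised maximal density of level `v` -/
noncomputable def D (q v : ℝ) : ℝ := sSup ((fun x : ℝ × ℝ => φ v x + q * x.1) '' S)

/-- maximisers of level `v` -/
def Arg (q v : ℝ) : Set (ℝ × ℝ) := {x | x ∈ S ∧ φ v x + q * x.1 = D S φ q v}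

/-- largest wide exponent of a maximiser -/
noncomputable def lp (q v : ℝ) : ℝ := sSup ((fun x : ℝ × ℝ => x.1) '' Arg S φ q v)


variable {S φ} (hS : IsCompact S) (hne : S.Nonempty) {q v : ℝ}

include hS in
theorem D_bddAbove (hφ : ContinuousOn (φ v) S) (q : ℝ) :
    BddAbove ((fun x : ℝ × ℝ => φ v x + q * x.1) '' S) := by
  apply (hS.image_of_continuousOn _).bddAbove
  exact hφ.add (by fun_prop)

include hS in
theorem le_D (hφ : ContinuousOn (φ v) S) {x : ℝ × ℝ} (hx : x ∈ S) (q : ℝ) :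
    φ v x + q * x.1 ≤ D S φ q v :=
  le_csSup (D_bddAbove hS hφ q) ⟨x, hx, rfl⟩

include hS hne in
theorem Arg_nonempty (hφ : ContinuousOn (φ v) S) (q : ℝ) : (Arg S φ q v).Nonempty := by
  have hc : ContinuousOn (fun x : ℝ × ℝ => φ v x + q * x.1) S := hφ.add (by fun_prop)
  obtain ⟨x, hx, h⟩ := hS.exists_sSup_image_eq hne hc
  exact ⟨x, hx, h.symm⟩

include hS hne in
theorem D_le {c : ℝ} (h : ∀ x ∈ S, φ v x + q * x.1 ≤ c) : D S φ q v ≤ c := by
  apply csSup_le (hne.image _)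
  rintro _ ⟨x, hx, rfl⟩
  exact h x hx

include hS in
theorem Arg_compact (hφ : ContinuousOn (φ v) S) (q : ℝ) : IsCompact (Arg S φ q v) := by
  have hc : ContinuousOn (fun x : ℝ × ℝ => φ v x + q * x.1) S := hφ.add (by fun_prop)
  have : Arg S φ q v = S ∩ (fun x : ℝ × ℝ => φ v x + q * x.1) ⁻¹' {D S φ q v} := by
    ext x; simp [Arg]
  rw [this]
  exact hS.of_isClosed_subset (hc.preimage_isClosed_of_isClosed hS.isClosed isClosed_singleton)
    inter_subset_left

include hS hne in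
theorem lp_mem (hφ : ContinuousOn (φ v) S) (q : ℝ) : ∃ x ∈ Arg S φ q v, x.1 = lp S φ q v := by
  obtain ⟨x, hx, h⟩ := (Arg_compact hS hφ q).exists_sSup_image_eq (Arg_nonempty hS hne hφ q)
    (continuous_fst.continuousOn)
  exact ⟨x, hx, h.symm⟩


include hS in
theorem le_lp (hφ : ContinuousOn (φ v) S) {x : ℝ × ℝ} (hx : x ∈ Arg S φ q v) :
    x.1 ≤ lp S φ q v :=
  le_csSup ((Arg_compact hS hφ q).image continuous_fst).bddAbove ⟨x, hx, rfl⟩





end shape

section joint


end joint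

section generic








end generic

end Crest.Agent.R138.Sq248
end

-- ▼ part R138/Sys_248
section

/-!
# R138, helper248: plank systems of fixed real shapes

* `wd` : widths `max r (d^l / 2^lv)`; `shS v l a` : the system of shape `(l, a)` at level `v`.
* `ph` : exponent of its maximal density; Lipschitz in the shape, stable for all real shapes if
  stable for the rational ones.
* `DD_eq` : `DD p 0 v = sup (φ v + p l)` over the compact set of legal shapes.
-/

set_option autoImplicit false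
set_option linter.unusedVariables false

open Filter Topology Finset

namespace Crest.Agent.R138.X248

open Crest.Agent.R138.Ex926 Crest.Agent.R138.Dp76 Crest.Agent.R138.Flag51
open Crest.Agent.R138.K294 Crest.Agent.R138.Ps926

/-! ### long and short cells -/

theorem rho_pos (m' : ℕ) : 0 < Mk163.rho m' := by unfold Mk163.rho; positivity

theorem zm_eq (m' : ℕ) (j : ℤ) : zm m' j = Mk163.zl m' j + zr m' := by
  unfold zm Mk163.zl zr
  rw [pow_succ]
  field_simp

theorem rho_eq (m' : ℕ) : Mk163.rho m' = 2 * zr m' := by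
  rw [two_zr]; rfl

theorem inPlank_short {t l : Ln} {e : E2} {a1 a2 : ℝ} {m' : ℕ} {j : ℤ}
    (h : InPlank t l e a1 a2 (Mk163.zl m' j) (Mk163.rho m')) :
    InPlank t l e a1 a2 (zm m' j) (zr m') := by
  intro z hz
  refine h z ?_
  rw [zm_eq] at hz
  rw [rho_eq]
  have := zr_pos m'
  rw [abs_le] at hz ⊢
  constructor <;> linarith [hz.1, hz.2]

theorem inPlank_long {t l : Ln} {e : E2} {a1 a2 : ℝ} {m' : ℕ} {j : ℤ}
    (h : InPlank t l e a1 a2 (zm m' j) (zr m')) :
    InPlank t l e (3 * a1) (3 * a2) (Mk163.zl m' j) (Mk163.rho m') := by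
  have hr := zr_pos m'
  set c := Mk163.zl m' j with hc
  set ρ := Mk163.rho m' with hρ
  have hρ2 : ρ = 2 * zr m' := rho_eq m'
  have hρ0 : 0 < ρ := rho_pos m'
  have hzm : zm m' j = c + zr m' := zm_eq m' j
  have h1 := h c (by rw [hzm, abs_le]; constructor <;> linarith)
  have h2 := h (c + ρ) (by rw [hzm, abs_le]; constructor <;> linarith)
  intro z hz
  rw [abs_le] at hz
  set s : ℝ := (z - c) / ρ with hs
  have hs1 : -1 ≤ s := by rw [hs, le_div_iff₀ hρ0]; linarith [hz.1]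
  have hs2 : s ≤ 1 := by rw [hs, div_le_one hρ0]; linarith [hz.2]
  have hz' : z = (1 - s) * c + s * (c + ρ) := by
    have : s * ρ = z - c := by rw [hs]; field_simp
    linarith
  have hd : pos t z - pos l z = (1 - s) • (pos t c - pos l c) +
      s • (pos t (c + ρ) - pos l (c + ρ)) := by
    unfold pos
    rw [hz']
    ext i
    simp only [PiLp.sub_apply, PiLp.add_apply, PiLp.smul_apply, smul_eq_mul]
    ring
  have e1 : dt (pos t z - pos l z) e = (1 - s) * dt (pos t c - pos l c) e +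
      s * dt (pos t (c + ρ) - pos l (c + ρ)) e := by
    rw [hd]; simp only [dt, PiLp.add_apply, PiLp.smul_apply, smul_eq_mul]; ring
  have e2 : cr e (pos t z - pos l z) = (1 - s) * cr e (pos t c - pos l c) +
      s * cr e (pos t (c + ρ) - pos l (c + ρ)) := by
    rw [hd]; simp only [cr, PiLp.add_apply, PiLp.smul_apply, smul_eq_mul]; ring
  have conv : ∀ {A C a : ℝ}, |A| ≤ a → |C| ≤ a → |(1 - s) * A + s * C| ≤ 3 * a := by
    intro A C a hA hC
    have ha : 0 ≤ a := (abs_nonneg A).trans hA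
    calc |(1 - s) * A + s * C| ≤ |(1 - s) * A| + |s * C| := abs_add_le _ _
      _ = (1 - s) * |A| + |s| * |C| := by
        rw [abs_mul, abs_mul, abs_of_nonneg (by linarith : 0 ≤ 1 - s)]
      _ ≤ 2 * a + 1 * a := by
        refine add_le_add (mul_le_mul (by linarith) hA (abs_nonneg _) (by norm_num)) ?_
        exact mul_le_mul (abs_le.2 ⟨hs1, hs2⟩) hC (abs_nonneg _) (by norm_num)
      _ = 3 * a := by ring
  rw [e1, e2]
  exact ⟨conv h1.1 h2.1, conv h1.2 h2.2⟩

theorem inPlank_mono {t l : Ln} {e : E2} {a1 a2 b1 b2 z0 ρ : ℝ} (h1 : a1 ≤ b1) (h2 : a2 ≤ b2)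
    (h : InPlank t l e a1 a2 z0 ρ) : InPlank t l e b1 b2 z0 ρ := fun z hz =>
  ⟨(h z hz).1.trans h1, (h z hz).2.trans h2⟩

/-! ### the covering estimate -/

open Classical in
theorem card_cover {m0 m' : ℕ} {v1 v2 : ℝ} (hv1 : 0 < v1) (hv2 : 0 < v2) {k : ℕ} {j : ℤ} {l : Ln}
    {e : E2} (he : dt e e = 1) {I : Finset (Ln × ℝ)} {S : Finset (Ln × ℤ)}
    (hS : ∀ o ∈ S, (∃ x ∈ I, K294.ob m' x = o) ∧ o.2 = j ∧
      InPlank o.1 l e (k * v1) (k * v2) (Mk163.zl m' j) (Mk163.rho m')) :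
    (S.card : ℝ) ≤ (2 * k + 1) ^ 4 *
      ((shP m0 m' v1 v2 hv1 hv2).Dmax I * (v1 * v2 * 4 ^ m0)) := by
  refine K294.cover S Prod.fst hv1 hv2 (rho_pos m') (fun o ho => (hS o ho).2.2)
    (mul_nonneg (PSys.Dmax_nonneg _ I) (by positivity)) fun t0 ht0 => ?_
  have h1 := (shP m0 m' v1 v2 hv1 hv2).objs_card_le_Dmax I ⟨(j, t0.1, e), he⟩
  refine le_trans ?_ h1
  refine Nat.cast_le.2 (card_le_card fun o ho => ?_)
  rw [mem_filter] at ho
  exact (PSys.mem_objs (shP m0 m' v1 v2 hv1 hv2)).2 ⟨(hS o ho.1).1, (hS o ho.1).2.1, ho.2⟩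

theorem Dmax_cover {m0 m' : ℕ} {w1 w2 v1 v2 : ℝ} (hw1 : 0 < w1) (hw2 : 0 < w2) (hv1 : 0 < v1)
    (hv2 : 0 < v2) {k : ℕ} (h1 : w1 ≤ k * v1) (h2 : w2 ≤ k * v2) (I : Finset (Ln × ℝ)) :
    (shP m0 m' w1 w2 hw1 hw2).Dmax I ≤ (2 * k + 1) ^ 4 * ((v1 * v2) / (w1 * w2)) *
      (shP m0 m' v1 v2 hv1 hv2).Dmax I := by
  refine PSys.Dmax_le _ (mul_nonneg (by positivity) (PSys.Dmax_nonneg _ I)) fun K => ?_
  unfold PSys.dens
  rw [div_le_iff₀ ((shP m0 m' w1 w2 hw1 hw2).vol_pos K)]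
  have h3 := card_cover (m0 := m0) (m' := m') hv1 hv2 (k := k) (j := K.1.1) (l := K.1.2.1)
    (e := K.1.2.2) K.2 (I := I) (S := (shP m0 m' w1 w2 hw1 hw2).objs I K) (fun o ho => by
      have ho' := (PSys.mem_objs (shP m0 m' w1 w2 hw1 hw2)).1 ho
      exact ⟨ho'.1, ho'.2.1, inPlank_mono h1 h2 ho'.2.2⟩)
  refine h3.trans (le_of_eq ?_)
  show _ = _ * (w1 * w2 * 4 ^ m0)
  field_simp

/-! ### widths -/

/-- the width of exponent `l` relative to the cells of level `v`, at least `r` -/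
noncomputable def wd (B : Base) (m M : ℕ → ℕ) (r : ℕ → ℝ) (n : ℕ) (v l : ℝ) : ℝ :=
  max (r n) (B.d n ^ l / 2 ^ (lv m M n v))

variable {B : Base} {m M : ℕ → ℕ} {r : ℕ → ℝ} {I J : ℕ → Finset (Ln × ℝ)}

theorem wd_pos (B : Base) (m M : ℕ → ℕ) (r : ℕ → ℝ) (n : ℕ) (v l : ℝ) : 0 < wd B m M r n v l :=
  lt_max_of_lt_right (div_pos (dpow_pos B n l) (by positivity))

theorem r_le_wd (n : ℕ) (v l : ℝ) : r n ≤ wd B m M r n v l := le_max_left _ _

theorem wd_anti (n : ℕ) (v : ℝ) {l a : ℝ} (h : l ≤ a) : wd B m M r n v a ≤ wd B m M r n v l :=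
  max_le_max (le_refl _) (div_le_div_of_nonneg_right (dpow_le B n h) (by positivity))

theorem r_le_cell (h : Fam B m M r I) (n : ℕ) {v : ℝ} (hv : v ≤ 1) :
    r n ≤ 1 / 2 ^ (lv m M n v) :=
  (h.rle n).trans
    (one_div_le_one_div_of_le (by positivity) (pow_le_pow_right₀ one_le_two (lv_le hv)))

theorem wd_le (h : Fam B m M r I) (n : ℕ) {v l : ℝ} (hv : v ≤ 1) (hl : 0 ≤ l) :
    wd B m M r n v l ≤ 1 / 2 ^ (lv m M n v) :=
  max_le (r_le_cell h n hv) (div_le_div_of_nonneg_right (dpow_le_one B n hl) (by positivity))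

theorem wd_comp (h : Fam B m M r I) (n : ℕ) {v l l' δ : ℝ} (hδ : 0 ≤ δ) (hl : l' - δ ≤ l) :
    wd B m M r n v l ≤ B.d n ^ (-δ) * wd B m M r n v l' := by
  have hr := h.rpos n
  have h1 : (1 : ℝ) ≤ B.d n ^ (-δ) :=
    Real.one_le_rpow_of_pos_of_le_one_of_nonpos (B.pos n) (B.lt n).le (by linarith)
  refine max_le ?_ ?_
  · have h2 : r n ≤ wd B m M r n v l' := r_le_wd n v l'
    nlinarith
  · have h2 : B.d n ^ l ≤ B.d n ^ (-δ) * B.d n ^ l' := by
      rw [← dpow_add]
      exact dpow_le B n (by linarith)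
    calc B.d n ^ l / 2 ^ (lv m M n v) ≤ B.d n ^ (-δ) * B.d n ^ l' / 2 ^ (lv m M n v) :=
          div_le_div_of_nonneg_right h2 (by positivity)
      _ = B.d n ^ (-δ) * (B.d n ^ l' / 2 ^ (lv m M n v)) := by ring
      _ ≤ _ := mul_le_mul_of_nonneg_left (le_max_right _ _) (dpow_pos B n _).le

/-- the exponent of the resolution at level `v` -/
noncomputable def Rv (B : Base) (m M : ℕ → ℕ) (r : ℕ → ℝ) (v : ℝ) : ℝ :=
  - B.ex fun n => r n * 2 ^ (lv m M n v)

theorem pb_r (h : Fam B m M r I) {v : ℝ} (hv : v ≤ 1) :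
    B.PB (fun n => r n * 2 ^ (lv m M n v)) := by
  obtain ⟨C, hC⟩ := h.poly
  refine Base.PB.of_bounds (C := |C|) ?_ ?_
  · filter_upwards [hC] with n hn
    refine (dpow_le B n (le_abs_self C)).trans (hn.2.trans ?_)
    exact mul_le_mul_of_nonneg_left (pow_le_pow_right₀ one_le_two le_lv) (h.rpos n).le
  · refine Eventually.of_forall fun n => ?_
    have h1 := r_le_cell h n hv
    rw [le_div_iff₀ (by positivity)] at h1
    refine h1.trans ?_
    exact Real.one_le_rpow_of_pos_of_le_one_of_nonpos (B.pos n) (B.lt n).le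
      (by have := abs_nonneg C; linarith)

theorem Rv_nonneg (h : Fam B m M r I) {v : ℝ} (hv : v ≤ 1) : 0 ≤ Rv B m M r v := by
  unfold Rv
  have := Base.ex_nonpos (pb_r h hv) (Eventually.of_forall fun n => by
    have h1 := r_le_cell h n hv
    rwa [le_div_iff₀ (by positivity)] at h1)
  linarith

theorem wd_mul (n : ℕ) (v l : ℝ) : wd B m M r n v l * 2 ^ (lv m M n v) =
    max (r n * 2 ^ (lv m M n v)) (B.d n ^ l) := by
  unfold wd
  rw [max_mul_of_nonneg _ _ (by positivity)]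
  congr 1
  field_simp

theorem pb_wd (h : Fam B m M r I) {v : ℝ} (hv : v ≤ 1) (l : ℝ) :
    B.PB (fun n => wd B m M r n v l * 2 ^ (lv m M n v)) := by
  simp only [wd_mul]
  exact (pb_r h hv).max (Base.PB.dpow l)

theorem ex_wd (h : Fam B m M r I) {v : ℝ} (hv : v ≤ 1) {l : ℝ} (hl : l ≤ Rv B m M r v) :
    B.ex (fun n => wd B m M r n v l * 2 ^ (lv m M n v)) = -l := by
  simp only [wd_mul]
  rw [Base.ex_max (pb_r h hv) (Base.PB.dpow l), Base.ex_dpow]
  refine max_eq_right ?_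
  unfold Rv at hl
  linarith

/-! ### the systems of fixed shape -/

/-- the system of shape `(l, a)` at level `v` -/
noncomputable def shS (B : Base) (m M : ℕ → ℕ) (r : ℕ → ℝ) (v l a : ℝ) (n : ℕ) : PSys (Ln × ℝ) :=
  shP (m n) (lv m M n v) (wd B m M r n v a) (wd B m M r n v l) (wd_pos B m M r n v a)
    (wd_pos B m M r n v l)

theorem pow4 (k : ℕ) : (4 : ℝ) ^ k = 2 ^ k * 2 ^ k := by rw [← mul_pow]; norm_num

theorem padm_shS (h : Fam B m M r I) {v l a : ℝ} (hv : v ≤ 1) (hl : 0 ≤ l) (ha : 0 ≤ a) :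
    PAdm B (shS B m M r v l a) I := by
  obtain ⟨C, hC⟩ := h.poly
  refine ⟨2 * |C|, ?_⟩
  filter_upwards [hC] with n hn
  obtain ⟨h1, h2⟩ := hn
  have hr := h.rpos n
  have e1 : B.d n ^ |C| ≤ r n * 2 ^ (m n) := (dpow_le B n (le_abs_self C)).trans h2
  have hp := dpow_pos B n |C|
  refine ⟨?_, h1.trans (dpow_le B n (by
    have := le_abs_self C; have := abs_nonneg C; linarith)), fun x hx => ?_⟩
  · show B.d n ^ (2 * |C|) ≤ wd B m M r n v a * wd B m M r n v l * 4 ^ (m n)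
    have e2 : B.d n ^ (2 * |C|) = B.d n ^ |C| * B.d n ^ |C| := by
      rw [← dpow_add]; congr 1; ring
    have e3 : wd B m M r n v a * wd B m M r n v l * 4 ^ (m n) =
        (wd B m M r n v a * 2 ^ (m n)) * (wd B m M r n v l * 2 ^ (m n)) := by
      rw [pow4]; ring
    rw [e2, e3]
    have a1 : r n * 2 ^ (m n) ≤ wd B m M r n v a * 2 ^ (m n) :=
      mul_le_mul_of_nonneg_right (r_le_wd n v a) (by positivity)
    have a2 : r n * 2 ^ (m n) ≤ wd B m M r n v l * 2 ^ (m n) :=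
      mul_le_mul_of_nonneg_right (r_le_wd n v l) (by positivity)
    exact mul_le_mul (e1.trans a1) (e1.trans a2) hp.le (hp.le.trans (e1.trans a1))
  · refine ⟨⟨(zc (lv m M n v) x.2, x.1, e0), dt_e0⟩, ⟨rfl, ?_⟩, ?_⟩
    · exact inPlank_self (wd_pos B m M r n v a).le (wd_pos B m M r n v l).le
    · show wd B m M r n v a * wd B m M r n v l * 4 ^ (m n) ≤ _
      have hle : ∀ b : ℝ, 0 ≤ b → wd B m M r n v b * 2 ^ (m n) ≤ 1 := by
        intro b hb
        have a1 := wd_le h n hv hb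
        rw [le_div_iff₀ (by positivity)] at a1
        refine le_trans ?_ a1
        exact mul_le_mul_of_nonneg_left (pow_le_pow_right₀ one_le_two le_lv)
          (wd_pos B m M r n v b).le
      have e3 : wd B m M r n v a * wd B m M r n v l * 4 ^ (m n) =
          (wd B m M r n v a * 2 ^ (m n)) * (wd B m M r n v l * 2 ^ (m n)) := by
        rw [pow4]; ring
      rw [e3]
      refine (mul_le_one₀ (hle a ha)
        (mul_nonneg (wd_pos B m M r n v l).le (by positivity)) (hle l hl)).trans ?_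
      exact Real.one_le_rpow_of_pos_of_le_one_of_nonpos (B.pos n) (B.lt n).le
        (by have := abs_nonneg C; linarith)

/-- exponent of the maximal density of shape `x = (l, a)` at level `v` -/
noncomputable def ph (B : Base) (m M : ℕ → ℕ) (r : ℕ → ℝ) (I : ℕ → Finset (Ln × ℝ)) (v : ℝ)
    (x : ℝ × ℝ) : ℝ := B.ex fun n => (shS B m M r v x.1 x.2 n).Dmax (I n)

theorem pb_ph (h : Fam B m M r I) {v l a : ℝ} (hv : v ≤ 1) (hl : 0 ≤ l) (ha : 0 ≤ a) :
    B.PB (fun n => (shS B m M r v l a n).Dmax (I n)) :=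
  (monoF_Dmax (padm_shS h hv hl ha)).pb (Eventually.of_forall fun n => Subset.refl _) h.ne

theorem ceil_bound {X : ℝ} (hX : 1 ≤ X) : (2 * (⌈X⌉₊ : ℝ) + 1) ^ 4 ≤ 625 * X ^ 4 := by
  have h1 := (Nat.ceil_lt_add_one (by linarith : 0 ≤ X)).le
  have h2 : 2 * (⌈X⌉₊ : ℝ) + 1 ≤ 5 * X := by linarith
  calc (2 * (⌈X⌉₊ : ℝ) + 1) ^ 4 ≤ (5 * X) ^ 4 := by gcongr
    _ = 625 * X ^ 4 := by ring

theorem ph_le (h : Fam B m M r I) {v l a l' a' δ : ℝ} (hv : v ≤ 1) (hl : 0 ≤ l) (ha : 0 ≤ a)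
    (hl' : 0 ≤ l') (ha' : 0 ≤ a') (hδ : 0 ≤ δ) (h1 : |l - l'| ≤ δ) (h2 : |a - a'| ≤ δ) :
    ph B m M r I v (l, a) ≤ ph B m M r I v (l', a') + 6 * δ := by
  rw [abs_le] at h1 h2
  have key : ∀ᶠ n in (U : Filter ℕ), (shS B m M r v l a n).Dmax (I n) ≤
      (625 * B.d n ^ (-(6 * δ))) * (shS B m M r v l' a' n).Dmax (I n) := by
    refine Eventually.of_forall fun n => ?_
    set X := B.d n ^ (-δ) with hX
    have hX1 : (1 : ℝ) ≤ X :=
      Real.one_le_rpow_of_pos_of_le_one_of_nonpos (B.pos n) (B.lt n).le (by linarith)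
    have hX0 : (0 : ℝ) < X := by linarith
    have hc : X ≤ (⌈X⌉₊ : ℝ) := Nat.le_ceil X
    have a1 := wd_comp h n (v := v) (l := a) (l' := a') hδ (by linarith)
    have a2 := wd_comp h n (v := v) (l := l) (l' := l') hδ (by linarith)
    have a3 := wd_comp h n (v := v) (l := a') (l' := a) hδ (by linarith)
    have a4 := wd_comp h n (v := v) (l := l') (l' := l) hδ (by linarith)
    have p1 := wd_pos B m M r n v a
    have p2 := wd_pos B m M r n v l
    have p3 := wd_pos B m M r n v a'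
    have p4 := wd_pos B m M r n v l'
    have b1 := Dmax_cover (m0 := m n) (m' := lv m M n v) p1 p2 p3 p4 (k := ⌈X⌉₊)
      (a1.trans (mul_le_mul_of_nonneg_right hc p3.le))
      (a2.trans (mul_le_mul_of_nonneg_right hc p4.le)) (I n)
    refine b1.trans ?_
    have hD : 0 ≤ (shS B m M r v l' a' n).Dmax (I n) := PSys.Dmax_nonneg _ _
    refine mul_le_mul_of_nonneg_right ?_ hD
    have c1 : wd B m M r n v a' * wd B m M r n v l' / (wd B m M r n v a * wd B m M r n v l) ≤
        X * X := by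
      rw [div_le_iff₀ (mul_pos p1 p2)]
      calc wd B m M r n v a' * wd B m M r n v l' ≤
            (X * wd B m M r n v a) * (X * wd B m M r n v l) :=
            mul_le_mul a3 a4 p4.le (by positivity)
        _ = _ := by ring
    have c2 : X ^ 4 * (X * X) = B.d n ^ (-(6 * δ)) := by
      have : X ^ 4 * (X * X) = X ^ 6 := by ring
      rw [this, hX, ← Real.rpow_natCast, ← Real.rpow_mul (B.pos n).le]
      congr 1
      push_cast
      ring
    calc (2 * (⌈X⌉₊ : ℝ) + 1) ^ 4 *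
          (wd B m M r n v a' * wd B m M r n v l' / (wd B m M r n v a * wd B m M r n v l)) ≤
          (625 * X ^ 4) * (X * X) :=
          mul_le_mul (ceil_bound hX1) c1 (by positivity) (by positivity)
      _ = 625 * B.d n ^ (-(6 * δ)) := by rw [← c2]; ring
  have pb1 := pb_ph h (l := l) (a := a) hv hl ha
  have pb2 := pb_ph h (l := l') (a := a') hv hl' ha'
  have h3 := Base.ex_le pb1 (((Base.PB.const (by norm_num : (0:ℝ) < 625)).mul
    (Base.PB.dpow (-(6 * δ)))).mul pb2) key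
  rw [Base.ex_mul ((Base.PB.const (by norm_num : (0:ℝ) < 625)).mul (Base.PB.dpow _)) pb2,
    Base.ex_mul (Base.PB.const (by norm_num : (0:ℝ) < 625)) (Base.PB.dpow _), Base.ex_const,
    Base.ex_dpow] at h3
  unfold ph
  simp only
  linarith

theorem ph_abs (h : Fam B m M r I) {v l a l' a' δ : ℝ} (hv : v ≤ 1) (hl : 0 ≤ l) (ha : 0 ≤ a)
    (hl' : 0 ≤ l') (ha' : 0 ≤ a') (hδ : 0 ≤ δ) (h1 : |l - l'| ≤ δ) (h2 : |a - a'| ≤ δ) :
    |ph B m M r I v (l, a) - ph B m M r I v (l', a')| ≤ 6 * δ := by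
  rw [abs_le]
  have e1 := ph_le h hv hl ha hl' ha' hδ h1 h2
  have e2 := ph_le h hv hl' ha' hl ha hδ (by rwa [abs_sub_comm]) (by rwa [abs_sub_comm])
  constructor <;> linarith

/-- stability for all rational shapes implies stability for all real shapes -/
theorem stable_real (h : Fam B m M r I) {v : ℝ} (hv : v ≤ 1)
    (hS : ∀ l a : ℚ, 0 ≤ l → 0 ≤ a → StableF B (fun n J => (shS B m M r v l a n).Dmax J) I)
    {l a : ℝ} (hl : 0 ≤ l) (ha : 0 ≤ a) :
    StableF B (fun n J => (shS B m M r v l a n).Dmax J) I := by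
  intro J hJ
  have hF := h.dense hJ
  refine eq_of_forall_dist_le fun ε hε => ?_
  set δ := ε / 12 with hδ
  have hδ0 : 0 < δ := by rw [hδ]; linarith
  obtain ⟨l', h1, h2⟩ := exists_rat_btwn (show l < l + δ by linarith)
  obtain ⟨a', h3, h4⟩ := exists_rat_btwn (show a < a + δ by linarith)
  have hl' : (0 : ℝ) ≤ l' := by linarith
  have ha' : (0 : ℝ) ≤ a' := by linarith
  have e1 := ph_abs h hv hl ha hl' ha' hδ0.le (abs_le.2 ⟨by linarith, by linarith⟩)
    (abs_le.2 ⟨by linarith, by linarith⟩)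
  have e2 := ph_abs hF hv hl ha hl' ha' hδ0.le (abs_le.2 ⟨by linarith, by linarith⟩)
    (abs_le.2 ⟨by linarith, by linarith⟩)
  have e3 : ph B m M r J v ((l' : ℝ), (a' : ℝ)) = ph B m M r I v ((l' : ℝ), (a' : ℝ)) :=
    hS l' a' (by exact_mod_cast hl') (by exact_mod_cast ha') J hJ
  rw [e3] at e2
  rw [Real.dist_eq]
  have e4 : B.ex (fun n => (shS B m M r v l a n).Dmax (J n)) = ph B m M r J v (l, a) := rfl
  have e5 : B.ex (fun n => (shS B m M r v l a n).Dmax (I n)) = ph B m M r I v (l, a) := rfl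
  rw [e4, e5]
  rw [abs_le] at e1 e2 ⊢
  constructor <;> linarith [e1.1, e1.2, e2.1, e2.2]

/-! ### the compact set of legal shapes -/

/-- legal shapes of level `v` -/
def KSh (R : ℝ) : Set (ℝ × ℝ) := {x | 0 ≤ x.1 ∧ x.1 ≤ x.2 ∧ x.2 ≤ R}

theorem KSh_compact (R : ℝ) : IsCompact (KSh R) := by
  have h1 : IsCompact (Set.Icc (0 : ℝ) R ×ˢ Set.Icc (0 : ℝ) R) := isCompact_Icc.prod isCompact_Icc
  refine h1.of_isClosed_subset ?_ ?_
  · have e : KSh R = {x : ℝ × ℝ | 0 ≤ x.1} ∩ ({x : ℝ × ℝ | x.1 ≤ x.2} ∩ {x : ℝ × ℝ | x.2 ≤ R}) := by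
      ext x; simp [KSh]
    rw [e]
    exact (isClosed_le continuous_const continuous_fst).inter
      ((isClosed_le continuous_fst continuous_snd).inter
        (isClosed_le continuous_snd continuous_const))
  · rintro x ⟨h1, h2, h3⟩
    exact ⟨⟨h1, h2.trans h3⟩, ⟨h1.trans h2, h3⟩⟩

theorem KSh_nonempty {R : ℝ} (hR : 0 ≤ R) : (KSh R).Nonempty := ⟨(0, 0), le_refl _, le_refl _, hR⟩

theorem ph_cont (h : Fam B m M r I) {v : ℝ} (hv : v ≤ 1) :
    ContinuousOn (ph B m M r I v) (KSh (Rv B m M r v)) := by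
  rw [Metric.continuousOn_iff]
  rintro ⟨l, a⟩ ⟨h1, h2, h3⟩ ε hε
  refine ⟨ε / 12, by linarith, ?_⟩
  rintro ⟨l', a'⟩ ⟨h1', h2', h3'⟩ hd
  simp only at h1 h2 h3 h1' h2' h3'
  rw [Prod.dist_eq, max_lt_iff] at hd
  simp only [Real.dist_eq] at hd ⊢
  have := ph_abs h hv h1' (h1'.trans h2') h1 (h1.trans h2) (δ := ε / 12) (by linarith)
    hd.1.le hd.2.le
  linarith

end Crest.Agent.R138.X248
end

-- ▼ part R138/Sys2_248
section

/-!
# R138, helper248: `DD p 0 v` = sup over the legal shapes, record sweep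

* `DD_eq` : `DD p 0 v = sup_{x ∈ KSh} (φ v x + p x.1)`.
* `sweep` : the record sweep for two levels with different compact sets of shapes.
-/

set_option autoImplicit false
set_option linter.unusedVariables false

open Filter Topology Finset

namespace Crest.Agent.R138.X248

open Crest.Agent.R138.Ex926 Crest.Agent.R138.Dp76 Crest.Agent.R138.Flag51
open Crest.Agent.R138.K294 Crest.Agent.R138.Ps926

variable {B : Base} {m M : ℕ → ℕ} {r : ℕ → ℝ} {I J : ℕ → Finset (Ln × ℝ)}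

theorem pb_kP (h : Fam B m M r I) {p : ℝ} (hp : 0 ≤ p) {v : ℝ} (hv : v ≤ 1) :
    B.PB (fun n => (kP p (m n) (lv m M n v) (r n) (B.d n ^ (0:ℝ) / 2 ^ (lv m M n v)) hp
      (h.rpos n)).Dmax (I n)) :=
  (monoF_Dmax (h.padm hp _ hv)).pb (Eventually.of_forall fun n => Subset.refl _) h.ne

/-- planks of a legal shape are penalised planks -/
theorem ph_le_DD (h : Fam B m M r I) {p : ℝ} (hp : 0 ≤ p) {v : ℝ} (hv : v ≤ 1) {x : ℝ × ℝ}
    (hx : x ∈ KSh (Rv B m M r v)) :
    ph B m M r I v x + p * x.1 ≤ DD B p hp m M r h.rpos I 0 v := by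
  obtain ⟨l, a⟩ := x
  obtain ⟨hl, hla, haR⟩ := hx
  simp only at hl hla haR ⊢
  have pb1 := pb_ph h (l := l) (a := a) hv hl (hl.trans hla)
  have pb2 := pb_kP h hp hv
  have pbw := pb_wd h hv l
  have key : ∀ᶠ n in (U : Filter ℕ), (shS B m M r v l a n).Dmax (I n) ≤
      (wd B m M r n v l * 2 ^ (lv m M n v)) ^ p *
        (kP p (m n) (lv m M n v) (r n) (B.d n ^ (0:ℝ) / 2 ^ (lv m M n v)) hp
          (h.rpos n)).Dmax (I n) := by
    refine Eventually.of_forall fun n => ?_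
    have q1 := wd_pos B m M r n v a
    have q2 := wd_pos B m M r n v l
    refine PSys.Dmax_le _ (mul_nonneg (by positivity) (PSys.Dmax_nonneg _ _)) fun K => ?_
    unfold PSys.dens
    rw [div_le_iff₀ ((shS B m M r v l a n).vol_pos K)]
    have hleg : Legal (lv m M n v) (r n)
        ⟨K.1.1, K.1.2.1, K.1.2.2, wd B m M r n v a, wd B m M r n v l⟩ :=
      ⟨K.2, r_le_wd n v a, wd_anti n v hla, wd_le h n hv hl⟩
    have h1 := (kP p (m n) (lv m M n v) (r n) (B.d n ^ (0:ℝ) / 2 ^ (lv m M n v)) hp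
      (h.rpos n)).objs_card_le_Dmax (I n) ⟨_, hleg, by
        refine le_max_of_le_left ?_
        rw [Real.rpow_zero]
        exact hleg.w2⟩
    have h2 : (((shS B m M r v l a n).objs (I n) K).card : ℝ) ≤
        (((kP p (m n) (lv m M n v) (r n) (B.d n ^ (0:ℝ) / 2 ^ (lv m M n v)) hp
      (h.rpos n)).objs (I n) ⟨_, hleg, by
        refine le_max_of_le_left ?_
        rw [Real.rpow_zero]
        exact hleg.w2⟩).card : ℝ) := by
      refine Nat.cast_le.2 (card_le_card fun o ho => ?_)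
      have ho' := (PSys.mem_objs (shS B m M r v l a n)).1 ho
      exact (PSys.mem_objs _).2 ⟨ho'.1, ho'.2.1, inPlank_short ho'.2.2⟩
    refine h2.trans (h1.trans (le_of_eq ?_))
    show _ * (cap p (lv m M n v) ⟨K.1.1, K.1.2.1, K.1.2.2, wd B m M r n v a, wd B m M r n v l⟩ *
      4 ^ (m n)) = _ * (wd B m M r n v a * wd B m M r n v l * 4 ^ (m n))
    unfold cap
    simp only
    ring
  have h3 := Base.ex_le pb1 ((pbw.rpow p).mul pb2) key
  rw [Base.ex_mul (pbw.rpow p) pb2, Base.ex_rpow pbw, ex_wd h hv (hla.trans haR)] at h3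
  unfold ph DD
  simp only
  linarith

open Classical in
theorem mem_objs294 {m' : ℕ} {I : Finset (Ln × ℝ)} {K : Plk} {o : Ln × ℤ} :
    o ∈ K294.objs m' I K ↔ (∃ x ∈ I, K294.ob m' x = o) ∧ InK m' K o := by
  unfold K294.objs
  rw [mem_filter, mem_image]

/-- the extremal shape of the penalised planks -/
theorem exists_shape (h : Fam B m M r I) {p : ℝ} (hp : 0 ≤ p) {v : ℝ} (hv : v ≤ 1) :
    ∃ x ∈ KSh (Rv B m M r v), DD B p hp m M r h.rpos I 0 v ≤ ph B m M r I v x + p * x.1 := by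
  classical
  set P : ∀ n, PSys (Ln × ℝ) := fun n => kP p (m n) (lv m M n v) (r n)
    (B.d n ^ (0:ℝ) / 2 ^ (lv m M n v)) hp (h.rpos n) with hP
  have pbD : B.PB (fun n => (P n).Dmax (I n)) := pb_kP h hp hv
  -- near-maximal planks
  have hex : ∀ n, ∃ K : Plk, Legal (lv m M n v) (r n) K ∧ (0 < (P n).Dmax (I n) →
      (P n).Dmax (I n) / 2 * (cap p (lv m M n v) K * 4 ^ (m n)) ≤
        ((K294.objs (lv m M n v) (I n) K).card : ℝ)) := by
    intro n
    by_cases hD : 0 < (P n).Dmax (I n)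
    · obtain ⟨K, hK⟩ := (P n).exists_lt_dens (I := I n) (D := (P n).Dmax (I n) / 2)
        (by linarith) (by linarith)
      refine ⟨K.1, K.2.1, fun _ => ?_⟩
      unfold PSys.dens at hK
      rw [lt_div_iff₀ ((P n).vol_pos K)] at hK
      refine hK.le.trans (Nat.cast_le.2 (card_le_card fun o ho => ?_))
      have ho' := (PSys.mem_objs (P n)).1 ho
      exact mem_objs294.2 ⟨ho'.1, ho'.2⟩
    · exact ⟨baseK (lv m M n v) (r n) (0, 0), baseK_legal (r_le_cell h n hv) _,
        fun h' => absurd h' hD⟩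
  choose K hKleg hKD using hex
  set c : ℕ → ℝ := fun n => 2 ^ (lv m M n v) with hc
  have hcp : ∀ n, 0 < c n := fun n => by simp only [hc]; positivity
  have hr1 : ∀ n, r n * c n ≤ 1 := fun n => by
    have := r_le_cell h n hv
    rwa [le_div_iff₀ (hcp n)] at this
  have w1p : ∀ n, 0 < (K n).w1 := fun n => (h.rpos n).trans_le (hKleg n).r1
  have w2p : ∀ n, 0 < (K n).w2 := fun n => (w1p n).trans_le (hKleg n).w12
  have hw1 : ∀ n, r n * c n ≤ (K n).w1 * c n := fun n =>
    mul_le_mul_of_nonneg_right (hKleg n).r1 (hcp n).le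
  have hw2 : ∀ n, (K n).w1 * c n ≤ (K n).w2 * c n := fun n =>
    mul_le_mul_of_nonneg_right (hKleg n).w12 (hcp n).le
  have hw3 : ∀ n, (K n).w2 * c n ≤ 1 := fun n => by
    have := (hKleg n).w2
    rwa [le_div_iff₀ (hcp n)] at this
  have pbr := pb_r h hv
  have pb1 : B.PB (fun n => (K n).w1 * c n) :=
    pbr.of_le_of_le (Base.PB.const one_pos) (Eventually.of_forall hw1)
      (Eventually.of_forall fun n => (hw2 n).trans (hw3 n))
  have pb2 : B.PB (fun n => (K n).w2 * c n) :=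
    pb1.of_le_of_le (Base.PB.const one_pos) (Eventually.of_forall hw2)
      (Eventually.of_forall hw3)
  set l : ℝ := - B.ex (fun n => (K n).w2 * c n) with hl
  set a : ℝ := - B.ex (fun n => (K n).w1 * c n) with ha
  have hl0 : 0 ≤ l := by
    have := Base.ex_nonpos pb2 (Eventually.of_forall hw3)
    rw [hl]; linarith
  have hla : l ≤ a := by
    have := Base.ex_le pb1 pb2 (Eventually.of_forall hw2)
    rw [hl, ha]; linarith
  have haR : a ≤ Rv B m M r v := by
    have := Base.ex_le pbr pb1 (Eventually.of_forall hw1)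
    rw [ha]; unfold Rv; linarith
  refine ⟨(l, a), ⟨hl0, hla, haR⟩, ?_⟩
  refine le_of_forall_pos_le_add fun ε hε => ?_
  -- comparison with the planks of shape (l, a)
  set δ : ℝ := ε / 6 with hδ
  have hδ0 : 0 < δ := by rw [hδ]; linarith
  have e1 : ∀ᶠ n in (U : Filter ℕ), B.d n ^ (a + δ) < (K n).w1 * c n := by
    have := Base.lt_ex_dpow pb1 (a := -(a + δ)) (by rw [ha] at *; linarith)
    simpa using this
  have e1' : ∀ᶠ n in (U : Filter ℕ), (K n).w1 * c n < B.d n ^ (a - δ) := by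
    have := Base.ex_lt_iff_dpow pb1 (a := -(a - δ)) (by rw [ha] at *; linarith)
    simpa using this
  have e2 : ∀ᶠ n in (U : Filter ℕ), B.d n ^ (l + δ) < (K n).w2 * c n := by
    have := Base.lt_ex_dpow pb2 (a := -(l + δ)) (by rw [hl] at *; linarith)
    simpa using this
  have e2' : ∀ᶠ n in (U : Filter ℕ), (K n).w2 * c n < B.d n ^ (l - δ) := by
    have := Base.ex_lt_iff_dpow pb2 (a := -(l - δ)) (by rw [hl] at *; linarith)
    simpa using this
  have pbφ := pb_ph h (l := l) (a := a) hv hl0 (hl0.trans hla)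
  have key : ∀ᶠ n in (U : Filter ℕ), (P n).Dmax (I n) * ((K n).w2 * c n) ^ p ≤
      (2 * 625 * 81 * B.d n ^ (-(6 * δ))) * (shS B m M r v l a n).Dmax (I n) := by
    filter_upwards [pbD.pos, e1, e1', e2, e2'] with n hDn f1 f1' f2 f2'
    set X := B.d n ^ (-δ) with hX
    have hX1 : (1 : ℝ) ≤ X :=
      Real.one_le_rpow_of_pos_of_le_one_of_nonpos (B.pos n) (B.lt n).le (by linarith)
    have hX0 : (0 : ℝ) < X := by linarith
    have hXn : (1 : ℝ) ≤ 3 * X := by linarith
    have hcc : 3 * X ≤ (⌈3 * X⌉₊ : ℝ) := Nat.le_ceil _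
    have q1 := wd_pos B m M r n v a
    have q2 := wd_pos B m M r n v l
    have hXmul : ∀ b : ℝ, B.d n ^ (b - δ) = X * B.d n ^ b := by
      intro b; rw [hX, ← dpow_add]; congr 1; ring
    have hXmul' : ∀ b : ℝ, B.d n ^ b = X * B.d n ^ (b + δ) := by
      intro b; rw [hX, ← dpow_add]; congr 1; ring
    -- widths of K against wd
    have g1 : (K n).w1 ≤ X * wd B m M r n v a := by
      have : (K n).w1 ≤ X * (B.d n ^ a / c n) := by
        rw [hXmul] at f1'
        rw [← mul_div_assoc, le_div_iff₀ (hcp n)]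
        exact f1'.le
      exact this.trans (mul_le_mul_of_nonneg_left (le_max_right _ _) hX0.le)
    have g2 : (K n).w2 ≤ X * wd B m M r n v l := by
      have : (K n).w2 ≤ X * (B.d n ^ l / c n) := by
        rw [hXmul] at f2'
        rw [← mul_div_assoc, le_div_iff₀ (hcp n)]
        exact f2'.le
      exact this.trans (mul_le_mul_of_nonneg_left (le_max_right _ _) hX0.le)
    have g3 : wd B m M r n v a ≤ X * (K n).w1 := by
      refine max_le ?_ ?_
      · have := (hKleg n).r1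
        nlinarith [w1p n]
      · rw [hXmul' a, mul_div_assoc]
        refine mul_le_mul_of_nonneg_left ?_ hX0.le
        rw [div_le_iff₀ (hcp n)]
        exact f1.le
    have g4 : wd B m M r n v l ≤ X * (K n).w2 := by
      refine max_le ?_ ?_
      · have := (hKleg n).r1.trans (hKleg n).w12
        nlinarith [w2p n]
      · rw [hXmul' l, mul_div_assoc]
        refine mul_le_mul_of_nonneg_left ?_ hX0.le
        rw [div_le_iff₀ (hcp n)]
        exact f2.le
    -- the covering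
    have k1 := card_cover (m0 := m n) (m' := lv m M n v) q1 q2 (k := ⌈3 * X⌉₊) (j := (K n).j)
      (l := (K n).l) (e := (K n).e) (hKleg n).unit (I := I n)
      (S := K294.objs (lv m M n v) (I n) (K n)) (fun o ho => by
        have ho' := mem_objs294.1 ho
        refine ⟨ho'.1, ho'.2.1, ?_⟩
        have h9 : InPlank o.1 (K n).l (K n).e (K n).w1 (K n).w2 (zm (lv m M n v) (K n).j)
            (zr (lv m M n v)) := ho'.2.2
        refine inPlank_mono ?_ ?_ (inPlank_long h9)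
        · calc 3 * (K n).w1 ≤ 3 * (X * wd B m M r n v a) := by linarith
            _ = (3 * X) * wd B m M r n v a := by ring
            _ ≤ _ := mul_le_mul_of_nonneg_right hcc q1.le
        · calc 3 * (K n).w2 ≤ 3 * (X * wd B m M r n v l) := by linarith
            _ = (3 * X) * wd B m M r n v l := by ring
            _ ≤ _ := mul_le_mul_of_nonneg_right hcc q2.le)
    have k2 := (hKD n hDn).trans k1
    set Dn := (P n).Dmax (I n) with hDdef
    set φn := (shP (m n) (lv m M n v) (wd B m M r n v a) (wd B m M r n v l) q1 q2).Dmax (I n)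
      with hφn
    have hφ0 : 0 ≤ φn := PSys.Dmax_nonneg _ _
    have k3 : (2 * (⌈3 * X⌉₊ : ℝ) + 1) ^ 4 ≤ 625 * 81 * X ^ 4 := by
      refine (ceil_bound hXn).trans (le_of_eq ?_)
      ring
    have k4 : wd B m M r n v a * wd B m M r n v l ≤ X ^ 2 * ((K n).w1 * (K n).w2) := by
      calc wd B m M r n v a * wd B m M r n v l ≤ (X * (K n).w1) * (X * (K n).w2) :=
            mul_le_mul g3 g4 q2.le (mul_nonneg hX0.le (w1p n).le)
        _ = _ := by ring
    have hw12 : 0 < (K n).w1 * (K n).w2 := mul_pos (w1p n) (w2p n)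
    have h4 : (0 : ℝ) < 4 ^ (m n) := by positivity
    have k5 : Dn / 2 * (cap p (lv m M n v) (K n) * 4 ^ (m n)) ≤
        (625 * 81 * X ^ 4) * (φn * (X ^ 2 * ((K n).w1 * (K n).w2) * 4 ^ (m n))) := by
      refine k2.trans ?_
      refine mul_le_mul k3 (mul_le_mul_of_nonneg_left
        (mul_le_mul_of_nonneg_right k4 h4.le) hφ0) ?_ (by positivity)
      exact mul_nonneg hφ0 (by positivity)
    have k6 : Dn / 2 * (cap p (lv m M n v) (K n) * 4 ^ (m n)) =
        (Dn * ((K n).w2 * c n) ^ p) / 2 * ((K n).w1 * (K n).w2 * 4 ^ (m n)) := by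
      unfold cap
      simp only [hc]
      ring
    have k7 : (625 * 81 * X ^ 4) * (φn * (X ^ 2 * ((K n).w1 * (K n).w2) * 4 ^ (m n))) =
        (625 * 81 * X ^ 6 * φn) * ((K n).w1 * (K n).w2 * 4 ^ (m n)) := by ring
    rw [k6, k7] at k5
    have k8 := le_of_mul_le_mul_right k5 (mul_pos hw12 h4)
    have k9 : X ^ 6 = B.d n ^ (-(6 * δ)) := by
      rw [hX, ← Real.rpow_natCast, ← Real.rpow_mul (B.pos n).le]
      congr 1
      push_cast
      ring
    rw [k9] at k8
    have k10 : (shS B m M r v l a n).Dmax (I n) = φn := rfl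
    rw [k10]
    linarith
  have pbc : B.PB (fun n => (2 * 625 * 81 : ℝ) * B.d n ^ (-(6 * δ))) :=
    (Base.PB.const (by norm_num : (0:ℝ) < 2 * 625 * 81)).mul (Base.PB.dpow (-(6 * δ)))
  have h3 := Base.ex_le (pbD.mul (pb2.rpow p)) (pbc.mul pbφ) key
  rw [Base.ex_mul pbD (pb2.rpow p), Base.ex_rpow pb2, Base.ex_mul pbc pbφ,
    Base.ex_mul (Base.PB.const (by norm_num : (0:ℝ) < 2 * 625 * 81)) (Base.PB.dpow _),
    Base.ex_const, Base.ex_dpow] at h3
  have h4 : B.ex (fun n => (K n).w2 * c n) = -l := by rw [hl]; ring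
  rw [h4] at h3
  have h5 : 6 * δ = ε := by rw [hδ]; ring
  have h6 : DD B p hp m M r h.rpos I 0 v = B.ex (fun n => (P n).Dmax (I n)) := rfl
  have h7 : ph B m M r I v (l, a) = B.ex (fun n => (shS B m M r v l a n).Dmax (I n)) := rfl
  rw [h6, h7]
  simp only
  linarith

theorem DD_eq (h : Fam B m M r I) {p : ℝ} (hp : 0 ≤ p) {v : ℝ} (hv : v ≤ 1) :
    DD B p hp m M r h.rpos I 0 v = Sq248.D (KSh (Rv B m M r v)) (ph B m M r I) p v := by
  apply le_antisymm
  · obtain ⟨x, hx, h1⟩ := exists_shape h hp hv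
    exact h1.trans (Sq248.le_D (KSh_compact _) (ph_cont h hv) hx p)
  · exact Sq248.D_le (KSh_compact _) (KSh_nonempty (Rv_nonneg h hv)) fun x hx =>
      ph_le_DD h hp hv hx

/-- stability of the penalised systems -/
theorem stable_kP (h : Fam B m M r I) {v : ℝ} (hv : v ≤ 1)
    (hS : ∀ l a : ℚ, 0 ≤ l → 0 ≤ a → StableF B (fun n J => (shS B m M r v l a n).Dmax J) I)
    {p : ℝ} (hp : 0 ≤ p) :
    StableF B (fun n J => (kP p (m n) (lv m M n v) (r n)
      (B.d n ^ (0 : ℝ) / 2 ^ (lv m M n v)) hp (h.rpos n)).Dmax J) I := by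
  intro J hJ
  have hF := h.dense hJ
  have h1 : DD B p hp m M r h.rpos J 0 v = DD B p hp m M r hF.rpos J 0 v := rfl
  show DD B p hp m M r h.rpos J 0 v = DD B p hp m M r h.rpos I 0 v
  rw [h1, DD_eq hF hp hv, DD_eq h hp hv]
  have hph : ∀ x ∈ KSh (Rv B m M r v), ph B m M r J v x = ph B m M r I v x := by
    rintro ⟨l, a⟩ ⟨h1, h2, h3⟩
    exact stable_real h hv hS h1 (h1.trans h2) J hJ
  unfold Sq248.D
  congr 1
  refine Set.image_congr fun x hx => ?_
  rw [hph x hx]

/-- record sweep, levels `u < v` with their own compact sets of shapes -/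
theorem sweep {S T : Set (ℝ × ℝ)} (hS : IsCompact S) (hSne : S.Nonempty) (hT : IsCompact T)
    (hTne : T.Nonempty) {φ : ℝ → ℝ × ℝ → ℝ} {u v q κ b L ε0 : ℝ} (hε0 : 0 < ε0)
    (hφu : ContinuousOn (φ u) S) (hφv : ContinuousOn (φ v) T)
    (hwin : ∀ ε, 0 < ε → ε ≤ ε0 →
      Sq248.D T φ (q + ε) v - Sq248.D S φ (q + ε) u ≤ L + (b - κ * ε) * (v - u))
    (heq : L + b * (v - u) ≤ Sq248.D T φ q v - Sq248.D S φ q u) :
    κ * (v - u) ≤ Sq248.lp S φ q u - Sq248.lp T φ q v := by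
  obtain ⟨x, hx, hxl⟩ := Sq248.lp_mem hT hTne hφv q
  set A : Set (ℝ × ℝ) := (fun y : ℝ × ℝ => (φ u y, y.1)) '' S with hA
  have hAc : IsCompact A := hS.image_of_continuousOn (hφu.prodMk continuous_fst.continuousOn)
  have hAne : A.Nonempty := hSne.image _
  have hD : ∀ p : ℝ, sSup ((fun y : ℝ × ℝ => y.1 + p * y.2) '' A) = Sq248.D S φ p u := by
    intro p
    rw [hA, Set.image_image]
    rfl
  obtain ⟨z, hzA, hz1, hz2⟩ := Sq248.sweep_compact hAc hAne (x := (φ v x, x.1)) (q := q) (L := L)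
    (b := b) (κ := κ) (h := v - u) hε0
    (by
      intro ε h1 h2
      rw [hD]
      have h3 := hwin ε h1 h2
      have h4 := Sq248.le_D hT hφv hx.1 (q + ε)
      simp only
      linarith)
    (by
      rw [hD]
      simp only
      rw [hx.2]
      linarith)
  obtain ⟨y, hyS, rfl⟩ := hzA
  have hyA : y ∈ Sq248.Arg S φ q u := ⟨hyS, by rw [← hD q]; exact hz1⟩
  have := Sq248.le_lp hS hφu hyA
  simp only at hz2
  rw [← hxl]
  linarith

end Crest.Agent.R138.X248
end

-- ▼ part R138/X1_248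
section

/-!
# R138, helper248: the extremal stable family `XS` (X1 output, all levels)

* `ow_anti`, `ow_lip` : own exponents.
* `exists_xs` : from a near-extremal sequence (`ExtX`) and the upper bounds `Bd` for all penalties
  `p ∈ [q, 2]`: an extremal stable family `XS` with `κ (v - u) ≤ l u - l v`.
-/

set_option autoImplicit false
set_option linter.unusedVariables false

open Filter Topology Finset

namespace Crest.Agent.R138.X248

open Crest.Agent.R138.Ex926 Crest.Agent.R138.Dp76 Crest.Agent.R138.Flag51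
open Crest.Agent.R138.K294 Crest.Agent.R138.Ps926

variable {B : Base} {m M : ℕ → ℕ} {r : ℕ → ℝ} {I J : ℕ → Finset (Ln × ℝ)}

/-! ### own exponents -/

theorem zc_range {m' k : ℕ} (z : ℝ) :
    zc (m' + k) z ∈ Finset.Ico (2 ^ k * zc m' z) (2 ^ k * zc m' z + 2 ^ k) := by
  have h1 := Int.floor_le ((2:ℝ) ^ m' * z)
  have h2 := Int.lt_floor_add_one ((2:ℝ) ^ m' * z)
  have hk : (0:ℝ) < 2 ^ k := by positivity
  unfold zc
  rw [Finset.mem_Ico]
  constructor
  · rw [Int.le_floor]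
    push_cast
    calc (2:ℝ) ^ k * ⌊(2:ℝ) ^ m' * z⌋ ≤ 2 ^ k * (2 ^ m' * z) := by gcongr
      _ = 2 ^ (m' + k) * z := by rw [pow_add]; ring
  · rw [Int.floor_lt]
    push_cast
    calc (2:ℝ) ^ (m' + k) * z = 2 ^ k * (2 ^ m' * z) := by rw [pow_add]; ring
      _ < 2 ^ k * (⌊(2:ℝ) ^ m' * z⌋ + 1) := by gcongr
      _ = _ := by ring

open Classical in
/-- the number of level-`m2` objects of one level-`m1` object -/
theorem card_sub_le {m1 m2 : ℕ} (h12 : m1 ≤ m2) (A : Finset (Ln × ℝ)) (x : Ln × ℝ)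
    (hA : ∀ y ∈ A, K294.ob m1 y = K294.ob m1 x) :
    (A.image (K294.ob m2)).card ≤ 2 ^ (m2 - m1) := by
  obtain ⟨k, rfl⟩ := Nat.exists_eq_add_of_le h12
  rw [Nat.add_sub_cancel_left]
  have h1 : A.image (K294.ob (m1 + k)) ⊆
      (Finset.Ico (2 ^ k * zc m1 x.2) (2 ^ k * zc m1 x.2 + 2 ^ k)).image fun j => (x.1, j) := by
    intro o ho
    obtain ⟨y, hy, rfl⟩ := mem_image.1 ho
    have h2 : (y.1, zc m1 y.2) = (x.1, zc m1 x.2) := hA y hy
    have h3 : y.1 = x.1 := (Prod.ext_iff.1 h2).1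
    have h4 : zc m1 y.2 = zc m1 x.2 := (Prod.ext_iff.1 h2).2
    refine mem_image.2 ⟨zc (m1 + k) y.2, ?_, ?_⟩
    · rw [← h4]; exact zc_range y.2
    · unfold K294.ob; rw [h3]
  refine (card_le_card h1).trans (card_image_le.trans ?_)
  rw [Int.card_Ico]
  have : 2 ^ k * zc m1 x.2 + 2 ^ k - 2 ^ k * zc m1 x.2 = ((2 ^ k : ℕ) : ℤ) := by push_cast; ring
  rw [this, Int.toNat_natCast]

theorem cmax_anti {m1 m2 : ℕ} (h12 : m1 ≤ m2) (A : Finset (Ln × ℝ)) :
    cmax (K294.ob m2) A ≤ cmax (K294.ob m1) A := by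
  classical
  refine cmax_le _ fun x hx => ?_
  refine le_trans (card_le_card fun y hy => ?_) (le_cmax (K294.ob m1) hx)
  rw [mem_filter] at hy ⊢
  refine ⟨hy.1, ?_⟩
  have h0 : (y.1, zc m2 y.2) = (x.1, zc m2 x.2) := hy.2
  have h1 : y.1 = x.1 := (Prod.ext_iff.1 h0).1
  have h2 : zc m2 y.2 = zc m2 x.2 := (Prod.ext_iff.1 h0).2
  unfold K294.ob
  rw [h1, zc_nested h12 h2]

theorem cmax_lip {m1 m2 : ℕ} (h12 : m1 ≤ m2) (A : Finset (Ln × ℝ)) :
    cmax (K294.ob m1) A ≤ 2 ^ (m2 - m1) * cmax (K294.ob m2) A := by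
  classical
  refine cmax_le _ fun x hx => ?_
  have h1 := card_le_ncl_mul_cmax (K294.ob m2) (A.filter fun y => K294.ob m1 y = K294.ob m1 x)
  refine h1.trans (Nat.mul_le_mul ?_ (cmax_mono _ (filter_subset _ _)))
  have h2 := card_sub_le h12 (A.filter fun y => K294.ob m1 y = K294.ob m1 x) x
    (fun y hy => (mem_filter.1 hy).2)
  refine le_trans (le_of_eq ?_) h2
  unfold ncl
  congr!

theorem pb_cmax (h : Fam B m M r I) (v : ℝ) :
    B.PB (fun n => (cmax (K294.ob (lv m M n v)) (I n) : ℝ)) :=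
  (monoF_cmax h.card_pb (fun n => K294.ob (lv m M n v))).pb
    (Eventually.of_forall fun n => Subset.refl _) h.ne

theorem ow_anti (h : Fam B m M r I) {u v : ℝ} (huv : u ≤ v) : ow B m M I v ≤ ow B m M I u :=
  Base.ex_le (pb_cmax h v) (pb_cmax h u) (Eventually.of_forall fun n => by
    exact_mod_cast cmax_anti (lv_mono huv) (I n))

theorem ow_lip (h : Fam B m M r I) {u v : ℝ} (hu : 0 ≤ u) (huv : u ≤ v) :
    ow B m M I u ≤ ow B m M I v + (v - u) := by
  have h1 : Tendsto (B.lg (fun n => (2 : ℝ) ^ (lv m M n v - lv m M n u))) U (𝓝 (v - u)) := by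
    refine (h.lv_lim hu huv).congr fun n => ?_
    unfold Base.lg
    rw [Real.log_pow, h.L_eq n]
    have := (Real.log_pos one_lt_two).ne'
    have := (h.M_pos n).ne'
    field_simp
  have pb2 : B.PB (fun n => (2 : ℝ) ^ (lv m M n v - lv m M n u)) :=
    Base.PB.of_tendsto (Eventually.of_forall fun n => by positivity) h1
  have h3 := Base.ex_le (pb_cmax h u) (pb2.mul (pb_cmax h v)) (Eventually.of_forall fun n => by
    exact_mod_cast cmax_lip (lv_mono huv) (I n))
  rw [Base.ex_mul pb2 (pb_cmax h v), Base.ex_eq_of_tendsto h1] at h3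
  unfold ow
  linarith

/-- the profile -/
noncomputable def Lam (B : Base) (m M : ℕ → ℕ) (I : ℕ → Finset (Ln × ℝ)) (v : ℝ) : ℝ :=
  v - (ow B m M I 0 - ow B m M I v)

theorem ev_of_ex_le {X Y : ℕ → ℝ} (hX : B.PB X) (hY : B.PB Y) (h : B.ex X ≤ B.ex Y) {ε : ℝ}
    (hε : 0 < ε) : ∀ᶠ n in (U : Filter ℕ), B.d n ^ ε * X n ≤ Y n := by
  obtain ⟨e, he, h1⟩ := Base.ev_lt_of_ex_lt ((Base.PB.dpow ε).mul hX) hY (by
    rw [Base.ex_mul (Base.PB.dpow ε) hX, Base.ex_dpow]; linarith)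
  filter_upwards [h1, hY.pos] with n h2 h3
  exact h2.trans (mul_le_of_le_one_left h3.le (dpow_le_one B n he.le))

theorem Bd_of {p b : ℝ} (h : ∀ R C, K294.Bd p b R C) : ∀ R C, Ps926.Bd p b R C := by
  intro R C η hη
  obtain ⟨M0, h0⟩ := h R C η hη
  refine ⟨M0, fun F hF hM hr hI => h0 F hF hM ⟨?_, hI⟩⟩
  refine le_trans (le_of_eq ?_) hr
  rw [one_div, Real.inv_rpow (by norm_num), Real.rpow_neg (by norm_num)]

/-! ### the extremal stable family -/

/-- upper bounds and near-extremal sequence -/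
structure InX (q κ β : ℝ) : Prop where
  q0 : 0 < q
  q2 : q < 2
  κ0 : 0 < κ
  β0 : 0 < β
  ub : ∀ p : ℝ, q ≤ p → p ≤ 2 → ∀ x ∈ valSet p, x ≤ β + κ * (q - p)
  nx : ∃ F, NearX F q β

theorem inX_of_joint {q0 κ q β R0 C0 : ℝ} (h0 : 0 < q0) (hκ : 0 < κ) (hβ : 0 < β) (hq : q0 ≤ q)
    (hq2 : q < 2) (hub : ∀ p, q0 ≤ p → p ≤ 2 → ∀ R C, K294.Bd p (β + κ * (q - p)) R C)
    (hex : ∀ η : ℝ, 0 < η → ∀ M0 : ℕ, ∃ F : Cf, F.Ok q ∧ M0 ≤ F.M ∧ F.Sz R0 C0 ∧
      β - η ≤ F.val) : InX q κ β := by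
  refine ⟨h0.trans_le hq, hq2, hκ, hβ, fun p hp1 hp2 => le_of_Bd (Bd_of (hub p (hq.trans hp1) hp2)),
    ?_⟩
  have h1 : ∀ n : ℕ, (0 : ℝ) < 1 / ((n : ℝ) + 1) := fun n => by positivity
  choose F hF using fun n : ℕ => hex (1 / ((n : ℝ) + 1)) (h1 n) n
  refine ⟨F, fun n => (hF n).1, fun n => (hF n).2.1, ⟨max R0 C0, fun n => ?_⟩, ?_⟩
  · obtain ⟨-, -, h2, -⟩ := hF n
    have hM : (0 : ℝ) ≤ (F n).M := Nat.cast_nonneg _
    refine ⟨h2.card.trans (Real.rpow_le_rpow_of_exponent_le (by norm_num)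
      (mul_le_mul_of_nonneg_right (le_max_right _ _) hM)), le_trans ?_ h2.resX⟩
    refine Real.rpow_le_rpow_of_exponent_le (by norm_num) ?_
    have := mul_le_mul_of_nonneg_right (le_max_left R0 C0) hM
    linarith
  · intro η hη
    have h2 : ∀ᶠ n : ℕ in atTop, 1 / ((n : ℝ) + 1) < η := by
      have := (tendsto_order.1 tendsto_one_div_add_atTop_nhds_zero_nat).2 η hη
      exact this
    filter_upwards [ev_of_atTop h2] with n hn
    have := (hF n).2.2.2
    linarith

theorem exists_stable_all (h : Fam B m M r I) :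
    ∃ J : ℕ → Finset (Ln × ℝ), Dense B J I ∧
      (∀ v : ℚ, 0 ≤ v → v ≤ 1 → ∀ l a : ℚ, 0 ≤ l → 0 ≤ a →
        StableF B (fun n J => (shS B m M r v l a n).Dmax J) J) ∧
      ∀ v : ℚ, 0 ≤ v → v ≤ 1 → Unif B (fun n => K294.ob (lv m M n v)) J := by
  obtain ⟨e, he⟩ := exists_surjective_nat (ℚ × ℚ × ℚ)
  set cv : ℕ → ℚ := fun j => max 0 (min (e j).1 1) with hcv
  set c1 : ℕ → ℚ := fun j => max (e j).2.1 0 with hc1
  set c2 : ℕ → ℚ := fun j => max (e j).2.2 0 with hc2
  have hcv1 : ∀ j, ((cv j : ℚ) : ℝ) ≤ 1 := fun j => by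
    have : cv j ≤ 1 := max_le (by norm_num) (min_le_right _ _)
    exact_mod_cast this
  have hc10 : ∀ j, (0 : ℝ) ≤ ((c1 j : ℚ) : ℝ) := fun j => by
    have : 0 ≤ c1 j := le_max_right _ _
    exact_mod_cast this
  have hc20 : ∀ j, (0 : ℝ) ≤ ((c2 j : ℚ) : ℝ) := fun j => by
    have : 0 ≤ c2 j := le_max_right _ _
    exact_mod_cast this
  obtain ⟨J, h1, h2, h3⟩ := exists_calc (α := fun _ => Ln × ℝ) (κ := fun _ => Ln × ℤ) h.card_pb
    (fun j n A => (shS B m M r (cv j) (c1 j) (c2 j) n).Dmax A)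
    (fun j => monoF_Dmax (padm_shS h (hcv1 j) (hc10 j) (hc20 j)))
    (fun j n => K294.ob (lv m M n (cv j)))
  refine ⟨J, h1, fun v hv0 hv1 l a hl ha => ?_, fun v hv0 hv1 => ?_⟩
  · obtain ⟨j, hj⟩ := he (v, l, a)
    have e1 : cv j = v := by simp only [hcv, hj]; rw [min_eq_left hv1, max_eq_right hv0]
    have e2 : c1 j = l := by simp only [hc1, hj]; exact max_eq_left hl
    have e3 : c2 j = a := by simp only [hc2, hj]; exact max_eq_left ha
    have := h2 j
    rwa [e1, e2, e3] at this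
  · obtain ⟨j, hj⟩ := he (v, 0, 0)
    have e1 : cv j = v := by simp only [hcv, hj]; rw [min_eq_left hv1, max_eq_right hv0]
    have := h3 j
    rwa [e1] at this

/-- window inequality in `Λ` form -/
theorem win (h : Fam B m M r J) {κ β q : ℝ} (hin : InX q κ β)
    (hS : ∀ v : ℚ, 0 ≤ v → v ≤ 1 → ∀ l a : ℚ, 0 ≤ l → 0 ≤ a →
        StableF B (fun n J => (shS B m M r v l a n).Dmax J) J)
    (hU : ∀ v : ℚ, 0 ≤ v → v ≤ 1 → Unif B (fun n => K294.ob (lv m M n v)) J)
    {u v : ℚ} (hu : 0 ≤ u) (huv : u < v) (hv : v ≤ 1) {p : ℝ} (hp0 : 0 ≤ p) (hp1 : q ≤ p)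
    (hp2 : p ≤ 2) :
    DD B p hp0 m M r h.rpos J 0 v - DD B p hp0 m M r h.rpos J 0 u ≤
      2 * (Lam B m M J v - Lam B m M J u) + (β + κ * (q - p)) * ((v : ℝ) - u) := by
  have hu' : (0 : ℝ) ≤ u := by exact_mod_cast hu
  have huv' : (u : ℝ) < v := by exact_mod_cast huv
  have hv' : (v : ℝ) ≤ 1 := by exact_mod_cast hv
  have h1 := window_ineq h hp0 hu' huv' hv'
    (stable_kP h hv' (hS v (hu.trans huv.le) hv) hp0)
    (hU u hu (huv.le.trans hv)) (hU v (hu.trans huv.le) hv) (hin.ub p hp1 hp2)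
  unfold Lam
  linarith

/-- **X1**: the extremal stable family. -/
theorem exists_xs {q κ β : ℝ} (hin : InX q κ β) (hExt : ExtX) :
    ∃ (B : Base) (m M : ℕ → ℕ) (r : ℕ → ℝ) (I : ℕ → Finset (Ln × ℝ)) (A : ℕ → ℝ)
      (Λ l : ℝ → ℝ) (w1 w2 : ℕ → ℚ → ℝ) (h1 : ∀ n v, 0 < w1 n v) (h2 : ∀ n v, 0 < w2 n v),
      XS B m M r I A q β Λ l w1 w2 h1 h2 ∧
      ∀ u v : ℚ, 0 ≤ u → u ≤ v → v ≤ 1 → κ * ((v : ℝ) - u) ≤ l u - l v := by
  classical
  obtain ⟨F, hF⟩ := hin.nx
  obtain ⟨B, m, M, r, hr, I0, hfam0, hone0, htot0⟩ := hExt F q β hin.q0.le hF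
  obtain ⟨I, hd, hS, hU⟩ := exists_stable_all hfam0
  have h := hfam0.dense hd
  have htot := htot0 I hd
  set Λ : ℝ → ℝ := Lam B m M I with hΛ
  set DQ : ℝ → ℝ := fun v => DD B q hin.q0.le m M r h.rpos I 0 v with hDQ
  have hrr : hr = h.rpos := rfl
  have hone : ∀ᶠ n in (U : Filter ℕ), ∀ x ∈ I n, ∀ y ∈ I n,
      K294.ob (m n + M n) x = K294.ob (m n + M n) y → x = y := by
    filter_upwards [hd.1] with n hn x hx y hy hxy
    exact hone0 n x (hn hx) y (hn hy) hxy
  -- the profile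
  have hlam : ∀ u v : ℝ, 0 ≤ u → u ≤ v → v ≤ 1 → 0 ≤ Λ v - Λ u ∧ Λ v - Λ u ≤ v - u := by
    intro u v hu huv hv
    have a1 := ow_anti h huv
    have a2 := ow_lip h hu huv
    simp only [hΛ, Lam]
    constructor <;> linarith
  have hlam0 : Λ 0 = 0 := by simp only [hΛ, Lam]; ring
  have how1 : ow B m M I 1 = 0 := by
    have e1 : ∀ᶠ n in (U : Filter ℕ), (cmax (K294.ob (lv m M n 1)) (I n) : ℝ) = 1 := by
      filter_upwards [hone, h.ne] with n hn hne
      have a1 : cmax (K294.ob (lv m M n 1)) (I n) ≤ 1 := by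
        refine cmax_le _ fun x hx => ?_
        rw [card_le_one]
        intro y hy z hz
        rw [mem_filter] at hy hz
        rw [lv_one] at hy hz
        exact hn y hy.1 z hz.1 (hy.2.trans hz.2.symm)
      have a2 := one_le_cmax (K294.ob (lv m M n 1)) hne
      have : cmax (K294.ob (lv m M n 1)) (I n) = 1 := le_antisymm a1 a2
      exact_mod_cast this
    unfold ow
    rw [Base.ex_congr (pb_cmax h 1) e1, Base.ex_const]
  have htot' : 2 * Λ 1 + β ≤ DQ 1 - DQ 0 := by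
    simp only [hΛ, Lam, hDQ]
    linarith
  have hwin := fun {u v : ℚ} (hu : 0 ≤ u) (huv : u < v) (hv : v ≤ 1) {p : ℝ} (hp0 : 0 ≤ p)
    (hp1 : q ≤ p) (hp2 : p ≤ 2) => win h hin hS hU hu huv hv hp0 hp1 hp2
  have heq : ∀ v : ℚ, 0 ≤ v → v ≤ 1 → DQ v = DQ 0 + 2 * Λ v + β * v := by
    intro v hv0 hv1
    have a1 : DQ v - DQ 0 ≤ 2 * Λ v + β * v := by
      rcases hv0.eq_or_lt with h0 | h0
      · rw [← h0]; simp [hlam0]
      · have := hwin le_rfl h0 hv1 hin.q0.le le_rfl hin.q2.le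
        simp only [Rat.cast_zero] at this
        have e : Lam B m M I 0 = 0 := hlam0
        rw [e] at this
        simp only [hDQ]
        have e2 : κ * (q - q) = 0 := by ring
        rw [e2] at this
        linarith
    have a2 : DQ 1 - DQ v ≤ 2 * (Λ 1 - Λ v) + β * (1 - v) := by
      rcases hv1.eq_or_lt with h0 | h0
      · rw [h0]; simp
      · have := hwin hv0 h0 le_rfl hin.q0.le le_rfl hin.q2.le
        simp only [Rat.cast_one] at this
        have e2 : κ * (q - q) = 0 := by ring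
        rw [e2] at this
        simp only [hDQ]
        linarith
    linarith
  -- the shapes
  have hshape : ∀ v : ℚ, ∃ x : ℝ × ℝ, v ≤ 1 → x ∈ Sq248.Arg (KSh (Rv B m M r v)) (ph B m M r I) q v ∧
      x.1 = Sq248.lp (KSh (Rv B m M r v)) (ph B m M r I) q v := by
    intro v
    by_cases hv : v ≤ 1
    · have hv' : (v : ℝ) ≤ 1 := by exact_mod_cast hv
      obtain ⟨x, hx1, hx2⟩ := Sq248.lp_mem (KSh_compact _) (KSh_nonempty (Rv_nonneg h hv'))
        (ph_cont h hv') q
      exact ⟨x, fun _ => ⟨hx1, hx2⟩⟩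
    · exact ⟨0, fun h' => absurd h' hv⟩
  choose s hs using hshape
  set l : ℝ → ℝ := fun v => Sq248.lp (KSh (Rv B m M r v)) (ph B m M r I) q v with hl
  have hsl : ∀ v : ℚ, v ≤ 1 → (s v).1 = l v := fun v hv => (hs v hv).2
  have hsK : ∀ v : ℚ, v ≤ 1 → s v ∈ KSh (Rv B m M r v) := fun v hv => (hs v hv).1.1
  have hsφ : ∀ v : ℚ, 0 ≤ v → v ≤ 1 → ph B m M r I v (s v) = DQ v - q * (s v).1 := by
    intro v hv0 hv
    have hv' : (v : ℝ) ≤ 1 := by exact_mod_cast hv
    have a1 := (hs v hv).1.2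
    rw [← DD_eq h hin.q0.le hv'] at a1
    simp only [hDQ]
    linarith
  set w1 : ℕ → ℚ → ℝ := fun n v => wd B m M r n v (s v).2 with hw1
  set w2 : ℕ → ℚ → ℝ := fun n v => wd B m M r n v (s v).1 with hw2
  have h1 : ∀ n v, 0 < w1 n v := fun n v => wd_pos B m M r n v _
  have h2 : ∀ n v, 0 < w2 n v := fun n v => wd_pos B m M r n v _
  -- the amplitude
  set X : ℚ → ℕ → ℝ := fun v n => (kP q (m n) (lv m M n v) (r n)
    (B.d n ^ (0:ℝ) / 2 ^ (lv m M n v)) hin.q0.le (h.rpos n)).Dmax (I n) with hX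
  have pbX : ∀ v : ℚ, v ≤ 1 → B.PB (X v) := fun v hv =>
    pb_kP h hin.q0.le (by exact_mod_cast hv)
  have exX : ∀ v : ℚ, B.ex (X v) = DQ v := fun v => rfl
  set A : ℕ → ℝ := fun n => if 0 < X 0 n then X 0 n * 4 ^ (m n) else 1 with hA
  have hApos : ∀ n, 0 < A n := by
    intro n
    simp only [hA]
    split_ifs with hp
    · positivity
    · norm_num
  have hAev : ∀ᶠ n in (U : Filter ℕ), A n = X 0 n * 4 ^ (m n) := by
    filter_upwards [(pbX 0 (by norm_num)).pos] with n hn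
    simp only [hA]
    rw [if_pos hn]
  have hrho : ∀ n (v : ℚ), (Mk163.rho (lv m M n v)) ^ (-q) = ((2 : ℝ) ^ (lv m M n v)) ^ q := by
    intro n v
    unfold Mk163.rho
    rw [one_div, Real.inv_rpow (by positivity), Real.rpow_neg (by positivity), inv_inv]
  refine ⟨B, m, M, r, I, A, Λ, l, w1, w2, h1, h2, ?_, ?_⟩
  · refine ⟨h, hone, hin.q0, hin.q2.le, hin.β0, hApos, hlam0, hlam, hU, ?_, ?_, ?_, ?_, ?_, ?_, ?_⟩
    · -- own
      intro v hv0 hv1
      have e1 : Λ 1 - Λ v = (1 - v) - (ow B m M I v - ow B m M I 1) := by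
        simp only [hΛ, Lam]; ring
      rw [e1, how1]; ring
    · -- dims
      intro v hv0 hv1 n
      have hv' : (v : ℝ) ≤ 1 := by exact_mod_cast hv1
      obtain ⟨a1, a2, a3⟩ := hsK v hv1
      exact ⟨r_le_wd n v _, wd_anti n v a2, wd_le h n hv' a1⟩
    · -- wide
      intro v hv0 hv1
      have hv' : (v : ℝ) ≤ 1 := by exact_mod_cast hv1
      obtain ⟨a1, a2, a3⟩ := hsK v hv1
      have b1 := (pb_wd h hv' (s v).1).tendsto
      rw [ex_wd h hv' (a2.trans a3)] at b1
      have b2 := b1.neg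
      rw [neg_neg] at b2
      rw [← hsl v hv1]
      refine b2.congr fun n => ?_
      unfold Base.lg Mk163.rho
      have c1 := wd_pos B m M r n v (s v).1
      have c2 : (0 : ℝ) < 2 ^ (lv m M n v) := by positivity
      show -(Real.log (wd B m M r n v (s v).1 * 2 ^ (lv m M n v)) / B.L n) =
        Real.log (1 / 2 ^ (lv m M n v) / w2 n v) / B.L n
      rw [← neg_div, ← Real.log_inv]
      congr 2
      simp only [hw2]
      field_simp
    · -- adm
      intro v hv0 hv1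
      have hv' : (v : ℝ) ≤ 1 := by exact_mod_cast hv1
      obtain ⟨a1, a2, a3⟩ := hsK v hv1
      exact padm_shS h hv' a1 (a1.trans a2)
    · -- st
      intro v hv0 hv1
      have hv' : (v : ℝ) ≤ 1 := by exact_mod_cast hv1
      obtain ⟨a1, a2, a3⟩ := hsK v hv1
      exact stable_real h hv' (hS v hv0 hv1) a1 (a1.trans a2)
    · -- near
      intro v hv0 hv1 ε hε
      have hv' : (v : ℝ) ≤ 1 := by exact_mod_cast hv1
      obtain ⟨a1, a2, a3⟩ := hsK v hv1
      have pb1 := pbX 0 (by norm_num)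
      have pb2 := pb_wd h hv' (s v).1
      have pb3 := pb_ph h (l := (s v).1) (a := (s v).2) hv' a1 (a1.trans a2)
      have pb4 : B.PB (fun n => X 0 n * B.d n ^ (-(2 * Λ v + β * v)) *
          (wd B m M r n v (s v).1 * 2 ^ (lv m M n v)) ^ q) :=
        (pb1.mul (Base.PB.dpow _)).mul (pb2.rpow q)
      have ex4 : B.ex (fun n => X 0 n * B.d n ^ (-(2 * Λ v + β * v)) *
          (wd B m M r n v (s v).1 * 2 ^ (lv m M n v)) ^ q) ≤
          B.ex (fun n => (shS B m M r v (s v).1 (s v).2 n).Dmax (I n)) := by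
        rw [Base.ex_mul (pb1.mul (Base.PB.dpow _)) (pb2.rpow q), Base.ex_mul pb1 (Base.PB.dpow _),
          Base.ex_rpow pb2, Base.ex_dpow, ex_wd h hv' (a2.trans a3), exX 0]
        have b1 : B.ex (fun n => (shS B m M r v (s v).1 (s v).2 n).Dmax (I n)) =
          ph B m M r I v (s v) := rfl
        rw [b1, hsφ v hv0 hv1, heq v hv0 hv1]
        simp only [Rat.cast_zero]
        linarith
      filter_upwards [ev_of_ex_le pb4 pb3 ex4 hε, hAev] with n b1 b2
      have c1 := h1 n v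
      have c2 := h2 n v
      have e1 : B.d n ^ ε * (Mk163.amp B (fun n v => lv m M n v) A q β Λ n v *
          (w1 n v * w2 n v ^ (1 + q))) =
          (B.d n ^ ε * (X 0 n * B.d n ^ (-(2 * Λ v + β * v)) *
          (wd B m M r n v (s v).1 * 2 ^ (lv m M n v)) ^ q)) * (w1 n v * w2 n v * 4 ^ (m n)) := by
        unfold Mk163.amp
        rw [hrho n v, b2, Real.rpow_add c2, Real.rpow_one]
        have e3 : (wd B m M r n v (s v).1 * 2 ^ (lv m M n v)) ^ q =
            w2 n v ^ q * ((2 : ℝ) ^ (lv m M n v)) ^ q := by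
          rw [Real.mul_rpow c2.le (by positivity)]
        rw [e3]
        ring
      rw [e1]
      refine mul_le_mul_of_nonneg_right ?_ (by positivity)
      exact b1
    · -- up
      intro v hv0 hv1 ε hε
      have hv' : (v : ℝ) ≤ 1 := by exact_mod_cast hv1
      have pb1 := pbX 0 (by norm_num)
      have pb2 := pbX v hv1
      have pb3 : B.PB (fun n => X 0 n * B.d n ^ (-(2 * Λ v + β * v))) := pb1.mul (Base.PB.dpow _)
      have ex3 : B.ex (X v) ≤ B.ex (fun n => X 0 n * B.d n ^ (-(2 * Λ v + β * v))) := by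
        rw [Base.ex_mul pb1 (Base.PB.dpow _), Base.ex_dpow, exX 0, exX v, heq v hv0 hv1]
        simp only [Rat.cast_zero]
        linarith
      filter_upwards [ev_of_ex_le pb2 pb3 ex3 hε, hAev] with n b1 b2 K hK
      have c1 := (h.rpos n).trans_le hK.r1
      have c2 := c1.trans_le hK.w12
      have g1 := (kP q (m n) (lv m M n v) (r n) (B.d n ^ (0:ℝ) / 2 ^ (lv m M n v)) hin.q0.le
        (h.rpos n)).objs_card_le_Dmax (I n) ⟨K, hK, by
          refine le_max_of_le_left ?_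
          rw [Real.rpow_zero]
          exact hK.w2⟩
      have g2 : ((K294.objs (lv m M n v) (I n) K).card : ℝ) ≤
          X v n * (cap q (lv m M n v) K * 4 ^ (m n)) := by
        refine le_trans ?_ g1
        refine Nat.cast_le.2 (card_le_card fun o ho => ?_)
        have ho' := mem_objs294.1 ho
        exact (PSys.mem_objs _).2 ⟨ho'.1, ho'.2⟩
      refine g2.trans ?_
      have e2 : X v n ≤ B.d n ^ (-ε) * (X 0 n * B.d n ^ (-(2 * Λ v + β * v))) := by
        have e3 : X v n = B.d n ^ (-ε) * (B.d n ^ ε * X v n) := by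
          rw [← mul_assoc, ← dpow_add]
          simp
        rw [e3]
        exact mul_le_mul_of_nonneg_left b1 (dpow_pos B n _).le
      have e4 : B.d n ^ (-ε) * (Mk163.amp B (fun n v => lv m M n v) A q β Λ n v *
          (K.w1 * K.w2 ^ (1 + q))) = (B.d n ^ (-ε) * (X 0 n * B.d n ^ (-(2 * Λ v + β * v)))) *
          (cap q (lv m M n v) K * 4 ^ (m n)) := by
        unfold Mk163.amp cap
        rw [hrho n v, b2, Real.rpow_add c2, Real.rpow_one, Real.mul_rpow c2.le (by positivity)]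
        ring
      rw [e4]
      refine mul_le_mul_of_nonneg_right e2 ?_
      exact mul_nonneg (cap_pos (h.rpos n) hK).le (by positivity)
  · -- sweep
    intro u v hu huv hv
    rcases huv.eq_or_lt with h0 | h0
    · rw [h0]; simp
    have hu' : (u : ℝ) ≤ 1 := by exact_mod_cast huv.trans hv
    have hv' : (v : ℝ) ≤ 1 := by exact_mod_cast hv
    have hε0 : 0 < 2 - q := by linarith [hin.q2]
    refine sweep (KSh_compact _) (KSh_nonempty (Rv_nonneg h hu')) (KSh_compact _)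
      (KSh_nonempty (Rv_nonneg h hv')) (b := β) (L := 2 * (Λ v - Λ u)) hε0 (ph_cont h hu')
      (ph_cont h hv') ?_ ?_
    · intro ε he1 he2
      have hp0 : 0 ≤ q + ε := by linarith [hin.q0]
      rw [← DD_eq h hp0 hv', ← DD_eq h hp0 hu']
      have := hwin hu h0 hv hp0 (by linarith) (by linarith)
      refine this.trans (le_of_eq ?_)
      ring
    · rw [← DD_eq h hin.q0.le hv', ← DD_eq h hin.q0.le hu']
      have a1 := heq v (hu.trans huv) hv
      have a2 := heq u hu (huv.trans hv)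
      simp only [hDQ] at a1 a2
      linarith


end Crest.Agent.R138.X248
end

-- ▼ part R138/Ext_615
section

/-!
# R138, TEXT I, L6 first half (helper615): `X248.ExtX`

Representatives (one incidence per line and top cell) of a near-extremal sequence of configurations
form a family; for every dense part `J` the value `β` is reached between the levels `0` and `1`.
-/

set_option autoImplicit false
set_option linter.unusedVariables false

open Filter Topology Finset

namespace Crest.Agent.R138.Ext615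

open Crest.Agent.R138.Ex926 Crest.Agent.R138.Dp76 Crest.Agent.R138.Flag51
open Crest.Agent.R138.K294 Crest.Agent.R138.Ps926 Crest.Agent.R138.X248

/-! ### finite part -/

/-- representatives of the fibres of `f` -/
theorem exists_rep {α β : Type*} (S : Finset α) (f : α → β) :
    ∃ R : Finset α, R ⊆ S ∧ (∀ y ∈ S, ∃ z ∈ R, f z = f y) ∧
      ∀ x ∈ R, ∀ y ∈ R, f x = f y → x = y := by
  classical
  rcases S.eq_empty_or_nonempty with rfl | ⟨x0, hx0⟩
  · exact ⟨∅, by simp, by simp, by simp⟩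
  have : Nonempty α := ⟨x0⟩
  have h : ∀ b ∈ S.image f, ∃ a ∈ S, f a = b := fun b hb => by
    obtain ⟨a, ha, rfl⟩ := mem_image.1 hb
    exact ⟨a, ha, rfl⟩
  choose! g hg1 hg2 using h
  refine ⟨(S.image f).image g, ?_, ?_, ?_⟩
  · intro x hx
    obtain ⟨b, hb, rfl⟩ := mem_image.1 hx
    exact hg1 b hb
  · intro y hy
    have hb : f y ∈ S.image f := mem_image_of_mem f hy
    exact ⟨g (f y), mem_image_of_mem g hb, hg2 _ hb⟩
  · intro x hx y hy h
    obtain ⟨b, hb, rfl⟩ := mem_image.1 hx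
    obtain ⟨c, hc, rfl⟩ := mem_image.1 hy
    rw [hg2 b hb, hg2 c hc] at h
    rw [h]

/-- pigeonhole: some class of `J` has at least the same proportion -/
theorem exists_class {α κ : Type*} [DecidableEq κ] (g : α → κ) {J R : Finset α} (hJR : J ⊆ R) (hne : J.Nonempty)
    {δ : ℝ} (hδ : 0 ≤ δ) (hd : δ * (R.card : ℝ) ≤ (J.card : ℝ)) :
    ∃ x ∈ J, δ * ((R.filter fun y => g y = g x).card : ℝ) ≤
      ((J.filter fun y => g y = g x).card : ℝ) := by
  by_contra hcon
  push Not at hcon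
  have h1 : J.card = ∑ k ∈ J.image g, (J.filter fun y => g y = k).card :=
    card_eq_sum_card_image g J
  have h2 : ∑ k ∈ J.image g, (R.filter fun y => g y = k).card ≤ R.card := by
    rw [card_eq_sum_card_image g R]
    exact sum_le_sum_of_subset (image_subset_image hJR)
  have h3 : (J.card : ℝ) < δ * ∑ k ∈ J.image g, ((R.filter fun y => g y = k).card : ℝ) := by
    rw [h1, mul_sum]
    push_cast
    refine sum_lt_sum_of_nonempty (hne.image g) fun k hk => ?_
    obtain ⟨x, hx, rfl⟩ := mem_image.1 hk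
    exact hcon x hx
  have h4 : δ * ∑ k ∈ J.image g, ((R.filter fun y => g y = k).card : ℝ) ≤ δ * R.card := by
    refine mul_le_mul_of_nonneg_left ?_ hδ
    exact_mod_cast h2
  linarith

theorem ob_mem_objs {m : ℕ} {I : Finset (Ln × ℝ)} {K : Plk} {y : Ln × ℝ} (hy : y ∈ I)
    (h : InK m K (K294.ob m y)) : K294.ob m y ∈ K294.objs m I K := by
  classical
  unfold K294.objs
  rw [mem_filter, mem_image]
  exact ⟨⟨y, hy, rfl⟩, h⟩

section

variable {F : Cf} {q : ℝ} {R J : Finset (Ln × ℝ)}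

theorem D0_pos (hF : F.Ok q) : 0 < F.D0 := by
  classical
  obtain ⟨x, hx⟩ := hF.ne
  have hle : F.r ≤ 1 / 2 ^ F.m := hF.rle.trans
    (one_div_le_one_div_of_le (by positivity)
      (pow_le_pow_right₀ one_le_two (Nat.le_add_right _ _)))
  have hleg := baseK_legal hle x
  have h1 := hF.up _ hleg
  have h2 : (1 : ℝ) ≤ (objs F.m F.I (baseK F.m F.r x)).card := by
    have : 0 < (objs F.m F.I (baseK F.m F.r x)).card := by
      refine card_pos.2 ⟨K294.ob F.m x, ?_⟩
      unfold K294.objs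
      exact mem_filter.2 ⟨mem_image_of_mem _ hx, baseK_mem hF.r0.le x⟩
    exact_mod_cast this
  have h3 := cap_pos (q := q) hF.r0 hleg
  by_contra hcon
  push Not at hcon
  nlinarith

/-- top level: density of the classes -/
theorem top_ge (hF : F.Ok q) (hq : 0 ≤ q) (hr : 0 < F.r)
    (hRI : R ⊆ F.I) (hR : ∀ y ∈ F.I, ∃ z ∈ R, K294.ob F.top z = K294.ob F.top y)
    (hinj : ∀ x ∈ R, ∀ y ∈ R, K294.ob F.top x = K294.ob F.top y → x = y)
    (hJ : J ⊆ R) (hne : J.Nonempty) {δ : ℝ} (hδ : 0 ≤ δ) (hd : δ * (R.card : ℝ) ≤ (J.card : ℝ))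
    {m' : ℕ} (hm' : m' = F.top) {W : ℝ} (hW : 1 / 2 ^ m' ≤ W) (m0 : ℕ) :
    δ * F.D1 / 4 ^ m0 ≤ (kP q m0 m' F.r W hq hr).Dmax J := by
  classical
  subst hm'
  obtain ⟨x, hx, h1⟩ := exists_class (fun y => F.cl (K294.ob F.top y)) hJ hne hδ hd
  have hxI := hRI (hJ hx)
  have hleg := hF.legal x hxI
  have hlow := hF.low x hxI
  have hcap := cap_pos (q := q) hF.r0 hleg
  set K := F.K (F.cl (K294.ob F.top x)) with hK
  -- the class in terms of representatives
  have h2 : (F.cls x).card ≤ (R.filter fun y => F.cl (K294.ob F.top y) =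
      F.cl (K294.ob F.top x)).card := by
    have h3 : F.cls x ⊆ (R.filter fun y => F.cl (K294.ob F.top y) =
        F.cl (K294.ob F.top x)).image (K294.ob F.top) := by
      intro o ho
      unfold Cf.cls at ho
      rw [mem_filter, mem_image] at ho
      obtain ⟨⟨y, hy, rfl⟩, hc⟩ := ho
      obtain ⟨z, hz, hzy⟩ := hR y hy
      refine mem_image.2 ⟨z, mem_filter.2 ⟨hz, ?_⟩, hzy⟩
      rw [hzy]; exact hc
    exact (card_le_card h3).trans card_image_le
  have h4 : (J.filter fun y => F.cl (K294.ob F.top y) = F.cl (K294.ob F.top x)).card ≤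
      ((kP q m0 F.top F.r W hq hr).objs J ⟨K, hleg, (hleg.w2.trans hW).trans (le_max_left _ _)⟩).card := by
    have h5 : (J.filter fun y => F.cl (K294.ob F.top y) = F.cl (K294.ob F.top x)).card =
        ((J.filter fun y => F.cl (K294.ob F.top y) = F.cl (K294.ob F.top x)).image
          (K294.ob F.top)).card := by
      rw [card_image_of_injOn]
      intro a ha b hb hab
      exact hinj a (hJ (mem_filter.1 ha).1) b (hJ (mem_filter.1 hb).1) hab
    rw [h5]
    refine card_le_card fun o ho => ?_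
    obtain ⟨y, hy, rfl⟩ := mem_image.1 ho
    rw [mem_filter] at hy
    refine (PSys.mem_objs _).2 ⟨⟨y, hy.1, rfl⟩, ?_⟩
    have h6 := hF.mem y (hRI (hJ hy.1))
    rw [hy.2] at h6
    exact h6
  refine le_trans ?_ ((kP q m0 F.top F.r W hq hr).dens_le_Dmax J
    ⟨K, hleg, (hleg.w2.trans hW).trans (le_max_left _ _)⟩)
  unfold PSys.dens
  have hvol : (kP q m0 F.top F.r W hq hr).vol ⟨K, hleg, (hleg.w2.trans hW).trans (le_max_left _ _)⟩ =
      cap q F.top K * 4 ^ m0 := rfl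
  rw [hvol, div_le_div_iff₀ (by positivity) (by positivity)]
  have h7 : ((F.cls x).card : ℝ) ≤ ((R.filter fun y => F.cl (K294.ob F.top y) =
      F.cl (K294.ob F.top x)).card : ℝ) := by exact_mod_cast h2
  have h8 : ((J.filter fun y => F.cl (K294.ob F.top y) = F.cl (K294.ob F.top x)).card : ℝ) ≤
      (((kP q m0 F.top F.r W hq hr).objs J
        ⟨K, hleg, (hleg.w2.trans hW).trans (le_max_left _ _)⟩).card : ℝ) := by exact_mod_cast h4
  have h9 : δ * (F.D1 * cap q F.top K) ≤ (((kP q m0 F.top F.r W hq hr).objs J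
        ⟨K, hleg, (hleg.w2.trans hW).trans (le_max_left _ _)⟩).card : ℝ) :=
    ((mul_le_mul_of_nonneg_left (hlow.trans h7) hδ).trans h1).trans h8
  have h10 : (0 : ℝ) ≤ 4 ^ m0 := by positivity
  calc δ * F.D1 * (cap q F.top K * 4 ^ m0) = δ * (F.D1 * cap q F.top K) * 4 ^ m0 := by ring
    _ ≤ _ := mul_le_mul_of_nonneg_right h9 h10

/-- bottom level -/
theorem bot_le (hF : F.Ok q) (hq : 0 ≤ q) (hr : 0 < F.r) (hJ : J ⊆ F.I) {m' : ℕ}
    (hm' : m' = F.m) (W : ℝ) (m0 : ℕ) : (kP q m0 m' F.r W hq hr).Dmax J ≤ F.D0 / 4 ^ m0 := by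
  classical
  subst hm'
  have hD0 := D0_pos hF
  refine PSys.Dmax_le _ (by positivity) fun K => ?_
  have h1 := hF.up K.1 K.2.1
  have hcap := cap_pos (q := q) hF.r0 K.2.1
  have h2 : ((kP q m0 F.m F.r W hq hr).objs J K).card ≤ (K294.objs F.m F.I K.1).card := by
    refine card_le_card fun o ho => ?_
    obtain ⟨⟨y, hy, rfl⟩, h3⟩ := (PSys.mem_objs _).1 ho
    exact ob_mem_objs (hJ hy) h3
  unfold PSys.dens
  have hvol : (kP q m0 F.m F.r W hq hr).vol K = cap q F.m K.1 * 4 ^ m0 := rfl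
  rw [hvol, div_le_div_iff₀ (by positivity) (by positivity)]
  have h4 : (((kP q m0 F.m F.r W hq hr).objs J K).card : ℝ) ≤ F.D0 * cap q F.m K.1 :=
    le_trans (by exact_mod_cast h2) h1
  calc _ ≤ F.D0 * cap q F.m K.1 * 4 ^ m0 := mul_le_mul_of_nonneg_right h4 (by positivity)
    _ = _ := by ring

/-- own count of a dense part -/
theorem own_ge (hF : F.Ok q) (hRI : R ⊆ F.I)
    (hR : ∀ y ∈ F.I, ∃ z ∈ R, K294.ob F.top z = K294.ob F.top y)
    (hJ : J ⊆ R) (hne : J.Nonempty) {δ : ℝ} (hδ : 0 ≤ δ) (hd : δ * (R.card : ℝ) ≤ (J.card : ℝ))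
    {m' : ℕ} (hm' : m' = F.m) : δ * F.nu ≤ (cmax (K294.ob m') J : ℝ) := by
  classical
  subst hm'
  obtain ⟨x, hx, h1⟩ := exists_class (K294.ob F.m) hJ hne hδ hd
  have h2 := hF.own x (hRI (hJ hx))
  have h3 : ownc F.m F.top F.I x ≤ (R.filter fun y => K294.ob F.m y = K294.ob F.m x).card := by
    unfold ownc
    have h4 : ((F.I.filter fun y => K294.ob F.m y = K294.ob F.m x).image (K294.ob F.top)) ⊆
        (R.filter fun y => K294.ob F.m y = K294.ob F.m x).image (K294.ob F.top) := by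
      intro o ho
      obtain ⟨y, hy, rfl⟩ := mem_image.1 ho
      rw [mem_filter] at hy
      obtain ⟨z, hz, hzy⟩ := hR y hy.1
      refine mem_image.2 ⟨z, mem_filter.2 ⟨hz, ?_⟩, hzy⟩
      rw [← hy.2]
      have e1 : z.1 = y.1 := (Prod.ext_iff.1 hzy).1
      have e2 : zc F.top z.2 = zc F.top y.2 := (Prod.ext_iff.1 hzy).2
      exact Prod.ext e1 (zc_nested (Nat.le_add_right _ _) e2)
    refine le_trans (le_of_eq ?_) ((card_le_card h4).trans card_image_le)
    congr!
  have h5 : (F.nu : ℝ) ≤ ((R.filter fun y => K294.ob F.m y = K294.ob F.m x).card : ℝ) :=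
    h2.trans (by exact_mod_cast h3)
  have h6 : ((J.filter fun y => K294.ob F.m y = K294.ob F.m x).card : ℝ) ≤
      (cmax (K294.ob F.m) J : ℝ) := by exact_mod_cast le_cmax _ hx
  exact ((mul_le_mul_of_nonneg_left h5 hδ).trans h1).trans h6

theorem cmax_one (hinj : ∀ x ∈ R, ∀ y ∈ R, K294.ob F.top x = K294.ob F.top y → x = y)
    (hJ : J ⊆ R) (hne : J.Nonempty) {m' : ℕ} (hm' : m' = F.top) :
    cmax (K294.ob m') J = 1 := by
  classical
  subst hm'
  refine le_antisymm (cmax_le _ fun x hx => ?_) (one_le_cmax _ hne)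
  rw [card_le_one]
  intro a ha b hb
  rw [mem_filter] at ha hb
  exact hinj a (hJ ha.1) b (hJ hb.1) (ha.2.trans hb.2.symm)

end

/-! ### the sequence -/

theorem extX : X248.ExtX := by
  classical
  intro F q β hq h
  -- representatives
  choose R hR1 hR2 hR3 using fun n => exists_rep (F n).I (K294.ob (F n).top)
  have hR2' := hR2
  have hRne : ∀ n, (R n).Nonempty := by
    intro n
    obtain ⟨x, hx⟩ := (h.ok n).ne
    obtain ⟨z, hz, -⟩ := hR2' n x hx
    exact ⟨z, hz⟩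
  -- the base
  have hM1 : ∀ n, 1 ≤ (F n).M := fun n => (h.ok n).M1
  have hMt : Tendsto (fun n => ((F n).M : ℝ)) U atTop := by
    have h1 : Tendsto (fun n : ℕ => (n : ℝ)) U atTop :=
      tendsto_natCast_atTop_atTop.mono_left U_le_atTop
    exact tendsto_atTop_mono (fun n => by exact_mod_cast h.M n) h1
  have hlim : Tendsto (fun n => (1 / 2 : ℝ) ^ (F n).M) U (𝓝 0) := by
    have h1 : Tendsto (fun n => (F n).M) U atTop := tendsto_natCast_atTop_iff.1 hMt
    exact (tendsto_pow_atTop_nhds_zero_of_lt_one (by norm_num) (by norm_num)).comp h1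
  let B : Base := ⟨fun n => (1 / 2 : ℝ) ^ (F n).M, fun n => by positivity,
    fun n => pow_lt_one₀ (by norm_num) (by norm_num) (by have := hM1 n; omega), hlim⟩
  have hBd : ∀ n, B.d n = (1 / 2 : ℝ) ^ (F n).M := fun n => rfl
  have hdn : ∀ n, B.d n = (2 : ℝ) ^ (-((F n).M : ℝ)) := fun n => by
    rw [hBd n, Real.rpow_neg (by norm_num), Real.rpow_natCast, one_div, inv_pow]
  have hdC : ∀ n (C : ℝ), B.d n ^ (-C) = (2 : ℝ) ^ (C * (F n).M) := fun n C => by
    rw [hdn, ← Real.rpow_mul (by norm_num)]; congr 1; ring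
  have hr : ∀ n, 0 < (F n).r := fun n => (h.ok n).r0
  have hfam : Fam B (fun n => (F n).m) (fun n => (F n).M) (fun n => (F n).r) R := by
    obtain ⟨C, hC⟩ := h.poly
    refine ⟨hBd, hr, fun n => (h.ok n).rle, ⟨C, Eventually.of_forall fun n => ⟨?_, ?_⟩⟩,
      Eventually.of_forall hRne, Eventually.of_forall fun n x hx y hy => ?_⟩
    · rw [hdC]
      exact le_trans (by exact_mod_cast card_le_card (hR1 n)) (hC n).1
    · have e : B.d n ^ C = (2 : ℝ) ^ (-(C * (F n).M)) := by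
        have := hdC n (-C)
        rw [neg_neg] at this
        rw [this]; congr 1; ring
      rw [e]
      exact (hC n).2
    · exact (h.ok n).cell x (hR1 n hx) y (hR1 n hy)
  refine ⟨B, fun n => (F n).m, fun n => (F n).M, fun n => (F n).r, hr, R, hfam, hR3, ?_⟩
  intro J hJ
  set m : ℕ → ℕ := fun n => (F n).m with hm
  set M : ℕ → ℕ := fun n => (F n).M with hM
  set r : ℕ → ℝ := fun n => (F n).r with hrr
  have hfJ := hfam.dense hJ
  have hIc := hfJ.card_pb
  have hrefl : ∀ᶠ n in (U : Filter ℕ), J n ⊆ J n := Eventually.of_forall fun n => Subset.refl _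
  set P1 : ∀ n : ℕ, PSys (Ln × ℝ) := fun n => kP q (m n) (lv m M n 1) (r n)
    (B.d n ^ (0 : ℝ) / 2 ^ (lv m M n 1)) hq (hr n) with hP1
  set P0 : ∀ n : ℕ, PSys (Ln × ℝ) := fun n => kP q (m n) (lv m M n 0) (r n)
    (B.d n ^ (0 : ℝ) / 2 ^ (lv m M n 0)) hq (hr n) with hP0
  have hA1 : PAdm B P1 J := hfJ.padm hq _ le_rfl
  have hA0 : PAdm B P0 J := hfJ.padm hq _ zero_le_one
  have pb1 := (monoF_Dmax hA1).pb hrefl hfJ.ne
  have pb0 := (monoF_Dmax hA0).pb hrefl hfJ.ne
  have pbc := (monoF_cmax hIc (fun n => K294.ob (lv m M n 0))).pb hrefl hfJ.ne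
  have how1 : ow B m M J 1 = 0 := by
    unfold ow
    have e : ∀ᶠ n in (U : Filter ℕ), (1 : ℝ) = (cmax (K294.ob (lv m M n 1)) (J n) : ℝ) := by
      filter_upwards [hJ.1, hfJ.ne] with n a b
      rw [cmax_one (F := F n) (hR3 n) a b (by rw [lv_one]; rfl)]
      simp
    rw [← Base.ex_congr (Base.PB.const one_pos) e, Base.ex_const]
  set Y : ℕ → ℝ := fun n => (P1 n).Dmax (J n) * (cmax (K294.ob (lv m M n 0)) (J n) : ℝ) ^ 2 /
    (P0 n).Dmax (J n) with hY
  have pbY : B.PB Y := (pb1.mul (pbc.pow 2)).div pb0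
  have hexY : B.ex Y = DD B q hq m M r hr J 0 1 - DD B q hq m M r hr J 0 0 +
      2 * ow B m M J 0 := by
    simp only [hY]
    rw [Base.ex_div (pb1.mul (pbc.pow 2)) pb0, Base.ex_mul pb1 (pbc.pow 2), Base.ex_pow pbc]
    unfold DD ow
    push_cast
    ring
  rw [how1]
  have goal' : β + 2 ≤ B.ex Y := by
    refine le_of_forall_pos_le_add fun ε₀ hε₀ => ?_
    set ε : ℝ := ε₀ / 4 with hε
    have hεp : 0 < ε := by rw [hε]; linarith
    have key : ∀ᶠ n in (U : Filter ℕ), B.d n ^ (-(2 + β - 4 * ε)) ≤ Y n := by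
      filter_upwards [hJ.1, hfJ.ne, hJ.2 ε hεp, h.val ε hεp, pb0.pos, pb1.pos, pbc.pos] with
        n a1 a2 a3 a4 a5 a6 a7
      have hOk := h.ok n
      have hd := dpow_pos B n ε
      have hD0 := D0_pos hOk
      have hD1 := hOk.D1p
      have hnu := hOk.nup
      have b1 := top_ge hOk hq (hr n) (hR1 n) (hR2' n) (hR3 n) a1 a2 hd.le a3
        (m' := lv m M n 1) (by rw [lv_one]; rfl) (W := B.d n ^ (0 : ℝ) / 2 ^ (lv m M n 1))
        (by rw [Real.rpow_zero]) (m n)
      have b2 := bot_le hOk hq (hr n) (a1.trans (hR1 n)) (m' := lv m M n 0)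
        (by rw [lv_zero]) (B.d n ^ (0 : ℝ) / 2 ^ (lv m M n 0)) (m n)
      have b3 := own_ge hOk (hR1 n) (hR2' n) a1 a2 hd.le a3 (m' := lv m M n 0)
        (by rw [lv_zero])
      have hMp : (0 : ℝ) < (F n).M := by exact_mod_cast hM1 n
      have hl2 := Real.log_pos one_lt_two
      -- lower bound of X
      set X : ℝ := (F n).D1 * (F n).nu ^ 2 / (4 ^ (F n).M * (F n).D0) with hX
      have hX0 : 0 < X := by rw [hX]; positivity
      have c1 : B.d n ^ (-(β - ε)) ≤ X := by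
        unfold Cf.val at a4
        rw [le_div_iff₀ hMp] at a4
        rw [hdC]
        rw [Real.le_logb_iff_rpow_le one_lt_two hX0] at a4
        exact a4
      have c2 : B.d n ^ (-(2 : ℝ)) = 4 ^ (F n).M := by
        rw [hdC, Real.rpow_mul (by norm_num), Real.rpow_natCast]
        norm_num
      have c3 : B.d n ^ (3 * ε) * (4 ^ (F n).M * X) ≤ Y n := by
        have e1 : B.d n ^ (3 * ε) = B.d n ^ ε * (B.d n ^ ε) ^ 2 := by
          rw [← Real.rpow_natCast (B.d n ^ ε) 2, ← Real.rpow_mul (B.pos n).le, ← dpow_add]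
          congr 1; push_cast; ring
        have e2 : B.d n ^ (3 * ε) * (4 ^ (F n).M * X) =
            (B.d n ^ ε * (F n).D1 / 4 ^ (m n)) * (B.d n ^ ε * (F n).nu) ^ 2 /
              ((F n).D0 / 4 ^ (m n)) := by
          rw [e1, hX]
          field_simp
        rw [e2]
        simp only [hY]
        have f1 : 0 < (B.d n ^ ε * (F n).D1 / 4 ^ (m n)) := by positivity
        have f2 : 0 < B.d n ^ ε * (F n).nu := by positivity
        refine div_le_div₀ (by positivity) (mul_le_mul b1 (pow_le_pow_left₀ f2.le b3 2)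
          (by positivity) (f1.le.trans b1)) a5 b2
      refine le_trans ?_ c3
      have c4 : B.d n ^ (-(2 + β - 4 * ε)) =
          B.d n ^ (3 * ε) * (B.d n ^ (-(2 : ℝ)) * B.d n ^ (-(β - ε))) := by
        rw [← dpow_add, ← dpow_add]; congr 1; ring
      rw [c4, c2]
      exact mul_le_mul_of_nonneg_left (mul_le_mul_of_nonneg_left c1 (by positivity))
        (dpow_pos B n _).le
    have h1 := Base.ex_le (B := B) (Base.PB.dpow _) pbY key
    rw [Base.ex_dpow] at h1
    have : 4 * ε = ε₀ := by rw [hε]; ring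
    linarith
  rw [hexY] at goal'
  linarith

end Crest.Agent.R138.Ext615
end

-- ▼ part R138/MkOfA_501
section

/-!
# R138, L7 of TEXT I: from the extremal stable family to the marks, finite part (helper501)
-/

set_option autoImplicit false
set_option linter.unusedVariables false

open Filter Topology Finset

namespace Crest.Agent.R138.X248

open Crest.Agent.R138.Ex926 Crest.Agent.R138.Dp76 Crest.Agent.R138.Flag51
open Crest.Agent.R138.K294 Crest.Agent.R138.Ps926

open Classical in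
/-- the objects of `A` of class `k` -/
noncomputable def cset {α ο κ : Type*} (A : Finset α) (ob : α → ο) (c : ο → κ) (k : κ) :
    Finset ο := (A.image ob).filter fun o => c o = k

theorem mem_cset {α ο κ : Type*} {A : Finset α} {ob : α → ο} {c : ο → κ} {k : κ} {o : ο} :
    o ∈ cset A ob c k ↔ (∃ x ∈ A, ob x = o) ∧ c o = k := by
  classical
  unfold cset
  rw [mem_filter, mem_image]

/-- number of objects of `A` of class `k` -/
noncomputable def ccard {α ο κ : Type*} (A : Finset α) (ob : α → ο) (c : ο → κ) (k : κ) : ℕ :=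
  (cset A ob c k).card

theorem ccard_eq {α ο κ : Type*} (d1 : DecidableEq ο) (A : Finset α) (ob : α → ο) (c : ο → κ)
    (k : κ) (p1 : DecidablePred fun o => c o = k) :
    (@Finset.filter ο (fun o => c o = k) p1 (@Finset.image α ο d1 ob A)).card =
      ccard A ob c k := by
  unfold ccard cset
  congr!

/-- coding of finitely many values by naturals -/
theorem exists_code {ο κ : Type*} (hκ : Nonempty κ) (S : Finset ο) (c : ο → κ) :
    ∃ (code : κ → ℕ) (dec : ℕ → κ), ∀ o ∈ S, dec (code (c o)) = c o := by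
  classical
  set T := S.image c with hT
  refine ⟨fun k => if h : k ∈ T then (T.equivFin ⟨k, h⟩ : ℕ) else 0,
    fun j => if h : j < T.card then (T.equivFin.symm ⟨j, h⟩).1 else Classical.choice hκ, ?_⟩
  intro o ho
  have h : c o ∈ T := mem_image_of_mem c ho
  simp only [dif_pos h]
  rw [dif_pos (T.equivFin ⟨c o, h⟩).2]
  simp

open Classical in
/-- finite form of the own profile -/
theorem own_bounds {i j : ℕ} (hij : i ≤ j) {I I1 : Finset (Ln × ℝ)} (hs : I1 ⊆ I) {x : Ln × ℝ}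
    (hx : x ∈ I1) {a : ℝ}
    (h1 : ∀ y ∈ I1, a * (cmax (K294.ob j) I : ℝ) ≤
      ((I1.filter fun z => K294.ob j z = K294.ob j y).card : ℝ))
    (h2 : ∀ y ∈ I1, a * (cmax (K294.ob i) I : ℝ) ≤
      ((I1.filter fun z => K294.ob i z = K294.ob i y).card : ℝ)) :
    (ownc i j I1 x : ℝ) * (a * (cmax (K294.ob j) I : ℝ)) ≤ (cmax (K294.ob i) I : ℝ) ∧
      a * (cmax (K294.ob i) I : ℝ) ≤ (ownc i j I1 x : ℝ) * (cmax (K294.ob j) I : ℝ) := by
  set F := I1.filter fun z => K294.ob i z = K294.ob i x with hF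
  have hFI : F ⊆ I1 := filter_subset _ _
  have hown : ownc i j I1 x = (F.image (K294.ob j)).card := rfl
  have hcard : F.card = ∑ o ∈ F.image (K294.ob j), (F.filter fun z => K294.ob j z = o).card :=
    card_eq_sum_card_image (K294.ob j) F
  have hfib : ∀ y ∈ F, (F.filter fun z => K294.ob j z = K294.ob j y) =
      I1.filter fun z => K294.ob j z = K294.ob j y := by
    intro y hy
    ext z
    rw [mem_filter, mem_filter, mem_filter]
    constructor
    · rintro ⟨⟨h3, _⟩, h4⟩; exact ⟨h3, h4⟩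
    · rintro ⟨h3, h4⟩
      refine ⟨⟨h3, ?_⟩, h4⟩
      have h5 := (mem_filter.1 hy).2
      rw [← h5]
      have h6 : z.1 = y.1 := by have := congrArg Prod.fst h4; exact this
      have h7 : zc j z.2 = zc j y.2 := by have := congrArg Prod.snd h4; exact this
      exact Prod.ext h6 (zc_nested hij h7)
  constructor
  · have h3 : (F.card : ℝ) ≤ (cmax (K294.ob i) I : ℝ) := by
      have := le_cmax (K294.ob i) (hs hx)
      refine le_trans ?_ (Nat.cast_le.2 this)
      exact_mod_cast card_le_card (filter_subset_filter _ hs)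
    refine le_trans ?_ h3
    rw [hcard, hown]
    push_cast
    have h4 : ∀ o ∈ F.image (K294.ob j), a * (cmax (K294.ob j) I : ℝ) ≤
        ((F.filter fun z => K294.ob j z = o).card : ℝ) := by
      intro o ho
      obtain ⟨y, hy, rfl⟩ := mem_image.1 ho
      rw [hfib y hy]
      exact h1 y (hFI hy)
    have h5 := card_nsmul_le_sum _ _ _ h4
    rw [nsmul_eq_mul] at h5
    exact h5
  · refine (h2 x hx).trans ?_
    show (F.card : ℝ) ≤ _
    rw [hcard, hown]
    push_cast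
    have h4 : ∀ o ∈ F.image (K294.ob j), ((F.filter fun z => K294.ob j z = o).card : ℝ) ≤
        (cmax (K294.ob j) I : ℝ) := by
      intro o ho
      obtain ⟨y, hy, rfl⟩ := mem_image.1 ho
      rw [hfib y hy]
      have := le_cmax (K294.ob j) (hs (hFI hy))
      refine le_trans ?_ (Nat.cast_le.2 this)
      exact_mod_cast card_le_card (filter_subset_filter _ hs)
    have h5 := sum_le_card_nsmul _ _ _ h4
    rw [nsmul_eq_mul] at h5
    exact h5

section coded

variable {I I1 : Finset (Ln × ℝ)} {code : Ln → ℕ} {L : ℕ → Ln}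

open Classical in
/-- the coded family -/
noncomputable def cdI (I1 : Finset (Ln × ℝ)) (code : Ln → ℕ) : Finset (ℕ × ℝ) :=
  I1.image fun x => (code x.1, x.2)

theorem mem_cdI {y : ℕ × ℝ} : y ∈ cdI I1 code ↔ ∃ x ∈ I1, (code x.1, x.2) = y := by
  classical
  unfold cdI; rw [mem_image]

theorem mem_alive_cd {i : ℕ} {J : ℤ} {t : ℕ} :
    t ∈ Mk163.alive (cdI I1 code) i J ↔ ∃ x ∈ I1, zc i x.2 = J ∧ code x.1 = t := by
  classical
  unfold Mk163.alive
  rw [mem_image]
  constructor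
  · rintro ⟨y, hy, rfl⟩
    rw [mem_filter] at hy
    obtain ⟨x, hx, rfl⟩ := mem_cdI.1 hy.1
    exact ⟨x, hx, hy.2, rfl⟩
  · rintro ⟨x, hx, h1, rfl⟩
    exact ⟨(code x.1, x.2), mem_filter.2 ⟨mem_cdI.2 ⟨x, hx, rfl⟩, h1⟩, rfl⟩

theorem alive_code (hL : ∀ x ∈ I1, L (code x.1) = x.1) {i : ℕ} {J : ℤ} {t : ℕ}
    (ht : t ∈ Mk163.alive (cdI I1 code) i J) : ∃ x ∈ I1, K294.ob i x = (L t, J) ∧ code x.1 = t ∧
      code (L t) = t := by
  obtain ⟨x, hx, h1, rfl⟩ := mem_alive_cd.1 ht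
  refine ⟨x, hx, ?_, rfl, by rw [hL x hx]⟩
  rw [hL x hx]
  exact Prod.ext rfl h1

open Classical in
/-- own counts of the coded family -/
theorem own_cd (hL : ∀ x ∈ I1, L (code x.1) = x.1) {i j : ℕ} {x : Ln × ℝ} (hx : x ∈ I1) :
    (Mk163.own (cdI I1 code) i j (code x.1, x.2)).card = ownc i j I1 x := by
  unfold Mk163.own ownc
  refine card_nbij' (fun c => (x.1, c)) Prod.snd ?_ ?_ ?_ ?_
  · intro c hc
    rw [mem_coe, mem_image] at hc ⊢
    obtain ⟨y, hy, rfl⟩ := hc
    rw [mem_filter] at hy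
    obtain ⟨hy1, hy2, hy3⟩ := hy
    obtain ⟨z, hz, rfl⟩ := mem_cdI.1 hy1
    have h1 : z.1 = x.1 := by
      have h2 : code z.1 = code x.1 := hy2
      rw [← hL z hz, ← hL x hx, h2]
    refine ⟨z, mem_filter.2 ⟨hz, Prod.ext h1 hy3⟩, ?_⟩
    exact Prod.ext h1 rfl
  · intro o ho
    rw [mem_coe, mem_image] at ho ⊢
    obtain ⟨y, hy, rfl⟩ := ho
    rw [mem_filter] at hy
    refine ⟨(code y.1, y.2), mem_filter.2 ⟨mem_cdI.2 ⟨y, hy.1, rfl⟩, ?_, ?_⟩, rfl⟩
    · have h1 : y.1 = x.1 := by have := congrArg Prod.fst hy.2; exact this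
      exact congrArg code h1
    · have h1 := congrArg Prod.snd hy.2
      exact h1
  · intro c hc; rfl
  · intro o ho
    rw [mem_coe, mem_image] at ho
    obtain ⟨y, hy, rfl⟩ := ho
    rw [mem_filter] at hy
    exact Prod.ext (congrArg Prod.fst hy.2).symm rfl

open Classical in
/-- D-max for the coded family from the bound for legal planks -/
theorem dmax_cd (hs : I1 ⊆ I) (hL : ∀ x ∈ I1, L (code x.1) = x.1) {m' : ℕ} {r q A : ℝ}
    (hr : 0 < r) (hrle : r ≤ 1 / 2 ^ m') (hq : 0 ≤ q) (hA : 0 ≤ A)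
    (hup : ∀ K, Legal m' r K → ((K294.objs m' I K).card : ℝ) ≤ A * (K.w1 * K.w2 ^ (1 + q)))
    (J : ℤ) :
    Tilt51.DMax (Mk163.alive (cdI I1 code) m' J) L (fun _ => 1) (Mk163.zl m' J) (Mk163.rho m')
      (201 ^ 4 * A) 0 q r (100 * Mk163.rho m') := by
  intro l e a1 a2 he h1 h2 h3
  have hρ : Mk163.rho m' = 1 / 2 ^ m' := rfl
  have hρ0 : 0 < Mk163.rho m' := by rw [hρ]; positivity
  have ha1 : 0 < a1 := hr.trans_le h1
  have ha2 : 0 < a2 := ha1.trans_le h2
  rw [sum_const, nsmul_eq_mul, mul_one]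
  set S := (Mk163.alive (cdI I1 code) m' J).filter fun t =>
    InPlank (L t) l e a1 a2 (Mk163.zl m' J) (Mk163.rho m') with hS
  set v1 : ℝ := min a1 (Mk163.rho m') with hv1
  set v2 : ℝ := min a2 (Mk163.rho m') with hv2
  have v1p : 0 < v1 := lt_min ha1 hρ0
  have v2p : 0 < v2 := lt_min ha2 hρ0
  have k1 : a1 ≤ (100 : ℕ) * v1 := by
    rw [hv1]
    rcases le_total a1 (Mk163.rho m') with h | h
    · rw [min_eq_left h]; push_cast; linarith
    · rw [min_eq_right h]; push_cast; linarith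
  have k2 : a2 ≤ (100 : ℕ) * v2 := by
    rw [hv2]
    rcases le_total a2 (Mk163.rho m') with h | h
    · rw [min_eq_left h]; push_cast; linarith
    · rw [min_eq_right h]; push_cast; linarith
  -- the short cell lies in the long one
  have hcell : ∀ z, |z - zm m' J| ≤ zr m' → |z - Mk163.zl m' J| ≤ Mk163.rho m' := by
    intro z hz
    have e1 : zm m' J = Mk163.zl m' J + zr m' := by
      unfold zm Mk163.zl zr; rw [pow_succ]; field_simp
    have e2 : Mk163.rho m' = 2 * zr m' := by rw [two_zr]; rfl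
    have e3 := zr_pos m'
    rw [e1, abs_le] at hz
    rw [e2, abs_le]
    constructor <;> linarith [hz.1, hz.2]
  have key := K294.cover S L (e := e) (w1 := v1) (w2 := v2) (z0 := zm m' J) (ρ := zr m') v1p v2p
    (zr_pos m') (n := 100) (l := l) (fun t ht z hz => by
      have h4 := (mem_filter.1 ht).2 z (hcell z hz)
      exact ⟨h4.1.trans k1, h4.2.trans k2⟩)
    (A := A * (v1 * v2 ^ (1 + q))) (by positivity) (fun t0 ht0 => by
      have hleg : Legal m' r ⟨J, L t0, e, v1, v2⟩ := by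
        refine ⟨he, le_min h1 hrle, min_le_min_right _ h2, ?_⟩
        exact (min_le_right _ _).trans (le_of_eq hρ)
      refine le_trans ?_ (hup _ hleg)
      refine Nat.cast_le.2 (card_le_card_of_injOn (fun t => (L t, J)) ?_ ?_)
      · intro t ht
        rw [mem_coe, mem_filter] at ht
        obtain ⟨x, hx, h4, h5, h6⟩ := alive_code hL (mem_filter.1 ht.1).1
        rw [mem_coe]
        unfold K294.objs
        rw [mem_filter]
        refine ⟨?_, rfl, ht.2⟩
        show (L t, J) ∈ _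
        rw [← h4]
        exact mem_image_of_mem _ (hs hx)
      · intro t ht t' ht' htt
        rw [mem_coe, mem_filter] at ht ht'
        obtain ⟨x, hx, h4, h5, h6⟩ := alive_code hL (mem_filter.1 ht.1).1
        obtain ⟨x', hx', h4', h5', h6'⟩ := alive_code hL (mem_filter.1 ht'.1).1
        have h7 : L t = L t' := congrArg Prod.fst htt
        rw [← h6, ← h6', h7])
  refine key.trans ?_
  have b1 : v1 ≤ a1 := min_le_left _ _
  have b2 : v2 ^ (1 + q) ≤ a2 ^ (1 + q) :=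
    Real.rpow_le_rpow v2p.le (min_le_left _ _) (by linarith)
  have e1 : ((2 : ℝ) * ((100 : ℕ) : ℝ) + 1) = 201 := by norm_num
  rw [e1, add_zero, Real.rpow_one]
  calc (201 : ℝ) ^ 4 * (A * (v1 * v2 ^ (1 + q))) ≤ 201 ^ 4 * (A * (a1 * a2 ^ (1 + q))) := by
        gcongr
    _ = _ := by ring

open Classical in
/-- near-maximality of the coded classes -/
theorem near_cd (hL : ∀ x ∈ I1, L (code x.1) = x.1) {m' : ℕ} {w1 w2 q M E : ℝ}
    {κ : Type*} (pl : κ → ℤ × Ln × E2) (cl : Ln × ℤ → κ) (ck : κ → ℕ) (dk : ℕ → κ)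
    (hck : ∀ x ∈ I1, dk (ck (cl (K294.ob m' x))) = cl (K294.ob m' x))
    (hu : ∀ k, dt (pl k).2.2 (pl k).2.2 = 1)
    (hm : ∀ x ∈ I1, (K294.ob m' x).2 = (pl (cl (K294.ob m' x))).1 ∧
      InPlank (K294.ob m' x).1 (pl (cl (K294.ob m' x))).2.1 (pl (cl (K294.ob m' x))).2.2 w1 w2
        (Mk163.zl m' (pl (cl (K294.ob m' x))).1) (Mk163.rho m'))
    (hlow : ∀ x ∈ I1, M * (w1 * w2 ^ (1 + q)) ≤
      E * (ccard I1 (K294.ob m') cl (cl (K294.ob m' x)) : ℝ))
    (hE : 0 ≤ E) (J : ℤ) :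
    Tilt51.Near (Mk163.alive (cdI I1 code) m' J) L (fun _ => 1) (fun t => ck (cl (L t, J)))
      (fun c => (pl (dk c)).2.1) (fun c => (pl (dk c)).2.2) w1 w2 (Mk163.zl m' J) (Mk163.rho m')
      M E 0 q := by
  refine ⟨fun t ht => hu _, fun t ht => ?_, fun t ht => ?_⟩
  · obtain ⟨x, hx, h4, h5, h6⟩ := alive_code hL ht
    have h7 := hck x hx
    have h8 := hm x hx
    rw [h4] at h7 h8
    simp only at h8 ⊢
    rw [h7]
    rw [← h8.1] at h8
    exact h8.2
  · obtain ⟨x, hx, h4, h5, h6⟩ := alive_code hL ht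
    have h9 := hlow x hx
    rw [add_zero, Real.rpow_one, sum_const, nsmul_eq_mul, mul_one, mul_assoc]
    refine h9.trans (mul_le_mul_of_nonneg_left (Nat.cast_le.2 ?_) hE)
    unfold ccard
    refine card_le_card_of_injOn (fun o => code o.1) ?_ ?_
    · intro o ho
      rw [mem_coe, mem_cset] at ho
      obtain ⟨⟨y, hy, rfl⟩, h10⟩ := ho
      have h11 : (K294.ob m' y).2 = J := by
        rw [(hm y hy).1, h10, ← (hm x hx).1, h4]
      refine mem_coe.2 ((@Finset.mem_filter ℕ (fun s => ck (cl (L s, J)) = ck (cl (L t, J)))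
        (fun _ => Classical.propDecidable _) _ _).2 ⟨mem_alive_cd.2 ⟨y, hy, h11, rfl⟩, ?_⟩)
      have h12 : ((y.1, J) : Ln × ℤ) = K294.ob m' y := Prod.ext rfl h11.symm
      show ck (cl (L (code y.1), J)) = ck (cl (L t, J))
      rw [hL y hy, h12, h10, h4]
    · intro o ho o' ho' hoo
      rw [mem_coe, mem_cset] at ho ho'
      obtain ⟨⟨y, hy, rfl⟩, h10⟩ := ho
      obtain ⟨⟨y', hy', rfl⟩, h10'⟩ := ho'
      have h11 : (K294.ob m' y).2 = J := by
        rw [(hm y hy).1, h10, ← (hm x hx).1, h4]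
      have h11' : (K294.ob m' y').2 = J := by
        rw [(hm y' hy').1, h10', ← (hm x hx).1, h4]
      refine Prod.ext ?_ (h11.trans h11'.symm)
      have h12 : code y.1 = code y'.1 := hoo
      show y.1 = y'.1
      rw [← hL y hy, ← hL y' hy', h12]

end coded

end Crest.Agent.R138.X248
end

-- ▼ part R138/MkOfXs_501
section

/-!
# R138, L7 of TEXT I: the marked extremal sequence (helper501)

`mkOfXs : MkOfXs`.
-/

set_option autoImplicit false
set_option linter.unusedVariables false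

open Filter Topology Finset

namespace Crest.Agent.R138.X248

open Crest.Agent.R138.Ex926 Crest.Agent.R138.Dp76 Crest.Agent.R138.Flag51
open Crest.Agent.R138.K294 Crest.Agent.R138.Ps926

/-- planks over long cells, without widths -/
abbrev KK : Type := {K : ℤ × Ln × E2 // dt K.2.2 K.2.2 = 1}

instance : Nonempty KK := ⟨⟨(0, 0, Ps926.e0), Ps926.dt_e0⟩⟩

theorem exists_enum : ∃ (V : ℕ → ℚ) (idx : ℚ → ℕ), (∀ j, 0 ≤ V j ∧ V j ≤ 1) ∧
    ∀ v : ℚ, 0 ≤ v → v ≤ 1 → V (idx v) = v := by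
  classical
  have : Nonempty {v : ℚ // 0 ≤ v ∧ v ≤ 1} := ⟨⟨0, le_rfl, zero_le_one⟩⟩
  obtain ⟨F, hF⟩ := exists_surjective_nat {v : ℚ // 0 ≤ v ∧ v ≤ 1}
  refine ⟨fun j => (F j).1, fun v => if h : 0 ≤ v ∧ v ≤ 1 then (hF ⟨v, h⟩).choose else 0,
    fun j => (F j).2, fun v h0 h1 => ?_⟩
  simp only [dif_pos (show 0 ≤ v ∧ v ≤ 1 from ⟨h0, h1⟩)]
  exact congrArg Subtype.val (hF ⟨v, h0, h1⟩).choose_spec

section

variable {B : Base} {m M : ℕ → ℕ} {r : ℕ → ℝ} {I : ℕ → Finset (Ln × ℝ)} {A : ℕ → ℝ}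
    {q g : ℝ} {Λ l : ℝ → ℝ} {w1 w2 : ℕ → ℚ → ℝ} {h1 : ∀ n v, 0 < w1 n v}
    {h2 : ∀ n v, 0 < w2 n v}

open Classical in
/-- honest classes for all rational levels -/
theorem XS.exists_hon (hX : XS B m M r I A q g Λ l w1 w2 h1 h2) {V : ℕ → ℚ}
    (hV : ∀ j, 0 ≤ V j ∧ V j ≤ 1) :
    ∃ I1 : ℕ → Finset (Ln × ℝ), (∀ᶠ n in (U : Filter ℕ), I1 n ⊆ I n ∧ (I1 n).Nonempty) ∧
      ∃ cl : ℕ → ℕ → Ln × ℤ → KK, ∀ j,
        (∀ᶠ n in (U : Filter ℕ), ∀ x ∈ I1 n, (K294.ob (lv m M n (V j)) x).2 =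
            (cl j n (K294.ob (lv m M n (V j)) x)).1.1 ∧
          InPlank (K294.ob (lv m M n (V j)) x).1 (cl j n (K294.ob (lv m M n (V j)) x)).1.2.1
            (cl j n (K294.ob (lv m M n (V j)) x)).1.2.2 (w1 n (V j)) (w2 n (V j))
            (Mk163.zl (lv m M n (V j)) (cl j n (K294.ob (lv m M n (V j)) x)).1.1)
            (Mk163.rho (lv m M n (V j)))) ∧
        ∀ ε : ℝ, 0 < ε → ∀ᶠ n in (U : Filter ℕ), ∀ x ∈ I1 n,
          Mk163.amp B (fun n v => lv m M n v) A q g Λ n (V j) *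
              (w1 n (V j) * w2 n (V j) ^ (1 + q)) ≤
            B.d n ^ (-ε) * (ccard (I1 n) (K294.ob (lv m M n (V j))) (cl j n)
              (cl j n (K294.ob (lv m M n (V j)) x)) : ℝ) ∧
          B.d n ^ ε * (cmax (K294.ob (lv m M n (V j))) (I n) : ℝ) ≤
            (((I1 n).filter fun y => K294.ob (lv m M n (V j)) y =
              K294.ob (lv m M n (V j)) x).card : ℝ) := by
  have hIc := hX.fam.card_pb
  obtain ⟨I1, hI1, cl, hcl⟩ := Ps627.exists_honest hIc
    (fun j n => shP (m n) (lv m M n (V j)) (w1 n (V j)) (w2 n (V j)) (h1 n (V j)) (h2 n (V j)))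
    (fun j n => (inferInstance : Nonempty KK)) (fun j => hX.adm (V j) (hV j).1 (hV j).2)
    (fun j => hX.st (V j) (hV j).1 (hV j).2) (fun j => hX.unif (V j) (hV j).1 (hV j).2)
    (fun j n => K294.ob (lv m M n (V j))) (fun j => hX.unif (V j) (hV j).1 (hV j).2)
  refine ⟨I1, ?_, fun j n o => cl j n o, fun j => ⟨(hcl j).1, fun ε hε => ?_⟩⟩
  · filter_upwards [hI1, hX.fam.ne] with n a b
    refine ⟨a.1, ?_⟩
    have h3 : (0 : ℝ) < (I n).card := by exact_mod_cast card_pos.2 b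
    have h4 : (0 : ℝ) < (I1 n).card := by linarith [a.2]
    exact card_pos.1 (by exact_mod_cast h4)
  · filter_upwards [(hcl j).2 (ε / 2) (by positivity), (hcl j).2 ε hε,
      hX.near (V j) (hV j).1 (hV j).2 (ε / 2) (by positivity)] with n a a' b x hx
    obtain ⟨c1, c2, c3⟩ := a x hx
    obtain ⟨c1', c2', c3'⟩ := a' x hx
    have hd := dpow_pos B n (ε / 2)
    refine ⟨?_, ?_⟩
    · have e0 : B.d n ^ (-ε) * (B.d n ^ (ε / 2) * B.d n ^ (ε / 2)) = 1 := by
        rw [← dpow_add, ← dpow_add]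
        have : -ε + (ε / 2 + ε / 2) = 0 := by ring
        rw [this, Real.rpow_zero]
      have e1 : B.d n ^ (ε / 2) * (B.d n ^ (ε / 2) *
          (Mk163.amp B (fun n v => lv m M n v) A q g Λ n (V j) *
            (w1 n (V j) * w2 n (V j) ^ (1 + q)))) ≤
          (ccard (I1 n) (K294.ob (lv m M n (V j))) (fun o : Ln × ℤ => (cl j n o : KK))
              (cl j n (K294.ob (lv m M n (V j)) x)) : ℝ) := by
        refine (mul_le_mul_of_nonneg_left b hd.le).trans ?_
        refine le_trans (le_of_eq ?_) (c1.trans (le_of_eq (congrArg Nat.cast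
          (ccard_eq _ (I1 n) (K294.ob (lv m M n (V j))) (fun o => cl j n o) _ _))))
        exact (mul_assoc _ _ _).symm
      calc Mk163.amp B (fun n v => lv m M n v) A q g Λ n (V j) *
              (w1 n (V j) * w2 n (V j) ^ (1 + q))
          = B.d n ^ (-ε) * (B.d n ^ (ε / 2) * (B.d n ^ (ε / 2) *
          (Mk163.amp B (fun n v => lv m M n v) A q g Λ n (V j) *
            (w1 n (V j) * w2 n (V j) ^ (1 + q))))) := by
            rw [← mul_assoc (B.d n ^ (ε / 2)), ← mul_assoc (B.d n ^ (-ε)), e0, one_mul]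
        _ ≤ _ := mul_le_mul_of_nonneg_left e1 (dpow_pos B n _).le
    · refine c2'.trans (le_of_eq ?_)
      congr!

/-- exponent of the own counts, in powers of `d` -/
theorem XS.cmax_bounds (hX : XS B m M r I A q g Λ l w1 w2 h1 h2) {v : ℚ} (hv0 : 0 ≤ v)
    (hv1 : v ≤ 1) {ε : ℝ} (hε : 0 < ε) : ∀ᶠ n in (U : Filter ℕ),
      B.d n ^ (-((1 - (v : ℝ)) - (Λ 1 - Λ v)) + ε) ≤ (cmax (K294.ob (lv m M n v)) (I n) : ℝ) ∧
      (cmax (K294.ob (lv m M n v)) (I n) : ℝ) ≤ B.d n ^ (-((1 - (v : ℝ)) - (Λ 1 - Λ v)) - ε) := by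
  have hrefl : ∀ᶠ n in (U : Filter ℕ), I n ⊆ I n := Eventually.of_forall fun n => Subset.refl _
  have pb := (monoF_cmax hX.fam.card_pb (fun n => K294.ob (lv m M n v))).pb hrefl hX.fam.ne
  have hex : B.ex (fun n => (cmax (K294.ob (lv m M n v)) (I n) : ℝ)) =
      (1 - (v : ℝ)) - (Λ 1 - Λ v) := hX.own v hv0 hv1
  have k1 := Base.lt_ex_dpow pb (a := (1 - (v : ℝ)) - (Λ 1 - Λ v) - ε) (by rw [hex]; linarith)
  have k2 := Base.ex_lt_iff_dpow pb (a := (1 - (v : ℝ)) - (Λ 1 - Λ v) + ε)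
    (by rw [hex]; linarith)
  filter_upwards [k1, k2] with n a b
  constructor
  · refine le_trans (le_of_eq ?_) a.le
    congr 1; ring
  · refine b.le.trans (le_of_eq ?_)
    congr 1; ring

end

/-- **L7 of TEXT I.** -/
theorem mkOfXs : MkOfXs := by
  classical
  intro B m M r I A q g Λ l w1 w2 h1 h2 hX
  obtain ⟨V, idx, hV, hidx⟩ := exists_enum
  obtain ⟨I1, hI1, cl, hcl⟩ := hX.exists_hon hV
  have hcode : ∀ n, ∃ (code : Ln → ℕ) (L : ℕ → Ln), ∀ x ∈ I1 n, L (code x.1) = x.1 :=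
    fun n => exists_code ⟨0⟩ (I1 n) Prod.fst
  choose code L hL using hcode
  have hK : ∀ (n : ℕ) (v : ℚ), ∃ (ck : KK → ℕ) (dk : ℕ → KK),
      ∀ x ∈ I1 n, dk (ck (cl (idx v) n (K294.ob (lv m M n v) x))) =
        cl (idx v) n (K294.ob (lv m M n v) x) :=
    fun n v => exists_code inferInstance (I1 n) (fun x => cl (idx v) n (K294.ob (lv m M n v) x))
  choose ck dk hck using hK
  -- the facts for rational levels
  have hmem : ∀ v : ℚ, 0 ≤ v → v ≤ 1 → ∀ᶠ n in (U : Filter ℕ), ∀ x ∈ I1 n,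
      (K294.ob (lv m M n v) x).2 = (cl (idx v) n (K294.ob (lv m M n v) x)).1.1 ∧
      InPlank (K294.ob (lv m M n v) x).1 (cl (idx v) n (K294.ob (lv m M n v) x)).1.2.1
        (cl (idx v) n (K294.ob (lv m M n v) x)).1.2.2 (w1 n v) (w2 n v)
        (Mk163.zl (lv m M n v) (cl (idx v) n (K294.ob (lv m M n v) x)).1.1)
        (Mk163.rho (lv m M n v)) := by
    intro v hv0 hv1
    have := (hcl (idx v)).1
    rwa [hidx v hv0 hv1] at this
  have hlow : ∀ v : ℚ, 0 ≤ v → v ≤ 1 → ∀ ε : ℝ, 0 < ε → ∀ᶠ n in (U : Filter ℕ), ∀ x ∈ I1 n,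
      Mk163.amp B (fun n v => lv m M n v) A q g Λ n v * (w1 n v * w2 n v ^ (1 + q)) ≤
        B.d n ^ (-ε) * (ccard (I1 n) (K294.ob (lv m M n v)) (cl (idx v) n)
          (cl (idx v) n (K294.ob (lv m M n v) x)) : ℝ) ∧
      B.d n ^ ε * (cmax (K294.ob (lv m M n v)) (I n) : ℝ) ≤
        (((I1 n).filter fun y => K294.ob (lv m M n v) y = K294.ob (lv m M n v) x).card : ℝ) := by
    intro v hv0 hv1 ε hε
    have := (hcl (idx v)).2 ε hε
    rwa [hidx v hv0 hv1] at this
  have hsub : ∀ᶠ n in (U : Filter ℕ), I1 n ⊆ I n := hI1.mono fun n h => h.1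
  have hne1 : ∀ᶠ n in (U : Filter ℕ), (I1 n).Nonempty := hI1.mono fun n h => h.2
  refine ⟨fun n => cdI (I1 n) (code n), L, fun n v t J => ck n v (cl (idx v) n (L n t, J)),
    fun n v c => (dk n v c).1.2.1, fun n v c => (dk n v c).1.2.2, ?_⟩
  refine
    { ne := ?_
      card := ?_
      q0 := hX.q0
      q2 := hX.q2
      g0 := hX.g0
      Apos := hX.Apos
      rpos := hX.fam.rpos
      lam0 := hX.lam0
      lam := hX.lam
      tau1 := sub_self _
      lev_mono := ?_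
      lev_lim := ?_
      cell0 := ?_
      one := ?_
      own := ?_
      dmax := ?_
      near := ?_
      dims := ?_
      tau := ?_ }
  · -- nonempty
    filter_upwards [hne1] with n hn
    obtain ⟨x, hx⟩ := hn
    exact ⟨_, mem_cdI.2 ⟨x, hx, rfl⟩⟩
  · -- card
    intro ε hε
    obtain ⟨C, hC⟩ := hX.fam.poly
    have hsubp : B.Sub (fun n => (|C| + 1) * (1 + B.L n)) :=
      (Base.Sub.const (by positivity)).mul Base.Sub.one_add_L
    have h3 := Base.ex_lt_iff_dpow hsubp.1 (a := ε) (by rw [hsubp.2]; exact hε)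
    filter_upwards [hC, h3, hsub, hne1] with n a b c d
    refine le_trans ?_ b.le
    have hpos : 0 < (cdI (I1 n) (code n)).card := by
      obtain ⟨x, hx⟩ := d
      exact card_pos.2 ⟨_, mem_cdI.2 ⟨x, hx, rfl⟩⟩
    have hle : ((cdI (I1 n) (code n)).card : ℝ) ≤ B.d n ^ (-C) := by
      refine le_trans ?_ a.1
      have : (cdI (I1 n) (code n)).card ≤ (I n).card := by
        unfold cdI
        exact card_image_le.trans (card_le_card c)
      exact_mod_cast this
    have h4 := Real.log_le_log (by exact_mod_cast hpos) hle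
    rw [Real.log_rpow (B.pos n)] at h4
    have h5 : B.L n = - Real.log (B.d n) := rfl
    have h6 := B.L_pos n
    have h7 : -C * Real.log (B.d n) = C * B.L n := by rw [h5]; ring
    rw [h7] at h4
    have h8 := le_abs_self C
    have h9 := abs_nonneg C
    nlinarith
  · -- lev_mono
    intro u v _ huv _
    exact Eventually.of_forall fun n => lv_mono (by exact_mod_cast huv)
  · -- lev_lim
    intro u v hu huv _
    have h3 := hX.fam.lv_lim (u := u) (v := v) (by exact_mod_cast hu) (by exact_mod_cast huv)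
    refine h3.congr fun n => ?_
    have hM := hX.fam.M_pos n
    have hl2 := Real.log_pos one_lt_two
    rw [hX.fam.L_eq n, Nat.cast_sub (lv_mono (by exact_mod_cast huv))]
    field_simp
  · -- cell0
    filter_upwards [hX.fam.cell, hsub] with n a b x hx y hy
    obtain ⟨x', hx', rfl⟩ := mem_cdI.1 hx
    obtain ⟨y', hy', rfl⟩ := mem_cdI.1 hy
    have h3 := a x' (b hx') y' (b hy')
    have h4 : lv m M n ((0 : ℚ) : ℝ) = m n := by rw [Rat.cast_zero]; exact lv_zero
    rw [h4]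
    exact h3
  · -- one
    filter_upwards [hX.one, hsub] with n a b x hx y hy h3 h4
    obtain ⟨x', hx', rfl⟩ := mem_cdI.1 hx
    obtain ⟨y', hy', rfl⟩ := mem_cdI.1 hy
    have h5 : lv m M n ((1 : ℚ) : ℝ) = m n + M n := by rw [Rat.cast_one]; exact lv_one
    rw [h5] at h4
    have h3 : code n x'.1 = code n y'.1 := h3
    have h6 : x'.1 = y'.1 := by rw [← hL n x' hx', ← hL n y' hy', h3]
    have h7 : x' = y' := a x' (b hx') y' (b hy') (Prod.ext h6 h4)
    rw [h7]
  · -- own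
    intro u v hu huv hv ε hε
    have hu1 : u ≤ 1 := huv.trans hv
    have hv0 : 0 ≤ v := hu.trans huv
    filter_upwards [hlow u hu hu1 (ε / 4) (by positivity), hlow v hv0 hv (ε / 4) (by positivity),
      hX.cmax_bounds hu hu1 (ε := ε / 4) (by positivity),
      hX.cmax_bounds hv0 hv (ε := ε / 4) (by positivity), hsub] with n a1 a2 b1 b2 hs x hx
    obtain ⟨x', hx', rfl⟩ := mem_cdI.1 hx
    rw [own_cd (hL n) hx']
    have hlev : lv m M n (u : ℝ) ≤ lv m M n (v : ℝ) := lv_mono (by exact_mod_cast huv)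
    obtain ⟨c1, c2⟩ := own_bounds (a := B.d n ^ (ε / 4)) hlev hs hx' (fun y hy => (a2 y hy).2)
      (fun y hy => (a1 y hy).2)
    have hd := dpow_pos B n (ε / 4)
    have hcv : (0 : ℝ) < (cmax (K294.ob (lv m M n v)) (I n) : ℝ) :=
      (dpow_pos B n _).trans_le b2.1
    set N : ℝ := (ownc (lv m M n u) (lv m M n v) (I1 n) x' : ℝ) with hN
    have hN0 : 0 ≤ N := Nat.cast_nonneg _
    constructor
    · -- lower bound
      have e1 : B.d n ^ (-((v : ℝ) - u) + (Λ v - Λ u) + ε) *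
          B.d n ^ (-((1 - (v : ℝ)) - (Λ 1 - Λ v)) - ε / 4) ≤ N *
          B.d n ^ (-((1 - (v : ℝ)) - (Λ 1 - Λ v)) - ε / 4) := by
        have e2 : N * (cmax (K294.ob (lv m M n v)) (I n) : ℝ) ≤ N *
            B.d n ^ (-((1 - (v : ℝ)) - (Λ 1 - Λ v)) - ε / 4) :=
          mul_le_mul_of_nonneg_left b2.2 hN0
        refine le_trans ?_ (c2.trans e2)
        refine le_trans ?_ (mul_le_mul_of_nonneg_left b1.1 hd.le)
        rw [← dpow_add, ← dpow_add]
        refine dpow_le B n ?_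
        linarith
      exact le_of_mul_le_mul_right e1 (dpow_pos B n _)
    · have e1 : N * (B.d n ^ (ε / 4) * B.d n ^ (-((1 - (v : ℝ)) - (Λ 1 - Λ v)) + ε / 4)) ≤
          B.d n ^ (-((v : ℝ) - u) + (Λ v - Λ u) - ε) *
            (B.d n ^ (ε / 4) * B.d n ^ (-((1 - (v : ℝ)) - (Λ 1 - Λ v)) + ε / 4)) := by
        have e2 : N * (B.d n ^ (ε / 4) * B.d n ^ (-((1 - (v : ℝ)) - (Λ 1 - Λ v)) + ε / 4)) ≤
            N * (B.d n ^ (ε / 4) * (cmax (K294.ob (lv m M n v)) (I n) : ℝ)) :=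
          mul_le_mul_of_nonneg_left (mul_le_mul_of_nonneg_left b2.1 hd.le) hN0
        refine e2.trans (c1.trans (b1.2.trans ?_))
        rw [← dpow_add, ← dpow_add]
        refine dpow_le B n ?_
        linarith
      exact le_of_mul_le_mul_right e1 (mul_pos hd (dpow_pos B n _))
  · -- dmax
    intro v hv0 hv1 ε hε
    filter_upwards [hX.up v hv0 hv1 (ε / 2) (by positivity), hsub,
      dpow_small B (c := ε / 2) (by positivity) (ε := 1 / 201 ^ 4) (by positivity)] with n a hs c J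
    have hamp : 0 < Mk163.amp B (fun n v => lv m M n v) A q g Λ n v := by
      unfold Mk163.amp
      have h3 := hX.Apos n
      have h4 := dpow_pos B n (-(2 * Λ v + g * v))
      have h5 : 0 < Mk163.rho (lv m M n v) := by unfold Mk163.rho; positivity
      have h6 := Real.rpow_pos_of_pos h5 (-q)
      positivity
    have hrle : r n ≤ 1 / 2 ^ (lv m M n v) := (hX.fam.rle n).trans
      (one_div_le_one_div_of_le (by positivity) (pow_le_pow_right₀ one_le_two
        (lv_le (by exact_mod_cast hv1))))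
    have h3 := dmax_cd (L := L n) (code := code n) (A := B.d n ^ (-(ε / 2)) *
      Mk163.amp B (fun n v => lv m M n v) A q g Λ n v) hs (hL n) (hX.fam.rpos n) hrle hX.q0.le
      (mul_nonneg (dpow_pos B n _).le hamp.le) (fun K hK => by
        rw [mul_assoc]; exact a K hK) J
    intro l' e' a1 a2 k1 k2 k3 k4
    refine (h3 l' e' a1 a2 k1 k2 k3 k4).trans ?_
    have ha1 : 0 < a1 := (hX.fam.rpos n).trans_le k2
    have ha2 : 0 < a2 := ha1.trans_le k3
    have h4 : (201 : ℝ) ^ 4 * (B.d n ^ (-(ε / 2)) *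
        Mk163.amp B (fun n v => lv m M n v) A q g Λ n v) ≤
        B.d n ^ (-ε) * Mk163.amp B (fun n v => lv m M n v) A q g Λ n v := by
      rw [← mul_assoc]
      refine mul_le_mul_of_nonneg_right ?_ hamp.le
      have e1 : B.d n ^ (-(ε / 2)) = B.d n ^ (-ε) * B.d n ^ (ε / 2) := by
        rw [← dpow_add]; congr 1; ring
      rw [e1]
      have e2 : (201 : ℝ) ^ 4 * B.d n ^ (ε / 2) ≤ 1 := by
        rw [lt_div_iff₀ (by positivity)] at c
        linarith
      have e3 := dpow_pos B n (-ε)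
      nlinarith
    exact mul_le_mul_of_nonneg_right (mul_le_mul_of_nonneg_right h4
      (Real.rpow_pos_of_pos ha1 _).le) (Real.rpow_pos_of_pos ha2 _).le
  · -- near
    intro v hv0 hv1 ε hε
    filter_upwards [hmem v hv0 hv1, hlow v hv0 hv1 ε hε] with n a b J
    exact near_cd (hL n) (fun k : KK => k.1) (cl (idx v) n) (ck n v) (dk n v) (hck n v)
      (fun k => k.2) a (fun x hx => (b x hx).1) (dpow_pos B n _).le J
  · -- dims
    intro v hv0 hv1
    exact Eventually.of_forall fun n => hX.dims v hv0 hv1 n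
  · -- tau
    intro v hv0 hv1
    have h3 := (hX.wide v hv0 hv1).sub (hX.wide 1 zero_le_one le_rfl)
    rw [Rat.cast_one] at h3
    refine h3.congr fun n => ?_
    have p1 : 0 < Mk163.rho (lv m M n v) / w2 n v :=
      div_pos (by unfold Mk163.rho; positivity) (h2 n v)
    have p2 : 0 < Mk163.rho (lv m M n ((1 : ℚ) : ℝ)) / w2 n 1 :=
      div_pos (by unfold Mk163.rho; positivity) (h2 n 1)
    rw [Real.log_div p1.ne' p2.ne', sub_div, Rat.cast_one]

end Crest.Agent.R138.X248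
end

-- ▼ part R138/BunC_294

/-!
# R138, TEXT I (helper294): NORM + bundle lemma: the bound of one size bounds all sizes;
X1 output unconditional.
-/

set_option autoImplicit false
set_option linter.unusedVariables false

open Finset

namespace Crest.Agent.R138.Bun294

open Crest.Agent.R138.Flag51
open Crest.Agent.R138.K294

/-- logarithm of a monomial is `o(M)` -/
theorem logb_small (A : ℝ) (hA : 0 < A) (k : ℕ) {η : ℝ} (hη : 0 < η) :
    ∃ M0 : ℕ, ∀ M : ℕ, M0 ≤ M → 1 ≤ M → Real.logb 2 (A * (M:ℝ) ^ k) / (M:ℝ) ≤ η := by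
  have hlim : Filter.Tendsto (fun M : ℕ => Real.logb 2 (A * (M:ℝ) ^ k) / (M:ℝ))
      Filter.atTop (nhds 0) := by
    have h1 : Filter.Tendsto (fun x : ℝ => Real.log x / x) Filter.atTop (nhds 0) := by
      have := Real.isLittleO_log_id_atTop.tendsto_div_nhds_zero
      simpa using this
    have h2 := h1.comp (tendsto_natCast_atTop_atTop (R := ℝ))
    have h3 : Filter.Tendsto (fun M : ℕ => (Real.log A) * (1 / (M:ℝ)))
        Filter.atTop (nhds ((Real.log A) * 0)) :=
      tendsto_one_div_atTop_nhds_zero_nat.const_mul _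
    have h4 := (h3.add (h2.const_mul (k:ℝ))).div_const (Real.log 2)
    simp only [mul_zero, add_zero, zero_div] at h4
    refine h4.congr' ?_
    filter_upwards [Filter.eventually_ge_atTop 1] with M hM
    have hM' : (0:ℝ) < M := by exact_mod_cast hM
    simp only [Function.comp]
    have e0 : Real.log (A * (M:ℝ) ^ k) = Real.log A + k * Real.log M := by
      rw [Real.log_mul hA.ne' (by positivity), Real.log_pow]
    rw [Real.logb, e0]
    field_simp
  obtain ⟨M0, hM0⟩ := Filter.eventually_atTop.1 (hlim.eventually_le_const hη)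
  exact ⟨M0, fun M hM _ => hM0 M hM⟩

/-- **the bound for one size bounds all sizes** -/
theorem bd_all {q0 : ℝ} (hq0 : 0 < q0) : ∃ L0 C0 : ℝ, ∀ p, q0 ≤ p → p ≤ 2 → ∀ b : ℝ, 0 ≤ b →
    Bd p b L0 C0 → ∀ R C, Bd p b R C := by
  set L0 : ℝ := 5 / q0 + 5 with hL0
  have hL0p : 0 < L0 := by positivity
  refine ⟨L0, 4 * L0 + 2, fun p hp0 hp2 b hb hbd R C η hη => ?_⟩
  obtain ⟨M1, h1⟩ := Norm70.norm_cf hq0 R (η := η / 3) (by linarith)
  obtain ⟨M2, h2⟩ := logb_small (1875 * (2304 * (|C| + 1) ^ 4) ^ 4) (by positivity) 16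
    (η := η / 3) (by linarith)
  obtain ⟨M3, h3⟩ := hbd (η / 3) (by linarith)
  refine ⟨max (max M1 M2) (max M3 23), fun F hF hM hS => ?_⟩
  have hM1 : M1 ≤ F.M := (le_max_left _ _).trans ((le_max_left _ _).trans hM)
  have hM2 : M2 ≤ F.M := (le_max_right _ _).trans ((le_max_left _ _).trans hM)
  have hM3 : M3 ≤ F.M := (le_max_left _ _).trans ((le_max_right _ _).trans hM)
  have hM4 : 23 ≤ F.M := (le_max_right _ _).trans ((le_max_right _ _).trans hM)
  by_contra hcon
  push Not at hcon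
  have hMp : (1:ℝ) ≤ F.M := by exact_mod_cast hF.M1
  have hM23 : (23:ℝ) ≤ F.M := by exact_mod_cast hM4
  have hp0' : 0 ≤ p := hq0.le.trans hp0
  obtain ⟨F1, hF1, e1, e2, e3, e4, e5, e6, e7⟩ := h1 p hp0 hp2 F hF hM1
    (by rw [← half_rpow]; exact hS.res) (by linarith)
  have etop : F1.top = F.top := by unfold Cf.top; rw [e1, e2]
  obtain ⟨F2, hF2, f1, f2, f3, f4, f5⟩ := bun_cf hF1 hp0' hp2 (by rw [etop]; exact e6)
    (by rw [e1]; exact e7)
  have hr1 := hF1.r0
  -- size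
  have hX : 1 / (2 ^ F1.m * F1.r) ≤ 2 ^ (L0 * F.M) := by
    rw [div_le_iff₀ (by positivity)]
    have k1 : (2:ℝ) ^ (-((F1.m:ℝ) + L0 * F1.M)) ≤ F1.r := e3
    have k2 : (2:ℝ) ^ (-((F1.m:ℝ) + L0 * F1.M)) = 2 ^ (-(L0 * F.M)) / 2 ^ F1.m := by
      rw [e2, neg_add, Real.rpow_add (by norm_num), Real.rpow_neg (by norm_num) (F1.m : ℝ),
        Real.rpow_natCast]
      ring
    rw [k2, div_le_iff₀ (by positivity)] at k1
    have k3 : (1:ℝ) = 2 ^ (L0 * F.M) * 2 ^ (-(L0 * F.M)) := by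
      rw [← Real.rpow_add (by norm_num)]; simp
    calc (1:ℝ) = 2 ^ (L0 * F.M) * 2 ^ (-(L0 * F.M)) := k3
      _ ≤ 2 ^ (L0 * F.M) * (F1.r * 2 ^ F1.m) := by gcongr
      _ = 2 ^ (L0 * F.M) * (2 ^ F1.m * F1.r) := by ring
  have hSz : F2.Sz L0 (4 * L0 + 2) := by
    refine ⟨?_, ?_⟩
    · rw [half_rpow, f1, f2, f3]; exact e3
    · refine f4.trans ?_
      rw [f2, e2]
      calc 2 ^ 23 * (1 / (2 ^ F1.m * F1.r)) ^ 4 * 2 ^ F.M ≤
            2 ^ 23 * (2 ^ (L0 * F.M)) ^ 4 * 2 ^ F.M := by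
            gcongr
        _ = 2 ^ ((23:ℝ) + L0 * F.M * 4 + F.M) := by
            rw [Real.rpow_add (by norm_num), Real.rpow_add (by norm_num),
              Real.rpow_mul (by norm_num) (L0 * F.M) 4, Real.rpow_natCast]
            norm_num
        _ ≤ 2 ^ ((4 * L0 + 2) * F.M) := by
            refine Real.rpow_le_rpow_of_exponent_le one_le_two ?_
            linarith
  have h4 := h3 F2 hF2 (by rw [f2, e2]; exact hM3) hSz
  -- value
  have hD0 := hF1.D0p'
  have hD1 := hF1.D1p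
  have hnu := hF1.nup
  have hlos := los_pos F1
  have hV : 0 < F1.D1 * F1.nu ^ 2 / (4 ^ F1.M * F1.D0) := by positivity
  have h5 : F1.val - η / 3 ≤ F2.val := by
    unfold Cf.val
    rw [f2, e2]
    rw [f2, e2] at f5
    rw [e2] at hV
    have k1 := Real.logb_le_logb_of_le one_lt_two (by positivity) f5
    rw [Real.logb_mul (by positivity) hV.ne', Real.logb_div (by positivity) (by norm_num)] at k1
    -- the loss
    have k2 : -(Real.logb 2 (1875 * (2304 * (|C| + 1) ^ 4) ^ 4 * (F.M : ℝ) ^ 16)) ≤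
        Real.logb 2 (los F1 ^ 4) - Real.logb 2 1875 := by
      rw [← Real.logb_div (by positivity) (by norm_num), ← Real.logb_inv]
      refine Real.logb_le_logb_of_le one_lt_two (by positivity) ?_
      have k3 : (Nat.log 2 F1.I.card : ℝ) + 1 ≤ (|C| + 1) * F.M := by
        have k4 : Nat.log 2 F1.I.card ≤ Nat.log 2 F.I.card := Nat.log_mono_right e4
        have k5 : (2:ℝ) ^ (Nat.log 2 F.I.card : ℝ) ≤ 2 ^ (C * F.M) := by
          rw [Real.rpow_natCast]
          refine le_trans ?_ hS.card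
          exact_mod_cast Nat.pow_log_le_self 2 hF.ne.card_pos.ne'
        have k6 := (Real.rpow_le_rpow_left_iff one_lt_two).1 k5
        have k7 : C * F.M ≤ |C| * F.M := mul_le_mul_of_nonneg_right (le_abs_self C) (by linarith)
        have k8 : (Nat.log 2 F1.I.card : ℝ) ≤ Nat.log 2 F.I.card := by exact_mod_cast k4
        have : (|C| + 1) * (F.M : ℝ) = |C| * F.M + F.M := by ring
        rw [this]; linarith
      have k9 : los F1 ^ 4 / 1875 =
          (1875 * (2304 * ((Nat.log 2 F1.I.card : ℝ) + 1) ^ 4) ^ 4)⁻¹ := by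
        unfold los; field_simp
      rw [k9]
      have k10 : 1875 * (2304 * ((Nat.log 2 F1.I.card : ℝ) + 1) ^ 4) ^ 4 ≤
          1875 * (2304 * (|C| + 1) ^ 4) ^ 4 * (F.M : ℝ) ^ 16 := by
        calc 1875 * (2304 * ((Nat.log 2 F1.I.card : ℝ) + 1) ^ 4) ^ 4 ≤
              1875 * (2304 * ((|C| + 1) * F.M) ^ 4) ^ 4 := by gcongr
          _ = _ := by ring
      exact inv_anti₀ (by positivity) k10
    have k11 := h2 F.M hM2 hF.M1
    rw [div_le_iff₀ (by linarith)] at k11
    rw [sub_le_iff_le_add, div_le_iff₀ (by linarith), add_mul, div_mul_cancel₀ _ (by linarith)]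
    linarith
  linarith

/-- X1 input, all sizes, unconditional -/
theorem joint_full (hK : ¬ GrW294.KMseq) :
    ∃ q0 κ q β R0 C0 : ℝ, 0 < q0 ∧ 0 < κ ∧ 0 < β ∧ q0 ≤ q ∧ q < 2 ∧
      (∀ p, q0 ≤ p → p ≤ 2 → ∀ R C, Bd p (β + κ * (q - p)) R C) ∧
      (∀ η : ℝ, 0 < η → ∀ M0 : ℕ, ∃ F : Cf, F.Ok q ∧ M0 ≤ F.M ∧ F.Sz R0 C0 ∧ β - η ≤ F.val) := by
  obtain ⟨q0, κ, g0, h1, h2, h3, h4, h5⟩ := joint' hK
  obtain ⟨L0, C1, hL⟩ := bd_all h1
  set L : ℝ := max L0 1 with hLdef
  have hL1 : 1 ≤ L := le_max_right _ _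
  obtain ⟨q, β, h6, h7, h8, h9, h10⟩ := h5 L (max C1 5) hL1 (le_max_right _ _)
  have hq2 : q < 2 := by
    have : 0 < g0 / L := by positivity
    linarith
  have hβ : g0 ≤ β := by
    have := mul_nonpos_of_nonneg_of_nonpos h3.le (by linarith : q - 2 ≤ 0)
    linarith
  refine ⟨q0, κ, q, β, L, max C1 5, h1, h3, by linarith, h6, hq2, ?_, h10⟩
  intro p hp1 hp2 R C
  have hb : 0 ≤ β + κ * (q - p) := by
    have := mul_le_mul_of_nonneg_left (by linarith : q - 2 ≤ q - p) h3.le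
    linarith
  have e1 : Bd p (β + κ * (q - p)) L (max C1 5) := by
    intro η hη
    obtain ⟨M0, h0⟩ := h9 η hη
    exact ⟨M0, fun F hF hM hS => h0 p hp1 hp2 F hF hM hS⟩
  exact hL p hp1 hp2 _ hb (e1.mono le_rfl (le_max_left _ _) (le_max_left _ _)) R C

open Crest.Agent.R138.Ex926 in
open Crest.Agent.R138.X248 in
/-- **X1 OUTPUT, UNCONDITIONAL**: if `KMseq` fails there is a marked extremal sequence. -/
theorem exists_mk (hK : ¬ GrW294.KMseq) :
    ∃ (B : Base) (I : ℕ → Finset (ℕ × ℝ)) (L : ℕ → ℕ → Ln) (lev : ℕ → ℚ → ℕ)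
      (r0 A : ℕ → ℝ) (q g : ℝ) (Λ τ : ℝ → ℝ) (f : ℕ → ℚ → ℕ → ℤ → ℕ) (b : ℕ → ℚ → ℕ → Ln)
      (e : ℕ → ℚ → ℕ → E2) (w1 w2 : ℕ → ℚ → ℝ) (κ : ℝ), 0 < κ ∧
      Mk163.Mk B I L lev r0 A q g Λ τ f b e w1 w2 ∧
      ∀ u v : ℚ, 0 ≤ u → u ≤ v → v ≤ 1 → κ * ((v : ℝ) - u) ≤ τ u - τ v := by
  obtain ⟨q0, κ, q, β, R0, C0, h0, hκ, hβ, hq, hq2, hub, hex⟩ := joint_full hK
  obtain ⟨B, m, M, r, I, A, Λ, l, w1, w2, h1, h2, hxs, hsw⟩ :=
    exists_xs (inX_of_joint h0 hκ hβ hq hq2 hub hex) Ext615.extX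
  obtain ⟨I', L, f, b, e, hmk⟩ := mkOfXs B m M r I A q β Λ l w1 w2 h1 h2 hxs
  refine ⟨B, I', L, _, r, A, q, β, Λ, _, f, b, e, w1, w2, κ, hκ, hmk, fun u v hu huv hv => ?_⟩
  have := hsw u v hu huv hv
  linarith

end Crest.Agent.R138.Bun294
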