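import Mathlib
import Crest.Agent.R138.RsDef_134
import Crest.Agent.R138.Rs4_134
import Crest.Agent.R138.Rs3_134

-- ▼ part R138/ExSp1_774
section

/-!
# Sparse lemma, part 1: bump, scaled kernel, frequency side localisation (helper774)
-/

set_option autoImplicit false

open MeasureTheory Crest.Agent.R138.Rs134
open scoped ContDiff RealInnerProductSpace ENNReal

namespace Crest.Agent.R138.Ex774

/-- Frequency (and physical) space. -/
abbrev W : Type := E2 × ℝ

instance instHaarW : (volume : Measure W).IsAddHaarMeasure :=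
  inferInstanceAs (((volume : Measure E2).prod (volume : Measure ℝ)).IsAddHaarMeasure)

/-- The pairing of physical and frequency space. -/
noncomputable def pr (p ζ : W) : ℝ := ⟪p.1, ζ.1⟫ + p.2 * ζ.2

/-- The graph map. -/
def Gam (h : E2 → ℝ) (v : E2) : W := (v, h v)

lemma pr_Gam (h : E2 → ℝ) (p : W) (v : E2) : pr p (Gam h v) = ph h p.1 p.2 v := rfl

lemma pr_add_right (p ζ η : W) : pr p (ζ + η) = pr p ζ + pr p η := by
  unfold pr
  rw [Prod.fst_add, Prod.snd_add, inner_add_right]; ring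

lemma pr_smul_right (p ζ : W) (c : ℝ) : pr p (c • ζ) = c * pr p ζ := by
  unfold pr
  rw [Prod.smul_fst, Prod.smul_snd, inner_smul_right, smul_eq_mul]; ring

lemma pr_smul_left (p ζ : W) (c : ℝ) : pr (c • p) ζ = c * pr p ζ := by
  unfold pr
  rw [Prod.smul_fst, Prod.smul_snd, real_inner_smul_left, smul_eq_mul]; ring

lemma continuous_pr (p : W) : Continuous (pr p) := by
  unfold pr; fun_prop

lemma abs_pr_le (p ζ : W) : |pr p ζ| ≤ 2 * (‖p‖ * ‖ζ‖) := by
  unfold pr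
  have h1 : |⟪p.1, ζ.1⟫| ≤ ‖p‖ * ‖ζ‖ :=
    (abs_real_inner_le_norm _ _).trans (mul_le_mul (norm_fst_le p) (norm_fst_le ζ) (norm_nonneg _)
      (norm_nonneg _))
  have h2 : |p.2 * ζ.2| ≤ ‖p‖ * ‖ζ‖ := by
    rw [abs_mul]
    exact mul_le_mul (norm_snd_le p) (norm_snd_le ζ) (abs_nonneg _) (norm_nonneg _)
  calc _ ≤ |⟪p.1, ζ.1⟫| + |p.2 * ζ.2| := abs_add_le _ _
    _ ≤ _ := by linarith

lemma norm_ee_sub_one_le (s : ℝ) : ‖ee s - 1‖ ≤ 2 * Real.pi * |s| := by
  unfold ee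
  have := Real.norm_exp_I_mul_ofReal_sub_one_le (x := 2 * Real.pi * s)
  rw [mul_comm] at this
  refine this.trans (le_of_eq ?_)
  rw [Real.norm_eq_abs, abs_mul, abs_of_pos (by positivity)]

/-- A normalised bump. -/
structure Bump (κ : W → ℝ) (B : ℝ) : Prop where
  smooth : ContDiff ℝ 1 κ
  nonneg : ∀ z, 0 ≤ κ z
  supp : ∀ z, 1 / 100 ≤ ‖z‖ → κ z = 0
  int : ∫ z, κ z = 1
  bd : ∀ z, κ z ≤ B
  dbd : ∀ z, ‖fderiv ℝ κ z‖ ≤ B

lemma exists_bump : ∃ (κ : W → ℝ) (B : ℝ), 0 ≤ B ∧ Bump κ B := by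
  let f : ContDiffBump (0 : W) := ⟨1 / 200, 1 / 100, by norm_num, by norm_num⟩
  have hs : HasCompactSupport (f.normed (volume : Measure W)) := f.hasCompactSupport_normed
  have hc : ContDiff ℝ 1 (f.normed (volume : Measure W)) := f.contDiff_normed (n := 1)
  obtain ⟨B1, hB1⟩ := hs.exists_bound_of_continuous hc.continuous
  have hs' : HasCompactSupport (fderiv ℝ (f.normed (volume : Measure W))) := hs.fderiv (𝕜 := ℝ)
  obtain ⟨B2, hB2⟩ := hs'.exists_bound_of_continuous (hc.continuous_fderiv (by norm_num))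
  refine ⟨f.normed volume, max (max B1 B2) 0, le_max_right _ _, hc, f.nonneg_normed, ?_,
    f.integral_normed, ?_, ?_⟩
  · intro z hz
    by_contra hne
    have : z ∈ Function.support (f.normed (volume : Measure W)) := hne
    rw [f.support_normed_eq, mem_ball_zero_iff] at this
    exact absurd this (not_lt.2 hz)
  · intro z
    exact (le_abs_self _).trans ((hB1 z).trans ((le_max_left _ _).trans (le_max_left _ _)))
  · intro z
    exact (hB2 z).trans ((le_max_right _ _).trans (le_max_left _ _))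

namespace Bump
variable {κ : W → ℝ} {B : ℝ}

lemma hasCompactSupport (hκ : Bump κ B) : HasCompactSupport κ := by
  refine HasCompactSupport.intro (isCompact_closedBall (0 : W) (1 / 100)) ?_
  intro z hz
  rw [mem_closedBall_zero_iff, not_le] at hz
  exact hκ.supp z hz.le

lemma integrable (hκ : Bump κ B) : Integrable κ :=
  hκ.smooth.continuous.integrable_of_hasCompactSupport hκ.hasCompactSupport

end Bump

/-- the `L¹` normalised scaled bump. -/
noncomputable def kR (κ : W → ℝ) (R : ℝ) (z : W) : ℝ := R ^ 3 * κ (R • z)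

/-- the multiplier on the physical side. -/
noncomputable def mm (κ : W → ℝ) (y : W) : ℂ := ∫ ζ, (κ ζ : ℂ) * ee (pr y ζ)

section basics
variable {κ : W → ℝ} {B R : ℝ}

lemma finrank_W : Module.finrank ℝ W = 3 := by
  simp [W]

lemma kR_nonneg (hκ : Bump κ B) (hR : 0 < R) (z : W) : 0 ≤ kR κ R z :=
  mul_nonneg (by positivity) (hκ.nonneg _)

lemma kR_le (hκ : Bump κ B) (hR : 0 < R) (z : W) : kR κ R z ≤ R ^ 3 * B :=
  mul_le_mul_of_nonneg_left (hκ.bd _) (by positivity)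

lemma kR_supp (hκ : Bump κ B) (hR : 0 < R) {z : W} (hz : 1 / 100 ≤ R * ‖z‖) : kR κ R z = 0 := by
  unfold kR
  rw [hκ.supp, mul_zero]
  rwa [norm_smul, Real.norm_eq_abs, abs_of_pos hR]

lemma continuous_kR (hκ : Bump κ B) : Continuous (kR κ R) := by
  unfold kR
  have := hκ.smooth.continuous
  fun_prop

lemma contDiff_kR (hκ : Bump κ B) : ContDiff ℝ 1 (kR κ R) := by
  unfold kR
  have := hκ.smooth
  fun_prop

lemma hasCompactSupport_kR (hκ : Bump κ B) (hR : 0 < R) : HasCompactSupport (kR κ R) := by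
  refine HasCompactSupport.intro (isCompact_closedBall (0 : W) (1 / R)) ?_
  intro z hz
  rw [mem_closedBall_zero_iff, not_le, div_lt_iff₀ hR] at hz
  exact kR_supp hκ hR (by nlinarith)

lemma integrable_kR (hκ : Bump κ B) (hR : 0 < R) : Integrable (kR κ R) :=
  (continuous_kR hκ).integrable_of_hasCompactSupport (hasCompactSupport_kR hκ hR)

lemma integral_scaled {E : Type*} [NormedAddCommGroup E] [NormedSpace ℝ E] (hR : 0 < R)
    (G : W → E) : ∫ z, (R ^ 3) • G (R • z) = ∫ z, G z := by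
  rw [integral_smul, Measure.integral_comp_smul, finrank_W, smul_smul, abs_of_pos (by positivity),
    mul_inv_cancel₀ (by positivity), one_smul]

lemma integral_kR (hκ : Bump κ B) (hR : 0 < R) : ∫ z, kR κ R z = 1 := by
  rw [← hκ.int, ← integral_scaled hR κ]
  rfl

lemma integral_kR_ee (hR : 0 < R) (p : W) :
    ∫ z, (kR κ R z : ℂ) * ee (pr p z) = mm κ (R⁻¹ • p) := by
  unfold mm
  rw [← integral_scaled hR (fun ζ => (κ ζ : ℂ) * ee (pr (R⁻¹ • p) ζ))]
  congr 1
  ext z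
  unfold kR
  rw [pr_smul_right, pr_smul_left, ← mul_assoc, mul_inv_cancel₀ hR.ne', one_mul]
  push_cast
  rw [Complex.real_smul]
  push_cast
  ring

lemma norm_mm_ge (hκ : Bump κ B) {y : W} (hy : ‖y‖ ≤ 1) : 1 / 2 ≤ ‖mm κ y‖ := by
  have hint : Integrable (fun ζ : W => (κ ζ : ℂ)) := hκ.integrable.ofReal
  have hmeas : Continuous (fun ζ : W => ee (pr y ζ)) := continuous_ee.comp (continuous_pr y)
  have hint2 : Integrable (fun ζ : W => (κ ζ : ℂ) * ee (pr y ζ)) := by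
    refine hint.mono ((hint.aestronglyMeasurable).mul hmeas.aestronglyMeasurable) ?_
    exact Filter.Eventually.of_forall fun ζ => by rw [norm_mul_ee]
  have h1 : mm κ y - 1 = ∫ ζ, (κ ζ : ℂ) * (ee (pr y ζ) - 1) := by
    have : (1 : ℂ) = ∫ ζ, (κ ζ : ℂ) := by
      rw [integral_complex_ofReal, hκ.int]; simp
    unfold mm
    conv_lhs => rw [this]
    rw [← integral_sub hint2 hint]
    congr 1
    ext ζ
    ring
  have h2 : ‖mm κ y - 1‖ ≤ 1 / 2 := by
    rw [h1]
    refine (norm_integral_le_integral_norm _).trans ?_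
    have : ∀ ζ, ‖(κ ζ : ℂ) * (ee (pr y ζ) - 1)‖ ≤ κ ζ * (1 / 2) := by
      intro ζ
      rw [norm_mul, Complex.norm_real, Real.norm_eq_abs, abs_of_nonneg (hκ.nonneg ζ)]
      rcases lt_or_ge ‖ζ‖ (1 / 100) with h | h
      · refine mul_le_mul_of_nonneg_left ?_ (hκ.nonneg ζ)
        refine (norm_ee_sub_one_le _).trans ?_
        have h3 := abs_pr_le y ζ
        have h4 : ‖y‖ * ‖ζ‖ ≤ 1 * (1 / 100) := mul_le_mul hy h.le (norm_nonneg _) zero_le_one
        have hpi : Real.pi ≤ 4 := Real.pi_le_four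
        have h5 : |pr y ζ| ≤ 1 / 50 := by linarith
        have h6 := mul_le_mul hpi h5 (abs_nonneg _) (by norm_num)
        linarith
      · rw [hκ.supp ζ h]; simp
    calc _ ≤ ∫ ζ, κ ζ * (1 / 2) := by
          refine integral_mono_of_nonneg (Filter.Eventually.of_forall fun ζ => norm_nonneg _)
            (hκ.integrable.mul_const _) (Filter.Eventually.of_forall this)
      _ = 1 / 2 := by rw [integral_mul_const, hκ.int, one_mul]
  have h3 : (1 : ℝ) = ‖(1 : ℂ)‖ := by simp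
  have h4 := norm_sub_norm_le (1 : ℂ) (mm κ y)
  rw [norm_sub_rev] at h4
  linarith

end basics

/-- The frequency side localisation of the measure `f dΓ`. -/
noncomputable def FF (κ : W → ℝ) (R : ℝ) (h : E2 → ℝ) (f : E2 → ℂ) (ζ : W) : ℂ :=
  ∫ v, f v * (kR κ R (ζ - Gam h v) : ℂ)

section loc
variable {κ : W → ℝ} {B R : ℝ} {h : E2 → ℝ} {f : E2 → ℂ}

lemma continuous_Gam (hh : Continuous h) : Continuous (Gam h) := by
  unfold Gam; fun_prop

lemma integrable_prod_kernel (hκ : Bump κ B) (hR : 0 < R) (hh : Continuous h)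
    (hf : Integrable f) :
    Integrable (fun q : W × E2 => f q.2 * (kR κ R (q.1 - Gam h q.2) : ℂ))
      ((volume : Measure W).prod (volume : Measure E2)) := by
  have hmeas : AEStronglyMeasurable (fun q : W × E2 => f q.2 * (kR κ R (q.1 - Gam h q.2) : ℂ))
      ((volume : Measure W).prod (volume : Measure E2)) := by
    refine AEStronglyMeasurable.mul (hf.aestronglyMeasurable.comp_snd) ?_
    have hk := continuous_kR (R := R) hκ
    have hG := continuous_Gam hh
    exact Continuous.aestronglyMeasurable (by fun_prop)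
  rw [integrable_prod_iff' hmeas]
  have hslice : ∀ v : E2, Integrable (fun ζ : W => f v * (kR κ R (ζ - Gam h v) : ℂ)) := by
    intro v
    have := ((integrable_kR hκ hR).comp_sub_right (Gam h v)).ofReal (𝕜 := ℂ)
    exact this.const_mul (f v)
  refine ⟨Filter.Eventually.of_forall hslice, ?_⟩
  have : ∀ v : E2, ∫ ζ : W, ‖f v * (kR κ R (ζ - Gam h v) : ℂ)‖ = ‖f v‖ := by
    intro v
    have h1 : ∀ ζ : W, ‖f v * (kR κ R (ζ - Gam h v) : ℂ)‖ = ‖f v‖ * kR κ R (ζ - Gam h v) := by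
      intro ζ
      rw [norm_mul, Complex.norm_real, Real.norm_eq_abs, abs_of_nonneg (kR_nonneg hκ hR _)]
    simp_rw [h1]
    rw [integral_const_mul, integral_sub_right_eq_self (kR κ R) (Gam h v), integral_kR hκ hR,
      mul_one]
  simp_rw [this]
  exact hf.norm

lemma integrable_FF (hκ : Bump κ B) (hR : 0 < R) (hh : Continuous h) (hf : Integrable f) :
    Integrable (FF κ R h f) :=
  (integrable_prod_kernel hκ hR hh hf).integral_prod_left

lemma integral_norm_FF_le (hκ : Bump κ B) (hR : 0 < R) (hh : Continuous h) (hf : Integrable f) :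
    ∫ ζ, ‖FF κ R h f ζ‖ ≤ ∫ v, ‖f v‖ := by
  have hI := (integrable_prod_kernel hκ hR hh hf).norm
  calc ∫ ζ, ‖FF κ R h f ζ‖ ≤ ∫ ζ, ∫ v, ‖f v * (kR κ R (ζ - Gam h v) : ℂ)‖ := by
        refine integral_mono (integrable_FF hκ hR hh hf).norm hI.integral_prod_left ?_
        intro ζ
        exact norm_integral_le_integral_norm _
    _ = ∫ v, ∫ ζ, ‖f v * (kR κ R (ζ - Gam h v) : ℂ)‖ := integral_integral_swap hI
    _ = ∫ v, ‖f v‖ := by
        congr 1
        ext v
        have h1 : ∀ ζ : W, ‖f v * (kR κ R (ζ - Gam h v) : ℂ)‖ = ‖f v‖ * kR κ R (ζ - Gam h v) := by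
          intro ζ
          rw [norm_mul, Complex.norm_real, Real.norm_eq_abs, abs_of_nonneg (kR_nonneg hκ hR _)]
        simp_rw [h1]
        rw [integral_const_mul, integral_sub_right_eq_self (kR κ R) (Gam h v), integral_kR hκ hR,
          mul_one]

/-- The key identity: the inverse transform of `FF f` is `ext f` times the multiplier. -/
lemma integral_FF_ee (hκ : Bump κ B) (hR : 0 < R) (hh : Continuous h) (hf : Integrable f) (p : W) :
    ∫ ζ, FF κ R h f ζ * ee (pr p ζ) = ext h f p.1 p.2 * mm κ (R⁻¹ • p) := by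
  have hI := integrable_prod_kernel hκ hR hh hf
  have hee : Continuous (fun q : W × E2 => ee (pr p q.1)) :=
    continuous_ee.comp ((continuous_pr p).comp continuous_fst)
  have hI2 : Integrable (fun q : W × E2 => f q.2 * (kR κ R (q.1 - Gam h q.2) : ℂ) * ee (pr p q.1))
      ((volume : Measure W).prod (volume : Measure E2)) := by
    refine hI.mono (hI.aestronglyMeasurable.mul hee.aestronglyMeasurable) ?_
    exact Filter.Eventually.of_forall fun q => by rw [norm_mul_ee]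
  calc ∫ ζ, FF κ R h f ζ * ee (pr p ζ)
      = ∫ ζ, ∫ v, f v * (kR κ R (ζ - Gam h v) : ℂ) * ee (pr p ζ) := by
        congr 1
        ext ζ
        unfold FF
        rw [← integral_mul_const]
    _ = ∫ v, ∫ ζ, f v * (kR κ R (ζ - Gam h v) : ℂ) * ee (pr p ζ) := integral_integral_swap hI2
    _ = ∫ v, f v * ee (ph h p.1 p.2 v) * mm κ (R⁻¹ • p) := by
        congr 1
        ext v
        have h1 : ∀ ζ : W, f v * (kR κ R (ζ - Gam h v) : ℂ) * ee (pr p ζ) =
            (f v * ee (ph h p.1 p.2 v)) * ((kR κ R (ζ - Gam h v) : ℂ) * ee (pr p (ζ - Gam h v))) := by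
          intro ζ
          have : pr p ζ = ph h p.1 p.2 v + pr p (ζ - Gam h v) := by
            rw [← pr_Gam, ← pr_add_right]
            congr 1
            abel
          rw [this, ee_add]
          ring
        simp_rw [h1]
        rw [integral_const_mul,
          integral_sub_right_eq_self (fun ζ => (kR κ R ζ : ℂ) * ee (pr p ζ)) (Gam h v),
          integral_kR_ee hR]
    _ = ext h f p.1 p.2 * mm κ (R⁻¹ • p) := by
        unfold ext
        rw [← integral_mul_const]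

end loc

end Crest.Agent.R138.Ex774
end

-- ▼ part R138/ExSp2_774
section

/-!
# Sparse lemma, part 2: the local estimate through the frequency side localisation (helper774)
-/

set_option autoImplicit false

open MeasureTheory Crest.Agent.R138.Rs134 Set
open scoped ContDiff RealInnerProductSpace ENNReal

namespace Crest.Agent.R138.Ex774

/-- volume of the unit disc. -/
noncomputable def V0 : ℝ := (volume (Metric.closedBall (0 : E2) 1)).toReal

lemma V0_nonneg : 0 ≤ V0 := ENNReal.toReal_nonneg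

lemma volume_closedBall_inv {R : ℝ} (hR : 0 < R) (x : E2) :
    (volume (Metric.closedBall x (1 / R))).toReal = R⁻¹ ^ 2 * V0 := by
  rw [Measure.addHaar_closedBall' _ _ (by positivity), finrank_euclideanSpace_fin,
    ENNReal.toReal_mul, ENNReal.toReal_ofReal (by positivity), one_div]
  rfl

section
variable {κ : W → ℝ} {B R : ℝ} {h : E2 → ℝ} {f : E2 → ℂ}

lemma kR_Gam_zero (hκ : Bump κ B) (hR : 0 < R) {ζ : W} {v : E2}
    (hv : v ∉ Metric.closedBall ζ.1 (1 / R)) : kR κ R (ζ - Gam h v) = 0 := by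
  refine kR_supp hκ hR ?_
  rw [Metric.mem_closedBall, not_le, div_lt_iff₀ hR, dist_eq_norm] at hv
  have h1 : ‖v - ζ.1‖ ≤ ‖ζ - Gam h v‖ := by
    have : ‖(ζ - Gam h v).1‖ ≤ ‖ζ - Gam h v‖ := norm_fst_le _
    rw [norm_sub_rev]
    exact this
  nlinarith

lemma integrable_kR_Gam (hκ : Bump κ B) (hR : 0 < R) (hh : Continuous h) (ζ : W) :
    Integrable (fun v : E2 => kR κ R (ζ - Gam h v)) := by
  have hk := continuous_kR (R := R) hκ
  have hG := continuous_Gam hh
  have hc : Continuous (fun v : E2 => kR κ R (ζ - Gam h v)) := by fun_prop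
  refine hc.integrable_of_hasCompactSupport ?_
  refine HasCompactSupport.intro (isCompact_closedBall ζ.1 (1 / R)) ?_
  intro v hv
  exact kR_Gam_zero hκ hR hv

lemma integral_kR_Gam_le (hκ : Bump κ B) (hR : 0 < R) (hh : Continuous h) (ζ : W) :
    ∫ v, kR κ R (ζ - Gam h v) ≤ B * V0 * R := by
  have hI : Integrable ((Metric.closedBall ζ.1 (1 / R)).indicator fun _ : E2 => R ^ 3 * B) :=
    (integrable_indicator_iff measurableSet_closedBall).2
      (integrableOn_const (measure_closedBall_lt_top.ne))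
  calc ∫ v, kR κ R (ζ - Gam h v)
      ≤ ∫ v, (Metric.closedBall ζ.1 (1 / R)).indicator (fun _ : E2 => R ^ 3 * B) v := by
        refine integral_mono (integrable_kR_Gam hκ hR hh ζ) hI ?_
        intro v
        by_cases hv : v ∈ Metric.closedBall ζ.1 (1 / R)
        · rw [indicator_of_mem hv]; exact kR_le hκ hR _
        · rw [indicator_of_notMem hv]; exact (kR_Gam_zero hκ hR hv).le
    _ = B * V0 * R := by
        rw [integral_indicator measurableSet_closedBall, setIntegral_const, smul_eq_mul,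
          Measure.real, volume_closedBall_inv hR]
        field_simp

lemma norm_FF_le_integral (hκ : Bump κ B) (hR : 0 < R) (ζ : W) :
    ‖FF κ R h f ζ‖ ≤ ∫ v, ‖f v‖ * kR κ R (ζ - Gam h v) := by
  unfold FF
  refine (norm_integral_le_integral_norm _).trans (le_of_eq ?_)
  congr 1
  ext v
  rw [norm_mul, Complex.norm_real, Real.norm_eq_abs, abs_of_nonneg (kR_nonneg hκ hR _)]

/-- sup bound. -/
lemma norm_FF_le (hκ : Bump κ B) (hR : 0 < R) (hh : Continuous h)
    (hf1 : ∀ v, ‖f v‖ ≤ 1) (ζ : W) : ‖FF κ R h f ζ‖ ≤ B * V0 * R := by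
  refine (norm_FF_le_integral hκ hR ζ).trans (le_trans ?_ (integral_kR_Gam_le hκ hR hh ζ))
  refine integral_mono_of_nonneg (Filter.Eventually.of_forall fun v => ?_)
    (integrable_kR_Gam hκ hR hh ζ) (Filter.Eventually.of_forall fun v => ?_)
  · exact mul_nonneg (norm_nonneg _) (kR_nonneg hκ hR _)
  · calc ‖f v‖ * kR κ R (ζ - Gam h v) ≤ 1 * kR κ R (ζ - Gam h v) :=
        mul_le_mul_of_nonneg_right (hf1 v) (kR_nonneg hκ hR _)
      _ = _ := one_mul _

/-- crude bound by the `L¹` norm. -/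
lemma norm_FF_le' (hκ : Bump κ B) (hR : 0 < R) (hf : Integrable f) (ζ : W) :
    ‖FF κ R h f ζ‖ ≤ R ^ 3 * B * ∫ v, ‖f v‖ := by
  refine (norm_FF_le_integral hκ hR ζ).trans ?_
  rw [← integral_const_mul]
  refine integral_mono_of_nonneg (Filter.Eventually.of_forall fun v => ?_)
    (hf.norm.const_mul _) (Filter.Eventually.of_forall fun v => ?_)
  · exact mul_nonneg (norm_nonneg _) (kR_nonneg hκ hR _)
  · calc ‖f v‖ * kR κ R (ζ - Gam h v) ≤ ‖f v‖ * (R ^ 3 * B) :=
        mul_le_mul_of_nonneg_left (kR_le hκ hR _) (norm_nonneg _)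
      _ = _ := mul_comm _ _

/-- Lipschitz bound of the phase on the unit ball. -/
lemma lip_h {L : ℝ} (hh : ContDiff ℝ ∞ h) (hL : ∀ ξ : E2, ‖ξ‖ ≤ 3 → ‖fderiv ℝ h ξ‖ ≤ L)
    {u v : E2} (hu : ‖u‖ ≤ 3) (hv : ‖v‖ ≤ 3) : |h u - h v| ≤ L * ‖u - v‖ := by
  have := Convex.norm_image_sub_le_of_norm_fderiv_le (f := h) (s := Metric.closedBall (0 : E2) 3)
    (C := L) (𝕜 := ℝ) (fun x _ => (hh.differentiable (by simp)).differentiableAt)
    (fun x hx => hL x (by simpa using hx)) (convex_closedBall _ _)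
    (show v ∈ _ by simpa using hv) (show u ∈ _ by simpa using hu)
  simpa [Real.norm_eq_abs] using this

/-- support of the localised function. -/
lemma FF_support {L : ℝ} (hκ : Bump κ B) (hR : 1 ≤ R) (hh : ContDiff ℝ ∞ h)
    (hL : ∀ ξ : E2, ‖ξ‖ ≤ 3 → ‖fderiv ℝ h ξ‖ ≤ L)
    (hfs : ∀ v, 1 / 2 < ‖v‖ → f v = 0) {ζ : W} (hζ : FF κ R h f ζ ≠ 0) :
    ‖ζ.1‖ ≤ 1 ∧ |ζ.2 - h ζ.1| ≤ (1 + L) / R := by
  have hR0 : 0 < R := by linarith
  have hL0 : 0 ≤ L := (norm_nonneg _).trans (hL 0 (by simp))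
  obtain ⟨v, hv⟩ : ∃ v, f v * (kR κ R (ζ - Gam h v) : ℂ) ≠ 0 := by
    by_contra hcon
    push Not at hcon
    exact hζ (by unfold FF; simp [hcon])
  have hfv : f v ≠ 0 := left_ne_zero_of_mul hv
  have hkv : kR κ R (ζ - Gam h v) ≠ 0 := by
    intro h0
    exact hv (by rw [h0]; simp)
  have hv2 : ‖v‖ ≤ 1 / 2 := by
    by_contra hcon
    exact hfv (hfs v (not_le.1 hcon))
  have hsm : R * ‖ζ - Gam h v‖ < 1 / 100 := by
    by_contra hcon
    exact hkv (kR_supp hκ hR0 (not_lt.1 hcon))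
  have h1 : ‖ζ.1 - v‖ ≤ ‖ζ - Gam h v‖ := norm_fst_le (ζ - Gam h v)
  have h2 : |ζ.2 - h v| ≤ ‖ζ - Gam h v‖ := norm_snd_le (ζ - Gam h v)
  have hn : ‖ζ - Gam h v‖ ≤ 1 / R := by
    rw [le_div_iff₀ hR0]; nlinarith
  have hn' : ‖ζ - Gam h v‖ < 1 / 100 := by
    have := norm_nonneg (ζ - Gam h v)
    nlinarith
  have hz1 : ‖ζ.1‖ ≤ 1 := by
    calc ‖ζ.1‖ = ‖(ζ.1 - v) + v‖ := by rw [sub_add_cancel]
      _ ≤ ‖ζ.1 - v‖ + ‖v‖ := norm_add_le _ _
      _ ≤ 1 := by linarith
  refine ⟨hz1, ?_⟩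
  have h3 := lip_h hh hL (u := v) (v := ζ.1) (by linarith) (by linarith)
  rw [norm_sub_rev] at h3
  calc |ζ.2 - h ζ.1| = |(ζ.2 - h v) + (h v - h ζ.1)| := by ring_nf
    _ ≤ |ζ.2 - h v| + |h v - h ζ.1| := abs_add_le _ _
    _ ≤ 1 / R + L * (1 / R) := by
        refine add_le_add (h2.trans hn) (h3.trans (mul_le_mul_of_nonneg_left (h1.trans hn) hL0))
    _ = (1 + L) / R := by ring

/-- the shear. -/
def Sh (h : E2 → ℝ) (q : W) : W := (q.1, h q.1 + q.2)

lemma measurePreserving_Sh (hh : Measurable h) :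
    MeasurePreserving (Sh h) (volume : Measure W) (volume : Measure W) := by
  have := MeasurePreserving.skew_product (μa := (volume : Measure E2)) (μb := (volume : Measure E2))
    (μc := (volume : Measure ℝ)) (μd := (volume : Measure ℝ)) (MeasurePreserving.id _)
    (g := fun (x : E2) (t : ℝ) => h x + t) (by
      show Measurable fun p : E2 × ℝ => h p.1 + p.2
      fun_prop)
    (Filter.Eventually.of_forall fun x => (measurePreserving_add_left volume (h x)).map_eq)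
  exact this

lemma stronglyMeasurable_FF (hκ : Bump κ B) (hh : Continuous h) (hf : Measurable f) :
    StronglyMeasurable (FF κ R h f) := by
  have hk := (continuous_kR (R := R) hκ).measurable
  have hG := (continuous_Gam hh).measurable
  have : StronglyMeasurable (Function.uncurry fun (ζ : W) (v : E2) =>
      f v * (kR κ R (ζ - Gam h v) : ℂ)) := by
    refine Measurable.stronglyMeasurable ?_
    show Measurable fun q : W × E2 => f q.2 * (kR κ R (q.1 - Gam h q.2) : ℂ)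
    fun_prop
  exact this.integral_prod_right

/-- The slice formula. -/
lemma ext_mul_mm (hκ : Bump κ B) (hR : 0 < R) (hh : Continuous h) (hfm : Measurable f)
    (hf : Integrable f) (p : W) :
    ext h f p.1 p.2 * mm κ (R⁻¹ • p) =
      ∫ τ : ℝ, ee (p.2 * τ) * ext h (fun ξ => FF κ R h f (ξ, h ξ + τ)) p.1 p.2 := by
  have hmp := measurePreserving_Sh (h := h) hh.measurable
  have hFm := stronglyMeasurable_FF (R := R) hκ hh hfm
  have hee : Continuous (fun ζ : W => ee (pr p ζ)) := continuous_ee.comp (continuous_pr p)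
  have hI : Integrable (fun ζ : W => FF κ R h f ζ * ee (pr p ζ)) := by
    refine (integrable_FF hκ hR hh hf).mono
      (hFm.aestronglyMeasurable.mul hee.aestronglyMeasurable) ?_
    exact Filter.Eventually.of_forall fun ζ => by rw [norm_mul_ee]
  rw [← integral_FF_ee hκ hR hh hf p]
  have h1 : ∫ ζ, FF κ R h f ζ * ee (pr p ζ) =
      ∫ q : W, FF κ R h f (Sh h q) * ee (pr p (Sh h q)) := by
    conv_lhs => rw [← hmp.map_eq]
    exact integral_map (f := fun ζ : W => FF κ R h f ζ * ee (pr p ζ)) hmp.measurable.aemeasurable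
      (hFm.aestronglyMeasurable.mul hee.aestronglyMeasurable)
  have hI2 : Integrable (fun q : W => FF κ R h f (Sh h q) * ee (pr p (Sh h q))) :=
    hmp.integrable_comp_of_integrable hI
  rw [h1]
  rw [Measure.volume_eq_prod] at hI2 ⊢
  rw [integral_prod_symm _ hI2]
  congr 1
  ext τ
  unfold Rs134.ext
  rw [← integral_const_mul]
  congr 1
  ext ξ
  have : pr p (Sh h (ξ, τ)) = ph h p.1 p.2 ξ + p.2 * τ := by
    unfold pr Sh ph; ring
  rw [this, ee_add]
  show FF κ R h f (Sh h (ξ, τ)) * _ = _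
  unfold Sh
  ring

/-- Jensen on an interval. -/
lemma lintegral_pow_three_le {u : ℝ → ℝ≥0∞} (hu : AEMeasurable u) {I : Set ℝ}
    (hI : MeasurableSet I) :
    (∫⁻ τ in I, u τ) ^ 3 ≤ volume I ^ 2 * ∫⁻ τ in I, u τ ^ 3 := by
  have h32 : (3 : ℝ).HolderConjugate (3 / 2) := by
    rw [Real.holderConjugate_iff]; norm_num
  have := ENNReal.lintegral_mul_le_Lp_mul_Lq (volume.restrict I) h32 (f := u) (g := fun _ => 1)
    hu.restrict aemeasurable_const
  simp only [Pi.mul_apply, mul_one, ENNReal.one_rpow, lintegral_const, Measure.restrict_apply,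
    MeasurableSet.univ, univ_inter, one_mul] at this
  calc (∫⁻ τ in I, u τ) ^ 3 ≤ ((∫⁻ a in I, u a ^ (3 : ℝ)) ^ (1 / (3 : ℝ)) *
        volume I ^ (1 / (3 / 2 : ℝ))) ^ 3 := by gcongr
    _ = volume I ^ 2 * ∫⁻ τ in I, u τ ^ 3 := by
        rw [mul_pow, ← ENNReal.rpow_natCast, ← ENNReal.rpow_natCast, ← ENNReal.rpow_mul,
          ← ENNReal.rpow_mul, mul_comm]
        norm_num

end

end Crest.Agent.R138.Ex774
end

-- ▼ part R138/ExSp3_774
section

/-!
# Sparse lemma, part 3: the local estimate `∫_{cyl} |ext f|^3 ≤ C R^{ε-1} ∫ |FF f|^2` (helper774)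
-/

set_option autoImplicit false

open MeasureTheory Crest.Agent.R138.Rs134 Set
open scoped ContDiff RealInnerProductSpace ENNReal

namespace Crest.Agent.R138.Ex774

section
variable {κ : W → ℝ} {B R : ℝ} {h : E2 → ℝ} {f : E2 → ℂ}

/-- EInf for functions bounded by `A`. -/
lemma EInf_scaled {CE : ℝ} {h : E2 → ℝ} {R : ℝ}
    (hE : ∀ g : E2 → ℂ, Measurable g → (∀ ξ, ‖g ξ‖ ≤ 1) → (∀ ξ, 1 < ‖ξ‖ → g ξ = 0) →
      ∫⁻ p in cyl 0 0 R, ‖ext h g p.1 p.2‖ₑ ^ 3 ≤ ENNReal.ofReal CE * ∫⁻ ξ, ‖g ξ‖ₑ ^ 2)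
    {A : ℝ} (hA : 0 < A) {g : E2 → ℂ} (hg : Measurable g) (hgA : ∀ ξ, ‖g ξ‖ ≤ A)
    (hgs : ∀ ξ, 1 < ‖ξ‖ → g ξ = 0) :
    ∫⁻ p in cyl 0 0 R, ‖ext h g p.1 p.2‖ₑ ^ 3 ≤
      ENNReal.ofReal A * ENNReal.ofReal CE * ∫⁻ ξ, ‖g ξ‖ₑ ^ 2 := by
  set g' : E2 → ℂ := fun ξ => ((A⁻¹ : ℝ) : ℂ) * g ξ with hg'
  have hAe : ‖((A : ℝ) : ℂ)‖ₑ = ENNReal.ofReal A := by
    rw [← ofReal_norm, Complex.norm_real, Real.norm_eq_abs, abs_of_pos hA]
  have hge : ∀ ξ, g ξ = ((A : ℝ) : ℂ) * g' ξ := by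
    intro ξ
    rw [hg']
    simp only
    rw [← mul_assoc, ← Complex.ofReal_mul, mul_inv_cancel₀ hA.ne']
    simp
  have hext : ∀ p : E2 × ℝ, ext h g p.1 p.2 = ((A : ℝ) : ℂ) * ext h g' p.1 p.2 := by
    intro p
    unfold Rs134.ext
    rw [← integral_const_mul]
    congr 1
    ext ξ
    rw [hge ξ]
    ring
  have h1 := hE g' (by rw [hg']; fun_prop) (fun ξ => by
      rw [hg']
      simp only
      rw [norm_mul, Complex.norm_real, Real.norm_eq_abs, abs_of_pos (by positivity)]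
      rw [inv_mul_le_iff₀ hA, mul_one]
      exact hgA ξ) (fun ξ hξ => by rw [hg']; simp [hgs ξ hξ])
  have hA0 : ENNReal.ofReal A ≠ 0 := by simpa using hA
  calc ∫⁻ p in cyl 0 0 R, ‖ext h g p.1 p.2‖ₑ ^ 3
      = ENNReal.ofReal A ^ 3 * ∫⁻ p in cyl 0 0 R, ‖ext h g' p.1 p.2‖ₑ ^ 3 := by
        rw [← lintegral_const_mul' _ _ (by finiteness)]
        congr 1
        ext p
        rw [hext p, enorm_mul, hAe, mul_pow]
    _ ≤ ENNReal.ofReal A ^ 3 * (ENNReal.ofReal CE * ∫⁻ ξ, ‖g' ξ‖ₑ ^ 2) := by gcongr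
    _ = ENNReal.ofReal A * ENNReal.ofReal CE * (ENNReal.ofReal A ^ 2 * ∫⁻ ξ, ‖g' ξ‖ₑ ^ 2) := by
        ring
    _ = ENNReal.ofReal A * ENNReal.ofReal CE * ∫⁻ ξ, ‖g ξ‖ₑ ^ 2 := by
        congr 1
        rw [← lintegral_const_mul' _ _ (by finiteness)]
        congr 1
        ext ξ
        conv_rhs => rw [hge ξ, enorm_mul, hAe, mul_pow]

/-- the slices -/
noncomputable def GG (κ : W → ℝ) (R : ℝ) (h : E2 → ℝ) (f : E2 → ℂ) (τ : ℝ) (ξ : E2) : ℂ :=
  FF κ R h f (ξ, h ξ + τ)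

lemma measurable_GG2 (hκ : Bump κ B) (hh : Continuous h) (hf : Measurable f) :
    Measurable (fun q : ℝ × E2 => GG κ R h f q.1 q.2) := by
  have hFm := (stronglyMeasurable_FF (R := R) hκ hh hf).measurable
  have hhm := hh.measurable
  unfold GG
  exact hFm.comp (by fun_prop)

lemma measurable_GG (hκ : Bump κ B) (hh : Continuous h) (hf : Measurable f) (τ : ℝ) :
    Measurable (GG κ R h f τ) := by
  have hFm := (stronglyMeasurable_FF (R := R) hκ hh hf).measurable
  have hhm := hh.measurable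
  have h2 : Measurable (fun ξ : E2 => ((ξ, h ξ + τ) : W)) := by fun_prop
  exact hFm.comp h2

lemma measurable_ext_GG (hκ : Bump κ B) (hh : Continuous h) (hf : Measurable f) :
    StronglyMeasurable (fun q : W × ℝ => ext h (GG κ R h f q.2) q.1.1 q.1.2) := by
  have hG := measurable_GG2 (R := R) hκ hh hf
  have hhm := hh.measurable
  have hee := continuous_ee.measurable
  have hm1 : Measurable (fun z : (W × ℝ) × E2 => ((z.1.2, z.2) : ℝ × E2)) :=
    (measurable_snd.comp measurable_fst).prodMk measurable_snd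
  have hA := hG.comp hm1
  have hm2 : Measurable (fun z : (W × ℝ) × E2 => ph h z.1.1.1 z.1.1.2 z.2) := by
    unfold ph
    fun_prop
  have hB := hee.comp hm2
  have hC := hA.mul hB
  have hD : StronglyMeasurable (Function.uncurry fun (q : W × ℝ) (ξ : E2) =>
      GG κ R h f q.2 ξ * ee (ph h q.1.1 q.1.2 ξ)) := hC.stronglyMeasurable
  exact hD.integral_prod_right

lemma lintegral_GG_sq (hκ : Bump κ B) (hh : Continuous h) (hf : Measurable f) :
    ∫⁻ τ : ℝ, ∫⁻ ξ : E2, ‖GG κ R h f τ ξ‖ₑ ^ 2 = ∫⁻ ζ, ‖FF κ R h f ζ‖ₑ ^ 2 := by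
  have hmp := measurePreserving_Sh (h := h) hh.measurable
  have hFm := (stronglyMeasurable_FF (R := R) hκ hh hf).measurable
  have h1 : ∫⁻ ζ, ‖FF κ R h f ζ‖ₑ ^ 2 = ∫⁻ q : W, ‖FF κ R h f (Sh h q)‖ₑ ^ 2 := by
    conv_lhs => rw [← hmp.map_eq]
    exact lintegral_map (f := fun ζ : W => ‖FF κ R h f ζ‖ₑ ^ 2) (by fun_prop) hmp.measurable
  have hm : Measurable (fun q : W => ‖FF κ R h f (Sh h q)‖ₑ ^ 2) :=
    (by fun_prop : Measurable fun ζ : W => ‖FF κ R h f ζ‖ₑ ^ 2).comp hmp.measurable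
  rw [h1, Measure.volume_eq_prod, lintegral_prod_symm' _ hm]
  rfl

set_option maxHeartbeats 1000000 in
theorem local_est {c0 : ℝ} {K : ℕ} (hE : LocH h) (hpar : Par c0 K h) (hκ : Bump κ B)
    (hB : 0 ≤ B) :
    ∀ ε : ℝ, 0 < ε → ∃ C : ℝ, 0 ≤ C ∧ ∀ R : ℝ, 1 ≤ R → ∀ f : E2 → ℂ, Measurable f →
      (∀ ξ, ‖f ξ‖ ≤ 1) → (∀ ξ, 1 / 2 < ‖ξ‖ → f ξ = 0) →
      ∫⁻ p in cyl 0 0 R, ‖ext h f p.1 p.2‖ₑ ^ 3 ≤
        ENNReal.ofReal (C * R ^ ε / R) * ∫⁻ ζ, ‖FF κ R h f ζ‖ₑ ^ 2 := by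
  intro ε hε
  obtain ⟨CE, hCE⟩ := hE ε hε
  have hh : Continuous h := hpar.smooth.continuous
  -- Lipschitz constant
  obtain ⟨L, hL⟩ : ∃ L : ℝ, ∀ ξ : E2, ‖ξ‖ ≤ 3 → ‖fderiv ℝ h ξ‖ ≤ L := by
    have hc : Continuous (fderiv ℝ h) := hpar.smooth.continuous_fderiv (by simp)
    obtain ⟨L, hL⟩ := (isCompact_closedBall (0 : E2) 3).exists_bound_of_continuousOn hc.continuousOn
    exact ⟨L, fun ξ hξ => hL ξ (by simpa using hξ)⟩
  have hL0 : 0 ≤ L := (norm_nonneg _).trans (hL 0 (by simp))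
  set CE' : ℝ := max CE 0 with hCE'
  refine ⟨8 * (2 * (1 + L)) ^ 2 * (B * V0 + 1) * CE', by have := V0_nonneg; positivity, ?_⟩
  intro R hR f hfm hf1 hfs
  have hR0 : 0 < R := by linarith
  have hfI : Integrable f := by
    have : IntegrableOn f (Metric.closedBall 0 (1 / 2)) :=
      Measure.integrableOn_of_bounded (M := 1) measure_closedBall_lt_top.ne
        hfm.aestronglyMeasurable (Filter.Eventually.of_forall hf1)
    rw [← integrableOn_univ]
    refine this.of_forall_sdiff_eq_zero MeasurableSet.univ ?_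
    intro x hx
    have : x ∉ Metric.closedBall (0 : E2) (1 / 2) := hx.2
    exact hfs x (by simpa using this)
  set I : Set ℝ := Icc (-((1 + L) / R)) ((1 + L) / R) with hI
  have hIm : MeasurableSet I := measurableSet_Icc
  have hIvol : volume I = ENNReal.ofReal (2 * (1 + L) / R) := by
    rw [hI, Real.volume_Icc]; congr 1; ring
  have hum := measurable_ext_GG (R := R) hκ hh hfm
  have hGG0 : ∀ τ, τ ∉ I → ∀ ξ, GG κ R h f τ ξ = 0 := by
    intro τ hτ ξ
    by_contra hne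
    have := (FF_support hκ hR hpar.smooth hL hfs (ζ := (ξ, h ξ + τ)) hne).2
    simp only [add_sub_cancel_left] at this
    exact hτ (abs_le.1 this)
  have hGGs : ∀ τ ξ, 1 < ‖ξ‖ → GG κ R h f τ ξ = 0 := by
    intro τ ξ hξ
    by_contra hne
    have := (FF_support hκ hR hpar.smooth hL hfs (ζ := (ξ, h ξ + τ)) hne).1
    exact absurd this (not_le.2 hξ)
  -- pointwise bound
  have hpt : ∀ p ∈ cyl (0 : E2) 0 R,
      ‖ext h f p.1 p.2‖ₑ ≤ 2 * ∫⁻ τ in I, ‖ext h (GG κ R h f τ) p.1 p.2‖ₑ := by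
    intro p hp
    have hp1 : ‖p.1‖ ≤ R := by simpa using hp.1
    have hp2 : |p.2| ≤ R := by
      have := hp.2
      rw [mem_Icc] at this
      rw [abs_le]
      constructor <;> linarith [this.1, this.2]
    have hpn : ‖R⁻¹ • p‖ ≤ 1 := by
      rw [norm_smul, Real.norm_eq_abs, abs_of_pos (by positivity), inv_mul_le_iff₀ hR0, mul_one]
      exact max_le hp1 hp2
    have hm := norm_mm_ge hκ hpn
    have hme : (2 : ℝ≥0∞)⁻¹ ≤ ‖mm κ (R⁻¹ • p)‖ₑ := by
      rw [← ofReal_norm]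
      refine le_trans (le_of_eq ?_) (ENNReal.ofReal_le_ofReal hm)
      rw [one_div, ENNReal.ofReal_inv_of_pos (by norm_num)]
      simp
    have heq := ext_mul_mm hκ hR0 hh hfm hfI p
    have h1 : ‖ext h f p.1 p.2‖ₑ * ‖mm κ (R⁻¹ • p)‖ₑ ≤
        ∫⁻ τ in I, ‖ext h (GG κ R h f τ) p.1 p.2‖ₑ := by
      rw [← enorm_mul, heq]
      refine (enorm_integral_le_lintegral_enorm _).trans ?_
      have h2 : ∀ τ : ℝ, ‖ee (p.2 * τ) * ext h (fun ξ => FF κ R h f (ξ, h ξ + τ)) p.1 p.2‖ₑ =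
          I.indicator (fun τ => ‖ext h (GG κ R h f τ) p.1 p.2‖ₑ) τ := by
        intro τ
        rw [enorm_mul, ← ofReal_norm (ee _), norm_ee, ENNReal.ofReal_one, one_mul]
        by_cases hτ : τ ∈ I
        · rw [indicator_of_mem hτ]; rfl
        · rw [indicator_of_notMem hτ]
          have : (fun ξ => FF κ R h f (ξ, h ξ + τ)) = fun _ => 0 := by
            ext ξ; exact hGG0 τ hτ ξ
          rw [this]
          unfold Rs134.ext
          simp
      simp_rw [h2]
      rw [lintegral_indicator hIm]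
    calc ‖ext h f p.1 p.2‖ₑ = 2 * (‖ext h f p.1 p.2‖ₑ * 2⁻¹) := by
          rw [mul_comm, mul_assoc, ENNReal.inv_mul_cancel (by norm_num) (by norm_num), mul_one]
      _ ≤ 2 * (‖ext h f p.1 p.2‖ₑ * ‖mm κ (R⁻¹ • p)‖ₑ) := by gcongr
      _ ≤ _ := by gcongr
  have hcylm : MeasurableSet (cyl (0 : E2) 0 R) :=
    measurableSet_closedBall.prod measurableSet_Icc
  have hum3 : Measurable (Function.uncurry fun (p : W) (τ : ℝ) =>
      ‖ext h (GG κ R h f τ) p.1 p.2‖ₑ ^ 3) := hum.measurable.enorm.pow_const 3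
  have hA : 0 < (B * V0 + 1) * R := by have := V0_nonneg; positivity
  calc ∫⁻ p in cyl 0 0 R, ‖ext h f p.1 p.2‖ₑ ^ 3
      ≤ ∫⁻ p in cyl (0 : E2) 0 R, 8 * volume I ^ 2 *
          ∫⁻ τ in I, ‖ext h (GG κ R h f τ) p.1 p.2‖ₑ ^ 3 := by
        refine setLIntegral_mono' hcylm ?_
        intro p hp
        have hmp : AEMeasurable (fun τ : ℝ => ‖ext h (GG κ R h f τ) p.1 p.2‖ₑ) :=
          ((hum.measurable.comp (by fun_prop : Measurable fun τ : ℝ => (p, τ))).enorm).aemeasurable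
        calc ‖ext h f p.1 p.2‖ₑ ^ 3
            ≤ (2 * ∫⁻ τ in I, ‖ext h (GG κ R h f τ) p.1 p.2‖ₑ) ^ 3 := by
              gcongr; exact hpt p hp
          _ = 8 * (∫⁻ τ in I, ‖ext h (GG κ R h f τ) p.1 p.2‖ₑ) ^ 3 := by
              rw [mul_pow]; norm_num
          _ ≤ 8 * (volume I ^ 2 * ∫⁻ τ in I, ‖ext h (GG κ R h f τ) p.1 p.2‖ₑ ^ 3) := by
              gcongr
              exact lintegral_pow_three_le hmp hIm
          _ = _ := by ring
    _ = 8 * volume I ^ 2 * ∫⁻ p in cyl (0 : E2) 0 R,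
          ∫⁻ τ in I, ‖ext h (GG κ R h f τ) p.1 p.2‖ₑ ^ 3 := by
        rw [lintegral_const_mul']
        rw [hIvol]
        finiteness
    _ = 8 * volume I ^ 2 * ∫⁻ τ in I, ∫⁻ p in cyl (0 : E2) 0 R,
          ‖ext h (GG κ R h f τ) p.1 p.2‖ₑ ^ 3 := by
        rw [lintegral_lintegral_swap]
        exact hum3.aemeasurable
    _ ≤ 8 * volume I ^ 2 * ∫⁻ τ in I, ENNReal.ofReal ((B * V0 + 1) * R) *
          ENNReal.ofReal (CE' * R ^ ε) * ∫⁻ ξ, ‖GG κ R h f τ ξ‖ₑ ^ 2 := by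
        gcongr with τ
        refine EInf_scaled (CE := CE' * R ^ ε) ?_ hA ?_ ?_ (hGGs τ)
        · intro g hg hg1 hgs
          refine (hCE g hg hg1 hgs R hR).trans ?_
          gcongr
          exact le_max_left _ _
        · exact measurable_GG hκ hh hfm τ
        · intro ξ
          refine (norm_FF_le hκ hR0 hh hf1 _).trans ?_
          have := V0_nonneg
          nlinarith
    _ = 8 * volume I ^ 2 * (ENNReal.ofReal ((B * V0 + 1) * R) * ENNReal.ofReal (CE' * R ^ ε)) *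
          ∫⁻ τ in I, ∫⁻ ξ, ‖GG κ R h f τ ξ‖ₑ ^ 2 := by
        rw [lintegral_const_mul' _ _ (by finiteness)]
        ring
    _ ≤ 8 * volume I ^ 2 * (ENNReal.ofReal ((B * V0 + 1) * R) * ENNReal.ofReal (CE' * R ^ ε)) *
          ∫⁻ τ, ∫⁻ ξ, ‖GG κ R h f τ ξ‖ₑ ^ 2 := by
        gcongr
        exact Measure.restrict_le_self
    _ = ENNReal.ofReal (8 * (2 * (1 + L)) ^ 2 * (B * V0 + 1) * CE' * R ^ ε / R) *
          ∫⁻ ζ, ‖FF κ R h f ζ‖ₑ ^ 2 := by
        rw [lintegral_GG_sq hκ hh hfm]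
        congr 1
        rw [hIvol, ← ENNReal.ofReal_pow (by positivity), ← ENNReal.ofReal_mul hA.le]
        have h8 : (8 : ℝ≥0∞) = ENNReal.ofReal 8 := by simp
        rw [h8, ← ENNReal.ofReal_mul (by norm_num), ← ENNReal.ofReal_mul (by positivity)]
        congr 1
        field_simp

end

end Crest.Agent.R138.Ex774
end

-- ▼ part R138/ExSp4_774
section

/-!
# Sparse lemma, part 4: adjoint functions `b_i` (helper774)
-/

set_option autoImplicit false

open MeasureTheory Crest.Agent.R138.Rs134 Set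
open scoped ContDiff RealInnerProductSpace ENNReal ComplexConjugate

namespace Crest.Agent.R138.Ex774

/-- Cauchy-Schwarz with a weight, real valued. -/
lemma cs_weight {α : Type*} [MeasurableSpace α] {μ : Measure α} {k w : α → ℝ}
    (hk : ∀ x, 0 ≤ k x) (hki : Integrable k μ) (h1 : Integrable (fun x => k x * w x) μ)
    (h2 : Integrable (fun x => k x * w x ^ 2) μ) :
    (∫ x, k x * w x ∂μ) ^ 2 ≤ (∫ x, k x ∂μ) * ∫ x, k x * w x ^ 2 ∂μ := by
  have key : ∀ t : ℝ, 0 ≤ (∫ x, k x ∂μ) * (t * t) + (-2 * ∫ x, k x * w x ∂μ) * t +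
      ∫ x, k x * w x ^ 2 ∂μ := by
    intro t
    have h3 : ∫ x, k x * (w x - t) ^ 2 ∂μ = (∫ x, k x ∂μ) * (t * t) +
        (-2 * ∫ x, k x * w x ∂μ) * t + ∫ x, k x * w x ^ 2 ∂μ := by
      have : ∀ x, k x * (w x - t) ^ 2 = k x * (t * t) + k x * w x * (-2 * t) + k x * w x ^ 2 := by
        intro x; ring
      simp_rw [this]
      have e1 : Integrable (fun x => k x * (t * t) + k x * w x * (-2 * t)) μ :=
        (hki.mul_const _).add (h1.mul_const _)
      rw [integral_add e1 h2,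
        integral_add (hki.mul_const _) (h1.mul_const _), integral_mul_const, integral_mul_const]
      ring
    rw [← h3]
    exact integral_nonneg fun x => mul_nonneg (hk x) (sq_nonneg _)
  have := discrim_le_zero key
  unfold discrim at this
  nlinarith

section
variable {κ : W → ℝ} {B R : ℝ} {h : E2 → ℝ} {f : E2 → ℂ}

/-- the smooth adjoint function on frequency space. -/
noncomputable def Psi (κ : W → ℝ) (R : ℝ) (F : W → ℂ) (w : W) : ℂ :=
  ∫ ζ, (kR κ R (ζ - w) : ℂ) * F ζ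

lemma Psi_eq_conv (F : W → ℂ) : Psi κ R F =
    convolution (fun z => kR κ R (-z)) F (ContinuousLinearMap.lsmul ℝ ℝ) volume := by
  ext w
  rw [convolution_eq_swap]
  unfold Psi
  congr 1
  ext ζ
  simp

lemma hcs_neg (hκ : Bump κ B) (hR : 0 < R) : HasCompactSupport (fun z => kR κ R (-z)) :=
  (hasCompactSupport_kR hκ hR).comp_homeomorph (Homeomorph.neg W)

lemma contDiff_neg_kR (hκ : Bump κ B) : ContDiff ℝ 1 (fun z => kR κ R (-z)) :=
  (contDiff_kR hκ).comp contDiff_neg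

lemma contDiff_Psi (hκ : Bump κ B) (hR : 0 < R) {F : W → ℂ} (hF : Integrable F) :
    ContDiff ℝ 1 (Psi κ R F) := by
  rw [Psi_eq_conv]
  exact (hcs_neg hκ hR).contDiff_convolution_left _ (contDiff_neg_kR hκ) hF.locallyIntegrable

lemma norm_Psi_le (hκ : Bump κ B) (hR : 0 < R) {F : W → ℂ} (hF : Integrable F) (w : W) :
    ‖Psi κ R F w‖ ≤ R ^ 3 * B * ∫ ζ, ‖F ζ‖ := by
  unfold Psi
  refine (norm_integral_le_integral_norm _).trans ?_
  rw [← integral_const_mul]
  refine integral_mono_of_nonneg (Filter.Eventually.of_forall fun v => norm_nonneg _)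
    (hF.norm.const_mul _) (Filter.Eventually.of_forall fun v => ?_)
  show ‖(kR κ R (v - w) : ℂ) * F v‖ ≤ R ^ 3 * B * ‖F v‖
  rw [norm_mul, Complex.norm_real, Real.norm_eq_abs, abs_of_nonneg (kR_nonneg hκ hR _)]
  exact mul_le_mul_of_nonneg_right (kR_le hκ hR _) (norm_nonneg _)

lemma norm_fderiv_neg_kR_le (hκ : Bump κ B) (hR : 0 < R) (z : W) :
    ‖fderiv ℝ (fun z => kR κ R (-z)) z‖ ≤ R ^ 4 * B := by
  have h1 : (fun z => kR κ R (-z)) = fun z => R ^ 3 * κ ((-R) • z) := by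
    ext z; unfold kR; simp
  have hd : DifferentiableAt ℝ κ ((-R) • z) := hκ.smooth.differentiable (by norm_num) _
  have h2 : HasFDerivAt (fun z => R ^ 3 * κ ((-R) • z))
      (R ^ 3 • ((fderiv ℝ κ ((-R) • z)).comp ((-R) • ContinuousLinearMap.id ℝ W))) z := by
    have h3 : HasFDerivAt (fun z : W => (-R) • z) ((-R) • ContinuousLinearMap.id ℝ W) z :=
      (hasFDerivAt_id z).const_smul (-R)
    exact (hd.hasFDerivAt.comp z h3).const_mul (R ^ 3)
  rw [h1, h2.fderiv, norm_smul, Real.norm_eq_abs, abs_of_pos (by positivity)]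
  have h4 : ‖(fderiv ℝ κ ((-R) • z)).comp ((-R) • ContinuousLinearMap.id ℝ W)‖ ≤ B * R := by
    refine (ContinuousLinearMap.opNorm_comp_le _ _).trans ?_
    refine mul_le_mul (hκ.dbd _) ?_ (norm_nonneg _) ((norm_nonneg _).trans (hκ.dbd 0))
    rw [norm_smul, Real.norm_eq_abs, abs_neg, abs_of_pos hR]
    calc R * ‖ContinuousLinearMap.id ℝ W‖ ≤ R * 1 := by
          gcongr; exact ContinuousLinearMap.norm_id_le
      _ = R := mul_one _
  calc R ^ 3 * _ ≤ R ^ 3 * (B * R) := by gcongr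
    _ = R ^ 4 * B := by ring

lemma norm_fderiv_Psi_le (hκ : Bump κ B) (hB : 0 ≤ B) (hR : 0 < R) {F : W → ℂ} (hF : Integrable F)
    (w : W) : ‖fderiv ℝ (Psi κ R F) w‖ ≤ R ^ 4 * B * ∫ ζ, ‖F ζ‖ := by
  have h1 := (hcs_neg hκ hR).hasFDerivAt_convolution_left (ContinuousLinearMap.lsmul ℝ ℝ)
    (contDiff_neg_kR hκ) (hF.locallyIntegrable (μ := volume)) w
  rw [← Psi_eq_conv] at h1
  rw [h1.fderiv, convolution_def]
  refine (norm_integral_le_integral_norm _).trans ?_
  have hLn : ‖(ContinuousLinearMap.lsmul ℝ ℝ : ℝ →L[ℝ] ℂ →L[ℝ] ℂ)‖ ≤ 1 :=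
    ContinuousLinearMap.opNorm_lsmul_le
  have hb : ∀ t : W, ‖((ContinuousLinearMap.precompL W
      (ContinuousLinearMap.lsmul ℝ ℝ : ℝ →L[ℝ] ℂ →L[ℝ] ℂ))
      (fderiv ℝ (fun z => kR κ R (-z)) t)) (F (w - t))‖ ≤ R ^ 4 * B * ‖F (w - t)‖ := by
    intro t
    refine (ContinuousLinearMap.le_opNorm₂ _ _ _).trans ?_
    have h2 := (ContinuousLinearMap.norm_precompL_le W
      (ContinuousLinearMap.lsmul ℝ ℝ : ℝ →L[ℝ] ℂ →L[ℝ] ℂ)).trans hLn
    have h3 := norm_fderiv_neg_kR_le hκ hR t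
    calc _ ≤ 1 * (R ^ 4 * B) * ‖F (w - t)‖ := by gcongr
      _ = _ := by ring
  have hFs : Integrable (fun t => F (w - t)) := hF.comp_sub_left w
  calc _ ≤ ∫ t, R ^ 4 * B * ‖F (w - t)‖ :=
        integral_mono_of_nonneg (Filter.Eventually.of_forall fun v => norm_nonneg _)
          (hFs.norm.const_mul _) (Filter.Eventually.of_forall hb)
    _ = R ^ 4 * B * ∫ ζ, ‖F ζ‖ := by
        rw [integral_const_mul, integral_sub_left_eq_self (fun t => ‖F t‖) volume w]

lemma contDiff_Gam (hh : ContDiff ℝ ∞ h) : ContDiff ℝ 1 (Gam h) := by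
  unfold Gam
  exact contDiff_id.prodMk (hh.of_le (by simp))

lemma norm_fderiv_Gam_le {L : ℝ} (hh : ContDiff ℝ ∞ h)
    (hL : ∀ ξ : E2, ‖ξ‖ ≤ 3 → ‖fderiv ℝ h ξ‖ ≤ L) {v : E2} (hv : ‖v‖ ≤ 3) :
    ‖fderiv ℝ (Gam h) v‖ ≤ 1 + L := by
  have hL0 : 0 ≤ L := (norm_nonneg _).trans (hL 0 (by simp))
  have hd : DifferentiableAt ℝ h v := hh.differentiable (by simp) _
  have h1 : HasFDerivAt (Gam h) ((ContinuousLinearMap.id ℝ E2).prod (fderiv ℝ h v)) v :=
    (hasFDerivAt_id v).prodMk hd.hasFDerivAt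
  rw [h1.fderiv]
  refine ContinuousLinearMap.opNorm_le_bound _ (by linarith) ?_
  intro x
  rw [ContinuousLinearMap.prod_apply]
  refine max_le ?_ ?_
  · simp only [ContinuousLinearMap.coe_id', id_eq]
    nlinarith [norm_nonneg x]
  · refine (ContinuousLinearMap.le_opNorm _ _).trans ?_
    have := hL v hv
    nlinarith [norm_nonneg x]

/-- `F` bounded and integrable. -/
lemma integrable_sq_of_bdd {F : W → ℂ} (hF : Integrable F) {A : ℝ} (hA : ∀ z, ‖F z‖ ≤ A) :
    Integrable (fun z => ‖F z‖ ^ 2) := by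
  refine (hF.norm.const_mul A).mono (hF.aestronglyMeasurable.norm.pow 2) ?_
  refine Filter.Eventually.of_forall fun z => ?_
  have h0 : 0 ≤ A := (norm_nonneg _).trans (hA z)
  rw [Real.norm_eq_abs, Real.norm_eq_abs, abs_of_nonneg (by positivity),
    abs_of_nonneg (by positivity), sq]
  exact mul_le_mul_of_nonneg_right (hA z) (norm_nonneg _)

/-- `∫ |Psi F ∘ Gam|^2 ≤ B V0 R ∫ |F|^2`, with integrability. -/
lemma integral_Psi_Gam_sq_le (hκ : Bump κ B) (hR : 0 < R) (hh : Continuous h)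
    {F : W → ℂ} (hFm : StronglyMeasurable F) (hF : Integrable F) {A : ℝ} (hA : ∀ z, ‖F z‖ ≤ A) :
    Integrable (fun v => ‖Psi κ R F (Gam h v)‖ ^ 2) ∧
      ∫ v, ‖Psi κ R F (Gam h v)‖ ^ 2 ≤ B * V0 * R * ∫ ζ, ‖F ζ‖ ^ 2 := by
  have hF2 := integrable_sq_of_bdd hF hA
  have hk := continuous_kR (R := R) hκ
  have hG := continuous_Gam hh
  -- product integrability
  have hprod : Integrable (fun q : W × E2 => kR κ R (q.1 - Gam h q.2) * ‖F q.1‖ ^ 2)
      ((volume : Measure W).prod (volume : Measure E2)) := by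
    have hm : AEStronglyMeasurable (fun q : W × E2 => kR κ R (q.1 - Gam h q.2) * ‖F q.1‖ ^ 2)
        ((volume : Measure W).prod (volume : Measure E2)) := by
      refine AEStronglyMeasurable.mul (Continuous.aestronglyMeasurable (by fun_prop)) ?_
      exact (hFm.aestronglyMeasurable.comp_fst).norm.pow 2
    rw [integrable_prod_iff hm]
    have hsl : ∀ ζ : W, Integrable (fun v : E2 => kR κ R (ζ - Gam h v) * ‖F ζ‖ ^ 2) := fun ζ =>
      (integrable_kR_Gam hκ hR hh ζ).mul_const _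
    refine ⟨Filter.Eventually.of_forall hsl, ?_⟩
    refine (hF2.const_mul (B * V0 * R)).mono hm.norm.integral_prod_right' ?_
    refine Filter.Eventually.of_forall fun ζ => ?_
    have h1 : ∫ v : E2, ‖kR κ R (ζ - Gam h v) * ‖F ζ‖ ^ 2‖ =
        (∫ v : E2, kR κ R (ζ - Gam h v)) * ‖F ζ‖ ^ 2 := by
      rw [← integral_mul_const]
      congr 1
      ext v
      rw [Real.norm_eq_abs, abs_of_nonneg (mul_nonneg (kR_nonneg hκ hR _) (by positivity))]
    rw [h1, Real.norm_eq_abs, Real.norm_eq_abs]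
    refine abs_le_abs_of_nonneg ?_ ?_
    · exact mul_nonneg (integral_nonneg fun v => kR_nonneg hκ hR _) (by positivity)
    · exact mul_le_mul_of_nonneg_right (integral_kR_Gam_le hκ hR hh ζ) (by positivity)
  -- pointwise bound
  have hpt : ∀ v : E2, ‖Psi κ R F (Gam h v)‖ ^ 2 ≤ ∫ ζ, kR κ R (ζ - Gam h v) * ‖F ζ‖ ^ 2 := by
    intro v
    have hki : Integrable (fun ζ : W => kR κ R (ζ - Gam h v)) :=
      (integrable_kR hκ hR).comp_sub_right _
    have hbd : ∀ ζ : W, ‖kR κ R (ζ - Gam h v)‖ ≤ R ^ 3 * B := fun ζ => by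
      rw [Real.norm_eq_abs, abs_of_nonneg (kR_nonneg hκ hR _)]; exact kR_le hκ hR _
    have hkc : Continuous (fun ζ : W => kR κ R (ζ - Gam h v)) := by fun_prop
    have hi1 : Integrable (fun ζ : W => kR κ R (ζ - Gam h v) * ‖F ζ‖) :=
      hF.norm.bdd_mul hkc.aestronglyMeasurable (Filter.Eventually.of_forall hbd)
    have hi2 : Integrable (fun ζ : W => kR κ R (ζ - Gam h v) * ‖F ζ‖ ^ 2) :=
      hF2.bdd_mul hkc.aestronglyMeasurable (Filter.Eventually.of_forall hbd)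
    have hcs := cs_weight (fun ζ => kR_nonneg hκ hR (ζ - Gam h v)) hki hi1 hi2
    have h1 : ∫ ζ : W, kR κ R (ζ - Gam h v) = 1 := by
      rw [integral_sub_right_eq_self (kR κ R) (Gam h v), integral_kR hκ hR]
    rw [h1, one_mul] at hcs
    refine le_trans ?_ hcs
    refine pow_le_pow_left₀ (norm_nonneg _) ?_ 2
    unfold Psi
    refine (norm_integral_le_integral_norm _).trans (le_of_eq ?_)
    congr 1
    ext ζ
    rw [norm_mul, Complex.norm_real, Real.norm_eq_abs, abs_of_nonneg (kR_nonneg hκ hR _)]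
  have hcontΨ : Continuous (fun v => Psi κ R F (Gam h v)) :=
    (contDiff_Psi hκ hR hF).continuous.comp hG
  have hI : Integrable (fun v => ‖Psi κ R F (Gam h v)‖ ^ 2) := by
    refine (hprod.integral_prod_right).mono ((hcontΨ.norm.pow 2).aestronglyMeasurable) ?_
    refine Filter.Eventually.of_forall fun v => ?_
    rw [Real.norm_eq_abs, Real.norm_eq_abs, abs_of_nonneg (by positivity)]
    exact (hpt v).trans (le_abs_self _)
  refine ⟨hI, ?_⟩
  calc ∫ v, ‖Psi κ R F (Gam h v)‖ ^ 2 ≤ ∫ v, ∫ ζ, kR κ R (ζ - Gam h v) * ‖F ζ‖ ^ 2 :=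
        integral_mono hI hprod.integral_prod_right hpt
    _ = ∫ ζ, ∫ v, kR κ R (ζ - Gam h v) * ‖F ζ‖ ^ 2 := (integral_integral_swap hprod).symm
    _ ≤ ∫ ζ, B * V0 * R * ‖F ζ‖ ^ 2 := by
        refine integral_mono hprod.integral_prod_left (hF2.const_mul _) ?_
        intro ζ
        show ∫ v, kR κ R (ζ - Gam h v) * ‖F ζ‖ ^ 2 ≤ B * V0 * R * ‖F ζ‖ ^ 2
        rw [integral_mul_const]
        exact mul_le_mul_of_nonneg_right (integral_kR_Gam_le hκ hR hh ζ) (by positivity)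
    _ = _ := integral_const_mul _ _

/-- energy identity: `∫ |FF f|^2 = ∫ f · (Psi (conj FF f) ∘ Gam)`. -/
lemma energy_identity (hκ : Bump κ B) (hR : 0 < R) (hh : Continuous h) (hfm : Measurable f)
    (hf : Integrable f) :
    ((∫ ζ, ‖FF κ R h f ζ‖ ^ 2 : ℝ) : ℂ) =
      ∫ v, f v * Psi κ R (fun ζ => conj (FF κ R h f ζ)) (Gam h v) := by
  have hFm := stronglyMeasurable_FF (R := R) hκ hh hfm
  have hI := integrable_prod_kernel hκ hR hh hf
  have hbd : ∀ ζ, ‖FF κ R h f ζ‖ ≤ R ^ 3 * B * ∫ v, ‖f v‖ := norm_FF_le' hκ hR hf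
  have hI2 : Integrable (fun q : W × E2 => f q.2 * (kR κ R (q.1 - Gam h q.2) : ℂ) *
      conj (FF κ R h f q.1)) ((volume : Measure W).prod (volume : Measure E2)) := by
    refine hI.mul_bdd (c := R ^ 3 * B * ∫ v, ‖f v‖) ?_ ?_
    · have h1 : AEStronglyMeasurable (fun q : W × E2 => FF κ R h f q.1)
        ((volume : Measure W).prod (volume : Measure E2)) := hFm.aestronglyMeasurable.comp_fst
      exact (Complex.continuous_conj.comp_aestronglyMeasurable h1)
    · refine Filter.Eventually.of_forall fun q => ?_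
      rw [RCLike.norm_conj]
      exact hbd q.1
  calc ((∫ ζ, ‖FF κ R h f ζ‖ ^ 2 : ℝ) : ℂ) = ∫ ζ, FF κ R h f ζ * conj (FF κ R h f ζ) := by
        rw [← integral_complex_ofReal]
        congr 1
        ext ζ
        rw [Complex.mul_conj, Complex.normSq_eq_norm_sq]
    _ = ∫ ζ, ∫ v, f v * (kR κ R (ζ - Gam h v) : ℂ) * conj (FF κ R h f ζ) := by
        congr 1
        ext ζ
        rw [integral_mul_const]
        rfl
    _ = ∫ v, ∫ ζ, f v * (kR κ R (ζ - Gam h v) : ℂ) * conj (FF κ R h f ζ) :=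
        integral_integral_swap hI2
    _ = ∫ v, f v * Psi κ R (fun ζ => conj (FF κ R h f ζ)) (Gam h v) := by
        congr 1
        ext v
        unfold Psi
        rw [← integral_const_mul]
        congr 1
        ext ζ
        ring

end

end Crest.Agent.R138.Ex774
end

-- ▼ part R138/ExSp5_774
section

/-!
# Sparse lemma, part 5: `∑ ‖FF f_i‖² ≤ C R ‖g‖²` for sparse centres (helper774)
-/

set_option autoImplicit false

open MeasureTheory Crest.Agent.R138.Rs134 Set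
open scoped ContDiff RealInnerProductSpace ENNReal ComplexConjugate

namespace Crest.Agent.R138.Ex774


lemma good_sq_integrable {g : E2 → ℂ} (hg : Good g) : Integrable (fun ξ => ‖g ξ‖ ^ 2) := by
  refine hg.integrable.norm.mono (hg.meas.norm.pow_const 2).aestronglyMeasurable ?_
  refine Filter.Eventually.of_forall fun ξ => ?_
  rw [Real.norm_eq_abs, Real.norm_eq_abs, abs_of_nonneg (by positivity), abs_of_nonneg (norm_nonneg _)]
  have := hg.le_one ξ
  nlinarith [norm_nonneg (g ξ)]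

lemma good_L1_sq_le {g : E2 → ℂ} (hg : Good g) :
    (∫ ξ, ‖g ξ‖) ^ 2 ≤ V0 * ∫ ξ, ‖g ξ‖ ^ 2 := by
  set D : Set E2 := Metric.closedBall 0 1 with hD
  have hDm : MeasurableSet D := measurableSet_closedBall
  have hz : ∀ ξ, ξ ∉ D → g ξ = 0 := by
    intro ξ hξ
    apply hg.supp
    have : 1 < ‖ξ‖ := by simpa [hD] using hξ
    linarith
  have e1 : ∀ ξ, D.indicator (fun _ => (1 : ℝ)) ξ * ‖g ξ‖ = ‖g ξ‖ := by
    intro ξ
    by_cases h : ξ ∈ D
    · rw [indicator_of_mem h, one_mul]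
    · rw [hz ξ h]; simp
  have e2 : ∀ ξ, D.indicator (fun _ => (1 : ℝ)) ξ * ‖g ξ‖ ^ 2 = ‖g ξ‖ ^ 2 := by
    intro ξ
    by_cases h : ξ ∈ D
    · rw [indicator_of_mem h, one_mul]
    · rw [hz ξ h]; simp
  have hk : Integrable (D.indicator (fun _ => (1 : ℝ))) :=
    (integrable_indicator_iff hDm).2 (integrableOn_const measure_closedBall_lt_top.ne)
  have := cs_weight (μ := volume) (k := D.indicator (fun _ => (1 : ℝ))) (w := fun ξ => ‖g ξ‖)
    (fun ξ => indicator_nonneg (fun _ _ => zero_le_one) ξ) hk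
    (by simp_rw [e1]; exact hg.integrable.norm) (by simp_rw [e2]; exact good_sq_integrable hg)
  simp_rw [e1, e2] at this
  refine this.trans (le_of_eq ?_)
  congr 1
  rw [integral_indicator_const _ hDm]
  simp [V0, Measure.real, hD]

section
variable {κ : W → ℝ} {B R : ℝ} {h : E2 → ℝ}

/-- the modulated functions -/
noncomputable def fm (h : E2 → ℝ) (g : E2 → ℂ) (x : W) (ξ : E2) : ℂ := g ξ * ee (ph h x.1 x.2 ξ)

lemma norm_fm (g : E2 → ℂ) (x : W) (ξ : E2) : ‖fm h g x ξ‖ = ‖g ξ‖ := norm_mul_ee _ _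

lemma good_fm (hh : Continuous h) {g : E2 → ℂ} (hg : Good g) (x : W) : Good (fm h g x) := by
  refine ⟨?_, fun ξ => ?_, fun ξ hξ => ?_⟩
  · have h1 := (continuous_ee.comp (continuous_ph hh x.1 x.2)).measurable
    exact hg.meas.mul h1
  · rw [norm_fm]; exact hg.le_one ξ
  · unfold fm; rw [hg.supp ξ hξ, zero_mul]

/-- cut-off function. -/
noncomputable def chiB : ContDiffBump (0 : E2) := ⟨1, 2, by norm_num, by norm_num⟩

/-- the localised adjoint functions. -/
noncomputable def qq (κ : W → ℝ) (R : ℝ) (h : E2 → ℝ) (g : E2 → ℂ) (x : W) (v : E2) : ℂ :=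
  (chiB v : ℂ) * Psi κ R (fun ζ => conj (FF κ R h (fm h g x) ζ)) (Gam h v)

lemma integrable_conj_FF (hκ : Bump κ B) (hR : 0 < R) (hh : Continuous h) {g : E2 → ℂ}
    (hg : Good g) (x : W) :
    Integrable (fun ζ => conj (FF κ R h (fm h g x) ζ)) := by
  have h1 := integrable_FF hκ hR hh (good_fm hh hg x).integrable
  refine h1.mono (Complex.continuous_conj.comp_aestronglyMeasurable h1.aestronglyMeasurable) ?_
  exact Filter.Eventually.of_forall fun ζ => by simp

lemma integral_norm_conj_FF_le (hκ : Bump κ B) (hR : 0 < R) (hh : Continuous h) {g : E2 → ℂ}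
    (hg : Good g) (x : W) :
    ∫ ζ, ‖conj (FF κ R h (fm h g x) ζ)‖ ≤ ∫ v, ‖g v‖ := by
  have h1 := integral_norm_FF_le hκ hR hh (good_fm hh hg x).integrable
  simp only [RCLike.norm_conj]
  simpa only [norm_fm] using h1

lemma contDiff_chiB : ContDiff ℝ 1 (fun v : E2 => ((chiB v : ℝ) : ℂ)) :=
  Complex.ofRealCLM.contDiff.comp (chiB.contDiff (n := 1))

lemma contDiff_qq (hκ : Bump κ B) (hR : 0 < R) (hh : ContDiff ℝ ∞ h) {g : E2 → ℂ}
    (hg : Good g) (x : W) : ContDiff ℝ 1 (qq κ R h g x) := by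
  unfold qq
  exact contDiff_chiB.mul ((contDiff_Psi hκ hR (integrable_conj_FF hκ hR hh.continuous hg x)).comp
    (contDiff_Gam hh))

lemma chiB_le_one (v : E2) : ‖((chiB v : ℝ) : ℂ)‖ ≤ 1 := by
  rw [Complex.norm_real, Real.norm_eq_abs, abs_of_nonneg chiB.nonneg]
  exact chiB.le_one

lemma chiB_zero {v : E2} (hv : 2 ≤ ‖v‖) : (chiB v : ℝ) = 0 := by
  apply chiB.zero_of_le_dist
  rw [dist_zero_right]; exact hv

lemma qq_zero {g : E2 → ℂ} {x : W} {v : E2} (hv : 2 ≤ ‖v‖) : qq κ R h g x v = 0 := by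
  unfold qq
  rw [chiB_zero hv]; simp

lemma norm_qq_le_Psi {g : E2 → ℂ} {x : W} (v : E2) :
    ‖qq κ R h g x v‖ ≤ ‖Psi κ R (fun ζ => conj (FF κ R h (fm h g x) ζ)) (Gam h v)‖ := by
  unfold qq
  rw [norm_mul]
  calc _ ≤ 1 * ‖Psi κ R (fun ζ => conj (FF κ R h (fm h g x) ζ)) (Gam h v)‖ :=
        mul_le_mul_of_nonneg_right (chiB_le_one v) (norm_nonneg _)
    _ = _ := one_mul _

lemma exists_chi_bound : ∃ Cχ : ℝ, 0 ≤ Cχ ∧ ∀ v : E2, ‖fderiv ℝ (fun v : E2 => ((chiB v : ℝ) : ℂ)) v‖ ≤ Cχ := by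
  have hs : HasCompactSupport (fun v : E2 => ((chiB v : ℝ) : ℂ)) :=
    chiB.hasCompactSupport.comp_left (g := fun r : ℝ => (r : ℂ)) (by simp)
  have hs' := hs.fderiv (𝕜 := ℝ)
  obtain ⟨C, hC⟩ := hs'.exists_bound_of_continuous (contDiff_chiB.continuous_fderiv (by norm_num))
  exact ⟨max C 0, le_max_right _ _, fun v => (hC v).trans (le_max_left _ _)⟩

lemma norm_qq_le {L Cχ : ℝ} (hL0 : 0 ≤ L) (hC0 : 0 ≤ Cχ) (hB : 0 ≤ B)
    (hκ : Bump κ B) (hR : 1 ≤ R) (hh : ContDiff ℝ ∞ h) {g : E2 → ℂ}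
    (hg : Good g) (x : W) (v : E2) :
    ‖qq κ R h g x v‖ ≤ R ^ 4 * B * (Cχ + 2 + L) * ∫ ξ, ‖g ξ‖ := by
  have hR0 : 0 < R := by linarith
  have hG : 0 ≤ ∫ ξ, ‖g ξ‖ := integral_nonneg fun _ => norm_nonneg _
  have hF := integrable_conj_FF hκ hR0 hh.continuous hg x
  have h1 := integral_norm_conj_FF_le hκ hR0 hh.continuous hg x
  have h34 : R ^ 3 ≤ R ^ 4 := pow_le_pow_right₀ hR (by norm_num)
  calc ‖qq κ R h g x v‖ ≤ _ := norm_qq_le_Psi v
    _ ≤ R ^ 3 * B * ∫ ζ, ‖conj (FF κ R h (fm h g x) ζ)‖ := norm_Psi_le hκ hR0 hF _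
    _ ≤ R ^ 4 * B * 1 * ∫ ξ, ‖g ξ‖ := by
        rw [mul_one]
        gcongr
    _ ≤ R ^ 4 * B * (Cχ + 2 + L) * ∫ ξ, ‖g ξ‖ := by
        gcongr
        linarith

lemma norm_fderiv_qq_le {L Cχ : ℝ} (hC0 : 0 ≤ Cχ) (hB : 0 ≤ B)
    (hL : ∀ ξ : E2, ‖ξ‖ ≤ 3 → ‖fderiv ℝ h ξ‖ ≤ L)
    (hχ : ∀ v : E2, ‖fderiv ℝ (fun v : E2 => ((chiB v : ℝ) : ℂ)) v‖ ≤ Cχ)
    (hκ : Bump κ B) (hR : 1 ≤ R) (hh : ContDiff ℝ ∞ h) {g : E2 → ℂ}
    (hg : Good g) (x : W) (v : E2) :
    ‖fderiv ℝ (qq κ R h g x) v‖ ≤ R ^ 4 * B * (Cχ + 2 + L) * ∫ ξ, ‖g ξ‖ := by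
  have hL0 : 0 ≤ L := (norm_nonneg _).trans (hL 0 (by simp))
  have hR0 : 0 < R := by linarith
  have hG : 0 ≤ ∫ ξ, ‖g ξ‖ := integral_nonneg fun _ => norm_nonneg _
  have hF := integrable_conj_FF hκ hR0 hh.continuous hg x
  have h1 := integral_norm_conj_FF_le hκ hR0 hh.continuous hg x
  by_cases hv : ‖v‖ ≤ 3
  · set P := Psi κ R (fun ζ => conj (FF κ R h (fm h g x) ζ)) with hP
    have hPc : ContDiff ℝ 1 P := contDiff_Psi hκ hR0 hF
    have hPd : DifferentiableAt ℝ P (Gam h v) := hPc.differentiable (by norm_num) _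
    have hGd : DifferentiableAt ℝ (Gam h) v := (contDiff_Gam hh).differentiable (by norm_num) _
    have hcomp : DifferentiableAt ℝ (fun v => P (Gam h v)) v := hPd.comp v hGd
    have hcd : DifferentiableAt ℝ (fun v : E2 => ((chiB v : ℝ) : ℂ)) v :=
      contDiff_chiB.differentiable (by norm_num) _
    have e1 : fderiv ℝ (fun v => P (Gam h v)) v = (fderiv ℝ P (Gam h v)).comp (fderiv ℝ (Gam h) v) :=
      fderiv_comp v hPd hGd
    have e2 : fderiv ℝ (qq κ R h g x) v = ((chiB v : ℝ) : ℂ) • fderiv ℝ (fun v => P (Gam h v)) v +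
        P (Gam h v) • fderiv ℝ (fun v : E2 => ((chiB v : ℝ) : ℂ)) v :=
      fderiv_fun_mul hcd hcomp
    rw [e2]
    have b1 : ‖fderiv ℝ (fun v => P (Gam h v)) v‖ ≤ (R ^ 4 * B * ∫ ξ, ‖g ξ‖) * (1 + L) := by
      rw [e1]
      refine (ContinuousLinearMap.opNorm_comp_le _ _).trans ?_
      refine mul_le_mul ?_ (norm_fderiv_Gam_le hh hL hv) (norm_nonneg _) (by positivity)
      refine (norm_fderiv_Psi_le hκ hB hR0 hF _).trans ?_
      gcongr
    have b2 : ‖P (Gam h v)‖ ≤ R ^ 4 * B * ∫ ξ, ‖g ξ‖ := by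
      refine (norm_Psi_le hκ hR0 hF _).trans ?_
      have h34 : R ^ 3 ≤ R ^ 4 := pow_le_pow_right₀ hR (by norm_num)
      gcongr
    calc _ ≤ ‖((chiB v : ℝ) : ℂ) • fderiv ℝ (fun v => P (Gam h v)) v‖ +
          ‖P (Gam h v) • fderiv ℝ (fun v : E2 => ((chiB v : ℝ) : ℂ)) v‖ := norm_add_le _ _
      _ ≤ 1 * ((R ^ 4 * B * ∫ ξ, ‖g ξ‖) * (1 + L)) + (R ^ 4 * B * ∫ ξ, ‖g ξ‖) * Cχ := by
          rw [norm_smul, norm_smul]
          refine add_le_add ?_ ?_
          · exact mul_le_mul (chiB_le_one v) b1 (norm_nonneg _) zero_le_one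
          · exact mul_le_mul b2 (hχ v) (norm_nonneg _) (by positivity)
      _ = R ^ 4 * B * (Cχ + 1 + L) * ∫ ξ, ‖g ξ‖ := by ring
      _ ≤ _ := by
          gcongr
          linarith
  · push Not at hv
    have : qq κ R h g x =ᶠ[nhds v] fun _ => 0 := by
      have ho : IsOpen {w : E2 | 2 < ‖w‖} := isOpen_lt continuous_const continuous_norm
      filter_upwards [ho.mem_nhds (show (2 : ℝ) < ‖v‖ by linarith)] with w hw
      exact qq_zero (le_of_lt hw)
    rw [this.fderiv_eq]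
    simp only [fderiv_fun_const, Pi.zero_apply, norm_zero]
    positivity

end

end Crest.Agent.R138.Ex774
end

-- ▼ part R138/ExSp6_774

/-!
# Sparse lemma, part 6: energy sum and the sparse lemma (helper774)
-/

set_option autoImplicit false

open MeasureTheory Crest.Agent.R138.Rs134 Set
open scoped ContDiff RealInnerProductSpace ENNReal ComplexConjugate

namespace Crest.Agent.R138.Ex774

section
variable {κ : W → ℝ} {B R : ℝ} {h : E2 → ℝ}

/-- compactly supported continuous -/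
lemma hasCompactSupport_qq {g : E2 → ℂ} {x : W} : HasCompactSupport (qq κ R h g x) := by
  refine HasCompactSupport.intro (isCompact_closedBall (0 : E2) 2) ?_
  intro v hv
  rw [mem_closedBall_zero_iff, not_le] at hv
  exact qq_zero hv.le

/-- the total function `∑ ee(ph_i) q_i`. -/
noncomputable def HH (κ : W → ℝ) (R : ℝ) (h : E2 → ℝ) (g : E2 → ℂ) {M : ℕ} (x : Fin M → W)
    (v : E2) : ℂ :=
  ∑ i, ee (ph h (x i).1 (x i).2 v) * qq κ R h g (x i) v

lemma continuous_HH (hκ : Bump κ B) (hR : 0 < R) (hh : ContDiff ℝ ∞ h) {g : E2 → ℂ}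
    (hg : Good g) {M : ℕ} (x : Fin M → W) : Continuous (HH κ R h g x) := by
  unfold HH
  refine continuous_finsetSum _ fun i _ => ?_
  exact (continuous_ee.comp (continuous_ph hh.continuous _ _)).mul
    (contDiff_qq hκ hR hh hg (x i)).continuous

lemma HH_zero {g : E2 → ℂ} {M : ℕ} {x : Fin M → W} {v : E2} (hv : 2 ≤ ‖v‖) :
    HH κ R h g x v = 0 := by
  unfold HH
  exact Finset.sum_eq_zero fun i _ => by rw [qq_zero hv, mul_zero]

lemma hasCompactSupport_HH {g : E2 → ℂ} {M : ℕ} {x : Fin M → W} :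
    HasCompactSupport (HH κ R h g x) := by
  refine HasCompactSupport.intro (isCompact_closedBall (0 : E2) 2) ?_
  intro v hv
  rw [mem_closedBall_zero_iff, not_le] at hv
  exact HH_zero hv.le

/-- (1) the sum of the energies is the pairing of `g` with `HH`. -/
lemma sum_energy_eq (hκ : Bump κ B) (hR : 0 < R) (hh : ContDiff ℝ ∞ h) {g : E2 → ℂ}
    (hg : Good g) {M : ℕ} (x : Fin M → W) :
    ((∑ i, ∫ ζ, ‖FF κ R h (fm h g (x i)) ζ‖ ^ 2 : ℝ) : ℂ) = ∫ v, g v * HH κ R h g x v := by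
  have hi : ∀ i, Integrable (fun v => g v * (ee (ph h (x i).1 (x i).2 v) * qq κ R h g (x i) v)) := by
    intro i
    have hc : Continuous (fun v => ee (ph h (x i).1 (x i).2 v) * qq κ R h g (x i) v) :=
      (continuous_ee.comp (continuous_ph hh.continuous _ _)).mul
        (contDiff_qq hκ hR hh hg (x i)).continuous
    obtain ⟨C, hC⟩ := (hasCompactSupport_qq (κ := κ) (R := R) (h := h) (g := g)
      (x := x i)).exists_bound_of_continuous (contDiff_qq hκ hR hh hg (x i)).continuous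
    refine hg.integrable.mul_bdd (c := C) hc.aestronglyMeasurable ?_
    refine Filter.Eventually.of_forall fun v => ?_
    rw [norm_mul, norm_ee, one_mul]
    exact hC v
  have h2 : ∫ v, g v * HH κ R h g x v =
      ∑ i, ∫ v, g v * (ee (ph h (x i).1 (x i).2 v) * qq κ R h g (x i) v) := by
    rw [← integral_finsetSum _ fun i _ => hi i]
    congr 1
    ext v
    unfold HH
    rw [Finset.mul_sum]
  rw [h2]
  push_cast
  refine Finset.sum_congr rfl fun i _ => ?_
  have h3 := energy_identity hκ hR hh.continuous (good_fm hh.continuous hg (x i)).meas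
    (good_fm hh.continuous hg (x i)).integrable
  rw [h3]
  congr 1
  ext v
  unfold fm qq
  by_cases hv : g v = 0
  · rw [hv]; simp
  · have hv1 : ‖v‖ ≤ 1 := by
      by_contra hcon
      exact hv (hg.supp v (by linarith [not_le.1 hcon]))
    have : (chiB v : ℝ) = 1 := by
      apply chiB.one_of_mem_closedBall
      rw [mem_closedBall_zero_iff]; exact hv1
    rw [this]
    push_cast
    unfold fm
    ring

/-- (3) expansion of the square. -/
lemma integral_HH_sq (hκ : Bump κ B) (hR : 0 < R) (hh : ContDiff ℝ ∞ h) {g : E2 → ℂ}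
    (hg : Good g) {M : ℕ} (x : Fin M → W) :
    ((∫ v, ‖HH κ R h g x v‖ ^ 2 : ℝ) : ℂ) =
      ∑ i, ∑ j, ext h (fun v => qq κ R h g (x i) v * conj (qq κ R h g (x j) v))
        ((x i).1 - (x j).1) ((x i).2 - (x j).2) := by
  have hint : ∀ i j, Integrable (fun v => (qq κ R h g (x i) v * conj (qq κ R h g (x j) v)) *
      ee (ph h ((x i).1 - (x j).1) ((x i).2 - (x j).2) v)) := by
    intro i j
    have hci := (contDiff_qq hκ hR hh hg (x i)).continuous
    have hcj := (contDiff_qq hκ hR hh hg (x j)).continuous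
    have hc : Continuous (fun v => (qq κ R h g (x i) v * conj (qq κ R h g (x j) v)) *
      ee (ph h ((x i).1 - (x j).1) ((x i).2 - (x j).2) v)) :=
      (hci.mul (Complex.continuous_conj.comp hcj)).mul
        (continuous_ee.comp (continuous_ph hh.continuous _ _))
    refine hc.integrable_of_hasCompactSupport ?_
    refine HasCompactSupport.intro (isCompact_closedBall (0 : E2) 2) ?_
    intro v hv
    rw [mem_closedBall_zero_iff, not_le] at hv
    rw [qq_zero hv.le]; simp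
  have h1 : ∀ v, ((‖HH κ R h g x v‖ ^ 2 : ℝ) : ℂ) = ∑ i, ∑ j,
      (qq κ R h g (x i) v * conj (qq κ R h g (x j) v)) *
      ee (ph h ((x i).1 - (x j).1) ((x i).2 - (x j).2) v) := by
    intro v
    rw [← Complex.normSq_eq_norm_sq, ← Complex.mul_conj]
    unfold HH
    rw [map_sum, Finset.sum_mul_sum]
    refine Finset.sum_congr rfl fun i _ => Finset.sum_congr rfl fun j _ => ?_
    rw [map_mul, ph_sub, ee_sub]
    ring
  rw [← integral_complex_ofReal]
  simp_rw [h1]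
  rw [integral_finsetSum _ fun i _ => integrable_finsetSum _ fun j _ => hint i j]
  refine Finset.sum_congr rfl fun i _ => ?_
  rw [integral_finsetSum _ fun j _ => hint i j]
  rfl

lemma norm_ext_diag (hκ : Bump κ B) (hR : 0 < R) (hh : ContDiff ℝ ∞ h) {g : E2 → ℂ}
    (hg : Good g) (x : W) :
    ‖ext h (fun v => qq κ R h g x v * conj (qq κ R h g x v)) (x.1 - x.1) (x.2 - x.2)‖ ≤
      B * V0 * R * ∫ ζ, ‖FF κ R h (fm h g x) ζ‖ ^ 2 := by
  have hgf := good_fm (h := h) hh.continuous hg x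
  have hF := integrable_conj_FF hκ hR hh.continuous hg x
  have hsm : StronglyMeasurable (fun ζ => conj (FF κ R h (fm h g x) ζ)) :=
    (Complex.continuous_conj.measurable.comp
      (stronglyMeasurable_FF (R := R) hκ hh.continuous hgf.meas).measurable).stronglyMeasurable
  have h1 := integral_Psi_Gam_sq_le hκ hR hh.continuous hsm hF (A := B * V0 * R) (fun ζ => by
    rw [RCLike.norm_conj]; exact norm_FF_le hκ hR hh.continuous hgf.le_one ζ)
  refine (norm_ext_le _ _ _ _).trans ?_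
  calc ∫ ξ, ‖qq κ R h g x ξ * conj (qq κ R h g x ξ)‖
      ≤ ∫ v, ‖Psi κ R (fun ζ => conj (FF κ R h (fm h g x) ζ)) (Gam h v)‖ ^ 2 := by
        refine integral_mono_of_nonneg (Filter.Eventually.of_forall fun _ => norm_nonneg _) h1.1
          (Filter.Eventually.of_forall fun v => ?_)
        show ‖qq κ R h g x v * conj (qq κ R h g x v)‖ ≤ _
        rw [norm_mul, RCLike.norm_conj, ← sq]
        exact pow_le_pow_left₀ (norm_nonneg _) (norm_qq_le_Psi v) 2
    _ ≤ _ := h1.2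
    _ = _ := by simp only [RCLike.norm_conj]

set_option maxHeartbeats 1000000 in
theorem energy_sum {c0 : ℝ} {K : ℕ} (hP : Par c0 K h) (hK : 3 ≤ K) (hc : c0 ≤ 1 / 4)
    (hκ : Bump κ B) (hB : 0 ≤ B) :
    ∃ C : ℝ, 0 ≤ C ∧ ∀ (M : ℕ) (R : ℝ) (x : Fin M → W), 1 ≤ R →
      (∀ i j, i ≠ j → (R * M) ^ (30 : ℝ) ≤ ‖x i - x j‖) → ∀ g : E2 → ℂ, Good g →
        ∑ i, ∫ ζ, ‖FF κ R h (fm h g (x i)) ζ‖ ^ 2 ≤ C * R * ∫ ξ, ‖g ξ‖ ^ 2 := by
  have hh := hP.smooth
  obtain ⟨Cd, hCd, hdec⟩ := decay hP hK hc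
  obtain ⟨Cχ, hCχ0, hCχ⟩ := exists_chi_bound
  obtain ⟨L, hL⟩ : ∃ L : ℝ, ∀ ξ : E2, ‖ξ‖ ≤ 3 → ‖fderiv ℝ h ξ‖ ≤ L := by
    have hc : Continuous (fderiv ℝ h) := hP.smooth.continuous_fderiv (by simp)
    obtain ⟨L, hL⟩ := (isCompact_closedBall (0 : E2) 3).exists_bound_of_continuousOn hc.continuousOn
    exact ⟨L, fun ξ hξ => hL ξ (by simpa using hξ)⟩
  have hL0 : 0 ≤ L := (norm_nonneg _).trans (hL 0 (by simp))
  have hV0 := V0_nonneg
  set Co : ℝ := Cd * (2 * (B * (Cχ + 2 + L)) ^ 2 * V0) with hCo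
  have hCo0 : 0 ≤ Co := by positivity
  refine ⟨B * V0 + 1 + Co, by positivity, ?_⟩
  intro M R x hR hsep g hg
  have hR0 : 0 < R := by linarith
  set N2 : ℝ := ∫ ξ, ‖g ξ‖ ^ 2 with hN2
  have hN20 : 0 ≤ N2 := integral_nonneg fun _ => by positivity
  set G : ℝ := ∫ ξ, ‖g ξ‖ with hG
  have hG0 : 0 ≤ G := integral_nonneg fun _ => norm_nonneg _
  have hGN : G ^ 2 ≤ V0 * N2 := good_L1_sq_le hg
  set S : Fin M → ℝ := fun i => ∫ ζ, ‖FF κ R h (fm h g (x i)) ζ‖ ^ 2 with hS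
  have hS0 : ∀ i, 0 ≤ S i := fun i => integral_nonneg fun _ => by positivity
  rcases Nat.eq_zero_or_pos M with hM | hM
  · subst hM
    simp only [Finset.univ_eq_empty, Finset.sum_empty]
    positivity
  have hM1 : (1 : ℝ) ≤ M := by exact_mod_cast hM
  set T : ℝ := R ^ 4 * B * (Cχ + 2 + L) * G with hT
  have hT0 : 0 ≤ T := by positivity
  have hq0 : ∀ i v, ‖qq κ R h g (x i) v‖ ≤ T := fun i v =>
    norm_qq_le hL0 hCχ0 hB hκ hR hh hg (x i) v
  have hq1 : ∀ i v, ‖fderiv ℝ (qq κ R h g (x i)) v‖ ≤ T := fun i v =>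
    norm_fderiv_qq_le hCχ0 hB hL hCχ hκ hR hh hg (x i) v
  -- off diagonal terms
  have hoff : ∀ i j, i ≠ j →
      ‖ext h (fun v => qq κ R h g (x i) v * conj (qq κ R h g (x j) v))
        ((x i).1 - (x j).1) ((x i).2 - (x j).2)‖ ≤ Cd * (2 * T ^ 2) * (R * M) ^ (-(10 : ℝ)) := by
    intro i j hij
    have hci := contDiff_qq hκ hR0 hh hg (x i)
    have hcj := contDiff_qq hκ hR0 hh hg (x j)
    have hcc : ContDiff ℝ 1 (fun v => conj (qq κ R h g (x j) v)) :=
      (Complex.conjCLE.contDiff).comp hcj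
    have hder : ∀ v, fderiv ℝ (fun v => conj (qq κ R h g (x j) v)) v =
        (Complex.conjCLE : ℂ →L[ℝ] ℂ).comp (fderiv ℝ (qq κ R h g (x j)) v) := by
      intro v
      have hd : DifferentiableAt ℝ (qq κ R h g (x j)) v := hcj.differentiable (by norm_num) v
      exact ((Complex.conjCLE : ℂ →L[ℝ] ℂ).hasFDerivAt.comp v hd.hasFDerivAt).fderiv
    have hA0 : ∀ v, ‖qq κ R h g (x i) v * conj (qq κ R h g (x j) v)‖ ≤ 2 * T ^ 2 := by
      intro v
      rw [norm_mul, RCLike.norm_conj]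
      have := mul_le_mul (hq0 i v) (hq0 j v) (norm_nonneg _) hT0
      nlinarith
    have hA1 : ∀ v, ‖fderiv ℝ (fun v => qq κ R h g (x i) v * conj (qq κ R h g (x j) v)) v‖ ≤
        2 * T ^ 2 := by
      intro v
      have hdi : DifferentiableAt ℝ (qq κ R h g (x i)) v := hci.differentiable (by norm_num) v
      have hdj : DifferentiableAt ℝ (fun v => conj (qq κ R h g (x j) v)) v :=
        hcc.differentiable (by norm_num) v
      rw [fderiv_fun_mul hdi hdj, hder]
      have hcn : ‖(Complex.conjCLE : ℂ →L[ℝ] ℂ).comp (fderiv ℝ (qq κ R h g (x j)) v)‖ ≤ T := by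
        refine (ContinuousLinearMap.opNorm_comp_le _ _).trans ?_
        calc ‖(Complex.conjCLE : ℂ →L[ℝ] ℂ)‖ * ‖fderiv ℝ (qq κ R h g (x j)) v‖ ≤ 1 * T := by
              refine mul_le_mul ?_ (hq1 j v) (norm_nonneg _) zero_le_one
              rw [Complex.conjCLE_norm]
          _ = T := one_mul T
      refine (norm_add_le _ _).trans ?_
      rw [norm_smul, norm_smul, RCLike.norm_conj]
      have e1 := mul_le_mul (hq0 i v) hcn (norm_nonneg _) hT0
      have e2 := mul_le_mul (hq0 j v) (hq1 i v) (norm_nonneg _) hT0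
      nlinarith
    have hd := hdec (2 * T ^ 2) (fun v => qq κ R h g (x i) v * conj (qq κ R h g (x j) v))
      (hci.mul hcc) (fun ξ hξ => by
        show qq κ R h g (x i) ξ * conj (qq κ R h g (x j) ξ) = 0
        rw [qq_zero (by linarith), zero_mul]) hA0 hA1 ((x i).1 - (x j).1) ((x i).2 - (x j).2)
    refine hd.trans ?_
    have hRM : 0 < R * M := by positivity
    have hlow : (R * M) ^ (30 : ℝ) ≤ 1 + ‖(x i).1 - (x j).1‖ + |(x i).2 - (x j).2| := by
      refine (hsep i j hij).trans ?_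
      have h1 : ‖x i - x j‖ ≤ ‖(x i).1 - (x j).1‖ + |(x i).2 - (x j).2| := by
        refine max_le ?_ ?_
        · have := abs_nonneg ((x i).2 - (x j).2)
          show ‖(x i - x j).1‖ ≤ _
          rw [Prod.fst_sub]
          linarith
        · have := norm_nonneg ((x i).1 - (x j).1)
          show ‖(x i - x j).2‖ ≤ _
          rw [Prod.snd_sub, Real.norm_eq_abs]
          linarith
      linarith
    have hpow : (1 + ‖(x i).1 - (x j).1‖ + |(x i).2 - (x j).2|) ^ (-(1 / 3) : ℝ) ≤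
        (R * M) ^ (-(10 : ℝ)) := by
      calc _ ≤ ((R * M) ^ (30 : ℝ)) ^ (-(1 / 3) : ℝ) :=
            Real.rpow_le_rpow_of_nonpos (by positivity) hlow (by norm_num)
        _ = (R * M) ^ (-(10 : ℝ)) := by
            rw [← Real.rpow_mul hRM.le]; norm_num
    exact mul_le_mul_of_nonneg_left hpow (by positivity)
  -- the square of `HH`
  have hHsq : ∫ v, ‖HH κ R h g x v‖ ^ 2 ≤ B * V0 * R * (∑ i, S i) + Co * N2 := by
    have h1 := integral_HH_sq hκ hR0 hh hg x
    have h2 : ∫ v, ‖HH κ R h g x v‖ ^ 2 = ‖((∫ v, ‖HH κ R h g x v‖ ^ 2 : ℝ) : ℂ)‖ := by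
      rw [Complex.norm_real, Real.norm_eq_abs, abs_of_nonneg]
      exact integral_nonneg fun _ => by positivity
    rw [h2, h1]
    have hRM : 0 < R * M := by positivity
    have hpw : (M : ℝ) ^ 2 * R ^ 8 * (R * M) ^ (-(10 : ℝ)) ≤ 1 := by
      have e0 : (R * M) ^ (-(10 : ℝ)) = ((R * M) ^ 10)⁻¹ := by
        rw [Real.rpow_neg hRM.le]; norm_cast
      rw [e0, ← div_eq_mul_inv, div_le_one (by positivity), mul_pow]
      have e1 : (M : ℝ) ^ 2 ≤ M ^ 10 := pow_le_pow_right₀ hM1 (by norm_num)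
      have e2 : R ^ 8 ≤ R ^ 10 := pow_le_pow_right₀ hR (by norm_num)
      calc (M : ℝ) ^ 2 * R ^ 8 ≤ M ^ 10 * R ^ 10 := by gcongr
        _ = R ^ 10 * M ^ 10 := mul_comm _ _
    calc ‖∑ i, ∑ j, ext h (fun v => qq κ R h g (x i) v * conj (qq κ R h g (x j) v))
          ((x i).1 - (x j).1) ((x i).2 - (x j).2)‖
        ≤ ∑ i, ∑ j, ‖ext h (fun v => qq κ R h g (x i) v * conj (qq κ R h g (x j) v))
          ((x i).1 - (x j).1) ((x i).2 - (x j).2)‖ :=
          (norm_sum_le _ _).trans (Finset.sum_le_sum fun i _ => norm_sum_le _ _)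
      _ ≤ ∑ i : Fin M, ∑ j : Fin M, ((if i = j then B * V0 * R * S i else 0) +
            Cd * (2 * T ^ 2) * (R * M) ^ (-(10 : ℝ))) := by
          refine Finset.sum_le_sum fun i _ => Finset.sum_le_sum fun j _ => ?_
          have hnn : 0 ≤ Cd * (2 * T ^ 2) * (R * M) ^ (-(10 : ℝ)) := by positivity
          by_cases hij : i = j
          · subst hij
            rw [if_pos rfl]
            have := norm_ext_diag hκ hR0 hh hg (x i)
            linarith
          · rw [if_neg hij, zero_add]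
            exact hoff i j hij
      _ = B * V0 * R * (∑ i, S i) + (M : ℝ) ^ 2 * (Cd * (2 * T ^ 2) * (R * M) ^ (-(10 : ℝ))) := by
          simp only [Finset.sum_add_distrib, Finset.sum_ite_eq, Finset.mem_univ, if_true,
            Finset.sum_const, Finset.card_univ, Fintype.card_fin, nsmul_eq_mul, ← Finset.mul_sum]
          ring
      _ = B * V0 * R * (∑ i, S i) + (Cd * (2 * (B * (Cχ + 2 + L)) ^ 2 * G ^ 2)) *
            ((M : ℝ) ^ 2 * R ^ 8 * (R * M) ^ (-(10 : ℝ))) := by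
          rw [hT]; ring
      _ ≤ B * V0 * R * (∑ i, S i) + (Cd * (2 * (B * (Cχ + 2 + L)) ^ 2 * (V0 * N2))) * 1 := by
          gcongr
      _ = B * V0 * R * (∑ i, S i) + Co * N2 := by rw [hCo]; ring
  -- AM-GM
  have hsum : ∑ i, S i ≤ ∫ v, ‖g v‖ * ‖HH κ R h g x v‖ := by
    have h1 := sum_energy_eq hκ hR0 hh hg x
    have h2 : ∑ i, S i = ‖((∑ i, S i : ℝ) : ℂ)‖ := by
      rw [Complex.norm_real, Real.norm_eq_abs, abs_of_nonneg]
      exact Finset.sum_nonneg fun i _ => hS0 i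
    rw [h2, hS, h1]
    refine (norm_integral_le_integral_norm _).trans (le_of_eq ?_)
    simp_rw [norm_mul]
  have hHc := continuous_HH hκ hR0 hh hg x
  have hHcs := hasCompactSupport_HH (κ := κ) (R := R) (h := h) (g := g) (x := x)
  have hHi : Integrable (fun v => ‖HH κ R h g x v‖ ^ 2) := by
    have : HasCompactSupport (fun v => ‖HH κ R h g x v‖ ^ 2) :=
      hHcs.norm.comp_left (g := fun r : ℝ => r ^ 2) (by norm_num)
    exact (hHc.norm.pow 2).integrable_of_hasCompactSupport this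
  have hgi := good_sq_integrable hg
  set a : ℝ := (B * V0 + 1) * R with ha
  have ha0 : 0 < a := by positivity
  have hamgm : ∫ v, ‖g v‖ * ‖HH κ R h g x v‖ ≤
      (1 / 2) * (a * N2 + a⁻¹ * ∫ v, ‖HH κ R h g x v‖ ^ 2) := by
    calc ∫ v, ‖g v‖ * ‖HH κ R h g x v‖
        ≤ ∫ v, (1 / 2) * (a * ‖g v‖ ^ 2 + a⁻¹ * ‖HH κ R h g x v‖ ^ 2) := by
          refine integral_mono_of_nonneg (Filter.Eventually.of_forall fun v => ?_)
            (((hgi.const_mul a).add (hHi.const_mul a⁻¹)).const_mul _)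
            (Filter.Eventually.of_forall fun v => ?_)
          · exact mul_nonneg (norm_nonneg _) (norm_nonneg _)
          · show ‖g v‖ * ‖HH κ R h g x v‖ ≤ (1 / 2) * (a * ‖g v‖ ^ 2 + a⁻¹ * ‖HH κ R h g x v‖ ^ 2)
            have h3 : 0 ≤ a⁻¹ * (a * ‖g v‖ - ‖HH κ R h g x v‖) ^ 2 := by positivity
            have h4 : a⁻¹ * (a * ‖g v‖ - ‖HH κ R h g x v‖) ^ 2 =
                a * ‖g v‖ ^ 2 - 2 * (‖g v‖ * ‖HH κ R h g x v‖) + a⁻¹ * ‖HH κ R h g x v‖ ^ 2 := by
              field_simp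
              ring
            rw [h4] at h3
            linarith
      _ = _ := by
          rw [integral_const_mul, integral_add (hgi.const_mul a) (hHi.const_mul a⁻¹),
            integral_const_mul, integral_const_mul]
  have hSS0 : 0 ≤ ∑ i, S i := Finset.sum_nonneg fun i _ => hS0 i
  have key : ∑ i, S i ≤ (1 / 2) * (a * N2 + a⁻¹ * (B * V0 * R * (∑ i, S i) + Co * N2)) := by
    refine (hsum.trans hamgm).trans ?_
    gcongr
  have h5 : a⁻¹ * (B * V0 * R * (∑ i, S i)) ≤ ∑ i, S i := by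
    rw [inv_mul_le_iff₀ ha0]
    have : B * V0 * R ≤ a := by rw [ha]; nlinarith
    exact mul_le_mul_of_nonneg_right this hSS0
  have h6 : a⁻¹ * (Co * N2) ≤ Co * N2 := by
    have ha1 : 1 ≤ a := by rw [ha]; nlinarith [mul_nonneg hB hV0]
    exact mul_le_of_le_one_left (by positivity) (inv_le_one_of_one_le₀ ha1)
  have h7 : ∑ i, S i ≤ a * N2 + Co * N2 := by
    have : a⁻¹ * (B * V0 * R * (∑ i, S i) + Co * N2) =
        a⁻¹ * (B * V0 * R * (∑ i, S i)) + a⁻¹ * (Co * N2) := by ring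
    rw [this] at key
    linarith
  refine h7.trans ?_
  rw [ha]
  have h8 : Co * N2 ≤ Co * R * N2 := by
    have : Co * N2 * 1 ≤ Co * N2 * R := mul_le_mul_of_nonneg_left hR (by positivity)
    linarith
  nlinarith

/-- **SPARSE LEMMA** (item 1 of the S0190 front). -/
theorem sparseOut {c0 : ℝ} {K : ℕ} (hP : Par c0 K h) (hK : 3 ≤ K) (hc : c0 ≤ 1 / 4)
    (hLoc : LocH h) : SparseOut h := by
  obtain ⟨κ, B, hB, hκ⟩ := exists_bump
  obtain ⟨CE, hCE0, hCE⟩ := energy_sum hP hK hc hκ hB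
  refine ⟨30, by norm_num, ?_⟩
  intro ε hε
  obtain ⟨CL, hCL0, hCL⟩ := local_est hLoc hP hκ hB ε hε
  refine ⟨max (CL * CE) 1, 1, le_max_right _ _, le_rfl, ?_⟩
  intro M R x hR hsep g hgm hg1 hgs
  have hg : Good g := ⟨hgm, hg1, hgs⟩
  have hR0 : 0 < R := by linarith
  have hh := hP.smooth
  rcases Nat.eq_zero_or_pos M with hM | hM
  · subst hM
    simp
  have hM1 : (1 : ℝ) ≤ M := by exact_mod_cast hM
  -- translation
  have htr : ∀ i, ∫⁻ p in cyl (x i).1 (x i).2 R, ‖ext h g p.1 p.2‖ₑ ^ 3 =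
      ∫⁻ p in cyl (0 : E2) 0 R, ‖ext h (fm h g (x i)) p.1 p.2‖ₑ ^ 3 := by
    intro i
    have hmp := measurePreserving_add_right (volume : Measure W) (x i)
    have hpre : (fun p : W => p + x i) ⁻¹' (cyl (x i).1 (x i).2 R) = cyl (0 : E2) 0 R := by
      rw [cyl_eq]
      have h0 : cyl (0 : E2) 0 R = Metric.closedBall (0 : W) R := cyl_eq (0 : W) R
      rw [h0]
      ext p
      simp [Metric.mem_closedBall, dist_eq_norm]
    rw [← hmp.setLIntegral_comp_preimage_emb (measurableEmbedding_addRight (x i)), hpre]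
    congr 1
    ext p
    rw [Prod.fst_add, Prod.snd_add, add_comm p.1, add_comm p.2, ext_translate]
    rfl
  simp_rw [htr]
  have hsum := hCE M R x hR (fun i j hij => by have := hsep i j hij; rwa [one_mul] at this) g hg
  have hFi : ∀ i, ∫⁻ ζ, ‖FF κ R h (fm h g (x i)) ζ‖ₑ ^ 2 =
      ENNReal.ofReal (∫ ζ, ‖FF κ R h (fm h g (x i)) ζ‖ ^ 2) := by
    intro i
    have hgf := good_fm (h := h) hh.continuous hg (x i)
    have hI := integrable_sq_of_bdd (integrable_FF hκ hR0 hh.continuous hgf.integrable)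
      (norm_FF_le hκ hR0 hh.continuous hgf.le_one)
    rw [ofReal_integral_eq_lintegral_ofReal hI (Filter.Eventually.of_forall fun _ => by positivity)]
    congr 1
    ext ζ
    rw [ENNReal.ofReal_pow (norm_nonneg _), ofReal_norm]
  have hg2 : ENNReal.ofReal (∫ ξ, ‖g ξ‖ ^ 2) = ∫⁻ ξ, ‖g ξ‖ₑ ^ 2 := by
    rw [ofReal_integral_eq_lintegral_ofReal (good_sq_integrable hg)
      (Filter.Eventually.of_forall fun _ => by positivity)]
    congr 1
    ext ζ
    rw [ENNReal.ofReal_pow (norm_nonneg _), ofReal_norm]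
  calc ∑ i, ∫⁻ p in cyl (0 : E2) 0 R, ‖ext h (fm h g (x i)) p.1 p.2‖ₑ ^ 3
      ≤ ∑ i, ENNReal.ofReal (CL * R ^ ε / R) *
          ENNReal.ofReal (∫ ζ, ‖FF κ R h (fm h g (x i)) ζ‖ ^ 2) := by
        refine Finset.sum_le_sum fun i _ => ?_
        rw [← hFi i]
        have hgf := good_fm (h := h) hh.continuous hg (x i)
        exact hCL R hR _ hgf.meas hgf.le_one hgf.supp
    _ = ENNReal.ofReal (CL * R ^ ε / R) *
          ENNReal.ofReal (∑ i, ∫ ζ, ‖FF κ R h (fm h g (x i)) ζ‖ ^ 2) := by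
        rw [← Finset.mul_sum, ENNReal.ofReal_sum_of_nonneg
          fun i _ => integral_nonneg fun _ => by positivity]
    _ ≤ ENNReal.ofReal (CL * R ^ ε / R) * ENNReal.ofReal (CE * R * ∫ ξ, ‖g ξ‖ ^ 2) := by
        gcongr
    _ = ENNReal.ofReal (CL * CE * R ^ ε) * ∫⁻ ξ, ‖g ξ‖ₑ ^ 2 := by
        rw [← hg2, ← ENNReal.ofReal_mul (by positivity), ← ENNReal.ofReal_mul (by positivity)]
        congr 1
        field_simp
    _ ≤ ENNReal.ofReal (max (CL * CE) 1 * (R * M) ^ ε) * ∫⁻ ξ, ‖g ξ‖ₑ ^ 2 := by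
        gcongr
        · exact le_max_left _ _
        · nlinarith

end

end Crest.Agent.R138.Ex774
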