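import Crest.Agent.R138.Flg2_101
import Crest.Agent.R138.Nx1_638
import Crest.Agent.R138.L15Def_196
import Crest.Agent.R138.TiltU2_51

-- ▼ part R138/GeoR1_298
section

/-!
# R138, L15 GEO-R (helper298), part 1: counting the classes of 101's partition met by a set
-/

set_option autoImplicit false
set_option linter.unusedVariables false

open Finset

namespace Crest.Agent.R138.GeoR298

open Flg101

/-- values of a dyadic floor on a set of diameter `≤ δ` -/
theorem card_floor_le {ι : Type*} (F : Finset ι) (φ : ι → ℝ) (p : ℕ) {δ : ℝ}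
    (hδ : 0 ≤ δ) (h : ∀ x ∈ F, ∀ y ∈ F, |φ x - φ y| ≤ δ) :
    ((F.image fun x => ⌊(2 : ℝ) ^ p * φ x⌋).card : ℝ) ≤ 2 * (2 ^ p * δ) + 3 := by
  have h2 : (0 : ℝ) < 2 ^ p := by positivity
  rcases F.eq_empty_or_nonempty with rfl | ⟨x0, hx0⟩
  · simp; positivity
  set m : ℤ := ⌊(2 : ℝ) ^ p * φ x0⌋ with hm
  set D : ℕ := ⌊(2 : ℝ) ^ p * δ + 1⌋₊ with hD
  have hsub : (F.image fun x => ⌊(2 : ℝ) ^ p * φ x⌋) ⊆ Finset.Icc (m - D) (m + D) := by
    intro t ht
    rw [mem_image] at ht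
    obtain ⟨x, hx, rfl⟩ := ht
    have h1 := h x hx x0 hx0
    have h3 : |(2 : ℝ) ^ p * φ x - 2 ^ p * φ x0| ≤ 2 ^ p * δ := by
      rw [← mul_sub, abs_mul, abs_of_pos h2]
      exact mul_le_mul_of_nonneg_left h1 h2.le
    rw [abs_le] at h3
    have e1 := Int.floor_le ((2 : ℝ) ^ p * φ x)
    have e2 := Int.lt_floor_add_one ((2 : ℝ) ^ p * φ x)
    have e3 := Int.floor_le ((2 : ℝ) ^ p * φ x0)
    have e4 := Int.lt_floor_add_one ((2 : ℝ) ^ p * φ x0)
    rw [mem_Icc]
    have h5 : ((⌊(2 : ℝ) ^ p * φ x⌋ - m : ℤ) : ℝ) ≤ 2 ^ p * δ + 1 := by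
      push_cast; linarith
    have h6 : ((m - ⌊(2 : ℝ) ^ p * φ x⌋ : ℤ) : ℝ) ≤ 2 ^ p * δ + 1 := by
      push_cast; linarith
    have h7 : ∀ t : ℤ, (t : ℝ) ≤ 2 ^ p * δ + 1 → t ≤ D := by
      intro t ht
      rcases le_or_gt t 0 with h | h
      · exact h.trans (by positivity)
      · lift t to ℕ using h.le
        rw [hD]
        exact_mod_cast Nat.le_floor (by exact_mod_cast ht)
    have h8 := h7 _ h5
    have h9 := h7 _ h6
    constructor <;> linarith
  have h1 : (F.image fun x => ⌊(2 : ℝ) ^ p * φ x⌋).card ≤ 2 * D + 1 := by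
    refine (card_le_card hsub).trans ?_
    rw [Int.card_Icc]
    omega
  have h2' : (D : ℝ) ≤ 2 ^ p * δ + 1 := Nat.floor_le (by positivity)
  have h3 : ((F.image fun x => ⌊(2 : ℝ) ^ p * φ x⌋).card : ℝ) ≤ 2 * D + 1 := by exact_mod_cast h1
  linarith

/-- number of boxes inside one flagged cell -/
theorem card_vec_le {ι : Type*} (F : Finset ι) (φ : ι → Fin 4 → ℝ) (p : Fin 4 → ℕ)
    {δ : Fin 4 → ℝ} (hδ : ∀ k, 0 ≤ δ k) (h : ∀ x ∈ F, ∀ y ∈ F, ∀ k, |φ x k - φ y k| ≤ δ k) :
    ((F.image fun x => fun k => ⌊(2 : ℝ) ^ p k * φ x k⌋).card : ℝ) ≤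
      ∏ k, (2 * (2 ^ p k * δ k) + 3) := by
  classical
  have hsub : (F.image fun x => fun k => ⌊(2 : ℝ) ^ p k * φ x k⌋) ⊆
      Fintype.piFinset (fun k => F.image fun x => ⌊(2 : ℝ) ^ p k * φ x k⌋) := by
    intro t ht
    rw [mem_image] at ht
    obtain ⟨x, hx, rfl⟩ := ht
    rw [Fintype.mem_piFinset]
    intro k
    exact mem_image_of_mem _ hx
  have h1 := card_le_card hsub
  rw [Fintype.card_piFinset] at h1
  have h2 : ((F.image fun x => fun k => ⌊(2 : ℝ) ^ p k * φ x k⌋).card : ℝ) ≤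
      ∏ k, ((F.image fun x => ⌊(2 : ℝ) ^ p k * φ x k⌋).card : ℝ) := by exact_mod_cast h1
  refine h2.trans (prod_le_prod (fun k _ => by positivity) (fun k _ => ?_))
  exact card_floor_le F (fun x => φ x k) (p k) (hδ k) (fun x hx y hy => h x hx y hy k)

/-- **number of classes (flagged cell, grid box) met by a set** -/
theorem card_lab_le {ι : Type*} (F : Finset ι) (x : ι → Inc) (i j : ℕ) (p : Fin 4 → ℕ)
    {dz dθ : ℝ} {δ : Fin 4 → ℝ} (hdz : 0 ≤ dz) (hdθ : 0 ≤ dθ) (hδ : ∀ k, 0 ≤ δ k)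
    (hz : ∀ a ∈ F, ∀ b ∈ F, |(x a).z - (x b).z| ≤ dz)
    (hθ : ∀ a ∈ F, ∀ b ∈ F, |(x a).θ - (x b).θ| ≤ dθ)
    (hc : ∀ a ∈ F, ∀ b ∈ F, (x a).cell i j = (x b).cell i j →
      ∀ k, |(x a).co i j k - (x b).co i j k| ≤ δ k) :
    ((F.image fun a => (x a).lab i j p).card : ℝ) ≤
      (2 * (2 ^ i * dz) + 3) * (2 * (2 ^ j * dθ) + 3) * ∏ k, (2 * (2 ^ p k * δ k) + 3) := by
  classical
  -- the flagged cells
  set Cs := F.image fun a => (x a).cell i j with hCs
  have hCs_card : (Cs.card : ℝ) ≤ (2 * (2 ^ i * dz) + 3) * (2 * (2 ^ j * dθ) + 3) := by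
    have hsub : Cs ⊆ (F.image fun a => ⌊(2 : ℝ) ^ i * (x a).z⌋) ×ˢ
        (F.image fun a => ⌊(2 : ℝ) ^ j * (x a).θ⌋) := by
      intro t ht
      rw [hCs, mem_image] at ht
      obtain ⟨a, ha, rfl⟩ := ht
      rw [mem_product]
      exact ⟨mem_image_of_mem (fun a => ⌊(2 : ℝ) ^ i * (x a).z⌋) ha,
        mem_image_of_mem (fun a => ⌊(2 : ℝ) ^ j * (x a).θ⌋) ha⟩
    have h1 := card_le_card hsub
    rw [card_product] at h1
    have h2 : (Cs.card : ℝ) ≤ ((F.image fun a => ⌊(2 : ℝ) ^ i * (x a).z⌋).card : ℝ) *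
        ((F.image fun a => ⌊(2 : ℝ) ^ j * (x a).θ⌋).card : ℝ) := by exact_mod_cast h1
    refine h2.trans (mul_le_mul (card_floor_le F (fun a => (x a).z) i hdz hz)
      (card_floor_le F (fun a => (x a).θ) j hdθ hθ) (by positivity) (by positivity))
  have hprod : 0 ≤ ∏ k, (2 * ((2 : ℝ) ^ p k * δ k) + 3) :=
    prod_nonneg fun k _ => by have := hδ k; positivity
  -- labels = union over the cells
  have hsub : (F.image fun a => (x a).lab i j p) ⊆ Cs.biUnion fun c =>
      ((F.filter fun a => (x a).cell i j = c).image fun a => (x a).lab i j p) := by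
    intro t ht
    rw [mem_image] at ht
    obtain ⟨a, ha, rfl⟩ := ht
    rw [mem_biUnion]
    refine ⟨(x a).cell i j, mem_image_of_mem (fun a => (x a).cell i j) ha, ?_⟩
    exact mem_image_of_mem (fun a => (x a).lab i j p) (mem_filter.2 ⟨ha, rfl⟩)
  have h1 : ((F.image fun a => (x a).lab i j p).card : ℝ) ≤ ∑ c ∈ Cs,
      (((F.filter fun a => (x a).cell i j = c).image fun a => (x a).lab i j p).card : ℝ) := by
    have := (card_le_card hsub).trans card_biUnion_le
    exact_mod_cast this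
  have h2 : ∀ c ∈ Cs,
      (((F.filter fun a => (x a).cell i j = c).image fun a => (x a).lab i j p).card : ℝ) ≤
        ∏ k, (2 * (2 ^ p k * δ k) + 3) := by
    intro c _
    set G := F.filter fun a => (x a).cell i j = c with hG
    have h3 : (G.image fun a => (x a).lab i j p).card ≤
        (G.image fun a => fun k => ⌊(2 : ℝ) ^ p k * (x a).co i j k⌋).card := by
      have e1 : (G.image fun a => (x a).lab i j p) =
          (G.image fun a => fun k => ⌊(2 : ℝ) ^ p k * (x a).co i j k⌋).image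
            (fun v => ((c, v) : (ℤ × ℤ) × (Fin 4 → ℤ))) := by
        rw [image_image]
        refine image_congr (fun a ha => ?_)
        have ha' : (x a).cell i j = c := (mem_filter.1 (mem_coe.1 ha)).2
        simp only [Function.comp, Inc.lab, ha']
      rw [e1]
      exact card_image_le
    have h4 : ((G.image fun a => (x a).lab i j p).card : ℝ) ≤
        ((G.image fun a => fun k => ⌊(2 : ℝ) ^ p k * (x a).co i j k⌋).card : ℝ) := by
      exact_mod_cast h3
    refine h4.trans (card_vec_le G (fun a => (x a).co i j) p hδ (fun a ha b hb k => ?_))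
    have ha' := mem_filter.1 ha
    have hb' := mem_filter.1 hb
    exact hc a ha'.1 b hb'.1 (ha'.2.trans hb'.2.symm) k
  calc ((F.image fun a => (x a).lab i j p).card : ℝ) ≤ ∑ c ∈ Cs,
      (((F.filter fun a => (x a).cell i j = c).image fun a => (x a).lab i j p).card : ℝ) := h1
    _ ≤ ∑ c ∈ Cs, ∏ k, (2 * (2 ^ p k * δ k) + 3) := sum_le_sum h2
    _ = Cs.card * ∏ k, (2 * (2 ^ p k * δ k) + 3) := by rw [sum_const, nsmul_eq_mul]
    _ ≤ _ := mul_le_mul_of_nonneg_right hCs_card hprod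

end Crest.Agent.R138.GeoR298
end

-- ▼ part R138/GeoR2_298
section

/-!
# R138, L15 GEO-R (helper298), part 2: one real plank with aligned flags meets few classes
-/

set_option autoImplicit false
set_option linter.unusedVariables false

open Finset

namespace Crest.Agent.R138.GeoR298

open Flg101 Flag51 Nx638

/-- bound of the four coordinate differences -/
noncomputable def Dk (H al sc w1 w2 ρ R η : ℝ) : Fin 4 → ℝ :=
  ![H / (al * sc) * (3 * (6 * (R / ρ) * w1 + η * (6 * (R / ρ) * w2))),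
    1 / (al * sc) * (3 * (2 * w1 / ρ + η * (2 * w2 / ρ))),
    1 / al * (2 * w1 / ρ + 2 * w2 / ρ),
    H / al * (6 * (R / ρ) * w1 + 6 * (R / ρ) * w2)]

/-- **a family in one real plank with aligned flags meets few classes.** -/
theorem plank_count {F : Finset (ℕ × ℝ)} {L : ℕ → Ln} {fl : ℕ × ℝ → E2} {c : Bool}
    {H al sc : ℝ} (hH : 0 < H) (hal : 0 < al) (hsc : 0 < sc) (hsc1 : sc ≤ 1)
    {bl : Ln} {e : E2} {w1 w2 z0 ρ δ : ℝ} (hw1 : 0 ≤ w1) (hw2 : 0 ≤ w2) (hρ : 0 < ρ)
    (hδ : 0 ≤ δ) (he : dt e e = 1)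
    (hpl : ∀ x ∈ F, InPlank (L x.1) bl e w1 w2 z0 ρ) (hz : ∀ x ∈ F, |x.2 - z0| ≤ ρ)
    (hfl : ∀ x ∈ F, dt (fl x) (fl x) = 1) (hch : ∀ x ∈ F, Ch c (fl x))
    (hcr : ∀ x ∈ F, |cr (fl x) e| ≤ δ) (i j : ℕ) (p : Fin 4 → ℕ) :
    ((F.image fun x => (toInc c H al sc (L x.1) (sl c (fl x)) x.2).lab i j p).card : ℝ) ≤
      (2 * (2 ^ i * (H * (2 * ρ))) + 3) * (2 * (2 ^ j * (4 * δ / sc)) + 3) *
        ∏ k, (2 * (2 ^ p k * Dk H al sc w1 w2 ρ (ρ + (1 / 2) ^ i / H)
          (sc * (1 / 2) ^ j + δ) k) + 3) := by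
  set R : ℝ := ρ + (1 / 2) ^ i / H with hR
  set η : ℝ := sc * (1 / 2) ^ j + δ with hη
  have hR0 : ρ ≤ R := by rw [hR]; have : 0 ≤ (1 / 2 : ℝ) ^ i / H := by positivity
                         linarith
  have hRρ : 0 ≤ R / ρ := div_nonneg (hρ.le.trans hR0) hρ.le
  have hη0 : 0 ≤ η := by rw [hη]; positivity
  refine card_lab_le F (fun x => toInc c H al sc (L x.1) (sl c (fl x)) x.2) i j p
    (by positivity) (by positivity) ?_ ?_ ?_ ?_
  · intro k
    fin_cases k
    · show 0 ≤ H / (al * sc) * (3 * (6 * (R / ρ) * w1 + η * (6 * (R / ρ) * w2)))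
      positivity
    · show 0 ≤ 1 / (al * sc) * (3 * (2 * w1 / ρ + η * (2 * w2 / ρ)))
      positivity
    · show 0 ≤ 1 / al * (2 * w1 / ρ + 2 * w2 / ρ)
      positivity
    · show 0 ≤ H / al * (6 * (R / ρ) * w1 + 6 * (R / ρ) * w2)
      positivity
  · intro x hx y hy
    show |H * x.2 - H * y.2| ≤ H * (2 * ρ)
    rw [← mul_sub, abs_mul, abs_of_pos hH]
    refine mul_le_mul_of_nonneg_left ?_ hH.le
    have h1 := abs_le.1 (hz x hx)
    have h2 := abs_le.1 (hz y hy)
    rw [abs_le]; constructor <;> linarith [h1.1, h1.2, h2.1, h2.2]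
  · intro x hx y hy
    show |sl c (fl x) / sc - sl c (fl y) / sc| ≤ 4 * δ / sc
    rw [← sub_div, abs_div, abs_of_pos hsc]
    refine div_le_div_of_nonneg_right ?_ hsc.le
    refine (Ch.sl_dist (hch x hx) (hch y hy) (hfl x hx) (hfl y hy)).trans ?_
    have h1 := Tilt51.abs_cr_triangle (hfl x hx) he (hfl y hy)
    have h2 := hcr x hx
    have h3 := hcr y hy
    rw [Tilt51.abs_cr_swap (fl y) e] at h1
    linarith
  · intro x hx y hy hcell k
    have hζ : |(toInc c H al sc (L y.1) (sl c (fl y)) y.2).zQ i / H - z0| ≤ R := by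
      have h1 : |H * y.2 - Inc.fl i (H * y.2)| ≤ (1 / 2) ^ i := abs_sub_fl i (H * y.2)
      have h2 : (toInc c H al sc (L y.1) (sl c (fl y)) y.2).zQ i = Inc.fl i (H * y.2) := rfl
      rw [h2]
      have h3 : Inc.fl i (H * y.2) / H - z0 = (y.2 - z0) - (H * y.2 - Inc.fl i (H * y.2)) / H := by
        field_simp
        ring
      rw [h3, hR]
      refine (abs_sub _ _).trans (add_le_add (hz y hy) ?_)
      rw [abs_div, abs_of_pos hH]
      exact div_le_div_of_nonneg_right h1 hH.le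
    have hF : 1 + |(toInc c H al sc (L y.1) (sl c (fl y)) y.2).fQ j * sc| ≤ 3 := by
      have h1 : |sl c (fl y) / sc - Inc.fl j (sl c (fl y) / sc)| ≤ (1 / 2) ^ j :=
        abs_sub_fl j (sl c (fl y) / sc)
      have h2 : (toInc c H al sc (L y.1) (sl c (fl y)) y.2).fQ j =
        Inc.fl j (sl c (fl y) / sc) := rfl
      rw [h2]
      have h3 := (hch y hy).sl_le (hfl y hy)
      have h4 : Inc.fl j (sl c (fl y) / sc) * sc =
          sl c (fl y) - (sl c (fl y) / sc - Inc.fl j (sl c (fl y) / sc)) * sc := by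
        field_simp
        ring
      rw [h4]
      have h5 := abs_sub (sl c (fl y)) ((sl c (fl y) / sc - Inc.fl j (sl c (fl y) / sc)) * sc)
      rw [abs_mul, abs_of_pos hsc] at h5
      have h6 : (1 / 2 : ℝ) ^ j ≤ 1 := pow_le_one₀ (by norm_num) (by norm_num)
      have h7 : |sl c (fl y) / sc - Inc.fl j (sl c (fl y) / sc)| * sc ≤ 1 * 1 :=
        mul_le_mul (h1.trans h6) hsc1 hsc.le (by norm_num)
      linarith
    obtain ⟨g0, g1, g2, g3⟩ := G2 (l := L x.1) (l' := L y.1) (z := x.2) (z' := y.2)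
      (fl := fl x) (fl' := fl y) hH hal hsc hw1 hw2 hρ hR0 he (hfl y hy) (hch y hy)
      (hpl x hx) (hpl y hy) hcell (hcr y hy) hζ hF (le_refl η)
    fin_cases k
    · exact g0
    · exact g1
    · exact g2
    · exact g3

end Crest.Agent.R138.GeoR298
end

-- ▼ part R138/GeoR_298
section

/-!
# R138, L15 GEO-R (helper298), part 3: the literal target
-/

set_option autoImplicit false
set_option linter.unusedVariables false

open Finset Filter Topology

namespace Crest.Agent.R138.GeoR298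

open Crest.Agent.R138.Ex926 (Base U flab vlev Bx6 LEG)
open Flg101 Flag51 Nx638
open Crest.Agent.R138.Mk163 (zc zl rho alive Mk prec fr Nat5)
open Crest.Agent.R138.L15
open Crest.Agent.R138.TiltU51 (dpos danti dadd le_dpow dpow_le ev_const ev_dims rho_pos mem_alive)

noncomputable section

/-- the arithmetic of one stage -/
theorem stage {B : Base} {n : ℕ} {H al sg w1 w2 ρ pu : ℝ} {u v k θ T E t : ℝ}
    (hH : 0 < H) (hal : 0 < al) (hsg : 0 < sg) (hρ : 0 < ρ) (hw2 : 0 < w2) (hpu : 0 < pu)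
    (hw1 : w1 = pu * w2) (hpu1 : pu ≤ 1) (hv : 0 ≤ v) (hvu : v ≤ u) (hk : 0 ≤ k) (ht : 0 < t)
    (hT0 : 0 ≤ T) (hT : T ≤ θ * (1 - u) + E) (hE : 0 ≤ E)
    (e1 : w2 ≤ al * ρ * B.d n ^ (θ * (1 - u) - t))
    (e2 : H * ρ ≤ B.d n ^ (u - t)) (e3 : B.d n ^ (u + t) ≤ H * ρ)
    (e4 : pu ≤ sg * B.d n ^ (k * u - t)) (hC : 11 * 19 * 435 ^ 4 ≤ B.d n ^ (-t)) :
    (2 * (2 ^ (B.levc n v) * (H * (2 * ρ))) + 3) *
      (2 * (2 ^ (B.levc n (k * v)) * (4 * (pu * B.d n ^ (-t)) / sg)) + 3) *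
        ∏ i, (2 * (2 ^ (vlev B n ![v + (T + k * v), T + k * v, T, v + T, v, k * v] i) *
          Dk H al sg w1 w2 ρ (ρ + (1 / 2) ^ (B.levc n v) / H)
          (sg * (1 / 2) ^ (B.levc n (k * v)) + pu * B.d n ^ (-t)) i) + 3) ≤
      B.d n ^ (-(4 * E + 24 * t)) := by
  set i := B.levc n v with hi
  set j := B.levc n (k * v) with hj
  set R : ℝ := ρ + (1 / 2) ^ i / H with hR
  set δ : ℝ := pu * B.d n ^ (-t) with hδ
  set η : ℝ := sg * (1 / 2) ^ j + δ with hη
  have hkv : 0 ≤ k * v := mul_nonneg hk hv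
  have hku : k * v ≤ k * u := mul_le_mul_of_nonneg_left hvu hk
  have half : ∀ m : ℕ, (1 / 2 : ℝ) ^ m = (2 ^ m)⁻¹ := fun m => by
    rw [one_div, inv_pow]
  have hhalf : ∀ s : ℝ, (1 / 2 : ℝ) ^ (B.levc n s) ≤ B.d n ^ s := by
    intro s
    have h1 := B.le_pow_levc n s
    rw [half, inv_le_comm₀ (by positivity) (dpos B n s), ← Real.rpow_neg (B.pos n).le]
    exact h1
  have add : ∀ a b : ℝ, B.d n ^ a * B.d n ^ b = B.d n ^ (a + b) := fun a b => (dadd B n a b).symm
  have one_le : ∀ a : ℝ, a ≤ 0 → 1 ≤ B.d n ^ a := fun a ha => by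
    have := danti B n ha
    rwa [Real.rpow_zero] at this
  -- R / ρ
  have hRρ : R / ρ ≤ 2 * B.d n ^ (v - u - t) := by
    have h1 : R / ρ = 1 + (1 / 2) ^ i / (H * ρ) := by rw [hR]; field_simp
    have h2 : (1 / 2 : ℝ) ^ i / (H * ρ) ≤ B.d n ^ v / B.d n ^ (u + t) :=
      div_le_div₀ (dpos B n v).le (hhalf v) (dpos B n _) e3
    have h3 : B.d n ^ v / B.d n ^ (u + t) = B.d n ^ (v - u - t) := by
      rw [← Real.rpow_sub (B.pos n)]; congr 1; ring
    rw [h1]
    have h4 := one_le (v - u - t) (by linarith)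
    rw [h3] at h2
    linarith
  have hRρ0 : 0 ≤ R / ρ := by rw [hR]; positivity
  -- δ and η
  have hδ1 : δ ≤ sg * B.d n ^ (k * u - 2 * t) := by
    rw [hδ]
    calc pu * B.d n ^ (-t) ≤ (sg * B.d n ^ (k * u - t)) * B.d n ^ (-t) :=
          mul_le_mul_of_nonneg_right e4 (dpos B n _).le
      _ = sg * B.d n ^ (k * u - 2 * t) := by rw [mul_assoc, add]; congr 2; ring
  have hη1 : η ≤ 2 * (sg * B.d n ^ (k * v - 2 * t)) := by
    have h1 : sg * (1 / 2) ^ j ≤ sg * B.d n ^ (k * v - 2 * t) :=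
      mul_le_mul_of_nonneg_left ((hhalf (k * v)).trans (danti B n (by linarith))) hsg.le
    have h2 : sg * B.d n ^ (k * u - 2 * t) ≤ sg * B.d n ^ (k * v - 2 * t) :=
      mul_le_mul_of_nonneg_left (danti B n (by linarith)) hsg.le
    rw [hη]; linarith
  have hδ0 : 0 ≤ δ := by rw [hδ]; have := dpos B n (-t); positivity
  have hη0 : 0 ≤ η := by rw [hη]; positivity
  have hw1' : w1 ≤ sg * B.d n ^ (k * v - 2 * t) * w2 := by
    rw [hw1]
    refine mul_le_mul_of_nonneg_right (e4.trans ?_) hw2.le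
    exact mul_le_mul_of_nonneg_left (danti B n (by linarith)) hsg.le
  have hw10 : 0 ≤ w1 := by rw [hw1]; positivity
  have hw12 : w1 ≤ w2 := by rw [hw1]; nlinarith
  have hwη : w1 + η * w2 ≤ 3 * (sg * B.d n ^ (k * v - 2 * t)) * w2 := by
    have := mul_le_mul_of_nonneg_right hη1 hw2.le
    linarith
  have hTE : B.d n ^ (θ * (1 - u) - t) ≤ B.d n ^ (T - E - t) := danti B n (by linarith)
  have e1' : w2 ≤ al * ρ * B.d n ^ (T - E - t) :=
    e1.trans (mul_le_mul_of_nonneg_left hTE (by positivity))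
  -- the four bounds
  have D0 : H / (al * sg) * (3 * (6 * (R / ρ) * w1 + η * (6 * (R / ρ) * w2))) ≤
      108 * B.d n ^ (v + (T + k * v) - E - 5 * t) := by
    have h1 : H / (al * sg) * (3 * (6 * (R / ρ) * w1 + η * (6 * (R / ρ) * w2))) =
        18 * (H / (al * sg)) * ((R / ρ) * (w1 + η * w2)) := by ring
    rw [h1]
    have h2 : (R / ρ) * (w1 + η * w2) ≤ (2 * B.d n ^ (v - u - t)) *
        (3 * (sg * B.d n ^ (k * v - 2 * t)) * (al * ρ * B.d n ^ (T - E - t))) := by
      have h3 : 3 * (sg * B.d n ^ (k * v - 2 * t)) * w2 ≤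
          3 * (sg * B.d n ^ (k * v - 2 * t)) * (al * ρ * B.d n ^ (T - E - t)) :=
        mul_le_mul_of_nonneg_left e1' (by have := dpos B n (k * v - 2 * t); positivity)
      exact mul_le_mul hRρ (hwη.trans h3) (by positivity)
        (by have := dpos B n (v - u - t); positivity)
    calc 18 * (H / (al * sg)) * ((R / ρ) * (w1 + η * w2)) ≤ 18 * (H / (al * sg)) *
          ((2 * B.d n ^ (v - u - t)) *
        (3 * (sg * B.d n ^ (k * v - 2 * t)) * (al * ρ * B.d n ^ (T - E - t)))) :=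
          mul_le_mul_of_nonneg_left h2 (by positivity)
      _ = 108 * (H * ρ) * (B.d n ^ (v - u - t) * B.d n ^ (k * v - 2 * t) *
          B.d n ^ (T - E - t)) := by field_simp; ring
      _ ≤ 108 * B.d n ^ (u - t) * (B.d n ^ (v - u - t) * B.d n ^ (k * v - 2 * t) *
          B.d n ^ (T - E - t)) := by
          refine mul_le_mul_of_nonneg_right (mul_le_mul_of_nonneg_left e2 (by norm_num)) ?_
          have h3 := dpos B n (v - u - t)
          have h4 := dpos B n (k * v - 2 * t)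
          have h5 := dpos B n (T - E - t)
          positivity
      _ = 108 * B.d n ^ (v + (T + k * v) - E - 5 * t) := by
          rw [mul_assoc, add, add, add]; congr 2; ring
  have D1 : 1 / (al * sg) * (3 * (2 * w1 / ρ + η * (2 * w2 / ρ))) ≤
      18 * B.d n ^ ((T + k * v) - E - 3 * t) := by
    have h1 : 1 / (al * sg) * (3 * (2 * w1 / ρ + η * (2 * w2 / ρ))) =
        6 * (1 / (al * sg * ρ)) * (w1 + η * w2) := by field_simp; ring
    rw [h1]
    have h2 : w1 + η * w2 ≤ 3 * (sg * B.d n ^ (k * v - 2 * t)) *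
        (al * ρ * B.d n ^ (T - E - t)) :=
      hwη.trans (mul_le_mul_of_nonneg_left e1'
        (by have := dpos B n (k * v - 2 * t); positivity))
    calc 6 * (1 / (al * sg * ρ)) * (w1 + η * w2) ≤ 6 * (1 / (al * sg * ρ)) *
          (3 * (sg * B.d n ^ (k * v - 2 * t)) * (al * ρ * B.d n ^ (T - E - t))) :=
          mul_le_mul_of_nonneg_left h2 (by positivity)
      _ = 18 * (B.d n ^ (k * v - 2 * t) * B.d n ^ (T - E - t)) := by field_simp; ring
      _ = _ := by rw [add]; congr 2; ring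
  have D2 : 1 / al * (2 * w1 / ρ + 2 * w2 / ρ) ≤ 4 * B.d n ^ (T - E - t) := by
    have h1 : 1 / al * (2 * w1 / ρ + 2 * w2 / ρ) = 2 * (1 / (al * ρ)) * (w1 + w2) := by
      field_simp
    rw [h1]
    calc 2 * (1 / (al * ρ)) * (w1 + w2) ≤ 2 * (1 / (al * ρ)) *
          (2 * (al * ρ * B.d n ^ (T - E - t))) :=
          mul_le_mul_of_nonneg_left (by linarith) (by positivity)
      _ = 4 * B.d n ^ (T - E - t) := by field_simp; ring
  have D3 : H / al * (6 * (R / ρ) * w1 + 6 * (R / ρ) * w2) ≤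
      24 * B.d n ^ (v + T - E - 3 * t) := by
    have h1 : H / al * (6 * (R / ρ) * w1 + 6 * (R / ρ) * w2) =
        6 * (H / al) * ((R / ρ) * (w1 + w2)) := by ring
    rw [h1]
    have h2 : (R / ρ) * (w1 + w2) ≤ (2 * B.d n ^ (v - u - t)) *
        (2 * (al * ρ * B.d n ^ (T - E - t))) :=
      mul_le_mul hRρ (by linarith) (by positivity)
        (by have := dpos B n (v - u - t); positivity)
    calc 6 * (H / al) * ((R / ρ) * (w1 + w2)) ≤ 6 * (H / al) * ((2 * B.d n ^ (v - u - t)) *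
        (2 * (al * ρ * B.d n ^ (T - E - t)))) := mul_le_mul_of_nonneg_left h2 (by positivity)
      _ = 24 * (H * ρ) * (B.d n ^ (v - u - t) * B.d n ^ (T - E - t)) := by field_simp; ring
      _ ≤ 24 * B.d n ^ (u - t) * (B.d n ^ (v - u - t) * B.d n ^ (T - E - t)) := by
          refine mul_le_mul_of_nonneg_right (mul_le_mul_of_nonneg_left e2 (by norm_num)) ?_
          have h3 := dpos B n (v - u - t)
          have h5 := dpos B n (T - E - t)
          positivity
      _ = _ := by rw [mul_assoc, add, add]; congr 2; ring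
  -- every factor
  have key : ∀ i : Fin 4, 2 * (2 ^ (vlev B n ![v + (T + k * v), T + k * v, T, v + T, v, k * v] i) *
      Dk H al sg w1 w2 ρ R η i) + 3 ≤ 435 * B.d n ^ (-(E + 5 * t)) := by
    have h3 : (3 : ℝ) ≤ 3 * B.d n ^ (-(E + 5 * t)) := by
      have := one_le (-(E + 5 * t)) (by linarith)
      linarith
    have fin : ∀ (X Y Z a b : ℝ), 0 ≤ Y → X ≤ 2 * B.d n ^ (-a) → 0 < X →
        Y ≤ 108 * B.d n ^ b → -(E + 5 * t) ≤ b - a →
        2 * (X * Y) + 3 ≤ 435 * B.d n ^ (-(E + 5 * t)) := by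
      intro X Y Z a b hY0 hX hX0 hY hab
      have h4 : X * Y ≤ (2 * B.d n ^ (-a)) * (108 * B.d n ^ b) :=
        mul_le_mul hX hY hY0 (by have := dpos B n (-a); positivity)
      have h5 : (2 * B.d n ^ (-a)) * (108 * B.d n ^ b) = 216 * B.d n ^ (b - a) := by
        have : B.d n ^ (b - a) = B.d n ^ (-a) * B.d n ^ b := by rw [add]; congr 1; ring
        rw [this]; ring
      have h6 := danti B n hab
      linarith
    intro m
    fin_cases m
    · refine fin _ _ 0 (v + (T + k * v)) (v + (T + k * v) - E - 5 * t) ?_ ?_ (by positivity) D0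
        (by linarith)
      · show 0 ≤ H / (al * sg) * (3 * (6 * (R / ρ) * w1 + η * (6 * (R / ρ) * w2)))
        positivity
      · have := B.pow_lev_le n (t := v + (T + k * v)) (by positivity)
        have h4 := dpos B n (-(v + (T + k * v)))
        show (2 : ℝ) ^ (B.lev n (v + (T + k * v))) ≤ _
        linarith
    · refine fin _ _ 0 (T + k * v) ((T + k * v) - E - 3 * t) ?_ ?_ (by positivity) ?_
        (by linarith)
      · show 0 ≤ 1 / (al * sg) * (3 * (2 * w1 / ρ + η * (2 * w2 / ρ)))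
        positivity
      · exact B.pow_levc_le n (t := T + k * v) (by positivity)
      · refine le_trans D1 ?_
        have h4 := dpos B n ((T + k * v) - E - 3 * t)
        linarith
    · refine fin _ _ 0 T (T - E - t) ?_ ?_ (by positivity) ?_
        (by linarith)
      · show 0 ≤ 1 / al * (2 * w1 / ρ + 2 * w2 / ρ)
        positivity
      · exact B.pow_levc_le n (t := T) hT0
      · refine le_trans D2 ?_
        have h4 := dpos B n (T - E - t)
        linarith
    · refine fin _ _ 0 (v + T) (v + T - E - 3 * t) ?_ ?_ (by positivity) ?_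
        (by linarith)
      · show 0 ≤ H / al * (6 * (R / ρ) * w1 + 6 * (R / ρ) * w2)
        positivity
      · have := B.pow_lev_le n (t := v + T) (by positivity)
        have h4 := dpos B n (-(v + T))
        show (2 : ℝ) ^ (B.lev n (v + T)) ≤ _
        linarith
      · refine le_trans D3 ?_
        have h4 := dpos B n (v + T - E - 3 * t)
        linarith
  have hDk0 : ∀ i : Fin 4, 0 ≤ Dk H al sg w1 w2 ρ R η i := by
    intro m
    fin_cases m
    · show 0 ≤ H / (al * sg) * (3 * (6 * (R / ρ) * w1 + η * (6 * (R / ρ) * w2)))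
      positivity
    · show 0 ≤ 1 / (al * sg) * (3 * (2 * w1 / ρ + η * (2 * w2 / ρ)))
      positivity
    · show 0 ≤ 1 / al * (2 * w1 / ρ + 2 * w2 / ρ)
      positivity
    · show 0 ≤ H / al * (6 * (R / ρ) * w1 + 6 * (R / ρ) * w2)
      positivity
  have hprod : ∏ i, (2 * (2 ^ (vlev B n ![v + (T + k * v), T + k * v, T, v + T, v, k * v] i) *
      Dk H al sg w1 w2 ρ R η i) + 3) ≤ ∏ _i : Fin 4, (435 * B.d n ^ (-(E + 5 * t))) :=
    prod_le_prod (fun m _ => by have := hDk0 m; positivity) (fun m _ => key m)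
  rw [prod_const, card_univ, Fintype.card_fin] at hprod
  have hz : 2 * (2 ^ i * (H * (2 * ρ))) + 3 ≤ 11 * B.d n ^ (-t) := by
    have h1 := B.pow_levc_le n hv
    have h2 : (2 : ℝ) ^ i * (H * ρ) ≤ (2 * B.d n ^ (-v)) * B.d n ^ (u - t) :=
      mul_le_mul h1 e2 (by positivity) (by have := dpos B n (-v); positivity)
    have h3 : (2 * B.d n ^ (-v)) * B.d n ^ (u - t) = 2 * B.d n ^ (u - v - t) := by
      rw [mul_assoc, add]; congr 2; ring
    have h4 : B.d n ^ (u - v - t) ≤ B.d n ^ (-t) := danti B n (by linarith)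
    have h5 := one_le (-t) (by linarith)
    calc 2 * (2 ^ i * (H * (2 * ρ))) + 3 = 4 * (2 ^ i * (H * ρ)) + 3 := by ring
      _ ≤ 4 * (2 * B.d n ^ (-t)) + 3 * B.d n ^ (-t) := by linarith
      _ = _ := by ring
  have hθ' : 2 * (2 ^ j * (4 * δ / sg)) + 3 ≤ 19 * B.d n ^ (-(2 * t)) := by
    have h1 := B.pow_levc_le n hkv
    have h2 : 4 * δ / sg ≤ 4 * B.d n ^ (k * u - 2 * t) := by
      rw [div_le_iff₀ hsg]
      calc 4 * δ ≤ 4 * (sg * B.d n ^ (k * u - 2 * t)) := by linarith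
        _ = _ := by ring
    have h3 : (2 : ℝ) ^ j * (4 * δ / sg) ≤ (2 * B.d n ^ (-(k * v))) *
        (4 * B.d n ^ (k * u - 2 * t)) :=
      mul_le_mul h1 h2 (by positivity) (by have := dpos B n (-(k * v)); positivity)
    have h4 : (2 * B.d n ^ (-(k * v))) * (4 * B.d n ^ (k * u - 2 * t)) =
        8 * B.d n ^ (k * u - k * v - 2 * t) := by
      have : B.d n ^ (k * u - k * v - 2 * t) = B.d n ^ (-(k * v)) * B.d n ^ (k * u - 2 * t) := by
        rw [add]; congr 1; ring
      rw [this]; ring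
    have h5 : B.d n ^ (k * u - k * v - 2 * t) ≤ B.d n ^ (-(2 * t)) := danti B n (by linarith)
    have h6 := one_le (-(2 * t)) (by linarith)
    linarith
  have p1 := dpos B n (-t)
  have p2 := dpos B n (-(2 * t))
  have p3 := dpos B n (-(E + 5 * t))
  have hprod0 : 0 ≤ ∏ i, (2 * (2 ^ (vlev B n ![v + (T + k * v), T + k * v, T, v + T, v, k * v] i) *
      Dk H al sg w1 w2 ρ R η i) + 3) := prod_nonneg fun m _ => by have := hDk0 m; positivity
  calc (2 * (2 ^ i * (H * (2 * ρ))) + 3) * (2 * (2 ^ j * (4 * δ / sg)) + 3) *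
        ∏ i, (2 * (2 ^ (vlev B n ![v + (T + k * v), T + k * v, T, v + T, v, k * v] i) *
      Dk H al sg w1 w2 ρ R η i) + 3)
      ≤ (11 * B.d n ^ (-t)) * (19 * B.d n ^ (-(2 * t))) * (435 * B.d n ^ (-(E + 5 * t))) ^ 4 := by
        refine mul_le_mul (mul_le_mul hz hθ' (by positivity) (by positivity)) hprod hprod0
          (by positivity)
    _ = (11 * 19 * 435 ^ 4) * (B.d n ^ (-t) * B.d n ^ (-(2 * t)) *
          (B.d n ^ (-(E + 5 * t))) ^ 4) := by ring
    _ ≤ B.d n ^ (-t) * (B.d n ^ (-t) * B.d n ^ (-(2 * t)) *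
          (B.d n ^ (-(E + 5 * t))) ^ 4) := mul_le_mul_of_nonneg_right hC (by positivity)
    _ = B.d n ^ (-(4 * E + 24 * t)) := by
        have h1 : (B.d n ^ (-(E + 5 * t))) ^ 4 = B.d n ^ (-(E + 5 * t) * 4) := by
          rw [Real.rpow_mul (B.pos n).le]
          norm_num
        rw [h1, add, add, add]
        congr 1; ring

end

end Crest.Agent.R138.GeoR298
end

-- ▼ part R138/GeoRf_298

/-!
# R138, L15 GEO-R (helper298), part 4: `GeoR`
-/

set_option autoImplicit false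
set_option linter.unusedVariables false

open Finset Filter Topology

namespace Crest.Agent.R138.GeoR298

open Crest.Agent.R138.Ex926 (Base U flab vlev Bx6 LEG)
open Flg101 Flag51 Nx638
open Crest.Agent.R138.Mk163 (zc zl rho alive Mk prec fr Nat5)
open Crest.Agent.R138.L15
open Crest.Agent.R138.TiltU51 (dpos danti dadd le_dpow dpow_le ev_const ev_dims rho_pos mem_alive)

noncomputable section

variable {B : Base} {I : ℕ → Finset (ℕ × ℝ)} {L : ℕ → ℕ → Ln} {lev : ℕ → ℚ → ℕ}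
    {r0 A : ℕ → ℝ} {q g : ℝ} {f : ℕ → ℚ → ℕ → ℤ → ℕ} {b : ℕ → ℚ → ℕ → Ln}
    {e : ℕ → ℚ → ℕ → E2} {w1 w2 : ℕ → ℚ → ℝ} {fl : ℕ → ℕ × ℝ → E2} {sc : ℕ → ℝ} {k s θ : ℝ}
    {c : Bool}

theorem ev_w2 (h : Nat5 B I L lev r0 A q g f b e w1 w2 fl sc k s θ) {u : ℚ} (hu : 0 ≤ u)
    (hu1 : u ≤ 1) {t : ℝ} (ht : 0 < t) : ∀ᶠ n in (U : Filter ℕ),
      w2 n u ≤ WW lev w2 n * rho (lev n u) * B.d n ^ (θ * (1 - (u : ℝ)) - t) := by
  have h1 := (h.base.tau u hu hu1).eventually
    (lt_mem_nhds (show θ * (1 - (u : ℝ)) - t < θ * (1 - (u : ℝ)) by linarith))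
  filter_upwards [h1, ev_dims h.base hu hu1, ev_dims h.base (v := 1) (by norm_num) le_rfl]
    with n hn hdu hd1
  have h2 : 0 < w2 n 1 := hd1.1.trans_le hd1.2.2.1
  have wu : 0 < w2 n u := hdu.1.trans_le hdu.2.2.1
  have ru := rho_pos (lev n u)
  have r1 := rho_pos (lev n 1)
  have h3 := dpow_le (B := B) (n := n) (y := (rho (lev n u) / w2 n u) / (rho (lev n 1) / w2 n 1))
    (by positivity) hn.le
  have h4 := dpos B n (θ * (1 - (u : ℝ)) - t)
  rw [Real.rpow_neg (B.pos n).le, inv_le_comm₀ h4 (by positivity)] at h3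
  have e1 : ((rho (lev n u) / w2 n u) / (rho (lev n 1) / w2 n 1))⁻¹ =
      w2 n u / (WW lev w2 n * rho (lev n u)) := by
    unfold WW; field_simp
  rw [e1, div_le_iff₀ (by unfold WW; positivity)] at h3
  linarith [h3]

theorem ev_H (h : Nat5 B I L lev r0 A q g f b e w1 w2 fl sc k s θ) {u : ℚ} (hu : 0 ≤ u)
    (hu1 : u ≤ 1) {t : ℝ} (ht : 0 < t) : ∀ᶠ n in (U : Filter ℕ),
      (2 : ℝ) ^ lev n 0 * rho (lev n u) ≤ B.d n ^ ((u : ℝ) - t) ∧
      B.d n ^ ((u : ℝ) + t) ≤ (2 : ℝ) ^ lev n 0 * rho (lev n u) := by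
  have h0 := h.base.lev_lim 0 u le_rfl hu hu1
  simp only [Rat.cast_zero, sub_zero] at h0
  have h1 := h0.eventually (lt_mem_nhds (show (u : ℝ) - t < u by linarith))
  have h2 := h0.eventually (gt_mem_nhds (show (u : ℝ) < u + t by linarith))
  filter_upwards [h1, h2] with n hn1 hn2
  have hL := B.L_pos n
  have hy : 0 < (2 : ℝ) ^ lev n 0 * rho (lev n u) := by
    have := rho_pos (lev n u); positivity
  have hlog : Real.log ((2 : ℝ) ^ lev n 0 * rho (lev n u)) / B.L n =
      -(((lev n u : ℝ) - lev n 0) * Real.log 2 / B.L n) := by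
    unfold rho
    rw [Real.log_mul (by positivity) (by positivity), Real.log_div (by norm_num) (by positivity),
      Real.log_one, Real.log_pow, Real.log_pow]
    ring
  constructor
  · have h3 := le_dpow (B := B) (n := n) (t := -((u : ℝ) - t)) hy (by rw [hlog]; linarith)
    rwa [neg_neg] at h3
  · have h3 := dpow_le (B := B) (n := n) (t := -((u : ℝ) + t)) hy (by rw [hlog]; linarith)
    rwa [neg_neg] at h3

theorem ev_prec (h : Nat5 B I L lev r0 A q g f b e w1 w2 fl sc k s θ) {u : ℚ} (hu : 0 ≤ u)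
    (hu1 : u ≤ 1) {t : ℝ} (ht : 0 < t) : ∀ᶠ n in (U : Filter ℕ),
      prec w1 w2 n u ≤ sg w1 w2 n * B.d n ^ (k * (u : ℝ) - t) := by
  have h1 := h.pr u hu hu1
  have h2 := h.pr 0 le_rfl zero_le_one
  simp only [Rat.cast_zero, mul_zero] at h2
  have h3 := (h1.sub h2)
  rw [sub_zero] at h3
  have h4 := h3.eventually (lt_mem_nhds (show k * (u : ℝ) - t < k * u by linarith))
  filter_upwards [h4, ev_dims h.base hu hu1, ev_dims h.base (v := 0) le_rfl zero_le_one]
    with n hn hdu hd0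
  have hsc := h.rot.scpos n
  have pu : 0 < prec w1 w2 n u := by
    unfold prec; have := hdu.1; have := hdu.1.trans_le hdu.2.2.1; positivity
  have p0 : 0 < prec w1 w2 n 0 := by
    unfold prec; have := hd0.1; have := hd0.1.trans_le hd0.2.2.1; positivity
  have e1 : Real.log (prec w1 w2 n u / prec w1 w2 n 0) / B.L n =
      -(Real.log (sc n / prec w1 w2 n u) / B.L n - Real.log (sc n / prec w1 w2 n 0) / B.L n) := by
    rw [Real.log_div hsc.ne' pu.ne', Real.log_div hsc.ne' p0.ne', Real.log_div pu.ne' p0.ne']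
    ring
  have h5 := le_dpow (B := B) (n := n) (t := -(k * (u : ℝ) - t))
    (y := prec w1 w2 n u / prec w1 w2 n 0) (by positivity) (by rw [e1]; linarith)
  rw [neg_neg, div_le_iff₀ p0] at h5
  unfold sg
  linarith

open Classical in
/-- **a marked class of level `u` meets few boxes.** -/
theorem class_count (h : NatJ B I L lev r0 A q g f b e w1 w2 fl sc k s θ c) {v T E : ℝ} {u : ℚ}
    (hv : 0 ≤ v) (hvu : v ≤ u) (hu1 : u ≤ 1) (hT0 : 0 ≤ T) (hT : T ≤ θ * (1 - u) + E)
    (hE : 0 ≤ E) {ε : ℝ} (hε : 0 < ε) : ∀ᶠ n in (U : Filter ℕ), ∀ x ∈ I n,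
    ((((I n).filter fun y => nl lev f n u y = nl lev f n u x).image
      (flab B (xx L lev w1 w2 fl c) n
        ![v + (T + k * v), T + k * v, T, v + T, v, k * v])).card : ℝ) ≤
        B.d n ^ (-(4 * E + ε)) := by
  have hu : (0 : ℚ) ≤ u := by
    have : (0 : ℝ) ≤ u := hv.trans hvu
    exact_mod_cast this
  set t := ε / 24 with ht
  have ht0 : 0 < t := by rw [ht]; positivity
  have hN := h.nat
  have hM := hN.base
  filter_upwards [ev_w2 hN hu hu1 ht0, ev_H hN hu hu1 ht0, ev_prec hN hu hu1 ht0,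
    hN.close u hu hu1 t ht0, hM.near u hu hu1 1 one_pos, ev_dims hM hu hu1,
    ev_dims hM (v := 0) le_rfl zero_le_one, ev_dims hM (v := 1) zero_le_one le_rfl,
    ev_const B (11 * 19 * 435 ^ 4) ht0] with n e1 e2 e4 hcl hnear du d0 d1 hC x hx
  set J := zc (lev n u) x.2 with hJ
  set a := f n u x.1 J with ha
  set F := (I n).filter fun y => nl lev f n u y = nl lev f n u x with hF
  have hFm : ∀ y ∈ F, y ∈ I n ∧ zc (lev n u) y.2 = J ∧ f n u y.1 J = a := by
    intro y hy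
    rw [hF, mem_filter] at hy
    have h1 := hy.2
    simp only [nl, Prod.mk.injEq] at h1
    refine ⟨hy.1, h1.1, ?_⟩
    have h3 := h1.2
    rw [h1.1] at h3
    exact h3
  have wu : 0 < w2 n u := du.1.trans_le du.2.2.1
  have w0 : 0 < w2 n 0 := d0.1.trans_le d0.2.2.1
  have w1' : 0 < w2 n 1 := d1.1.trans_le d1.2.2.1
  have hρ := rho_pos (lev n u)
  have hal : 0 < WW lev w2 n := by unfold WW; have := rho_pos (lev n 1); positivity
  have hsg : 0 < sg w1 w2 n := by unfold sg prec; have := d0.1; positivity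
  have hsg1 : sg w1 w2 n ≤ 1 := by
    unfold sg prec; exact div_le_one_of_le₀ d0.2.2.1 w0.le
  have hpu : 0 < prec w1 w2 n u := by unfold prec; have := du.1; positivity
  have hpu1 : prec w1 w2 n u ≤ 1 := by
    unfold prec; exact div_le_one_of_le₀ du.2.2.1 wu.le
  have hw1e : w1 n u = prec w1 w2 n u * w2 n u := by
    unfold prec; field_simp
  have hδ : 0 ≤ prec w1 w2 n u * B.d n ^ (-t) := by have := dpos B n (-t); positivity
  -- membership in the plank
  have hxa : x.1 ∈ alive (I n) (lev n u) J := mem_alive.2 ⟨x, hx, rfl, rfl⟩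
  have hmemF : ∀ y ∈ F, y.1 ∈ alive (I n) (lev n u) J := fun y hy =>
    mem_alive.2 ⟨y, (hFm y hy).1, (hFm y hy).2.1, rfl⟩
  have hcount := plank_count (F := F) (L := L n) (fl := fl n) (c := c) (H := 2 ^ lev n 0)
    (al := WW lev w2 n) (sc := sg w1 w2 n) (by positivity) hal hsg hsg1
    (bl := b n u a) (e := e n u a) (w1 := w1 n u) (w2 := w2 n u) (z0 := zl (lev n u) J)
    (ρ := rho (lev n u)) (δ := prec w1 w2 n u * B.d n ^ (-t)) du.1.le wu.le hρ hδ
    (by have := (hnear J).unit x.1 hxa; exact this)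
    (fun y hy => by
      have h1 := (hnear J).mem y.1 (hmemF y hy)
      have h2 := (hFm y hy).2.2
      simp only [h2] at h1
      exact h1)
    (fun y hy => by
      have h1 := (hFm y hy).2.1
      have h2 : (0 : ℝ) < 2 ^ lev n u := by positivity
      have h3 := Int.floor_le ((2 : ℝ) ^ lev n u * y.2)
      have h4 := Int.lt_floor_add_one ((2 : ℝ) ^ lev n u * y.2)
      have h5 : ⌊(2 : ℝ) ^ lev n u * y.2⌋ = J := h1
      rw [h5] at h3 h4
      unfold zl rho
      have h6 : y.2 - (J : ℝ) / 2 ^ lev n u = (2 ^ lev n u * y.2 - J) / 2 ^ lev n u := by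
        field_simp
      rw [h6, abs_div, abs_of_pos h2]
      refine div_le_div_of_nonneg_right ?_ h2.le
      rw [abs_le]; constructor <;> linarith)
    (fun y hy => hN.unit n y (hFm y hy).1)
    (fun y hy => h.slope n y (hFm y hy).1)
    (fun y hy => by
      have h1 := hcl y (hFm y hy).1
      have h2 : fr lev f e n u y = e n u a := by
        unfold fr
        rw [(hFm y hy).2.1, (hFm y hy).2.2]
      rw [h2] at h1
      exact h1)
    (B.levc n v) (B.levc n (k * v))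
    (vlev B n ![v + (T + k * v), T + k * v, T, v + T, v, k * v])
  have hst := stage (B := B) (n := n) (H := 2 ^ lev n 0) (al := WW lev w2 n)
    (sg := sg w1 w2 n) (w1 := w1 n u) (w2 := w2 n u) (ρ := rho (lev n u))
    (pu := prec w1 w2 n u) (u := (u : ℝ)) (v := v) (k := k) (θ := θ) (T := T) (E := E) (t := t)
    (by positivity) hal hsg hρ wu hpu hw1e hpu1 hv hvu hN.k0.le ht0 hT0 hT hE e1 e2.1 e2.2 e4 hC
  have e24 : (24 : ℝ) * t = ε := by rw [ht]; ring
  rw [e24] at hst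
  refine le_trans (le_of_eq ?_) (hcount.trans hst)
  rfl

/-- **GEO-R** -/
theorem geoR : GeoR B I L lev r0 A q g f b e w1 w2 fl sc k s θ c := by
  intro h
  have hk := h.nat.k0
  have hθ := h.nat.θ0
  refine ⟨fun v u hv hvu hu1 ε hε => ?_, fun u hu hu1 ε hε => ?_⟩
  · have hv1 : v ≤ 1 := hvu.le.trans (by exact_mod_cast hu1)
    have h1 := class_count h (v := v) (T := θ * (1 - v)) (E := θ * (u - v)) (u := u) hv hvu.le hu1
      (mul_nonneg hθ.le (by linarith)) (le_of_eq (by ring))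
      (mul_nonneg hθ.le (by linarith)) hε
    filter_upwards [h1] with n hn x hx
    refine (hn x hx).trans (danti B n ?_)
    have h2 : 0 ≤ (u : ℝ) - v := by linarith
    have h3 : 0 ≤ (1 + k + θ) * ((u : ℝ) - v) := by positivity
    have h4 : 4 * (θ * ((u : ℝ) - v)) ≤ 10 * (1 + k + θ) * (u - v) := by
      have : 0 ≤ (10 * (1 + k) + 6 * θ) * ((u : ℝ) - v) := by positivity
      linarith
    linarith
  · have hu0 : (0 : ℝ) ≤ u := by exact_mod_cast hu
    have hu1' : (u : ℝ) ≤ 1 := by exact_mod_cast hu1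
    have h1 := class_count h (v := 0) (T := 0) (E := 0) (u := u) le_rfl hu0 hu1
      le_rfl (by have := mul_nonneg hθ.le (by linarith : 0 ≤ 1 - (u : ℝ)); linarith) le_rfl hε
    have e0 : (![0 + (0 + k * 0), 0 + k * 0, 0, 0 + 0, 0, k * 0] : Fin 6 → ℝ) = 0 := by
      funext i
      fin_cases i <;> simp
    rw [e0] at h1
    filter_upwards [h1] with n hn x hx
    refine (hn x hx).trans (le_of_eq ?_)
    congr 1
    ring

end

end Crest.Agent.R138.GeoR298
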