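import Crest.Agent.R138.LmA1_861

-- ▼ part R138/LmA2_861
section

/-!
# R138, LEMMA A, case B (slabs) and the final finite statement (helper861)
-/

set_option autoImplicit false
set_option linter.unusedVariables false
set_option linter.unusedSectionVars false

namespace Crest.Agent.R138.LmA861

open Finset Crest.Agent.R138.MK877 Crest.Agent.R138.Ex926

section B

variable {ι : Type} [DecidableEq ι] (a b c d : ι → ℝ) (R : ℝ)

/-- number of common fine cells of two transversal lines -/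
theorem card_meet_le {T : ℝ} (hT : 1 ≤ T) (hR : 0 < R) (l m : ι)
    (hd : ¬ (|c m - c l| ≤ 1 / T ∧ |d m - d l| ≤ 1 / T)) (S : Finset ℤ)
    (hS : ∀ j ∈ S, |pos a c R m j - pos a c R l j| ≤ 1 / R ∧
      |pos b d R m j - pos b d R l j| ≤ 1 / R) : (S.card : ℝ) ≤ 2 * T + 1 := by
  have hT0 : 0 < T := by linarith
  have hgen : ∀ a c : ι → ℝ, 1 / T < |c m - c l| →
      (∀ j ∈ S, |pos a c R m j - pos a c R l j| ≤ 1 / R) → (S.card : ℝ) ≤ 2 * T + 1 := by
    intro a c h1 h2
    have hc : 0 < |c m - c l| := lt_trans (by positivity) h1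
    have hB : 0 < |(c m - c l) / R| := by
      rw [abs_div, abs_of_pos hR]; positivity
    have h3 := ZS294.card_small_le (J := S) (A := a m - a l) (B := (c m - c l) / R) (e := 1 / R) hB
      (by positivity) (by
        intro j hj
        have := h2 j hj
        refine le_trans (le_of_eq ?_) this
        congr 1
        unfold pos; ring)
    refine h3.trans ?_
    rw [abs_div, abs_of_pos hR]
    have h4 : 2 * (1 / R) / (|c m - c l| / R) = 2 / |c m - c l| := by
      field_simp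
    rw [h4]
    have h5 : 2 / |c m - c l| ≤ 2 * T := by
      rw [div_le_iff₀ hc]
      rw [div_lt_iff₀ hT0] at h1
      nlinarith
    linarith
  rw [not_and_or, not_le, not_le] at hd
  rcases hd with h | h
  · exact hgen a c h fun j hj => (hS j hj).1
  · exact hgen b d h fun j hj => (hS j hj).2

/-- **case B, counting of transversal pairs in slabs.** -/
theorem pairs_count {H : ℕ} (hH : 0 < H) (hR : 0 < R) {T : ℝ} (hT : 1 ≤ T)
    (I J : Finset (ι × ℤ)) (hJI : J ⊆ I) (hJ : J.Nonempty) {θ θ' NS NT : ℝ} (hθ : 0 < θ)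
    (hθ' : 0 < θ')
    (hv : ∀ x ∈ I, |c x.1| ≤ 1 ∧ |d x.1| ≤ 1)
    (u n : (Fin 3 → ℤ) → ℝ × ℝ) (hn : ∀ k, (n k).1 ^ 2 + (n k).2 ^ 2 = 1)
    (hstrip : ∀ x ∈ J, |(c x.1 - (u (big H (cell a b c d R x))).1) * (n (big H (cell a b c d R x))).1 +
      (d x.1 - (u (big H (cell a b c d R x))).2) * (n (big H (cell a b c d R x))).2| ≤ 1 / H)
    (hcell : ∀ x ∈ J, θ ≤ ((J.filter fun y => cell a b c d R y = cell a b c d R x).card : ℝ))
    (hlk : ∀ x ∈ J, θ' ≤ ((J.filter fun y => (y.1, big H (cell a b c d R y)) =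
      (x.1, big H (cell a b c d R x))).card : ℝ))
    (hslab : ∀ x ∈ I, ∀ n : ℝ × ℝ, n.1 ^ 2 + n.2 ^ 2 = 1 →
      (((I.filter fun y => |(y.2 : ℝ) - x.2| ≤ H ∧
        |pos a c R y.1 x.2 - pos a c R x.1 x.2| ≤ 3 * H / R ∧
        |pos b d R y.1 x.2 - pos b d R x.1 x.2| ≤ 3 * H / R ∧
        |n.1 * (pos a c R y.1 x.2 - pos a c R x.1 x.2) +
          n.2 * (pos b d R y.1 x.2 - pos b d R x.1 x.2)| ≤ 4 / R ∧
        |n.1 * (c y.1 - c x.1) + n.2 * (d y.1 - d x.1)| ≤ 2 / H).image Prod.fst).card : ℝ) ≤ NS)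
    (htube : ∀ x ∈ I, ((I.filter fun y => y.2 = x.2 ∧
        |pos a c R y.1 y.2 - pos a c R x.1 x.2| ≤ 1 / R ∧
        |pos b d R y.1 y.2 - pos b d R x.1 x.2| ≤ 1 / R ∧
        |c y.1 - c x.1| ≤ 1 / T ∧ |d y.1 - d x.1| ≤ 1 / T).card : ℝ) ≤ NT)
    (hNT : NT ≤ θ / 2) : θ * θ' ≤ 2 * (2 * T + 1) * NS := by
  classical
  have hH0 : (0 : ℝ) < H := by exact_mod_cast hH
  have hH1 : (1 : ℝ) ≤ H := by exact_mod_cast hH
  have hHz : (0 : ℤ) < H := by exact_mod_cast hH
  set cl := cell a b c d R with hcl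
  set K : ι × ℤ → Fin 3 → ℤ := fun x => big H (cl x) with hK
  set tr : ι → ι → Prop := fun l m => ¬ (|c m - c l| ≤ 1 / T ∧ |d m - d l| ≤ 1 / T) with htr
  set P := (J ×ˢ J).filter (fun p => cl p.2 = cl p.1 ∧ tr p.1.1 p.2.1) with hP
  have hsame : ∀ x y : ι × ℤ, cl y = cl x → y.2 = x.2 ∧
      |pos a c R y.1 y.2 - pos a c R x.1 x.2| ≤ 1 / R ∧
      |pos b d R y.1 y.2 - pos b d R x.1 x.2| ≤ 1 / R := by
    intro x y h
    simp only [hcl, cell, Prod.mk.injEq] at h
    exact ⟨h.1, near_of_floor hR h.2.1, near_of_floor hR h.2.2⟩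
  -- lower bound
  have hlow : (J.card : ℝ) * (θ / 2) ≤ P.card := by
    have h1 : P.card = ∑ x ∈ J, (J.filter (fun y => cl y = cl x ∧ tr x.1 y.1)).card := by
      rw [hP, card_filter, sum_product]
      refine sum_congr rfl fun x _ => ?_
      rw [card_filter]
    rw [h1]; push_cast
    rw [← nsmul_eq_mul]
    refine card_nsmul_le_sum _ _ _ fun x hx => ?_
    have h2 : (J.filter fun y => cl y = cl x).card ≤
        (I.filter fun y => y.2 = x.2 ∧
        |pos a c R y.1 y.2 - pos a c R x.1 x.2| ≤ 1 / R ∧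
        |pos b d R y.1 y.2 - pos b d R x.1 x.2| ≤ 1 / R ∧
        |c y.1 - c x.1| ≤ 1 / T ∧ |d y.1 - d x.1| ≤ 1 / T).card +
        (J.filter (fun y => cl y = cl x ∧ tr x.1 y.1)).card := by
      refine (card_le_card ?_).trans (card_union_le _ _)
      intro y hy
      rw [mem_filter] at hy
      rw [mem_union, mem_filter, mem_filter]
      by_cases h3 : |c y.1 - c x.1| ≤ 1 / T ∧ |d y.1 - d x.1| ≤ 1 / T
      · left
        obtain ⟨e1, e2, e3⟩ := hsame x y hy.2
        exact ⟨hJI hy.1, e1, e2, e3, h3⟩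
      · right
        exact ⟨hy.1, hy.2, h3⟩
    have h4 := htube x (hJI hx)
    have h5 := hcell x hx
    have h6 : ((J.filter fun y => cl y = cl x).card : ℝ) ≤
        ((I.filter fun y => y.2 = x.2 ∧
        |pos a c R y.1 y.2 - pos a c R x.1 x.2| ≤ 1 / R ∧
        |pos b d R y.1 y.2 - pos b d R x.1 x.2| ≤ 1 / R ∧
        |c y.1 - c x.1| ≤ 1 / T ∧ |d y.1 - d x.1| ≤ 1 / T).card : ℝ) +
        ((J.filter (fun y => cl y = cl x ∧ tr x.1 y.1)).card : ℝ) := by exact_mod_cast h2
    linarith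
  -- upper bound
  set φ : (ι × ℤ) × (ι × ℤ) → (ι × (Fin 3 → ℤ)) × ι := fun p => ((p.1.1, K p.1), p.2.1) with hφ
  have hup1 : (P.card : ℝ) ≤ (2 * T + 1) * ((P.image φ).card : ℝ) := by
    refine card_le_mul_image P φ fun p hp => ?_
    set W := P.filter fun q => φ q = φ p with hW
    have hWm : ∀ q ∈ W, q.1.1 = p.1.1 ∧ q.2.1 = p.2.1 ∧ cl q.2 = cl q.1 := by
      intro q hq
      rw [hW, mem_filter, hP, mem_filter] at hq
      have h3 := hq.2
      simp only [hφ, Prod.mk.injEq] at h3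
      exact ⟨h3.1.1, h3.2, hq.1.2.1⟩
    have hcard : W.card = (W.image fun q => q.1.2).card := by
      symm
      apply card_image_of_injOn
      intro q hq q' hq' he
      simp only at he
      obtain ⟨e1, e2, e3⟩ := hWm q hq
      obtain ⟨f1, f2, f3⟩ := hWm q' hq'
      have g1 := (hsame _ _ e3).1
      have g2 := (hsame _ _ f3).1
      refine Prod.ext (Prod.ext (e1.trans f1.symm) he) (Prod.ext (e2.trans f2.symm) ?_)
      rw [g1, g2, he]
    rw [hcard]
    have htrp : tr p.1.1 p.2.1 := by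
      rw [hP, mem_filter] at hp; exact hp.2.2
    refine card_meet_le a b c d R hT hR p.1.1 p.2.1 htrp _ fun j hj => ?_
    obtain ⟨q, hq, rfl⟩ := mem_image.1 hj
    obtain ⟨e1, e2, e3⟩ := hWm q hq
    obtain ⟨g1, g2, g3⟩ := hsame _ _ e3
    rw [g1, e1, e2] at g2 g3
    exact ⟨g2, g3⟩
  have hup2 : ((P.image φ).card : ℝ) ≤ NS * (((P.image φ).image Prod.fst).card : ℝ) := by
    refine card_le_mul_image _ _ fun q0 hq0 => ?_
    obtain ⟨p0, hp0, rfl⟩ := mem_image.1 hq0
    have hp0' := hp0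
    rw [hP, mem_filter, mem_product] at hp0
    obtain ⟨⟨hx0, -⟩, -, -⟩ := hp0
    set x0 := p0.1 with hx0d
    refine le_trans ?_ (hslab x0 (hJI hx0) (n (K x0)) (hn _))
    have h1 : ((P.image φ).filter fun y => y.1 = (φ p0).1).card =
        (((P.image φ).filter fun y => y.1 = (φ p0).1).image Prod.snd).card := by
      symm
      apply card_image_of_injOn
      intro q hq q' hq' he
      simp only [coe_filter, Set.mem_ofPred_eq] at hq hq'
      exact Prod.ext (hq.2.trans hq'.2.symm) he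
    rw [h1]
    have h2 : ((P.image φ).filter fun y => y.1 = (φ p0).1).image Prod.snd ⊆
        ((I.filter fun y => |(y.2 : ℝ) - x0.2| ≤ H ∧
        |pos a c R y.1 x0.2 - pos a c R x0.1 x0.2| ≤ 3 * H / R ∧
        |pos b d R y.1 x0.2 - pos b d R x0.1 x0.2| ≤ 3 * H / R ∧
        |(n (K x0)).1 * (pos a c R y.1 x0.2 - pos a c R x0.1 x0.2) +
          (n (K x0)).2 * (pos b d R y.1 x0.2 - pos b d R x0.1 x0.2)| ≤ 4 / R ∧
        |(n (K x0)).1 * (c y.1 - c x0.1) + (n (K x0)).2 * (d y.1 - d x0.1)| ≤ 2 / H).image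
          Prod.fst) := by
      intro m' hm'
      obtain ⟨q, hq, rfl⟩ := mem_image.1 hm'
      rw [mem_filter] at hq
      obtain ⟨hq1, hq2⟩ := hq
      obtain ⟨p, hp, rfl⟩ := mem_image.1 hq1
      simp only [hφ, Prod.mk.injEq] at hq2
      obtain ⟨f1, f2⟩ := hq2
      rw [hP, mem_filter, mem_product] at hp
      obtain ⟨⟨hxJ, hyJ⟩, hcc, -⟩ := hp
      set x := p.1 with hx
      set y := p.2 with hy
      obtain ⟨g1, g2, g3⟩ := hsame x y hcc
      have hKy : K y = K x0 := by rw [← f2]; simp only [hK, hcc]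
      have hsy := hstrip y hyJ
      have hsx := hstrip x0 hx0
      change |(c y.1 - (u (K y)).1) * (n (K y)).1 + (d y.1 - (u (K y)).2) * (n (K y)).2| ≤ 1 / H
        at hsy
      change |(c x0.1 - (u (K x0)).1) * (n (K x0)).1 +
        (d x0.1 - (u (K x0)).2) * (n (K x0)).2| ≤ 1 / H at hsx
      rw [hKy] at hsy
      have hvel : |(n (K x0)).1 * (c y.1 - c x0.1) + (n (K x0)).2 * (d y.1 - d x0.1)| ≤ 2 / H := by
        have e1 : (n (K x0)).1 * (c y.1 - c x0.1) + (n (K x0)).2 * (d y.1 - d x0.1) =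
            ((c y.1 - (u (K x0)).1) * (n (K x0)).1 + (d y.1 - (u (K x0)).2) * (n (K x0)).2) -
            ((c x0.1 - (u (K x0)).1) * (n (K x0)).1 + (d x0.1 - (u (K x0)).2) * (n (K x0)).2) := by
          ring
        rw [e1]
        refine (abs_sub _ _).trans ?_
        calc _ ≤ 1 / (H : ℝ) + 1 / H := add_le_add hsy hsx
          _ = 2 / H := by ring
      -- heights
      have hw : x.2 / (H : ℤ) = x0.2 / (H : ℤ) := by
        have := congrFun f2 2
        simpa [hK, big, hcl, cell] using this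
      have hj : |x.2 - x0.2| ≤ H := by
        have a1 := Int.emod_add_mul_ediv x.2 H
        have a2 := Int.emod_add_mul_ediv x0.2 H
        have a3 := Int.emod_nonneg x.2 hHz.ne'
        have a4 := Int.emod_nonneg x0.2 hHz.ne'
        have a5 := Int.emod_lt_of_pos x.2 hHz
        have a6 := Int.emod_lt_of_pos x0.2 hHz
        rw [hw] at a1
        rw [abs_le]; constructor <;> linarith
      have hjr : |(x.2 : ℝ) - x0.2| ≤ H := by exact_mod_cast hj
      have hjR : |((x0.2 : ℝ) - x.2) / R| ≤ H / R := by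
        rw [abs_div, abs_of_pos hR, abs_sub_comm]
        gcongr
      have hshift : ∀ a c : ι → ℝ, pos a c R y.1 x0.2 - pos a c R x0.1 x0.2 =
          (pos a c R y.1 y.2 - pos a c R x.1 x.2) + (c y.1 - c x0.1) * (((x0.2 : ℝ) - x.2) / R) := by
        intro a c
        rw [pos_shift a c R y.1 y.2 x0.2, pos_shift a c R x0.1 x.2 x0.2, g1, f1]
        ring
      have hbig : ∀ a c : ι → ℝ, |c y.1| ≤ 1 → |c x0.1| ≤ 1 →
          |pos a c R y.1 y.2 - pos a c R x.1 x.2| ≤ 1 / R →
          |pos a c R y.1 x0.2 - pos a c R x0.1 x0.2| ≤ 3 * H / R := by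
        intro a c e1 e2 e3
        rw [hshift a c]
        refine (abs_add_le _ _).trans ?_
        rw [abs_mul]
        have e4 : |c y.1 - c x0.1| ≤ 2 := (abs_sub _ _).trans (by linarith)
        calc _ ≤ 1 / R + 2 * (H / R) := by
              gcongr
          _ ≤ H / R + 2 * (H / R) := by gcongr
          _ = 3 * H / R := by ring
      have hvy := hv y (hJI hyJ)
      have hvx := hv x0 (hJI hx0)
      rw [mem_image]
      refine ⟨y, ?_, rfl⟩
      rw [mem_filter]
      refine ⟨hJI hyJ, ?_, hbig a c hvy.1 hvx.1 g2, hbig b d hvy.2 hvx.2 g3, ?_, hvel⟩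
      · rw [g1]; exact hjr
      · have e1 : (n (K x0)).1 * (pos a c R y.1 x0.2 - pos a c R x0.1 x0.2) +
            (n (K x0)).2 * (pos b d R y.1 x0.2 - pos b d R x0.1 x0.2) =
            ((n (K x0)).1 * (pos a c R y.1 y.2 - pos a c R x.1 x.2) +
              (n (K x0)).2 * (pos b d R y.1 y.2 - pos b d R x.1 x.2)) +
            ((n (K x0)).1 * (c y.1 - c x0.1) + (n (K x0)).2 * (d y.1 - d x0.1)) *
              (((x0.2 : ℝ) - x.2) / R) := by
          rw [hshift a c, hshift b d]; ring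
        rw [e1]
        have hn1 : |(n (K x0)).1| ≤ 1 := by
          rw [← sq_le_one_iff_abs_le_one]; nlinarith [hn (K x0), sq_nonneg (n (K x0)).2]
        have hn2 : |(n (K x0)).2| ≤ 1 := by
          rw [← sq_le_one_iff_abs_le_one]; nlinarith [hn (K x0), sq_nonneg (n (K x0)).1]
        refine (abs_add_le _ _).trans ?_
        have e2 : |(n (K x0)).1 * (pos a c R y.1 y.2 - pos a c R x.1 x.2) +
              (n (K x0)).2 * (pos b d R y.1 y.2 - pos b d R x.1 x.2)| ≤ 1 / R + 1 / R := by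
          refine (abs_add_le _ _).trans ?_
          rw [abs_mul, abs_mul]
          refine add_le_add ?_ ?_
          · calc _ ≤ 1 * (1 / R) := by gcongr
              _ = 1 / R := one_mul _
          · calc _ ≤ 1 * (1 / R) := by gcongr
              _ = 1 / R := one_mul _
        rw [abs_mul]
        calc _ ≤ (1 / R + 1 / R) + 2 / H * (H / R) := by gcongr
          _ = 4 / R := by field_simp; ring
    exact_mod_cast card_le_card h2
  have hup3 : ((P.image φ).image Prod.fst).card ≤ (J.image fun x => (x.1, K x)).card := by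
    refine card_le_card ?_
    intro q hq
    obtain ⟨q', hq', rfl⟩ := mem_image.1 hq
    obtain ⟨p, hp, rfl⟩ := mem_image.1 hq'
    rw [hP, mem_filter, mem_product] at hp
    exact mem_image.2 ⟨p.1, hp.1.1, rfl⟩
  have hup4 : θ' * ((J.image fun x => (x.1, K x)).card : ℝ) ≤ (J.card : ℝ) :=
    mul_image_le_card J _ hlk
  have hJc : (0 : ℝ) < J.card := by exact_mod_cast hJ.card_pos
  have hNS : 0 ≤ NS := by
    obtain ⟨x, hx⟩ := hJ
    exact le_trans (Nat.cast_nonneg _) (hslab x (hJI hx) (1, 0) (by norm_num))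
  have hfin : (J.card : ℝ) * (θ * θ') ≤ (J.card : ℝ) * (2 * (2 * T + 1) * NS) := by
    have hup3' : (((P.image φ).image Prod.fst).card : ℝ) ≤
        ((J.image fun x => (x.1, K x)).card : ℝ) := by exact_mod_cast hup3
    calc (J.card : ℝ) * (θ * θ') = 2 * θ' * ((J.card : ℝ) * (θ / 2)) := by ring
      _ ≤ 2 * θ' * ((2 * T + 1) * (NS * ((J.image fun x => (x.1, K x)).card : ℝ))) := by
          refine mul_le_mul_of_nonneg_left ?_ (by positivity)
          refine hlow.trans (hup1.trans ?_)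
          refine mul_le_mul_of_nonneg_left ?_ (by linarith)
          exact hup2.trans (mul_le_mul_of_nonneg_left hup3' hNS)
      _ = 2 * (2 * T + 1) * NS * (θ' * ((J.image fun x => (x.1, K x)).card : ℝ)) := by ring
      _ ≤ 2 * (2 * T + 1) * NS * (J.card : ℝ) :=
          mul_le_mul_of_nonneg_left hup4 (by positivity)
      _ = _ := by ring
  exact le_of_mul_le_mul_left hfin hJc

end B

end Crest.Agent.R138.LmA861
end

-- ▼ part R138/LmA3_861
section

/-!
# R138, LEMMA A, final finite statement (helper861)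

`lemmaA`: rich balls force one of three inequalities.
-/

set_option autoImplicit false
set_option linter.unusedVariables false
set_option linter.unusedSectionVars false

namespace Crest.Agent.R138.LmA861

open Finset Crest.Agent.R138.MK877 Crest.Agent.R138.Ex926

/-- the slab set of an incidence -/
noncomputable def Slab {ι : Type} (I : Finset (ι × ℤ)) (a b c d : ι → ℝ) (H : ℕ) (R : ℝ)
    (n : ℝ × ℝ) (x : ι × ℤ) : Finset (ι × ℤ) :=
  I.filter fun y => |(y.2 : ℝ) - x.2| ≤ H ∧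
        |pos a c R y.1 x.2 - pos a c R x.1 x.2| ≤ 3 * H / R ∧
        |pos b d R y.1 x.2 - pos b d R x.1 x.2| ≤ 3 * H / R ∧
        |n.1 * (pos a c R y.1 x.2 - pos a c R x.1 x.2) +
          n.2 * (pos b d R y.1 x.2 - pos b d R x.1 x.2)| ≤ 4 / R ∧
        |n.1 * (c y.1 - c x.1) + n.2 * (d y.1 - d x.1)| ≤ 2 / H

/-- the ball of an incidence -/
noncomputable def Ball {ι : Type} (I : Finset (ι × ℤ)) (a b c d : ι → ℝ) (R : ℝ)
    (x : ι × ℤ) : Finset (ι × ℤ) :=
  I.filter fun y => y.2 = x.2 ∧ |pos a c R y.1 y.2 - pos a c R x.1 x.2| ≤ 1 / R ∧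
    |pos b d R y.1 y.2 - pos b d R x.1 x.2| ≤ 1 / R

/-- the tube of an incidence -/
noncomputable def Tube {ι : Type} (I : Finset (ι × ℤ)) (a b c d : ι → ℝ) (R T : ℝ)
    (x : ι × ℤ) : Finset (ι × ℤ) :=
  I.filter fun y => y.2 = x.2 ∧ |pos a c R y.1 y.2 - pos a c R x.1 x.2| ≤ 1 / R ∧
    |pos b d R y.1 y.2 - pos b d R x.1 x.2| ≤ 1 / R ∧
    |c y.1 - c x.1| ≤ 1 / T ∧ |d y.1 - d x.1| ≤ 1 / T

/-- **LEMMA A, finite form.** -/
theorem lemmaA (ε : ℝ) (hε : 0 < ε) : ∃ C : ℝ, 0 < C ∧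
    ∀ {ι : Type} [DecidableEq ι] (I : Finset (ι × ℤ)) (a b c d : ι → ℝ) (H : ℕ) (R' R T : ℝ)
      (h0 h1 h2 m NS NT : ℝ), I.Nonempty → 0 < H → 1 ≤ R' → R = H * R' → 1 ≤ T →
      0 < h0 → 0 < h1 → 0 < m →
      (∀ x ∈ I, |(x.2 : ℝ)| ≤ R ∧ |pos a c R x.1 x.2| ≤ 1 ∧ |pos b d R x.1 x.2| ≤ 1 ∧
        |c x.1| ≤ 1 ∧ |d x.1| ≤ 1) →
      (∀ x ∈ I, h0 ≤ ((I.filter fun y => y.1 = x.1).card : ℝ)) →
      (∀ x ∈ I, h1 ≤ ((I.filter fun y => y.1 = x.1 ∧ y.2 / (H : ℤ) = x.2 / (H : ℤ)).card : ℝ)) →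
      (∀ x ∈ I, ((I.filter fun y => y.1 = x.1 ∧ y.2 / (H : ℤ) = x.2 / (H : ℤ)).card : ℝ) ≤ h2) →
      (∀ x ∈ I, m ≤ ((Ball I a b c d R x).card : ℝ)) →
      (∀ x ∈ I, ∀ n : ℝ × ℝ, n.1 ^ 2 + n.2 ^ 2 = 1 →
        (((Slab I a b c d H R n x).image Prod.fst).card : ℝ) ≤ NS) →
      (∀ x ∈ I, ((Tube I a b c d R T x).card : ℝ) ≤ NT) →
      m * h0 ^ 2 ≤ C * h2 ^ 2 * (H : ℝ) ^ 52 * (R' ^ ε) ^ 2 * ((I.image Prod.fst).card : ℝ) ∨
      m * h1 ^ 3 ≤ C * h2 ^ 2 * T * NS ∨ m * h1 ≤ C * h2 * NT := by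
  obtain ⟨C, hC, keyA⟩ := caseA ε hε
  refine ⟨(24 * C) ^ 2 + 10 ^ 9, by positivity, ?_⟩
  intro ι _ I a b c d H R' R T h0 h1 h2 m NS NT hI hH hR' hRH hT hh0 hh1 hm hbd hown hw1 hw2 hrich
    hslab htube
  classical
  have hH0 : (0 : ℝ) < H := by exact_mod_cast hH
  have hH1 : (1 : ℝ) ≤ H := by exact_mod_cast hH
  have hR : 0 < R := by rw [hRH]; positivity
  have hHz : (0 : ℤ) < H := by exact_mod_cast hH
  have hIc : (0 : ℝ) < I.card := by exact_mod_cast hI.card_pos
  set cl := cell a b c d R with hcl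
  set K : ι × ℤ → Fin 3 → ℤ := fun x => big H (cl x) with hK
  have hh12 : h1 ≤ h2 := by
    obtain ⟨x, hx⟩ := hI
    exact (hw1 x hx).trans (hw2 x hx)
  have hh2 : 0 < h2 := lt_of_lt_of_le hh1 hh12
  -- class counts
  have hc1 : m * ((I.image cl).card : ℝ) ≤ 9 * (I.card : ℝ) := cells_le a b c d R hR I hrich
  have hc2 : h1 * ((I.image fun x => (x.1, K x)).card : ℝ) ≤ 9 * (I.card : ℝ) := by
    have e1 := lineK_le a b c d R hH hR I fun x hx => ⟨(hbd x hx).2.2.2.1, (hbd x hx).2.2.2.2⟩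
    have e2 : h1 * ((I.image fun x => (x.1, x.2 / (H : ℤ))).card : ℝ) ≤ (I.card : ℝ) := by
      refine mul_image_le_card I _ fun x hx => ?_
      refine (hw1 x hx).trans (le_of_eq ?_)
      congr 2
      ext y
      simp [Prod.ext_iff]
    calc h1 * ((I.image fun x => (x.1, K x)).card : ℝ) ≤
        h1 * (9 * ((I.image fun x => (x.1, x.2 / (H : ℤ))).card : ℝ)) :=
          mul_le_mul_of_nonneg_left e1 hh1.le
      _ = 9 * (h1 * ((I.image fun x => (x.1, x.2 / (H : ℤ))).card : ℝ)) := by ring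
      _ ≤ _ := by linarith
  -- first pruning
  obtain ⟨J, hJI, hJc, hJ1, hJ2⟩ := prune2 I cl (fun x => (x.1, K x)) (μ := m / 36) (ν := h1 / 36)
    (by positivity) (by positivity) (by linarith)
  have hJpos : (0 : ℝ) < J.card := by linarith
  -- narrow cells
  set Nar : (Fin 3 → ℤ) → Prop := fun k => ∃ un : (ℝ × ℝ) × (ℝ × ℝ),
    un.2.1 ^ 2 + un.2.2 ^ 2 = 1 ∧ ((FK J K k).card : ℝ) / 2 <
      (((FK J K k).filter fun l => |(c l - un.1.1) * un.2.1 + (d l - un.1.2) * un.2.2| ≤ 1 / H).card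
        : ℝ) with hNar
  set A := J.filter fun x => ¬ Nar (K x) with hA
  set B := J.filter fun x => Nar (K x) with hB
  have hAB : (B.card : ℝ) + A.card = J.card := by
    have := card_filter_add_card_filter_not (s := J) (fun x => Nar (K x))
    exact_mod_cast this
  -- lines in a coarse cell
  have hFKlow : ∀ x ∈ J, m / 36 ≤ ((FK J K (K x)).card : ℝ) := by
    intro x hx
    refine (hJ1 x hx).trans ?_
    have e1 : (J.filter fun y => cl y = cl x).card =
        ((J.filter fun y => cl y = cl x).image Prod.fst).card := by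
      symm
      apply card_image_of_injOn
      intro y hy y' hy' he
      simp only [coe_filter, Set.mem_ofPred_eq] at hy hy'
      have e2 := congrArg Prod.fst (hy.2.trans hy'.2.symm)
      exact Prod.ext he e2
    rw [e1]
    have e3 : (J.filter fun y => cl y = cl x).image Prod.fst ⊆ FK J K (K x) := by
      intro l hl
      obtain ⟨y, hy, rfl⟩ := mem_image.1 hl
      rw [mem_filter] at hy
      exact mem_FK.2 ⟨y, hy.1, by simp only [hK, hy.2], rfl⟩
    exact_mod_cast card_le_card e3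
  have hw2J : ∀ x ∈ J, ((J.filter fun y => y.1 = x.1 ∧ y.2 / (H : ℤ) = x.2 / (H : ℤ)).card : ℝ) ≤
      h2 := by
    intro x hx
    refine le_trans ?_ (hw2 x (hJI hx))
    exact_mod_cast card_le_card (filter_subset_filter _ hJI)
  rcases le_or_gt ((J.card : ℝ) / 2) (A.card : ℝ) with hcase | hcase
  · -- CASE A
    left
    have hmain := keyA J A a b c d H R' R h2 (m / 36) (filter_subset _ _) hH hR' hRH hh2.le
      (by positivity) (fun x hx => hbd x (hJI hx)) hw2J
      (fun x hx => hFKlow x (filter_subset _ _ hx))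
      (by
        intro x hx u n hn
        rw [hA, mem_filter] at hx
        by_contra hcon
        exact hx.2 ⟨(u, n), hn, not_le.1 hcon⟩)
    set L : ℝ := ((I.image Prod.fst).card : ℝ) with hL
    have hL1 : ((J.image Prod.fst).card : ℝ) ≤ L := by
      rw [hL]
      exact_mod_cast card_le_card (image_subset_image hJI)
    have hL2 : h0 * L ≤ I.card := by
      refine mul_image_le_card I _ fun x hx => ?_
      exact hown x hx
    have hLpos : 0 < L := by
      have : 0 < (I.image Prod.fst).card := card_pos.2 (hI.image _)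
      rw [hL]
      exact_mod_cast this
    set X : ℝ := C * (H : ℝ) ^ 26 * R' ^ ε with hX
    have hR'0 : 0 < R' := by linarith
    have hX0 : 0 < X := by positivity
    have e1 : h0 * L / 4 ≤ A.card := by linarith
    have e2 : h0 * L / 4 * √(m / 36) ≤ h2 * (X * √L ^ 3) := by
      refine (mul_le_mul_of_nonneg_right e1 (Real.sqrt_nonneg _)).trans (hmain.trans ?_)
      gcongr
    have hsL : √L ^ 2 = L := Real.sq_sqrt hLpos.le
    have hsL0 : 0 < √L := Real.sqrt_pos.2 hLpos
    have e3 : h0 * √(m / 36) ≤ 4 * h2 * X * √L := by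
      have : L * (h0 * √(m / 36)) ≤ L * (4 * h2 * X * √L) := by
        calc L * (h0 * √(m / 36)) = 4 * (h0 * L / 4 * √(m / 36)) := by ring
          _ ≤ 4 * (h2 * (X * √L ^ 3)) := by linarith
          _ = 4 * h2 * X * √L * √L ^ 2 := by ring
          _ = _ := by rw [hsL]; ring
      exact le_of_mul_le_mul_left this hLpos
    have e4 : h0 ^ 2 * (m / 36) ≤ 16 * h2 ^ 2 * X ^ 2 * L := by
      have h5 := pow_le_pow_left₀ (by positivity) e3 2
      have h6 : (h0 * √(m / 36)) ^ 2 = h0 ^ 2 * (m / 36) := by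
        rw [mul_pow, Real.sq_sqrt (by positivity)]
      have h7 : (4 * h2 * X * √L) ^ 2 = 16 * h2 ^ 2 * X ^ 2 * L := by
        rw [mul_pow, hsL]; ring
      linarith
    have e5 : m * h0 ^ 2 ≤ (24 * C) ^ 2 * (h2 ^ 2 * (H : ℝ) ^ 52 * (R' ^ ε) ^ 2 * L) := by
      have : 16 * h2 ^ 2 * X ^ 2 * L * 36 =
          (24 * C) ^ 2 * (h2 ^ 2 * (H : ℝ) ^ 52 * (R' ^ ε) ^ 2 * L) := by
        rw [hX]; ring
      linarith
    have e6 : 0 ≤ h2 ^ 2 * (H : ℝ) ^ 52 * (R' ^ ε) ^ 2 * L := by positivity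
    calc m * h0 ^ 2 ≤ (24 * C) ^ 2 * (h2 ^ 2 * (H : ℝ) ^ 52 * (R' ^ ε) ^ 2 * L) := e5
      _ ≤ ((24 * C) ^ 2 + 10 ^ 9) * (h2 ^ 2 * (H : ℝ) ^ 52 * (R' ^ ε) ^ 2 * L) :=
          mul_le_mul_of_nonneg_right (by linarith) e6
      _ = _ := by ring
  · -- CASE B
    right
    have hBc : (J.card : ℝ) / 2 ≤ B.card := by linarith
    have hBpos : (0 : ℝ) < B.card := by linarith
    -- strips
    set un : (Fin 3 → ℤ) → (ℝ × ℝ) × (ℝ × ℝ) := fun k =>
      if h : Nar k then h.choose else ((0, 0), (1, 0)) with hun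
    have hunit : ∀ k, (un k).2.1 ^ 2 + (un k).2.2 ^ 2 = 1 := by
      intro k
      simp only [hun]
      split_ifs with h
      · exact h.choose_spec.1
      · norm_num
    have hmaj : ∀ k, Nar k → ((FK J K k).card : ℝ) / 2 <
      (((FK J K k).filter fun l =>
        |(c l - (un k).1.1) * (un k).2.1 + (d l - (un k).1.2) * (un k).2.2| ≤ 1 / H).card : ℝ) := by
      intro k h
      have := h.choose_spec.2
      simp only [hun, dif_pos h]
      exact this
    set J1 := B.filter fun x => |(c x.1 - (un (K x)).1.1) * (un (K x)).2.1 +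
      (d x.1 - (un (K x)).1.2) * (un (K x)).2.2| ≤ 1 / H with hJ1d
    have hJ1B : J1 ⊆ B := filter_subset _ _
    have hBJ : B ⊆ J := filter_subset _ _
    -- size of J1
    have hJ1c : h1 / 36 * (B.card : ℝ) ≤ 2 * h2 * J1.card := by
      have s1 : B.card = ∑ k ∈ B.image K, (B.filter fun y => K y = k).card :=
        card_eq_sum_card_image K B
      have s2 : ∑ k ∈ B.image K, (J1.filter fun y => K y = k).card ≤ J1.card := by
        have s3 : J1.card = ∑ k ∈ J1.image K, (J1.filter fun y => K y = k).card :=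
          card_eq_sum_card_image K J1
        have s4 : ∑ k ∈ B.image K, (J1.filter fun y => K y = k).card =
            ∑ k ∈ J1.image K, (J1.filter fun y => K y = k).card := by
          symm
          refine sum_subset (image_subset_image hJ1B) ?_
          intro k _ hk
          rw [card_eq_zero, filter_eq_empty_iff]
          intro y hy he
          exact hk (mem_image.2 ⟨y, hy, he⟩)
        rw [s4, ← s3]
      have s5 : ∀ k ∈ B.image K, h1 / 36 * ((B.filter fun y => K y = k).card : ℝ) ≤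
          2 * h2 * ((J1.filter fun y => K y = k).card : ℝ) := by
        intro k hk
        obtain ⟨x, hx, rfl⟩ := mem_image.1 hk
        have hNx : Nar (K x) := by rw [hB, mem_filter] at hx; exact hx.2
        have t1 : ((B.filter fun y => K y = K x).card : ℝ) ≤ h2 * ((FK J K (K x)).card : ℝ) := by
          refine le_trans ?_ (inc_le_FK a b c d R hw2J (K x))
          exact_mod_cast card_le_card (filter_subset_filter _ hBJ)
        have t2 := hmaj (K x) hNx
        have t3 : h1 / 36 * (((FK J K (K x)).filter fun l =>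
            |(c l - (un (K x)).1.1) * (un (K x)).2.1 +
              (d l - (un (K x)).1.2) * (un (K x)).2.2| ≤ 1 / H).card : ℝ) ≤
            ((J1.filter fun y => K y = K x).card : ℝ) := by
          have t4 : ((FK J K (K x)).filter fun l =>
            |(c l - (un (K x)).1.1) * (un (K x)).2.1 +
              (d l - (un (K x)).1.2) * (un (K x)).2.2| ≤ 1 / H) ⊆
              (J1.filter fun y => K y = K x).image Prod.fst := by
            intro l hl
            rw [mem_filter] at hl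
            obtain ⟨y, hy, hyK, rfl⟩ := mem_FK.1 hl.1
            rw [mem_image]
            refine ⟨y, ?_, rfl⟩
            rw [mem_filter, hJ1d, mem_filter, hB, mem_filter]
            refine ⟨⟨⟨hy, ?_⟩, ?_⟩, hyK⟩
            · rw [hyK]; exact hNx
            · rw [hyK]; exact hl.2
          have t5 : h1 / 36 * (((J1.filter fun y => K y = K x).image Prod.fst).card : ℝ) ≤
              ((J1.filter fun y => K y = K x).card : ℝ) := by
            refine mul_image_le_card _ _ fun y hy => ?_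
            rw [mem_filter] at hy
            have hyJ : y ∈ J := hBJ (hJ1B hy.1)
            refine (hJ2 y hyJ).trans ?_
            have : (J.filter fun z => (z.1, K z) = (y.1, K y)) ⊆
                (J1.filter fun z => K z = K x).filter fun z => z.1 = y.1 := by
              intro z hz
              rw [mem_filter, Prod.mk.injEq] at hz
              obtain ⟨hz1, hz2, hz3⟩ := hz
              rw [mem_filter, mem_filter, hJ1d, mem_filter, hB, mem_filter]
              have hy' := hy.1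
              rw [hJ1d, mem_filter, hB, mem_filter] at hy'
              refine ⟨⟨⟨⟨hz1, ?_⟩, ?_⟩, hz3.trans hy.2⟩, hz2⟩
              · rw [hz3]; exact hy'.1.2
              · rw [hz3, hz2]; exact hy'.2
            exact_mod_cast card_le_card this
          have t6 : (((FK J K (K x)).filter fun l =>
            |(c l - (un (K x)).1.1) * (un (K x)).2.1 +
              (d l - (un (K x)).1.2) * (un (K x)).2.2| ≤ 1 / H).card : ℝ) ≤
              (((J1.filter fun y => K y = K x).image Prod.fst).card : ℝ) := by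
            exact_mod_cast card_le_card t4
          exact (mul_le_mul_of_nonneg_left t6 (by positivity)).trans t5
        calc h1 / 36 * ((B.filter fun y => K y = K x).card : ℝ) ≤
            h1 / 36 * (h2 * ((FK J K (K x)).card : ℝ)) :=
              mul_le_mul_of_nonneg_left t1 (by positivity)
          _ = 2 * h2 * (h1 / 36 * (((FK J K (K x)).card : ℝ) / 2)) := by ring
          _ ≤ 2 * h2 * (h1 / 36 * (((FK J K (K x)).filter fun l =>
            |(c l - (un (K x)).1.1) * (un (K x)).2.1 +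
              (d l - (un (K x)).1.2) * (un (K x)).2.2| ≤ 1 / H).card : ℝ)) := by
              gcongr
          _ ≤ _ := mul_le_mul_of_nonneg_left t3 (by positivity)
      calc h1 / 36 * (B.card : ℝ) = ∑ k ∈ B.image K, h1 / 36 * ((B.filter fun y => K y = k).card : ℝ) := by
            rw [s1]; push_cast; rw [mul_sum]
        _ ≤ ∑ k ∈ B.image K, 2 * h2 * ((J1.filter fun y => K y = k).card : ℝ) := sum_le_sum s5
        _ = 2 * h2 * ((∑ k ∈ B.image K, (J1.filter fun y => K y = k).card : ℕ) : ℝ) := by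
            push_cast; rw [mul_sum]
        _ ≤ 2 * h2 * J1.card := by
            have : ((∑ k ∈ B.image K, (J1.filter fun y => K y = k).card : ℕ) : ℝ) ≤ J1.card := by
              exact_mod_cast s2
            exact mul_le_mul_of_nonneg_left this (by positivity)
    -- second pruning
    set lam : ℝ := h1 / (288 * h2) with hlam
    have hlam0 : 0 < lam := by positivity
    have hJ1I : lam * I.card ≤ J1.card := by
      have e1 : (I.card : ℝ) ≤ 4 * B.card := by linarith
      have e2 : h1 / 36 * (I.card : ℝ) ≤ 8 * h2 * J1.card := by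
        calc h1 / 36 * (I.card : ℝ) ≤ h1 / 36 * (4 * B.card) := by gcongr
          _ = 4 * (h1 / 36 * B.card) := by ring
          _ ≤ 4 * (2 * h2 * J1.card) := by linarith
          _ = _ := by ring
      have e3 : lam * (I.card : ℝ) * (8 * h2) = h1 / 36 * I.card := by
        rw [hlam]; field_simp; norm_num
      have e4 : lam * (I.card : ℝ) * (8 * h2) ≤ J1.card * (8 * h2) := by
        rw [e3]; linarith
      exact le_of_mul_le_mul_right e4 (by positivity)
    have hJ1II : J1 ⊆ I := hJ1B.trans (hBJ.trans hJI)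
    obtain ⟨J3, hJ31, hJ3c, hJ3a, hJ3b⟩ := prune2 J1 cl (fun x => (x.1, K x))
      (μ := lam * m / 36) (ν := lam * h1 / 36) (by positivity) (by positivity) (by
        have e1 : ((J1.image cl).card : ℝ) ≤ ((I.image cl).card : ℝ) := by
          exact_mod_cast card_le_card (image_subset_image hJ1II)
        have e2 : ((J1.image fun x => (x.1, K x)).card : ℝ) ≤
            ((I.image fun x => (x.1, K x)).card : ℝ) := by
          exact_mod_cast card_le_card (image_subset_image hJ1II)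
        calc lam * m / 36 * ((J1.image cl).card : ℝ) +
              lam * h1 / 36 * ((J1.image fun x => (x.1, K x)).card : ℝ) ≤
            lam * m / 36 * ((I.image cl).card : ℝ) +
              lam * h1 / 36 * ((I.image fun x => (x.1, K x)).card : ℝ) := by gcongr
          _ = lam / 36 * (m * ((I.image cl).card : ℝ)) +
              lam / 36 * (h1 * ((I.image fun x => (x.1, K x)).card : ℝ)) := by ring
          _ ≤ lam / 36 * (9 * I.card) + lam / 36 * (9 * I.card) := by gcongr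
          _ = lam * I.card / 2 := by ring
          _ ≤ J1.card / 2 := by linarith)
    have hJ1pos : (0 : ℝ) < J1.card := lt_of_lt_of_le (by positivity) hJ1I
    have hJ3n : J3.Nonempty := by
      rw [← card_pos]
      have : (0 : ℝ) < J3.card := by linarith
      exact_mod_cast this
    rcases le_or_gt NT (lam * m / 36 / 2) with hNT | hNT
    · left
      have hmain := pairs_count a b c d R hH hR hT I J3 (hJ31.trans hJ1II) hJ3n
        (θ := lam * m / 36) (θ' := lam * h1 / 36) (NS := NS) (NT := NT) (by positivity)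
        (by positivity) (fun x hx => ⟨(hbd x hx).2.2.2.1, (hbd x hx).2.2.2.2⟩)
        (fun k => (un k).1) (fun k => (un k).2) hunit
        (fun x hx => by
          have := hJ31 hx
          rw [hJ1d, mem_filter] at this
          exact this.2) hJ3a hJ3b hslab htube hNT
      have hNS : 0 ≤ NS := by
        obtain ⟨x, hx⟩ := hI
        exact le_trans (Nat.cast_nonneg _) (hslab x hx (1, 0) (by norm_num))
      have e1 : 2 * (2 * T + 1) * NS ≤ 6 * T * NS := by nlinarith
      have e2 : lam * m / 36 * (lam * h1 / 36) * (107495424 * h2 ^ 2) = m * h1 ^ 3 := by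
        rw [hlam]; field_simp; norm_num
      have e3 : m * h1 ^ 3 ≤ 6 * T * NS * (107495424 * h2 ^ 2) := by
        rw [← e2]
        exact mul_le_mul_of_nonneg_right (hmain.trans e1) (by positivity)
      have e4 : 0 ≤ h2 ^ 2 * T * NS := by positivity
      calc m * h1 ^ 3 ≤ 644972544 * (h2 ^ 2 * T * NS) := by linarith
        _ ≤ ((24 * C) ^ 2 + 10 ^ 9) * (h2 ^ 2 * T * NS) := by
            refine mul_le_mul_of_nonneg_right ?_ e4
            nlinarith [sq_nonneg (24 * C)]
        _ = _ := by ring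
    · right
      have hNT0 : 0 < NT := lt_trans (by positivity) hNT
      have e2 : lam * m / 36 / 2 * (20736 * h2) = m * h1 := by
        rw [hlam]; field_simp; norm_num
      have e3 : m * h1 ≤ NT * (20736 * h2) := by
        rw [← e2]
        exact mul_le_mul_of_nonneg_right hNT.le (by positivity)
      have e4 : 0 ≤ h2 * NT := by positivity
      calc m * h1 ≤ 20736 * (h2 * NT) := by linarith
        _ ≤ ((24 * C) ^ 2 + 10 ^ 9) * (h2 * NT) := by
            refine mul_le_mul_of_nonneg_right ?_ e4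
            nlinarith [sq_nonneg (24 * C)]
        _ = _ := by ring

end Crest.Agent.R138.LmA861
end

-- ▼ part R138/LmA4_861

/-!
# R138, LEMMA A, exponent form (helper861)

`lemmaA_exp`: for `2 s < c` there are `η, τ, ε₀ > 0` such that, for large `R = e^ℓ`, no configuration in
the normalised cube has own profile `1 - s`, D-max `c` for slabs and tubes, and rich balls.
-/

set_option autoImplicit false
set_option linter.unusedVariables false
set_option linter.unusedSectionVars false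

namespace Crest.Agent.R138.LmA861

open Finset Crest.Agent.R138.MK877 Crest.Agent.R138.Ex926

theorem lemmaA_exp {s c' : ℝ} (hs : 0 ≤ s) (hs1 : s ≤ 1) (hsc : 2 * s < c') :
    ∃ η τ ε₀ ℓ₀ : ℝ, 0 < η ∧ η < 1 ∧ 0 < τ ∧ τ < 1 ∧ 0 < ε₀ ∧ 0 < ℓ₀ ∧
    ∀ {ι : Type} [DecidableEq ι] (I : Finset (ι × ℤ)) (a b c d : ι → ℝ) (H : ℕ)
      (R ℓ n₀ h t : ℝ), I.Nonempty → 0 < H → ℓ₀ ≤ ℓ → R = Real.exp ℓ → (H : ℝ) = Real.exp h →
      η / 2 * ℓ ≤ h → h ≤ η * ℓ → τ / 2 * ℓ ≤ t → t ≤ τ * ℓ →
      (∀ x ∈ I, |(x.2 : ℝ)| ≤ R ∧ |pos a c R x.1 x.2| ≤ 1 ∧ |pos b d R x.1 x.2| ≤ 1 ∧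
        |c x.1| ≤ 1 ∧ |d x.1| ≤ 1) →
      (∀ x ∈ I, Real.exp ((1 - s) * ℓ - ε₀ * ℓ) ≤ ((I.filter fun y => y.1 = x.1).card : ℝ)) →
      (∀ x ∈ I, Real.exp ((1 - s) * h - ε₀ * ℓ) ≤
        ((I.filter fun y => y.1 = x.1 ∧ y.2 / (H : ℤ) = x.2 / (H : ℤ)).card : ℝ)) →
      (∀ x ∈ I, ((I.filter fun y => y.1 = x.1 ∧ y.2 / (H : ℤ) = x.2 / (H : ℤ)).card : ℝ) ≤
        Real.exp ((1 - s) * h + ε₀ * ℓ)) →
      (∀ x ∈ I, Real.exp (n₀ - (2 - c') * ℓ - ε₀ * ℓ) ≤ ((Ball I a b c d R x).card : ℝ)) →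
      (∀ x ∈ I, ∀ n : ℝ × ℝ, n.1 ^ 2 + n.2 ^ 2 = 1 →
        (((Slab I a b c d H R n x).image Prod.fst).card : ℝ) ≤
          Real.exp (n₀ - (2 - c') * (ℓ - h) - h + ε₀ * ℓ)) →
      (∀ x ∈ I, ((Tube I a b c d R (Real.exp t) x).card : ℝ) ≤
        Real.exp (n₀ - (2 - c') * ℓ - c' * t + ε₀ * ℓ)) →
      ((I.image Prod.fst).card : ℝ) ≤ Real.exp (n₀ + ε₀ * ℓ) → False := by
  set γ : ℝ := min (c' - 2 * s) 1 with hγ
  have hγ0 : 0 < γ := lt_min (by linarith) one_pos
  have hγ1 : γ ≤ 1 := min_le_right _ _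
  have hγg : γ ≤ c' - 2 * s := min_le_left _ _
  obtain ⟨C, hC, key⟩ := lemmaA (γ / 16) (by positivity)
  set η : ℝ := γ / 216 with hη
  set τ : ℝ := η * γ / 8 with hτ
  set ε₀ : ℝ := τ * γ / 16 with hε₀
  have hη0 : 0 < η := by positivity
  have hτ0 : 0 < τ := by positivity
  have hε0 : 0 < ε₀ := by positivity
  have hη1 : η ≤ 1 / 216 := by rw [hη]; linarith
  have hτη : τ ≤ η / 8 := by
    rw [hτ]; nlinarith
  have hε1 : ε₀ ≤ τ / 16 := by
    rw [hε₀]; nlinarith
  refine ⟨η, τ, ε₀, (Real.log C ⊔ 0) / ε₀ + 1, hη0, by linarith, hτ0, by linarith, hε0,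
    by positivity, ?_⟩
  intro ι _ I a b c d H R ℓ n₀ h t hI hH hℓ hR hHh hh1 hh2 ht1 ht2 hbd hown hw1 hw2 hrich hslab
    htube hL
  have hℓ0 : 0 < ℓ := lt_of_lt_of_le (by positivity) hℓ
  have hCℓ : Real.log C < ε₀ * ℓ := by
    have h1 : (Real.log C ⊔ 0) / ε₀ < ℓ := by linarith
    rw [div_lt_iff₀ hε0] at h1
    have := le_max_left (Real.log C) 0
    linarith
  have hCexp : C < Real.exp (ε₀ * ℓ) := by
    rw [← Real.log_lt_iff_lt_exp hC]; exact hCℓ
  have hhℓ : h ≤ ℓ := by nlinarith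
  have hR' : (1 : ℝ) ≤ Real.exp (ℓ - h) := Real.one_le_exp (by linarith)
  have hRR : R = H * Real.exp (ℓ - h) := by
    rw [hR, hHh, ← Real.exp_add]; congr 1; ring
  have ht0 : 0 ≤ t := le_trans (by positivity) ht1
  have hT : (1 : ℝ) ≤ Real.exp t := Real.one_le_exp ht0
  rcases key I a b c d H (Real.exp (ℓ - h)) R (Real.exp t) _ _ _ _ _ _ hI hH hR' hRR hT
    (Real.exp_pos _) (Real.exp_pos _) (Real.exp_pos _) hbd hown hw1 hw2 hrich hslab htube with
    hA | hB | hC'
  · -- (A)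
    have e1 : (H : ℝ) ^ 52 = Real.exp (52 * h) := by
      rw [hHh, ← Real.exp_nat_mul]; norm_num
    have e2 : (Real.exp (ℓ - h) ^ (γ / 16)) ^ 2 = Real.exp (2 * ((ℓ - h) * (γ / 16))) := by
      rw [← Real.exp_mul, ← Real.exp_nat_mul]; norm_num
    rw [e1, e2] at hA
    have e3 : Real.exp (n₀ - (2 - c') * ℓ - ε₀ * ℓ) * Real.exp ((1 - s) * ℓ - ε₀ * ℓ) ^ 2 ≤
        Real.exp (ε₀ * ℓ) * Real.exp ((1 - s) * h + ε₀ * ℓ) ^ 2 * Real.exp (52 * h) *
          Real.exp (2 * ((ℓ - h) * (γ / 16))) * Real.exp (n₀ + ε₀ * ℓ) := by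
      refine hA.trans ?_
      gcongr
    have e4 : Real.exp (n₀ - (2 - c') * ℓ - ε₀ * ℓ) * Real.exp ((1 - s) * ℓ - ε₀ * ℓ) ^ 2 =
        Real.exp (n₀ - (2 - c') * ℓ - ε₀ * ℓ + 2 * ((1 - s) * ℓ - ε₀ * ℓ)) := by
      rw [← Real.exp_nat_mul, ← Real.exp_add]; norm_num
    have e5 : Real.exp (ε₀ * ℓ) * Real.exp ((1 - s) * h + ε₀ * ℓ) ^ 2 * Real.exp (52 * h) *
          Real.exp (2 * ((ℓ - h) * (γ / 16))) * Real.exp (n₀ + ε₀ * ℓ) =
        Real.exp (ε₀ * ℓ + 2 * ((1 - s) * h + ε₀ * ℓ) + 52 * h + 2 * ((ℓ - h) * (γ / 16)) +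
          (n₀ + ε₀ * ℓ)) := by
      rw [← Real.exp_nat_mul, ← Real.exp_add, ← Real.exp_add, ← Real.exp_add, ← Real.exp_add]
      norm_num
    rw [e4, e5, Real.exp_le_exp] at e3
    have h1 : γ * ℓ ≤ (c' - 2 * s) * ℓ := mul_le_mul_of_nonneg_right hγg hℓ0.le
    have h2 : h ≤ γ / 216 * ℓ := hh2
    have h3 : ε₀ * ℓ ≤ γ / 216 / 8 / 16 * ℓ := by
      refine mul_le_mul_of_nonneg_right ?_ hℓ0.le
      linarith
    have h4 : (ℓ - h) * (γ / 16) ≤ ℓ * (γ / 16) := by
      refine mul_le_mul_of_nonneg_right ?_ (by positivity)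
      have : 0 ≤ h := le_trans (by positivity) hh1
      linarith
    have h5 : (1 - s) * h ≤ h := by
      have : 0 ≤ h := le_trans (by positivity) hh1
      nlinarith
    have h6 : 0 < γ * ℓ := by positivity
    nlinarith
  · -- (B)
    have e3 : Real.exp (n₀ - (2 - c') * ℓ - ε₀ * ℓ) * Real.exp ((1 - s) * h - ε₀ * ℓ) ^ 3 ≤
        Real.exp (ε₀ * ℓ) * Real.exp ((1 - s) * h + ε₀ * ℓ) ^ 2 * Real.exp t *
          Real.exp (n₀ - (2 - c') * (ℓ - h) - h + ε₀ * ℓ) := by
      refine hB.trans ?_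
      gcongr
    have e4 : Real.exp (n₀ - (2 - c') * ℓ - ε₀ * ℓ) * Real.exp ((1 - s) * h - ε₀ * ℓ) ^ 3 =
        Real.exp (n₀ - (2 - c') * ℓ - ε₀ * ℓ + 3 * ((1 - s) * h - ε₀ * ℓ)) := by
      rw [← Real.exp_nat_mul, ← Real.exp_add]; norm_num
    have e5 : Real.exp (ε₀ * ℓ) * Real.exp ((1 - s) * h + ε₀ * ℓ) ^ 2 * Real.exp t *
          Real.exp (n₀ - (2 - c') * (ℓ - h) - h + ε₀ * ℓ) =
        Real.exp (ε₀ * ℓ + 2 * ((1 - s) * h + ε₀ * ℓ) + t +
          (n₀ - (2 - c') * (ℓ - h) - h + ε₀ * ℓ)) := by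
      rw [← Real.exp_nat_mul, ← Real.exp_add, ← Real.exp_add, ← Real.exp_add]
      norm_num
    rw [e4, e5, Real.exp_le_exp] at e3
    -- (c' - s) h ≤ t + 8 ε₀ ℓ
    have h0 : 0 ≤ h := le_trans (by positivity) hh1
    have h1 : (c' - s) * h ≤ t + 8 * (ε₀ * ℓ) := by nlinarith
    have h2 : γ * h ≤ (c' - s) * h := mul_le_mul_of_nonneg_right (by linarith) h0
    have h3 : γ * (η / 2 * ℓ) ≤ γ * h := mul_le_mul_of_nonneg_left hh1 hγ0.le
    have h4 : γ * (η / 2 * ℓ) = 4 * (τ * ℓ) := by rw [hτ]; ring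
    have h5 : ε₀ * ℓ ≤ τ / 16 * ℓ := mul_le_mul_of_nonneg_right hε1 hℓ0.le
    have h6 : 0 < τ * ℓ := by positivity
    linarith
  · -- (C)
    have e3 : Real.exp (n₀ - (2 - c') * ℓ - ε₀ * ℓ) * Real.exp ((1 - s) * h - ε₀ * ℓ) ≤
        Real.exp (ε₀ * ℓ) * Real.exp ((1 - s) * h + ε₀ * ℓ) *
          Real.exp (n₀ - (2 - c') * ℓ - c' * t + ε₀ * ℓ) := by
      refine hC'.trans ?_
      gcongr
    rw [← Real.exp_add, ← Real.exp_add, ← Real.exp_add, Real.exp_le_exp] at e3
    have h1 : c' * t ≤ 5 * (ε₀ * ℓ) := by linarith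
    have h2 : γ * t ≤ c' * t := mul_le_mul_of_nonneg_right (by linarith) ht0
    have h3 : γ * (τ / 2 * ℓ) ≤ γ * t := mul_le_mul_of_nonneg_left ht1 hγ0.le
    have h4 : γ * (τ / 2 * ℓ) = 8 * (ε₀ * ℓ) := by rw [hε₀]; ring
    have h6 : 0 < ε₀ * ℓ := by positivity
    linarith

end Crest.Agent.R138.LmA861
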