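import Crest.Agent.R138.TiltU_51_Mg
import Crest.Agent.R138.MkRef_774
import Crest.Agent.R138.LmA4_861
import Crest.Agent.R138.KDef_294
import Crest.Agent.R138.MkDef_163
import Mathlib
import Crest.Agent.R138.LmAU_829
import Crest.Agent.R138.LmAN_57
import Crest.Agent.R138.ArgM2_163

-- ▼ part R138/Nat5K_163
section

/-!
# R138, TEXT I (helper163): L14 with the landed leaves plugged in

`refine_mk` (774), `zoom` (779), `tilts` (51) are theorems; the remaining inputs of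
"marked extremal sequence ⟹ natural marks" are L13 (`HExRot`) and L12 (`HRot`).
-/

set_option autoImplicit false
set_option linter.unusedVariables false

open Finset Filter Topology

open Crest.Agent.R138.Ex926 (Base U)
open Crest.Agent.R138.Flag51 (Ln E2 cr dt InPlank)
open Crest.Agent.R138.Mk163

namespace Crest.Agent.R138.ArgM163

theorem hRef : HRef := fun B I L lev r0 A q g Λ τ f b e w1 w2 =>
  MkRef774.refine_mk B I L lev r0 A q g Λ τ f b e w1 w2

theorem hZoom : HZoom := fun B I L lev r0 A q g Λ τ f b e w1 w2 =>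
  MkZoom779.zoom

theorem hTilt (q g : ℝ) : HTilt q g (TiltU51.Cq q) := fun B I L lev r0 A Λ τ f b e w1 w2 h =>
  (TiltU51.tilts h).2

theorem hCrude (q g : ℝ) : HCrude q g (TiltU51.Cq q) := fun B I L lev r0 A Λ τ f b e w1 w2 h =>
  (TiltU51.tilts h).1

/-- natural marks, modulo L12 and L13 -/
theorem exists_nat5' (hEx : HExRot) {q g : ℝ}
    (hA : ∀ s : ℝ, 0 ≤ s → s ≤ 1 → ∃ k0 : ℝ, 0 < k0 ∧ HRot q g s k0)
    {B : Base} {I : ℕ → Finset (ℕ × ℝ)} {L : ℕ → ℕ → Ln} {lev : ℕ → ℚ → ℕ}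
    {r0 A : ℕ → ℝ} {Λ τ : ℝ → ℝ} {f : ℕ → ℚ → ℕ → ℤ → ℕ} {b : ℕ → ℚ → ℕ → Ln}
    {e : ℕ → ℚ → ℕ → E2} {w1 w2 : ℕ → ℚ → ℝ}
    (h : Mk B I L lev r0 A q g Λ τ f b e w1 w2) {κ : ℝ} (hκ : 0 < κ)
    (hτ : ∀ u v : ℚ, 0 ≤ u → u ≤ v → v ≤ 1 → κ * ((v : ℝ) - u) ≤ τ u - τ v) :
    ∃ (B' : Base) (I' : ℕ → Finset (ℕ × ℝ)) (lev' : ℕ → ℚ → ℕ) (A' : ℕ → ℝ)
      (f' : ℕ → ℚ → ℕ → ℤ → ℕ) (b' : ℕ → ℚ → ℕ → Ln) (e' : ℕ → ℚ → ℕ → E2)
      (w1' w2' : ℕ → ℚ → ℝ) (fl : ℕ → ℕ × ℝ → E2) (sc : ℕ → ℝ) (k s θ : ℝ),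
      κ ≤ θ ∧ 0 ≤ s ∧ s ≤ 1 ∧ Nat5 B' I' L lev' r0 A' q g f' b' e' w1' w2' fl sc k s θ := by
  have hq := h.q0
  have hC : 0 ≤ TiltU51.Cq q := by
    unfold TiltU51.Cq
    positivity
  exact exists_nat5 hRef hZoom hEx (hTilt q g) (hCrude q g) hA hC hC h hκ hτ

end Crest.Agent.R138.ArgM163
end

-- ▼ part R138/LmA5_861
section

/-!
# R138, LEMMA A over one box (helper861), part 1: a normalised slab lies in one honest rectangle
-/

set_option autoImplicit false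
set_option linter.unusedVariables false
set_option linter.unusedSectionVars false

namespace Crest.Agent.R138.LmA861

open Finset
open Crest.Agent.R138.Flag51 (Ln E2 cr dt InPlank)

/-- rotated frame `α E + β rot E` -/
noncomputable def mkf (E : E2) (α β : ℝ) : E2 := !₂[α * E 0 - β * E 1, α * E 1 + β * E 0]

theorem dt_mkf (E D : E2) (α β : ℝ) : dt D (mkf E α β) = α * dt D E + β * cr E D := by
  simp [mkf, dt, cr]; ring

theorem cr_mkf (E D : E2) (α β : ℝ) : cr (mkf E α β) D = α * cr E D - β * dt D E := by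
  simp [mkf, dt, cr]; ring

theorem mkf_unit {E : E2} (hE : dt E E = 1) {α β : ℝ} (h : α ^ 2 + β ^ 2 = 1) :
    dt (mkf E α β) (mkf E α β) = 1 := by
  have : dt (mkf E α β) (mkf E α β) = (α ^ 2 + β ^ 2) * dt E E := by
    simp [mkf, dt]; ring
  rw [this, h, hE, one_mul]

/-- a slab in normalised coordinates lies in one honest rectangle. -/
theorem rect {E : E2} (hE : dt E E = 1) {A B δ : ℝ} (hB : 0 < B) (hBA : B ≤ A) (hδ : 0 < δ)
    (hδ2 : δ ≤ 2) {n1 n2 : ℝ} (hn : n1 ^ 2 + n2 ^ 2 = 1) :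
    ∃ (e' : E2) (a1 a2 : ℝ), dt e' e' = 1 ∧ B * δ / 2 ≤ a1 ∧ a1 ≤ a2 ∧ a2 ≤ 8 * A ∧
      a1 * a2 ≤ 8 * δ * A * B ∧
      ∀ D : E2, |cr E D| ≤ A → |dt D E| ≤ B → |n1 * (cr E D / A) + n2 * (dt D E / B)| ≤ δ →
        |dt D e'| ≤ a1 ∧ |cr e' D| ≤ a2 := by
  have hA : 0 < A := lt_of_lt_of_le hB hBA
  have hδA : 0 < δ * A := mul_pos hδ hA
  have hδB : 0 < δ * B := mul_pos hδ hB
  have hδAB : 0 < δ * A * B := mul_pos hδA hB
  have hδBA : δ * B ≤ δ * A := mul_le_mul_of_nonneg_left hBA hδ.le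
  have hδ2B : δ * B ≤ 2 * B := mul_le_mul_of_nonneg_right hδ2 hB.le
  have hδ2A : δ * A ≤ 2 * A := mul_le_mul_of_nonneg_right hδ2 hA.le
  -- the frame along the normal
  set mC : ℝ := n1 / A with hmC
  set mP : ℝ := n2 / B with hmP
  have hm2 : 0 < mC ^ 2 + mP ^ 2 := by
    rcases eq_or_ne n2 0 with h | h
    · have h1 : n1 ≠ 0 := by
        rintro h1; rw [h, h1] at hn; norm_num at hn
      have : mC ≠ 0 := div_ne_zero h1 hA.ne'
      positivity
    · have : mP ≠ 0 := div_ne_zero h hB.ne'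
      positivity
  set r : ℝ := √(mC ^ 2 + mP ^ 2) with hr
  have hr0 : 0 < r := Real.sqrt_pos.2 hm2
  have hr2 : r ^ 2 = mC ^ 2 + mP ^ 2 := Real.sq_sqrt hm2.le
  have hunit : (mP / r) ^ 2 + (mC / r) ^ 2 = 1 := by
    have e1 : (mP / r) ^ 2 + (mC / r) ^ 2 = (mC ^ 2 + mP ^ 2) / r ^ 2 := by
      rw [div_pow mP, div_pow mC, ← add_div, add_comm]
    rw [e1, ← hr2]
    exact div_self (by positivity)
  have hα : |mP / r| ≤ 1 := by
    rw [← sq_le_one_iff_abs_le_one]; nlinarith [sq_nonneg (mC / r)]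
  have hβ : |mC / r| ≤ 1 := by
    rw [← sq_le_one_iff_abs_le_one]; nlinarith [sq_nonneg (mP / r)]
  have hrP : |mP| ≤ r := by
    rw [div_eq_mul_inv, abs_mul, abs_of_pos (inv_pos.2 hr0), ← div_eq_mul_inv, div_le_one hr0] at hα
    exact hα
  have hrC : |mC| ≤ r := by
    rw [div_eq_mul_inv, abs_mul, abs_of_pos (inv_pos.2 hr0), ← div_eq_mul_inv, div_le_one hr0] at hβ
    exact hβ
  have hthin : ∀ D : E2, |n1 * (cr E D / A) + n2 * (dt D E / B)| ≤ δ →
      |dt D (mkf E (mP / r) (mC / r))| ≤ δ / r := by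
    intro D hD
    have e1 : dt D (mkf E (mP / r) (mC / r)) = (n1 * (cr E D / A) + n2 * (dt D E / B)) / r := by
      rw [dt_mkf, hmC, hmP]; field_simp; ring
    rw [e1, abs_div, abs_of_pos hr0]
    gcongr
  by_cases h1 : 1 / 2 ≤ |n2|
  · -- case 1
    have hrl : 1 / (2 * B) ≤ r := by
      refine le_trans ?_ hrP
      rw [hmP, abs_div, abs_of_pos hB, div_le_div_iff₀ (by positivity) hB]
      nlinarith
    refine ⟨mkf E (mP / r) (mC / r), 2 * δ * B, 4 * A, mkf_unit hE hunit, by linarith,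
      by linarith, by linarith, by linarith, ?_⟩
    intro D hC hP hn'
    refine ⟨(hthin D hn').trans ?_, ?_⟩
    · rw [div_le_iff₀ hr0]
      have : 1 ≤ r * (2 * B) := by
        rw [div_le_iff₀ (by positivity)] at hrl; exact hrl
      nlinarith
    · rw [cr_mkf]
      refine (abs_sub _ _).trans ?_
      rw [abs_mul, abs_mul]
      have e1 : |mP / r| * |cr E D| ≤ 1 * A := mul_le_mul hα hC (abs_nonneg _) zero_le_one
      have e2 : |mC / r| * |dt D E| ≤ 1 * B := mul_le_mul hβ hP (abs_nonneg _) zero_le_one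
      linarith
  · rw [not_le] at h1
    have hn1 : 1 / 2 ≤ |n1| := by
      by_contra hcon
      rw [not_le] at hcon
      have a1 : n1 ^ 2 < 1 / 4 := by rw [← sq_abs]; nlinarith [abs_nonneg n1]
      have a2 : n2 ^ 2 < 1 / 4 := by rw [← sq_abs]; nlinarith [abs_nonneg n2]
      linarith
    have hn10 : 0 < |n1| := by linarith
    -- bound for the lateral coordinate
    have hlat : ∀ D : E2, |dt D E| ≤ B → |n1 * (cr E D / A) + n2 * (dt D E / B)| ≤ δ →
        |n1| * |cr E D| ≤ (|n2| + δ) * A := by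
      intro D hP hn'
      have e1 : n1 * cr E D = A * ((n1 * (cr E D / A) + n2 * (dt D E / B)) -
          n2 * (dt D E / B)) := by field_simp; ring
      have e2 : |dt D E / B| ≤ 1 := by rw [abs_div, abs_of_pos hB, div_le_one hB]; exact hP
      rw [← abs_mul, e1, abs_mul, abs_of_pos hA]
      have e3 : |(n1 * (cr E D / A) + n2 * (dt D E / B)) - n2 * (dt D E / B)| ≤ δ + |n2| * 1 := by
        refine (abs_sub _ _).trans (add_le_add hn' ?_)
        rw [abs_mul]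
        exact mul_le_mul_of_nonneg_left e2 (abs_nonneg _)
      nlinarith
    by_cases h2 : |n2| ≤ δ
    · -- case 2a
      have hC4 : ∀ D : E2, |dt D E| ≤ B → |n1 * (cr E D / A) + n2 * (dt D E / B)| ≤ δ →
          |cr E D| ≤ 4 * δ * A := by
        intro D hP hn'
        have e1 := hlat D hP hn'
        have e2 : (1 / 2) * |cr E D| ≤ |n1| * |cr E D| :=
          mul_le_mul_of_nonneg_right hn1 (abs_nonneg _)
        nlinarith
      rcases le_total B (4 * δ * A) with h3 | h3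
      · refine ⟨E, B, 4 * δ * A, hE, by linarith, h3, by linarith, by linarith, ?_⟩
        intro D hC hP hn'
        exact ⟨hP, hC4 D hP hn'⟩
      · refine ⟨mkf E 0 1, 4 * δ * A, B, mkf_unit hE (by norm_num), by linarith, h3,
          by linarith, by linarith, ?_⟩
        intro D hC hP hn'
        rw [dt_mkf, cr_mkf]
        simp only [zero_mul, one_mul, zero_add, zero_sub, abs_neg]
        exact ⟨hC4 D hP hn', hP⟩
    · rw [not_le] at h2
      have hn20 : 0 < |n2| := lt_trans hδ h2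
      by_cases h3 : |n1| * B ≤ |n2| * A
      · -- case 2b
        have hB2 : B ≤ 2 * |n2| * A := by nlinarith
        have hrl : |n2| / B ≤ r := by
          refine le_trans (le_of_eq ?_) hrP
          rw [hmP, abs_div, abs_of_pos hB]
        refine ⟨mkf E (mP / r) (mC / r), δ * B / |n2|, 6 * |n2| * A, mkf_unit hE hunit, ?_, ?_,
          by nlinarith, ?_, ?_⟩
        · rw [le_div_iff₀ hn20]; nlinarith [mul_pos hB hδ]
        · rw [div_le_iff₀ hn20]
          have e1 : δ * B ≤ |n2| * (2 * |n2| * A) := by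
            exact mul_le_mul h2.le hB2 hB.le hn20.le
          nlinarith [mul_pos hn20 (mul_pos hn20 hA)]
        · rw [div_mul_eq_mul_div, div_le_iff₀ hn20]
          nlinarith [mul_pos (mul_pos hδ hB) (mul_pos hn20 hA)]
        · intro D hC hP hn'
          refine ⟨(hthin D hn').trans ?_, ?_⟩
          · rw [div_le_div_iff₀ hr0 hn20]
            have : |n2| ≤ r * B := by rw [div_le_iff₀ hB] at hrl; exact hrl
            nlinarith
          · rw [cr_mkf]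
            refine (abs_sub _ _).trans ?_
            rw [abs_mul, abs_mul]
            have e0 : |cr E D| ≤ 4 * |n2| * A := by
              have e1 := hlat D hP hn'
              have e2 : (1 / 2) * |cr E D| ≤ |n1| * |cr E D| :=
                mul_le_mul_of_nonneg_right hn1 (abs_nonneg _)
              nlinarith
            have e1 : |mP / r| * |cr E D| ≤ 1 * (4 * |n2| * A) :=
              mul_le_mul hα e0 (abs_nonneg _) zero_le_one
            have e2 : |mC / r| * |dt D E| ≤ 1 * B := mul_le_mul hβ hP (abs_nonneg _) zero_le_one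
            linarith
      · rw [not_le] at h3
        have hC' : ∀ D : E2, |dt D E| ≤ B → |n1 * (cr E D / A) + n2 * (dt D E / B)| ≤ δ →
            |cr E D| ≤ B + 2 * δ * A := by
          intro D hP hn'
          have e1 := hlat D hP hn'
          have e3 : (1 / 2) * (2 * (δ * A)) ≤ |n1| * (2 * (δ * A)) :=
            mul_le_mul_of_nonneg_right hn1 (by positivity)
          have e2 : |n1| * |cr E D| ≤ |n1| * (B + 2 * δ * A) := by
            have e4 : |n1| * (B + 2 * δ * A) = |n1| * B + |n1| * (2 * (δ * A)) := by ring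
            have e5 : (|n2| + δ) * A = |n2| * A + δ * A := by ring
            rw [e4]; rw [e5] at e1; linarith
          exact le_of_mul_le_mul_left e2 hn10
        rcases le_total (δ * A) B with h4 | h4
        · -- case 2c1
          have hrl : 1 / (2 * A) ≤ r := by
            refine le_trans ?_ hrC
            rw [hmC, abs_div, abs_of_pos hA, div_le_div_iff₀ (by positivity) hA]
            nlinarith
          refine ⟨mkf E (mP / r) (mC / r), 2 * δ * A, 4 * B, mkf_unit hE hunit, by linarith,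
            by linarith, by linarith, by linarith, ?_⟩
          intro D hC hP hn'
          refine ⟨(hthin D hn').trans ?_, ?_⟩
          · rw [div_le_iff₀ hr0]
            have : 1 ≤ r * (2 * A) := by
              rw [div_le_iff₀ (by positivity)] at hrl; exact hrl
            nlinarith
          · rw [cr_mkf]
            refine (abs_sub _ _).trans ?_
            rw [abs_mul, abs_mul]
            have e0 := hC' D hP hn'
            have e1 : |mP / r| * |cr E D| ≤ 1 * (B + 2 * δ * A) :=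
              mul_le_mul hα e0 (abs_nonneg _) zero_le_one
            have e2 : |mC / r| * |dt D E| ≤ 1 * B := mul_le_mul hβ hP (abs_nonneg _) zero_le_one
            linarith
        · -- case 2c2
          refine ⟨E, B, 3 * (δ * A), hE, by linarith, by linarith, by linarith, by linarith, ?_⟩
          intro D hC hP hn'
          refine ⟨hP, (hC' D hP hn').trans (by linarith)⟩

end Crest.Agent.R138.LmA861
end

-- ▼ part R138/LmA6_861
section

/-!
# R138, LEMMA A over one box (helper861), part 2: `boxA`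
-/

set_option autoImplicit false
set_option linter.unusedVariables false
set_option linter.unusedSectionVars false

namespace Crest.Agent.R138.LmA861

open Finset
open Crest.Agent.R138.Flag51 (Ln E2 cr dt InPlank)
open Crest.Agent.R138.Tilt51 (DMax)
open Crest.Agent.R138.Mk163 (zc zl rho alive own)

/-! ### cells -/

theorem zc_div (m k : ℕ) (z : ℝ) : zc m z = zc (m + k) z / 2 ^ k := by
  unfold zc
  have h : (2:ℝ) ^ m * z = ((2:ℝ) ^ (m + k) * z) / ((2 ^ k : ℕ) : ℝ) := by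
    push_cast; rw [pow_add]; field_simp
  rw [h, Int.floor_div_natCast]; push_cast; rfl

theorem rho_pos (m : ℕ) : 0 < rho m := by unfold rho; positivity


theorem zl_near (m k : ℕ) (K : ℤ) : 0 ≤ zl (m + k) K - zl m (K / 2 ^ k) ∧
    zl (m + k) K - zl m (K / 2 ^ k) ≤ rho m := by
  have h2 : (0:ℤ) < 2 ^ k := by positivity
  have e1 := Int.emod_add_mul_ediv K (2 ^ k)
  have e2 := Int.emod_nonneg K h2.ne'
  have e3 := Int.emod_lt_of_pos K h2
  have e4 : zl (m + k) K - zl m (K / 2 ^ k) = ((K % 2 ^ k : ℤ) : ℝ) / 2 ^ (m + k) := by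
    unfold zl
    have e5 : (K : ℝ) = ((K % 2 ^ k : ℤ) : ℝ) + 2 ^ k * ((K / 2 ^ k : ℤ) : ℝ) := by
      exact_mod_cast e1.symm
    rw [e5, pow_add]
    have : (0:ℝ) < 2 ^ k := by positivity
    field_simp
    ring
  rw [e4]
  have f2 : (0:ℝ) ≤ ((K % 2 ^ k : ℤ) : ℝ) := by exact_mod_cast e2
  have f3 : ((K % 2 ^ k : ℤ) : ℝ) ≤ 2 ^ k := by exact_mod_cast e3.le
  refine ⟨by positivity, ?_⟩
  unfold rho
  rw [pow_add, div_le_div_iff₀ (by positivity) (by positivity)]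
  have : (0:ℝ) < 2 ^ m := by positivity
  nlinarith

/-- neighbouring cells -/
theorem zl_near2 (m k : ℕ) (K J : ℤ) (h : |J - K / 2 ^ k| ≤ 1) :
    |zl (m + k) K - zl m J| ≤ 2 * rho m := by
  obtain ⟨h1, h2⟩ := zl_near m k K
  have e : zl m J - zl m (K / 2 ^ k) = ((J - K / 2 ^ k : ℤ) : ℝ) * rho m := by
    unfold zl rho; push_cast; ring
  have e1 : |zl m J - zl m (K / 2 ^ k)| ≤ rho m := by
    rw [e, abs_mul, abs_of_pos (rho_pos m)]
    have : |((J - K / 2 ^ k : ℤ) : ℝ)| ≤ 1 := by exact_mod_cast h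
    nlinarith [rho_pos m]
  rw [abs_le] at e1 ⊢
  constructor <;> linarith

/-! ### D-max for planks slightly outside the legal range -/

open Classical in
theorem cover_dmax {S S' : Finset ℕ} {L : ℕ → Ln} {z0 ρ D q r0 : ℝ} (hρ : 0 < ρ) (hq : 0 ≤ q)
    (hD : 0 ≤ D) (hr : 0 < r0)
    (h : DMax S L (fun _ => 1) z0 ρ D 0 q r0 (100 * ρ)) (hS : S' ⊆ S) {l : Ln} {e : E2}
    {a1 a2 : ℝ} {N : ℕ}
    (hN : 1 ≤ N) (he : dt e e = 1) (h1 : r0 * N ≤ a1) (h12 : a1 ≤ a2) (h2 : a2 ≤ 100 * ρ * N)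
    (hin : ∀ t ∈ S', InPlank (L t) l e a1 a2 z0 ρ) :
    (S'.card : ℝ) ≤ (2 * N + 1) ^ 4 * (D * (a1 * a2 * a2 ^ q)) := by
  have hN0 : (0:ℝ) < N := by exact_mod_cast hN
  have hN1 : (1:ℝ) ≤ N := by exact_mod_cast hN
  have ha1 : 0 < a1 := lt_of_lt_of_le (by positivity) h1
  have ha2 : 0 < a2 := lt_of_lt_of_le ha1 h12
  refine K294.cover S' L (w1 := a1 / N) (w2 := a2 / N) (e := e) (z0 := z0) (by positivity)
    (by positivity) hρ (n := N) (l := l) ?_ (by positivity) ?_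
  · intro t ht
    rw [mul_div_cancel₀ _ hN0.ne', mul_div_cancel₀ _ hN0.ne']; exact hin t ht
  · intro t0 ht0
    have key := h (L t0) e (a1 / N) (a2 / N) he (by rw [le_div_iff₀ hN0]; exact h1)
      (by gcongr) (by rw [div_le_iff₀ hN0]; linarith)
    rw [sum_const, nsmul_eq_mul, mul_one] at key
    have e1 : ((S'.filter fun t => InPlank (L t) (L t0) e (a1 / N) (a2 / N) z0 ρ).card : ℝ) ≤
        ((S.filter fun t => InPlank (L t) (L t0) e (a1 / N) (a2 / N) z0 ρ).card : ℝ) := by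
      exact_mod_cast card_le_card (filter_subset_filter _ hS)
    refine (e1.trans key).trans ?_
    have e2 : a1 / N ≤ a1 := div_le_self ha1.le hN1
    have e3 : a2 / N ≤ a2 := div_le_self ha2.le hN1
    have e4 : (a2 / N) ^ (1 + q) ≤ a2 ^ (1 + q) :=
      Real.rpow_le_rpow (by positivity) e3 (by linarith)
    have e5 : a2 ^ (1 + q) = a2 * a2 ^ q := by rw [Real.rpow_add ha2, Real.rpow_one]
    rw [add_zero, Real.rpow_one]
    calc D * (a1 / N) * (a2 / N) ^ (1 + q) ≤ D * a1 * (a2 * a2 ^ q) := by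
          rw [← e5]; gcongr
      _ = D * (a1 * a2 * a2 ^ q) := by ring

/-! ### normalised coordinates -/

section coord

variable (φ : E2 → ℝ) (L : ℕ → Ln) (i : ℕ) (J : ℤ) (l0 : Ln) (W : ℝ)

/-- normalised position over the left end of the cell -/
noncomputable def gp (t : ℕ) : ℝ := φ (Flag51.pos (L t) (zl i J) - Flag51.pos l0 (zl i J)) / (2 * W)

/-- normalised velocity -/
noncomputable def gv (t : ℕ) : ℝ := rho i * φ ((L t).2 - l0.2) / (2 * W)

variable {φ} (hφ : ∀ (x y : E2) (s : ℝ), φ (x + s • y) = φ x + s * φ y)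
include hφ

theorem phi_sub (x y : E2) : φ (x - y) = φ x - φ y := by
  have := hφ x y (-1)
  rw [neg_one_smul, ← sub_eq_add_neg] at this
  rw [this]; ring

theorem phi_pos (t l : Ln) (z z0 : ℝ) : φ (Flag51.pos t z - Flag51.pos l z) =
    φ (Flag51.pos t z0 - Flag51.pos l z0) + (z - z0) * φ (t.2 - l.2) := by
  rw [← hφ]
  congr 1
  unfold Flag51.pos
  module

theorem pos_eq (M : ℕ) (hW : 0 < W) (t : ℕ) (k : ℤ) :
    pos (gp φ L i J l0 W) (gv φ L i l0 W) (2 ^ M) t k =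
      φ (Flag51.pos (L t) (zl (i + M) (2 ^ M * J + k)) -
        Flag51.pos l0 (zl (i + M) (2 ^ M * J + k))) / (2 * W) := by
  rw [phi_pos hφ (L t) l0 _ (zl i J)]
  have e : zl (i + M) (2 ^ M * J + k) - zl i J = rho i * (k / 2 ^ M) := by
    unfold zl rho
    rw [pow_add]; push_cast; field_simp; ring
  rw [e]
  unfold pos gp gv
  field_simp

theorem pos_bd (M : ℕ) (hW : 0 < W) (t : ℕ)
    (h : ∀ z, |z - zl i J| ≤ rho i → |φ (Flag51.pos (L t) z - Flag51.pos l0 z)| ≤ W) (k : ℤ)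
    (hk0 : 0 ≤ k) (hk : k ≤ 2 ^ M) :
    |pos (gp φ L i J l0 W) (gv φ L i l0 W) (2 ^ M) t k| ≤ 1 ∧ |gv φ L i l0 W t| ≤ 1 := by
  have hρ := rho_pos i
  constructor
  · rw [pos_eq L i J l0 W hφ M hW, abs_div, abs_of_pos (by linarith : 0 < 2 * W),
      div_le_one (by linarith)]
    refine (h _ ?_).trans (by linarith)
    have e : zl (i + M) (2 ^ M * J + k) - zl i J = rho i * (k / 2 ^ M) := by
      unfold zl rho
      rw [pow_add]; push_cast; field_simp; ring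
    have k0 : (0:ℝ) ≤ k := by exact_mod_cast hk0
    have k1 : (k:ℝ) ≤ 2 ^ M := by exact_mod_cast hk
    have k2 : (k:ℝ) / 2 ^ M ≤ 1 := by rw [div_le_one (by positivity)]; exact k1
    rw [e, abs_of_nonneg (by positivity)]
    nlinarith
  · have e1 := h (zl i J) (by rw [sub_self, abs_zero]; exact hρ.le)
    have e2 := h (zl i J + rho i) (by rw [add_sub_cancel_left, abs_of_pos hρ])
    rw [phi_pos hφ (L t) l0 _ (zl i J), add_sub_cancel_left] at e2
    unfold gv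
    rw [abs_div, abs_of_pos (by linarith : 0 < 2 * W), div_le_one (by linarith)]
    rw [abs_le] at e1 e2 ⊢
    constructor <;> linarith

/-- difference of two lines -/
theorem pos_diff (M : ℕ) (hW : 0 < W) (t t' : ℕ) (k : ℤ) (z : ℝ) :
    φ (Flag51.pos (L t) z - Flag51.pos (L t') z) =
      2 * W * ((pos (gp φ L i J l0 W) (gv φ L i l0 W) (2 ^ M) t k -
        pos (gp φ L i J l0 W) (gv φ L i l0 W) (2 ^ M) t' k) +
        (z - zl (i + M) (2 ^ M * J + k)) / rho i *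
          (gv φ L i l0 W t - gv φ L i l0 W t')) := by
  have hρ := rho_pos i
  have e0 : Flag51.pos (L t) z - Flag51.pos (L t') z =
      (Flag51.pos (L t) z - Flag51.pos l0 z) - (Flag51.pos (L t') z - Flag51.pos l0 z) := by
    abel
  rw [e0, phi_sub hφ, phi_pos hφ (L t) l0 z (zl (i + M) (2 ^ M * J + k)),
    phi_pos hφ (L t') l0 z (zl (i + M) (2 ^ M * J + k)), pos_eq L i J l0 W hφ M hW,
    pos_eq L i J l0 W hφ M hW]
  unfold gv
  field_simp
  ring

end coord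

theorem cr_lin (E : E2) (x y : E2) (s : ℝ) : cr E (x + s • y) = cr E x + s * cr E y := by
  simp [cr]; ring

theorem dt_lin (E : E2) (x y : E2) (s : ℝ) : dt (x + s • y) E = dt x E + s * dt y E := by
  simp [dt]; ring

theorem diff_le {φ : E2 → ℝ} (L : ℕ → Ln) (i : ℕ) (J : ℤ) (l0 : Ln) (W : ℝ)
    (hφ : ∀ (x y : E2) (s : ℝ), φ (x + s • y) = φ x + s * φ y) (M : ℕ) (hW : 0 < W) (t t' : ℕ)
    (k : ℤ) (z : ℝ) {p v r : ℝ}
    (hp : |pos (gp φ L i J l0 W) (gv φ L i l0 W) (2 ^ M) t k -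
        pos (gp φ L i J l0 W) (gv φ L i l0 W) (2 ^ M) t' k| ≤ p)
    (hv : |gv φ L i l0 W t - gv φ L i l0 W t'| ≤ v) (hr0 : 0 ≤ r)
    (hr : |z - zl (i + M) (2 ^ M * J + k)| ≤ r * rho i) :
    |φ (Flag51.pos (L t) z - Flag51.pos (L t') z)| ≤ 2 * W * (p + r * v) := by
  rw [pos_diff L i J l0 W hφ M hW t t' k z, abs_mul, abs_of_pos (by linarith : 0 < 2 * W)]
  refine mul_le_mul_of_nonneg_left ?_ (by linarith)
  refine (abs_add_le _ _).trans (add_le_add hp ?_)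
  rw [abs_mul, abs_div, abs_of_pos (rho_pos i)]
  refine mul_le_mul ?_ hv (abs_nonneg _) hr0
  rw [div_le_iff₀ (rho_pos i)]
  exact hr

theorem rho_eq {i M j k : ℕ} (hj : i + M = j + k) : rho j = (2 ^ k / 2 ^ M) * rho i := by
  have h : (2:ℝ) ^ i * 2 ^ M = 2 ^ j * 2 ^ k := by rw [← pow_add, ← pow_add, hj]
  unfold rho
  rw [div_mul_div_comm, mul_one, div_eq_div_iff (by positivity) (by positivity), one_mul]
  linarith

/-! ### relative incidences -/

open Classical in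
/-- the incidences with the height replaced by the relative index of the fine cell -/
noncomputable def Iz (I : Finset (ℕ × ℝ)) (j M : ℕ) (J : ℤ) : Finset (ℕ × ℤ) :=
  I.image fun x => (x.1, zc j x.2 - 2 ^ M * J)

theorem mem_Iz {I : Finset (ℕ × ℝ)} {j M : ℕ} {J : ℤ} {y : ℕ × ℤ} :
    y ∈ Iz I j M J ↔ ∃ x ∈ I, x.1 = y.1 ∧ zc j x.2 = 2 ^ M * J + y.2 := by
  unfold Iz
  rw [mem_image]
  constructor
  · rintro ⟨x, hx, rfl⟩
    exact ⟨x, hx, rfl, by ring⟩
  · rintro ⟨x, hx, h1, h2⟩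
    exact ⟨x, hx, Prod.ext h1 (by simp only; rw [h2]; ring)⟩

theorem Iz_range {I : Finset (ℕ × ℝ)} {i M : ℕ} {J : ℤ} (hJ : ∀ x ∈ I, zc i x.2 = J)
    {y : ℕ × ℤ} (hy : y ∈ Iz I (i + M) M J) : 0 ≤ y.2 ∧ y.2 < 2 ^ M := by
  obtain ⟨x, hx, h1, h2⟩ := mem_Iz.1 hy
  have h3 := hJ x hx
  rw [zc_div i M, h2] at h3
  have h4 : (0:ℤ) < 2 ^ M := by positivity
  rw [add_comm, Int.add_mul_ediv_left _ _ h4.ne'] at h3
  have h5 : y.2 / 2 ^ M = 0 := by linarith
  have h6 := Int.emod_add_mul_ediv y.2 (2 ^ M)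
  rw [h5, mul_zero, add_zero] at h6
  rw [← h6]
  exact ⟨Int.emod_nonneg _ h4.ne', Int.emod_lt_of_pos _ h4⟩

open Classical in
theorem own_le_Iz {I : Finset (ℕ × ℝ)} {i M : ℕ} {J : ℤ} {x : ℕ × ℝ} :
    (own I i (i + M) x).card ≤ ((Iz I (i + M) M J).filter fun y => y.1 = x.1).card := by
  refine card_le_card_of_injOn (fun k => (x.1, k - 2 ^ M * J)) ?_ ?_
  · intro k hk
    rw [mem_coe] at hk ⊢
    unfold own at hk
    obtain ⟨y, hy, rfl⟩ := mem_image.1 hk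
    rw [mem_filter] at hy ⊢
    exact ⟨mem_Iz.2 ⟨y, hy.1, hy.2.1, by ring⟩, rfl⟩
  · intro k _ k' _ h
    have := congrArg Prod.snd h
    simpa using this

/-- the window cell of a relative index -/
theorem div_rel {M k : ℕ} (hk : k ≤ M) (J K : ℤ) :
    (2 ^ M * J + K) / 2 ^ k = 2 ^ (M - k) * J + K / 2 ^ k := by
  have h4 : (0:ℤ) < 2 ^ k := by positivity
  obtain ⟨m, rfl⟩ := Nat.exists_eq_add_of_le hk
  rw [Nat.add_sub_cancel_left, pow_add, mul_assoc, add_comm,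
    Int.add_mul_ediv_left _ _ h4.ne', add_comm]

open Classical in
theorem own_eq_Iz {I : Finset (ℕ × ℝ)} {i M j1 k1 : ℕ} {J : ℤ} (hj : i + M = j1 + k1)
    (hk : k1 ≤ M) {x : ℕ × ℝ} {y : ℕ × ℤ} (hx : x.1 = y.1) (hxy : zc (i + M) x.2 = 2 ^ M * J + y.2) :
    (own I j1 (i + M) x).card = ((Iz I (i + M) M J).filter fun w => w.1 = y.1 ∧
      w.2 / ((2 ^ k1 : ℕ) : ℤ) = y.2 / ((2 ^ k1 : ℕ) : ℤ)).card := by
  have h1 : ((Iz I (i + M) M J).filter fun w => w.1 = y.1 ∧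
      w.2 / ((2 ^ k1 : ℕ) : ℤ) = y.2 / ((2 ^ k1 : ℕ) : ℤ)) =
      (own I j1 (i + M) x).image fun k => (y.1, k - 2 ^ M * J) := by
    ext w
    rw [mem_filter, mem_image]
    unfold own
    push_cast
    constructor
    · rintro ⟨hw, hw1, hw2⟩
      obtain ⟨v, hv, e1, e2⟩ := mem_Iz.1 hw
      refine ⟨zc (i + M) v.2, mem_image.2 ⟨v, mem_filter.2 ⟨hv, ?_, ?_⟩, rfl⟩, ?_⟩
      · rw [e1, hw1, hx]
      · rw [zc_div j1 k1 v.2, zc_div j1 k1 x.2, ← hj, e2, hxy, div_rel hk, div_rel hk, hw2]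
      · rw [e2, ← hw1]; exact Prod.ext rfl (by ring)
    · rintro ⟨k, hk', rfl⟩
      obtain ⟨v, hv, rfl⟩ := mem_image.1 hk'
      rw [mem_filter] at hv
      refine ⟨mem_Iz.2 ⟨v, hv.1, by rw [hv.2.1, hx], by ring⟩, rfl, ?_⟩
      have e3 := hv.2.2
      rw [zc_div j1 k1 v.2, zc_div j1 k1 x.2, ← hj, hxy] at e3
      have e4 : zc (i + M) v.2 = 2 ^ M * J + (zc (i + M) v.2 - 2 ^ M * J) := by ring
      rw [e4, div_rel hk, div_rel hk] at e3
      simp only
      linarith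
  rw [h1, card_image_of_injective]
  intro k k' h
  have := congrArg Prod.snd h
  simpa using this

open Classical in
theorem image_fst_Iz {I : Finset (ℕ × ℝ)} {i j M : ℕ} {J : ℤ} (hJ : ∀ x ∈ I, zc i x.2 = J) :
    (Iz I j M J).image Prod.fst = alive I i J := by
  ext t
  unfold alive
  rw [mem_image, mem_image]
  constructor
  · rintro ⟨y, hy, rfl⟩
    obtain ⟨x, hx, h1, h2⟩ := mem_Iz.1 hy
    exact ⟨x, mem_filter.2 ⟨hx, hJ x hx⟩, h1⟩
  · rintro ⟨x, hx, rfl⟩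
    rw [mem_filter] at hx
    exact ⟨(x.1, zc j x.2 - 2 ^ M * J), mem_Iz.2 ⟨x, hx.1, rfl, by ring⟩, rfl⟩

/-! ### the three counts -/

section counts

variable {I : Finset (ℕ × ℝ)} {L : ℕ → Ln} {i M : ℕ} {J : ℤ} {l0 : Ln} {E : E2}
  {W1 W2 r0 q Kc : ℝ} {N : ℕ}

/-- the four coordinate functions -/
noncomputable abbrev fa (L : ℕ → Ln) (i : ℕ) (J : ℤ) (l0 : Ln) (E : E2) (W2 : ℝ) : ℕ → ℝ :=
  gp (cr E) L i J l0 W2
noncomputable abbrev fb (L : ℕ → Ln) (i : ℕ) (J : ℤ) (l0 : Ln) (E : E2) (W1 : ℝ) : ℕ → ℝ :=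
  gp (fun x => dt x E) L i J l0 W1
noncomputable abbrev fc (L : ℕ → Ln) (i : ℕ) (l0 : Ln) (E : E2) (W2 : ℝ) : ℕ → ℝ :=
  gv (cr E) L i l0 W2
noncomputable abbrev fd (L : ℕ → Ln) (i : ℕ) (l0 : Ln) (E : E2) (W1 : ℝ) : ℕ → ℝ :=
  gv (fun x => dt x E) L i l0 W1

theorem lines_le (hJ : ∀ x ∈ I, zc i x.2 = J) (hE : dt E E = 1) (hq : 0 ≤ q) (hW1 : 0 < W1)
    (hW12 : W1 ≤ W2) (hW2 : W2 ≤ Kc * rho i) (hr0 : 0 < r0) (hr : r0 * N ≤ W1)
    (hN : 1 ≤ N) (hKN : 2 * Kc ≤ N)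
    (hin : ∀ x ∈ I, InPlank (L x.1) l0 E W1 W2 (zl i J) (rho i)) {D0 : ℝ} (hD0 : 0 ≤ D0)
    (hD : DMax (alive I i J) L (fun _ => 1) (zl i J) (rho i) D0 0 q r0 (100 * rho i)) :
    (((Iz I (i + M) M J).image Prod.fst).card : ℝ) ≤
      (2 * N + 1) ^ 4 * (D0 * (W1 * W2 * W2 ^ q)) := by
  classical
  have e : ((Iz I (i + M) M J).image Prod.fst).card = (alive I i J).card := by
    rw [← image_fst_Iz (j := i + M) (M := M) hJ]
  rw [e]
  have hρ := rho_pos i
  have hM : (1:ℝ) ≤ 2 ^ M := one_le_pow₀ (by norm_num)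
  have hN1 : (1:ℝ) ≤ N := by exact_mod_cast hN
  refine cover_dmax hρ hq hD0 hr0 hD (Subset.refl _) hN hE (l := l0) hr hW12 ?_ ?_
  · refine hW2.trans ?_
    have : Kc * rho i ≤ (100 * N) * rho i := mul_le_mul_of_nonneg_right (by linarith) hρ.le
    linarith
  · intro t ht
    unfold alive at ht
    obtain ⟨x, hx, rfl⟩ := mem_image.1 ht
    exact hin x (mem_filter.1 hx).1

theorem tube_le (hJ : ∀ x ∈ I, zc i x.2 = J) (hE : dt E E = 1) (hq : 0 ≤ q) (hW1 : 0 < W1)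
    (hW12 : W1 ≤ W2) (hW2 : W2 ≤ Kc * rho i) (hr0 : 0 < r0) (hr : r0 * (N * 2 ^ M) ≤ 6 * W1)
    (hN : 1 ≤ N) (hKN : 2 * Kc ≤ N) {j2 k2 : ℕ} (hj : i + M = j2 + k2) {D2 T : ℝ} (hD2 : 0 ≤ D2)
    (hT : T = 2 ^ k2)
    (hD : ∀ J', DMax (alive I j2 J') L (fun _ => 1) (zl j2 J') (rho j2) D2 0 q r0 (100 * rho j2))
    {y0 : ℕ × ℤ} (hy0 : y0 ∈ Iz I (i + M) M J) :
    ((Tube (Iz I (i + M) M J) (fa L i J l0 E W2) (fb L i J l0 E W1) (fc L i l0 E W2)
      (fd L i l0 E W1) (2 ^ M) T y0).card : ℝ) ≤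
      (2 * N + 1) ^ 4 * (D2 * ((6 * W1 / 2 ^ M) * (6 * W2 / 2 ^ M) * (6 * W2 / 2 ^ M) ^ q)) := by
  classical
  have hW2' : 0 < W2 := lt_of_lt_of_le hW1 hW12
  set TT := Tube (Iz I (i + M) M J) (fa L i J l0 E W2) (fb L i J l0 E W1) (fc L i l0 E W2)
      (fd L i l0 E W1) (2 ^ M) T y0 with hTT
  have hρ := rho_pos j2
  have hρi := rho_pos i
  have hM : (0:ℝ) < 2 ^ M := by positivity
  have hM1 : (1:ℝ) ≤ 2 ^ M := one_le_pow₀ (by norm_num)
  have hk1 : (1:ℝ) ≤ 2 ^ k2 := one_le_pow₀ (by norm_num)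
  have hN1 : (1:ℝ) ≤ N := by exact_mod_cast hN
  have e1 : TT.card = (TT.image Prod.fst).card := by
    rw [card_image_of_injOn]
    intro y hy y' hy' h
    rw [mem_coe, hTT] at hy hy'
    unfold Tube at hy hy'
    rw [mem_filter] at hy hy'
    exact Prod.ext h (by rw [hy.2.1, hy'.2.1])
  rw [e1]
  set J' : ℤ := (2 ^ M * J + y0.2) / 2 ^ k2 with hJ'
  refine cover_dmax hρ hq hD2 hr0 (hD J') (S' := TT.image Prod.fst) ?_ hN hE (l := L y0.1) ?_ ?_
    ?_ ?_
  · -- alive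
    intro t ht
    obtain ⟨y, hy, rfl⟩ := mem_image.1 ht
    rw [hTT] at hy
    unfold Tube at hy
    rw [mem_filter] at hy
    obtain ⟨x, hx, h1, h2⟩ := mem_Iz.1 hy.1
    unfold alive
    refine mem_image.2 ⟨x, mem_filter.2 ⟨hx, ?_⟩, h1⟩
    rw [zc_div j2 k2, ← hj, h2, hy.2.1]
  · rw [le_div_iff₀ hM]
    have : r0 * N * 2 ^ M = r0 * (N * 2 ^ M) := by ring
    linarith
  · gcongr
  · rw [rho_eq hj, div_le_iff₀ hM]
    have e2 : 100 * (2 ^ k2 / 2 ^ M * rho i) * N * 2 ^ M = 100 * 2 ^ k2 * (N * rho i) := by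
      field_simp
    rw [e2]
    have e3 : 2 * W2 ≤ N * rho i := by nlinarith
    have e4 : 0 ≤ N * rho i := by positivity
    nlinarith
  · intro t ht z hz
    obtain ⟨y, hy, rfl⟩ := mem_image.1 ht
    rw [hTT] at hy
    unfold Tube at hy
    rw [mem_filter] at hy
    obtain ⟨-, h2, hpa, hpb, hc, hd⟩ := hy
    rw [h2] at hpa hpb
    have hzz : |z - zl (i + M) (2 ^ M * J + y0.2)| ≤ (2 * (2 ^ k2 / 2 ^ M)) * rho i := by
      have n1 := zl_near j2 k2 (2 ^ M * J + y0.2)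
      rw [← hj, ← hJ'] at n1
      have e3 : (2 * (2 ^ k2 / 2 ^ M)) * rho i = 2 * rho j2 := by rw [rho_eq hj]; ring
      rw [e3]
      rw [abs_le] at hz ⊢
      constructor <;> linarith [n1.1, n1.2]
    have ee : ∀ W : ℝ, 2 * W * (1 / 2 ^ M + 2 * (2 ^ k2 / 2 ^ M) * (1 / T)) = 6 * W / 2 ^ M := by
      intro W
      rw [hT]; field_simp; ring
    constructor
    · rw [← ee W1]
      exact diff_le L i J l0 W1 (dt_lin E) M hW1 y.1 y0.1 y0.2 z hpb hd (by positivity) hzz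
    · rw [← ee W2]
      exact diff_le L i J l0 W2 (cr_lin E) M hW2' y.1 y0.1 y0.2 z hpa hc (by positivity) hzz

theorem slab_le (hJ : ∀ x ∈ I, zc i x.2 = J) (hE : dt E E = 1) (hq : 0 ≤ q) (hW1 : 0 < W1)
    (hW12 : W1 ≤ W2) (hW2 : W2 ≤ Kc * rho i) (hr0 : 0 < r0) (hr : r0 * (N * 2 ^ M) ≤ 6 * W1)
    (hN : 1 ≤ N) (hKN : 2 * Kc ≤ N)
    (hin : ∀ x ∈ I, InPlank (L x.1) l0 E W1 W2 (zl i J) (rho i))
    {j1 k1 : ℕ} (hj : i + M = j1 + k1) {D1 : ℝ} (hD1 : 0 ≤ D1)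
    (hD : ∀ J', DMax (alive I j1 J') L (fun _ => 1) (zl j1 J') (rho j1) D1 0 q r0 (100 * rho j1))
    {y0 : ℕ × ℤ} (hy0 : y0 ∈ Iz I (i + M) M J) (n : ℝ × ℝ) (hn : n.1 ^ 2 + n.2 ^ 2 = 1) :
    (((Slab (Iz I (i + M) M J) (fa L i J l0 E W2) (fb L i J l0 E W1) (fc L i l0 E W2)
      (fd L i l0 E W1) (2 ^ k1) (2 ^ M) n y0).image Prod.fst).card : ℝ) ≤
      3 * ((2 * N + 1) ^ 4 * (D1 * ((2880 * 2 ^ k1 * W1 * W2 / (2 ^ M) ^ 2) *
        (144 * 2 ^ k1 * W2 / 2 ^ M) ^ q))) := by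
  classical
  have hW2' : 0 < W2 := lt_of_lt_of_le hW1 hW12
  set SS := Slab (Iz I (i + M) M J) (fa L i J l0 E W2) (fb L i J l0 E W1) (fc L i l0 E W2)
      (fd L i l0 E W1) (2 ^ k1) (2 ^ M) n y0 with hSS
  have hρ := rho_pos j1
  have hρi := rho_pos i
  have hM : (0:ℝ) < 2 ^ M := by positivity
  have hM1 : (1:ℝ) ≤ 2 ^ M := one_le_pow₀ (by norm_num)
  have hk0 : (0:ℝ) < 2 ^ k1 := by positivity
  have hk1 : (1:ℝ) ≤ 2 ^ k1 := one_le_pow₀ (by norm_num)
  have hN1 : (1:ℝ) ≤ N := by exact_mod_cast hN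
  obtain ⟨e', a1, a2, he', hBa, ha12, ha2, haa, hmem⟩ := rect hE (A := 18 * 2 ^ k1 * W2 / 2 ^ M)
    (B := 18 * 2 ^ k1 * W1 / 2 ^ M) (δ := 10 / (9 * 2 ^ k1)) (by positivity) (by gcongr)
    (by positivity) (by rw [div_le_iff₀ (by positivity)]; linarith) hn
  have hBa' : 10 * W1 / 2 ^ M ≤ a1 := by
    refine le_trans (le_of_eq ?_) hBa
    field_simp; ring
  have ha1 : 0 < a1 := lt_of_lt_of_le (by positivity) hBa'
  have ha2p : 0 < a2 := lt_of_lt_of_le ha1 ha12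
  have haa' : a1 * a2 ≤ 2880 * 2 ^ k1 * W1 * W2 / (2 ^ M) ^ 2 := by
    refine haa.trans (le_of_eq ?_)
    field_simp; ring
  have ha2' : a2 ≤ 144 * 2 ^ k1 * W2 / 2 ^ M := by
    refine ha2.trans (le_of_eq ?_)
    ring
  set J0 : ℤ := (2 ^ M * J + y0.2) / 2 ^ k1 with hJ0
  -- one window cell
  set Sd : ℤ → Finset ℕ := fun δ => (alive I j1 (J0 + δ)).filter fun t =>
    InPlank (L t) (L y0.1) e' a1 a2 (zl j1 (J0 + δ)) (rho j1) with hSd
  have hone : ∀ δ : ℤ, ((Sd δ).card : ℝ) ≤ (2 * N + 1) ^ 4 * (D1 * (a1 * a2 * a2 ^ q)) := by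
    intro δ
    refine cover_dmax hρ hq hD1 hr0 (hD (J0 + δ)) (S' := Sd δ) (filter_subset _ _) hN he'
      (l := L y0.1) ?_ ha12 ?_ fun t ht => (mem_filter.1 ht).2
    · refine le_trans ?_ hBa'
      rw [le_div_iff₀ hM]
      have : r0 * N * 2 ^ M = r0 * (N * 2 ^ M) := by ring
      linarith
    · refine ha2'.trans ?_
      rw [rho_eq hj, div_le_iff₀ hM]
      have e2 : 100 * (2 ^ k1 / 2 ^ M * rho i) * N * 2 ^ M = 100 * 2 ^ k1 * (N * rho i) := by
        field_simp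
      rw [e2]
      have e3 : 2 * W2 ≤ N * rho i := by nlinarith
      have e4 : 0 ≤ N * rho i := by positivity
      nlinarith
  have hsub : SS.image Prod.fst ⊆ (Sd (-1) ∪ Sd 0) ∪ Sd 1 := by
    intro t ht
    obtain ⟨y, hy, rfl⟩ := mem_image.1 ht
    rw [hSS] at hy
    unfold Slab at hy
    rw [mem_filter] at hy
    obtain ⟨hyI, hyH, hpa, hpb, hnp, hnv⟩ := hy
    obtain ⟨x, hx, h1, h2⟩ := mem_Iz.1 hyI
    -- the window cell of `y`
    set J' : ℤ := (2 ^ M * J + y.2) / 2 ^ k1 with hJ'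
    have hz2 : |y.2 - y0.2| ≤ 2 ^ k1 := by
      have : |((y.2 - y0.2 : ℤ) : ℝ)| ≤ ((2 ^ k1 : ℤ) : ℝ) := by
        push_cast; push_cast at hyH; exact hyH
      exact_mod_cast this
    have hkz : (0:ℤ) < 2 ^ k1 := by positivity
    have hJJ : |J' - J0| ≤ 1 := by
      have m1 := Int.emod_add_mul_ediv (2 ^ M * J + y.2) (2 ^ k1)
      have m2 := Int.emod_nonneg (2 ^ M * J + y.2) hkz.ne'
      have m3 := Int.emod_lt_of_pos (2 ^ M * J + y.2) hkz
      have m4 := Int.emod_add_mul_ediv (2 ^ M * J + y0.2) (2 ^ k1)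
      have m5 := Int.emod_nonneg (2 ^ M * J + y0.2) hkz.ne'
      have m6 := Int.emod_lt_of_pos (2 ^ M * J + y0.2) hkz
      rw [← hJ'] at m1
      rw [← hJ0] at m4
      rw [abs_le] at hz2 ⊢
      constructor
      · by_contra hcon
        rw [not_le] at hcon
        have : J' - J0 ≤ -2 := by omega
        nlinarith
      · by_contra hcon
        rw [not_le] at hcon
        have : 2 ≤ J' - J0 := by omega
        nlinarith
    have hin' : y.1 ∈ Sd (J' - J0) := by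
      rw [hSd]
      simp only
      rw [mem_filter]
      have e1 : J0 + (J' - J0) = J' := by ring
      rw [e1]
      refine ⟨?_, ?_⟩
      · unfold alive
        refine mem_image.2 ⟨x, mem_filter.2 ⟨hx, ?_⟩, h1⟩
        rw [zc_div j1 k1, ← hj, h2]
      · intro z hz
        have hzz : |z - zl (i + M) (2 ^ M * J + y0.2)| ≤ (3 * (2 ^ k1 / 2 ^ M)) * rho i := by
          have n1 := zl_near2 j1 k1 (2 ^ M * J + y0.2) J' (by rw [← hJ0]; exact hJJ)
          rw [← hj] at n1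
          have e3 : (3 * (2 ^ k1 / 2 ^ M)) * rho i = 3 * rho j1 := by rw [rho_eq hj]; ring
          rw [e3]
          rw [abs_le] at hz n1 ⊢
          constructor <;> linarith [n1.1, n1.2]
        have hbd : ∀ w ∈ Iz I (i + M) M J, |fc L i l0 E W2 w.1| ≤ 1 ∧ |fd L i l0 E W1 w.1| ≤ 1 := by
          intro w hw
          obtain ⟨v, hv, g1, g2⟩ := mem_Iz.1 hw
          have hin2 := hin v hv
          rw [g1] at hin2
          exact ⟨(pos_bd L i J l0 W2 (cr_lin E) M hW2' w.1 (fun z hz => (hin2 z hz).2) 0 le_rfl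
            (by positivity)).2, (pos_bd L i J l0 W1 (dt_lin E) M hW1 w.1
            (fun z hz => (hin2 z hz).1) 0 le_rfl (by positivity)).2⟩
        have hc2 : |fc L i l0 E W2 y.1 - fc L i l0 E W2 y0.1| ≤ 2 := by
          refine (abs_sub _ _).trans ?_
          linarith [(hbd y hyI).1, (hbd y0 hy0).1]
        have hd2 : |fd L i l0 E W1 y.1 - fd L i l0 E W1 y0.1| ≤ 2 := by
          refine (abs_sub _ _).trans ?_
          linarith [(hbd y hyI).2, (hbd y0 hy0).2]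
        push_cast at hpa hpb hnv
        have ee : ∀ W : ℝ, 2 * W * (3 * 2 ^ k1 / 2 ^ M + 3 * (2 ^ k1 / 2 ^ M) * 2) =
            18 * 2 ^ k1 * W / 2 ^ M := by
          intro W; ring
        refine hmem _ ?_ ?_ ?_
        · rw [← ee W2]
          exact diff_le L i J l0 W2 (cr_lin E) M hW2' y.1 y0.1 y0.2 z hpa hc2 (by positivity) hzz
        · rw [← ee W1]
          exact diff_le L i J l0 W1 (dt_lin E) M hW1 y.1 y0.1 y0.2 z hpb hd2 (by positivity) hzz
        · have d1 := pos_diff L i J l0 W2 (cr_lin E) M hW2' y.1 y0.1 y0.2 z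
          have d2 := pos_diff (φ := fun x => dt x E) L i J l0 W1 (dt_lin E) M hW1 y.1 y0.1 y0.2 z
          rw [d1, d2]
          set pa := pos (gp (cr E) L i J l0 W2) (gv (cr E) L i l0 W2) (2 ^ M) y.1 y0.2 -
            pos (gp (cr E) L i J l0 W2) (gv (cr E) L i l0 W2) (2 ^ M) y0.1 y0.2 with hpa'
          set pb := pos (gp (fun x => dt x E) L i J l0 W1) (gv (fun x => dt x E) L i l0 W1)
            (2 ^ M) y.1 y0.2 - pos (gp (fun x => dt x E) L i J l0 W1)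
            (gv (fun x => dt x E) L i l0 W1) (2 ^ M) y0.1 y0.2 with hpb'
          set rr := (z - zl (i + M) (2 ^ M * J + y0.2)) / rho i with hrr
          have hrr' : |rr| ≤ 3 * (2 ^ k1 / 2 ^ M) := by
            rw [hrr, abs_div, abs_of_pos hρi, div_le_iff₀ hρi]; exact hzz
          have e4 : n.1 * (2 * W2 * (pa + rr * (gv (cr E) L i l0 W2 y.1 -
              gv (cr E) L i l0 W2 y0.1)) / (18 * 2 ^ k1 * W2 / 2 ^ M)) +
              n.2 * (2 * W1 * (pb + rr * (gv (fun x => dt x E) L i l0 W1 y.1 -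
              gv (fun x => dt x E) L i l0 W1 y0.1)) / (18 * 2 ^ k1 * W1 / 2 ^ M)) =
              (2 ^ M / (9 * 2 ^ k1)) * ((n.1 * pa + n.2 * pb) +
                rr * (n.1 * (gv (cr E) L i l0 W2 y.1 - gv (cr E) L i l0 W2 y0.1) +
                  n.2 * (gv (fun x => dt x E) L i l0 W1 y.1 -
                    gv (fun x => dt x E) L i l0 W1 y0.1))) := by
            field_simp
            ring
          rw [e4, abs_mul, abs_of_pos (by positivity : (0:ℝ) < 2 ^ M / (9 * 2 ^ k1))]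
          have e5 : |(n.1 * pa + n.2 * pb) +
                rr * (n.1 * (gv (cr E) L i l0 W2 y.1 - gv (cr E) L i l0 W2 y0.1) +
                  n.2 * (gv (fun x => dt x E) L i l0 W1 y.1 -
                    gv (fun x => dt x E) L i l0 W1 y0.1))| ≤
              4 / 2 ^ M + 3 * (2 ^ k1 / 2 ^ M) * (2 / 2 ^ k1) := by
            refine (abs_add_le _ _).trans (add_le_add hnp ?_)
            rw [abs_mul]
            exact mul_le_mul hrr' hnv (abs_nonneg _) (by positivity)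
          refine (mul_le_mul_of_nonneg_left e5 (by positivity)).trans (le_of_eq ?_)
          field_simp
          ring
    have hcases : J' - J0 = -1 ∨ J' - J0 = 0 ∨ J' - J0 = 1 := by
      rw [abs_le] at hJJ; omega
    rw [mem_union, mem_union]
    rcases hcases with h | h | h
    · rw [h] at hin'; exact Or.inl (Or.inl hin')
    · rw [h] at hin'; exact Or.inl (Or.inr hin')
    · rw [h] at hin'; exact Or.inr hin'
  have hcard : ((SS.image Prod.fst).card : ℝ) ≤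
      ((Sd (-1)).card : ℝ) + ((Sd 0).card : ℝ) + ((Sd 1).card : ℝ) := by
    have h1 := card_le_card hsub
    have h2 := card_union_le (Sd (-1) ∪ Sd 0) (Sd 1)
    have h3 := card_union_le (Sd (-1)) (Sd 0)
    have : (SS.image Prod.fst).card ≤ (Sd (-1)).card + (Sd 0).card + (Sd 1).card := by omega
    exact_mod_cast this
  have hfin : (2 * (N:ℝ) + 1) ^ 4 * (D1 * (a1 * a2 * a2 ^ q)) ≤
      (2 * N + 1) ^ 4 * (D1 * ((2880 * 2 ^ k1 * W1 * W2 / (2 ^ M) ^ 2) *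
        (144 * 2 ^ k1 * W2 / 2 ^ M) ^ q)) := by
    gcongr
  linarith [hone (-1), hone 0, hone 1]

end counts

end Crest.Agent.R138.LmA861
end

-- ▼ part R138/LmA7_861
section

/-!
# R138, LEMMA A over one box (helper861), part 3: `boxA`
-/

set_option autoImplicit false
set_option linter.unusedVariables false
set_option linter.unusedSectionVars false

namespace Crest.Agent.R138.LmA861

open Finset
open Crest.Agent.R138.Flag51 (Ln E2 cr dt InPlank)
open Crest.Agent.R138.Tilt51 (DMax)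
open Crest.Agent.R138.Mk163 (zc zl rho alive own)

theorem two_pow_exp (k : ℕ) : (2:ℝ) ^ k = Real.exp (k * Real.log 2) := by
  rw [Real.exp_nat_mul, Real.exp_log (by norm_num)]

theorem rpow_aux {c W q : ℝ} (hc : 0 < c) (hW : 0 < W) (x : ℝ) :
    (c * W * Real.exp x) ^ q = c ^ q * (W ^ q * Real.exp (q * x)) := by
  rw [Real.mul_rpow (by positivity) (Real.exp_pos _).le, Real.mul_rpow hc.le hW.le,
    ← Real.exp_mul, mul_comm x q, mul_assoc]

set_option maxHeartbeats 1600000 in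
open Classical in
/-- **LEMMA A over one box**, core form. -/
theorem boxA_core {s c' q Kc : ℝ} (hs : 0 ≤ s) (hs1 : s ≤ 1) (hsc : 2 * s < c') (hq : 0 ≤ q)
    (hK : 1 ≤ Kc) :
    ∃ (η τ ε : ℝ) (M0 N : ℕ), 0 < η ∧ η < 1 ∧ 0 < τ ∧ τ < 1 ∧ 0 < ε ∧ 1 ≤ N ∧ (N : ℝ) ≤ 3 * Kc ∧
    ∀ (I : Finset (ℕ × ℝ)) (L : ℕ → Ln) (i M k1 k2 j j1 j2 : ℕ) (J : ℤ) (l0 : Ln) (E : E2)
      (W1 W2 r0 D0 D1 D2 : ℝ),
      j = i + M → j = j1 + k1 → j = j2 + k2 → M0 ≤ M →
      η / 2 * M ≤ k1 → (k1 : ℝ) ≤ η * M → τ / 2 * M ≤ k2 → (k2 : ℝ) ≤ τ * M →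
      I.Nonempty → (∀ x ∈ I, zc i x.2 = J) → dt E E = 1 → 0 < W1 → W1 ≤ W2 → W2 ≤ Kc * rho i →
      0 < r0 → r0 * (N * 2 ^ M) ≤ 6 * W1 →
      (∀ x ∈ I, InPlank (L x.1) l0 E W1 W2 (zl i J) (rho i)) →
      0 < D0 → 0 ≤ D1 → 0 ≤ D2 →
      DMax (alive I i J) L (fun _ => 1) (zl i J) (rho i) D0 0 q r0 (100 * rho i) →
      (∀ J', DMax (alive I j1 J') L (fun _ => 1) (zl j1 J') (rho j1) D1 0 q r0 (100 * rho j1)) →
      (∀ J', DMax (alive I j2 J') L (fun _ => 1) (zl j2 J') (rho j2) D2 0 q r0 (100 * rho j2)) →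
      D1 ≤ D0 * Real.exp ((c' + q) * ((M - k1) * Real.log 2) + ε * (M * Real.log 2)) →
      D2 ≤ D0 * Real.exp ((c' + q) * ((M - k2) * Real.log 2) + ε * (M * Real.log 2)) →
      (∀ x ∈ I, Real.exp ((1 - s - ε) * (M * Real.log 2)) ≤ ((own I i j x).card : ℝ)) →
      (∀ x ∈ I, Real.exp ((1 - s) * (k1 * Real.log 2) - ε * (M * Real.log 2)) ≤
        ((own I j1 j x).card : ℝ)) →
      (∀ x ∈ I, ((own I j1 j x).card : ℝ) ≤
        Real.exp ((1 - s) * (k1 * Real.log 2) + ε * (M * Real.log 2))) →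
      (∀ x ∈ I, D0 * W1 * W2 ^ (1 + q) * Real.exp (-(2 - c' + ε) * (M * Real.log 2)) ≤
        (((alive I j (zc j x.2)).filter fun t =>
          |dt (Flag51.pos (L t) (zl j (zc j x.2)) - Flag51.pos (L x.1) (zl j (zc j x.2))) E| ≤
            2 * W1 / 2 ^ M ∧
          |cr E (Flag51.pos (L t) (zl j (zc j x.2)) - Flag51.pos (L x.1) (zl j (zc j x.2)))| ≤
            2 * W2 / 2 ^ M).card : ℝ)) → False := by
  obtain ⟨η, τ, ε₀, ℓ₀, hη0, hη1, hτ0, hτ1, hε0, hℓ0, key⟩ := lemmaA_exp hs hs1 hsc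
  have hlog : 0 < Real.log 2 := Real.log_pos (by norm_num)
  set N : ℕ := ⌈2 * Kc⌉₊ with hN
  have hKN : 2 * Kc ≤ N := Nat.le_ceil _
  have hN1 : 1 ≤ N := by
    have : (1:ℝ) ≤ N := by linarith
    exact_mod_cast this
  have hNr : (1:ℝ) ≤ N := by exact_mod_cast hN1
  set CN : ℝ := 3 * (2 * N + 1) ^ 4 * 2880 * 144 ^ q with hCN
  have h144 : (1:ℝ) ≤ 144 ^ q := Real.one_le_rpow (by norm_num) hq
  have hp4 : (1:ℝ) ≤ (2 * (N:ℝ) + 1) ^ 4 := one_le_pow₀ (by linarith)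
  have hCN1 : 1 ≤ CN := by
    rw [hCN]; nlinarith
  have hCN0 : 0 < CN := by linarith
  have hN3 : (N : ℝ) ≤ 3 * Kc := by
    have := (Nat.ceil_lt_add_one (by linarith : 0 ≤ 2 * Kc)).le
    rw [← hN] at this
    linarith
  set M0 : ℕ := ⌈(ℓ₀ + Real.log CN / (ε₀ / 2)) / Real.log 2⌉₊ with hM0
  refine ⟨η, τ, ε₀ / 2, max 3 M0, N, hη0, hη1, hτ0, hτ1, by linarith, hN1, hN3, ?_⟩
  intro I L i M k1 k2 j j1 j2 J l0 E W1 W2 r0 D0 D1 D2 hj hj1 hj2 hM hk1a hk1b hk2a hk2b hI hJ hE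
    hW1 hW12 hW2 hr0 hr hin hD0 hD1 hD2 hdm0 hdm1 hdm2 hD1' hD2' hown hw1 hw2 hrich
  have hW2' : 0 < W2 := lt_of_lt_of_le hW1 hW12
  have hM3 : 3 ≤ M := (le_max_left _ _).trans hM
  replace hM : M0 ≤ M := (le_max_right _ _).trans hM
  have hr' : r0 * N ≤ W1 := by
    have h8 : (2:ℝ) ^ 3 ≤ 2 ^ M := pow_le_pow_right₀ (by norm_num) hM3
    have h9 : r0 * N * 2 ^ 3 ≤ r0 * N * 2 ^ M := mul_le_mul_of_nonneg_left h8 (by positivity)
    have h10 : r0 * N * 2 ^ M = r0 * (N * 2 ^ M) := by ring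
    linarith
  set ℓ : ℝ := M * Real.log 2 with hℓ
  have hMM : (ℓ₀ + Real.log CN / (ε₀ / 2)) ≤ ℓ := by
    have e1 : (ℓ₀ + Real.log CN / (ε₀ / 2)) / Real.log 2 ≤ M0 := Nat.le_ceil _
    have e2 : (M0 : ℝ) ≤ M := by exact_mod_cast hM
    rw [div_le_iff₀ hlog] at e1
    exact e1.trans (mul_le_mul_of_nonneg_right e2 hlog.le)
  have hlC : 0 ≤ Real.log CN := Real.log_nonneg hCN1
  have hℓℓ : ℓ₀ ≤ ℓ := by
    have : 0 ≤ Real.log CN / (ε₀ / 2) := by positivity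
    linarith
  have hCexp : CN ≤ Real.exp (ε₀ / 2 * ℓ) := by
    rw [← Real.log_le_iff_le_exp hCN0]
    have : Real.log CN / (ε₀ / 2) ≤ ℓ := by linarith
    rw [div_le_iff₀ (by linarith)] at this
    linarith
  have hℓp : 0 < ℓ := lt_of_lt_of_le hℓ0 hℓℓ
  have hεℓ : 0 < ε₀ * ℓ := mul_pos hε0 hℓp
  set h : ℝ := k1 * Real.log 2 with hh
  set t : ℝ := k2 * Real.log 2 with ht
  have hMk1 : (M - k1 : ℝ) * Real.log 2 = ℓ - h := by rw [hℓ, hh]; ring
  have hMk2 : (M - k2 : ℝ) * Real.log 2 = ℓ - t := by rw [hℓ, ht]; ring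
  rw [hMk1] at hD1'
  rw [hMk2] at hD2'
  have hk1M : k1 ≤ M := by
    have : (k1 : ℝ) ≤ M := hk1b.trans (by nlinarith [(Nat.cast_nonneg M : (0:ℝ) ≤ M)])
    exact_mod_cast this
  have hk2M : k2 ≤ M := by
    have : (k2 : ℝ) ≤ M := hk2b.trans (by nlinarith [(Nat.cast_nonneg M : (0:ℝ) ≤ M)])
    exact_mod_cast this
  have hR : (2:ℝ) ^ M = Real.exp ℓ := two_pow_exp M
  have hH : (2:ℝ) ^ k1 = Real.exp h := two_pow_exp k1
  have hT : Real.exp t = (2:ℝ) ^ k2 := (two_pow_exp k2).symm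
  subst hj
  set Z := Iz I (i + M) M J with hZ
  set n₀ : ℝ := Real.log (D0 * W1 * W2 ^ (1 + q)) with hn₀
  have hcap : 0 < D0 * W1 * W2 ^ (1 + q) := by positivity
  have hen : Real.exp n₀ = D0 * W1 * (W2 * W2 ^ q) := by
    rw [hn₀, Real.exp_log hcap, Real.rpow_add hW2', Real.rpow_one]
  refine key Z (fa L i J l0 E W2) (fb L i J l0 E W1) (fc L i l0 E W2) (fd L i l0 E W1) (2 ^ k1)
    (2 ^ M) ℓ n₀ h t ?_ (by positivity) hℓℓ hR (by push_cast; exact hH)
    (by rw [hℓ, hh, ← mul_assoc]; exact mul_le_mul_of_nonneg_right hk1a hlog.le)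
    (by rw [hℓ, hh, ← mul_assoc]; exact mul_le_mul_of_nonneg_right hk1b hlog.le)
    (by rw [hℓ, ht, ← mul_assoc]; exact mul_le_mul_of_nonneg_right hk2a hlog.le)
    (by rw [hℓ, ht, ← mul_assoc]; exact mul_le_mul_of_nonneg_right hk2b hlog.le)
    ?_ ?_ ?_ ?_ ?_ ?_ ?_ ?_
  · obtain ⟨x, hx⟩ := hI
    exact ⟨(x.1, zc (i + M) x.2 - 2 ^ M * J), mem_Iz.2 ⟨x, hx, rfl, by ring⟩⟩
  · -- bounds
    intro x hx
    obtain ⟨v, hv, g1, g2⟩ := mem_Iz.1 hx
    have hr1 := Iz_range hJ hx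
    have hin2 := hin v hv
    rw [g1] at hin2
    have p1 := pos_bd L i J l0 W2 (cr_lin E) M hW2' x.1 (fun z hz => (hin2 z hz).2) x.2 hr1.1
      hr1.2.le
    have p2 := pos_bd (φ := fun x => dt x E) L i J l0 W1 (dt_lin E) M hW1 x.1
      (fun z hz => (hin2 z hz).1) x.2 hr1.1 hr1.2.le
    refine ⟨?_, p1.1, p2.1, p1.2, p2.2⟩
    have e1 : (0:ℝ) ≤ x.2 := by exact_mod_cast hr1.1
    have e2 : (x.2:ℝ) ≤ 2 ^ M := by exact_mod_cast hr1.2.le
    rw [abs_of_nonneg e1]; exact e2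
  · -- own
    intro x hx
    obtain ⟨v, hv, g1, g2⟩ := mem_Iz.1 hx
    have e1 := hown v hv
    have e2 := own_le_Iz (I := I) (i := i) (M := M) (J := J) (x := v)
    rw [g1] at e2
    refine le_trans (le_trans ?_ e1) (Nat.cast_le.2 (e2.trans (card_le_card fun y hy => ?_)))
    · rw [Real.exp_le_exp]
      linarith
    · rw [mem_filter] at hy ⊢; exact hy
  · intro x hx
    obtain ⟨v, hv, g1, g2⟩ := mem_Iz.1 hx
    have e1 := hw1 v hv
    have e2 := own_eq_Iz (I := I) (J := J) hj1 hk1M (x := v) (y := x) g1 g2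
    rw [e2] at e1
    refine le_trans (le_trans ?_ e1) (Nat.cast_le.2 (card_le_card fun y hy => ?_))
    · rw [Real.exp_le_exp]
      linarith
    · rw [mem_filter] at hy ⊢; exact hy
  · intro x hx
    obtain ⟨v, hv, g1, g2⟩ := mem_Iz.1 hx
    have e1 := hw2 v hv
    have e2 := own_eq_Iz (I := I) (J := J) hj1 hk1M (x := v) (y := x) g1 g2
    rw [e2] at e1
    refine le_trans (Nat.cast_le.2 (card_le_card fun y hy => ?_)) (le_trans e1 ?_)
    · rw [mem_filter] at hy ⊢; exact hy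
    · rw [Real.exp_le_exp]
      linarith
  · -- ball
    intro x hx
    obtain ⟨v, hv, g1, g2⟩ := mem_Iz.1 hx
    have e1 := hrich v hv
    have e0 : Real.exp (n₀ - (2 - c') * ℓ - ε₀ * ℓ) ≤
        D0 * W1 * W2 ^ (1 + q) * Real.exp (-(2 - c' + ε₀ / 2) * ℓ) := by
      rw [← Real.exp_log hcap, ← hn₀, ← Real.exp_add, Real.exp_le_exp]
      linarith
    refine le_trans (e0.trans e1) (Nat.cast_le.2 ?_)
    rw [g2, g1]
    refine card_le_card_of_injOn (fun t => (t, x.2)) ?_ ?_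
    · intro t ht
      rw [mem_coe, mem_filter] at ht
      obtain ⟨hal, hdt, hcr⟩ := ht
      unfold alive at hal
      obtain ⟨w, hw, rfl⟩ := mem_image.1 hal
      rw [mem_filter] at hw
      rw [mem_coe]
      unfold Ball
      rw [mem_filter]
      refine ⟨mem_Iz.2 ⟨w, hw.1, rfl, hw.2⟩, rfl, ?_, ?_⟩
      · have d1 := pos_diff L i J l0 W2 (cr_lin E) M hW2' w.1 x.1 x.2
          (zl (i + M) (2 ^ M * J + x.2))
        rw [sub_self, zero_div, zero_mul, add_zero] at d1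
        rw [d1, abs_mul, abs_of_pos (by linarith : 0 < 2 * W2), mul_div_assoc] at hcr
        have h2 : (2 * W2) * |pos (gp (cr E) L i J l0 W2) (gv (cr E) L i l0 W2) (2 ^ M) w.1 x.2 -
            pos (gp (cr E) L i J l0 W2) (gv (cr E) L i l0 W2) (2 ^ M) x.1 x.2| ≤
            (2 * W2) * (1 / 2 ^ M) := by
          refine hcr.trans (le_of_eq ?_); ring
        exact le_of_mul_le_mul_left h2 (by linarith)
      · have d1 := pos_diff (φ := fun x => dt x E) L i J l0 W1 (dt_lin E) M hW1 w.1 x.1 x.2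
          (zl (i + M) (2 ^ M * J + x.2))
        rw [sub_self, zero_div, zero_mul, add_zero] at d1
        rw [d1, abs_mul, abs_of_pos (by linarith : 0 < 2 * W1), mul_div_assoc] at hdt
        have h2 : (2 * W1) * |pos (gp (fun x => dt x E) L i J l0 W1)
            (gv (fun x => dt x E) L i l0 W1) (2 ^ M) w.1 x.2 -
            pos (gp (fun x => dt x E) L i J l0 W1) (gv (fun x => dt x E) L i l0 W1) (2 ^ M)
              x.1 x.2| ≤ (2 * W1) * (1 / 2 ^ M) := by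
          refine hdt.trans (le_of_eq ?_); ring
        exact le_of_mul_le_mul_left h2 (by linarith)
    · intro t _ t' _ h
      have := congrArg Prod.fst h
      simpa using this
  · -- slab
    intro x hx n hn
    refine le_trans (Nat.cast_le.2 (card_le_card fun y hy => ?_))
      ((slab_le hJ hE hq hW1 hW12 hW2 hr0 hr hN1 hKN hin hj1 hD1 hdm1 hx n hn).trans ?_)
    · rw [mem_image] at hy ⊢; exact hy
    have e1 : (144:ℝ) * 2 ^ k1 * W2 / 2 ^ M = 144 * W2 * Real.exp (h - ℓ) := by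
      rw [hH, hR, Real.exp_sub]; ring
    have e2 : 2880 * (2:ℝ) ^ k1 * W1 * W2 / (2 ^ M) ^ 2 =
        2880 * W1 * W2 * Real.exp (h - 2 * ℓ) := by
      rw [hH, hR, ← Real.exp_nat_mul, Real.exp_sub]; push_cast; ring
    rw [e1, e2, rpow_aux (by norm_num) hW2']
    calc 3 * ((2 * (N:ℝ) + 1) ^ 4 * (D1 * (2880 * W1 * W2 * Real.exp (h - 2 * ℓ) *
          (144 ^ q * (W2 ^ q * Real.exp (q * (h - ℓ))))))) ≤
        3 * ((2 * (N:ℝ) + 1) ^ 4 * ((D0 * Real.exp ((c' + q) * (ℓ - h) + ε₀ / 2 * ℓ)) *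
          (2880 * W1 * W2 * Real.exp (h - 2 * ℓ) *
          (144 ^ q * (W2 ^ q * Real.exp (q * (h - ℓ))))))) := by gcongr
      _ = CN * ((D0 * W1 * (W2 * W2 ^ q)) * (Real.exp ((c' + q) * (ℓ - h) + ε₀ / 2 * ℓ) *
          Real.exp (h - 2 * ℓ) * Real.exp (q * (h - ℓ)))) := by rw [hCN]; ring
      _ ≤ Real.exp (ε₀ / 2 * ℓ) * ((D0 * W1 * (W2 * W2 ^ q)) *
          (Real.exp ((c' + q) * (ℓ - h) + ε₀ / 2 * ℓ) *
          Real.exp (h - 2 * ℓ) * Real.exp (q * (h - ℓ)))) := by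
          refine mul_le_mul_of_nonneg_right hCexp (by positivity)
      _ = Real.exp (n₀ - (2 - c') * (ℓ - h) - h + ε₀ * ℓ) := by
          rw [← hen, ← Real.exp_add, ← Real.exp_add, ← Real.exp_add, ← Real.exp_add]
          congr 1; ring
  · -- tube
    intro x hx
    refine (tube_le hJ hE hq hW1 hW12 hW2 hr0 hr hN1 hKN hj2 hD2 hT hdm2 hx).trans ?_
    have e1 : 6 * W2 / 2 ^ M = 6 * W2 * Real.exp (-ℓ) := by
      rw [hR, Real.exp_neg]; ring
    have e2 : 6 * W1 / 2 ^ M = 6 * W1 * Real.exp (-ℓ) := by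
      rw [hR, Real.exp_neg]; ring
    rw [e1, e2, rpow_aux (by norm_num) hW2']
    have e6 : (6:ℝ) ^ q ≤ 144 ^ q := Real.rpow_le_rpow (by norm_num) (by norm_num) hq
    calc (2 * (N:ℝ) + 1) ^ 4 * (D2 * (6 * W1 * Real.exp (-ℓ) * (6 * W2 * Real.exp (-ℓ)) *
          (6 ^ q * (W2 ^ q * Real.exp (q * -ℓ))))) ≤
        (2 * (N:ℝ) + 1) ^ 4 * ((D0 * Real.exp ((c' + q) * (ℓ - t) + ε₀ / 2 * ℓ)) *
          (6 * W1 * Real.exp (-ℓ) * (6 * W2 * Real.exp (-ℓ)) *
          (144 ^ q * (W2 ^ q * Real.exp (q * -ℓ))))) := by gcongr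
      _ = ((2 * (N:ℝ) + 1) ^ 4 * 36 * 144 ^ q) * ((D0 * W1 * (W2 * W2 ^ q)) *
          (Real.exp ((c' + q) * (ℓ - t) + ε₀ / 2 * ℓ) *
          Real.exp (-ℓ) * Real.exp (-ℓ) * Real.exp (q * -ℓ))) := by ring
      _ ≤ Real.exp (ε₀ / 2 * ℓ) * ((D0 * W1 * (W2 * W2 ^ q)) *
          (Real.exp ((c' + q) * (ℓ - t) + ε₀ / 2 * ℓ) *
          Real.exp (-ℓ) * Real.exp (-ℓ) * Real.exp (q * -ℓ))) := by
          refine mul_le_mul_of_nonneg_right (le_trans ?_ hCexp) (by positivity)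
          rw [hCN]
          have : (2 * (N:ℝ) + 1) ^ 4 * 36 * 144 ^ q = 36 * ((2 * (N:ℝ) + 1) ^ 4 * 144 ^ q) := by
            ring
          rw [this]
          have : 3 * (2 * (N:ℝ) + 1) ^ 4 * 2880 * 144 ^ q =
            8640 * ((2 * (N:ℝ) + 1) ^ 4 * 144 ^ q) := by ring
          rw [this]
          gcongr
          norm_num
      _ = Real.exp (n₀ - (2 - c') * ℓ - (c' + q) * t + ε₀ * ℓ) := by
          rw [← hen, ← Real.exp_add, ← Real.exp_add, ← Real.exp_add, ← Real.exp_add,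
            ← Real.exp_add]
          congr 1; ring
      _ ≤ Real.exp (n₀ - (2 - c') * ℓ - c' * t + ε₀ * ℓ) := by
          rw [Real.exp_le_exp]
          have : 0 ≤ q * t := by rw [ht]; positivity
          linarith
  · -- lines
    refine le_trans (Nat.cast_le.2 (card_le_card fun y hy => ?_))
      ((lines_le (M := M) hJ hE hq hW1 hW12 hW2 hr0 hr' hN1 hKN hin hD0.le hdm0).trans ?_)
    · rw [mem_image] at hy ⊢; exact hy
    calc (2 * (N:ℝ) + 1) ^ 4 * (D0 * (W1 * W2 * W2 ^ q)) =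
        (2 * (N:ℝ) + 1) ^ 4 * (D0 * W1 * (W2 * W2 ^ q)) := by ring
      _ ≤ Real.exp (ε₀ / 2 * ℓ) * (D0 * W1 * (W2 * W2 ^ q)) := by
          refine mul_le_mul_of_nonneg_right (le_trans ?_ hCexp) (by positivity)
          rw [hCN]; nlinarith
      _ ≤ Real.exp (ε₀ * ℓ) * (D0 * W1 * (W2 * W2 ^ q)) := by
          refine mul_le_mul_of_nonneg_right ?_ (by positivity)
          rw [Real.exp_le_exp]; linarith
      _ = Real.exp (n₀ + ε₀ * ℓ) := by rw [← hen, ← Real.exp_add, add_comm]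


theorem exp_two (x : ℝ) : Real.exp (x * Real.log 2) = (2:ℝ) ^ x := by
  rw [Real.rpow_def_of_pos (by norm_num), mul_comm]

open Classical in
/-- **LEMMA A over one box**, form of the assembly (829, 57): levels `i ≤ j1, j2 ≤ j`, powers of
`2`, resolution `r0 ≤ W1 / (Kc 2^M)`. -/
theorem boxA2 {s c' q Kc : ℝ} (hs : 0 ≤ s) (hs1 : s ≤ 1) (hsc : 2 * s < c') (hq : 0 ≤ q)
    (hK : 1 ≤ Kc) :
    ∃ (η τ ε : ℝ) (M0 : ℕ), 0 < η ∧ η < 1 ∧ 0 < τ ∧ τ < 1 ∧ 0 < ε ∧
    ∀ (I : Finset (ℕ × ℝ)) (L : ℕ → Ln) (i j j1 j2 : ℕ) (J : ℤ) (l0 : Ln) (E : E2)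
      (W1 W2 r0 D0 D1 D2 : ℝ),
      i ≤ j → j1 ≤ j → j2 ≤ j → M0 ≤ j - i →
      η / 2 * ((j - i : ℕ) : ℝ) ≤ ((j - j1 : ℕ) : ℝ) →
      ((j - j1 : ℕ) : ℝ) ≤ η * ((j - i : ℕ) : ℝ) →
      τ / 2 * ((j - i : ℕ) : ℝ) ≤ ((j - j2 : ℕ) : ℝ) →
      ((j - j2 : ℕ) : ℝ) ≤ τ * ((j - i : ℕ) : ℝ) →
      I.Nonempty → (∀ x ∈ I, zc i x.2 = J) → dt E E = 1 → 0 < W1 → W1 ≤ W2 → W2 ≤ Kc * rho i →
      0 < r0 → r0 * (Kc * 2 ^ (j - i)) ≤ W1 →
      (∀ x ∈ I, InPlank (L x.1) l0 E W1 W2 (zl i J) (rho i)) →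
      0 < D0 → 0 ≤ D1 → 0 ≤ D2 →
      DMax (alive I i J) L (fun _ => 1) (zl i J) (rho i) D0 0 q r0 (100 * rho i) →
      (∀ J', DMax (alive I j1 J') L (fun _ => 1) (zl j1 J') (rho j1) D1 0 q r0 (100 * rho j1)) →
      (∀ J', DMax (alive I j2 J') L (fun _ => 1) (zl j2 J') (rho j2) D2 0 q r0 (100 * rho j2)) →
      D1 ≤ D0 * (2:ℝ) ^ ((c' + q) * (((j - i : ℕ) : ℝ) - ((j - j1 : ℕ) : ℝ)) +
        ε * ((j - i : ℕ) : ℝ)) →
      D2 ≤ D0 * (2:ℝ) ^ ((c' + q) * (((j - i : ℕ) : ℝ) - ((j - j2 : ℕ) : ℝ)) +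
        ε * ((j - i : ℕ) : ℝ)) →
      (∀ x ∈ I, (2:ℝ) ^ ((1 - s) * ((j - i : ℕ) : ℝ) - ε * ((j - i : ℕ) : ℝ)) ≤
        ((own I i j x).card : ℝ)) →
      (∀ x ∈ I, (2:ℝ) ^ ((1 - s) * ((j - j1 : ℕ) : ℝ) - ε * ((j - i : ℕ) : ℝ)) ≤
        ((own I j1 j x).card : ℝ)) →
      (∀ x ∈ I, ((own I j1 j x).card : ℝ) ≤
        (2:ℝ) ^ ((1 - s) * ((j - j1 : ℕ) : ℝ) + ε * ((j - i : ℕ) : ℝ))) →
      (∀ x ∈ I, D0 * W1 * W2 ^ (1 + q) *
          (2:ℝ) ^ (-(2 - c') * ((j - i : ℕ) : ℝ) - ε * ((j - i : ℕ) : ℝ)) ≤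
        (((alive I j (zc j x.2)).filter fun t =>
          |cr E (Flag51.pos (L t) (zl j (zc j x.2)) - Flag51.pos (L x.1) (zl j (zc j x.2)))| ≤
            2 * W2 / 2 ^ (j - i) ∧
          |dt (Flag51.pos (L t) (zl j (zc j x.2)) - Flag51.pos (L x.1) (zl j (zc j x.2))) E| ≤
            2 * W1 / 2 ^ (j - i)).card : ℝ)) → False := by
  obtain ⟨η, τ, ε, M0, N, h1, h2, h3, h4, h5, h6, h7, key⟩ := boxA_core hs hs1 hsc hq hK
  refine ⟨η, τ, ε, M0, h1, h2, h3, h4, h5, ?_⟩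
  intro I L i j j1 j2 J l0 E W1 W2 r0 D0 D1 D2 hij hj1 hj2 hM hk1a hk1b hk2a hk2b hI hJ hE
    hW1 hW12 hW2 hr0 hr hin hD0 hD1 hD2 hdm0 hdm1 hdm2 hD1' hD2' hown hw1 hw2 hrich
  refine key I L i (j - i) (j - j1) (j - j2) j j1 j2 J l0 E W1 W2 r0 D0 D1 D2 (by omega) (by omega)
    (by omega) hM hk1a hk1b hk2a hk2b hI hJ hE hW1 hW12 hW2 hr0 ?_ hin hD0 hD1 hD2 hdm0 hdm1 hdm2
    (hD1'.trans (le_of_eq ?_)) (hD2'.trans (le_of_eq ?_))
    (fun x hx => (le_of_eq ?_).trans (hown x hx)) (fun x hx => (le_of_eq ?_).trans (hw1 x hx))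
    (fun x hx => (hw2 x hx).trans (le_of_eq ?_))
    (fun x hx => ((le_of_eq ?_).trans (hrich x hx)).trans (Nat.cast_le.2 (card_le_card ?_)))
  · have e1 : r0 * (N * 2 ^ (j - i)) ≤ r0 * ((3 * Kc) * 2 ^ (j - i)) := by gcongr
    have e2 : r0 * ((3 * Kc) * 2 ^ (j - i)) = 3 * (r0 * (Kc * 2 ^ (j - i))) := by ring
    linarith
  · rw [← exp_two]; congr 2; ring
  · rw [← exp_two]; congr 2; ring
  · rw [← exp_two]; congr 1; ring
  · rw [← exp_two]; congr 1; ring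
  · rw [← exp_two]; congr 1; ring
  · rw [← exp_two]; congr 2; ring
  · intro t ht
    rw [mem_filter] at ht ⊢
    exact ⟨ht.1, ht.2.2, ht.2.1⟩

end Crest.Agent.R138.LmA861
end

-- ▼ part R138/LmAV_829

/-!
# R138, L12 (helper829): LEMMA A, `Rotates k0` for every marked sequence with linear own profile

Assembly: failure of `Rotates (eps/2)` => (LmAU_829) a dense marked part which is clustered and whose
container label is a function of the deep class => one container box at one large `n` =>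
(LmAN_57 numerics) contradiction with `boxA2` of LmA7_861.
-/

set_option autoImplicit false
set_option linter.unusedVariables false
set_option linter.unusedSectionVars false

open Finset Filter Topology

namespace Crest.Agent.R138.LmAV829

open Crest.Agent.R138.Ex926 (Base U)
open Crest.Agent.R138.Dp76 (dpow_pos dpow_add)
open Crest.Agent.R138.Flag51 (Ln E2 cr dt InPlank pos)
open Crest.Agent.R138.Tilt51 (DMax Near)
open Crest.Agent.R138.Mk163
open Crest.Agent.R138.MkRef627 (lc kc mem_alive alive_mono)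
open Crest.Agent.R138.Ctn829
open Crest.Agent.R138.LmAU829

set_option maxHeartbeats 1000000 in
/-- **LEMMA A** for marked sequences with `Λ v = s v`. -/
theorem hrot (q g s : ℝ) (hs : 0 ≤ s) (hs1 : s ≤ 1) :
    ∃ k0 : ℝ, 0 < k0 ∧ ArgM163.HRot q g s k0 := by
  by_cases hgq : 0 < g ∧ 0 < q
  swap
  · refine ⟨1, one_pos, ?_⟩
    intro B I L lev r0 A τ f b e w1 w2 h
    exact absurd ⟨h.g0, h.q0⟩ hgq
  obtain ⟨hg, hq⟩ := hgq
  obtain ⟨η, τ', ε, M0, hη0, hη1, hτ0, hτ1, hε, key⟩ :=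
    LmA861.boxA2 (s := s) (c' := 2 * s + g) (q := q) (Kc := 32) hs hs1 (by linarith) hq.le
      (by norm_num)
  refine ⟨ε / 2, half_pos hε, ?_⟩
  intro B I L lev r0 A τ f b e w1 w2 h u v hu huv hv
  by_contra hneg
  obtain ⟨J, ce, hJ, hcl⟩ := seq_part h hu huv hv (half_pos hε).le hneg
  obtain ⟨a, a', ⟨ha1, ha2⟩, ⟨ha1', ha2'⟩, ε1, hε1, hev⟩ :=
    LmAN57.arith hJ hu huv hv hη0 hη1.le hτ0 hτ1.le hε M0
  have hv0 : 0 ≤ v := hu.trans huv.le
  have hu1 : u ≤ 1 := huv.le.trans hv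
  have hfin : ∀ᶠ n in (U : Filter ℕ), False := by
    filter_upwards [hev, hcl, hJ.ne, dlt_facts hJ hu huv hv (half_pos hε).le,
      hJ.dmax u hu hu1 ε1 hε1, hJ.dmax a (hu.trans ha1.le) (ha2.le.trans hv) ε1 hε1,
      hJ.dmax a' (hu.trans ha1'.le) (ha2'.le.trans hv) ε1 hε1, hJ.near v hv0 hv ε1 hε1,
      hJ.dims v hv0 hv, hJ.lev_mono u v hu huv.le hv] with n p1 p2 p3 p4 p5 p6 p7 p8 p9 p10
    obtain ⟨q1, q2, q3, q4, q5, q6, q7, q8, q9, q10, q11, q12, q13⟩ := p1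
    obtain ⟨c1, c2, c3⟩ := p2
    obtain ⟨x0, hx0⟩ := p3
    obtain ⟨hw1, hw2, hδ, hw12⟩ := p4
    have hδ1 : dlt B w1 w2 (ε / 2) u v n ≤ 1 := dlt_le_one _ _ _ _
    set δ := dlt B w1 w2 (ε / 2) u v n with hδdef
    set R : ℝ := 2 ^ (lev n v - lev n u) with hR
    have hR0 : 0 < R := by positivity
    set W1 := 32 * δ * w2 n v * R with hW1def
    set W2 := 32 * w2 n v * R with hW2def
    have hW1 : 0 < W1 := by positivity
    have hW12 : W1 ≤ W2 := by
      have h1 : W1 = δ * W2 := by rw [hW1def, hW2def]; ring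
      have hW2 : 0 < W2 := by positivity
      calc W1 = δ * W2 := h1
        _ ≤ 1 * W2 := mul_le_mul_of_nonneg_right hδ1 hW2.le
        _ = W2 := one_mul _
    have hrv : rho (lev n u) = R * rho (lev n v) := rho_mul p10
    set Q := Qc (L n) (lev n u) (ce n) δ W1 W2 with hQ
    set F := (J n).filter fun y => Q y = Q x0 with hF
    have hFJ : F ⊆ J n := filter_subset _ _
    have hsub : ∀ i c, alive F i c ⊆ alive (J n) i c := fun i c => alive_mono hFJ i c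
    have hown : ∀ x ∈ F, ∀ i, lev n u ≤ i → ∀ j, own F i j x = own (J n) i j x := by
      intro x hx i hi j
      exact own_fiber Q (fun x y hxy => Qc_congr (L n) (ce n) δ W1 W2 hxy) hx hi j
    refine key F (L n) (lev n u) (lev n v) (lev n a) (lev n a') (zc (lev n u) x0.2) (L n x0.1)
      (rep δ (kl δ (ce n (lc (lev n u) x0)))) W1 W2 (r0 n)
      (B.d n ^ (-ε1) * amp B lev A q g (fun v => s * v) n u)
      (B.d n ^ (-ε1) * amp B lev A q g (fun v => s * v) n a)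
      (B.d n ^ (-ε1) * amp B lev A q g (fun v => s * v) n a') p10 q2 q4 q5 q6 q7 q8 q9
      ⟨x0, mem_filter.2 ⟨hx0, rfl⟩⟩ ?_ (rep_spec (c1 x0 hx0)).1 hW1 hW12 ?_ (hJ.rpos n) ?_ ?_ ?_ ?_ ?_
      ?_ ?_ ?_ ?_ ?_ ?_ ?_ ?_ ?_
    · intro x hx
      exact congrArg Prod.fst (mem_filter.1 hx).2
    · calc W2 = 32 * w2 n v * R := hW2def
        _ ≤ 32 * rho (lev n v) * R := by
            have := p9.2.2
            gcongr
        _ = 32 * rho (lev n u) := by rw [hrv]; ring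
    · rw [hW1def]
      have : r0 n ≤ δ * w2 n v := p9.1.trans hw12
      calc r0 n * (32 * 2 ^ (lev n v - lev n u)) = 32 * (r0 n) * R := by rw [hR]; ring
        _ ≤ 32 * (δ * w2 n v) * R := by gcongr
        _ = _ := by ring
    · intro x hx
      have h1 := (mem_filter.1 hx).2
      have h2 : zc (lev n u) x.2 = zc (lev n u) x0.2 := congrArg Prod.fst h1
      have h3 := congrArg Prod.snd h1
      simp only [hQ, Qc] at h3
      rw [h2] at h3
      exact Qlab_box hW1 (hW1.trans_le hW12) (rho_pos _) h3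
    · exact mul_pos (dpow_pos B n _) (LmAN57.amp_pos hJ.Apos n u)
    · exact (mul_pos (dpow_pos B n _) (LmAN57.amp_pos hJ.Apos n a)).le
    · exact (mul_pos (dpow_pos B n _) (LmAN57.amp_pos hJ.Apos n a')).le
    · exact (p5 _).subset (hsub _ _) (fun _ _ => zero_le_one)
    · intro J'; exact (p6 J').subset (hsub _ _) (fun _ _ => zero_le_one)
    · intro J'; exact (p7 J').subset (hsub _ _) (fun _ _ => zero_le_one)
    · rw [mul_assoc]
      exact mul_le_mul_of_nonneg_left q10 (dpow_pos B n _).le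
    · rw [mul_assoc]
      exact mul_le_mul_of_nonneg_left q11 (dpow_pos B n _).le
    · intro x hx
      rw [hown x hx _ le_rfl]
      exact (q12 x (hFJ hx)).1
    · intro x hx
      rw [hown x hx _ q1]
      exact (q12 x (hFJ hx)).2.1
    · intro x hx
      rw [hown x hx _ q1]
      exact (q12 x (hFJ hx)).2.2.1
    · intro x hx
      have h1 := box_rich p10 hw2 hw12 hδ hδ1 c1 c2 c3 (dpow_pos B n (-ε1)).le p8 hx
      have h2 : B.d n ^ ε1 * (amp B lev A q g (fun v => s * v) n v * w1 n v * w2 n v ^ (1 + q)) ≤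
          (((alive F (lev n v) (zc (lev n v) x.2)).filter fun t =>
            |cr (rep δ (kl δ (ce n (lc (lev n u) x0)))) (pos (L n t) (zl (lev n v) (zc (lev n v) x.2)) -
              pos (L n x.1) (zl (lev n v) (zc (lev n v) x.2)))| ≤ 32 * w2 n v ∧
            |dt (pos (L n t) (zl (lev n v) (zc (lev n v) x.2)) -
              pos (L n x.1) (zl (lev n v) (zc (lev n v) x.2)))
              (rep δ (kl δ (ce n (lc (lev n u) x0))))| ≤ 32 * δ * w2 n v).card : ℝ) := by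
        have h3 := mul_le_mul_of_nonneg_left h1 (dpow_pos B n ε1).le
        rw [← mul_assoc (B.d n ^ ε1) (B.d n ^ (-ε1)), ← dpow_add, add_neg_cancel,
          Real.rpow_zero, one_mul] at h3
        refine h3.trans (le_of_eq ?_)
        congr!
      refine (q13.trans h2).trans (Nat.cast_le.2 (card_le_card ?_))
      intro t ht
      rw [mem_filter] at ht ⊢
      have e1 : 2 * W2 / 2 ^ (lev n v - lev n u) = 64 * w2 n v := by
        rw [hW2def, hR]; field_simp; ring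
      have e2 : 2 * W1 / 2 ^ (lev n v - lev n u) = 64 * (δ * w2 n v) := by
        rw [hW1def, hR]; field_simp; ring
      rw [e1, e2]
      have e3 : 0 < δ * w2 n v := mul_pos hδ hw2
      exact ⟨ht.1, ht.2.1.trans (by linarith), ht.2.2.trans (by linarith)⟩
  obtain ⟨_, hF⟩ := hfin.exists
  exact hF

end Crest.Agent.R138.LmAV829
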