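import Crest.Agent.R138.L15C_196
import Crest.Agent.R138.AeT7_501_Mg
import Crest.Agent.R138.GeoRf_298
import Crest.Agent.R138.Fs2_665
import Crest.Agent.R138.Gs1_789
import Crest.Agent.R138.Sh11_200
import Crest.Agent.R138.Rs5_134
import Crest.Agent.R138.Bk3_57_Mg
import Crest.Agent.R138.Rs4_134
import Crest.Agent.R138.Defs_665
import Crest.Agent.R138.Fq2_665
import Crest.Agent.R138.ExSp6_774
import Mathlib
import Crest.Prelude.Def_CurvedSurface
import Crest.Agent.R138.RsDef_134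
import Crest.Agent.R138.Loc_665
import Crest.Agent.R138.GrDef_63
import Crest.Agent.R138.Tub3_70
import Crest.Agent.R138.GrW3_294
import Crest.Agent.R138.BunC_294
import Crest.Agent.R138.LmAV_829_Mg
import Crest.Agent.R138.Rot_76

-- ▼ part R138/L15D_196
section

/-!
# R138, TEXT I, leaf L15 closed (helper196): `Nat5 → ExtP → False`
-/

set_option autoImplicit false

namespace Crest.Agent.R138.L15

open Crest.Agent.R138.Ex926
open Crest.Agent.R138.Flg101
open Crest.Agent.R138.Mk163 (Nat5)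
open Crest.Agent.R138.Flag51 (Ln E2)

variable {B : Base} {I : ℕ → Finset (ℕ × ℝ)} {L : ℕ → ℕ → Ln} {lev : ℕ → ℚ → ℕ}
    {r0 A : ℕ → ℝ} {q g : ℝ} {f : ℕ → ℚ → ℕ → ℤ → ℕ} {b : ℕ → ℚ → ℕ → Ln}
    {e : ℕ → ℚ → ℕ → E2} {w1 w2 : ℕ → ℚ → ℝ} {fl : ℕ → ℕ × ℝ → E2} {sc : ℕ → ℝ} {k s θ : ℝ}

/-- **L15**, unconditional. -/
theorem nat5_ext (h : Nat5 B I L lev r0 A q g f b e w1 w2 fl sc k s θ) :
    ∃ (I' : ℕ → Finset (ℕ × ℝ)) (x : ℕ → ℕ × ℝ → Inc) (line : ℕ → ℕ × ℝ → ℕ)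
      (ν : (Fin 6 → ℝ) → ℝ) (own : (Fin 2 → ℝ) → ℝ) (M c₀ : ℝ),
      ExtP B I' x line ν own M s (2 * s + g) q k θ c₀ :=
  ext_of_nat5 h (fun _ _ => Nx638.geoD) (fun _ _ => GeoR298.geoR)

/-- there is no natural marked sequence -/
theorem nat5_false (h : Nat5 B I L lev r0 A q g f b e w1 w2 fl sc k s θ) : False := by
  obtain ⟨I', x, line, ν, own, M, c₀, hE⟩ := nat5_ext h
  exact AeT501.ExtP.false hE

end Crest.Agent.R138.L15
end

-- ▼ part R138/Fin_665
section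

/-! S0189 from (EBn). -/

set_option autoImplicit false

open MeasureTheory FourierTransform
open scoped ENNReal ContDiff

namespace Crest.Agent.R138.Fq665

theorem C3_of_EBn (h : Defs.EBn) : Sh200.C3 :=
  Gs789.C3_of_GlobSec (GlobSec_of_LocSec (LocSec_of_EBn h))

theorem S0189_of_EBn (h : Defs.EBn) (p : ℝ≥0∞) (hp : 1 ≤ p)
    (δ : ℝ) (hδ : max (3 * abs ((p⁻¹).toReal - 1 / 2) - 1 / 2) 0 < δ) :
    ∃ C : ℝ, ∀ f : SchwartzMap (EuclideanSpace ℝ (Fin 3)) ℂ,
      MeasureTheory.eLpNorm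
          (𝓕⁻ (fun ξ : EuclideanSpace ℝ (Fin 3) => ((max (1 - ‖ξ‖ ^ 2) 0) ^ δ : ℝ) • 𝓕 (⇑f) ξ)) p
          MeasureTheory.volume ≤
        ENNReal.ofReal C * MeasureTheory.eLpNorm (⇑f) p MeasureTheory.volume :=
  Sh200.S0189_of_C3 (C3_of_EBn h) p hp δ hδ

end Crest.Agent.R138.Fq665
end

-- ▼ part R138/Rs6_134
section

/-!
Glue: `SparseOut h` gives the strong type estimates for the extension operator of the graph of `h`.
-/

set_option autoImplicit false
set_option maxSynthPendingDepth 3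

namespace Crest.Agent.R138.Rs134

open MeasureTheory Set Metric
open scoped ContDiff RealInnerProductSpace ENNReal

theorem coverOut : CoverOut := fun N C1 hN hC1 => Bk57.cover (E2 × ℝ) N C1 hN hC1

/-- Strong type `(p, p)` for every `p > 3`, from the sparse lemma. -/
theorem strong_of_sparse {h : E2 → ℝ} {c0 : ℝ} {K : ℕ} (hP : Par c0 K h) (hK : 2 ≤ K) (hc : c0 ≤ 1)
    (hS : SparseOut h) (p : ℝ) (hp : 3 < p) :
    ∃ C : ℝ, ∀ g : E2 → ℂ, Measurable g → (∀ ξ, 1 / 2 < ‖ξ‖ → g ξ = 0) →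
      eLpNorm (fun z : E2 × ℝ => ext h g z.1 z.2) (ENNReal.ofReal p) volume ≤
        ENNReal.ofReal C * eLpNorm g (ENNReal.ofReal p) volume := by
  refine Bk57.strong_of_weak hP.smooth.continuous ?_ p hp
  intro q hq
  obtain ⟨C, _, hC⟩ := wt_of hP hK hc hS coverOut q hq
  exact ⟨C, hC⟩

end Crest.Agent.R138.Rs134
end

-- ▼ part R138/Br1_134
section

/-!
Bridge `EB ⟹ LocH h` (helper134): bounded `g` satisfy the box bound with `D = C R⁻²`.
-/

set_option autoImplicit false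
set_option maxSynthPendingDepth 3

namespace Crest.Agent.R138.Rs134

open MeasureTheory Set Metric FourierTransform
open scoped ContDiff RealInnerProductSpace ENNReal NNReal


theorem cyl_defs (R : ℝ) : Defs.cyl R = cyl 0 0 R := by
  ext p
  simp only [Defs.cyl, cyl, Set.mem_ofPred_eq, mem_prod, mem_closedBall, dist_zero_right, mem_Icc,
    zero_sub, zero_add, abs_le]

theorem fourierInv_eq (F : E2 → ℂ) (x : E2) : 𝓕⁻ F x = ∫ ξ, F ξ * ee ⟪x, ξ⟫ := by
  rw [Real.fourierInv_eq']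
  refine integral_congr_ae (Filter.Eventually.of_forall fun ξ => ?_)
  simp only [smul_eq_mul, ee]
  rw [mul_comm, real_inner_comm]

/-- Conservation of energy on time slices. -/
theorem slice {h : E2 → ℝ} (hh : Continuous h) {f : E2 → ℂ} (h1 : Integrable f) (h2 : MemLp f 2)
    (t : ℝ) : ∫⁻ x, ‖ext h f x t‖ₑ ^ 2 = ∫⁻ ξ, ‖f ξ‖ₑ ^ 2 := by
  have hm : AEStronglyMeasurable (fun ξ => ee (t * h ξ)) (volume : Measure E2) :=
    (continuous_ee.comp (continuous_const.mul hh)).aestronglyMeasurable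
  have e1 : ∀ x, ext h f x t = 𝓕⁻ (fun ξ => f ξ * ee (t * h ξ)) x := by
    intro x
    rw [fourierInv_eq]
    unfold ext ph
    congr 1
    ext ξ
    rw [ee_add]; ring
  have h1' : Integrable (fun ξ => f ξ * ee (t * h ξ)) :=
    h1.mul_bdd (c := 1) hm (Filter.Eventually.of_forall fun ξ => (norm_ee _).le)
  have h2' : MemLp (fun ξ => f ξ * ee (t * h ξ)) 2 := by
    refine MemLp.of_le h2 h1'.aestronglyMeasurable (Filter.Eventually.of_forall fun ξ => ?_)
    rw [norm_mul_ee]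
  simp_rw [e1]
  rw [Fq665.plancherel_inv h1' h2']
  refine lintegral_congr fun ξ => ?_
  rw [← ofReal_norm, norm_mul_ee, ofReal_norm]

/-- Area of rectangles. -/
theorem volume_rect (c : E2) (b : OrthonormalBasis (Fin 2) ℝ E2) (r : Fin 2 → ℝ) :
    volume {η : E2 | ∀ i, |⟪η - c, b i⟫| ≤ r i} =
      ENNReal.ofReal (2 * r 0) * ENNReal.ofReal (2 * r 1) := by
  have h1 : {η : E2 | ∀ i, |⟪η - c, b i⟫| ≤ r i} =
      b.repr ⁻¹' ((WithLp.ofLp) ⁻¹' (Set.pi univ fun i => Icc (⟪c, b i⟫ - r i) (⟪c, b i⟫ + r i))) := by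
    ext η
    simp only [Set.mem_ofPred_eq, mem_preimage, mem_pi, mem_univ, forall_const, mem_Icc,
      b.repr_apply_apply, abs_le, inner_sub_left]
    refine forall_congr' fun i => ?_
    rw [real_inner_comm η (b i)]
    constructor
    · rintro ⟨h1, h2⟩; constructor <;> linarith
    · rintro ⟨h1, h2⟩; constructor <;> linarith
  have hm : MeasurableSet (Set.pi univ fun i : Fin 2 => Icc (⟪c, b i⟫ - r i) (⟪c, b i⟫ + r i)) :=
    MeasurableSet.univ_pi fun _ => measurableSet_Icc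
  rw [h1, b.measurePreserving_repr.measure_preimage
      ((PiLp.volume_preserving_ofLp (Fin 2)).measurable hm).nullMeasurableSet,
    (PiLp.volume_preserving_ofLp (Fin 2)).measure_preimage hm.nullMeasurableSet, volume_pi_pi,
    Fin.prod_univ_two]
  simp only [Real.volume_Icc]
  congr 2 <;> ring

theorem gradient_antilip {c0 : ℝ} {K : ℕ} {h : E2 → ℝ} (hP : Par c0 K h) (hK : 2 ≤ K)
    (hc : c0 ≤ 1 / 2) : AntilipschitzWith 2 (gradient h) := by
  refine AntilipschitzWith.of_le_mul_dist fun ξ η => ?_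
  have h1 : gradient h ξ - gradient h η =
      (InnerProductSpace.toDual ℝ E2).symm (fderiv ℝ h ξ - fderiv ℝ h η) := by
    unfold gradient; rw [map_sub]
  rw [dist_eq_norm, dist_eq_norm, h1, LinearIsometryEquiv.norm_map]
  have h2 : fderiv ℝ h ξ - fderiv ℝ h η =
      innerSL ℝ (ξ - η) + (fderiv ℝ (pk h) ξ - fderiv ℝ (pk h) η) := by
    rw [(hP.fderiv_h ξ).fderiv, (hP.fderiv_h η).fderiv, map_sub]; abel
  rw [h2]
  have h3 := norm_sub_norm_le (innerSL ℝ (ξ - η)) (-(fderiv ℝ (pk h) ξ - fderiv ℝ (pk h) η))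
  rw [sub_neg_eq_add, norm_neg, innerSL_apply_norm] at h3
  have h4 := hP.lip1 hK η ξ
  have h5 : ((2 : ℝ≥0) : ℝ) = 2 := rfl
  rw [h5]
  nlinarith [norm_nonneg (ξ - η)]

theorem volume_preimage_le {F : E2 → E2} {k : ℝ≥0} (hF : AntilipschitzWith k F)
    (s : Set E2) : volume (F ⁻¹' s) ≤ (k : ℝ≥0∞) ^ 2 * volume s := by
  have h1 : (volume : Measure E2) = Measure.addHaarScalarFactor (volume : Measure E2)
      (μH[(2 : ℕ)] : Measure E2) • (μH[(2 : ℕ)] : Measure E2) := by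
    rw [← Measure.euclideanHausdorffMeasure_def, EuclideanSpace.euclideanHausdorffMeasure_eq_volume]
  have h2 := hF.hausdorffMeasure_preimage_le (d := (2 : ℕ)) (by norm_num) s
  have h3 : (k : ℝ≥0∞) ^ (((2 : ℕ) : ℝ)) = (k : ℝ≥0∞) ^ 2 := ENNReal.rpow_natCast _ 2
  rw [h3] at h2
  rw [h1]
  simp only [Measure.smul_apply, ENNReal.smul_def, smul_eq_mul]
  rw [mul_left_comm]
  gcongr

/-- Area of curved rectangles. -/
theorem volume_curved {c0 : ℝ} {K : ℕ} {h : E2 → ℝ} (hP : Par c0 K h) (hK : 2 ≤ K)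
    (hc : c0 ≤ 1 / 2) (c : E2) (b : OrthonormalBasis (Fin 2) ℝ E2) (r : Fin 2 → ℝ) :
    volume {ξ : E2 | ∀ i, |⟪gradient h ξ - c, b i⟫| ≤ r i} ≤
      4 * (ENNReal.ofReal (2 * r 0) * ENNReal.ofReal (2 * r 1)) := by
  have h1 := volume_preimage_le (gradient_antilip hP hK hc) {η : E2 | ∀ i, |⟪η - c, b i⟫| ≤ r i}
  rw [volume_rect] at h1
  refine h1.trans (le_of_eq ?_)
  norm_num

/-- Bounded functions satisfy the box bound with `D = C R⁻²` (planks based anywhere). -/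
theorem boxBound_all {c0 : ℝ} {K : ℕ} {h : E2 → ℝ} (hP : Par c0 K h) (hK : 2 ≤ K)
    (hc : c0 ≤ 1 / 2) (N : ℕ) {g : E2 → ℂ} (hg : Measurable g) (hg1 : ∀ ξ, ‖g ξ‖ ≤ 1)
    (hg2 : ∀ ξ, 1 < ‖ξ‖ → g ξ = 0) {R : ℝ} (hR : 1 ≤ R)
    (c : E2) (b : OrthonormalBasis (Fin 2) ℝ E2) (s : Fin 2 → ℝ)
    (hs : ∀ i, R ^ (-(1 / 2) : ℝ) ≤ s i ∧ s i ≤ 1) (ψ : E2 → ℂ) (hψ : Defs.Adm N ψ)
    (x0 : E2) (t0 : ℝ) :
    ∫⁻ p in Defs.plank c b s R x0 t0,
        ‖Defs.ext h (fun ξ => g ξ * Defs.chi h c b s ψ ξ) p.1 p.2‖ₑ ^ 2 ≤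
      ENNReal.ofReal (128 * R ^ (-2 : ℝ) * (s 0 * s 1 * R ^ 3)) := by
  obtain ⟨hψ1, hψ2, hψ3⟩ := hψ
  have hR0 : 0 < R := by linarith
  have hs0 : ∀ i, 0 < s i := fun i => (Real.rpow_pos_of_pos hR0 _).trans_le (hs i).1
  have hgradc : Continuous (gradient h) := by
    unfold gradient
    exact (InnerProductSpace.toDual ℝ E2).symm.continuous.comp
      (hP.smooth.continuous_fderiv (by simp))
  have hχc : Continuous (Defs.chi h c b s ψ) := by
    unfold Defs.chi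
    refine hψ1.continuous.comp ?_
    refine (PiLp.continuous_toLp 2 _).comp (continuous_pi fun i => ?_)
    exact ((hgradc.sub continuous_const).inner continuous_const).div_const _
  have hχ1 : ∀ ξ, ‖Defs.chi h c b s ψ ξ‖ ≤ 1 := by
    intro ξ
    have := hψ3 0 (Nat.zero_le _) (WithLp.toLp 2 fun i => ⟪gradient h ξ - c, b i⟫ / s i)
    rwa [norm_iteratedFDeriv_zero] at this
  set f : E2 → ℂ := fun ξ => g ξ * Defs.chi h c b s ψ ξ with hf
  set S : Set E2 := {ξ : E2 | ∀ i, |⟪gradient h ξ - c, b i⟫| ≤ 2 * s i} with hS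
  have hfS : ∀ ξ, ξ ∉ S → f ξ = 0 := by
    intro ξ hξ
    have h1 : Defs.chi h c b s ψ ξ = 0 := by
      by_contra hne
      apply hξ
      intro i
      have h2 := hψ2 _ hne i
      simp only [abs_div, abs_of_pos (hs0 i)] at h2
      rwa [div_le_iff₀ (hs0 i)] at h2
    rw [hf]; simp only; rw [h1, mul_zero]
  have hf1 : ∀ ξ, ‖f ξ‖ ≤ 1 := by
    intro ξ
    rw [hf]; simp only; rw [norm_mul]
    exact mul_le_one₀ (hg1 ξ) (norm_nonneg _) (hχ1 ξ)
  have hfm : Measurable f := hg.mul hχc.measurable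
  have hf2 : ∀ ξ, 1 < ‖ξ‖ → f ξ = 0 := by
    intro ξ hξ; rw [hf]; simp only; rw [hg2 ξ hξ, zero_mul]
  have hsupp : Function.support f ⊆ closedBall (0 : E2) 1 := by
    intro ξ hξ
    by_contra hcon
    exact hξ (hf2 ξ (by simpa [mem_closedBall, dist_zero_right] using hcon))
  have hfi : Integrable f := by
    refine (integrableOn_iff_integrable_of_support_subset hsupp).1 ?_
    exact Measure.integrableOn_of_bounded (M := 1) measure_closedBall_lt_top.ne
      hfm.aestronglyMeasurable (Filter.Eventually.of_forall hf1)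
  have hfL : MemLp f 2 := by
    rw [memLp_two_iff_integrable_sq_norm hfm.aestronglyMeasurable]
    refine Integrable.mono hfi (hfm.norm.pow_const 2).aestronglyMeasurable
      (Filter.Eventually.of_forall fun ξ => ?_)
    rw [Real.norm_of_nonneg (by positivity), sq]
    calc ‖f ξ‖ * ‖f ξ‖ ≤ ‖f ξ‖ * 1 := by gcongr; exact hf1 ξ
      _ = ‖f ξ‖ := mul_one _
  have hSm : MeasurableSet S := by
    have : S = ⋂ i, {ξ : E2 | |⟪gradient h ξ - c, b i⟫| ≤ 2 * s i} := by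
      ext ξ; simp [hS]
    rw [this]
    refine MeasurableSet.iInter fun i => IsClosed.measurableSet ?_
    exact isClosed_le ((hgradc.sub continuous_const).inner continuous_const).abs continuous_const
  have hE : ∫⁻ ξ, ‖f ξ‖ₑ ^ 2 ≤ 4 * (ENNReal.ofReal (2 * (2 * s 0)) * ENNReal.ofReal (2 * (2 * s 1))) := by
    calc ∫⁻ ξ, ‖f ξ‖ₑ ^ 2 ≤ ∫⁻ ξ, S.indicator (fun _ => 1) ξ := by
          apply lintegral_mono
          intro ξ
          by_cases hξ : ξ ∈ S
          · rw [indicator_of_mem hξ]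
            have : ‖f ξ‖ₑ ≤ 1 := by
              rw [← ofReal_norm]; exact ENNReal.ofReal_le_one.2 (hf1 ξ)
            exact pow_le_one' this 2
          · rw [indicator_of_notMem hξ]
            show ‖f ξ‖ₑ ^ 2 ≤ 0
            rw [hfS ξ hξ]; simp
      _ = volume S := by rw [lintegral_indicator_const hSm, one_mul]
      _ ≤ _ := volume_curved hP hK hc c b (fun i => 2 * s i)
  have hpl : Defs.plank c b s R x0 t0 ⊆ (univ : Set E2) ×ˢ Icc (t0 - R) (t0 + R) := by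
    rintro p ⟨h1, _⟩
    refine ⟨mem_univ _, ?_⟩
    rw [abs_le] at h1
    constructor <;> linarith
  have hcont : Continuous fun p : E2 × ℝ => ext h f p.1 p.2 := by
    unfold ext
    refine continuous_of_dominated (F := fun (p : E2 × ℝ) ξ => f ξ * ee (ph h p.1 p.2 ξ))
      (bound := fun ξ => ‖f ξ‖) ?_ ?_ hfi.norm ?_
    · intro p
      exact hfi.aestronglyMeasurable.mul
        (continuous_ee.comp (continuous_ph hP.smooth.continuous _ _)).aestronglyMeasurable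
    · intro p
      exact Filter.Eventually.of_forall fun ξ => (norm_mul_ee _ _).le
    · refine Filter.Eventually.of_forall fun ξ => ?_
      refine continuous_const.mul (continuous_ee.comp ?_)
      unfold ph
      fun_prop
  calc ∫⁻ p in Defs.plank c b s R x0 t0, ‖ext h f p.1 p.2‖ₑ ^ 2
      ≤ ∫⁻ p in (univ : Set E2) ×ˢ Icc (t0 - R) (t0 + R), ‖ext h f p.1 p.2‖ₑ ^ 2 :=
        lintegral_mono_set hpl
    _ = ∫⁻ t in Icc (t0 - R) (t0 + R), ∫⁻ x, ‖ext h f x t‖ₑ ^ 2 := by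
        rw [Measure.volume_eq_prod, ← Measure.prod_restrict, Measure.restrict_univ]
        exact lintegral_prod_symm _ (hcont.enorm.measurable.pow_const 2).aemeasurable
    _ = ∫⁻ t in Icc (t0 - R) (t0 + R), ∫⁻ ξ, ‖f ξ‖ₑ ^ 2 := by
        refine lintegral_congr fun t => slice hP.smooth.continuous hfi hfL t
    _ = ENNReal.ofReal (2 * R) * ∫⁻ ξ, ‖f ξ‖ₑ ^ 2 := by
        rw [setLIntegral_const, Real.volume_Icc, mul_comm]
        congr 2; ring
    _ ≤ ENNReal.ofReal (2 * R) *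
          (4 * (ENNReal.ofReal (2 * (2 * s 0)) * ENNReal.ofReal (2 * (2 * s 1)))) := by
        gcongr
    _ = ENNReal.ofReal (128 * R ^ (-2 : ℝ) * (s 0 * s 1 * R ^ 3)) := by
        have h4 : (4 : ℝ≥0∞) = ENNReal.ofReal 4 := by norm_num
        have h0 := (hs0 0).le
        have h1 := (hs0 1).le
        rw [h4, ← ENNReal.ofReal_mul (by positivity), ← ENNReal.ofReal_mul (by positivity),
          ← ENNReal.ofReal_mul (by positivity)]
        congr 1
        have h5 : R ^ (-2 : ℝ) = (R ^ 2)⁻¹ := by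
          rw [Real.rpow_neg hR0.le]
          congr 1
          exact_mod_cast Real.rpow_natCast R 2
        rw [h5]
        field_simp
        ring


/-- From the shape of `EB` to the shape of `LocH`. -/
theorem ofReal_shape {C ε R : ℝ} (hC0 : 0 ≤ C) (hR : 1 ≤ R) {g : E2 → ℂ} (hg : Measurable g)
    (hg1 : ∀ ξ, ‖g ξ‖ ≤ 1) (hg2 : ∀ ξ, 1 < ‖ξ‖ → g ξ = 0) :
    ENNReal.ofReal (C * R ^ ε * (R * ∫ ξ, ‖g ξ‖ ^ 2) * Real.sqrt (128 * R ^ (-2 : ℝ))) =
      ENNReal.ofReal (C * Real.sqrt 128 * R ^ ε) * ∫⁻ ξ, ‖g ξ‖ₑ ^ 2 := by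
  have hR0 : 0 < R := by linarith
  have hfin : ∫⁻ ξ, ‖g ξ‖ₑ ^ 2 ≠ ⊤ := by
    have : ∫⁻ ξ, ‖g ξ‖ₑ ^ 2 ≤ volume (closedBall (0 : E2) 1) := by
      calc ∫⁻ ξ, ‖g ξ‖ₑ ^ 2 ≤ ∫⁻ ξ, (closedBall (0 : E2) 1).indicator (fun _ => 1) ξ := by
            apply lintegral_mono
            intro ξ
            by_cases hξ : ξ ∈ closedBall (0 : E2) 1
            · rw [indicator_of_mem hξ]
              have : ‖g ξ‖ₑ ≤ 1 := by
                rw [← ofReal_norm]; exact ENNReal.ofReal_le_one.2 (hg1 ξ)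
              exact pow_le_one' this 2
            · rw [indicator_of_notMem hξ]
              show ‖g ξ‖ₑ ^ 2 ≤ 0
              rw [hg2 ξ (by simpa [mem_closedBall, dist_zero_right] using hξ)]; simp
        _ = _ := by rw [lintegral_indicator_const measurableSet_closedBall, one_mul]
    exact (this.trans_lt measure_closedBall_lt_top).ne
  have hI : ∫⁻ ξ, ‖g ξ‖ₑ ^ 2 = ENNReal.ofReal (∫ ξ, ‖g ξ‖ ^ 2) := by
    rw [integral_eq_lintegral_of_nonneg_ae (Filter.Eventually.of_forall fun ξ => by positivity)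
      (hg.norm.pow_const 2).aestronglyMeasurable]
    have e1 : ∀ ξ, ENNReal.ofReal (‖g ξ‖ ^ 2) = ‖g ξ‖ₑ ^ 2 := fun ξ => by
      rw [ENNReal.ofReal_pow (norm_nonneg _), ofReal_norm]
    simp_rw [e1]
    rw [ENNReal.ofReal_toReal hfin]
  have h2 : Real.sqrt (128 * R ^ (-2 : ℝ)) = Real.sqrt 128 * R⁻¹ := by
    rw [Real.sqrt_mul (by norm_num)]
    congr 1
    rw [Real.sqrt_eq_rpow, ← Real.rpow_mul hR0.le]
    norm_num
    exact Real.rpow_neg_one R
  rw [hI, h2, ← ENNReal.ofReal_mul (by positivity)]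
  congr 1
  field_simp

/-- The class of `EB` for one fixed phase. -/
theorem parB_of {c0 c1 : ℝ} (h01 : c1 ≤ c0) {K0 K : ℕ} (hK : K0 ≤ K) {h : E2 → ℝ}
    (hP : Par c1 K h)
    (hB : ∀ k : ℕ, ∃ B : ℝ, ∀ ξ,
      ‖iteratedFDeriv ℝ k (fun η : E2 => h η - ‖η‖ ^ 2 / 2) ξ‖ ≤ B) :
    ∃ B : ℕ → ℝ, (∀ k, 2 ≤ k → k ≤ K0 → B k ≤ c0) ∧ Defs.ParB B h := by
  choose B hB using hB
  refine ⟨fun k => if k ≤ K0 then c0 else B k, ?_, ?_⟩
  · intro k _ hk; simp only [if_pos hk, le_refl]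
  · refine ⟨hP.smooth, fun k hk ξ => ?_⟩
    by_cases hk0 : k ≤ K0
    · simp only [if_pos hk0]
      exact (hP.close k hk (hk0.trans hK) ξ).trans h01
    · simp only [if_neg hk0]
      exact hB k ξ


end Crest.Agent.R138.Rs134
end

-- ▼ part R138/Rs7_134
section

/-!
Glue: `EB` gives the strong type `(p, p)` estimates, `p > 3`, for every phase of the class.
-/

set_option autoImplicit false
set_option maxSynthPendingDepth 3

namespace Crest.Agent.R138.Rs134

open MeasureTheory Set Metric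
open scoped ContDiff RealInnerProductSpace ENNReal

/-- Local estimates for one phase give strong type estimates. -/
theorem strong_of_locH {c0 : ℝ} {K : ℕ} {h : E2 → ℝ} (hP : Par c0 K h) (hK : 3 ≤ K)
    (hc : c0 ≤ 1 / 4) (hL : LocH h) (p : ℝ) (hp : 3 < p) :
    ∃ C : ℝ, ∀ g : E2 → ℂ, Measurable g → (∀ ξ, 1 / 2 < ‖ξ‖ → g ξ = 0) →
      eLpNorm (fun z : E2 × ℝ => ext h g z.1 z.2) (ENNReal.ofReal p) volume ≤
        ENNReal.ofReal C * eLpNorm g (ENNReal.ofReal p) volume :=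
  strong_of_sparse hP (by omega) (by linarith) (Ex774.sparseOut hP hK hc hL) p hp


end Crest.Agent.R138.Rs134
end

-- ▼ part R138/Geo1_789
section

/-!
R138 / S0190, geometry block, part 1 (measure part): for an injective continuous `γ : ℝ² → ℝ³` which is
Lipschitz on a measurable set `s`, the measure `μHE[2]` restricted to `γ '' A` (`A ⊆ s` measurable) is the
push-forward of `J dξ` on `A`, with a bounded measurable `J` (Radon-Nikodym, no area formula).
-/

set_option autoImplicit false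
open MeasureTheory Set
open scoped ENNReal NNReal MeasureTheory ContDiff RealInnerProductSpace
open Crest.Agent.R138.Rs134 (E2)
open Crest.AnalysisR.Surface3 (E3)

namespace Crest.Agent.R138.Geo789

theorem muHE_two_eq : (μHE[2] : Measure E2) = volume :=
  EuclideanSpace.euclideanHausdorffMeasure_eq_volume 2

theorem muHE_image_le {γ : E2 → E3} {s : Set E2} {K : ℝ≥0} (h : LipschitzOnWith K γ s)
    {A : Set E2} (hA : A ⊆ s) :
    (μHE[2] : Measure E3) (γ '' A) ≤ ((K ^ 2 : ℝ≥0) : ℝ≥0∞) * (volume : Measure E2) A := by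
  have h1 := (h.mono hA).hausdorffMeasure_image_le (d := (2 : ℝ)) (by norm_num)
  rw [← muHE_two_eq]
  obtain ⟨c, hc3, hc2⟩ : ∃ c : ℝ≥0, (μHE[2] : Measure E3) = c • μH[((2 : ℕ) : ℝ)] ∧
      (μHE[2] : Measure E2) = c • μH[((2 : ℕ) : ℝ)] := ⟨_, rfl, rfl⟩
  rw [hc3, hc2, Measure.smul_apply, Measure.smul_apply, ENNReal.smul_def, ENNReal.smul_def,
    smul_eq_mul, smul_eq_mul]
  push_cast at h1 ⊢
  calc (c : ℝ≥0∞) * μH[2] (γ '' A) ≤ c * ((K : ℝ≥0∞) ^ (2 : ℝ) * μH[2] A) := by gcongr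
    _ = (K : ℝ≥0∞) ^ 2 * (c * μH[2] A) := by
      rw [show ((K : ℝ≥0∞) ^ (2 : ℝ)) = (K : ℝ≥0∞) ^ 2 by
        rw [← ENNReal.rpow_natCast]; norm_num]
      ring

theorem exists_density {γ : E2 → E3} (hc : Continuous γ) (hi : Function.Injective γ) {s : Set E2}
    {K : ℝ≥0} (h : LipschitzOnWith K γ s) :
    ∃ J : E2 → ℝ≥0, Measurable J ∧ (∀ ξ, J ξ ≤ K ^ 2) ∧ ∀ A : Set E2, A ⊆ s → MeasurableSet A →
      (μHE[2] : Measure E3).restrict (γ '' A) =
        (((volume : Measure E2).restrict A).withDensity (fun ξ => (J ξ : ℝ≥0∞))).map γ := by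
  have hγ : MeasurableEmbedding γ := hc.measurableEmbedding hi
  set μ : Measure E3 := μHE[2] with hμ
  set ν : Measure E2 := (μ.comap γ).restrict s with hν
  have hνapp : ∀ B : Set E2, MeasurableSet B → ν B = μ (γ '' (B ∩ s)) := by
    intro B hB
    rw [hν, Measure.restrict_apply hB, hγ.comap_apply]
  have hle : ∀ B : Set E2, MeasurableSet B →
      ν B ≤ ((K ^ 2 : ℝ≥0) : ℝ≥0∞) * (volume : Measure E2) B := by
    intro B hB
    rw [hνapp B hB]
    exact (muHE_image_le h inter_subset_right).trans (by gcongr; exact inter_subset_left)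
  have hac : ν ≪ (volume : Measure E2) := by
    refine Measure.AbsolutelyContinuous.mk fun B hB h0 => ?_
    have := hle B hB
    rw [h0, mul_zero] at this
    exact le_antisymm this bot_le
  have hle' : ν ≤ (K ^ 2 : ℝ≥0) • (volume : Measure E2) := by
    refine Measure.le_iff.2 fun B hB => ?_
    rw [Measure.smul_apply]
    simpa [ENNReal.smul_def] using hle B hB
  have : SigmaFinite ν := Measure.sigmaFinite_of_le _ hle'
  set J0 : E2 → ℝ≥0∞ := ν.rnDeriv volume with hJ0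
  have hJm : Measurable J0 := Measure.measurable_rnDeriv _ _
  have hwd : (volume : Measure E2).withDensity J0 = ν := Measure.withDensity_rnDeriv_eq _ _ hac
  have hJle : ∀ᵐ ξ ∂(volume : Measure E2), J0 ξ ≤ ((K ^ 2 : ℝ≥0) : ℝ≥0∞) := by
    refine ae_le_of_forall_setLIntegral_le_of_sigmaFinite hJm fun B hB _ => ?_
    rw [← withDensity_apply _ hB, hwd]
    simpa using hle B hB
  set J : E2 → ℝ≥0 := fun ξ => (min (J0 ξ) ((K ^ 2 : ℝ≥0) : ℝ≥0∞)).toNNReal with hJ
  have hJJ : ∀ ξ, (J ξ : ℝ≥0∞) = min (J0 ξ) ((K ^ 2 : ℝ≥0) : ℝ≥0∞) := by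
    intro ξ
    rw [hJ]
    exact ENNReal.coe_toNNReal (ne_of_lt (lt_of_le_of_lt (min_le_right _ _) ENNReal.coe_lt_top))
  have hJae : (fun ξ => (J ξ : ℝ≥0∞)) =ᵐ[(volume : Measure E2)] J0 := by
    filter_upwards [hJle] with ξ hξ
    rw [hJJ, min_eq_left hξ]
  refine ⟨J, (hJm.min measurable_const).ennreal_toNNReal, fun ξ => ?_, fun A hA hAm => ?_⟩
  · have := (hJJ ξ).le.trans (min_le_right _ _)
    exact_mod_cast this
  · have e1 : ((volume : Measure E2).restrict A).withDensity (fun ξ => (J ξ : ℝ≥0∞)) =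
        (μ.comap γ).restrict A := by
      rw [← restrict_withDensity hAm, withDensity_congr_ae hJae, hwd, hν,
        Measure.restrict_restrict hAm, inter_eq_self_of_subset_left hA]
    rw [e1]
    have e2 := hγ.restrict_map (μ.comap γ) (γ '' A)
    rw [preimage_image_eq _ hi] at e2
    rw [← e2, hγ.map_comap, Measure.restrict_restrict_of_subset (image_subset_range _ _)]

end Crest.Agent.R138.Geo789
end

-- ▼ part R138/Geo2_789
section

/-!
R138 / S0190, geometry block, part 2 (linear algebra and implicit function).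
-/

set_option autoImplicit false
open MeasureTheory Set Filter Topology
open scoped ENNReal NNReal ContDiff RealInnerProductSpace
open Crest.Agent.R138.Rs134 (E2 Par)
open Crest.AnalysisR.Surface3 (E3)

namespace Crest.Agent.R138.Geo789

/-- Adapted linear coordinates: the last coordinate is `-a`, the restriction of `B` to `ker a` is
the standard scalar product. -/
theorem exists_coord (a : E3 →L[ℝ] ℝ) (ha : a ≠ 0) (B : E3 →L[ℝ] E3 →L[ℝ] ℝ)
    (hsymm : ∀ v w, B v w = B w v) (hpos : ∀ w : E3, w ≠ 0 → a w = 0 → 0 < B w w) :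
    ∃ L : (E2 × ℝ) ≃L[ℝ] E3, (∀ z, a (L z) = -z.2) ∧
      ∀ ξ η : E2, B (L (ξ, 0)) (L (η, 0)) = ⟪ξ, η⟫ := by
  have ha' : (a : E3 →ₗ[ℝ] ℝ) ≠ 0 := by
    intro h0; apply ha; ext x; simpa using congrArg (fun f : E3 →ₗ[ℝ] ℝ => f x) h0
  have hker : Module.finrank ℝ (LinearMap.ker (a : E3 →ₗ[ℝ] ℝ)) = 2 := by
    have h1 := LinearMap.finrank_range_add_finrank_ker (a : E3 →ₗ[ℝ] ℝ)
    have h2 : LinearMap.range (a : E3 →ₗ[ℝ] ℝ) = ⊤ := LinearMap.range_eq_top.2 (LinearMap.surjective ha')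
    rw [h2, finrank_top, Module.finrank_self, finrank_euclideanSpace_fin] at h1
    omega
  set b := Module.finBasisOfFinrankEq ℝ (LinearMap.ker (a : E3 →ₗ[ℝ] ℝ)) hker with hb
  set v1 : E3 := (b 0 : E3) with hv1
  set v2 : E3 := (b 1 : E3) with hv2
  have hav1 : a v1 = 0 := (b 0).2
  have hav2 : a v2 = 0 := (b 1).2
  have hli : LinearIndependent ℝ ![v1, v2] := by
    rw [LinearIndependent.pair_iff]
    intro s t hst
    have h := Fintype.linearIndependent_iff.1 b.linearIndependent ![s, t] (by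
      rw [Fin.sum_univ_two]
      apply Subtype.ext
      simpa using hst)
    exact ⟨by simpa using h 0, by simpa using h 1⟩
  have hv10 : v1 ≠ 0 := by simpa using hli.ne_zero 0
  have hpair := LinearIndependent.pair_iff.1 hli
  have hB1 : 0 < B v1 v1 := hpos v1 hv10 hav1
  set s1 : ℝ := Real.sqrt (B v1 v1) with hs1
  have hs1p : 0 < s1 := Real.sqrt_pos.2 hB1
  have hs1s : s1 * s1 = B v1 v1 := Real.mul_self_sqrt hB1.le
  set e1 : E3 := s1⁻¹ • v1 with he1
  have hae1 : a e1 = 0 := by simp [he1, hav1]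
  have hBe1 : B e1 e1 = 1 := by
    simp only [he1, map_smul, smul_apply, smul_eq_mul]
    rw [← hs1s]; field_simp
  set w : E3 := v2 - (B v2 e1) • e1 with hw
  have haw : a w = 0 := by simp [hw, hav2, hae1]
  have hw0 : w ≠ 0 := by
    intro h0
    have h3 : (-(B v2 e1 * s1⁻¹)) • v1 + (1 : ℝ) • v2 = 0 := by
      rw [hw, he1] at h0
      rw [← h0]; module
    have := (hpair _ _ h3).2
    norm_num at this
  have hBw : 0 < B w w := hpos w hw0 haw
  have hBwe : B w e1 = 0 := by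
    simp only [hw, map_sub, map_smul, sub_apply, smul_apply,
      smul_eq_mul, hBe1]
    ring
  set s2 : ℝ := Real.sqrt (B w w) with hs2
  have hs2p : 0 < s2 := Real.sqrt_pos.2 hBw
  have hs2s : s2 * s2 = B w w := Real.mul_self_sqrt hBw.le
  set e2 : E3 := s2⁻¹ • w with he2
  have hae2 : a e2 = 0 := by simp [he2, haw]
  have hBe2 : B e2 e2 = 1 := by
    simp only [he2, map_smul, smul_apply, smul_eq_mul]
    rw [← hs2s]; field_simp
  have hBe21 : B e2 e1 = 0 := by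
    simp only [he2, map_smul, smul_apply, smul_eq_mul, hBwe]; ring
  have hBe12 : B e1 e2 = 0 := by rw [hsymm]; exact hBe21
  obtain ⟨n, hn⟩ : ∃ n : E3, a n = -1 := by
    obtain ⟨x, hx⟩ : ∃ x, a x ≠ 0 := by
      by_contra hcon
      push Not at hcon
      exact ha (by ext x; simpa using hcon x)
    refine ⟨-(a x)⁻¹ • x, ?_⟩
    simp only [map_smul, smul_eq_mul]; field_simp
  set L0 : (E2 × ℝ) →ₗ[ℝ] E3 :=
    { toFun := fun z => z.1 0 • e1 + z.1 1 • e2 + z.2 • n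
      map_add' := by intro x y; simp only [Prod.fst_add, Prod.snd_add, PiLp.add_apply]; module
      map_smul' := by
        intro c x
        simp only [Prod.smul_fst, Prod.smul_snd, PiLp.smul_apply, smul_eq_mul, RingHom.id_apply]
        module } with hL0
  have hL0a : ∀ z, L0 z = z.1 0 • e1 + z.1 1 • e2 + z.2 • n := fun z => rfl
  have haL : ∀ z, a (L0 z) = -z.2 := by
    intro z; rw [hL0a]; simp [hae1, hae2, hn]
  have hBL : ∀ ξ η : E2, B (L0 (ξ, 0)) (L0 (η, 0)) = ⟪ξ, η⟫ := by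
    intro ξ η
    rw [hL0a, hL0a]
    simp only [zero_smul, add_zero, map_add, map_smul, add_apply,
      smul_apply, smul_eq_mul, hBe1, hBe2, hBe12, hBe21]
    rw [PiLp.inner_apply]
    simp [Fin.sum_univ_two]
  have hinj : Function.Injective L0 := by
    rw [← LinearMap.ker_eq_bot, LinearMap.ker_eq_bot']
    intro z hz
    have h1 : z.2 = 0 := by
      have := haL z
      rw [hz, map_zero] at this
      linarith
    have h2 : z = (z.1, 0) := by ext <;> simp [h1]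
    have h3 : ⟪z.1, z.1⟫ = (0 : ℝ) := by
      rw [← hBL, ← h2, hz]; simp
    have h4 : z.1 = 0 := inner_self_eq_zero.1 h3
    rw [h2, h4]; rfl
  have hfr : Module.finrank ℝ (E2 × ℝ) = Module.finrank ℝ E3 := by
    rw [Module.finrank_prod, finrank_euclideanSpace_fin, finrank_euclideanSpace_fin,
      Module.finrank_self]
  refine ⟨(LinearEquiv.ofInjectiveOfFinrankEq L0 hinj hfr).toContinuousLinearEquiv, ?_, ?_⟩
  · intro z; exact haL z
  · intro ξ η; exact hBL ξ η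

end Crest.Agent.R138.Geo789
end

-- ▼ part R138/Geo3_789
section

/-!
R138 / S0190, geometry block, part 3 (implicit function theorem, second derivative).
-/

set_option autoImplicit false
open MeasureTheory Set Filter Topology
open scoped ENNReal NNReal ContDiff RealInnerProductSpace
open Crest.Agent.R138.Rs134 (E2 Par)
open Crest.AnalysisR.Surface3 (E3)

namespace Crest.Agent.R138.Geo789

/-- Implicit function theorem with a globally defined smooth solution. -/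
theorem exists_implicit (F : E2 × ℝ → ℝ) (hF : ContDiff ℝ ∞ F) (h0 : F 0 = 0)
    (h1 : ∀ z : E2 × ℝ, fderiv ℝ F 0 z = -z.2) :
    ∃ (φ : E2 → ℝ) (ρ : ℝ), ContDiff ℝ ∞ φ ∧ φ 0 = 0 ∧ 0 < ρ ∧
      (∀ ξ, ‖ξ‖ < ρ → F (ξ, φ ξ) = 0) ∧
      (∀ ξ s, ‖ξ‖ < ρ → |s| < ρ → F (ξ, s) = 0 → s = φ ξ) := by
  set H : E2 × ℝ → E2 × ℝ := fun z => (z.1, F z) with hH
  have hHs : ContDiff ℝ ∞ H := contDiff_fst.prodMk hF
  have hH0 : H 0 = 0 := by simp [hH, h0]
  have hHd : ∀ z, HasFDerivAt H ((ContinuousLinearMap.fst ℝ E2 ℝ).prod (fderiv ℝ F z)) z :=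
    fun z => hasFDerivAt_fst.prodMk ((hF.differentiable (by simp)).differentiableAt.hasFDerivAt)
  let e : (E2 × ℝ) ≃L[ℝ] (E2 × ℝ) :=
    (ContinuousLinearEquiv.refl ℝ E2).prodCongr (ContinuousLinearEquiv.neg ℝ)
  have he : (e : E2 × ℝ →L[ℝ] E2 × ℝ) = (ContinuousLinearMap.fst ℝ E2 ℝ).prod (fderiv ℝ F 0) := by
    refine ContinuousLinearMap.ext fun z => ?_
    refine Prod.ext ?_ ?_
    · simp [e]
    · simp [e, h1]
  have hHe : HasFDerivAt H (e : E2 × ℝ →L[ℝ] E2 × ℝ) 0 := by rw [he]; exact hHd 0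
  set P := hHs.contDiffAt.toOpenPartialHomeomorph H hHe (by simp) with hP
  have hPH : ∀ z, P z = H z := fun z => rfl
  have hs0 : (0 : E2 × ℝ) ∈ P.source := ContDiffAt.mem_toOpenPartialHomeomorph_source _ hHe _
  have ht0 : (0 : E2 × ℝ) ∈ P.target := by
    have := ContDiffAt.image_mem_toOpenPartialHomeomorph_target hHs.contDiffAt hHe (by simp)
    rwa [hH0] at this
  have hsymm0 : P.symm 0 = 0 := by
    have := P.left_inv hs0
    rwa [hPH, hH0] at this
  -- the set where the derivative is invertible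
  set W : Set (E2 × ℝ) := {z | fderiv ℝ H z ∈ range ((↑) : ((E2 × ℝ) ≃L[ℝ] (E2 × ℝ)) →
    (E2 × ℝ) →L[ℝ] (E2 × ℝ))} with hW
  have hWo : IsOpen W := by
    have hc : Continuous (fderiv ℝ H) := hHs.continuous_fderiv (by simp)
    exact ContinuousLinearEquiv.isOpen.preimage hc
  have hW0 : (0 : E2 × ℝ) ∈ W := ⟨e, hHe.fderiv.symm⟩
  -- neighbourhood of 0 in the target where symm is smooth
  have hT : ∀ᶠ y in 𝓝 (0 : E2 × ℝ), y ∈ P.target ∧ P.symm y ∈ W := by
    have h2 : ContinuousAt P.symm 0 := P.continuousAt_symm ht0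
    have h3 : ∀ᶠ y in 𝓝 (0 : E2 × ℝ), P.symm y ∈ W := by
      apply h2
      rw [hsymm0]; exact hWo.mem_nhds hW0
    exact (P.open_target.eventually_mem ht0).and h3
  have hsm : ∀ y, y ∈ P.target → P.symm y ∈ W → ContDiffAt ℝ ∞ P.symm y := by
    intro y hy hyW
    obtain ⟨e', he'⟩ := hyW
    refine P.contDiffAt_symm hy (f₀' := e') ?_ hHs.contDiffAt
    rw [he']
    exact (hHs.differentiable (by simp)).differentiableAt.hasFDerivAt
  -- radius
  have hT' : ∀ᶠ ξ in 𝓝 (0 : E2), (ξ, (0 : ℝ)) ∈ P.target ∧ P.symm (ξ, 0) ∈ W := by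
    have hc : Continuous (fun ξ : E2 => (ξ, (0 : ℝ))) := by fun_prop
    exact (hc.tendsto' (0 : E2) (0 : E2 × ℝ) rfl) hT
  obtain ⟨ρ1, hρ1, hball1⟩ := Metric.eventually_nhds_iff_ball.1 hT'
  obtain ⟨ρ2, hρ2, hball2⟩ := Metric.mem_nhds_iff.1 (P.open_source.mem_nhds hs0)
  set χ : ContDiffBump (0 : E2) := ⟨ρ1 / 3, ρ1 / 2, by positivity, by linarith⟩ with hχ
  set φ0 : E2 → ℝ := fun ξ => (P.symm (ξ, 0)).2 with hφ0
  have hφ0s : ∀ ξ ∈ Metric.ball (0 : E2) ρ1, ContDiffAt ℝ ∞ φ0 ξ := by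
    intro ξ hξ
    obtain ⟨a1, a2⟩ := hball1 ξ hξ
    have h4 : ContDiffAt ℝ ∞ (fun ξ : E2 => P.symm (ξ, 0)) ξ :=
      (hsm _ a1 a2).comp ξ (f := fun ξ : E2 => (ξ, (0 : ℝ))) (contDiffAt_id.prodMk contDiffAt_const)
    exact contDiffAt_snd.comp ξ h4
  have hzero : ∀ ξ ∈ Metric.ball (0 : E2) ρ1, F (ξ, φ0 ξ) = 0 := by
    intro ξ hξ
    obtain ⟨a1, a2⟩ := hball1 ξ hξ
    have h5 : P (P.symm (ξ, 0)) = (ξ, 0) := P.right_inv a1
    rw [hPH] at h5
    have h6 : (P.symm (ξ, 0)).1 = ξ := congrArg Prod.fst h5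
    have h7 : F (P.symm (ξ, 0)) = 0 := congrArg Prod.snd h5
    rw [← h7]; congr 1
    exact Prod.ext h6.symm rfl
  refine ⟨fun ξ => χ ξ * φ0 ξ, min (ρ1 / 3) ρ2, ?_, ?_, by positivity, ?_, ?_⟩
  · rw [contDiff_iff_contDiffAt]
    intro ξ
    by_cases hξ : ξ ∈ Metric.ball (0 : E2) ρ1
    · exact χ.contDiff.contDiffAt.mul (hφ0s ξ hξ)
    · have h8 : (fun ξ => χ ξ * φ0 ξ) =ᶠ[𝓝 ξ] fun _ => 0 := by
        have h9 : ξ ∈ (tsupport χ)ᶜ := by
          rw [χ.tsupport_eq]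
          intro h10
          apply hξ
          rw [Metric.mem_closedBall] at h10
          rw [Metric.mem_ball]
          have : χ.rOut = ρ1 / 2 := rfl
          rw [this] at h10
          linarith
        filter_upwards [(isClosed_tsupport χ).isOpen_compl.mem_nhds h9] with η hη
        rw [image_eq_zero_of_notMem_tsupport hη, zero_mul]
      exact contDiffAt_const.congr_of_eventuallyEq h8
  · simp only
    have : φ0 0 = 0 := by
      have h11 : P.symm ((0 : E2), (0 : ℝ)) = 0 := hsymm0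
      simp only [hφ0]; rw [h11]; rfl
    rw [this, mul_zero]
  · intro ξ hξ
    have h12 : ‖ξ‖ < ρ1 / 3 := lt_of_lt_of_le hξ (min_le_left _ _)
    have h13 : χ ξ = 1 := by
      apply χ.one_of_mem_closedBall
      rw [mem_closedBall_zero_iff]
      exact h12.le
    simp only [h13, one_mul]
    exact hzero ξ (by rw [mem_ball_zero_iff]; linarith)
  · intro ξ s hξ hs hF0
    have h12 : ‖ξ‖ < ρ1 / 3 := lt_of_lt_of_le hξ (min_le_left _ _)
    have h13 : χ ξ = 1 := by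
      apply χ.one_of_mem_closedBall
      rw [mem_closedBall_zero_iff]
      exact h12.le
    simp only [h13, one_mul]
    have h14 : (ξ, s) ∈ P.source := by
      apply hball2
      rw [mem_ball_zero_iff, Prod.norm_def]
      exact max_lt (lt_of_lt_of_le hξ (min_le_right _ _)) (by
        rw [Real.norm_eq_abs]; exact lt_of_lt_of_le hs (min_le_right _ _))
    have h15 := P.left_inv h14
    rw [hPH] at h15
    have h16 : H (ξ, s) = (ξ, 0) := by simp [hH, hF0]
    rw [h16] at h15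
    simp only [hφ0, h15]

/-- The first and second derivatives of the implicit function at the base point. -/
theorem implicit_deriv (F : E2 × ℝ → ℝ) (hF : ContDiff ℝ ∞ F)
    (h1 : ∀ z : E2 × ℝ, fderiv ℝ F 0 z = -z.2) (φ : E2 → ℝ) (ρ : ℝ) (hφ : ContDiff ℝ ∞ φ)
    (hφ0 : φ 0 = 0) (hρ : 0 < ρ) (hz : ∀ ξ, ‖ξ‖ < ρ → F (ξ, φ ξ) = 0) :
    fderiv ℝ φ 0 = 0 ∧ ∀ v w : E2, fderiv ℝ (fderiv ℝ φ) 0 w v =
      fderiv ℝ (fderiv ℝ F) 0 (w, 0) (v, 0) := by
  have hFd : Differentiable ℝ F := hF.differentiable (by simp)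
  have hφd : Differentiable ℝ φ := hφ.differentiable (by simp)
  have hFdd : Differentiable ℝ (fderiv ℝ F) :=
    (hF.fderiv_right (m := 1) (by norm_cast)).differentiable (by simp)
  have hφdd : Differentiable ℝ (fderiv ℝ φ) :=
    (hφ.fderiv_right (m := 1) (by norm_cast)).differentiable (by simp)
  have hG : ∀ ξ, HasFDerivAt (fun ξ => (ξ, φ ξ))
      ((ContinuousLinearMap.id ℝ E2).prod (fderiv ℝ φ ξ)) ξ := fun ξ =>
    (hasFDerivAt_id ξ).prodMk (hφd ξ).hasFDerivAt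
  have hG0 : ((0 : E2), φ 0) = (0 : E2 × ℝ) := by rw [hφ0]; rfl
  have hcomp : ∀ ξ, HasFDerivAt (fun ξ => F (ξ, φ ξ))
      ((fderiv ℝ F (ξ, φ ξ)).comp ((ContinuousLinearMap.id ℝ E2).prod (fderiv ℝ φ ξ))) ξ :=
    fun ξ => (hFd (ξ, φ ξ)).hasFDerivAt.comp ξ (hG ξ)
  have hball : ∀ᶠ ξ in 𝓝 (0 : E2), ‖ξ‖ < ρ := by
    have := Metric.ball_mem_nhds (0 : E2) hρ
    filter_upwards [this] with ξ hξ
    rwa [mem_ball_zero_iff] at hξ
  have hzero : ∀ ξ, ‖ξ‖ < ρ → ∀ v, fderiv ℝ F (ξ, φ ξ) (v, fderiv ℝ φ ξ v) = 0 := by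
    intro ξ hξ v
    have h2 : (fun ξ => F (ξ, φ ξ)) =ᶠ[𝓝 ξ] fun _ => 0 := by
      have := (isOpen_lt continuous_norm continuous_const).mem_nhds (show ξ ∈ {ξ : E2 | ‖ξ‖ < ρ} from hξ)
      filter_upwards [this] with η hη using hz η hη
    have h3 := (hcomp ξ).unique ((hasFDerivAt_const (0 : ℝ) ξ).congr_of_eventuallyEq h2)
    have h4 := congrArg (fun T : E2 →L[ℝ] ℝ => T v) h3
    simpa using h4
  have hd0 : fderiv ℝ φ 0 = 0 := by
    ext v
    have h5 := hzero 0 (by simpa using hρ) v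
    rw [hG0, h1] at h5
    simpa using h5
  refine ⟨hd0, fun v w => ?_⟩
  -- differentiate the identity
  have hD1 : HasFDerivAt (fun ξ => fderiv ℝ F (ξ, φ ξ))
      ((fderiv ℝ (fderiv ℝ F) (0, φ 0)).comp
        ((ContinuousLinearMap.id ℝ E2).prod (fderiv ℝ φ 0))) 0 :=
    (hFdd (0, φ 0)).hasFDerivAt.comp (0 : E2) (hG 0)
  have hD2 : HasFDerivAt (fun ξ => (v, fderiv ℝ φ ξ v))
      ((0 : E2 →L[ℝ] E2).prod ((fderiv ℝ (fderiv ℝ φ) 0).flip v)) 0 := by
    refine (hasFDerivAt_const v (0 : E2)).prodMk ?_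
    have h6 := (hφdd 0).hasFDerivAt.clm_apply (hasFDerivAt_const v (0 : E2))
    convert h6 using 1
    ext u; simp
  have hD3 := hD1.clm_apply hD2
  have h7 : (fun ξ => fderiv ℝ F (ξ, φ ξ) (v, fderiv ℝ φ ξ v)) =ᶠ[𝓝 (0 : E2)] fun _ => 0 := by
    filter_upwards [hball] with η hη using hzero η hη v
  have h8 := hD3.unique ((hasFDerivAt_const (0 : ℝ) (0 : E2)).congr_of_eventuallyEq h7)
  have h9 := congrArg (fun T : E2 →L[ℝ] ℝ => T w) h8
  simp only [hG0, hd0] at h9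
  simp [h1] at h9
  linarith

end Crest.Agent.R138.Geo789
end

-- ▼ part R138/Geo4_789
section

/-!
R138 / S0190, geometry block, part 4: rescaling of the implicit function into the class `Par`, and
the existence of adapted charts.
-/

set_option autoImplicit false
open MeasureTheory Set Filter Topology
open scoped ENNReal NNReal ContDiff RealInnerProductSpace
open Crest.Agent.R138.Rs134 (E2 Par)
open Crest.AnalysisR.Surface3 (E3)

namespace Crest.Agent.R138.Geo789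

/-- One step of the mean value theorem. -/
theorem mvt_step (ψ : E2 → ℝ) (hψ : ContDiff ℝ ∞ ψ) (k m : ℕ) (M : ℝ)
    (hM : 0 ≤ M) (h0 : iteratedFDeriv ℝ k ψ 0 = 0)
    (hb : ∀ ξ : E2, ‖ξ‖ ≤ 1 → ‖iteratedFDeriv ℝ (k + 1) ψ ξ‖ ≤ M * ‖ξ‖ ^ m) :
    ∀ ξ : E2, ‖ξ‖ ≤ 1 → ‖iteratedFDeriv ℝ k ψ ξ‖ ≤ M * ‖ξ‖ ^ (m + 1) := by
  intro ξ hξ
  have h := Convex.norm_image_sub_le_of_norm_fderiv_le (𝕜 := ℝ) (f := iteratedFDeriv ℝ k ψ)
    (C := M * ‖ξ‖ ^ m) (s := Metric.closedBall (0 : E2) ‖ξ‖) (x := 0) (y := ξ)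
    (fun x _ => hψ.contDiffAt.differentiableAt_iteratedFDeriv
      (by exact_mod_cast (WithTop.coe_lt_top k)))
    (fun x hx => by
      rw [mem_closedBall_zero_iff] at hx
      rw [norm_fderiv_iteratedFDeriv]
      refine (hb x (hx.trans hξ)).trans ?_
      gcongr) (convex_closedBall _ _) (by simp) (by simp)
  rw [h0, sub_zero, sub_zero] at h
  calc _ ≤ _ := h
    _ = _ := by ring

set_option maxHeartbeats 1000000 in
/-- The rescaled and truncated function belongs to the class `Par`. -/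
theorem exists_scale (c0 : ℝ) (hc0 : 0 < c0) (K : ℕ) (φ : E2 → ℝ) (hφ : ContDiff ℝ ∞ φ)
    (hφ0 : φ 0 = 0) (hφ1 : fderiv ℝ φ 0 = 0)
    (hφ2 : ∀ v w : E2, fderiv ℝ (fderiv ℝ φ) 0 w v = ⟪w, v⟫) (r0 : ℝ) (hr0 : 0 < r0) :
    ∃ (r : ℝ) (h : E2 → ℝ), 0 < r ∧ r < r0 ∧ Par c0 K h ∧
      HasCompactSupport (fun η : E2 => h η - ‖η‖ ^ 2 / 2) ∧
      ∀ η : E2, ‖η‖ ≤ 1 → φ (r • η) = r ^ 2 * h η := by
  set ψ : E2 → ℝ := fun ξ => φ ξ - ‖ξ‖ ^ 2 / 2 with hψdef
  have hns : ContDiff ℝ ∞ (fun ξ : E2 => ‖ξ‖ ^ 2 / 2) := (contDiff_norm_sq ℝ).div_const 2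
  have hψ : ContDiff ℝ ∞ ψ := hφ.sub hns
  have hnd : ∀ ξ : E2, HasFDerivAt (fun ξ : E2 => ‖ξ‖ ^ 2 / 2) (innerSL ℝ ξ) ξ := by
    intro ξ
    have h1 := (hasStrictFDerivAt_norm_sq ξ).hasFDerivAt.mul_const (1 / 2 : ℝ)
    have h2 : (fun ξ : E2 => ‖ξ‖ ^ 2 / 2) = fun ξ : E2 => ‖ξ‖ ^ 2 * (1 / 2) := by
      ext ξ; ring
    rw [h2]
    refine h1.congr_fderiv ?_
    ext v
    simp
  have hψ1 : ∀ ξ, fderiv ℝ ψ ξ = fderiv ℝ φ ξ - innerSL ℝ ξ := by
    intro ξ
    exact ((hφ.differentiable (by simp) ξ).hasFDerivAt.sub (hnd ξ)).fderiv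
  have hψ2 : fderiv ℝ (fderiv ℝ ψ) 0 = 0 := by
    have h3 : fderiv ℝ ψ = fun ξ => fderiv ℝ φ ξ - innerSL ℝ ξ := funext hψ1
    have h4 : Differentiable ℝ (fderiv ℝ φ) :=
      (hφ.fderiv_right (m := 1) (by norm_cast)).differentiable (by simp)
    let J : E2 →L[ℝ] (E2 →L[ℝ] ℝ) := LinearMap.toContinuousLinearMap
      { toFun := fun ξ => innerSL ℝ ξ
        map_add' := fun x y => map_add _ x y
        map_smul' := fun c x => by ext v; simp }
    have hJ : ∀ ξ : E2, J ξ = innerSL ℝ ξ := fun ξ => rfl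
    have h5 : HasFDerivAt (fun ξ : E2 => fderiv ℝ φ ξ - innerSL ℝ ξ)
        (fderiv ℝ (fderiv ℝ φ) 0 - J) 0 :=
      (h4 0).hasFDerivAt.sub J.hasFDerivAt
    rw [h3, h5.fderiv]
    ext w v
    rw [sub_apply, sub_apply, hφ2, hJ, innerSL_apply_apply, sub_self]
    simp
  have hI0 : iteratedFDeriv ℝ 0 ψ 0 = 0 := by
    rw [← norm_eq_zero, norm_iteratedFDeriv_zero]; simp [hψdef, hφ0]
  have hI1 : iteratedFDeriv ℝ 1 ψ 0 = 0 := by
    rw [← norm_eq_zero, norm_iteratedFDeriv_one, hψ1, hφ1]; simp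
  have hI2 : iteratedFDeriv ℝ 2 ψ 0 = 0 := by
    ext m; rw [iteratedFDeriv_two_apply, hψ2]; simp
  -- a uniform bound for the derivatives
  obtain ⟨M, hM0, hM⟩ : ∃ M : ℝ, 0 ≤ M ∧ ∀ k ≤ K + 3, ∀ ξ : E2, ‖ξ‖ ≤ 1 →
      ‖iteratedFDeriv ℝ k ψ ξ‖ ≤ M := by
    have h6 : ∀ k : ℕ, ∃ M : ℝ, ∀ ξ ∈ Metric.closedBall (0 : E2) 1, ‖iteratedFDeriv ℝ k ψ ξ‖ ≤ M :=
      fun k => (isCompact_closedBall (0 : E2) 1).exists_bound_of_continuousOn
        (hψ.continuous_iteratedFDeriv (mod_cast le_top)).continuousOn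
    choose Mk hMk using h6
    refine ⟨∑ k ∈ Finset.range (K + 4), |Mk k|, Finset.sum_nonneg fun _ _ => abs_nonneg _, ?_⟩
    intro k hk ξ hξ
    refine (hMk k ξ (by simpa using hξ)).trans ((le_abs_self _).trans ?_)
    exact Finset.single_le_sum (f := fun k => |Mk k|) (fun _ _ => abs_nonneg _)
      (Finset.mem_range.2 (by omega))
  have hB2 := mvt_step ψ hψ 2 0 M hM0 hI2 (fun ξ hξ => by simpa using hM 3 (by omega) ξ hξ)
  have hB1 := mvt_step ψ hψ 1 1 M hM0 hI1 hB2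
  have hB0 := mvt_step ψ hψ 0 2 M hM0 hI0 hB1
  -- the cut-off
  set χ : ContDiffBump (0 : E2) := ⟨1, 2, by norm_num, by norm_num⟩ with hχ
  obtain ⟨X, hX0, hX⟩ : ∃ X : ℝ, 0 ≤ X ∧ ∀ k ≤ K, ∀ ξ : E2, ‖ξ‖ ≤ 2 →
      ‖iteratedFDeriv ℝ k χ ξ‖ ≤ X := by
    have h6 : ∀ k : ℕ, ∃ M : ℝ, ∀ ξ ∈ Metric.closedBall (0 : E2) 2, ‖iteratedFDeriv ℝ k χ ξ‖ ≤ M :=
      fun k => (isCompact_closedBall (0 : E2) 2).exists_bound_of_continuousOn
        ((χ.contDiff (n := ⊤)).continuous_iteratedFDeriv (mod_cast le_top)).continuousOn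
    choose Mk hMk using h6
    refine ⟨∑ k ∈ Finset.range (K + 1), |Mk k|, Finset.sum_nonneg fun _ _ => abs_nonneg _, ?_⟩
    intro k hk ξ hξ
    refine (hMk k ξ (by simpa using hξ)).trans ((le_abs_self _).trans ?_)
    exact Finset.single_le_sum (f := fun k => |Mk k|) (fun _ _ => abs_nonneg _)
      (Finset.mem_range.2 (by omega))
  -- the scale
  set Q : ℝ := 2 ^ K * X * (8 * M) with hQ
  have hQ0 : 0 ≤ Q := by positivity
  obtain ⟨r, hr, hr1, hr2, hr3⟩ : ∃ r : ℝ, 0 < r ∧ r < r0 ∧ 2 * r ≤ 1 ∧ Q * r ≤ c0 := by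
    refine ⟨min (min (r0 / 2) (1 / 2)) (c0 / (Q + 1)), by positivity, ?_, ?_, ?_⟩
    · exact lt_of_le_of_lt ((min_le_left _ _).trans (min_le_left _ _)) (by linarith)
    · have := (min_le_left (min (r0 / 2) (1 / 2)) (c0 / (Q + 1))).trans (min_le_right _ _)
      linarith
    · calc Q * min (min (r0 / 2) (1 / 2)) (c0 / (Q + 1)) ≤ (Q + 1) * (c0 / (Q + 1)) := by
            gcongr
            · linarith
            · exact min_le_right _ _
        _ = c0 := by field_simp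
  set ψr : E2 → ℝ := fun η => (r ^ 2)⁻¹ • ψ (r • η) with hψr
  have hψrs : ContDiff ℝ ∞ ψr := by
    have : ContDiff ℝ ∞ (fun η : E2 => ψ (r • η)) := hψ.comp (contDiff_const_smul r)
    exact this.const_smul _
  have hψrk : ∀ k η, ‖iteratedFDeriv ℝ k ψr η‖ =
      (r ^ 2)⁻¹ * (r ^ k * ‖iteratedFDeriv ℝ k ψ (r • η)‖) := by
    intro k η
    have h7 : ContDiff ℝ k (fun η : E2 => ψ (r • η)) :=
      (hψ.comp (contDiff_const_smul r)).of_le (mod_cast le_top)
    rw [hψr, iteratedFDeriv_const_smul_apply' h7.contDiffAt,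
      iteratedFDeriv_comp_const_smul r (hψ.of_le (mod_cast le_top)), norm_smul, norm_smul]
    simp only [norm_inv, norm_pow, Real.norm_eq_abs, abs_of_pos hr]
  have hbound : ∀ k ≤ K, ∀ η : E2, ‖η‖ ≤ 2 → ‖iteratedFDeriv ℝ k ψr η‖ ≤ 8 * M * r := by
    intro k hk η hη
    rw [hψrk]
    have hrη : ‖r • η‖ ≤ 2 * r := by
      rw [norm_smul, Real.norm_eq_abs, abs_of_pos hr]; nlinarith
    have hrη1 : ‖r • η‖ ≤ 1 := hrη.trans hr2
    have hr2' : (0 : ℝ) < r ^ 2 := by positivity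
    rw [inv_mul_le_iff₀ hr2']
    rcases k with _ | _ | _ | k
    · calc r ^ 0 * ‖iteratedFDeriv ℝ 0 ψ (r • η)‖ ≤ r ^ 0 * (M * ‖r • η‖ ^ (2 + 1)) := by
            gcongr; exact hB0 _ hrη1
        _ ≤ r ^ 0 * (M * (2 * r) ^ (2 + 1)) := by gcongr
        _ = r ^ 2 * (8 * M * r) := by ring
    · calc r ^ (0 + 1) * ‖iteratedFDeriv ℝ (0 + 1) ψ (r • η)‖
            ≤ r ^ 1 * (M * ‖r • η‖ ^ (1 + 1)) := by
            gcongr; exact hB1 _ hrη1
        _ ≤ r ^ 1 * (M * (2 * r) ^ (1 + 1)) := by gcongr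
        _ = r ^ 2 * (4 * M * r) := by ring
        _ ≤ r ^ 2 * (8 * M * r) := by gcongr; norm_num
    · calc r ^ (0 + 1 + 1) * ‖iteratedFDeriv ℝ (0 + 1 + 1) ψ (r • η)‖
            ≤ r ^ 2 * (M * ‖r • η‖ ^ (0 + 1)) := by
            gcongr; exact hB2 _ hrη1
        _ ≤ r ^ 2 * (M * (2 * r) ^ (0 + 1)) := by gcongr
        _ = r ^ 2 * (2 * M * r) := by ring
        _ ≤ r ^ 2 * (8 * M * r) := by gcongr; norm_num
    · calc r ^ (k + 1 + 1 + 1) * ‖iteratedFDeriv ℝ (k + 1 + 1 + 1) ψ (r • η)‖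
            ≤ r ^ (k + 1 + 1 + 1) * M := by
            gcongr; exact hM _ (by omega) _ hrη1
        _ = r ^ 2 * (r ^ (k + 1) * M) := by ring
        _ ≤ r ^ 2 * (r * M) := by
            gcongr
            calc r ^ (k + 1) = r ^ k * r := by ring
              _ ≤ 1 * r := by
                gcongr
                exact pow_le_one₀ hr.le (by linarith)
              _ = r := one_mul r
        _ ≤ r ^ 2 * (8 * M * r) :=
            mul_le_mul_of_nonneg_left (by nlinarith [mul_nonneg hM0 hr.le]) hr2'.le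
  set h : E2 → ℝ := fun η => ‖η‖ ^ 2 / 2 + χ η * ψr η with hh
  have hχψ : ContDiff ℝ ∞ (fun η => χ η * ψr η) := χ.contDiff.mul hψrs
  have hψr0 : ψr 0 = 0 := by simp [hψr, hψdef, hφ0]
  have hψr1 : fderiv ℝ ψr 0 = 0 := by
    rw [← norm_eq_zero, ← norm_iteratedFDeriv_one, hψrk, smul_zero, hI1]; simp
  have h11 : (fun η : E2 => h η - ‖η‖ ^ 2 / 2) = fun η => χ η * ψr η := by
    ext η; simp [hh]
  refine ⟨r, h, hr, hr1, ?_, ?_, ?_⟩
  · refine ⟨hns.add hχψ, by simp [hh, hψr0], ?_, ?_⟩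
    · have h8 : HasFDerivAt (fun η => χ η * ψr η) (χ 0 • fderiv ℝ ψr 0 + ψr 0 • fderiv ℝ χ 0) 0 :=
        ((χ.contDiff (n := 1)).differentiable (by simp) 0).hasFDerivAt.mul
          (hψrs.differentiable (by simp) 0).hasFDerivAt
      have h9 := (hnd 0).add h8
      rw [hψr0, hψr1] at h9
      have h10 : h = (fun ξ : E2 => ‖ξ‖ ^ 2 / 2) + fun η => χ η * ψr η := rfl
      rw [h10, h9.fderiv]
      simp
    · intro k hk2 hkK η
      rw [h11]
      by_cases hη : ‖η‖ ≤ 2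
      · refine (norm_iteratedFDeriv_mul_le (N := ∞) χ.contDiff hψrs η (mod_cast le_top)).trans ?_
        calc ∑ i ∈ Finset.range (k + 1), (k.choose i : ℝ) * ‖iteratedFDeriv ℝ i χ η‖ *
              ‖iteratedFDeriv ℝ (k - i) ψr η‖
            ≤ ∑ i ∈ Finset.range (k + 1), (k.choose i : ℝ) * X * (8 * M * r) := by
              apply Finset.sum_le_sum
              intro i hi
              rw [Finset.mem_range] at hi
              gcongr
              · exact hX i (by omega) η hη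
              · exact hbound (k - i) (by omega) η hη
          _ = 2 ^ k * X * (8 * M * r) := by
              rw [← Finset.sum_mul, ← Finset.sum_mul]
              congr 2
              exact_mod_cast Nat.sum_range_choose k
          _ ≤ 2 ^ K * X * (8 * M * r) := by
              gcongr
              · norm_num
          _ = Q * r := by rw [hQ]; ring
          _ ≤ c0 := hr3
      · have h12 : η ∉ tsupport (fun η => χ η * ψr η) := by
          intro hmem
          have h13 : η ∈ tsupport χ := (tsupport_mul_subset_left (f := χ) (g := ψr)) hmem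
          rw [χ.tsupport_eq, mem_closedBall_zero_iff] at h13
          exact hη h13
        have h14 : iteratedFDeriv ℝ k (fun η => χ η * ψr η) η = 0 := by
          by_contra hne
          exact h12 (support_iteratedFDeriv_subset (𝕜 := ℝ) k hne)
        rw [h14, norm_zero]
        exact hc0.le
  · rw [h11]
    exact χ.hasCompactSupport.mul_right
  · intro η hη
    have h15 : χ η = 1 := χ.one_of_mem_closedBall (by rw [mem_closedBall_zero_iff]; exact hη)
    simp only [hh, h15, one_mul, hψr, hψdef, smul_eq_mul, norm_smul, Real.norm_eq_abs,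
      abs_of_pos hr]
    field_simp
    ring

end Crest.Agent.R138.Geo789
end

-- ▼ part R138/Geo5_789
section

/-!
R138 / S0190, geometry block, part 5: adapted charts of curved surfaces.
-/

set_option autoImplicit false
open MeasureTheory Set Filter Topology
open scoped ENNReal NNReal ContDiff RealInnerProductSpace
open Crest.Agent.R138.Rs134 (E2 Par)
open Crest.AnalysisR.Surface3 (E3)

namespace Crest.Agent.R138.Geo789

/-- Adapted chart: near each of its points a curved surface is contained in an affine image of the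
graph, over the ball of radius `1/2`, of a function of the class `Par`. -/
theorem exists_chart (c0 : ℝ) (hc0 : 0 < c0) (K : ℕ) {S : Set E3} {q : E3}
    (hS : Crest.AnalysisR.Surface3.IsCurvedChartAt S q) (hq : q ∈ S) :
    ∃ V : Set E3, IsOpen V ∧ q ∈ V ∧ ∃ (L : (E2 × ℝ) ≃L[ℝ] E3) (h : E2 → ℝ), Par c0 K h ∧
      HasCompactSupport (fun η : E2 => h η - ‖η‖ ^ 2 / 2) ∧
      ∀ x ∈ S ∩ V, ∃ ξ : E2, ‖ξ‖ ≤ 1 / 2 ∧ x = q + L (ξ, h ξ) := by
  obtain ⟨U, hU, hqU, Φ, Ψ, hΦ, hΨ, hSU, hreg, -, hpos⟩ := hS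
  have hqS : q ∈ S ∩ U := ⟨hq, hqU⟩
  have hzero : ∀ x ∈ S ∩ U, Φ x = 0 := by
    intro x hx
    rw [hSU] at hx
    exact hx.2.1
  have hΦd : Differentiable ℝ Φ := hΦ.differentiable (by simp)
  have hΦdd : Differentiable ℝ (fderiv ℝ Φ) :=
    (hΦ.fderiv_right (m := 1) (by norm_cast)).differentiable (by simp)
  have hsymm : ∀ v w, fderiv ℝ (fderiv ℝ Φ) q v w = fderiv ℝ (fderiv ℝ Φ) q w v := by
    have h1 : IsSymmSndFDerivAt ℝ Φ q :=
      (hΦ.contDiffAt (x := q)).isSymmSndFDerivAt (by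
        rw [minSmoothness_of_isRCLikeNormedField]; norm_cast)
    exact fun v w => h1 v w
  have hhess : ∀ w, Crest.AnalysisR.Surface3.hess Φ q w w = fderiv ℝ (fderiv ℝ Φ) q w w := by
    intro w
    unfold Crest.AnalysisR.Surface3.hess
    have h2 := (hΦdd q).hasFDerivAt.clm_apply (hasFDerivAt_const w q)
    rw [h2.fderiv]
    simp
  obtain ⟨L0, hL0a, hL0B⟩ := exists_coord (fderiv ℝ Φ q) (hreg q hqS) (fderiv ℝ (fderiv ℝ Φ) q)
    hsymm (fun w hw0 hw => by rw [← hhess]; exact hpos q hqS w hw0 hw)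
  set F : E2 × ℝ → ℝ := fun z => Φ (q + L0 z) with hF
  have hin : ContDiff ℝ ∞ (fun z : E2 × ℝ => q + L0 z) := contDiff_const.add L0.contDiff
  have hind : ∀ z, HasFDerivAt (fun z : E2 × ℝ => q + L0 z) (L0 : (E2 × ℝ) →L[ℝ] E3) z := fun z =>
    (L0.hasFDerivAt (x := z)).const_add q
  have hFs : ContDiff ℝ ∞ F := hΦ.comp hin
  have hF0 : F 0 = 0 := by
    simp only [hF, map_zero, add_zero]; exact hzero q hqS
  have hFd : ∀ z, HasFDerivAt F ((fderiv ℝ Φ (q + L0 z)).comp (L0 : (E2 × ℝ) →L[ℝ] E3)) z :=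
    fun z => (hΦd (q + L0 z)).hasFDerivAt.comp z (hind z)
  have hF1 : ∀ z : E2 × ℝ, fderiv ℝ F 0 z = -z.2 := by
    intro z
    rw [(hFd 0).fderiv]
    simp only [map_zero, add_zero, ContinuousLinearMap.comp_apply]
    exact hL0a z
  have hF2 : ∀ v w : E2 × ℝ, fderiv ℝ (fderiv ℝ F) 0 w v =
      fderiv ℝ (fderiv ℝ Φ) q (L0 w) (L0 v) := by
    intro v w
    have h3 : fderiv ℝ F = fun z => (fderiv ℝ Φ (q + L0 z)).comp (L0 : (E2 × ℝ) →L[ℝ] E3) :=
      funext fun z => (hFd z).fderiv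
    have h4 : HasFDerivAt (fun z => fderiv ℝ Φ (q + L0 z))
        ((fderiv ℝ (fderiv ℝ Φ) (q + L0 0)).comp (L0 : (E2 × ℝ) →L[ℝ] E3)) 0 :=
      (hΦdd (q + L0 0)).hasFDerivAt.comp (0 : E2 × ℝ) (hind 0)
    have h5 := h4.clm_comp (hasFDerivAt_const (L0 : (E2 × ℝ) →L[ℝ] E3) (0 : E2 × ℝ))
    rw [h3, h5.fderiv]
    simp
  obtain ⟨φ, ρ, hφ, hφ0, hρ, hφz, hφu⟩ := exists_implicit F hFs hF0 hF1
  obtain ⟨hφ1, hφ2⟩ := implicit_deriv F hFs hF1 φ ρ hφ hφ0 hρ hφz
  obtain ⟨r, h, hr, hr1, hpar, hcs, hrh⟩ := exists_scale c0 hc0 K φ hφ hφ0 hφ1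
    (fun v w => by rw [hφ2, hF2, hL0B]) 1 one_pos
  have hr2 : r ^ 2 ≠ 0 := by positivity
  refine ⟨U ∩ (fun x => L0.symm (x - q)) ⁻¹' Metric.ball 0 (min ρ (r / 2)), ?_, ?_, ?_⟩
  · refine hU.inter (Metric.isOpen_ball.preimage ?_)
    exact L0.symm.continuous.comp (continuous_id.sub continuous_const)
  · refine ⟨hqU, ?_⟩
    simp only [mem_preimage, sub_self, map_zero]
    exact Metric.mem_ball_self (by positivity)
  · refine ⟨(((LinearEquiv.smulOfNeZero ℝ E2 r hr.ne').toContinuousLinearEquiv).prodCongr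
      ((LinearEquiv.smulOfNeZero ℝ ℝ (r ^ 2) hr2).toContinuousLinearEquiv)).trans L0, h, hpar, hcs, ?_⟩
    rintro x ⟨hxS, hxU, hxb⟩
    set z := L0.symm (x - q) with hz
    have hLz : L0 z = x - q := L0.apply_symm_apply _
    have hnz : ‖z‖ < min ρ (r / 2) := by
      have := hxb
      rwa [mem_preimage, mem_ball_zero_iff] at this
    have hz1 : ‖z.1‖ ≤ ‖z‖ := norm_fst_le z
    have hz2 : |z.2| ≤ ‖z‖ := norm_snd_le z
    have hFz : F (z.1, z.2) = 0 := by
      change Φ (q + L0 z) = 0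
      rw [hLz, add_sub_cancel]
      exact hzero x ⟨hxS, hxU⟩
    have h6 : z.2 = φ z.1 := hφu z.1 z.2
      (hz1.trans_lt (hnz.trans_le (min_le_left _ _))) (hz2.trans_lt (hnz.trans_le (min_le_left _ _)))
      hFz
    have h7 : ‖r⁻¹ • z.1‖ ≤ 1 / 2 := by
      rw [norm_smul, norm_inv, Real.norm_eq_abs, abs_of_pos hr, inv_mul_le_iff₀ hr]
      have := hz1.trans (hnz.le.trans (min_le_right _ _))
      linarith
    have h8 : r • (r⁻¹ • z.1) = z.1 := by
      rw [smul_smul, mul_inv_cancel₀ hr.ne', one_smul]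
    have h9 := hrh (r⁻¹ • z.1) (h7.trans (by norm_num))
    rw [h8, ← h6] at h9
    refine ⟨r⁻¹ • z.1, h7, ?_⟩
    have h10 : (r • (r⁻¹ • z.1), r ^ 2 • h (r⁻¹ • z.1)) = z := by
      rw [h8, smul_eq_mul, ← h9]
    have h11 : ((((LinearEquiv.smulOfNeZero ℝ E2 r hr.ne').toContinuousLinearEquiv).prodCongr
      ((LinearEquiv.smulOfNeZero ℝ ℝ (r ^ 2) hr2).toContinuousLinearEquiv)).trans L0)
        (r⁻¹ • z.1, h (r⁻¹ • z.1)) = L0 (r • (r⁻¹ • z.1), r ^ 2 • h (r⁻¹ • z.1)) := rfl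
    rw [h11, h10, hLz, add_sub_cancel]

/-- A smooth function with compact support has bounded derivatives. -/
theorem exists_bounds {u : E2 → ℝ} (hu : ContDiff ℝ ∞ u) (hc : HasCompactSupport u) :
    ∃ B : ℕ → ℝ, ∀ k ξ, ‖iteratedFDeriv ℝ k u ξ‖ ≤ B k := by
  have h1 : ∀ k : ℕ, ∃ B : ℝ, ∀ ξ, ‖iteratedFDeriv ℝ k u ξ‖ ≤ B := fun k =>
    (hc.iteratedFDeriv (𝕜 := ℝ) k).exists_bound_of_continuous
      (hu.continuous_iteratedFDeriv (mod_cast le_top))
  choose B hB using h1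
  exact ⟨B, hB⟩

end Crest.Agent.R138.Geo789
end

-- ▼ part R138/Geo6_789
section

/-!
R138 / S0190, geometry block, part 6: linear change of variables, transfer of integrals and of
`L^p` norms from a piece of the surface to the parameter plane.
-/

set_option autoImplicit false
open MeasureTheory Set Filter Topology
open scoped ENNReal NNReal ContDiff RealInnerProductSpace MeasureTheory
open Crest.Agent.R138.Rs134 (E2 Par ee ph ext)
open Crest.AnalysisR.Surface3 (E3 extension)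

namespace Crest.Agent.R138.Geo789

/-- Transpose of a linear isomorphism `E2 × ℝ → E3`. -/
theorem exists_transpose (L : (E2 × ℝ) ≃L[ℝ] E3) :
    ∃ T : E3 ≃L[ℝ] (E2 × ℝ), ∀ (x : E3) (z : E2 × ℝ),
      ⟪x, L z⟫ = ⟪(T x).1, z.1⟫ + (T x).2 * z.2 := by
  set A : E2 →L[ℝ] E3 := (L : (E2 × ℝ) →L[ℝ] E3).comp (ContinuousLinearMap.inl ℝ E2 ℝ) with hA
  set T1 : E3 →L[ℝ] (E2 × ℝ) := (ContinuousLinearMap.adjoint A).prod (innerSL ℝ (L (0, 1))) with hT1'
  set T0 : E3 →ₗ[ℝ] (E2 × ℝ) := (T1 : E3 →ₗ[ℝ] (E2 × ℝ)) with hT0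
  have hT1 : ∀ x, (T0 x).1 = ContinuousLinearMap.adjoint A x := fun x => rfl
  have hT2 : ∀ x, (T0 x).2 = ⟪L (0, 1), x⟫ := fun x => rfl
  have hT : ∀ (x : E3) (z : E2 × ℝ), ⟪x, L z⟫ = ⟪(T0 x).1, z.1⟫ + (T0 x).2 * z.2 := by
    intro x z
    have h1 : L z = A z.1 + z.2 • L (0, 1) := by
      rw [hA, ← map_smul]
      change L z = L (z.1, 0) + L (z.2 • ((0 : E2), (1 : ℝ)))
      rw [← map_add]
      congr 1
      ext <;> simp
    rw [h1, inner_add_right, inner_smul_right, hT1, hT2, ContinuousLinearMap.adjoint_inner_left,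
      real_inner_comm (L (0, 1)) x]
    ring
  have hinj : Function.Injective T0 := by
    rw [← LinearMap.ker_eq_bot, LinearMap.ker_eq_bot']
    intro x hx
    have h2 : ⟪x, x⟫ = (0 : ℝ) := by
      have := hT x (L.symm x)
      rw [L.apply_symm_apply, hx] at this
      simpa using this
    exact inner_self_eq_zero.1 h2
  have hfr : Module.finrank ℝ E3 = Module.finrank ℝ (E2 × ℝ) := by
    rw [Module.finrank_prod, finrank_euclideanSpace_fin, finrank_euclideanSpace_fin,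
      Module.finrank_self]
  exact ⟨(LinearEquiv.ofInjectiveOfFinrankEq T0 hinj hfr).toContinuousLinearEquiv,
    fun x z => hT x z⟩

/-- Linear change of variables in `L^p` norms. -/
theorem exists_change (T : E3 ≃L[ℝ] (E2 × ℝ)) (p : ℝ≥0∞) (hp : p ≠ ⊤) :
    ∃ c : ℝ≥0, ∀ G : E2 × ℝ → ℂ,
      eLpNorm (fun x => G (T x)) p (volume : Measure E3) ≤ c * eLpNorm G p volume := by
  have : (volume : Measure (E2 × ℝ)).IsAddHaarMeasure := by
    rw [Measure.volume_eq_prod]; infer_instance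
  have : (Measure.map T (volume : Measure E3)).IsAddHaarMeasure := T.isAddHaarMeasure_map _
  obtain ⟨c, h1⟩ : ∃ c : ℝ≥0, Measure.map T (volume : Measure E3) =
      c • (volume : Measure (E2 × ℝ)) :=
    ⟨_, Measure.isAddLeftInvariant_eq_smul _ _⟩
  have hT : MeasurableEmbedding T := T.toHomeomorph.measurableEmbedding
  refine ⟨c ^ p.toReal⁻¹, fun G => ?_⟩
  have h2 : eLpNorm (fun x => G (T x)) p (volume : Measure E3) =
      eLpNorm G p (Measure.map T (volume : Measure E3)) := (hT.eLpNorm_map_measure (g := G)).symm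
  rw [h2, h1, eLpNorm_smul_measure_of_ne_top' hp, ENNReal.smul_def, smul_eq_mul]

/-- Integrals over a piece of the surface. -/
theorem integral_piece {γ : E2 → E3} (hγ : MeasurableEmbedding γ) {A : Set E2}
    (hA : MeasurableSet A) {J : E2 → ℝ≥0} (hJ : Measurable J)
    (h : (μHE[2] : Measure E3).restrict (γ '' A) =
      (((volume : Measure E2).restrict A).withDensity (fun ξ => (J ξ : ℝ≥0∞))).map γ)
    (F : E3 → ℂ) :
    ∫ x in γ '' A, F x ∂(μHE[2] : Measure E3) = ∫ ξ, A.indicator (fun ξ => J ξ • F (γ ξ)) ξ := by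
  rw [h, hγ.integral_map, integral_withDensity_eq_integral_smul hJ, integral_indicator hA]

/-- `L^p` norms over a piece of the surface. -/
theorem eLpNorm_piece {γ : E2 → E3} (hγ : MeasurableEmbedding γ) {A : Set E2}
    (hA : MeasurableSet A) {J : E2 → ℝ≥0} (hJ : Measurable J)
    (h : (μHE[2] : Measure E3).restrict (γ '' A) =
      (((volume : Measure E2).restrict A).withDensity (fun ξ => (J ξ : ℝ≥0∞))).map γ)
    {K : ℝ≥0} (hK : ∀ ξ, J ξ ≤ K) {f : E3 → ℂ} (hf : Measurable f) {p : ℝ} (hp : 1 ≤ p) :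
    eLpNorm (A.indicator (fun ξ => J ξ • f (γ ξ))) (ENNReal.ofReal p) (volume : Measure E2) ≤
      ((K ^ ((p - 1) / p) : ℝ≥0) : ℝ≥0∞) *
        eLpNorm f (ENNReal.ofReal p) ((μHE[2] : Measure E3).restrict (γ '' A)) := by
  have hp0 : 0 < p := by linarith
  have hpne : ENNReal.ofReal p ≠ 0 := by simpa using hp0
  have hfm : Measurable (fun ξ => ‖f (γ ξ)‖ₑ ^ p) := by
    have := (hf.comp hγ.measurable)
    exact (this.enorm).pow_const p
  rw [h, hγ.eLpNorm_map_measure,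
    eLpNorm_eq_lintegral_rpow_enorm_toReal hpne ENNReal.ofReal_ne_top,
    eLpNorm_eq_lintegral_rpow_enorm_toReal hpne ENNReal.ofReal_ne_top,
    ENNReal.toReal_ofReal hp0.le]
  simp only [Function.comp_apply]
  rw [lintegral_withDensity_eq_lintegral_mul _ (by fun_prop) hfm]
  have h1 : ∫⁻ ξ, ‖A.indicator (fun ξ => J ξ • f (γ ξ)) ξ‖ₑ ^ p =
      ∫⁻ ξ in A, (J ξ : ℝ≥0∞) ^ p * ‖f (γ ξ)‖ₑ ^ p := by
    rw [← lintegral_indicator hA]
    congr 1
    ext ξ
    by_cases hξ : ξ ∈ A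
    · rw [indicator_of_mem hξ, indicator_of_mem hξ]
      rw [NNReal.smul_def, enorm_smul, ENNReal.mul_rpow_of_nonneg _ _ hp0.le]
      congr 2
      simp [enorm_eq_nnnorm]
    · rw [indicator_of_notMem hξ, indicator_of_notMem hξ]
      simp [hp0]
  rw [h1]
  have h2 : ∫⁻ ξ in A, (J ξ : ℝ≥0∞) ^ p * ‖f (γ ξ)‖ₑ ^ p ≤
      (K : ℝ≥0∞) ^ (p - 1) * ∫⁻ ξ in A, (J ξ : ℝ≥0∞) * ‖f (γ ξ)‖ₑ ^ p := by
    rw [← lintegral_const_mul _ (by fun_prop)]
    refine lintegral_mono fun ξ => ?_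
    have h3 : (J ξ : ℝ≥0∞) ^ p = (J ξ : ℝ≥0∞) ^ (p - 1) * (J ξ : ℝ≥0∞) := by
      conv_lhs => rw [show p = (p - 1) + 1 by ring]
      rw [ENNReal.rpow_add_of_nonneg _ _ (by linarith) zero_le_one, ENNReal.rpow_one]
    rw [h3, mul_assoc]
    gcongr
    exact hK ξ
  calc (∫⁻ ξ in A, (J ξ : ℝ≥0∞) ^ p * ‖f (γ ξ)‖ₑ ^ p) ^ (1 / p)
      ≤ ((K : ℝ≥0∞) ^ (p - 1) * ∫⁻ ξ in A, (J ξ : ℝ≥0∞) * ‖f (γ ξ)‖ₑ ^ p) ^ (1 / p) := by
        gcongr
    _ = _ := by
        rw [ENNReal.mul_rpow_of_nonneg _ _ (by positivity), ← ENNReal.rpow_mul,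
          ENNReal.coe_rpow_of_nonneg _ (by apply div_nonneg <;> linarith)]
        congr 2
        ring

end Crest.Agent.R138.Geo789
end

-- ▼ part R138/Geo7_789
section

/-!
R138 / S0190, geometry block, part 7: the statement S0190 from the global estimates for the
extension operators of the graphs of the class `Par`.
-/

set_option autoImplicit false
open MeasureTheory Set Filter Topology
open scoped ENNReal NNReal ContDiff RealInnerProductSpace MeasureTheory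
open Crest.Agent.R138.Rs134 (E2 Par ee ph ext)
open Crest.AnalysisR.Surface3 (E3 extension IsCurvedChartAt IsCompactCurvedSurface)

namespace Crest.Agent.R138.Geo789

/-- The `L^p` bound for the piece `P`. -/
def Bdd (p : ℝ) (P : Set E3) : Prop :=
  (μHE[2] : Measure E3) P < ⊤ ∧ ∃ C : ℝ≥0, ∀ f : E3 → ℂ, Measurable f →
    eLpNorm (extension P f) (ENNReal.ofReal p) volume ≤
      C * eLpNorm f (ENNReal.ofReal p) ((μHE[2] : Measure E3).restrict P)

theorem exp_eq_ee (x ξ : E3) :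
    Complex.exp (2 * Real.pi * ((⟪x, ξ⟫ : ℝ) : ℂ) * Complex.I) = ee ⟪x, ξ⟫ := by
  unfold ee; congr 1; push_cast; ring

theorem extension_eq (P : Set E3) (f : E3 → ℂ) (x : E3) :
    extension P f x = ∫ ξ in P, f ξ * ee ⟪x, ξ⟫ ∂(μHE[2] : Measure E3) := by
  unfold extension
  simp_rw [← exp_eq_ee]

/-- The extension operator of a piece in the chart. -/
theorem extension_piece {γ : E2 → E3} (hγ : MeasurableEmbedding γ) {A : Set E2}
    (hA : MeasurableSet A) {J : E2 → ℝ≥0} (hJ : Measurable J)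
    (hres : (μHE[2] : Measure E3).restrict (γ '' A) =
      (((volume : Measure E2).restrict A).withDensity (fun ξ => (J ξ : ℝ≥0∞))).map γ)
    (h : E2 → ℝ) (q x : E3) (u : E2) (t : ℝ)
    (hph : ∀ ξ, ⟪x, γ ξ⟫ = ⟪x, q⟫ + ph h u t ξ) (f : E3 → ℂ) :
    extension (γ '' A) f x =
      ee ⟪x, q⟫ * ext h (A.indicator (fun ξ => J ξ • f (γ ξ))) u t := by
  rw [extension_eq, integral_piece hγ hA hJ hres (fun ξ => f ξ * ee ⟪x, ξ⟫)]
  unfold Crest.Agent.R138.Rs134.ext
  rw [← integral_const_mul]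
  refine integral_congr_ae (Eventually.of_forall fun ξ => ?_)
  by_cases hξ : ξ ∈ A
  · simp only [indicator_of_mem hξ, hph, Crest.Agent.R138.Rs134.ee_add, NNReal.smul_def,
      Complex.real_smul]
    ring
  · simp only [indicator_of_notMem hξ, zero_mul, mul_zero]

/-- The parametrisation of the graph. -/
theorem param_facts (q : E3) (L : (E2 × ℝ) ≃L[ℝ] E3) {h : E2 → ℝ} (hh : ContDiff ℝ ∞ h)
    {γ : E2 → E3} (hγ : ∀ ξ, γ ξ = q + L (ξ, h ξ)) :
    Continuous γ ∧ Function.Injective γ ∧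
      ∃ K1 : ℝ≥0, LipschitzOnWith K1 γ (Metric.closedBall 0 1) := by
  have hγs : ContDiff ℝ ∞ γ := by
    have : γ = fun ξ => q + L (ξ, h ξ) := funext hγ
    rw [this]
    exact contDiff_const.add (L.contDiff.comp (contDiff_id.prodMk hh))
  refine ⟨hγs.continuous, ?_, ?_⟩
  · intro ξ η hξη
    rw [hγ, hγ] at hξη
    have := L.injective (add_left_cancel hξη)
    exact (Prod.ext_iff.1 this).1
  · obtain ⟨M, hM⟩ := (isCompact_closedBall (0 : E2) 1).exists_bound_of_continuousOn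
      (hγs.continuous_fderiv (by simp)).continuousOn
    refine ⟨M.toNNReal, Convex.lipschitzOnWith_of_nnnorm_fderiv_le (𝕜 := ℝ)
      (fun x _ => hγs.differentiable (by simp) x) (fun x hx => ?_) (convex_closedBall _ _)⟩
    rw [← NNReal.coe_le_coe, coe_nnnorm]
    exact (hM x hx).trans (Real.le_coe_toNNReal M)

/-- Chaining of three bounds. -/
theorem chain_bound {X1 X2 X3 X4 : ℝ≥0∞} {c Kp : ℝ≥0} {C : ℝ} (e1 : X1 ≤ c * X2)
    (e2 : X2 ≤ ENNReal.ofReal C * X3) (e3 : X3 ≤ Kp * X4) :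
    X1 ≤ ((c * (C.toNNReal * Kp) : ℝ≥0) : ℝ≥0∞) * X4 := by
  calc X1 ≤ c * X2 := e1
    _ ≤ c * (ENNReal.ofReal C * X3) := by gcongr
    _ ≤ c * (ENNReal.ofReal C * (Kp * X4)) := by gcongr
    _ = _ := by
      rw [ENNReal.coe_mul, ENNReal.coe_mul, ENNReal.ofReal]
      ring

/-- The estimate for a piece in the chart. -/
theorem piece_bound {p : ℝ} (hp : 3 < p) {h : E2 → ℝ} {C : ℝ}
    (hC : ∀ g : E2 → ℂ, Measurable g → (∀ ξ, 1 / 2 < ‖ξ‖ → g ξ = 0) →
        eLpNorm (fun z : E2 × ℝ => ext h g z.1 z.2) (ENNReal.ofReal p) volume ≤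
          ENNReal.ofReal C * eLpNorm g (ENNReal.ofReal p) volume)
    (q : E3) (L : (E2 × ℝ) ≃L[ℝ] E3) {γ : E2 → E3} (hγ : ∀ ξ, γ ξ = q + L (ξ, h ξ))
    (hγe : MeasurableEmbedding γ) {A : Set E2} (hA : MeasurableSet A)
    (hA1 : A ⊆ Metric.closedBall 0 (1 / 2)) {J : E2 → ℝ≥0} (hJ : Measurable J) {K : ℝ≥0}
    (hK : ∀ ξ, J ξ ≤ K)
    (hres : (μHE[2] : Measure E3).restrict (γ '' A) =
      (((volume : Measure E2).restrict A).withDensity (fun ξ => (J ξ : ℝ≥0∞))).map γ) :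
    ∃ D : ℝ≥0, ∀ f : E3 → ℂ, Measurable f →
      eLpNorm (extension (γ '' A) f) (ENNReal.ofReal p) volume ≤
        D * eLpNorm f (ENNReal.ofReal p) ((μHE[2] : Measure E3).restrict (γ '' A)) := by
  obtain ⟨T, hT⟩ := exists_transpose L
  obtain ⟨c, hc⟩ := exists_change T (ENNReal.ofReal p) ENNReal.ofReal_ne_top
  refine ⟨c * (C.toNNReal * K ^ ((p - 1) / p)), fun f hf => ?_⟩
  have hgm : Measurable (A.indicator (fun ξ => J ξ • f (γ ξ))) := by
    refine Measurable.indicator ?_ hA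
    exact hJ.smul (hf.comp hγe.measurable)
  have hgs : ∀ ξ, 1 / 2 < ‖ξ‖ → (A.indicator (fun ξ => J ξ • f (γ ξ))) ξ = 0 := by
    intro ξ hξ
    rw [indicator_of_notMem]
    intro hmem
    have := hA1 hmem
    rw [mem_closedBall_zero_iff] at this
    linarith
  have hn : eLpNorm (extension (γ '' A) f) (ENNReal.ofReal p) volume =
      eLpNorm (fun x => (fun z : E2 × ℝ => ext h (A.indicator (fun ξ => J ξ • f (γ ξ))) z.1 z.2)
        (T x)) (ENNReal.ofReal p) volume := by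
    refine eLpNorm_congr_norm_ae (Eventually.of_forall fun x => ?_)
    have h1 := extension_piece hγe hA hJ hres h q x (T x).1 (T x).2 (fun ξ => by
      rw [hγ, inner_add_right, hT]
      unfold Crest.Agent.R138.Rs134.ph
      ring) f
    simp only [h1, norm_mul, Crest.Agent.R138.Rs134.norm_ee, one_mul]
  have hpc := eLpNorm_piece hγe hA hJ hres hK hf (show (1 : ℝ) ≤ p by linarith)
  have e1 := hc (fun z : E2 × ℝ => ext h (A.indicator (fun ξ => J ξ • f (γ ξ))) z.1 z.2)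
  rw [← hn] at e1
  exact chain_bound e1 (hC _ hgm hgs) hpc

/-- The local estimate at a point of the surface. -/
theorem local_bound (c0 : ℝ) (hc0 : 0 < c0) (K : ℕ) (p : ℝ) (hp : 3 < p)
    (H : ∀ h : E2 → ℝ, Par c0 K h → HasCompactSupport (fun η : E2 => h η - ‖η‖ ^ 2 / 2) →
      ∃ C : ℝ, ∀ g : E2 → ℂ, Measurable g → (∀ ξ, 1 / 2 < ‖ξ‖ → g ξ = 0) →
        eLpNorm (fun z : E2 × ℝ => ext h g z.1 z.2) (ENNReal.ofReal p) volume ≤
          ENNReal.ofReal C * eLpNorm g (ENNReal.ofReal p) volume)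
    {S : Set E3} {q : E3} (hS : IsCurvedChartAt S q) (hq : q ∈ S) :
    ∃ V : Set E3, IsOpen V ∧ q ∈ V ∧ ∀ P : Set E3, MeasurableSet P → P ⊆ S ∩ V → Bdd p P := by
  obtain ⟨V, hV, hqV, L, h, hpar, hcs, hcov⟩ := exists_chart c0 hc0 K hS hq
  obtain ⟨C, hC⟩ := H h hpar hcs
  obtain ⟨γ, hγ⟩ : ∃ γ : E2 → E3, ∀ ξ, γ ξ = q + L (ξ, h ξ) := ⟨_, fun _ => rfl⟩
  obtain ⟨hγc, hγi, K1, hK1⟩ := param_facts q L hpar.smooth hγ
  obtain ⟨J, hJm, hJle, hJ⟩ := exists_density hγc hγi hK1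
  have hγe : MeasurableEmbedding γ := hγc.measurableEmbedding hγi
  refine ⟨V, hV, hqV, fun P hP hPV => ?_⟩
  have hA : MeasurableSet (γ ⁻¹' P ∩ Metric.closedBall 0 (1 / 2)) :=
    (hγe.measurable hP).inter measurableSet_closedBall
  have hA1 : (γ ⁻¹' P ∩ Metric.closedBall 0 (1 / 2)) ⊆ Metric.closedBall 0 1 :=
    inter_subset_right.trans (Metric.closedBall_subset_closedBall (by norm_num))
  have hγA : γ '' (γ ⁻¹' P ∩ Metric.closedBall 0 (1 / 2)) = P := by
    refine Subset.antisymm (image_subset_iff.2 inter_subset_left) fun x hx => ?_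
    obtain ⟨ξ, hξ, hxξ⟩ := hcov x (hPV hx)
    rw [← hγ] at hxξ
    refine ⟨ξ, ⟨?_, by rwa [mem_closedBall_zero_iff]⟩, hxξ.symm⟩
    rwa [mem_preimage, ← hxξ]
  have hres := hJ _ hA1 hA
  have h1 := piece_bound hp hC q L hγ hγe hA inter_subset_right hJm hJle hres
  rw [hγA] at h1
  refine ⟨?_, h1⟩
  rw [← hγA]
  refine (muHE_image_le hK1 hA1).trans_lt (ENNReal.mul_lt_top ENNReal.coe_lt_top ?_)
  exact (measure_mono hA1).trans_lt measure_closedBall_lt_top

theorem stronglyMeasurable_extension {P : Set E3} (hP : (μHE[2] : Measure E3) P < ⊤)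
    {f : E3 → ℂ} (hf : Measurable f) : StronglyMeasurable (extension P f) := by
  have : IsFiniteMeasure ((μHE[2] : Measure E3).restrict P) :=
    ⟨by rwa [Measure.restrict_apply_univ]⟩
  have h1 : StronglyMeasurable (Function.uncurry fun (x ξ : E3) => f ξ * ee ⟪x, ξ⟫) := by
    apply Measurable.stronglyMeasurable
    refine (hf.comp measurable_snd).mul ?_
    have h2 : Continuous fun z : E3 × E3 => ee ⟪z.1, z.2⟫ :=
      Crest.Agent.R138.Rs134.continuous_ee.comp (continuous_fst.inner continuous_snd)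
    exact h2.measurable
  have h3 := h1.integral_prod_right (ν := (μHE[2] : Measure E3).restrict P)
  have h4 : extension P f = fun x => ∫ ξ in P, f ξ * ee ⟪x, ξ⟫ ∂(μHE[2] : Measure E3) :=
    funext fun x => extension_eq P f x
  rw [h4]
  exact h3

theorem Bdd.union {p : ℝ} (hp : 3 < p) {P Q : Set E3}
    (hQ : MeasurableSet Q) (hd : Disjoint P Q) (h1 : Bdd p P) (h2 : Bdd p Q) :
    Bdd p (P ∪ Q) := by
  obtain ⟨hf1, C1, hC1⟩ := h1
  obtain ⟨hf2, C2, hC2⟩ := h2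
  have hfin : (μHE[2] : Measure E3) (P ∪ Q) < ⊤ :=
    (measure_union_le _ _).trans_lt (ENNReal.add_lt_top.2 ⟨hf1, hf2⟩)
  have : IsFiniteMeasure ((μHE[2] : Measure E3).restrict (P ∪ Q)) :=
    ⟨by rwa [Measure.restrict_apply_univ]⟩
  refine ⟨hfin, C1 + C2 + 1, fun f hf => ?_⟩
  have hp1 : (1 : ℝ≥0∞) ≤ ENNReal.ofReal p := by
    rw [← ENNReal.ofReal_one]; exact ENNReal.ofReal_le_ofReal (by linarith)
  by_cases htop : eLpNorm f (ENNReal.ofReal p) ((μHE[2] : Measure E3).restrict (P ∪ Q)) = ⊤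
  · rw [htop, ENNReal.mul_top (by simp)]
    exact le_top
  have hmem : MemLp f (ENNReal.ofReal p) ((μHE[2] : Measure E3).restrict (P ∪ Q)) :=
    ⟨hf.aestronglyMeasurable, lt_top_iff_ne_top.2 htop⟩
  have hint : Integrable f ((μHE[2] : Measure E3).restrict (P ∪ Q)) := hmem.integrable hp1
  have hint' : ∀ x, IntegrableOn (fun ξ => f ξ * ee ⟪x, ξ⟫) (P ∪ Q) (μHE[2] : Measure E3) := by
    intro x
    refine Integrable.mono hint ?_ (Eventually.of_forall fun ξ => ?_)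
    · refine (hf.mul ?_).aestronglyMeasurable
      have : Continuous fun ξ : E3 => ee ⟪x, ξ⟫ :=
        Crest.Agent.R138.Rs134.continuous_ee.comp (continuous_const.inner continuous_id)
      exact this.measurable
    · rw [norm_mul, Crest.Agent.R138.Rs134.norm_ee, mul_one]
  have hadd : extension (P ∪ Q) f = extension P f + extension Q f := by
    ext x
    rw [Pi.add_apply, extension_eq, extension_eq, extension_eq]
    exact setIntegral_union hd hQ ((hint' x).mono_set subset_union_left)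
      ((hint' x).mono_set subset_union_right)
  rw [hadd]
  calc eLpNorm (extension P f + extension Q f) (ENNReal.ofReal p) volume
      ≤ eLpNorm (extension P f) (ENNReal.ofReal p) volume +
        eLpNorm (extension Q f) (ENNReal.ofReal p) volume :=
        eLpNorm_add_le (stronglyMeasurable_extension hf1 hf).aestronglyMeasurable
          (stronglyMeasurable_extension hf2 hf).aestronglyMeasurable hp1
    _ ≤ C1 * eLpNorm f (ENNReal.ofReal p) ((μHE[2] : Measure E3).restrict (P ∪ Q)) +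
        C2 * eLpNorm f (ENNReal.ofReal p) ((μHE[2] : Measure E3).restrict (P ∪ Q)) := by
        refine add_le_add ((hC1 f hf).trans ?_) ((hC2 f hf).trans ?_)
        · gcongr
          exact subset_union_left
        · gcongr
          exact subset_union_right
    _ = ((C1 : ℝ≥0∞) + C2) *
        eLpNorm f (ENNReal.ofReal p) ((μHE[2] : Measure E3).restrict (P ∪ Q)) := by ring
    _ ≤ _ := by
        gcongr
        push_cast
        exact le_self_add

theorem bdd_of_chart {S : Set E3} (hS : IsCompact S) {p : ℝ} (hp : 3 < p)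
    (hloc : ∀ q ∈ S, ∃ V : Set E3, IsOpen V ∧ q ∈ V ∧
      ∀ P : Set E3, MeasurableSet P → P ⊆ S ∩ V → Bdd p P) : Bdd p S := by
  have key : ∃ M : Set E3, MeasurableSet M ∧ S ⊆ M ∧
      ∀ P : Set E3, MeasurableSet P → P ⊆ S ∩ M → Bdd p P := by
    refine hS.induction_on (p := fun W => ∃ M : Set E3, MeasurableSet M ∧ W ⊆ M ∧
      ∀ P : Set E3, MeasurableSet P → P ⊆ S ∩ M → Bdd p P) ?_ ?_ ?_ ?_
    · refine ⟨∅, MeasurableSet.empty, Subset.rfl, fun P _ hP => ?_⟩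
      have hP0 : P = ∅ := by simpa using hP
      subst hP0
      refine ⟨by simp, 0, fun f _ => ?_⟩
      have : extension (∅ : Set E3) f = 0 := by
        ext x; simp [extension]
      rw [this]; simp
    · rintro s t hst ⟨M, hM, htM, hMP⟩
      exact ⟨M, hM, hst.trans htM, hMP⟩
    · rintro s t ⟨M, hM, hsM, hMP⟩ ⟨N, hN, htN, hNP⟩
      refine ⟨M ∪ N, hM.union hN, union_subset_union hsM htN, fun P hP hPS => ?_⟩
      have h1 : Bdd p (P ∩ M) := hMP _ (hP.inter hM)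
        (subset_inter (inter_subset_left.trans (hPS.trans inter_subset_left)) inter_subset_right)
      have h2 : Bdd p (P \ M) := by
        refine hNP _ (hP.diff hM) fun x hx => ⟨(hPS hx.1).1, ?_⟩
        rcases (hPS hx.1).2 with h | h
        · exact absurd h hx.2
        · exact h
      have h3 := h1.union hp (hP.diff hM) disjoint_inf_sdiff h2
      have h4 : P ∩ M ∪ P \ M = P := inter_union_sdiff P M
      exact h4 ▸ h3
    · intro q hq
      obtain ⟨V, hV, hqV, hVP⟩ := hloc q hq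
      exact ⟨V, mem_nhdsWithin_of_mem_nhds (hV.mem_nhds hqV), V, hV.measurableSet, Subset.rfl, hVP⟩
  obtain ⟨M, -, hSM, hMP⟩ := key
  exact hMP S hS.measurableSet (subset_inter Subset.rfl hSM)

/-- **S0190 from the global estimates for the class `Par`.** -/
theorem S0190_of_ext_cs (c0 : ℝ) (hc0 : 0 < c0) (K : ℕ)
    (H : ∀ p : ℝ, 3 < p → ∀ h : E2 → ℝ, Par c0 K h →
      HasCompactSupport (fun η : E2 => h η - ‖η‖ ^ 2 / 2) →
      ∃ C : ℝ, ∀ g : E2 → ℂ, Measurable g → (∀ ξ, 1 / 2 < ‖ξ‖ → g ξ = 0) →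
        eLpNorm (fun z : E2 × ℝ => ext h g z.1 z.2) (ENNReal.ofReal p) volume ≤
          ENNReal.ofReal C * eLpNorm g (ENNReal.ofReal p) volume)
    (S : Set (EuclideanSpace ℝ (Fin 3))) (hS : Crest.AnalysisR.Surface3.IsCompactCurvedSurface S)
    (p : ℝ) (hp : 3 < p) :
    ∃ C : ℝ, ∀ f : EuclideanSpace ℝ (Fin 3) → ℂ,
      MeasureTheory.eLpNorm (Crest.AnalysisR.Surface3.extension S f) (ENNReal.ofReal p)
          MeasureTheory.volume ≤
        ENNReal.ofReal C * MeasureTheory.eLpNorm f (ENNReal.ofReal p) (μHE[2].restrict S) := by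
  obtain ⟨-, C, hC⟩ : Bdd p S := bdd_of_chart hS.1 hp fun q hq =>
    local_bound c0 hc0 K p hp (H p hp) (hS.2 q hq) hq
  refine ⟨(C : ℝ), fun f => ?_⟩
  rw [ENNReal.ofReal_coe_nnreal]
  by_cases hf : AEStronglyMeasurable f ((μHE[2] : Measure E3).restrict S)
  · have h1 := hC (hf.mk f) hf.stronglyMeasurable_mk.measurable
    have h2 : extension S f = extension S (hf.mk f) := by
      ext x
      rw [extension_eq, extension_eq]
      refine integral_congr_ae ?_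
      filter_upwards [hf.ae_eq_mk] with ξ hξ
      rw [hξ]
    rw [h2]
    refine h1.trans (le_of_eq ?_)
    rw [eLpNorm_congr_ae hf.ae_eq_mk]
  · have h0 : extension S f = 0 := by
      ext x
      rw [extension_eq, Pi.zero_apply]
      refine integral_undef fun hint => hf ?_
      have h3 : Continuous fun ξ : E3 => ee (-⟪x, ξ⟫) :=
        Crest.Agent.R138.Rs134.continuous_ee.comp
          (continuous_const.inner continuous_id).neg
      have h4 := hint.aestronglyMeasurable.mul h3.aestronglyMeasurable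
      refine h4.congr (Eventually.of_forall fun ξ => ?_)
      simp only [Pi.mul_apply]
      rw [mul_assoc, ← Crest.Agent.R138.Rs134.ee_add, add_neg_cancel,
        Crest.Agent.R138.Rs134.ee_zero, mul_one]
    rw [h0]
    simp


/-- Version in which the perturbation has bounded derivatives of all orders. -/
theorem S0190_of_ext_bdd (c0 : ℝ) (hc0 : 0 < c0) (K : ℕ)
    (H : ∀ p : ℝ, 3 < p → ∀ h : E2 → ℝ, Par c0 K h →
      (∃ B : ℕ → ℝ, ∀ k ξ, ‖iteratedFDeriv ℝ k (fun η : E2 => h η - ‖η‖ ^ 2 / 2) ξ‖ ≤ B k) →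
      ∃ C : ℝ, ∀ g : E2 → ℂ, Measurable g → (∀ ξ, 1 / 2 < ‖ξ‖ → g ξ = 0) →
        eLpNorm (fun z : E2 × ℝ => ext h g z.1 z.2) (ENNReal.ofReal p) volume ≤
          ENNReal.ofReal C * eLpNorm g (ENNReal.ofReal p) volume)
    (S : Set (EuclideanSpace ℝ (Fin 3))) (hS : Crest.AnalysisR.Surface3.IsCompactCurvedSurface S)
    (p : ℝ) (hp : 3 < p) :
    ∃ C : ℝ, ∀ f : EuclideanSpace ℝ (Fin 3) → ℂ,
      MeasureTheory.eLpNorm (Crest.AnalysisR.Surface3.extension S f) (ENNReal.ofReal p)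
          MeasureTheory.volume ≤
        ENNReal.ofReal C * MeasureTheory.eLpNorm f (ENNReal.ofReal p) (μHE[2].restrict S) :=
  S0190_of_ext_cs c0 hc0 K (fun p hp h hpar hcs => H p hp h hpar
    (exists_bounds (hpar.smooth.sub ((contDiff_norm_sq ℝ).div_const 2)) hcs)) S hS p hp

end Crest.Agent.R138.Geo789
end

-- ▼ part R138/Br2_134
section

/-!
Bridge `EBn ⟹ LocH h ⟹ strong (p, p) ⟹ S0190` (helper134).
-/

set_option autoImplicit false
set_option maxSynthPendingDepth 3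

namespace Crest.Agent.R138.Rs134

open MeasureTheory Set Metric
open scoped ContDiff RealInnerProductSpace ENNReal MeasureTheory

/-- `EBn` gives the local estimate for every phase of the class. -/
theorem locH_of_EBn (H : Defs.EBn) : ∃ c0 : ℝ, 0 < c0 ∧ ∃ K : ℕ, 2 ≤ K ∧
    ∀ h : E2 → ℝ, Par c0 K h →
      (∀ k : ℕ, ∃ B : ℝ, ∀ ξ, ‖iteratedFDeriv ℝ k (fun η : E2 => h η - ‖η‖ ^ 2 / 2) ξ‖ ≤ B) →
      LocH h := by
  obtain ⟨c0, hc0, K0, L0, H⟩ := H
  refine ⟨min c0 (1 / 2), by positivity, max K0 2, le_max_right _ _, ?_⟩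
  intro h hP hB ε hε
  obtain ⟨B', hB', hPB⟩ := parB_of (min_le_left _ _) (le_max_left K0 2) hP hB
  obtain ⟨C, hC0, hC⟩ := H B' hB' ε hε 0
  refine ⟨C * Real.sqrt 128, ?_⟩
  intro g hg hg1 hg2 R hR
  have h1 := hC h hPB hP.zero hP.grad R (128 * R ^ (-2 : ℝ)) hR (by positivity) g hg ⟨1, hg1⟩ hg2
    (fun c b s hs ψ hψ x0 t0 _ _ => boxBound_all hP (le_max_right _ _) (min_le_right _ _) 0 hg hg1
      hg2 hR c b s hs ψ hψ x0 t0)
  rw [cyl_defs] at h1
  exact h1.trans (le_of_eq (ofReal_shape hC0 hR hg hg1 hg2))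

/-- **`EBn` gives the extension estimates for all phases of the class.** -/
theorem strong_of_EBn (H : Defs.EBn) : ∃ c0 : ℝ, 0 < c0 ∧ c0 ≤ 1 / 4 ∧ ∃ K : ℕ, 3 ≤ K ∧
    ∀ h : E2 → ℝ, Par c0 K h →
      (∀ k : ℕ, ∃ B : ℝ, ∀ ξ, ‖iteratedFDeriv ℝ k (fun η : E2 => h η - ‖η‖ ^ 2 / 2) ξ‖ ≤ B) →
      ∀ p : ℝ, 3 < p → ∃ C : ℝ, ∀ g : E2 → ℂ, Measurable g → (∀ ξ, 1 / 2 < ‖ξ‖ → g ξ = 0) →
        eLpNorm (fun z : E2 × ℝ => ext h g z.1 z.2) (ENNReal.ofReal p) volume ≤
          ENNReal.ofReal C * eLpNorm g (ENNReal.ofReal p) volume := by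
  obtain ⟨c0, hc0, K, hK, H⟩ := locH_of_EBn H
  refine ⟨min c0 (1 / 4), by positivity, min_le_right _ _, max K 3, le_max_right _ _, ?_⟩
  intro h hP hB p hp
  have hP1 : Par c0 K h := ⟨hP.smooth, hP.zero, hP.grad, fun k hk hk2 ξ =>
    (hP.close k hk (hk2.trans (le_max_left _ _)) ξ).trans (min_le_left _ _)⟩
  exact strong_of_locH hP (le_max_right _ _) (min_le_right _ _) (H h hP1 hB) p hp

/-- **S0190 from `EBn`.** -/
theorem S0190_of_EBn (H : Defs.EBn)
    (S : Set (EuclideanSpace ℝ (Fin 3))) (hS : Crest.AnalysisR.Surface3.IsCompactCurvedSurface S)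
    (p : ℝ) (hp : 3 < p) :
    ∃ C : ℝ, ∀ f : EuclideanSpace ℝ (Fin 3) → ℂ,
      MeasureTheory.eLpNorm (Crest.AnalysisR.Surface3.extension S f) (ENNReal.ofReal p)
          MeasureTheory.volume ≤
        ENNReal.ofReal C * MeasureTheory.eLpNorm f (ENNReal.ofReal p) (μHE[2].restrict S) := by
  obtain ⟨c0, hc0, _, K, _, H⟩ := strong_of_EBn H
  exact Geo789.S0190_of_ext_bdd c0 hc0 K
    (fun p hp h hP hB => H h hP (fun k => ⟨hB.choose k, hB.choose_spec k⟩) p hp) S hS p hp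


end Crest.Agent.R138.Rs134
end

-- ▼ part R138/Gr1_63
section

/-!
# Continuous half of the shell: cells, floors, pointwise bound
-/

set_option autoImplicit false

open MeasureTheory
open scoped ENNReal

namespace Crest.Agent.R138.Gr63

open Crest.Agent.R138.Defs (E2)

theorem vol_line {N : ℕ} (hN : 1 ≤ N) (j : ℤ) :
    volume {z : ℝ | ⌊(N : ℝ) * z⌋ = j} ≤ ENNReal.ofReal (1 / (N : ℝ)) := by
  have hN' : (0 : ℝ) < N := by exact_mod_cast hN
  have hsub : {z : ℝ | ⌊(N : ℝ) * z⌋ = j} ⊆ Set.Icc ((j : ℝ) / N) ((j + 1) / N) := by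
    intro z hz
    simp only [Set.mem_ofPred_eq] at hz
    have h1 := Int.floor_le ((N : ℝ) * z)
    have h2 := Int.lt_floor_add_one ((N : ℝ) * z)
    rw [hz] at h1 h2
    constructor
    · rw [div_le_iff₀ hN']; linarith
    · rw [le_div_iff₀ hN']; linarith
  refine (measure_mono hsub).trans ?_
  rw [Real.volume_Icc]
  apply ENNReal.ofReal_le_ofReal
  rw [← sub_div]; ring_nf; rfl

theorem vol_cell {N : ℕ} (hN : 1 ≤ N) (m : ℤ × ℤ) :
    volume {x : E2 | ⌊(N : ℝ) * x 0⌋ = m.1 ∧ ⌊(N : ℝ) * x 1⌋ = m.2} ≤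
      ENNReal.ofReal ((1 / (N : ℝ)) ^ 2) := by
  have hN' : (0 : ℝ) < N := by exact_mod_cast hN
  set S : Set (Fin 2 → ℝ) := Set.Icc ![(m.1 : ℝ) / N, (m.2 : ℝ) / N]
    ![((m.1 : ℝ) + 1) / N, ((m.2 : ℝ) + 1) / N] with hS
  have hsub : {x : E2 | ⌊(N : ℝ) * x 0⌋ = m.1 ∧ ⌊(N : ℝ) * x 1⌋ = m.2} ⊆
      (MeasurableEquiv.toLp 2 (Fin 2 → ℝ)).symm ⁻¹' S := by
    intro x hx
    obtain ⟨h0, h1⟩ := hx
    have a1 := Int.floor_le ((N : ℝ) * x 0)
    have a2 := Int.lt_floor_add_one ((N : ℝ) * x 0)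
    have b1 := Int.floor_le ((N : ℝ) * x 1)
    have b2 := Int.lt_floor_add_one ((N : ℝ) * x 1)
    rw [h0] at a1 a2
    rw [h1] at b1 b2
    simp only [Set.mem_preimage, hS, Set.mem_Icc, Pi.le_def, Fin.forall_fin_two]
    refine ⟨⟨?_, ?_⟩, ⟨?_, ?_⟩⟩
    · show (m.1 : ℝ) / N ≤ x 0
      rw [div_le_iff₀ hN']; linarith
    · show (m.2 : ℝ) / N ≤ x 1
      rw [div_le_iff₀ hN']; linarith
    · show x 0 ≤ ((m.1 : ℝ) + 1) / N
      rw [le_div_iff₀ hN']; linarith
    · show x 1 ≤ ((m.2 : ℝ) + 1) / N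
      rw [le_div_iff₀ hN']; linarith
  refine (measure_mono hsub).trans ?_
  rw [(EuclideanSpace.volume_preserving_symm_measurableEquiv_toLp (Fin 2)).measure_preimage
    (measurableSet_Icc.nullMeasurableSet)]
  rw [Real.volume_Icc_pi, Fin.prod_univ_two]
  simp only [Matrix.cons_val_zero, Matrix.cons_val_one]
  rw [← ENNReal.ofReal_mul (by
    rw [← sub_div]; apply div_nonneg _ hN'.le; linarith)]
  apply ENNReal.ofReal_le_ofReal
  apply le_of_eq
  rw [← sub_div, ← sub_div]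
  ring

theorem cw_nonneg {N : ℕ} {s : Finset GLine} {A : GLine → ℝ} (hA : ∀ l ∈ s, 0 ≤ A l)
    (q : (ℤ × ℤ) × ℤ) : 0 ≤ cw N s A q := by
  unfold cw
  exact Finset.sum_nonneg fun l hl => hA l (Finset.mem_filter.mp hl).1

theorem cw_eq_zero {N : ℕ} {s : Finset GLine} {A : GLine → ℝ} {q : (ℤ × ℤ) × ℤ}
    (hj : q.2 ∈ Finset.Icc (-(N : ℤ)) N) (hq : q ∉ cells N s) : cw N s A q = 0 := by
  classical
  unfold cw
  apply Finset.sum_eq_zero
  intro l hl
  exfalso
  obtain ⟨h1, h2⟩ := Finset.mem_filter.mp hl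
  apply hq
  unfold cells
  rw [Finset.mem_image]
  refine ⟨(l, q.2), Finset.mem_product.mpr ⟨h1, hj⟩, ?_⟩
  simp [h2]

/-- the grid line of a real line. -/
noncomputable def rl (N : ℕ) (p v : E2) : GLine :=
  ((⌊(N : ℝ) * p 0⌋, ⌊(N : ℝ) * p 1⌋), (⌊(N : ℝ) * v 0⌋, ⌊(N : ℝ) * v 1⌋))

theorem floor_close {a b : ℝ} {m : ℤ} (h : |a - b| ≤ m) : |⌊a⌋ - ⌊b⌋| ≤ m := by
  rw [abs_le] at *
  have h1 := Int.floor_le a
  have h2 := Int.lt_floor_add_one a
  have h3 := Int.floor_le b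
  have h4 := Int.lt_floor_add_one b
  constructor
  · have : (⌊b⌋ : ℝ) < ⌊a⌋ + 1 + m := by linarith [h.1]
    have : ⌊b⌋ < ⌊a⌋ + 1 + m := by exact_mod_cast this
    omega
  · have : (⌊a⌋ : ℝ) < ⌊b⌋ + 1 + m := by linarith [h.2]
    have : ⌊a⌋ < ⌊b⌋ + 1 + m := by exact_mod_cast this
    omega

/-- one coordinate of the rounding. -/
theorem round1 {N : ℕ} (hN : 1 ≤ N) {x p v z δ : ℝ} (hδ : δ ≤ 2 / N) (hz : |z| ≤ 1)
    (hp : 0 ≤ p ∧ p < 1) (hv : 0 ≤ v ∧ v < 1) (h : |x - p - z * v| ≤ δ) :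
    |⌊(N : ℝ) * x⌋ - ⌊(⌊(N : ℝ) * p⌋ : ℝ) + ⌊(N : ℝ) * v⌋ * (⌊(N : ℝ) * z⌋ : ℝ) / N⌋| ≤ 5 := by
  have hN' : (0 : ℝ) < N := by exact_mod_cast hN
  apply floor_close
  push_cast
  set a : ℝ := ((⌊(N : ℝ) * p⌋ : ℤ) : ℝ)
  set c : ℝ := ((⌊(N : ℝ) * v⌋ : ℤ) : ℝ)
  set j : ℝ := ((⌊(N : ℝ) * z⌋ : ℤ) : ℝ)
  have ha1 : a ≤ N * p := Int.floor_le _
  have ha2 : N * p < a + 1 := Int.lt_floor_add_one _
  have hc1 : c ≤ N * v := Int.floor_le _
  have hc2 : N * v < c + 1 := Int.lt_floor_add_one _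
  have hj1 : j ≤ N * z := Int.floor_le _
  have hj2 : N * z < j + 1 := Int.lt_floor_add_one _
  have hc0 : 0 ≤ c := by
    have h1 : (0 : ℤ) ≤ ⌊(N : ℝ) * v⌋ := Int.floor_nonneg.mpr (mul_nonneg hN'.le hv.1)
    have h2 : (0 : ℝ) ≤ ((⌊(N : ℝ) * v⌋ : ℤ) : ℝ) := by exact_mod_cast h1
    exact h2
  have hcN : c ≤ N := by nlinarith [hv.2]
  have e1 : |(N : ℝ) * x - N * p - N * z * v| ≤ 2 := by
    have : (N : ℝ) * x - N * p - N * z * v = N * (x - p - z * v) := by ring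
    rw [this, abs_mul, abs_of_pos hN']
    calc (N : ℝ) * |x - p - z * v| ≤ N * (2 / N) :=
          mul_le_mul_of_nonneg_left (h.trans hδ) hN'.le
      _ = 2 := by field_simp
  have e2 : |(N : ℝ) * p - a| ≤ 1 := by rw [abs_le]; constructor <;> linarith
  have e3 : |(N : ℝ) * z * v - c * j / N| ≤ 2 := by
    have : (N : ℝ) * z * v - c * j / N = z * (N * v - c) + (c / N) * (N * z - j) := by
      field_simp; ring
    rw [this]
    have t1 : |z * (N * v - c)| ≤ 1 := by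
      rw [abs_mul]
      have : |(N : ℝ) * v - c| ≤ 1 := by rw [abs_le]; constructor <;> linarith
      calc |z| * |(N : ℝ) * v - c| ≤ 1 * 1 := by
            apply mul_le_mul hz this (abs_nonneg _) (by norm_num)
        _ = 1 := by norm_num
    have t2 : |(c / N) * (N * z - j)| ≤ 1 := by
      rw [abs_mul]
      have u1 : |(N : ℝ) * z - j| ≤ 1 := by rw [abs_le]; constructor <;> linarith
      have u2 : |c / (N : ℝ)| ≤ 1 := by
        rw [abs_of_nonneg (div_nonneg hc0 hN'.le), div_le_one hN']; exact hcN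
      calc |c / (N : ℝ)| * |(N : ℝ) * z - j| ≤ 1 * 1 := by
            apply mul_le_mul u2 u1 (abs_nonneg _) (by norm_num)
        _ = 1 := by norm_num
    exact (abs_add_le _ _).trans (by linarith)
  have : (N : ℝ) * x - (a + c * j / N) =
      (N * x - N * p - N * z * v) + (N * p - a) + (N * z * v - c * j / N) := by ring
  rw [this]
  calc _ ≤ |(N : ℝ) * x - N * p - N * z * v + (N * p - a)| + |(N : ℝ) * z * v - c * j / N| :=
        abs_add_le _ _
    _ ≤ (|(N : ℝ) * x - N * p - N * z * v| + |(N : ℝ) * p - a|) + |(N : ℝ) * z * v - c * j / N| := by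
        gcongr; exact abs_add_le _ _
    _ ≤ 5 := by linarith

/-- the cell of the rounded line is near the cell of the point. -/
theorem cell_near {N : ℕ} (hN : 1 ≤ N) {x p v : E2} {z δ : ℝ} (hδ : δ ≤ 2 / N) (hz : |z| ≤ 1)
    (hp : ∀ k, 0 ≤ p k ∧ p k < 1) (hv : ∀ k, 0 ≤ v k ∧ v k < 1) (h : ‖x - p - z • v‖ ≤ δ) :
    ∃ e ∈ (Finset.Icc (-5 : ℤ) 5) ×ˢ (Finset.Icc (-5 : ℤ) 5),
      cell N (rl N p v) ⌊(N : ℝ) * z⌋ = (⌊(N : ℝ) * x 0⌋ + e.1, ⌊(N : ℝ) * x 1⌋ + e.2) := by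
  have hk : ∀ k : Fin 2, |x k - p k - z * v k| ≤ δ := by
    intro k
    have := PiLp.norm_apply_le (x - p - z • v) k
    simp only [PiLp.sub_apply, PiLp.smul_apply, smul_eq_mul, Real.norm_eq_abs] at this
    exact this.trans h
  have h0 := round1 hN hδ hz (hp 0) (hv 0) (hk 0)
  have h1 := round1 hN hδ hz (hp 1) (hv 1) (hk 1)
  refine ⟨((cell N (rl N p v) ⌊(N : ℝ) * z⌋).1 - ⌊(N : ℝ) * x 0⌋,
    (cell N (rl N p v) ⌊(N : ℝ) * z⌋).2 - ⌊(N : ℝ) * x 1⌋), ?_, ?_⟩
  · rw [abs_le] at h0 h1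
    simp only [Finset.mem_product, Finset.mem_Icc, cell, rl]
    refine ⟨⟨?_, ?_⟩, ⟨?_, ?_⟩⟩ <;> omega
  · ext <;> simp

end Crest.Agent.R138.Gr63
end

-- ▼ part R138/Gr2_63
section

/-!
# Continuous half of the shell: integral of the cell sums, plank covering
-/

set_option autoImplicit false

open MeasureTheory
open scoped ENNReal

namespace Crest.Agent.R138.Gr63

open Crest.Agent.R138.Defs (E2)

theorem rl_bd {N : ℕ} (hN : 1 ≤ N) {p v : E2} (hp : ∀ k, 0 ≤ p k ∧ p k < 1)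
    (hv : ∀ k, 0 ≤ v k ∧ v k < 1) : Bd N (rl N p v) := by
  have hN' : (0 : ℝ) < N := by exact_mod_cast hN
  have key : ∀ x : ℝ, 0 ≤ x ∧ x < 1 → |⌊(N : ℝ) * x⌋| ≤ (N : ℤ) := by
    intro x hx
    rw [abs_of_nonneg (Int.floor_nonneg.mpr (mul_nonneg hN'.le hx.1))]
    have : (⌊(N : ℝ) * x⌋ : ℝ) ≤ N := (Int.floor_le _).trans (by nlinarith [hx.2])
    exact_mod_cast this
  exact ⟨key _ (hp 0), key _ (hp 1), key _ (hv 0), key _ (hv 1)⟩

open Classical in
/-- pointwise bound of the tube sum by the cell weights. -/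
theorem point_bound {ι : Type} {N : ℕ} (hN : 1 ≤ N) (s : Finset ι) (p v : ι → E2) (a : ι → ℝ)
    (ha : ∀ i ∈ s, 0 ≤ a i) {δ : ℝ} (hδ : δ ≤ 2 / N)
    (hp : ∀ i ∈ s, ∀ k, 0 ≤ p i k ∧ p i k < 1) (hv : ∀ i ∈ s, ∀ k, 0 ≤ v i k ∧ v i k < 1)
    {z : ℝ} (hz : |z| ≤ 1) (x : E2) :
    (∑ i ∈ s, if ‖x - p i - z • v i‖ ≤ δ then ENNReal.ofReal (a i) else 0) ≤
      ∑ e ∈ (Finset.Icc (-5 : ℤ) 5) ×ˢ (Finset.Icc (-5 : ℤ) 5),
        ENNReal.ofReal (cw N (s.image fun i => rl N (p i) (v i))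
          (fun l => ∑ i ∈ s.filter (fun i => rl N (p i) (v i) = l), a i)
          ((⌊(N : ℝ) * x 0⌋ + e.1, ⌊(N : ℝ) * x 1⌋ + e.2), ⌊(N : ℝ) * z⌋)) := by
  set E := (Finset.Icc (-5 : ℤ) 5) ×ˢ (Finset.Icc (-5 : ℤ) 5) with hE
  -- value of the cell weight
  have hcw : ∀ q : (ℤ × ℤ) × ℤ, cw N (s.image fun i => rl N (p i) (v i))
      (fun l => ∑ i ∈ s.filter (fun i => rl N (p i) (v i) = l), a i) q =
      ∑ i ∈ s.filter (fun i => cell N (rl N (p i) (v i)) q.2 = q.1), a i := by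
    intro q
    unfold cw
    have h := Finset.sum_fiberwise_of_maps_to (s := s.filter
      (fun i => cell N (rl N (p i) (v i)) q.2 = q.1))
      (t := (s.image fun i => rl N (p i) (v i)).filter (fun l => cell N l q.2 = q.1))
      (g := fun i => rl N (p i) (v i)) (f := a) ?_
    · rw [← h]
      apply Finset.sum_congr rfl
      intro l hl
      apply Finset.sum_congr _ (fun _ _ => rfl)
      ext i
      simp only [Finset.mem_filter]
      constructor
      · rintro ⟨h1, h2⟩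
        refine ⟨⟨h1, ?_⟩, h2⟩
        rw [h2]; exact (Finset.mem_filter.mp hl).2
      · rintro ⟨⟨h1, _⟩, h2⟩
        exact ⟨h1, h2⟩
    · intro i hi
      obtain ⟨h1, h2⟩ := Finset.mem_filter.mp hi
      exact Finset.mem_filter.mpr ⟨Finset.mem_image.mpr ⟨i, h1, rfl⟩, h2⟩
  have step : ∀ i ∈ s, (if ‖x - p i - z • v i‖ ≤ δ then ENNReal.ofReal (a i) else 0) ≤
      ∑ e ∈ E, if cell N (rl N (p i) (v i)) ⌊(N : ℝ) * z⌋ =
        (⌊(N : ℝ) * x 0⌋ + e.1, ⌊(N : ℝ) * x 1⌋ + e.2) then ENNReal.ofReal (a i) else 0 := by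
    intro i hi
    split_ifs with h
    · obtain ⟨e, he, h2⟩ := cell_near hN hδ hz (hp i hi) (hv i hi) h
      refine le_trans ?_ (Finset.single_le_sum (f := fun e : ℤ × ℤ =>
        if cell N (rl N (p i) (v i)) ⌊(N : ℝ) * z⌋ =
        (⌊(N : ℝ) * x 0⌋ + e.1, ⌊(N : ℝ) * x 1⌋ + e.2) then ENNReal.ofReal (a i) else 0)
        (fun _ _ => zero_le) he)
      rw [if_pos h2]
    · exact zero_le
  refine (Finset.sum_le_sum step).trans ?_
  rw [Finset.sum_comm]
  apply Finset.sum_le_sum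
  intro e he
  rw [hcw, ENNReal.ofReal_sum_of_nonneg (fun i hi => ha i (Finset.mem_filter.mp hi).1),
    Finset.sum_filter]

open Classical in
/-- the integral of the cell weights. -/
theorem integral_cells {N : ℕ} (hN : 1 ≤ N) (s : Finset GLine) (A : GLine → ℝ)
    (e : ℤ × ℤ) :
    ∫⁻ z in Set.Icc (-1 : ℝ) 1, ∫⁻ x : E2, ENNReal.ofReal (cw N s A
      ((⌊(N : ℝ) * x 0⌋ + e.1, ⌊(N : ℝ) * x 1⌋ + e.2), ⌊(N : ℝ) * z⌋)) ^ (3 / 2 : ℝ) ≤
    (∑ q ∈ cells N s, ENNReal.ofReal (cw N s A q) ^ (3 / 2 : ℝ)) *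
      ENNReal.ofReal ((1 / (N : ℝ)) ^ 3) := by
  have hN' : (0 : ℝ) < N := by exact_mod_cast hN
  -- pointwise domination by a finite sum of indicators
  have dom : ∀ z ∈ Set.Icc (-1 : ℝ) 1, ∀ x : E2,
      ENNReal.ofReal (cw N s A
        ((⌊(N : ℝ) * x 0⌋ + e.1, ⌊(N : ℝ) * x 1⌋ + e.2), ⌊(N : ℝ) * z⌋)) ^ (3 / 2 : ℝ) ≤
      ∑ q ∈ cells N s, ENNReal.ofReal (cw N s A q) ^ (3 / 2 : ℝ) *
        ({x : E2 | ⌊(N : ℝ) * x 0⌋ = q.1.1 - e.1 ∧ ⌊(N : ℝ) * x 1⌋ = q.1.2 - e.2}.indicator 1 x *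
          {z : ℝ | ⌊(N : ℝ) * z⌋ = q.2}.indicator 1 z) := by
    intro z hz x
    set q0 : (ℤ × ℤ) × ℤ := ((⌊(N : ℝ) * x 0⌋ + e.1, ⌊(N : ℝ) * x 1⌋ + e.2), ⌊(N : ℝ) * z⌋)
      with hq0
    by_cases hq : q0 ∈ cells N s
    · refine le_trans ?_ (Finset.single_le_sum (f := fun q : (ℤ × ℤ) × ℤ =>
        ENNReal.ofReal (cw N s A q) ^ (3 / 2 : ℝ) *
        ({x : E2 | ⌊(N : ℝ) * x 0⌋ = q.1.1 - e.1 ∧ ⌊(N : ℝ) * x 1⌋ = q.1.2 - e.2}.indicator 1 x *
          {z : ℝ | ⌊(N : ℝ) * z⌋ = q.2}.indicator 1 z)) (fun _ _ => zero_le) hq)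
      have h1 : x ∈ {x : E2 | ⌊(N : ℝ) * x 0⌋ = q0.1.1 - e.1 ∧ ⌊(N : ℝ) * x 1⌋ = q0.1.2 - e.2} := by
        show _ ∧ _
        constructor <;> simp [hq0]
      have h2 : z ∈ {z : ℝ | ⌊(N : ℝ) * z⌋ = q0.2} := by
        show _ = _
        simp [hq0]
      simp only [Set.indicator_of_mem h1, Set.indicator_of_mem h2, Pi.one_apply, mul_one, le_refl]
    · have hj : q0.2 ∈ Finset.Icc (-(N : ℤ)) N := by
        simp only [hq0, Finset.mem_Icc]
        constructor
        · rw [Int.le_floor]; push_cast; nlinarith [hz.1]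
        · have : (⌊(N : ℝ) * z⌋ : ℝ) ≤ N := (Int.floor_le _).trans (by nlinarith [hz.2])
          exact_mod_cast this
      rw [cw_eq_zero hj hq]
      simp
  calc _ ≤ ∫⁻ z in Set.Icc (-1 : ℝ) 1, ∑ q ∈ cells N s,
        ENNReal.ofReal (cw N s A q) ^ (3 / 2 : ℝ) * (ENNReal.ofReal ((1 / (N : ℝ)) ^ 2) *
          {z : ℝ | ⌊(N : ℝ) * z⌋ = q.2}.indicator 1 z) := by
        apply setLIntegral_mono' measurableSet_Icc
        intro z hz
        refine (lintegral_mono (dom z hz)).trans ?_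
        rw [lintegral_finsetSum']
        · apply Finset.sum_le_sum
          intro q hq
          rw [lintegral_const_mul' _ _ (by
            apply ENNReal.rpow_ne_top_of_nonneg (by norm_num) ENNReal.ofReal_ne_top)]
          apply mul_le_mul_right
          rw [lintegral_mul_const' _ _ (by
            by_cases h : z ∈ {z : ℝ | ⌊(N : ℝ) * z⌋ = q.2}
            · simp [Set.indicator_of_mem h]
            · simp [Set.indicator_of_notMem h])]
          apply mul_le_mul_left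
          refine (lintegral_indicator_one_le _).trans ?_
          exact vol_cell hN (q.1.1 - e.1, q.1.2 - e.2)
        · intro q hq
          apply AEMeasurable.const_mul
          apply AEMeasurable.mul_const
          apply Measurable.aemeasurable
          apply Measurable.indicator measurable_one
          apply MeasurableSet.inter
          · exact (Int.measurable_floor.comp (by fun_prop)) (MeasurableSet.singleton _)
          · exact (Int.measurable_floor.comp (by fun_prop)) (MeasurableSet.singleton _)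
    _ ≤ ∑ q ∈ cells N s, ENNReal.ofReal (cw N s A q) ^ (3 / 2 : ℝ) *
        (ENNReal.ofReal ((1 / (N : ℝ)) ^ 2) * ENNReal.ofReal (1 / (N : ℝ))) := by
        refine (setLIntegral_le_lintegral _ _).trans ?_
        rw [lintegral_finsetSum']
        · apply Finset.sum_le_sum
          intro q hq
          rw [lintegral_const_mul' _ _ (by
            apply ENNReal.rpow_ne_top_of_nonneg (by norm_num) ENNReal.ofReal_ne_top)]
          apply mul_le_mul_right
          rw [lintegral_const_mul' _ _ ENNReal.ofReal_ne_top]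
          apply mul_le_mul_right
          refine (lintegral_indicator_one_le _).trans ?_
          exact vol_line hN q.2
        · intro q hq
          apply AEMeasurable.const_mul
          apply AEMeasurable.const_mul
          apply Measurable.aemeasurable
          apply Measurable.indicator measurable_one
          exact (Int.measurable_floor.comp (by fun_prop)) (MeasurableSet.singleton _)
    _ = _ := by
        rw [Finset.sum_mul]
        apply Finset.sum_congr rfl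
        intro q hq
        rw [← ENNReal.ofReal_mul (by positivity)]
        congr 2

end Crest.Agent.R138.Gr63
end

-- ▼ part R138/Gr3_63
section

/-!
# Continuous half of the shell: plank covering, `GridW → KM32`
-/

set_option autoImplicit false

open MeasureTheory
open scoped ENNReal

namespace Crest.Agent.R138.Gr63

open Crest.Agent.R138.Defs (E2)

theorem inner_b (b : OrthonormalBasis (Fin 2) ℝ E2) (i j : Fin 2) :
    inner ℝ (b i) (b j) = if i = j then (1 : ℝ) else 0 :=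
  orthonormal_iff_ite.mp b.orthonormal i j

theorem aux_half {t w c d : ℝ} (h1 : c * w ≤ t) (h2 : t < (c + 1) * w) :
    |t - (c + 1 / 2) * w * 1 - d * 0| ≤ w / 2 := by
  rw [abs_le]; constructor <;> nlinarith

theorem aux_half' {t w c d : ℝ} (h1 : c * w ≤ t) (h2 : t < (c + 1) * w) :
    |t - d * 0 - (c + 1 / 2) * w * 1| ≤ w / 2 := by
  rw [abs_le]; constructor <;> nlinarith

open Classical in
/-- covering of a slightly larger plank by planks of the given dimensions. -/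
theorem plank_cover {ι : Type} (s : Finset ι) (p v : ι → E2) (a : ι → ℝ)
    (ha : ∀ i ∈ s, 0 ≤ a i) {D : ℝ} (b : OrthonormalBasis (Fin 2) ℝ E2) (w : Fin 2 → ℝ)
    (hw : ∀ j, 0 < w j)
    (H : ∀ p0 v0 : E2, ∑ i ∈ s.filter (fun i => InPl b p0 v0 w (p i) (v i)), a i ≤ D)
    (p0 v0 : E2) :
    ∑ i ∈ s.filter (fun i => ∀ j, |inner ℝ (p i - p0) (b j)| ≤ 3 * w j ∧
      |inner ℝ (v i - v0) (b j)| ≤ 3 * w j), a i ≤ 2401 * D := by
  set T : Finset ((ℤ × ℤ) × (ℤ × ℤ)) :=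
    ((Finset.Icc (-3) 3) ×ˢ (Finset.Icc (-3) 3)) ×ˢ ((Finset.Icc (-3) 3) ×ˢ (Finset.Icc (-3) 3))
    with hT
  have hTc : T.card = 2401 := by
    rw [hT]; simp [Finset.card_product]
  set g : ι → (ℤ × ℤ) × (ℤ × ℤ) := fun i =>
    ((⌊inner ℝ (p i - p0) (b 0) / w 0⌋, ⌊inner ℝ (p i - p0) (b 1) / w 1⌋),
      (⌊inner ℝ (v i - v0) (b 0) / w 0⌋, ⌊inner ℝ (v i - v0) (b 1) / w 1⌋)) with hg
  set s' := s.filter (fun i => ∀ j, |inner ℝ (p i - p0) (b j)| ≤ 3 * w j ∧
      |inner ℝ (v i - v0) (b j)| ≤ 3 * w j) with hs'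
  have fl : ∀ (x : ℝ) (j : Fin 2), |x| ≤ 3 * w j → ⌊x / w j⌋ ∈ Finset.Icc (-3 : ℤ) 3 := by
    intro x j hx
    rw [abs_le] at hx
    rw [Finset.mem_Icc]
    constructor
    · rw [Int.le_floor, le_div_iff₀ (hw j)]; push_cast; linarith [hx.1]
    · have : (⌊x / w j⌋ : ℝ) ≤ 3 := by
        refine (Int.floor_le _).trans ?_
        rw [div_le_iff₀ (hw j)]; linarith [hx.2]
      exact_mod_cast this
  have hmaps : ∀ i ∈ s', g i ∈ T := by
    intro i hi
    obtain ⟨_, h2⟩ := Finset.mem_filter.mp hi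
    rw [hT]
    exact Finset.mem_product.mpr ⟨Finset.mem_product.mpr ⟨fl _ 0 (h2 0).1, fl _ 1 (h2 1).1⟩,
      Finset.mem_product.mpr ⟨fl _ 0 (h2 0).2, fl _ 1 (h2 1).2⟩⟩
  rw [← Finset.sum_fiberwise_of_maps_to hmaps]
  calc _ ≤ ∑ m ∈ T, D := by
        apply Finset.sum_le_sum
        intro m hm
        refine le_trans ?_ (H (p0 + ((m.1.1 + 1 / 2 : ℝ) * w 0) • b 0 +
            ((m.1.2 + 1 / 2 : ℝ) * w 1) • b 1)
          (v0 + ((m.2.1 + 1 / 2 : ℝ) * w 0) • b 0 + ((m.2.2 + 1 / 2 : ℝ) * w 1) • b 1))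
        apply Finset.sum_le_sum_of_subset_of_nonneg
        · intro i hi
          obtain ⟨h1, h2⟩ := Finset.mem_filter.mp hi
          obtain ⟨h3, h4⟩ := Finset.mem_filter.mp h1
          refine Finset.mem_filter.mpr ⟨h3, ?_⟩
          have key : ∀ (x y : E2) (c : ℤ × ℤ),
              ⌊inner ℝ (x - y) (b 0) / w 0⌋ = c.1 → ⌊inner ℝ (x - y) (b 1) / w 1⌋ = c.2 →
              ∀ j, |inner ℝ (x - (y + ((c.1 + 1 / 2 : ℝ) * w 0) • b 0 +
                ((c.2 + 1 / 2 : ℝ) * w 1) • b 1)) (b j)| ≤ w j / 2 := by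
            intro x y c hc0 hc1 j
            have e0 : inner ℝ (x - (y + ((c.1 + 1 / 2 : ℝ) * w 0) • b 0 +
                ((c.2 + 1 / 2 : ℝ) * w 1) • b 1)) (b j) = inner ℝ (x - y) (b j) -
                ((c.1 + 1 / 2 : ℝ) * w 0) * (if (0 : Fin 2) = j then (1 : ℝ) else 0) -
                ((c.2 + 1 / 2 : ℝ) * w 1) * (if (1 : Fin 2) = j then (1 : ℝ) else 0) := by
              rw [← inner_b b 0 j, ← inner_b b 1 j]
              simp only [inner_sub_left, inner_add_left, real_inner_smul_left]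
              ring
            rw [e0]
            have hj : j = 0 ∨ j = 1 := by
              rcases j with ⟨j, hj⟩
              interval_cases j
              · left; rfl
              · right; rfl
            rcases hj with rfl | rfl
            · have h5 := Int.floor_le (inner ℝ (x - y) (b 0) / w 0)
              have h6 := Int.lt_floor_add_one (inner ℝ (x - y) (b 0) / w 0)
              rw [hc0, le_div_iff₀ (hw 0)] at h5
              rw [hc0, div_lt_iff₀ (hw 0)] at h6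
              rw [if_pos rfl, if_neg (show ¬ ((1 : Fin 2) = 0) from by decide)]
              exact aux_half h5 h6
            · have h5 := Int.floor_le (inner ℝ (x - y) (b 1) / w 1)
              have h6 := Int.lt_floor_add_one (inner ℝ (x - y) (b 1) / w 1)
              rw [hc1, le_div_iff₀ (hw 1)] at h5
              rw [hc1, div_lt_iff₀ (hw 1)] at h6
              rw [if_pos rfl, if_neg (show ¬ ((0 : Fin 2) = 1) from by decide)]
              exact aux_half' h5 h6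
          have hm1 : (g i).1 = m.1 := by rw [h2]
          have hm2 : (g i).2 = m.2 := by rw [h2]
          intro z hz j
          have k1 := key (p i) p0 m.1 (by rw [← hm1]) (by rw [← hm1]) j
          have k2 := key (v i) v0 m.2 (by rw [← hm2]) (by rw [← hm2]) j
          rw [inner_add_left, real_inner_smul_left]
          refine (abs_add_le _ _).trans ?_
          rw [abs_mul]
          have : |z| * |inner ℝ (v i - (v0 + ((m.2.1 + 1 / 2 : ℝ) * w 0) • b 0 +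
              ((m.2.2 + 1 / 2 : ℝ) * w 1) • b 1)) (b j)| ≤ 1 * (w j / 2) :=
            mul_le_mul hz k2 (abs_nonneg _) (by norm_num)
          linarith
        · intro i hi _
          exact ha i (Finset.mem_filter.mp hi).1
    _ = 2401 * D := by rw [Finset.sum_const, hTc, nsmul_eq_mul]; norm_num

theorem norm_le_abs_add (x : E2) : ‖x‖ ≤ |x 0| + |x 1| := by
  rw [EuclideanSpace.norm_eq, Fin.sum_univ_two]
  apply Real.sqrt_le_iff.mpr
  constructor
  · positivity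
  · simp only [Real.norm_eq_abs]
    nlinarith [abs_nonneg (x 0), abs_nonneg (x 1)]

/-- the rounded line in a plank: the line itself is in the enlarged box. -/
theorem box_of_rounded {N : ℕ} (hN : 1 ≤ N) (p v : E2) (b : OrthonormalBasis (Fin 2) ℝ E2)
    (p0 v0 : E2) (w : Fin 2 → ℝ) (hw : ∀ j, 1 / (N : ℝ) ≤ w j)
    (h : InPl b p0 v0 w (gp N (rl N p v)) (gv N (rl N p v))) (j : Fin 2) :
    |inner ℝ (p - p0) (b j)| ≤ 3 * w j ∧ |inner ℝ (v - v0) (b j)| ≤ 3 * w j := by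
  have hN' : (0 : ℝ) < N := by exact_mod_cast hN
  have fr : ∀ x : ℝ, |x - (⌊(N : ℝ) * x⌋ : ℝ) / N| ≤ 1 / N := by
    intro x
    have h1 := Int.floor_le ((N : ℝ) * x)
    have h2 := Int.lt_floor_add_one ((N : ℝ) * x)
    rw [abs_le]
    constructor
    · have : (⌊(N : ℝ) * x⌋ : ℝ) / N ≤ x := by rw [div_le_iff₀ hN']; linarith
      have : 0 < 1 / (N : ℝ) := by positivity
      linarith
    · have : x ≤ ((⌊(N : ℝ) * x⌋ : ℝ) + 1) / N := by rw [le_div_iff₀ hN']; linarith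
      rw [add_div] at this
      linarith
  have hp : ‖p - gp N (rl N p v)‖ ≤ 2 / N := by
    refine (norm_le_abs_add _).trans ?_
    have h0 := fr (p 0)
    have h1 := fr (p 1)
    have e0 : (p - gp N (rl N p v)) 0 = p 0 - (⌊(N : ℝ) * p 0⌋ : ℝ) / N := by
      simp [gp, rl]
    have e1 : (p - gp N (rl N p v)) 1 = p 1 - (⌊(N : ℝ) * p 1⌋ : ℝ) / N := by
      simp [gp, rl]
    rw [e0, e1]
    calc _ ≤ 1 / (N : ℝ) + 1 / N := add_le_add h0 h1
      _ = 2 / N := by ring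
  have hv : ‖v - gv N (rl N p v)‖ ≤ 2 / N := by
    refine (norm_le_abs_add _).trans ?_
    have h0 := fr (v 0)
    have h1 := fr (v 1)
    have e0 : (v - gv N (rl N p v)) 0 = v 0 - (⌊(N : ℝ) * v 0⌋ : ℝ) / N := by
      simp [gv, rl]
    have e1 : (v - gv N (rl N p v)) 1 = v 1 - (⌊(N : ℝ) * v 1⌋ : ℝ) / N := by
      simp [gv, rl]
    rw [e0, e1]
    calc _ ≤ 1 / (N : ℝ) + 1 / N := add_le_add h0 h1
      _ = 2 / N := by ring
  have hb : ‖b j‖ = 1 := b.orthonormal.1 j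
  have cs : ∀ x : E2, |inner ℝ x (b j)| ≤ ‖x‖ := by
    intro x
    have := abs_real_inner_le_norm x (b j)
    rwa [hb, mul_one] at this
  have hwj := hw j
  have h2N : 2 / (N : ℝ) ≤ 2 * w j := by
    calc 2 / (N : ℝ) = 2 * (1 / N) := by ring
      _ ≤ 2 * w j := by linarith
  have q0 : |inner ℝ (gp N (rl N p v) - p0) (b j)| ≤ w j := by
    have := h 0 (by simp) j
    simpa using this
  have q1 : |inner ℝ (gp N (rl N p v) - p0) (b j) + inner ℝ (gv N (rl N p v) - v0) (b j)| ≤ w j := by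
    have := h 1 (by simp) j
    rwa [inner_add_left, one_smul] at this
  have q2 : |inner ℝ (gp N (rl N p v) - p0) (b j) - inner ℝ (gv N (rl N p v) - v0) (b j)| ≤ w j := by
    have := h (-1) (by simp) j
    rw [inner_add_left, real_inner_smul_left] at this
    rwa [neg_one_mul, ← sub_eq_add_neg] at this
  have q3 : |inner ℝ (gv N (rl N p v) - v0) (b j)| ≤ w j := by
    rw [abs_le] at *
    constructor <;> linarith [q1.1, q1.2, q2.1, q2.2]
  constructor
  · have : p - p0 = (p - gp N (rl N p v)) + (gp N (rl N p v) - p0) := by abel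
    rw [this, inner_add_left]
    refine (abs_add_le _ _).trans ?_
    have := cs (p - gp N (rl N p v))
    linarith
  · have : v - v0 = (v - gv N (rl N p v)) + (gv N (rl N p v) - v0) := by abel
    rw [this, inner_add_left]
    refine (abs_add_le _ _).trans ?_
    have := cs (v - gv N (rl N p v))
    linarith

end Crest.Agent.R138.Gr63
end

-- ▼ part R138/Gr4_63
section

/-!
# Continuous half of the shell: `GridW → KM32 V`
-/

set_option autoImplicit false

open MeasureTheory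
open scoped ENNReal

namespace Crest.Agent.R138.Gr63

open Crest.Agent.R138.Defs (E2)

open Classical in
/-- the grid plank hypothesis of the rounded family. -/
theorem grid_planks {ι : Type} {N : ℕ} (hN : 1 ≤ N) {δ : ℝ} (hδ0 : 0 < δ) (hδ1 : δ ≤ 1)
    (hNδ : 1 / (N : ℝ) ≤ δ) (hδN : δ ≤ 2 / N)
    (s : Finset ι) (p v : ι → E2) (a : ι → ℝ) (ha : ∀ i ∈ s, 0 ≤ a i) {Δ : ℝ} (hΔ : 0 ≤ Δ)
    (H : ∀ (b : OrthonormalBasis (Fin 2) ℝ E2) (w : Fin 2 → ℝ) (p0 v0 : E2),
      (∀ j, δ ≤ w j ∧ w j ≤ 1) →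
        (∑ i ∈ s.filter (fun i => InPl b p0 v0 w (p i) (v i)), a i) * δ ^ 2 ≤ Δ * (w 0 * w 1))
    (b : OrthonormalBasis (Fin 2) ℝ E2) (p0 v0 : E2) (w : Fin 2 → ℝ)
    (hw : ∀ j, 1 / (N : ℝ) ≤ w j ∧ w j ≤ 1) :
    ∑ l ∈ (s.image fun i => rl N (p i) (v i)).filter
      (fun l => InPl b p0 v0 w (gp N l) (gv N l)),
      (∑ i ∈ s.filter (fun i => rl N (p i) (v i) = l), a i) ≤
      (9604 * Δ) * (w 0 * w 1) * (N : ℝ) ^ 2 := by
  have hN' : (0 : ℝ) < N := by exact_mod_cast hN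
  -- the sum over lines = sum over indices
  have h1 : ∑ l ∈ (s.image fun i => rl N (p i) (v i)).filter
      (fun l => InPl b p0 v0 w (gp N l) (gv N l)),
      (∑ i ∈ s.filter (fun i => rl N (p i) (v i) = l), a i) =
      ∑ i ∈ s.filter (fun i => InPl b p0 v0 w (gp N (rl N (p i) (v i)))
        (gv N (rl N (p i) (v i)))), a i := by
    have h := Finset.sum_fiberwise_of_maps_to (s := s.filter (fun i =>
        InPl b p0 v0 w (gp N (rl N (p i) (v i))) (gv N (rl N (p i) (v i)))))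
      (t := (s.image fun i => rl N (p i) (v i)).filter
        (fun l => InPl b p0 v0 w (gp N l) (gv N l)))
      (g := fun i => rl N (p i) (v i)) (f := a) ?_
    · rw [← h]
      apply Finset.sum_congr rfl
      intro l hl
      apply Finset.sum_congr _ (fun _ _ => rfl)
      ext i
      simp only [Finset.mem_filter]
      constructor
      · rintro ⟨h1, h2⟩
        refine ⟨⟨h1, ?_⟩, h2⟩
        rw [h2]; exact (Finset.mem_filter.mp hl).2
      · rintro ⟨⟨h1, _⟩, h2⟩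
        exact ⟨h1, h2⟩
    · intro i hi
      obtain ⟨h1, h2⟩ := Finset.mem_filter.mp hi
      exact Finset.mem_filter.mpr ⟨Finset.mem_image.mpr ⟨i, h1, rfl⟩, h2⟩
  rw [h1]
  set w' : Fin 2 → ℝ := fun j => max (w j) δ with hw'
  have w'1 : ∀ j, δ ≤ w' j ∧ w' j ≤ 1 := fun j => ⟨le_max_right _ _, max_le (hw j).2 hδ1⟩
  have w'0 : ∀ j, 0 < w' j := fun j => hδ0.trans_le (w'1 j).1
  have ww' : ∀ j, w' j ≤ 2 * w j := by
    intro j
    apply max_le
    · have : 0 < 1 / (N : ℝ) := by positivity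
      linarith [(hw j).1]
    · have : 2 / (N : ℝ) = 2 * (1 / N) := by ring
      linarith [(hw j).1]
  have cov := plank_cover s p v a ha (D := Δ * (w' 0 * w' 1) / δ ^ 2) b w' w'0 (by
    intro p0 v0
    rw [le_div_iff₀ (by positivity)]
    exact H b w' p0 v0 w'1) p0 v0
  refine le_trans ?_ (cov.trans ?_)
  · apply Finset.sum_le_sum_of_subset_of_nonneg
    · intro i hi
      obtain ⟨h1, h2⟩ := Finset.mem_filter.mp hi
      refine Finset.mem_filter.mpr ⟨h1, fun j => ?_⟩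
      have := box_of_rounded hN (p i) (v i) b p0 v0 w (fun j => (hw j).1) h2 j
      have h3 : w j ≤ w' j := le_max_left _ _
      exact ⟨this.1.trans (by linarith), this.2.trans (by linarith)⟩
    · intro i hi _
      exact ha i (Finset.mem_filter.mp hi).1
  · have e1 : 1 / δ ^ 2 ≤ (N : ℝ) ^ 2 := by
      rw [div_le_iff₀ (by positivity), ← mul_pow]
      have : 1 ≤ (N : ℝ) * δ := by
        rw [div_le_iff₀ hN'] at hNδ; linarith
      exact one_le_pow₀ this
    have e2 : w' 0 * w' 1 ≤ 4 * (w 0 * w 1) := by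
      calc w' 0 * w' 1 ≤ (2 * w 0) * (2 * w 1) :=
            mul_le_mul (ww' 0) (ww' 1) (w'0 1).le (by
              have := w'0 0; have := ww' 0; linarith)
        _ = 4 * (w 0 * w 1) := by ring
    have e3 : 0 ≤ w 0 * w 1 := by
      apply mul_nonneg
      · have : 0 < 1 / (N : ℝ) := by positivity
        linarith [(hw 0).1]
      · have : 0 < 1 / (N : ℝ) := by positivity
        linarith [(hw 1).1]
    calc 2401 * (Δ * (w' 0 * w' 1) / δ ^ 2) = (2401 * Δ) * (w' 0 * w' 1) * (1 / δ ^ 2) := by ring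
      _ ≤ (2401 * Δ) * (4 * (w 0 * w 1)) * (N : ℝ) ^ 2 := by
          apply mul_le_mul _ e1 (by positivity) (by positivity)
          apply mul_le_mul_of_nonneg_left e2 (by positivity)
      _ = _ := by ring

theorem meas_floor1 (N : ℕ) (F : ℤ → ℝ≥0∞) : Measurable fun z : ℝ => F ⌊(N : ℝ) * z⌋ := by
  have h0 : Measurable (fun z : ℝ => ⌊(N : ℝ) * z⌋) := Int.measurable_floor.comp (by fun_prop)
  exact (Measurable.of_discrete (f := F)).comp h0

theorem meas_floor2 (N : ℕ) (F : ℤ → ℤ → ℝ≥0∞) :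
    Measurable fun x : E2 => F ⌊(N : ℝ) * x 0⌋ ⌊(N : ℝ) * x 1⌋ := by
  have h0 : Measurable (fun x : E2 => ⌊(N : ℝ) * x 0⌋) := Int.measurable_floor.comp (by fun_prop)
  have h1 : Measurable (fun x : E2 => ⌊(N : ℝ) * x 1⌋) := Int.measurable_floor.comp (by fun_prop)
  exact (Measurable.of_discrete (f := fun y : ℤ × ℤ => F y.1 y.2)).comp (h0.prodMk h1)

set_option maxHeartbeats 1000000 in
open Classical in
/-- the unit case. -/
theorem unit_case (hG : GridW) (ε : ℝ) (hε : 0 < ε) : ∃ C : ℝ, 0 ≤ C ∧ ∀ δ : ℝ, 0 < δ → δ ≤ 1 →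
    ∀ (ι : Type) (s : Finset ι) (p v : ι → E2) (a : ι → ℝ), (∀ i ∈ s, 0 ≤ a i) →
      (∀ i ∈ s, ∀ k, 0 ≤ p i k ∧ p i k < 1) → (∀ i ∈ s, ∀ k, 0 ≤ v i k ∧ v i k < 1) →
      ∀ Δ : ℝ, 0 ≤ Δ →
      (∀ (b : OrthonormalBasis (Fin 2) ℝ E2) (w : Fin 2 → ℝ) (p0 v0 : E2),
        (∀ j, δ ≤ w j ∧ w j ≤ 1) →
          (∑ i ∈ s.filter (fun i => InPl b p0 v0 w (p i) (v i)), a i) * δ ^ 2 ≤
            Δ * (w 0 * w 1)) →
      ∫⁻ z in Set.Icc (-1 : ℝ) 1, ∫⁻ x : E2,
          (∑ i ∈ s, (if ‖x - p i - z • v i‖ ≤ δ then ENNReal.ofReal (a i) else 0)) ^ (3/2 : ℝ) ≤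
        ENNReal.ofReal (C * δ ^ (-ε) * Real.sqrt Δ * ((∑ i ∈ s, a i) * δ ^ 2)) := by
  obtain ⟨CG, hCG, hG'⟩ := hG ε hε
  refine ⟨14641 * 98 * 2 ^ ε * CG, by positivity, ?_⟩
  intro δ hδ0 hδ1 ι s p v a ha hp hv Δ hΔ H
  -- choice of N
  set N : ℕ := ⌈1 / δ⌉₊ with hNdef
  have hN1 : 1 / δ ≤ N := Nat.le_ceil _
  have hN : 1 ≤ N := by
    have : (1 : ℝ) ≤ 1 / δ := by rw [le_div_iff₀ hδ0]; linarith
    have : (1 : ℝ) ≤ N := this.trans hN1
    exact_mod_cast this
  have hN' : (0 : ℝ) < N := by exact_mod_cast hN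
  have hNδ : 1 / (N : ℝ) ≤ δ := by
    rw [div_le_iff₀ hδ0] at hN1
    rw [div_le_iff₀ hN']; linarith
  have hN2 : (N : ℝ) < 1 / δ + 1 := Nat.ceil_lt_add_one (by positivity)
  have hN3 : (N : ℝ) ≤ 2 / δ := by
    have : (1 : ℝ) ≤ 1 / δ := by rw [le_div_iff₀ hδ0]; linarith
    have e : 2 / δ = 1 / δ + 1 / δ := by ring
    linarith
  have hδN : δ ≤ 2 / N := by
    rw [le_div_iff₀ hN']
    rw [le_div_iff₀ hδ0] at hN3
    linarith
  set s' := s.image fun i => rl N (p i) (v i) with hs'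
  set A : GLine → ℝ := fun l => ∑ i ∈ s.filter (fun i => rl N (p i) (v i) = l), a i with hA
  have hA0 : ∀ l ∈ s', 0 ≤ A l := fun l _ =>
    Finset.sum_nonneg fun i hi => ha i (Finset.mem_filter.mp hi).1
  have hBd : ∀ l ∈ s', Bd N l := by
    intro l hl
    obtain ⟨i, hi, rfl⟩ := Finset.mem_image.mp hl
    exact rl_bd hN (hp i hi) (hv i hi)
  have main := hG' N hN s' A (9604 * Δ) (by positivity) hA0 hBd
    (fun b p0 v0 w hw => grid_planks hN hδ0 hδ1 hNδ hδN s p v a ha hΔ H b p0 v0 w hw)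
  have sumA : ∑ l ∈ s', A l = ∑ i ∈ s, a i := by
    rw [hA]
    exact Finset.sum_fiberwise_of_maps_to (fun i hi => Finset.mem_image_of_mem _ hi) _
  rw [sumA] at main
  set E := (Finset.Icc (-5 : ℤ) 5) ×ˢ (Finset.Icc (-5 : ℤ) 5) with hE
  have hEc : E.card = 121 := by rw [hE]; simp [Finset.card_product]
  have pb : ∀ z ∈ Set.Icc (-1 : ℝ) 1, ∀ x : E2,
      (∑ i ∈ s, (if ‖x - p i - z • v i‖ ≤ δ then ENNReal.ofReal (a i) else 0)) ≤
      ∑ e ∈ E, ENNReal.ofReal (cw N s' A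
        ((⌊(N : ℝ) * x 0⌋ + e.1, ⌊(N : ℝ) * x 1⌋ + e.2), ⌊(N : ℝ) * z⌋)) :=
    fun z hz x => point_bound hN s p v a ha hδN hp hv (abs_le.mpr ⟨hz.1, hz.2⟩) x
  clear_value E A s'
  have c121 : (E.card : ℝ≥0∞) ^ (3 / 2 - 1 : ℝ) ≤ 121 := by
    rw [hEc]
    refine (ENNReal.rpow_le_rpow_of_exponent_le (z := 1) (by norm_num) (by norm_num)).trans ?_
    rw [ENNReal.rpow_one]; norm_num
  -- pointwise
  have pw : ∀ z ∈ Set.Icc (-1 : ℝ) 1, ∀ x : E2,
      (∑ i ∈ s, (if ‖x - p i - z • v i‖ ≤ δ then ENNReal.ofReal (a i) else 0)) ^ (3/2 : ℝ) ≤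
      121 * ∑ e ∈ E, ENNReal.ofReal (cw N s' A
        ((⌊(N : ℝ) * x 0⌋ + e.1, ⌊(N : ℝ) * x 1⌋ + e.2), ⌊(N : ℝ) * z⌋)) ^ (3/2 : ℝ) := by
    intro z hz x
    refine (ENNReal.rpow_le_rpow (pb z hz x) (by norm_num)).trans ?_
    refine (ENNReal.rpow_sum_le_const_mul_sum_rpow _ _ (by norm_num)).trans ?_
    exact mul_le_mul_left c121 _
  have meas : ∀ e ∈ E, ∀ z : ℝ, Measurable (fun x : E2 => ENNReal.ofReal (cw N s' A
        ((⌊(N : ℝ) * x 0⌋ + e.1, ⌊(N : ℝ) * x 1⌋ + e.2), ⌊(N : ℝ) * z⌋)) ^ (3/2 : ℝ)) :=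
    fun e _ z => meas_floor2 N (fun m n => ENNReal.ofReal (cw N s' A
        ((m + e.1, n + e.2), ⌊(N : ℝ) * z⌋)) ^ (3/2 : ℝ))
  have meas2 : ∀ e ∈ E, Measurable (fun z : ℝ => ∫⁻ x : E2, ENNReal.ofReal (cw N s' A
        ((⌊(N : ℝ) * x 0⌋ + e.1, ⌊(N : ℝ) * x 1⌋ + e.2), ⌊(N : ℝ) * z⌋)) ^ (3/2 : ℝ)) :=
    fun e _ => meas_floor1 N (fun y => ∫⁻ x : E2, ENNReal.ofReal (cw N s' A
        ((⌊(N : ℝ) * x 0⌋ + e.1, ⌊(N : ℝ) * x 1⌋ + e.2), y)) ^ (3/2 : ℝ))
  calc _ ≤ ∫⁻ z in Set.Icc (-1 : ℝ) 1, 121 * ∑ e ∈ E, ∫⁻ x : E2, ENNReal.ofReal (cw N s' A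
        ((⌊(N : ℝ) * x 0⌋ + e.1, ⌊(N : ℝ) * x 1⌋ + e.2), ⌊(N : ℝ) * z⌋)) ^ (3/2 : ℝ) := by
        apply setLIntegral_mono' measurableSet_Icc
        intro z hz
        refine (lintegral_mono (pw z hz)).trans ?_
        rw [lintegral_const_mul' _ _ (by norm_num), lintegral_finsetSum _ (fun e he => meas e he z)]
    _ = 121 * ∑ e ∈ E, ∫⁻ z in Set.Icc (-1 : ℝ) 1, ∫⁻ x : E2, ENNReal.ofReal (cw N s' A
        ((⌊(N : ℝ) * x 0⌋ + e.1, ⌊(N : ℝ) * x 1⌋ + e.2), ⌊(N : ℝ) * z⌋)) ^ (3/2 : ℝ) := by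
        rw [lintegral_const_mul' _ _ (by norm_num), lintegral_finsetSum _ (fun e he => meas2 e he)]
    _ ≤ 121 * ∑ e ∈ E, (∑ q ∈ cells N s', ENNReal.ofReal (cw N s' A q) ^ (3 / 2 : ℝ)) *
      ENNReal.ofReal ((1 / (N : ℝ)) ^ 3) := by
        apply mul_le_mul_right
        exact Finset.sum_le_sum fun e _ => integral_cells hN s' A e
    _ = ENNReal.ofReal (14641 * ((∑ q ∈ cells N s', cw N s' A q ^ (3 / 2 : ℝ)) *
          (1 / (N : ℝ)) ^ 3)) := by
        rw [Finset.sum_const, hEc, nsmul_eq_mul]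
        have e1 : ∑ q ∈ cells N s', ENNReal.ofReal (cw N s' A q) ^ (3 / 2 : ℝ) =
            ENNReal.ofReal (∑ q ∈ cells N s', cw N s' A q ^ (3 / 2 : ℝ)) := by
          rw [ENNReal.ofReal_sum_of_nonneg (fun q _ => Real.rpow_nonneg (cw_nonneg hA0 q) _)]
          apply Finset.sum_congr rfl
          intro q _
          rw [ENNReal.ofReal_rpow_of_nonneg (cw_nonneg hA0 q) (by norm_num)]
        rw [e1, ← ENNReal.ofReal_mul (Finset.sum_nonneg fun q _ =>
          Real.rpow_nonneg (cw_nonneg hA0 q) _)]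
        rw [ENNReal.ofReal_mul (show (0 : ℝ) ≤ 14641 by norm_num), ← mul_assoc]
        congr 1
        norm_num
    _ ≤ _ := by
        apply ENNReal.ofReal_le_ofReal
        have hsum : 0 ≤ ∑ i ∈ s, a i := Finset.sum_nonneg ha
        have f1 : Real.sqrt (9604 * Δ) = 98 * Real.sqrt Δ := by
          rw [show (9604 : ℝ) * Δ = 98 ^ 2 * Δ by norm_num, Real.sqrt_mul (by positivity),
            Real.sqrt_sq (by norm_num)]
        rw [f1] at main
        have f2 : (N : ℝ) ^ ε ≤ 2 ^ ε * δ ^ (-ε) := by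
          calc (N : ℝ) ^ ε ≤ (2 / δ) ^ ε := Real.rpow_le_rpow hN'.le hN3 hε.le
            _ = 2 ^ ε * δ ^ (-ε) := by
                rw [Real.div_rpow (by norm_num) hδ0.le, Real.rpow_neg hδ0.le]; rfl
        have f3 : (N : ℝ) * (1 / (N : ℝ)) ^ 3 ≤ δ ^ 2 := by
          have : (N : ℝ) * (1 / (N : ℝ)) ^ 3 = (1 / (N : ℝ)) ^ 2 := by field_simp
          rw [this]
          exact pow_le_pow_left₀ (by positivity) hNδ 2
        calc 14641 * ((∑ q ∈ cells N s', cw N s' A q ^ (3 / 2 : ℝ)) * (1 / (N : ℝ)) ^ 3)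
            ≤ 14641 * ((CG * (N : ℝ) ^ ε * (98 * Real.sqrt Δ) * N * ∑ i ∈ s, a i) *
              (1 / (N : ℝ)) ^ 3) := by gcongr
          _ = 14641 * 98 * CG * (N : ℝ) ^ ε * Real.sqrt Δ * (∑ i ∈ s, a i) *
              (N * (1 / (N : ℝ)) ^ 3) := by ring
          _ ≤ 14641 * 98 * CG * (2 ^ ε * δ ^ (-ε)) * Real.sqrt Δ * (∑ i ∈ s, a i) * δ ^ 2 := by
              gcongr
          _ = _ := by ring

end Crest.Agent.R138.Gr63
end

-- ▼ part R138/Gr5_63
section

/-!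
# Continuous half of the shell: `GridW → Tub70.KM32 V`
-/

set_option autoImplicit false

open MeasureTheory
open scoped ENNReal

namespace Crest.Agent.R138.Gr63

open Crest.Agent.R138.Defs (E2)

/-- integer vector in the plane. -/
noncomputable def iv (m : ℤ × ℤ) : E2 := WithLp.toLp 2 ![(m.1 : ℝ), (m.2 : ℝ)]

theorem iv_floor (x : E2) (k : Fin 2) :
    0 ≤ (x - iv (⌊x 0⌋, ⌊x 1⌋)) k ∧ (x - iv (⌊x 0⌋, ⌊x 1⌋)) k < 1 := by
  have hk : k = 0 ∨ k = 1 := by
    rcases k with ⟨j, hj⟩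
    interval_cases j
    · left; rfl
    · right; rfl
  rcases hk with rfl | rfl
  · have e : (x - iv (⌊x 0⌋, ⌊x 1⌋)) 0 = x 0 - ⌊x 0⌋ := by simp [iv]
    rw [e]
    have h1 := Int.floor_le (x 0)
    have h2 := Int.lt_floor_add_one (x 0)
    constructor <;> linarith
  · have e : (x - iv (⌊x 0⌋, ⌊x 1⌋)) 1 = x 1 - ⌊x 1⌋ := by simp [iv]
    rw [e]
    have h1 := Int.floor_le (x 1)
    have h2 := Int.lt_floor_add_one (x 1)
    constructor <;> linarith

theorem floor_mem {V : ℝ} {x : E2} (hx : ‖x‖ ≤ V) (k : Fin 2) :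
    ⌊x k⌋ ∈ Finset.Icc (-(⌈V⌉₊ : ℤ)) ⌈V⌉₊ := by
  have h := (PiLp.norm_apply_le x k).trans hx
  rw [Real.norm_eq_abs, abs_le] at h
  have hV : V ≤ (⌈V⌉₊ : ℝ) := Nat.le_ceil _
  rw [Finset.mem_Icc]
  constructor
  · rw [Int.le_floor]; push_cast; linarith [h.1]
  · have : (⌊x k⌋ : ℝ) ≤ (⌈V⌉₊ : ℝ) := (Int.floor_le _).trans (by linarith [h.2])
    exact_mod_cast this

theorem meas_tube {ι : Type} (S : Finset ι) (p v : ι → E2) (a : ι → ℝ) (δ : ℝ) :
    Measurable (fun q : ℝ × E2 =>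
      (∑ i ∈ S, (if ‖q.2 - p i - q.1 • v i‖ ≤ δ then ENNReal.ofReal (a i) else 0)) ^
        (3/2 : ℝ)) := by
  apply Measurable.pow_const
  apply Finset.measurable_sum
  intro i _
  apply Measurable.ite _ measurable_const measurable_const
  apply IsClosed.measurableSet
  exact isClosed_le (by fun_prop) continuous_const

theorem meas_tube_x {ι : Type} (S : Finset ι) (p v : ι → E2) (a : ι → ℝ) (δ : ℝ) (z : ℝ) :
    Measurable (fun x : E2 =>
      (∑ i ∈ S, (if ‖x - p i - z • v i‖ ≤ δ then ENNReal.ofReal (a i) else 0)) ^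
        (3/2 : ℝ)) := by
  apply Measurable.pow_const
  apply Finset.measurable_sum
  intro i _
  apply Measurable.ite _ measurable_const measurable_const
  apply IsClosed.measurableSet
  exact isClosed_le (by fun_prop) continuous_const

/-- the inner integral is translation invariant. -/
theorem shift_int {ι : Type} (S : Finset ι) (p v : ι → E2) (a : ι → ℝ) (δ : ℝ) (P Q : E2)
    (z : ℝ) :
    ∫⁻ x : E2, (∑ i ∈ S, (if ‖x - p i - z • v i‖ ≤ δ then ENNReal.ofReal (a i) else 0)) ^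
        (3/2 : ℝ) =
    ∫⁻ x : E2, (∑ i ∈ S, (if ‖x - (p i - P) - z • (v i - Q)‖ ≤ δ then
        ENNReal.ofReal (a i) else 0)) ^ (3/2 : ℝ) := by
  rw [← lintegral_add_right_eq_self (μ := (volume : Measure E2)) _ (P + z • Q)]
  apply lintegral_congr
  intro x
  have : ∀ i, x + (P + z • Q) - p i - z • v i = x - (p i - P) - z • (v i - Q) := by
    intro i
    rw [smul_sub]; abel
  simp only [this]

theorem card_rpow (n : ℕ) : (n : ℝ≥0∞) ^ (3 / 2 - 1 : ℝ) ≤ n := by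
  rcases Nat.eq_zero_or_pos n with h | h
  · rw [h]
    have : ((0 : ℕ) : ℝ≥0∞) ^ (3 / 2 - 1 : ℝ) = 0 := by
      rw [Nat.cast_zero]
      exact ENNReal.zero_rpow_of_pos (by norm_num)
    rw [this]
    exact zero_le
  · refine (ENNReal.rpow_le_rpow_of_exponent_le (z := 1) (by exact_mod_cast h)
      (by norm_num)).trans ?_
    rw [ENNReal.rpow_one]

/-- splitting in classes. -/
theorem split_int {ι κ : Type} [DecidableEq κ] (S : Finset ι) (K : Finset κ) (g : ι → κ)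
    (hg : ∀ i ∈ S, g i ∈ K) (p v : ι → E2) (a : ι → ℝ) (δ : ℝ) :
    ∫⁻ z in Set.Icc (-1 : ℝ) 1, ∫⁻ x : E2,
      (∑ i ∈ S, (if ‖x - p i - z • v i‖ ≤ δ then ENNReal.ofReal (a i) else 0)) ^ (3/2 : ℝ) ≤
    (K.card : ℝ≥0∞) * ∑ m ∈ K, ∫⁻ z in Set.Icc (-1 : ℝ) 1, ∫⁻ x : E2,
        (∑ i ∈ S.filter (fun i => g i = m),
        (if ‖x - p i - z • v i‖ ≤ δ then ENNReal.ofReal (a i) else 0)) ^ (3/2 : ℝ) := by
  have pw : ∀ z : ℝ, ∀ x : E2,
      (∑ i ∈ S, (if ‖x - p i - z • v i‖ ≤ δ then ENNReal.ofReal (a i) else 0)) ^ (3/2 : ℝ) ≤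
      (K.card : ℝ≥0∞) * ∑ m ∈ K, (∑ i ∈ S.filter (fun i => g i = m),
        (if ‖x - p i - z • v i‖ ≤ δ then ENNReal.ofReal (a i) else 0)) ^ (3/2 : ℝ) := by
    intro z x
    rw [← Finset.sum_fiberwise_of_maps_to hg]
    refine (ENNReal.rpow_sum_le_const_mul_sum_rpow _ _ (by norm_num)).trans ?_
    exact mul_le_mul_left (card_rpow _) _
  have m1 : ∀ m : κ, Measurable (fun z : ℝ => ∫⁻ x : E2,
      (∑ i ∈ S.filter (fun i => g i = m),
        (if ‖x - p i - z • v i‖ ≤ δ then ENNReal.ofReal (a i) else 0)) ^ (3/2 : ℝ)) :=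
    fun m => (meas_tube (S.filter (fun i => g i = m)) p v a δ).lintegral_prod_right'
  have m2 : ∀ (m : κ) (z : ℝ), Measurable (fun x : E2 =>
      (∑ i ∈ S.filter (fun i => g i = m),
        (if ‖x - p i - z • v i‖ ≤ δ then ENNReal.ofReal (a i) else 0)) ^ (3/2 : ℝ)) :=
    fun m z => meas_tube_x (S.filter (fun i => g i = m)) p v a δ z
  calc _ ≤ ∫⁻ z in Set.Icc (-1 : ℝ) 1, (K.card : ℝ≥0∞) * ∑ m ∈ K, ∫⁻ x : E2,
        (∑ i ∈ S.filter (fun i => g i = m),
        (if ‖x - p i - z • v i‖ ≤ δ then ENNReal.ofReal (a i) else 0)) ^ (3/2 : ℝ) := by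
        apply lintegral_mono
        intro z
        refine (lintegral_mono (pw z)).trans ?_
        rw [lintegral_const_mul' _ _ (by simp), lintegral_finsetSum _ (fun m _ => m2 m z)]
    _ = _ := by
        rw [lintegral_const_mul' _ _ (by simp), lintegral_finsetSum _ (fun m _ => m1 m)]

open Classical in
/-- **the continuous half of the shell.** -/
theorem km32_of_gridW (hG : GridW) (V : ℝ) : Tub70.KM32 V := by
  intro ε hε
  obtain ⟨C, hC, hU⟩ := unit_case hG ε hε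
  obtain ⟨M, hM⟩ : ∃ M : ℕ, M = ⌈V⌉₊ := ⟨_, rfl⟩
  obtain ⟨K, hK⟩ : ∃ K : Finset ((ℤ × ℤ) × (ℤ × ℤ)), K =
    ((Finset.Icc (-(M : ℤ)) M) ×ˢ (Finset.Icc (-(M : ℤ)) M)) ×ˢ
      ((Finset.Icc (-(M : ℤ)) M) ×ˢ (Finset.Icc (-(M : ℤ)) M)) := ⟨_, rfl⟩
  refine ⟨K.card * C, by positivity, ?_⟩
  intro δ hδ0 hδ1 ι _ p v a ha hp hv Δ hΔ H
  obtain ⟨κ, hκ⟩ : ∃ κ : ι → (ℤ × ℤ) × (ℤ × ℤ), ∀ i, κ i =
    ((⌊p i 0⌋, ⌊p i 1⌋), (⌊v i 0⌋, ⌊v i 1⌋)) := ⟨_, fun _ => rfl⟩
  have hmaps : ∀ i ∈ (Finset.univ : Finset ι), κ i ∈ K := by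
    intro i _
    rw [hK, hκ, hM]
    exact Finset.mem_product.mpr ⟨Finset.mem_product.mpr ⟨floor_mem (hp i) 0, floor_mem (hp i) 1⟩,
      Finset.mem_product.mpr ⟨floor_mem (hv i) 0, floor_mem (hv i) 1⟩⟩
  -- the classes
  have cls : ∀ m ∈ K, ∫⁻ z in Set.Icc (-1 : ℝ) 1, ∫⁻ x : E2,
      (∑ i ∈ Finset.univ.filter (fun i => κ i = m),
        (if ‖x - p i - z • v i‖ ≤ δ then ENNReal.ofReal (a i) else 0)) ^ (3/2 : ℝ) ≤
      ENNReal.ofReal (C * δ ^ (-ε) * Real.sqrt Δ *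
        ((∑ i ∈ Finset.univ.filter (fun i => κ i = m), a i) * δ ^ 2)) := by
    intro m _
    have hmem : ∀ i ∈ Finset.univ.filter (fun i => κ i = m),
        m.1 = (⌊p i 0⌋, ⌊p i 1⌋) ∧ m.2 = (⌊v i 0⌋, ⌊v i 1⌋) := by
      intro i hi
      have := (Finset.mem_filter.mp hi).2
      rw [hκ] at this
      exact ⟨by rw [← this], by rw [← this]⟩
    simp only [shift_int (Finset.univ.filter (fun i => κ i = m)) p v a δ (iv m.1) (iv m.2)]
    refine hU δ hδ0 hδ1 ι (Finset.univ.filter (fun i => κ i = m))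
      (fun i => p i - iv m.1) (fun i => v i - iv m.2) a
      (fun i _ => ha i)
      (fun i hi k => by
        have := iv_floor (p i) k
        rw [← (hmem i hi).1] at this
        exact this)
      (fun i hi k => by
        have := iv_floor (v i) k
        rw [← (hmem i hi).2] at this
        exact this) Δ hΔ ?_
    intro b w p0 v0 hw
    refine le_trans ?_ (H b w (p0 + iv m.1) (v0 + iv m.2) hw)
    rw [Finset.sum_mul, ← Finset.sum_filter]
    apply Finset.sum_le_sum_of_subset_of_nonneg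
    · intro i hi
      obtain ⟨_, h2⟩ := Finset.mem_filter.mp hi
      refine Finset.mem_filter.mpr ⟨Finset.mem_univ _, ?_⟩
      intro z hz j
      have h3 := h2 z hz j
      have e2 : p i - (p0 + iv m.1) + z • (v i - (v0 + iv m.2)) =
          p i - iv m.1 - p0 + z • (v i - iv m.2 - v0) := by
        rw [sub_add_eq_sub_sub_swap, sub_add_eq_sub_sub_swap]
      rw [e2]
      exact h3
    · intro i _ _
      exact mul_nonneg (ha i) (by positivity)
  refine (split_int Finset.univ K κ hmaps p v a δ).trans ?_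
  calc _ ≤ (K.card : ℝ≥0∞) * ∑ m ∈ K, ENNReal.ofReal (C * δ ^ (-ε) * Real.sqrt Δ *
        ((∑ i ∈ Finset.univ.filter (fun i => κ i = m), a i) * δ ^ 2)) := by
        apply mul_le_mul_right
        exact Finset.sum_le_sum cls
    _ = _ := by
        rw [← ENNReal.ofReal_sum_of_nonneg (fun m _ => by
          have : 0 ≤ ∑ i ∈ Finset.univ.filter (fun i => κ i = m), a i :=
            Finset.sum_nonneg fun i _ => ha i
          positivity)]
        rw [← Finset.mul_sum, ← Finset.sum_mul, Finset.sum_fiberwise_of_maps_to hmaps,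
          ← ENNReal.ofReal_natCast, ← ENNReal.ofReal_mul (by positivity)]
        congr 1
        rw [Finset.sum_mul]
        ring

end Crest.Agent.R138.Gr63
end

-- ▼ part R138/Top_630
section

/-!
# R138 / R139: top of the chain (helper630)

`S0189` and `S0190` from the local estimate `Defs.EBn`; `Tub70.KM32` from `GrW294.KMseq`.
-/

set_option autoImplicit false

open FourierTransform MeasureTheory
open scoped ENNReal

namespace Crest.Agent.R138.Top630

open Crest.Agent.R138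

/-- **S0189** from `EBn`. -/
theorem s0189 (h : Defs.EBn) (p : ℝ≥0∞) (hp : 1 ≤ p)
    (δ : ℝ) (hδ : max (3 * abs ((p⁻¹).toReal - 1 / 2) - 1 / 2) 0 < δ) :
    ∃ C : ℝ, ∀ f : SchwartzMap (EuclideanSpace ℝ (Fin 3)) ℂ,
      MeasureTheory.eLpNorm
          (𝓕⁻ (fun ξ : EuclideanSpace ℝ (Fin 3) => ((max (1 - ‖ξ‖ ^ 2) 0) ^ δ : ℝ) • 𝓕 (⇑f) ξ)) p
          MeasureTheory.volume ≤
        ENNReal.ofReal C * MeasureTheory.eLpNorm (⇑f) p MeasureTheory.volume :=
  Fq665.S0189_of_EBn h p hp δ hδ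

/-- **S0190** from `EBn`. -/
theorem s0190 (h : Defs.EBn)
    (S : Set (EuclideanSpace ℝ (Fin 3))) (hS : Crest.AnalysisR.Surface3.IsCompactCurvedSurface S)
    (p : ℝ) (hp : 3 < p) :
    ∃ C : ℝ, ∀ f : EuclideanSpace ℝ (Fin 3) → ℂ,
      MeasureTheory.eLpNorm (Crest.AnalysisR.Surface3.extension S f) (ENNReal.ofReal p)
          MeasureTheory.volume ≤
        ENNReal.ofReal C * MeasureTheory.eLpNorm f (ENNReal.ofReal p) (μHE[2].restrict S) :=
  Rs134.S0190_of_EBn h S hS p hp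

/-- **KM32** from `KMseq`. -/
theorem km32 (h : GrW294.KMseq) (V : ℝ) : Tub70.KM32 V :=
  Gr63.km32_of_gridW (GrW294.gridW_of_KMseq h) V

end Crest.Agent.R138.Top630
end

-- ▼ part R138/KMs_630

/-!
# R138: the Kakeya side of the three dimensional theorem, wired (helper630)

`kmseq : GrW294.KMseq`, `km32 (V) : Tub70.KM32 V`: unconditional.

If `KMseq` fails, then `exists_mk` (294) produces a marked extremal sequence with a strictly
decreasing exponent `τ`; L8-L14 (163) refine and blow it up to natural marks `Nat5`, where the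
rotation lemma L12 (829) is used; L15 (196) turns natural marks into the object of Text II,
which does not exist (501).
-/

set_option autoImplicit false
set_option linter.unusedVariables false

namespace Crest.Agent.R138.KMs630

open Crest.Agent.R138

/-- **KMseq**: the grid form of the maximal estimate. -/
theorem kmseq : GrW294.KMseq := by
  by_contra hK
  obtain ⟨B, I, L, lev, r0, A, q, g, Λ, τ, f, b, e, w1, w2, κ, hκ, hM, hτ⟩ :=
    Bun294.exists_mk hK
  obtain ⟨B', I', lev', A', f', b', e', w1', w2', fl, sc, k, s, θ, hθ, hs0, hs1, hN⟩ :=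
    ArgM163.exists_nat5' (fun B I L lev r0 A q g Λ τ f b e w1 w2 fl sc C0 =>
      Rot76.exRot B I L lev r0 A q g Λ τ f b e w1 w2 fl sc C0)
      (fun s hs0 hs1 => LmAV829.hrot q g s hs0 hs1) hM hκ hτ
  exact L15.nat5_false hN

/-- **KM32** for every exponent `V`. -/
theorem km32 (V : ℝ) : Tub70.KM32 V := Top630.km32 kmseq V

end Crest.Agent.R138.KMs630
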