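import Crest.Agent.R138.L15Def_196
import Crest.Agent.R138.MkRef_627
import Crest.Agent.R138.MkZoom_779
import Crest.Agent.R138.Cont_627_Mg
import Crest.Agent.R138.MkRef_774

-- ▼ part R138/Own_779
section

/-!
# R138, TEXT I, leaf L15 [OWN] (helper779): own counts, rotation, twist in normalised form

`own_of : OwnT ...` (literal target of `L15Def_196`).
-/

set_option autoImplicit false
set_option linter.unusedVariables false

open Finset Filter Topology

namespace Crest.Agent.R138.Own779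

open Crest.Agent.R138.Ex926 (Base U flab olab Bx6 LEG)
open Crest.Agent.R138.Flg101
open Crest.Agent.R138.Mk163 (zc zl rho alive amp Mk prec fr Negl RotF Nat5)
open Crest.Agent.R138.Flag51 (Ln E2 cr dt InPlank)
open Crest.Agent.R138.L15
open Crest.Agent.R138.MkRef627 (lc fib_bounds)
open Crest.Agent.R138.MkZoom779 (dpow_pos dpow_le zc_nested)
open Crest.Agent.R138.Nx638 (toInc sl Ch)

variable {B : Base} {I : ℕ → Finset (ℕ × ℝ)} {L : ℕ → ℕ → Ln} {lev : ℕ → ℚ → ℕ}
    {r0 A : ℕ → ℝ} {q g : ℝ} {Λ τ : ℝ → ℝ} {f : ℕ → ℚ → ℕ → ℤ → ℕ} {b : ℕ → ℚ → ℕ → Ln}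
    {e : ℕ → ℚ → ℕ → E2} {w1 w2 : ℕ → ℚ → ℝ} {fl : ℕ → ℕ × ℝ → E2} {sc : ℕ → ℝ} {k s θ : ℝ}
    {c : Bool}

theorem floor_eq (n i : ℕ) (y : ℕ × ℝ) :
    ⌊(2 : ℝ) ^ i * (xx L lev w1 w2 fl c n y).z⌋ = zc (lev n 0 + i) y.2 := by
  unfold xx toInc zc
  simp only
  congr 1
  rw [pow_add]
  ring

theorem lz_eq (n i : ℕ) (y : ℕ × ℝ) :
    lz (xx L lev w1 w2 fl c) (fun _ y => y.1) n i y = (y.1, zc (lev n 0 + i) y.2) := by
  unfold lz
  rw [floor_eq]

/-- the dyadic cell of real level `v` is finer than the cell of rational level `u < v`. -/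
theorem lev_le (H : Mk B I L lev r0 A q g Λ τ f b e w1 w2) {u : ℚ} {v : ℝ} (h0 : 0 ≤ u)
    (h1 : u ≤ 1) (h : (u : ℝ) < v ∨ u = 0) :
    ∀ᶠ n in (U : Filter ℕ), lev n u ≤ lev n 0 + B.levc n v := by
  rcases h with h | rfl
  · have h2 := H.lev_lim 0 u le_rfl h0 h1
    rw [Rat.cast_zero, sub_zero] at h2
    filter_upwards [h2.eventually_lt_const h] with n hn
    have hl2 : 0 < Real.log 2 := Real.log_pos (by norm_num)
    have hL := B.L_pos n
    have h3 : v * B.L n / Real.log 2 ≤ ((B.levc n v : ℕ) : ℝ) := Nat.le_ceil _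
    rw [div_le_iff₀ hl2] at h3
    rw [div_lt_iff₀ hL] at hn
    have h4 : (lev n u : ℝ) - lev n 0 ≤ B.levc n v := by
      have : ((lev n u : ℝ) - lev n 0) * Real.log 2 ≤ B.levc n v * Real.log 2 := by linarith
      exact le_of_mul_le_mul_right this hl2
    have h5 : (lev n u : ℝ) ≤ ((lev n 0 + B.levc n v : ℕ) : ℝ) := by push_cast; linarith
    exact_mod_cast h5
  · exact Eventually.of_forall fun n => Nat.le_add_right _ _

/-- ... and coarser than the cell of rational level `u > v`. -/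
theorem le_lev (H : Mk B I L lev r0 A q g Λ τ f b e w1 w2) {u : ℚ} {v : ℝ} (hv : 0 ≤ v)
    (h1 : u ≤ 1) (h : v < (u : ℝ)) :
    ∀ᶠ n in (U : Filter ℕ), lev n 0 + B.levc n v ≤ lev n u := by
  have h0 : 0 ≤ u := by
    have : (0 : ℝ) ≤ u := hv.trans h.le
    exact_mod_cast this
  have h2 := H.lev_lim 0 u le_rfl h0 h1
  rw [Rat.cast_zero, sub_zero] at h2
  have hl2 : 0 < Real.log 2 := Real.log_pos (by norm_num)
  have hm : (v + u) / 2 < (u : ℝ) := by linarith
  filter_upwards [h2.eventually_const_lt hm, B.ev_L_ge (2 * Real.log 2 / ((u : ℝ) - v))] with n hn hn2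
  have hL := B.L_pos n
  have h3 : ((B.levc n v : ℕ) : ℝ) < v * B.L n / Real.log 2 + 1 :=
    Nat.ceil_lt_add_one (by positivity)
  rw [lt_div_iff₀ hL] at hn
  rw [div_le_iff₀ (by linarith)] at hn2
  have h4 : (B.levc n v : ℝ) * Real.log 2 < v * B.L n + Real.log 2 := by
    have := mul_lt_mul_of_pos_right h3 hl2
    rwa [add_mul, div_mul_cancel₀ _ hl2.ne', one_mul] at this
  have h5 : (B.levc n v : ℝ) * Real.log 2 ≤ ((lev n u : ℝ) - lev n 0) * Real.log 2 := by
    nlinarith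
  have h6 := le_of_mul_le_mul_right h5 hl2
  have h7 : ((lev n 0 + B.levc n v : ℕ) : ℝ) ≤ (lev n u : ℝ) := by push_cast; linarith
  exact_mod_cast h7

theorem exists_rat {v δ : ℝ} (h0 : 0 ≤ v) (h1 : v ≤ 1) (hδ : 0 < δ) :
    ∃ u : ℚ, 0 ≤ u ∧ u ≤ 1 ∧ (u : ℝ) ≤ v ∧ v - u ≤ δ ∧ ((u : ℝ) < v ∨ u = 0) := by
  rcases h0.eq_or_lt with rfl | h0
  · exact ⟨0, le_rfl, zero_le_one, by simp, by simp [hδ.le], Or.inr rfl⟩
  · obtain ⟨u, hu1, hu2⟩ := exists_rat_btwn (show max 0 (v - δ) < v from max_lt h0 (by linarith))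
    have h2 : (0 : ℝ) < u := (le_max_left _ _).trans_lt hu1
    have h3 : v - δ < u := (le_max_right _ _).trans_lt hu1
    refine ⟨u, by exact_mod_cast h2.le, by exact_mod_cast (hu2.le.trans h1), hu2.le, by linarith,
      Or.inl hu2⟩

theorem s_bounds (H : Mk B I L lev r0 A q g (fun v => s * v) τ f b e w1 w2) : 0 ≤ s ∧ s ≤ 1 := by
  have := H.lam 0 1 le_rfl zero_le_one le_rfl
  simp only [mul_one, mul_zero, sub_zero] at this
  exact this

/-- fibres over (line, cell) of a real level. -/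
theorem sub_fib {n i j : ℕ} (h : j ≤ lev n 0 + i) (x : ℕ × ℝ) (P : ℕ × ℝ → Prop)
    [DecidablePred P] [DecidablePred fun y => lz (xx L lev w1 w2 fl c) (fun _ y => y.1) n i y =
      lz (xx L lev w1 w2 fl c) (fun _ y => y.1) n i x ∧ P y] :
    ((I n).filter fun y => lz (xx L lev w1 w2 fl c) (fun _ y => y.1) n i y =
      lz (xx L lev w1 w2 fl c) (fun _ y => y.1) n i x ∧ P y) ⊆
      (I n).filter fun y => lc j y = lc j x := by
  intro y hy
  rw [mem_filter] at hy ⊢
  obtain ⟨h1, h2, -⟩ := hy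
  rw [lz_eq, lz_eq, Prod.mk.injEq] at h2
  refine ⟨h1, ?_⟩
  unfold lc
  rw [h2.1, zc_nested h h2.2]

open Classical in
theorem up_aux (H : Mk B I L lev r0 A q g (fun v => s * v) τ f b e w1 w2) {v : ℝ} (h0 : 0 ≤ v)
    (h1 : v ≤ 1) {ε : ℝ} (hε : 0 < ε) : ∀ᶠ n in (U : Filter ℕ), ∀ x ∈ I n,
    (((I n).filter fun y => lz (xx L lev w1 w2 fl c) (fun _ y => y.1) n (B.levc n v) y =
      lz (xx L lev w1 w2 fl c) (fun _ y => y.1) n (B.levc n v) x).card : ℝ) ≤
      B.d n ^ (-((1 - s) * (1 - v) + ε)) := by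
  obtain ⟨hs0, hs1⟩ := s_bounds H
  obtain ⟨u, hu0, hu1, huv, hvu, hor⟩ := exists_rat h0 h1 (half_pos hε)
  filter_upwards [lev_le H hu0 hu1 hor, fib_bounds H u hu0 hu1 (half_pos hε)] with n a1 a2 x hx
  have h2 := sub_fib (I := I) (L := L) (w1 := w1) (w2 := w2) (fl := fl) (c := c) a1 x
    (fun _ => True)
  simp only [and_true] at h2
  have h3 : (((I n).filter fun y => lz (xx L lev w1 w2 fl c) (fun _ y => y.1) n (B.levc n v) y =
      lz (xx L lev w1 w2 fl c) (fun _ y => y.1) n (B.levc n v) x).card : ℝ) ≤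
      (((I n).filter fun y => lc (lev n u) y = lc (lev n u) x).card : ℝ) := by
    exact_mod_cast Finset.card_le_card h2
  refine h3.trans ((a2 x hx).2.trans (dpow_le B n ?_))
  nlinarith

/-- the slope of `xx` is controlled by the flags. -/
theorem slope_le (hN : NatJ B I L lev r0 A q g f b e w1 w2 fl sc k s θ c) {n : ℕ}
    (hsg : 0 < sg w1 w2 n) {x y : ℕ × ℝ} (hx : x ∈ I n) (hy : y ∈ I n) :
    |(xx L lev w1 w2 fl c n x).θ - (xx L lev w1 w2 fl c n y).θ| ≤
      2 * |cr (fl n x) (fl n y)| / sg w1 w2 n := by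
  have h1 := Nx638.Ch.sl_dist (hN.slope n x hx) (hN.slope n y hy) (hN.nat.unit n x hx)
    (hN.nat.unit n y hy)
  unfold xx toInc
  simp only
  rw [← sub_div, abs_div, abs_of_pos hsg]
  gcongr

theorem cr_le_slope (hN : NatJ B I L lev r0 A q g f b e w1 w2 fl sc k s θ c) {n : ℕ}
    (hsg : 0 < sg w1 w2 n) {x y : ℕ × ℝ} (hx : x ∈ I n) (hy : y ∈ I n) :
    |cr (fl n x) (fl n y)| ≤ sg w1 w2 n *
      |(xx L lev w1 w2 fl c n x).θ - (xx L lev w1 w2 fl c n y).θ| := by
  have h1 := Nx638.cr_le_sl ((hN.slope n x hx).ne (hN.nat.unit n x hx))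
    ((hN.slope n y hy).ne (hN.nat.unit n y hy)) (hN.nat.unit n x hx) (hN.nat.unit n y hy)
  refine h1.trans (le_of_eq ?_)
  unfold xx toInc
  simp only
  rw [← sub_div, abs_div, abs_of_pos hsg]
  field_simp

theorem ev_sg (hN : NatJ B I L lev r0 A q g f b e w1 w2 fl sc k s θ c) {ε : ℝ} (hε : 0 < ε) :
    ∀ᶠ n in (U : Filter ℕ), 0 < sg w1 w2 n ∧ sc n ≤ sg w1 w2 n * B.d n ^ (-ε) ∧
      sg w1 w2 n ≤ sc n * B.d n ^ (-ε) := by
  have h1 := hN.nat.pr 0 le_rfl zero_le_one
  rw [Rat.cast_zero, mul_zero] at h1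
  have h2 := (Metric.tendsto_nhds.1 h1) ε hε
  filter_upwards [h2, hN.nat.base.dims 0 le_rfl zero_le_one] with n a1 a2
  have hr := hN.nat.base.rpos n
  have hw1 : 0 < w1 n 0 := hr.trans_le a2.1
  have hw2 : 0 < w2 n 0 := hw1.trans_le a2.2.1
  have hp : 0 < prec w1 w2 n 0 := div_pos hw1 hw2
  have hsc := hN.nat.rot.scpos n
  rw [Real.dist_eq, sub_zero, abs_div, abs_of_pos (B.L_pos n), div_lt_iff₀ (B.L_pos n)] at a1
  obtain ⟨b1, b2⟩ := abs_lt.1 a1
  have e1 : Real.exp (ε * B.L n) = B.d n ^ (-ε) := by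
    rw [Real.rpow_def_of_pos (B.pos n)]
    unfold Base.L
    congr 1
    ring
  have e2 : sc n / prec w1 w2 n 0 = Real.exp (Real.log (sc n / prec w1 w2 n 0)) :=
    (Real.exp_log (div_pos hsc hp)).symm
  refine ⟨hp, ?_, ?_⟩
  · have h3 : sc n / prec w1 w2 n 0 ≤ B.d n ^ (-ε) := by
      rw [e2, ← e1]
      exact Real.exp_le_exp.2 b2.le
    rw [div_le_iff₀ hp] at h3
    unfold sg
    linarith
  · have h3 : prec w1 w2 n 0 / sc n ≤ B.d n ^ (-ε) := by
      have e3 : prec w1 w2 n 0 / sc n = Real.exp (-Real.log (sc n / prec w1 w2 n 0)) := by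
        rw [Real.exp_neg, Real.exp_log (div_pos hsc hp), inv_div]
      rw [e3, ← e1]
      exact Real.exp_le_exp.2 (by linarith)
    rw [div_le_iff₀ hsc] at h3
    unfold sg
    linarith

theorem ev_const (B : Base) (C : ℝ) {ε : ℝ} (hε : 0 < ε) :
    ∀ᶠ n in (U : Filter ℕ), C ≤ B.d n ^ (-ε) := by
  filter_upwards [B.ev_L_ge (Real.log (max C 1) / ε)] with n hn
  have h1 : (0 : ℝ) < max C 1 := lt_of_lt_of_le one_pos (le_max_right _ _)
  rw [div_le_iff₀ hε] at hn
  have e1 : Real.exp (ε * B.L n) = B.d n ^ (-ε) := by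
    rw [Real.rpow_def_of_pos (B.pos n)]
    unfold Base.L
    congr 1
    ring
  rw [← e1]
  calc C ≤ max C 1 := le_max_left _ _
    _ = Real.exp (Real.log (max C 1)) := (Real.exp_log h1).symm
    _ ≤ _ := Real.exp_le_exp.2 (by linarith)

theorem rot_aux (hN : NatJ B I L lev r0 A q g f b e w1 w2 fl sc k s θ c) {v : ℝ} (h0 : 0 ≤ v)
    (h1 : v ≤ 1) {ε : ℝ} (hε : 0 < ε) : ∀ᶠ n in (U : Filter ℕ), ∀ x ∈ I n, ∀ y ∈ I n,
    lz (xx L lev w1 w2 fl c) (fun _ y => y.1) n (B.levc n v) y =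
      lz (xx L lev w1 w2 fl c) (fun _ y => y.1) n (B.levc n v) x →
      |(xx L lev w1 w2 fl c n x).θ - (xx L lev w1 w2 fl c n y).θ| ≤ B.d n ^ (k * v - ε) := by
  have hk := hN.nat.k0
  obtain ⟨u, hu0, hu1, huv, hvu, hor⟩ := exists_rat h0 h1 (show 0 < ε / (4 * k) by positivity)
  have hkv : k * (v - u) ≤ ε / 4 := by
    have := mul_le_mul_of_nonneg_left hvu hk.le
    have e1 : k * (ε / (4 * k)) = ε / 4 := by field_simp
    linarith
  filter_upwards [lev_le hN.nat.base hu0 hu1 hor, hN.nat.rot.rot u hu0 hu1 (ε / 4) (by positivity),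
    ev_sg hN (show 0 < ε / 4 by positivity), ev_const B 2 (show 0 < ε / 4 by positivity)]
    with n a1 a2 a3 a4 x hx y hy hxy
  obtain ⟨hsg, hs1, -⟩ := a3
  rw [lz_eq, lz_eq, Prod.mk.injEq] at hxy
  have h2 := a2 x hx y hy hxy.1 (zc_nested a1 hxy.2)
  refine (slope_le hN hsg hx hy).trans ?_
  rw [div_le_iff₀ hsg]
  have hd := dpow_pos B n (k * u - ε / 4)
  calc 2 * |cr (fl n x) (fl n y)| ≤ B.d n ^ (-(ε / 4)) * (sc n * B.d n ^ (k * u - ε / 4)) := by
        have := abs_nonneg (cr (fl n x) (fl n y))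
        have := dpow_pos B n (-(ε / 4))
        gcongr
    _ ≤ B.d n ^ (-(ε / 4)) * ((sg w1 w2 n * B.d n ^ (-(ε / 4))) * B.d n ^ (k * u - ε / 4)) := by
        have := dpow_pos B n (-(ε / 4))
        gcongr
    _ = B.d n ^ (-(ε / 4) + -(ε / 4) + (k * u - ε / 4)) * sg w1 w2 n := by
        rw [Real.rpow_add (B.pos n), Real.rpow_add (B.pos n)]
        ring
    _ ≤ B.d n ^ (k * v - ε) * sg w1 w2 n := by
        refine mul_le_mul_of_nonneg_right (dpow_le B n ?_) hsg.le
        linarith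

theorem card_le_mul_image {α β : Type*} [DecidableEq β] (S : Finset α) (φ : α → β) {m : ℝ}
    (h : ∀ y0 ∈ S, ((S.filter fun y => φ y = φ y0).card : ℝ) ≤ m) :
    (S.card : ℝ) ≤ m * ((S.image φ).card : ℝ) := by
  classical
  have e1 : (S.card : ℝ) = ∑ a ∈ S.image φ, ((S.filter fun y => φ y = a).card : ℝ) := by
    rw [Finset.card_eq_sum_card_image φ S]
    push_cast
    rfl
  rw [e1]
  calc ∑ a ∈ S.image φ, ((S.filter fun y => φ y = a).card : ℝ) ≤ ∑ _a ∈ S.image φ, m := by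
        refine Finset.sum_le_sum fun a ha => ?_
        obtain ⟨y0, hy0, rfl⟩ := Finset.mem_image.1 ha
        exact h y0 hy0
    _ = _ := by rw [Finset.sum_const, nsmul_eq_mul]; ring

open Classical in
theorem tw_aux (hN : NatJ B I L lev r0 A q g f b e w1 w2 fl sc k s θ c) {v r : ℝ} (h0 : 0 ≤ v)
    (h1 : v < 1) (hr : k * v < r) : ∃ γ : ℝ, 0 < γ ∧ ∀ᶠ n in (U : Filter ℕ), ∀ x ∈ I n,
    (((I n).filter fun y => lz (xx L lev w1 w2 fl c) (fun _ y => y.1) n (B.levc n v) y =
      lz (xx L lev w1 w2 fl c) (fun _ y => y.1) n (B.levc n v) x ∧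
      |(xx L lev w1 w2 fl c n x).θ - (xx L lev w1 w2 fl c n y).θ| ≤ B.d n ^ r).card : ℝ) ≤
      B.d n ^ (γ - (1 - s) * (1 - v)) := by
  have hk := hN.nat.k0
  obtain ⟨hs0, hs1⟩ := s_bounds hN.nat.base
  set r1 : ℝ := min r (k + 1) with hr1
  have hr1' : k * v < r1 := lt_min hr (by nlinarith)
  have hr1r : r1 ≤ r := min_le_left _ _
  have hr1k : r1 ≤ k + 1 := min_le_right _ _
  obtain ⟨u, hu1, hu2⟩ := exists_rat_btwn (show v < min 1 (r1 / k) from
    lt_min h1 (by rw [lt_div_iff₀ hk]; linarith))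
  have hu3 : (u : ℝ) < 1 := hu2.trans_le (min_le_left _ _)
  have hu4 : k * u < r1 := by
    have := hu2.trans_le (min_le_right _ _)
    rw [lt_div_iff₀ hk] at this
    linarith
  have hu0 : (0 : ℚ) ≤ u := by
    have : (0 : ℝ) ≤ u := h0.trans hu1.le
    exact_mod_cast this
  have hu1' : u < (1 : ℚ) := by exact_mod_cast hu3
  set r' : ℝ := (k * u + r1) / 2 with hr'
  obtain ⟨γ, hγ, hγ2⟩ := hN.nat.rot.tw u hu0 hu1' r' (by linarith) (by linarith)
  obtain ⟨v', hv0, hv1, hvv, hvd, hor⟩ := exists_rat h0 h1.le (show 0 < γ / 8 by positivity)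
  have hv'u : v' ≤ u := by
    have : (v' : ℝ) ≤ u := hvv.trans hu1.le
    exact_mod_cast this
  refine ⟨γ / 2, by positivity, ?_⟩
  set η : ℝ := (r1 - r') / 2 with hη
  have hη0 : 0 < η := by rw [hη, hr']; linarith
  have h1q : ((1 : ℚ) : ℝ) = 1 := Rat.cast_one
  filter_upwards [hγ2, lev_le hN.nat.base hv0 hv1 hor, le_lev hN.nat.base h0 hu1'.le hu1,
    hN.nat.base.own v' u hv0 hv'u hu1'.le (γ / 8) (by positivity),
    hN.nat.base.own u 1 hu0 hu1'.le le_rfl (γ / 8) (by positivity), ev_sg hN hη0,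
    ev_const B 2 hη0] with n a1 a2 a3 a4 a5 a6 a7 x hx
  obtain ⟨hsg, -, hs2⟩ := a6
  set S := (I n).filter fun y => lz (xx L lev w1 w2 fl c) (fun _ y => y.1) n (B.levc n v) y =
      lz (xx L lev w1 w2 fl c) (fun _ y => y.1) n (B.levc n v) x ∧
      |(xx L lev w1 w2 fl c n x).θ - (xx L lev w1 w2 fl c n y).θ| ≤ B.d n ^ r with hS
  have hSm : ∀ y ∈ S, y ∈ I n ∧ y.1 = x.1 ∧
      zc (lev n 0 + B.levc n v) y.2 = zc (lev n 0 + B.levc n v) x.2 ∧
      |(xx L lev w1 w2 fl c n x).θ - (xx L lev w1 w2 fl c n y).θ| ≤ B.d n ^ r := by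
    intro y hy
    rw [hS, mem_filter, lz_eq, lz_eq, Prod.mk.injEq] at hy
    exact ⟨hy.1, hy.2.1.1, hy.2.1.2, hy.2.2⟩
  -- the image
  have him : ((S.image fun y => zc (lev n u) y.2).card : ℝ) ≤
      B.d n ^ (-((u : ℝ) - v') + (s * u - s * v') - γ / 8) := by
    refine le_trans ?_ (a4 x hx).2
    have : (S.image fun y => zc (lev n u) y.2) ⊆ Mk163.own (I n) (lev n v') (lev n u) x := by
      intro a ha
      obtain ⟨y, hy, rfl⟩ := mem_image.1 ha
      obtain ⟨b1, b2, b3, -⟩ := hSm y hy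
      rw [MkZoom779.mem_own]
      exact ⟨y, b1, b2, zc_nested a2 b3, rfl⟩
    exact_mod_cast Finset.card_le_card this
  -- the fibres
  have hfib : ∀ y0 ∈ S, ((S.filter fun y => zc (lev n u) y.2 = zc (lev n u) y0.2).card : ℝ) ≤
      B.d n ^ γ * B.d n ^ (-((1 : ℝ) - u) + (s * 1 - s * u) - γ / 8) := by
    intro y0 hy0
    obtain ⟨b1, b2, b3, b4⟩ := hSm y0 hy0
    have h2 := a1 y0 b1
    have h3 := (a5 y0 b1).2
    rw [h1q] at h3
    have hdg := dpow_pos B n γ
    refine le_trans ?_ (h2.trans (mul_le_mul_of_nonneg_left h3 hdg.le))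
    have hsub : (S.filter fun y => zc (lev n u) y.2 = zc (lev n u) y0.2) ⊆
        (I n).filter fun y => y.1 = y0.1 ∧ zc (lev n u) y.2 = zc (lev n u) y0.2 ∧
          |cr (fl n y0) (fl n y)| ≤ sc n * B.d n ^ r' := by
      intro y hy
      obtain ⟨hyS, hyc⟩ := mem_filter.1 hy
      obtain ⟨c1, c2, c3, c4⟩ := hSm y hyS
      refine mem_filter.2 ⟨c1, c2.trans b2.symm, hyc, ?_⟩
      refine (cr_le_slope hN hsg b1 c1).trans ?_
      have h5 : |(xx L lev w1 w2 fl c n y0).θ - (xx L lev w1 w2 fl c n y).θ| ≤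
          2 * B.d n ^ r1 := by
        have h6 := abs_sub_le (xx L lev w1 w2 fl c n y0).θ (xx L lev w1 w2 fl c n x).θ
          (xx L lev w1 w2 fl c n y).θ
        have h6' : |(xx L lev w1 w2 fl c n y0).θ - (xx L lev w1 w2 fl c n x).θ| ≤ B.d n ^ r := by
          rw [abs_sub_comm]
          exact b4
        have h7 := dpow_le B n hr1r
        linarith
      calc sg w1 w2 n * |(xx L lev w1 w2 fl c n y0).θ - (xx L lev w1 w2 fl c n y).θ|
          ≤ (sc n * B.d n ^ (-η)) * (B.d n ^ (-η) * B.d n ^ r1) := by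
            have hscp := hN.nat.rot.scpos n
            have hd1 := dpow_pos B n r1
            have hd2 := dpow_pos B n (-η)
            have h8 : 2 * B.d n ^ r1 ≤ B.d n ^ (-η) * B.d n ^ r1 :=
              mul_le_mul_of_nonneg_right a7 hd1.le
            exact mul_le_mul hs2 (h5.trans h8) (abs_nonneg _) (by positivity)
        _ = sc n * B.d n ^ (-η + -η + r1) := by
            rw [Real.rpow_add (B.pos n), Real.rpow_add (B.pos n)]
            ring
        _ = sc n * B.d n ^ r' := by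
            congr 2
            rw [hη]
            ring
    exact_mod_cast Finset.card_le_card hsub
  refine (card_le_mul_image S _ hfib).trans ?_
  have hd := dpow_pos B n (-((1 : ℝ) - u) + (s * 1 - s * u) - γ / 8)
  have hdg := dpow_pos B n γ
  refine (mul_le_mul_of_nonneg_left him (by positivity)).trans ?_
  rw [← Real.rpow_add (B.pos n), ← Real.rpow_add (B.pos n)]
  refine dpow_le B n ?_
  nlinarith

theorem card_int_le {T : Finset ℤ} {x K : ℝ} (hK : 0 ≤ K) (hT : ∀ m ∈ T, |(m : ℝ) - x| ≤ K) :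
    (T.card : ℝ) ≤ 2 * K + 1 := by
  have h1 : T ⊆ Finset.Icc ⌈x - K⌉ ⌊x + K⌋ := by
    intro m hm
    have := abs_le.1 (hT m hm)
    rw [Finset.mem_Icc, Int.ceil_le, Int.le_floor]
    constructor <;> linarith
  have h2 := Finset.card_le_card h1
  rw [Int.card_Icc] at h2
  have h3 : ((⌊x + K⌋ + 1 - ⌈x - K⌉).toNat : ℝ) ≤ 2 * K + 1 := by
    rcases le_or_gt 0 (⌊x + K⌋ + 1 - ⌈x - K⌉) with h | h
    · have e : (((⌊x + K⌋ + 1 - ⌈x - K⌉).toNat : ℤ) : ℝ) = ((⌊x + K⌋ + 1 - ⌈x - K⌉ : ℤ) : ℝ) := by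
        rw [Int.toNat_of_nonneg h]
      rw [Int.cast_natCast] at e
      rw [e]
      push_cast
      have h4 := Int.floor_le (x + K)
      have h5 := Int.le_ceil (x - K)
      linarith
    · rw [Int.toNat_of_nonpos h.le]
      simp
      linarith
  calc (T.card : ℝ) ≤ ((⌊x + K⌋ + 1 - ⌈x - K⌉).toNat : ℝ) := by exact_mod_cast h2
    _ ≤ _ := h3

theorem card_image_le_of_factor {α β γ : Type*} [DecidableEq β] [DecidableEq γ] (F : Finset α)
    (φ : α → β) (ψ : α → γ) (h : ∀ y ∈ F, ∀ y' ∈ F, φ y = φ y' → ψ y = ψ y') :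
    (F.image ψ).card ≤ (F.image φ).card := by
  classical
  have hsurj : (F : Set α).SurjOn φ (F.image φ : Finset β) := by
    intro p hp
    obtain ⟨x, hx, rfl⟩ := Finset.mem_image.1 (Finset.mem_coe.1 hp)
    exact ⟨x, Finset.mem_coe.2 hx, rfl⟩
  obtain ⟨u, huF, hinj, himg⟩ := Finset.exists_subset_injOn_image_eq_of_surjOn _ _ hsurj
  have h1 : F.image ψ ⊆ u.image ψ := by
    intro a ha
    obtain ⟨y, hy, rfl⟩ := Finset.mem_image.1 ha
    have : φ y ∈ u.image φ := by rw [himg]; exact Finset.mem_image_of_mem _ hy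
    obtain ⟨y', hy', he⟩ := Finset.mem_image.1 this
    refine Finset.mem_image.2 ⟨y', hy', ?_⟩
    exact h y' (by exact_mod_cast huF (Finset.mem_coe.2 hy')) y hy he
  calc (F.image ψ).card ≤ (u.image ψ).card := Finset.card_le_card h1
    _ ≤ u.card := Finset.card_image_le
    _ = (u.image φ).card := (Finset.card_image_of_injOn hinj).symm
    _ = _ := by rw [himg]

open Classical in
theorem mult_aux (hN : NatJ B I L lev r0 A q g f b e w1 w2 fl sc k s θ c) {ε : ℝ} (hε : 0 < ε) :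
    ∀ᶠ n in (U : Filter ℕ), ∀ x ∈ I n,
    ((((I n).filter fun y => y.1 = x.1).image (flab B (xx L lev w1 w2 fl c) n 0)).card : ℝ) ≤
      B.d n ^ (-ε) := by
  filter_upwards [rot_aux hN le_rfl zero_le_one (show 0 < ε / 2 by positivity),
    hN.nat.base.cell0, ev_const B 5 (show 0 < ε / 2 by positivity)] with n a1 a2 a3 x hx
  have hl0 : B.levc n 0 = 0 := by
    unfold Base.levc
    simp
  rw [hl0] at a1
  set F := (I n).filter fun y => y.1 = x.1 with hF
  have hFm : ∀ y ∈ F, y ∈ I n ∧ y.1 = x.1 ∧ zc (lev n 0) y.2 = zc (lev n 0) x.2 := by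
    intro y hy
    obtain ⟨h1, h2⟩ := mem_filter.1 hy
    exact ⟨h1, h2, a2 y h1 x hx⟩
  have h1 : (F.image (flab B (xx L lev w1 w2 fl c) n 0)).card ≤
      (F.image fun y => ⌊(2 : ℝ) ^ 0 * (xx L lev w1 w2 fl c n y).θ⌋).card := by
    refine card_image_le_of_factor F _ _ fun y hy y' hy' h => ?_
    obtain ⟨-, b2, b3⟩ := hFm y hy
    obtain ⟨-, c2, c3⟩ := hFm y' hy'
    have hl : L n y.1 = L n y'.1 := by rw [b2, c2]
    have hz : ⌊(2 : ℝ) ^ 0 * (xx L lev w1 w2 fl c n y).z⌋ =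
        ⌊(2 : ℝ) ^ 0 * (xx L lev w1 w2 fl c n y').z⌋ := by
      rw [floor_eq, floor_eq, add_zero, b3, c3]
    have e4 : B.levc n ((0 : Fin 6 → ℝ) 4) = 0 := hl0
    have e5 : B.levc n ((0 : Fin 6 → ℝ) 5) = 0 := hl0
    unfold flab
    rw [e4, e5]
    have hzQ : (xx L lev w1 w2 fl c n y).zQ 0 = (xx L lev w1 w2 fl c n y').zQ 0 := by
      unfold Inc.zQ Inc.fl
      rw [hz]
    have hfQ : (xx L lev w1 w2 fl c n y).fQ 0 = (xx L lev w1 w2 fl c n y').fQ 0 := by
      unfold Inc.fQ Inc.fl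
      rw [h]
    have hcell : (xx L lev w1 w2 fl c n y).cell 0 0 = (xx L lev w1 w2 fl c n y').cell 0 0 := by
      unfold Inc.cell
      rw [hz, h]
    have hco : (xx L lev w1 w2 fl c n y).co 0 0 = (xx L lev w1 w2 fl c n y').co 0 0 := by
      unfold Inc.co
      rw [hzQ, hfQ]
      unfold xx toInc Inc.N Inc.P Inc.X Inc.Y
      simp only [hl]
    unfold Inc.lab
    rw [hcell, hco]
  have h2 : ((F.image fun y => ⌊(2 : ℝ) ^ 0 * (xx L lev w1 w2 fl c n y).θ⌋).card : ℝ) ≤
      2 * (B.d n ^ (-(ε / 2)) + 1) + 1 := by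
    have hd := dpow_pos B n (-(ε / 2))
    refine card_int_le (x := (xx L lev w1 w2 fl c n x).θ) (by positivity) ?_
    intro m hm
    obtain ⟨y, hy, rfl⟩ := mem_image.1 hm
    obtain ⟨b1, b2, b3⟩ := hFm y hy
    have h3 := a1 x hx y b1 (by rw [lz_eq, lz_eq, add_zero, b2, b3])
    have e0 : k * 0 - ε / 2 = -(ε / 2) := by ring
    rw [e0] at h3
    rw [pow_zero, one_mul]
    have h4 := Int.floor_le (xx L lev w1 w2 fl c n y).θ
    have h5 := Int.lt_floor_add_one (xx L lev w1 w2 fl c n y).θ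
    rw [abs_le] at h3 ⊢
    constructor <;> linarith
  calc ((F.image (flab B (xx L lev w1 w2 fl c) n 0)).card : ℝ) ≤
      ((F.image fun y => ⌊(2 : ℝ) ^ 0 * (xx L lev w1 w2 fl c n y).θ⌋).card : ℝ) := by
        exact_mod_cast h1
    _ ≤ 2 * (B.d n ^ (-(ε / 2)) + 1) + 1 := h2
    _ ≤ B.d n ^ (-(ε / 2)) * B.d n ^ (-(ε / 2)) := by nlinarith
    _ = B.d n ^ (-ε) := by
        rw [← Real.rpow_add (B.pos n)]
        congr 1
        ring

/-- **[OWN]** the literal target. -/
theorem own_of : OwnT B I L lev r0 A q g f b e w1 w2 fl sc k s θ c := by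
  classical
  intro hN
  have H := hN.nat.base
  refine ⟨fun v h0 h1 ε hε => up_aux H h0 h1 hε, ?_, fun v h0 h1 ε hε => rot_aux hN h0 h1 hε,
    fun v r h0 h1 hr => tw_aux hN h0 h1 hr, fun ε hε => mult_aux hN hε⟩
  intro u h0 h1 ε hε
  filter_upwards [fib_bounds H u h0 h1 hε] with n a1 x hx
  refine le_trans (le_of_eq ?_) (a1 x hx).1
  congr 1
  ring

end Crest.Agent.R138.Own779
end

-- ▼ part R138/L15B_196

/-!
# R138, TEXT I, leaf L15, assembly (helper196): `Nat5 → ExtP`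
-/

set_option autoImplicit false
set_option linter.unusedVariables false
set_option linter.unusedSectionVars false

open Finset Filter Topology

namespace Crest.Agent.R138.L15

open Crest.Agent.R138.Ex926
open Crest.Agent.R138.Flg101
open Crest.Agent.R138.Mk163 (zc zl rho alive amp Mk prec fr Negl RotF Nat5)
open Crest.Agent.R138.Flag51 (Ln E2 cr dt InPlank)
open Crest.Agent.R138.Nx638 (toInc sl Ch)

variable {B : Base} {I : ℕ → Finset (ℕ × ℝ)} {L : ℕ → ℕ → Ln} {lev : ℕ → ℚ → ℕ}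
    {r0 A : ℕ → ℝ} {q g : ℝ} {f : ℕ → ℚ → ℕ → ℤ → ℕ} {b : ℕ → ℚ → ℕ → Ln}
    {e : ℕ → ℚ → ℕ → E2} {w1 w2 : ℕ → ℚ → ℝ} {fl : ℕ → ℕ × ℝ → E2} {sc : ℕ → ℝ} {k s θ : ℝ}
    {c : Bool}

/-- lower bound for the size of the marked classes of level `u` -/
noncomputable def Hr (B : Base) (lev : ℕ → ℚ → ℕ) (A : ℕ → ℝ) (q g s : ℝ) (w1 w2 : ℕ → ℚ → ℝ)
    (u : ℚ) (n : ℕ) : ℝ :=
  amp B lev A q g (fun v => s * v) n u * w1 n u * w2 n u ^ (1 + q) *
    B.d n ^ (-((1 - s) * (1 - u)))

theorem ev_w (hN : Nat5 B I L lev r0 A q g f b e w1 w2 fl sc k s θ) {u : ℚ} (h0 : 0 ≤ u)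
    (h1 : u ≤ 1) : ∀ᶠ n in (U : Filter ℕ), 0 < w1 n u ∧ 0 < w2 n u := by
  filter_upwards [hN.base.dims u h0 h1] with n hn
  have hr := hN.base.rpos n
  exact ⟨hr.trans_le hn.1, (hr.trans_le hn.1).trans_le hn.2.1⟩

theorem rho_pos (i : ℕ) : 0 < rho i := by unfold rho; positivity

theorem log_rho (i : ℕ) : Real.log (rho i) = -(i * Real.log 2) := by
  unfold rho
  rw [one_div, Real.log_inv, Real.log_pow]

/-- asymptotics of `Hr / N0` -/
theorem tendsto_Hr (hN : Nat5 B I L lev r0 A q g f b e w1 w2 fl sc k s θ) {u : ℚ} (h0 : 0 ≤ u)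
    (h1 : u ≤ 1) : Tendsto (B.lg (fun n => Hr B lev A q g s w1 w2 u n / N0 lev A q w1 w2 n)) U
      (𝓝 (bex s (2 * s + g) q u (θ * (1 - u)) (θ * (1 - u) + k * u))) := by
  have H := hN.base
  -- ingredients
  have tR := H.lev_lim 0 u le_rfl h0 h1
  have tP := (hN.pr u h0 h1).sub (hN.pr 0 le_rfl zero_le_one)
  have tT := H.tau u h0 h1
  have key : Tendsto (fun n => -(2 * (((lev n u : ℝ) - lev n 0) * Real.log 2 / B.L n)) -
      (Real.log (sc n / prec w1 w2 n u) / B.L n - Real.log (sc n / prec w1 w2 n 0) / B.L n) -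
      (2 + q) * (Real.log ((rho (lev n u) / w2 n u) / (rho (lev n 1) / w2 n 1)) / B.L n) +
      ((2 * s + g) * u + (1 - s) * (1 - u))) U
      (𝓝 (bex s (2 * s + g) q u (θ * (1 - u)) (θ * (1 - u) + k * u))) := by
    have h2 := (((tR.const_mul 2).neg.sub tP).sub (tT.const_mul (2 + q))).add_const
      ((2 * s + g) * u + (1 - s) * (1 - u))
    have e1 : -(2 * ((u : ℝ) - ((0 : ℚ) : ℝ))) - (k * u - k * ((0 : ℚ) : ℝ)) -
        (2 + q) * (θ * (1 - (u : ℝ))) + ((2 * s + g) * u + (1 - s) * (1 - u)) =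
        bex s (2 * s + g) q u (θ * (1 - u)) (θ * (1 - u) + k * u) := by
      unfold bex
      rw [Rat.cast_zero]
      ring
    rw [← e1]
    exact h2
  refine key.congr' ?_
  filter_upwards [ev_w hN h0 h1, ev_w hN le_rfl zero_le_one, ev_w hN zero_le_one le_rfl]
    with n ⟨p1, p2⟩ ⟨p3, p4⟩ ⟨p5, p6⟩
  have hL := B.L_pos n
  have hA := H.Apos n
  have r1 := rho_pos (lev n u)
  have r2 := rho_pos (lev n 0)
  have r3 := rho_pos (lev n 1)
  have hsc := hN.rot.scpos n
  have hd := B.pos n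
  have hdp : ∀ t : ℝ, 0 < B.d n ^ t := fun t => Real.rpow_pos_of_pos hd t
  have l1 : Real.log (sc n / prec w1 w2 n u) = Real.log (sc n) - (Real.log (w1 n u) -
      Real.log (w2 n u)) := by
    unfold prec
    rw [Real.log_div hsc.ne' (by positivity), Real.log_div p1.ne' p2.ne']
  have l2 : Real.log (sc n / prec w1 w2 n 0) = Real.log (sc n) - (Real.log (w1 n 0) -
      Real.log (w2 n 0)) := by
    unfold prec
    rw [Real.log_div hsc.ne' (by positivity), Real.log_div p3.ne' p4.ne']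
  have l3 : Real.log ((rho (lev n u) / w2 n u) / (rho (lev n 1) / w2 n 1)) =
      (Real.log (rho (lev n u)) - Real.log (w2 n u)) -
      (Real.log (rho (lev n 1)) - Real.log (w2 n 1)) := by
    rw [Real.log_div (by positivity) (by positivity), Real.log_div r1.ne' p2.ne',
      Real.log_div r3.ne' p6.ne']
  have l4 : Real.log (Hr B lev A q g s w1 w2 u n) = Real.log (A n) +
      (2 * s + g) * u * B.L n - q * Real.log (rho (lev n u)) + Real.log (w1 n u) +
      (1 + q) * Real.log (w2 n u) + (1 - s) * (1 - u) * B.L n := by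
    unfold Hr amp
    have a1 := hdp (-(2 * (s * u) + g * u))
    have a2 : 0 < rho (lev n u) ^ (-q) := Real.rpow_pos_of_pos r1 _
    have a3 : 0 < w2 n u ^ (1 + q) := Real.rpow_pos_of_pos p2 _
    rw [Real.log_mul (by positivity) (hdp _).ne', Real.log_mul (by positivity) a3.ne',
      Real.log_mul (by positivity) p1.ne', Real.log_mul (by positivity) a2.ne',
      Real.log_mul hA.ne' a1.ne', Real.log_rpow hd, Real.log_rpow hd, Real.log_rpow r1,
      Real.log_rpow p2, B.log_d]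
    ring
  have l5 : Real.log (N0 lev A q w1 w2 n) = Real.log (A n) +
      (2 + q) * (Real.log (w2 n 1) - Real.log (rho (lev n 1))) +
      (Real.log (w1 n 0) - Real.log (w2 n 0)) + 2 * Real.log (rho (lev n 0)) := by
    unfold N0 WW sg prec
    have a1 : 0 < (w2 n 1 / rho (lev n 1)) ^ (2 + q) := Real.rpow_pos_of_pos (by positivity) _
    rw [Real.log_mul (by positivity) (by positivity), Real.log_mul (by positivity) (by positivity),
      Real.log_mul hA.ne' a1.ne', Real.log_rpow (by positivity), Real.log_pow,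
      Real.log_div p6.ne' r3.ne', Real.log_div p3.ne' p4.ne']
    push_cast
    ring
  have hH : 0 < Hr B lev A q g s w1 w2 u n := by
    unfold Hr amp
    have a1 := hdp (-(2 * (s * u) + g * u))
    have a2 : 0 < rho (lev n u) ^ (-q) := Real.rpow_pos_of_pos r1 _
    have a3 : 0 < w2 n u ^ (1 + q) := Real.rpow_pos_of_pos p2 _
    have a4 := hdp (-((1 - s) * (1 - (u : ℝ))))
    positivity
  have hN0 : 0 < N0 lev A q w1 w2 n := by
    unfold N0 WW sg prec
    have a1 : 0 < (w2 n 1 / rho (lev n 1)) ^ (2 + q) := Real.rpow_pos_of_pos (by positivity) _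
    positivity
  unfold Base.lg
  rw [Real.log_div hH.ne' hN0.ne', l1, l2, l3, l4, l5]
  simp only [log_rho]
  field_simp
  ring

theorem ev_pos_Hr (hN : Nat5 B I L lev r0 A q g f b e w1 w2 fl sc k s θ) {u : ℚ} (h0 : 0 ≤ u)
    (h1 : u ≤ 1) : ∀ᶠ n in (U : Filter ℕ), 0 < Hr B lev A q g s w1 w2 u n := by
  filter_upwards [ev_w hN h0 h1] with n ⟨p1, p2⟩
  have hA := hN.base.Apos n
  have r1 := rho_pos (lev n u)
  have hdp : ∀ t : ℝ, 0 < B.d n ^ t := fun t => Real.rpow_pos_of_pos (B.pos n) t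
  unfold Hr amp
  have a1 := hdp (-(2 * (s * u) + g * u))
  have a2 : 0 < rho (lev n u) ^ (-q) := Real.rpow_pos_of_pos r1 _
  have a3 : 0 < w2 n u ^ (1 + q) := Real.rpow_pos_of_pos p2 _
  have a4 := hdp (-((1 - s) * (1 - (u : ℝ))))
  positivity

theorem ev_pos_N0 (hN : Nat5 B I L lev r0 A q g f b e w1 w2 fl sc k s θ) :
    ∀ᶠ n in (U : Filter ℕ), 0 < N0 lev A q w1 w2 n := by
  filter_upwards [ev_w hN le_rfl zero_le_one, ev_w hN zero_le_one le_rfl] with n ⟨p3, p4⟩ ⟨p5, p6⟩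
  have hA := hN.base.Apos n
  have r2 := rho_pos (lev n 0)
  have r3 := rho_pos (lev n 1)
  unfold N0 WW sg prec
  have a1 : 0 < (w2 n 1 / rho (lev n 1)) ^ (2 + q) := Real.rpow_pos_of_pos (by positivity) _
  positivity

/-- two-sided bounds from the exponent -/
theorem ev_bounds {X : ℕ → ℝ} {t : ℝ} (h : Tendsto (B.lg X) U (𝓝 t))
    (hp : ∀ᶠ n in (U : Filter ℕ), 0 < X n) {ε : ℝ} (hε : 0 < ε) : ∀ᶠ n in (U : Filter ℕ),
      B.d n ^ (-(t - ε)) ≤ X n ∧ X n ≤ B.d n ^ (-(t + ε)) := by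
  have h1 := (Metric.tendsto_nhds.1 h) ε hε
  filter_upwards [h1, hp] with n h2 h3
  have hL := B.L_pos n
  rw [Real.dist_eq] at h2
  have h4 := abs_lt.1 h2
  unfold Base.lg at h4
  rw [← B.exp_eq, ← B.exp_eq]
  constructor
  · rw [← Real.le_log_iff_exp_le h3]
    have : t - ε ≤ Real.log (X n) / B.L n := by linarith
    rwa [le_div_iff₀ hL] at this
  · rw [← Real.log_le_iff_le_exp h3]
    have : Real.log (X n) / B.L n ≤ t + ε := by linarith
    rwa [div_le_iff₀ hL] at this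

/-- the finest label -/
theorem top_mem (hk : 0 < k) : (fun _ => MM k θ : Fin 6 → ℝ) ∈ LEG (MM k θ) := by
  have : 0 ≤ MM k θ := le_trans (by linarith) (le_max_left (1 + k) θ)
  rw [mem_LEG]
  refine ⟨fun a => ⟨this, le_rfl⟩, ?_, ?_, ?_, ?_⟩ <;> linarith

theorem zero_mem (hk : 0 < k) : (0 : Fin 6 → ℝ) ∈ LEG (MM k θ) := by
  have : 0 ≤ MM k θ := le_trans (by linarith) (le_max_left (1 + k) θ)
  rw [mem_LEG]
  refine ⟨fun a => ⟨le_rfl, this⟩, ?_, ?_, ?_, ?_⟩ <;> simp

/-- saturation by finest classes enlarges a box at most ten times -/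
theorem saturate {ι : ℕ → Type} (x : ∀ n, ι n → Inc) {M v l nn r : ℝ} (hp : Bx6 v l nn r ∈ LEG M)
    {n : ℕ} {i i' j : ι n} (h1 : flab B x n (Bx6 v l nn r) i' = flab B x n (Bx6 v l nn r) i)
    (h2 : flab B x n (fun _ => M) j = flab B x n (fun _ => M) i') :
    (x n j).cell (B.levc n v) (B.levc n r) = (x n i).cell (B.levc n v) (B.levc n r) ∧
      ∀ a : Fin 4, |(x n j).co (B.levc n v) (B.levc n r) a -
        (x n i).co (B.levc n v) (B.levc n r) a| ≤ 10 * B.d n ^ (![v + nn, nn, l, v + l] a) := by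
  have hle : ∀ a, Bx6 v l nn r a ≤ M := fun a => ((mem_LEG.1 hp).1 a).2
  have hi : B.levc n v ≤ B.levc n M := B.levc_mono n (hle 4)
  have hj : B.levc n r ≤ B.levc n M := B.levc_mono n (hle 5)
  have hv : ∀ a, vlev B n (Bx6 v l nn r) a ≤ vlev B n (fun _ => M) a := by
    intro a
    fin_cases a
    · exact B.lev_mono n (hle 0)
    · exact B.levc_mono n (hle 1)
    · exact B.levc_mono n (hle 2)
    · exact B.lev_mono n (hle 3)
  have hw : Wall (B.levc n v) (B.levc n r) (vlev B n (Bx6 v l nn r)) := wall_of_LEG B n hp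
  have h1' : (x n i').lab (B.levc n v) (B.levc n r) (vlev B n (Bx6 v l nn r)) =
      (x n i).lab (B.levc n v) (B.levc n r) (vlev B n (Bx6 v l nn r)) := h1
  have h2' : (x n j).lab (B.levc n M) (B.levc n M) (vlev B n (fun _ => M)) =
      (x n i').lab (B.levc n M) (B.levc n M) (vlev B n (fun _ => M)) := h2
  have hc := co_coarse_close hi hj hv hw h2'
  rw [lab_eq_iff] at h1'
  have hcell : (x n j).cell (B.levc n v) (B.levc n r) = (x n i').cell (B.levc n v) (B.levc n r) :=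
    cell_nested hi hj (lab_eq_iff.1 h2').1
  refine ⟨hcell.trans h1'.1, fun a => ?_⟩
  have k1 := hc a
  have k2 := dist_of_floor (h1'.2 a)
  have k3 : |(x n j).co (B.levc n v) (B.levc n r) a - (x n i).co (B.levc n v) (B.levc n r) a| ≤
      (K4 a + 1) * (1 / 2) ^ vlev B n (Bx6 v l nn r) a := by
    have := abs_sub_le ((x n j).co (B.levc n v) (B.levc n r) a)
      ((x n i').co (B.levc n v) (B.levc n r) a) ((x n i).co (B.levc n v) (B.levc n r) a)
    linarith
  refine k3.trans ?_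
  have hd : ∀ t : ℝ, 0 < B.d n ^ t := fun t => Real.rpow_pos_of_pos (B.pos n) t
  fin_cases a
  · show ((4 : ℕ) + 1 : ℝ) * (1 / 2) ^ (B.lev n (v + nn)) ≤ 10 * B.d n ^ (v + nn)
    have := half_pow_lev_le B n (v + nn)
    push_cast
    linarith
  · show ((2 : ℕ) + 1 : ℝ) * (1 / 2) ^ (B.levc n nn) ≤ 10 * B.d n ^ nn
    have := half_pow_levc_le B n nn
    have := hd nn
    push_cast
    linarith
  · show ((1 : ℕ) + 1 : ℝ) * (1 / 2) ^ (B.levc n l) ≤ 10 * B.d n ^ l
    have := half_pow_levc_le B n l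
    have := hd l
    push_cast
    linarith
  · show ((2 : ℕ) + 1 : ℝ) * (1 / 2) ^ (B.lev n (v + l)) ≤ 10 * B.d n ^ (v + l)
    have := half_pow_lev_le B n (v + l)
    have := hd (v + l)
    push_cast
    linarith

/-- the marked classes in the form used by `comb` -/
theorem nl_lower (hN : Nat5 B I L lev r0 A q g f b e w1 w2 fl sc k s θ) {u : ℚ} (h0 : 0 ≤ u)
    (h1 : u ≤ 1) {ε : ℝ} (hε : 0 < ε) : ∀ᶠ n in (U : Filter ℕ), ∀ x ∈ I n,
      B.d n ^ ε * Hr B lev A q g s w1 w2 u n ≤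
        (((I n).filter fun y => nl lev f n u y = nl lev f n u x).card : ℝ) := by
  filter_upwards [MkRef774.Mk.label_cell hN.base h0 h1 hε] with n hn x hx
  have h2 := hn x hx
  have e1 : cls (I n) (MkRef774.ql (lev n u) (f n u)) x =
      (I n).filter fun y => nl lev f n u y = nl lev f n u x := by
    ext y
    rw [mem_cls, mem_filter]
    simp only [MkRef774.ql, nl, Prod.mk.injEq]
    tauto
  have e2 : Hr B lev A q g s w1 w2 u n = amp B lev A q g (fun v => s * v) n u *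
      w1 n u ^ (1 + (0 : ℝ)) * w2 n u ^ (1 + q) * MkRef774.nu B (fun v => s * v) n u := by
    unfold Hr MkRef774.nu
    rw [add_zero, Real.rpow_one]
    congr 2
    ring
  rw [e2]
  convert h2 using 2
  rw [e1]

theorem raw_of (hN : NatJ B I L lev r0 A q g f b e w1 w2 fl sc k s θ c)
    (hQ : ∀ n, ∀ x ∈ I n, ∀ y ∈ I n, flab B (xx L lev w1 w2 fl c) n 0 x =
      flab B (xx L lev w1 w2 fl c) n 0 y)
    (gD : GeoD B I L lev r0 A q g f b e w1 w2 fl sc k s θ c)
    (gR : GeoR B I L lev r0 A q g f b e w1 w2 fl sc k s θ c) :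
    ∃ (I3 : ℕ → Finset (ℕ × ℝ)) (c₀ : ℝ), (∀ n, I3 n ⊆ I n) ∧
      Raw B I3 (xx L lev w1 w2 fl c) (fun _ y => y.1) (MM k θ) s (2 * s + g) q k θ c₀ := by
  classical
  have H := hN.nat.base
  have O := Own779.own_of (r0 := r0) (A := A) (q := q) (g := g) (f := f) (b := b) (e := e)
    (sc := sc) (θ := θ) hN
  have hk := hN.nat.k0
  have hθ := hN.nat.θ0
  obtain ⟨hs0, hs1⟩ := Own779.s_bounds H
  have hM1 : 1 < MM k θ := lt_of_lt_of_le (by linarith) (le_max_left (1 + k) θ)
  have hdp : ∀ n, ∀ t : ℝ, 0 < B.d n ^ t := fun n t => Real.rpow_pos_of_pos (B.pos n) t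
  have hinj : ∀ᶠ n in (U : Filter ℕ), ∀ i ∈ I n, ∀ j ∈ I n,
      flab B (xx L lev w1 w2 fl c) n (fun _ => MM k θ) i =
        flab B (xx L lev w1 w2 fl c) n (fun _ => MM k θ) j → i.1 = j.1 → i = j := by
    filter_upwards [H.one, Own779.lev_le H (u := 1) (v := MM k θ) zero_le_one le_rfl
      (Or.inl (by rw [Rat.cast_one]; exact hM1))] with n h1 h2 i hi j hj h3 h4
    have h5 : ⌊(2 : ℝ) ^ (B.levc n (MM k θ)) * (xx L lev w1 w2 fl c n i).z⌋ =
        ⌊(2 : ℝ) ^ (B.levc n (MM k θ)) * (xx L lev w1 w2 fl c n j).z⌋ :=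
      congrArg (fun t => t.1.1) h3
    rw [Own779.floor_eq, Own779.floor_eq] at h5
    exact h1 i hi j hj h4 (MkZoom779.zc_nested h2 h5)
  have hc : ∃ C : ℝ, ∀ᶠ n in (U : Filter ℕ),
      (((I n).image (flab B (xx L lev w1 w2 fl c) n (fun _ => MM k θ))).card : ℝ) ≤
        B.d n ^ (-C) := by
    refine ⟨∑ a : Fin 6, ((fun _ => MM k θ : Fin 6 → ℝ) a - (0 : Fin 6 → ℝ) a) + 1, ?_⟩
    filter_upwards [flab_child B I (xx L lev w1 w2 fl c) (zero_mem (θ := θ) hk) (top_mem hk)
      (fun a => le_trans zero_le_one hM1.le) one_pos, H.ne] with n h1 h2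
    obtain ⟨i0, hi0⟩ := h2
    refine le_trans ?_ (h1 i0 hi0)
    refine Nat.cast_le.2 (card_le_card (image_subset_image fun y hy => ?_))
    exact mem_cls.2 ⟨hy, hQ n y hy i0 hi0⟩
  obtain ⟨K, I3, hK, hsub, hev, ⟨C3, hC3, hcard⟩, hi, hii, hiii, -⟩ :=
    Comb628.comb B (ι := fun _ => ℕ × ℝ) (κ := fun _ => (ℤ × ℤ) × (Fin 4 → ℤ)) I I
      (fun n => Subset.rfl) H.ne H.card (fun _ y => y.1)
      (fun n => flab B (xx L lev w1 w2 fl c) n (fun _ => MM k θ)) hinj hc
      (J := {u : ℚ // 0 ≤ u ∧ u ≤ 1}) (J' := {u : ℚ // 0 ≤ u ∧ u ≤ 1})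
      (β := fun _ _ => ℕ × ℤ) (γ := fun _ _ => ℤ × ℕ)
      (fun u n x => (x.1, zc (lev n u) x.2)) (fun u => (1 - s) * (1 - (u : ℚ)))
      (fun u n i _ j _ h => (Prod.mk.inj h).1)
      (fun u ε hε => by
        filter_upwards [O.low u u.2.1 u.2.2 ε hε] with n hn x hx
        exact hn x hx)
      (fun u n x => nl lev f n u x)
      (fun u n => if 0 < Hr B lev A q g s w1 w2 u n then Hr B lev A q g s w1 w2 u n else 1)
      (fun u n => by split_ifs with h; exacts [h, one_pos])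
      (fun u ε hε => by
        filter_upwards [nl_lower hN.nat u.2.1 u.2.2 hε, ev_pos_Hr hN.nat u.2.1 u.2.2]
          with n hn h2 x hx
        rw [if_pos h2]
        exact hn x hx)
  have hKp : ∀ n, (0 : ℝ) < K n := fun n => by exact_mod_cast hK n
  -- the count of one box
  have hbox : ∀ v l nn r : ℝ, 0 ≤ v → v ≤ 1 → 0 ≤ l → l ≤ nn → Bx6 v l nn r ∈ LEG (MM k θ) →
      ∀ ε : ℝ, 0 < ε → ∀ᶠ n in (U : Filter ℕ), ∀ i ∈ I3 n,
      (((I3 n).filter fun j => flab B (xx L lev w1 w2 fl c) n (Bx6 v l nn r) j =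
        flab B (xx L lev w1 w2 fl c) n (Bx6 v l nn r) i).card : ℝ) ≤
        16 * (N0 lev A q w1 w2 n / K n) * B.d n ^ (-(bex s (2 * s + g) q v l nn + ε)) := by
    intro v l nn r h0 h1 h2 h3 hp ε hε
    filter_upwards [hiii, gD hN v l nn r h0 h1 h2 h3 hp ε hε] with n a1 a2 i hi
    have a3 := a2 i (hsub n hi)
    obtain ⟨F', hF'⟩ : ∃ F', F' = (I n).filter fun y =>
        (xx L lev w1 w2 fl c n y).cell (B.levc n v) (B.levc n r) =
          (xx L lev w1 w2 fl c n i).cell (B.levc n v) (B.levc n r) ∧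
        ∀ a : Fin 4, |(xx L lev w1 w2 fl c n y).co (B.levc n v) (B.levc n r) a -
          (xx L lev w1 w2 fl c n i).co (B.levc n v) (B.levc n r) a| ≤
            10 * B.d n ^ (![v + nn, nn, l, v + l] a) := ⟨_, rfl⟩
    have a4 := a1 ((I3 n).filter fun j => flab B (xx L lev w1 w2 fl c) n (Bx6 v l nn r) j =
        flab B (xx L lev w1 w2 fl c) n (Bx6 v l nn r) i) (filter_subset _ _)
      F' (by rw [hF']; exact filter_subset _ _)
      (fun i' hi' j hj hc => by
        rw [hF']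
        exact mem_filter.2 ⟨hj, saturate (xx L lev w1 w2 fl c) hp (mem_filter.1 hi').2 hc⟩)
    have a5 : (K n : ℝ) * (((I3 n).filter fun j =>
        flab B (xx L lev w1 w2 fl c) n (Bx6 v l nn r) j =
        flab B (xx L lev w1 w2 fl c) n (Bx6 v l nn r) i).card : ℝ) ≤
        16 * (N0 lev A q w1 w2 n * B.d n ^ (-(bex s (2 * s + g) q v l nn + ε))) := by
      have a4' : (K n : ℝ) * (((I3 n).filter fun j =>
        flab B (xx L lev w1 w2 fl c) n (Bx6 v l nn r) j =
        flab B (xx L lev w1 w2 fl c) n (Bx6 v l nn r) i).card : ℝ) ≤ 16 * (F'.card : ℝ) := by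
        exact_mod_cast a4
      refine le_trans a4' ?_
      refine mul_le_mul_of_nonneg_left ?_ (by norm_num)
      rw [hF']
      convert a3
    have hKn := hKp n
    rw [← mul_le_mul_iff_right₀ hKn]
    refine a5.trans (le_of_eq ?_)
    field_simp
  -- N0 / K is polynomially bounded
  have hZpos : ∀ᶠ n in (U : Filter ℕ), 0 < N0 lev A q w1 w2 n / K n := by
    filter_upwards [ev_pos_N0 hN.nat] with n hn
    exact div_pos hn (hKp n)
  have hZ : B.PB (fun n => N0 lev A q w1 w2 n / K n) := by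
    have hB0 : Bx6 0 0 0 0 = (0 : Fin 6 → ℝ) := by
      funext a; fin_cases a <;> simp [Bx6]
    have hlow : ∀ᶠ n in (U : Filter ℕ), B.d n ^ (bex s (2 * s + g) q 0 0 0 + 2) ≤
        N0 lev A q w1 w2 n / K n := by
      filter_upwards [hbox 0 0 0 0 le_rfl zero_le_one le_rfl le_rfl
        (by rw [hB0]; exact zero_mem hk) 1 one_pos, hev,
        B.ev_const_log (Real.log 16) one_pos] with n a1 a2 a3
      obtain ⟨⟨i, hi⟩, -⟩ := a2
      have a4 := a1 i hi
      have a5 : (1 : ℝ) ≤ (((I3 n).filter fun j => flab B (xx L lev w1 w2 fl c) n (Bx6 0 0 0 0) j =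
        flab B (xx L lev w1 w2 fl c) n (Bx6 0 0 0 0) i).card : ℝ) := by
        have : 0 < ((I3 n).filter fun j => flab B (xx L lev w1 w2 fl c) n (Bx6 0 0 0 0) j =
          flab B (xx L lev w1 w2 fl c) n (Bx6 0 0 0 0) i).card :=
          card_pos.2 ⟨i, mem_filter.2 ⟨hi, rfl⟩⟩
        exact_mod_cast this
      have a6 : (16 : ℝ) ≤ B.d n ^ (-(1 : ℝ)) := by
        rw [← B.exp_eq, ← Real.log_le_iff_le_exp (by norm_num)]
        exact a3
      have a7 := a5.trans a4
      have hp1 := hdp n (bex s (2 * s + g) q 0 0 0 + 2)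
      have hp2 := hdp n (-(bex s (2 * s + g) q 0 0 0 + 1))
      have hZ0 : 0 ≤ N0 lev A q w1 w2 n / K n := by
        by_contra hneg
        push Not at hneg
        have : 16 * (N0 lev A q w1 w2 n / K n) * B.d n ^ (-(bex s (2 * s + g) q 0 0 0 + 1)) ≤ 0 :=
          mul_nonpos_of_nonpos_of_nonneg (by linarith) hp2.le
        linarith
      have a8 : 16 * (N0 lev A q w1 w2 n / K n) * B.d n ^ (-(bex s (2 * s + g) q 0 0 0 + 1)) ≤
          B.d n ^ (-(1 : ℝ)) * (N0 lev A q w1 w2 n / K n) *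
            B.d n ^ (-(bex s (2 * s + g) q 0 0 0 + 1)) :=
        mul_le_mul_of_nonneg_right (mul_le_mul_of_nonneg_right a6 hZ0) hp2.le
      have a9 : B.d n ^ (-(1 : ℝ)) * (N0 lev A q w1 w2 n / K n) *
            B.d n ^ (-(bex s (2 * s + g) q 0 0 0 + 1)) =
          (N0 lev A q w1 w2 n / K n) * B.d n ^ (-(bex s (2 * s + g) q 0 0 0 + 2)) := by
        rw [mul_comm (B.d n ^ (-(1 : ℝ))), mul_assoc, ← Real.rpow_add (B.pos n)]
        congr 2; ring
      have a10 : 1 ≤ (N0 lev A q w1 w2 n / K n) * B.d n ^ (-(bex s (2 * s + g) q 0 0 0 + 2)) := by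
        linarith
      rw [Real.rpow_neg (B.pos n).le, ← div_eq_mul_inv, le_div_iff₀ hp1, one_mul] at a10
      exact a10
    have hupp : ∀ᶠ n in (U : Filter ℕ), N0 lev A q w1 w2 n / K n ≤
        B.d n ^ (-(C3 + 2 - bex s (2 * s + g) q ((0 : ℚ) : ℝ) (θ * (1 - ((0 : ℚ) : ℝ)))
          (θ * (1 - ((0 : ℚ) : ℝ)) + k * ((0 : ℚ) : ℝ)))) := by
      have e0 := ev_bounds (tendsto_Hr hN.nat le_rfl zero_le_one) (by
        filter_upwards [ev_pos_Hr hN.nat le_rfl zero_le_one, ev_pos_N0 hN.nat] with n a1 a2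
        exact div_pos a1 a2) one_pos
      filter_upwards [e0, hii ⟨0, le_rfl, zero_le_one⟩ 1 one_pos, hev, hcard,
        ev_pos_Hr hN.nat le_rfl zero_le_one, ev_pos_N0 hN.nat] with n a1 a2 a3 a4 a5 a6
      obtain ⟨⟨i, hi⟩, -⟩ := a3
      set bb := bex s (2 * s + g) q ((0 : ℚ) : ℝ) (θ * (1 - ((0 : ℚ) : ℝ)))
          (θ * (1 - ((0 : ℚ) : ℝ)) + k * ((0 : ℚ) : ℝ)) with hbb
      have a7 : (1 : ℝ) ≤ (((I3 n).image fun x => nl lev f n 0 x).card : ℝ) := by
        have : 0 < ((I3 n).image fun x => nl lev f n 0 x).card :=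
          card_pos.2 ⟨_, mem_image_of_mem _ hi⟩
        exact_mod_cast this
      have hKn := hKp n
      have a2' : (((I3 n).image fun x => nl lev f n 0 x).card : ℝ) ≤
          (I3 n).card * (K n / Hr B lev A q g s w1 w2 0 n) * B.d n ^ (-(1 : ℝ)) := by
        have := a2
        rw [if_pos a5] at this
        exact this
      have a8 := a7.trans a2'
      -- H ≤ #I3 K d^-1
      have a9 : Hr B lev A q g s w1 w2 0 n ≤ B.d n ^ (-C3) * K n * B.d n ^ (-(1 : ℝ)) := by
        have h9 : (I3 n).card * (K n / Hr B lev A q g s w1 w2 0 n) * B.d n ^ (-(1 : ℝ)) =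
            ((I3 n).card * K n * B.d n ^ (-(1 : ℝ))) / Hr B lev A q g s w1 w2 0 n := by
          field_simp
        rw [h9, le_div_iff₀ a5, one_mul] at a8
        refine a8.trans ?_
        refine mul_le_mul_of_nonneg_right ?_ (hdp n _).le
        exact mul_le_mul_of_nonneg_right a4 hKn.le
      have a10 : N0 lev A q w1 w2 n ≤ Hr B lev A q g s w1 w2 0 n * B.d n ^ (bb - 1) := by
        have h10 := a1.1
        rw [le_div_iff₀ a6, Real.rpow_neg (B.pos n).le, inv_mul_le_iff₀ (hdp n _)] at h10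
        linarith
      rw [div_le_iff₀ hKn]
      refine a10.trans ((mul_le_mul_of_nonneg_right a9 (hdp n _).le).trans (le_of_eq ?_))
      have : B.d n ^ (-(C3 + 2 - bb)) = B.d n ^ (-C3) * B.d n ^ (-(1 : ℝ)) * B.d n ^ (bb - 1) := by
        rw [← Real.rpow_add (B.pos n), ← Real.rpow_add (B.pos n)]
        congr 1; ring
      rw [this]; ring
    refine Base.PB.of_bounds (C := max (bex s (2 * s + g) q 0 0 0 + 2)
      (C3 + 2 - bex s (2 * s + g) q ((0 : ℚ) : ℝ) (θ * (1 - ((0 : ℚ) : ℝ)))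
          (θ * (1 - ((0 : ℚ) : ℝ)) + k * ((0 : ℚ) : ℝ)))) ?_ ?_
    · filter_upwards [hlow] with n hn
      refine le_trans ?_ hn
      exact Real.rpow_le_rpow_of_exponent_ge (B.pos n) (B.lt n).le (le_max_left _ _)
    · filter_upwards [hupp] with n hn
      refine hn.trans ?_
      refine Real.rpow_le_rpow_of_exponent_ge (B.pos n) (B.lt n).le ?_
      exact neg_le_neg (le_max_right _ _)
  set c₀ : ℝ := B.ex (fun n => N0 lev A q w1 w2 n / K n) with hc₀
  have hZb : ∀ ε : ℝ, 0 < ε → ∀ᶠ n in (U : Filter ℕ),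
      B.d n ^ (-(c₀ - ε)) ≤ N0 lev A q w1 w2 n / K n ∧
      N0 lev A q w1 w2 n / K n ≤ B.d n ^ (-(c₀ + ε)) := fun ε hε =>
    ev_bounds hZ.tendsto hZpos hε
  refine ⟨I3, c₀, hsub, ?_⟩
  exact
    { ne := hev.mono fun n hn => hn.1
      card := ⟨C3, hcard⟩
      s0 := hs0
      s1 := hs1
      bs := by have := H.g0; linarith
      q0 := H.q0
      k0 := hk
      θ0 := hθ
      M0 := ⟨le_max_left _ _, le_max_right _ _⟩
      line_eq := by
        intro n i j hij
        simp only [xx, toInc]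
        have hij' : i.1 = j.1 := hij
        rw [hij']
        exact ⟨rfl, rfl, rfl, rfl⟩
      ownU := by
        intro v h0 h1 ε hε
        filter_upwards [O.up v h0 h1 ε hε] with n hn i hi
        refine le_trans ?_ (hn i (hsub n hi))
        refine Nat.cast_le.2 (card_le_card fun t ht => ?_)
        rw [mem_filter] at ht ⊢
        exact ⟨hsub n ht.1, ht.2⟩
      ownL := by
        intro v h0 h1 ε hε
        obtain ⟨u, hu1, hu2⟩ := exists_rat_btwn (show v < min 1 (v + ε / 2) from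
          lt_min h1 (by linarith))
        have hu1' : (u : ℝ) < 1 := hu2.trans_le (min_le_left _ _)
        have hu2' : (u : ℝ) < v + ε / 2 := hu2.trans_le (min_le_right _ _)
        have u0 : (0 : ℚ) ≤ u := by exact_mod_cast (h0.le.trans hu1.le)
        have u1 : u ≤ (1 : ℚ) := by exact_mod_cast hu1'.le
        filter_upwards [hi ⟨u, u0, u1⟩ (ε / 2) (by positivity),
          Own779.le_lev H h0.le u1 hu1] with n a1 a2
        have a3 : ((I3 n).image (lz (xx L lev w1 w2 fl c) (fun _ y => y.1) n (B.levc n v))).card ≤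
            ((I3 n).image fun x => (x.1, zc (lev n u) x.2)).card := by
          have e1 : (I3 n).image (lz (xx L lev w1 w2 fl c) (fun _ y => y.1) n (B.levc n v)) =
              ((I3 n).image fun x => (x.1, zc (lev n u) x.2)).image
                fun p : ℕ × ℤ => (p.1, p.2 / ((2 ^ (lev n u - (lev n 0 + B.levc n v)) : ℕ) : ℤ)) := by
            rw [image_image]
            refine image_congr fun x _ => ?_
            rw [Own779.lz_eq]
            simp only [Function.comp]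
            rw [MkZoom779.zc_eq a2]
          rw [e1]
          exact card_image_le
        have a4 : (((I3 n).image (lz (xx L lev w1 w2 fl c) (fun _ y => y.1) n
            (B.levc n v))).card : ℝ) ≤ (I3 n).card * B.d n ^ ((1 - s) * (1 - u) - ε / 2) :=
          le_trans (by exact_mod_cast a3) a1
        refine a4.trans (mul_le_mul_of_nonneg_left ?_ (Nat.cast_nonneg _))
        refine Real.rpow_le_rpow_of_exponent_ge (B.pos n) (B.lt n).le ?_
        nlinarith
      rot := by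
        intro v h0 h1 ε hε
        filter_upwards [O.rot v h0.le h1.le ε hε] with n hn i hi j hj hij
        exact hn i (hsub n hi) j (hsub n hj) hij.symm
      tw := by
        intro v r h0 h1 hr
        obtain ⟨γ, hγ, hev⟩ := O.tw v r h0 h1 hr
        refine ⟨γ, hγ, ?_⟩
        filter_upwards [hev] with n hn i hi
        refine le_trans ?_ (hn i (hsub n hi))
        refine Nat.cast_le.2 (card_le_card fun t ht => ?_)
        rw [mem_filter] at ht ⊢
        exact ⟨hsub n ht.1, ht.2⟩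
      dmax := by
        intro v l nn r h0 h1 h2 h3 hp ε hε
        have hε3 : 0 < ε / 3 := by positivity
        filter_upwards [hbox v l nn r h0 h1 h2 h3 hp _ hε3, hZb _ hε3,
          B.ev_const_log (Real.log 16) hε3] with n a1 a2 a3 i hi
        have a6 : (16 : ℝ) ≤ B.d n ^ (-(ε / 3)) := by
          rw [← B.exp_eq, ← Real.log_le_iff_le_exp (by norm_num)]
          exact a3
        refine (a1 i hi).trans ?_
        have hp2 := hdp n (-(bex s (2 * s + g) q v l nn + ε / 3))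
        have hZ0 : 0 ≤ N0 lev A q w1 w2 n / K n := (hdp n _).le.trans a2.1
        calc 16 * (N0 lev A q w1 w2 n / K n) * B.d n ^ (-(bex s (2 * s + g) q v l nn + ε / 3))
            ≤ B.d n ^ (-(ε / 3)) * B.d n ^ (-(c₀ + ε / 3)) *
              B.d n ^ (-(bex s (2 * s + g) q v l nn + ε / 3)) := by
              refine mul_le_mul_of_nonneg_right ?_ hp2.le
              exact mul_le_mul a6 a2.2 hZ0 (hdp n _).le
          _ = B.d n ^ (-(c₀ + bex s (2 * s + g) q v l nn + ε)) := by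
              rw [← Real.rpow_add (B.pos n), ← Real.rpow_add (B.pos n)]
              congr 1; ring
      record := by
        intro v h0 h1 ε hε
        set S0 : ℝ := (2 * s + g) + q * θ - 2 + 2 * θ - k - (1 - s) with hS0
        set D : ℝ := 10 * (1 + k + θ) + |S0| with hD
        have hD0 : 0 < D := by positivity
        obtain ⟨u, hu1, hu2⟩ := exists_rat_btwn (show v < min 1 (v + ε / 2 / D) from
          lt_min h1 (by have : 0 < ε / 2 / D := by positivity
                        linarith))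
        have hu1' : (u : ℝ) < 1 := hu2.trans_le (min_le_left _ _)
        have hu2' : (u : ℝ) < v + ε / 2 / D := hu2.trans_le (min_le_right _ _)
        have u0 : (0 : ℚ) ≤ u := by exact_mod_cast (h0.le.trans hu1.le)
        have u1 : u ≤ (1 : ℚ) := by exact_mod_cast hu1'.le
        have hDu : (u - v) * D ≤ ε / 2 := by
          have : (u : ℝ) - v ≤ ε / 2 / D := by linarith
          rwa [le_div_iff₀ hD0] at this
        have hε8 : 0 < ε / 8 := by positivity
        filter_upwards [hii ⟨u, u0, u1⟩ _ hε8, (gR hN).1 v u h0.le hu1 u1 _ hε8, hZb _ hε8,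
          ev_bounds (tendsto_Hr hN.nat u0 u1) (by
            filter_upwards [ev_pos_Hr hN.nat u0 u1, ev_pos_N0 hN.nat] with n a1 a2
            exact div_pos a1 a2) hε8, ev_pos_Hr hN.nat u0 u1, ev_pos_N0 hN.nat]
          with n a1 a2 a3 a4 a5 a6
        have hKn := hKp n
        set P := Bx6 v (θ * (1 - v)) (θ * (1 - v) + k * v) (k * v) with hP
        set b1 := bex s (2 * s + g) q u (θ * (1 - u)) (θ * (1 - u) + k * u) with hb1
        have k1 : (((I3 n).image (flab B (xx L lev w1 w2 fl c) n P)).card : ℝ) ≤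
            B.d n ^ (-(10 * (1 + k + θ) * (u - v) + ε / 8)) *
              ((I3 n).image fun x => nl lev f n u x).card := by
          refine card_image_le_mul _ _ _ fun x hx => ?_
          refine le_trans ?_ (a2 x (hsub n hx))
          refine Nat.cast_le.2 (card_le_card (image_subset_image fun t ht => ?_))
          obtain ⟨t1, t2⟩ := mem_cls.1 ht
          exact mem_filter.2 ⟨hsub n t1, t2⟩
        have k2 : (((I3 n).image fun x => nl lev f n u x).card : ℝ) ≤
            (I3 n).card * (K n / Hr B lev A q g s w1 w2 u n) * B.d n ^ (-(ε / 8)) := by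
          have := a1
          rw [if_pos a5] at this
          exact this
        have k3 : K n / Hr B lev A q g s w1 w2 u n ≤ B.d n ^ (c₀ - ε / 8) * B.d n ^ (b1 - ε / 8) := by
          have e1 : (K n : ℝ) ≤ N0 lev A q w1 w2 n * B.d n ^ (c₀ - ε / 8) := by
            have := a3.1
            rw [le_div_iff₀ hKn, Real.rpow_neg (B.pos n).le, inv_mul_le_iff₀ (hdp n _)] at this
            linarith
          have e2 : N0 lev A q w1 w2 n ≤ Hr B lev A q g s w1 w2 u n * B.d n ^ (b1 - ε / 8) := by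
            have := a4.1
            rw [le_div_iff₀ a6, Real.rpow_neg (B.pos n).le, inv_mul_le_iff₀ (hdp n _)] at this
            linarith
          rw [div_le_iff₀ a5]
          calc (K n : ℝ) ≤ N0 lev A q w1 w2 n * B.d n ^ (c₀ - ε / 8) := e1
            _ ≤ (Hr B lev A q g s w1 w2 u n * B.d n ^ (b1 - ε / 8)) * B.d n ^ (c₀ - ε / 8) :=
              mul_le_mul_of_nonneg_right e2 (hdp n _).le
            _ = _ := by ring
        have hI : (0 : ℝ) ≤ (I3 n).card := Nat.cast_nonneg _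
        calc (((I3 n).image (flab B (xx L lev w1 w2 fl c) n P)).card : ℝ)
            ≤ B.d n ^ (-(10 * (1 + k + θ) * (u - v) + ε / 8)) *
              ((I3 n).card * (B.d n ^ (c₀ - ε / 8) * B.d n ^ (b1 - ε / 8)) *
                B.d n ^ (-(ε / 8))) := by
              refine k1.trans (mul_le_mul_of_nonneg_left (k2.trans ?_) (hdp n _).le)
              refine mul_le_mul_of_nonneg_right ?_ (hdp n _).le
              exact mul_le_mul_of_nonneg_left k3 hI
          _ = (I3 n).card * B.d n ^ (-(10 * (1 + k + θ) * (u - v) + ε / 8) + ((c₀ - ε / 8) +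
                (b1 - ε / 8) + -(ε / 8))) := by
              rw [Real.rpow_add (B.pos n), Real.rpow_add (B.pos n), Real.rpow_add (B.pos n)]
              ring
          _ ≤ (I3 n).card * B.d n ^ (c₀ + bex s (2 * s + g) q v (θ * (1 - v))
                (θ * (1 - v) + k * v) - ε) := by
              refine mul_le_mul_of_nonneg_left ?_ hI
              refine Real.rpow_le_rpow_of_exponent_ge (B.pos n) (B.lt n).le ?_
              have e1 : b1 = bex s (2 * s + g) q v (θ * (1 - v)) (θ * (1 - v) + k * v) +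
                  S0 * (u - v) := by
                rw [hb1, hS0]; unfold bex; ring
              have e2 : -(|S0| * (u - v)) ≤ S0 * (u - v) := by
                have := mul_le_mul_of_nonneg_right (neg_abs_le S0) (by linarith : 0 ≤ (u : ℝ) - v)
                linarith
              have e3 : (u - v) * D = 10 * (1 + k + θ) * (u - v) + |S0| * (u - v) := by
                rw [hD]; ring
              rw [e1]
              linarith }

end Crest.Agent.R138.L15
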