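import Crest.Agent.R138.Loc1_878

-- ▼ part R138/Loc2_878
section

/-!
# R138 / R139: localisation for selected waves (helper878).

`loc_sel_le` : short packets of `tr h z (sel ρ g S)` in `S'` are controlled by the long packets of
`g` in `S` which pass through `S'`.
-/

set_option autoImplicit false
set_option linter.unusedSectionVars false

open MeasureTheory FourierTransform
open scoped ContDiff ENNReal

namespace Crest.Agent.R138.Loc878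

open Crest.Agent.R138.Defs Crest.Agent.R138.Wpk685
open Crest.Agent.R138.Wf448 (wE sl)
open Crest.Agent.R138.W188 (tr)

theorem capfat_prod {ρ ρ' : ℝ} (hρ : 0 < ρ) (hρ' : ρ ≤ ρ') {m m' : ℤ × ℤ}
    (hm : ¬ Near ρ ρ' m' m) {G : E2 → ℂ} (hG : ∀ ξ, G ξ ≠ 0 → ‖ξ - cen ρ m‖ ≤ 3 / 2 * ρ) (ξ : E2) :
    cap win (cen ρ' m') ρ' ξ * G ξ = 0 := by
  by_contra hne
  have h1 := hG ξ (right_ne_zero_of_mul hne)
  have h2 := capwin_supp (lt_of_lt_of_le hρ hρ') m' ξ (left_ne_zero_of_mul hne)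
  apply hm
  unfold Near
  have h3 : ‖cen ρ m - cen ρ' m'‖ ≤ ‖ξ - cen ρ m‖ + ‖ξ - cen ρ' m'‖ := by
    have : cen ρ m - cen ρ' m' = -(ξ - cen ρ m) + (ξ - cen ρ' m') := by abel
    rw [this]
    exact (norm_add_le _ _).trans (by rw [norm_neg])
  have h4 : 0 < ρ' := lt_of_lt_of_le hρ hρ'
  linarith

/-- **core**, one short cap, a wave given by represented pieces. -/
theorem loc_core_rep (B : ℕ → ℝ) (n : ℕ) (L : ℝ) (hL : 1 ≤ L) : ∃ C : ℝ, 0 ≤ C ∧ ∀ h, ParB B h →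
    ∀ (ρ ρ' A : ℝ) (w : E2 → ℝ), 0 < ρ → ρ ≤ ρ' → ρ ≤ 1 → SV ρ A n w →
    ∀ (G v : ℤ × ℤ → E2 → ℂ), (∀ m ∈ caps ρ, Rep ρ (cen ρ m) (G m) (v m)) →
    ∀ z : E2 × ℝ, |z.2| * ρ ^ 2 ≤ L → ∀ m' : ℤ × ℤ,
    ∫⁻ x, ENNReal.ofReal (w x) * ‖um ρ' (tr h z (fun ξ => ∑ m ∈ caps ρ, G m ξ)) m' x‖ₑ ^ 2 ≤
      ENNReal.ofReal (C * A ^ 7) * ∑ m ∈ nearL ρ ρ' m', ∫⁻ y,
        ENNReal.ofReal (w (y - z.1 - z.2 • gradient h (cen ρ m))) * ‖v m y‖ₑ ^ 2 := by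
  obtain ⟨C1, hC1, h1⟩ := sv_row n
  obtain ⟨C2, hC2, h2⟩ := sv_transport B n L hL
  obtain ⟨C3, hC3, h3⟩ := sv_mult n
  obtain ⟨C4, hC4, h4⟩ := rep_energy n
  obtain ⟨K, hK, hwin⟩ := win_kbound (n + 2)
  refine ⟨C1 * 36 * (C2 * (C3 * K ^ 2 * C4)), by positivity, ?_⟩
  intro h hh ρ ρ' A w hρ hρ' hρ1 hw G v hR z hz m'
  have hA := hw.one_le
  have hpos' : 0 < ρ' := lt_of_lt_of_le hρ hρ'
  have hhc : Continuous h := hh.1.continuous
  set s := nearL ρ ρ' m' with hs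
  have hsc : ∀ m ∈ s, m ∈ caps ρ := fun m hm => (mem_nearL.1 hm).1
  set G' : ℤ × ℤ → E2 → ℂ := fun m ξ => cap win (cen ρ' m') ρ' ξ * G m ξ with hG'
  have hG'i : ∀ m ∈ s, Integrable (G' m) := fun m hm => win_int (hR m (hsc m hm)).int m'
  have hG'2 : ∀ m ∈ s, MemLp (G' m) 2 := fun m hm => win_l2 (hR m (hsc m hm)).l2 m'
  have hG's : ∀ m ∈ s, ∀ ξ, G' m ξ ≠ 0 → ‖ξ - cen ρ m‖ ≤ 3 / 2 * ρ := fun m hm ξ hξ =>
    (hR m (hsc m hm)).supp ξ (right_ne_zero_of_mul hξ)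
  have esum : ∀ ξ, cap win (cen ρ' m') ρ' ξ * ∑ m ∈ caps ρ, G m ξ = ∑ m ∈ s, G' m ξ := by
    classical
    intro ξ
    rw [Finset.mul_sum, hs]
    unfold nearL
    rw [Finset.sum_filter_of_ne]
    intro m hm hne
    by_contra hc
    exact hne (capfat_prod hρ hρ' hc (hR m hm).supp ξ)
  have e1 : ∫⁻ x, ENNReal.ofReal (w x) *
      ‖um ρ' (tr h z (fun ξ => ∑ m ∈ caps ρ, G m ξ)) m' x‖ₑ ^ 2 =
      WE (fun x => w (x - z.1)) (fun ξ => ∑ m ∈ s, sl h (G' m) z.2 ξ) := by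
    rw [um_lint]
    refine WE_modulate w z.1 fun ξ => ?_
    have e2 : ∑ m ∈ s, sl h (G' m) z.2 ξ = (∑ m ∈ s, G' m ξ) * ee (z.2 * h ξ) := by
      unfold sl
      rw [Finset.sum_mul]
    rw [e2, ← esum]
    simp only [tr]
    rw [ee_add]
    ring
  rw [e1]
  have hw1 := hw.comp_sub z.1
  have a1 := h1 ρ A _ hρ hw1 (ℤ × ℤ) s (fun m => Metric.closedBall (cen ρ m) (3 / 2 * ρ))
    (fun m => sl h (G' m) z.2) 36 (by norm_num) (fun ξ => ?_)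
    (fun m hm ξ hξ => by
      rw [Metric.mem_closedBall, dist_eq_norm]
      exact hG's m hm ξ (left_ne_zero_of_mul hξ))
    (fun m hm => sl_int hhc (hG'i m hm) _) (fun m hm => sl_l2 hhc (hG'2 m hm) _)
  · refine a1.trans ?_
    have e3 : C1 * 36 * (C2 * (C3 * K ^ 2 * C4)) * A ^ 7 =
        (C1 * A ^ 2 * 36) * ((C2 * A ^ 2) * ((C3 * A ^ 2 * K ^ 2) * (C4 * A))) := by ring
    rw [e3, ENNReal.ofReal_mul (p := C1 * A ^ 2 * 36) (by positivity),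
      mul_assoc (ENNReal.ofReal (C1 * A ^ 2 * 36))]
    refine mul_le_mul' le_rfl ?_
    rw [Finset.mul_sum]
    refine Finset.sum_le_sum fun m hm => ?_
    have hRm := hR m (hsc m hm)
    have a2 := h2 h hh ρ A _ hρ hρ1 hw1 (cen ρ m) (G' m) (hG'i m hm) (hG'2 m hm)
      (fun ξ hξ => (hG's m hm ξ hξ).trans (by linarith)) 0 z.2 hz
    rw [zero_add, sl_zero] at a2
    have hw2 : SV ρ A n (fun x => w (x - z.2 • gradient h (cen ρ m) - z.1)) :=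
      hw1.comp_sub (z.2 • gradient h (cen ρ m))
    have a3 := h3 ρ A _ hρ hw2 (cap win (cen ρ' m') ρ') (G m) K hK
      (temperate_cap win_contDiff (fun ζ hζ => win_zero' hζ) _ hpos')
      (fun j hj ξ => hwin ρ ρ' hρ hρ' m' j hj ξ) hRm.int hRm.l2
    have a4 := h4 ρ A _ hρ hρ1 hw2 (cen ρ m) (G m) (v m) hRm
    have e5 : ∀ y : E2, y - z.1 - z.2 • gradient h (cen ρ m) =
        y - z.2 • gradient h (cen ρ m) - z.1 := by
      intro y; abel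
    simp only [e5]
    refine a2.trans ?_
    rw [ENNReal.ofReal_mul (p := C2 * A ^ 2) (by positivity),
      mul_assoc (ENNReal.ofReal (C2 * A ^ 2))]
    refine mul_le_mul' le_rfl (a3.trans ?_)
    rw [ENNReal.ofReal_mul (p := C3 * A ^ 2 * K ^ 2) (by positivity),
      mul_assoc (ENNReal.ofReal (C3 * A ^ 2 * K ^ 2))]
    exact mul_le_mul' le_rfl a4
  · have h6 := card_near hρ ξ (fun m => m ∈ s ∧
      ξ ∈ Metric.thickening ρ (Metric.closedBall (cen ρ m) (3 / 2 * ρ))) (fun m hm => ?_)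
    · exact_mod_cast h6
    · obtain ⟨y, hy, hyd⟩ := Metric.mem_thickening_iff.1 hm.2
      rw [Metric.mem_closedBall, dist_eq_norm] at hy
      rw [dist_eq_norm] at hyd
      calc ‖ξ - cen ρ m‖ = ‖(ξ - y) + (y - cen ρ m)‖ := by congr 1; abel
        _ ≤ ‖ξ - y‖ + ‖y - cen ρ m‖ := norm_add_le _ _
        _ < 3 * ρ := by linarith


end Crest.Agent.R138.Loc878
end

-- ▼ part R138/Ad_480

/-!
# R138 / R139: combinatorial densities of a selected wave (helper480).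

`Ac n h ρ g S M z x` = density at scale `ρ⁻¹` around the point `x` (at the time `0` of the frame `z`)
of the selected packets `S m`, `m ∈ M`, of level `ρ`; `Ad` = density of the packets whose cap is
near the cap `m'` of level `ρ'`.
Monotone, slowly varying with the same power (`Ac_shift`), `sum_Ac_le` (overlap), `lower` (LOWER of
the slab step as finite counting), `upper` (bridge from 878's `loc_core_rep`), `tiny`.
-/

set_option autoImplicit false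
set_option linter.unusedSectionVars false

open MeasureTheory FourierTransform
open scoped ContDiff ENNReal

namespace Crest.Agent.R138.Ad480

open Crest.Agent.R138.Defs Crest.Agent.R138.Wpk685 Crest.Agent.R138.Loc878
open Crest.Agent.R138.W188 (tr)

/-- polynomial weight at scale `ρ⁻¹`. -/
noncomputable def wa (ρ : ℝ) (n : ℕ) (v : E2) : ℝ := ((1 + ρ * ‖v‖) ^ n)⁻¹

theorem wa_pos {ρ : ℝ} (hρ : 0 ≤ ρ) (n : ℕ) (v : E2) : 0 < wa ρ n v := by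
  unfold wa; positivity

theorem wa_le_one {ρ : ℝ} (hρ : 0 ≤ ρ) (n : ℕ) (v : E2) : wa ρ n v ≤ 1 := by
  unfold wa
  have : 0 ≤ ρ * ‖v‖ := by positivity
  exact inv_le_one_of_one_le₀ (one_le_pow₀ (by linarith))

theorem wa_cont {ρ : ℝ} (hρ : 0 ≤ ρ) (n : ℕ) : Continuous (wa ρ n) := by
  unfold wa
  refine Continuous.inv₀ (by fun_prop) fun v => ?_
  have : 0 ≤ ρ * ‖v‖ := by positivity
  positivity

/-- slowly varying with the same power. -/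
theorem wa_shift {ρ δ : ℝ} (hρ : 0 ≤ ρ) (hδ : 0 ≤ δ) (n : ℕ) {v v' : E2} (h : ρ * ‖v' - v‖ ≤ δ) :
    wa ρ n v ≤ (1 + δ) ^ n * wa ρ n v' := by
  unfold wa
  have h1 : 0 ≤ ρ * ‖v‖ := by positivity
  have h2 : 0 ≤ ρ * ‖v'‖ := by positivity
  rw [← div_eq_mul_inv, inv_eq_one_div, div_le_div_iff₀ (by positivity) (by positivity), one_mul,
    ← mul_pow]
  refine pow_le_pow_left₀ (by positivity) ?_ n
  have h3 : ‖v'‖ ≤ ‖v' - v‖ + ‖v‖ := by simpa using norm_add_le (v' - v) v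
  have h4 := mul_le_mul_of_nonneg_left h3 hρ
  nlinarith [mul_nonneg hδ h1]

theorem wa_ball {ρ X : ℝ} (hρ : 0 ≤ ρ) (hX : 0 ≤ X) (n : ℕ) {v : E2} (h : ρ * ‖v‖ ≤ X) :
    1 ≤ (1 + X) ^ n * wa ρ n v := by
  have h1 := wa_shift hρ hX n (v := (0 : E2)) (v' := v) (by simpa using h)
  have h2 : wa ρ n (0 : E2) = 1 := by unfold wa; simp
  rwa [h2] at h1

/-- density of the selected packets with caps in `M`. -/
noncomputable def Ac (n : ℕ) (h : E2 → ℝ) (ρ : ℝ) (g : E2 → ℂ) (S : ℤ × ℤ → Set E2)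
    (M : Finset (ℤ × ℤ)) (z : E2 × ℝ) (x : E2) : ℝ≥0∞ :=
  ENNReal.ofReal (ρ ^ 2) * ∑ m ∈ M, ∫⁻ y in S m,
    ENNReal.ofReal (wa ρ n (y - z.1 - z.2 • gradient h (cen ρ m) - x)) * ‖um ρ g m y‖ₑ ^ 2

/-- density of the selected packets with caps near the cap `m'` of level `ρ'`. -/
noncomputable def Ad (n : ℕ) (h : E2 → ℝ) (ρ ρ' : ℝ) (g : E2 → ℂ) (S : ℤ × ℤ → Set E2)
    (m' : ℤ × ℤ) (z : E2 × ℝ) (x : E2) : ℝ≥0∞ := Ac n h ρ g S (nearL ρ ρ' m') z x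

variable {n : ℕ} {h : E2 → ℝ} {ρ ρ' : ℝ} {g : E2 → ℂ} {S S' : ℤ × ℤ → Set E2}

theorem Ac_mono {M M' : Finset (ℤ × ℤ)} (hM : M ⊆ M') (hS : ∀ m ∈ M, S m ⊆ S' m) (z : E2 × ℝ)
    (x : E2) : Ac n h ρ g S M z x ≤ Ac n h ρ g S' M' z x := by
  unfold Ac
  refine mul_le_mul' le_rfl ((Finset.sum_le_sum fun m hm => ?_).trans
    (Finset.sum_le_sum_of_subset hM))
  exact lintegral_mono_set (hS m hm)

theorem Ad_mono {m' : ℤ × ℤ} (hS : ∀ m, S m ⊆ S' m) (z : E2 × ℝ) (x : E2) :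
    Ad n h ρ ρ' g S m' z x ≤ Ad n h ρ ρ' g S' m' z x :=
  Ac_mono le_rfl (fun m _ => hS m) z x

/-- slowly varying and transport, same power `n`. -/
theorem Ac_shift {M : Finset (ℤ × ℤ)} {δ : ℝ} (hρ : 0 ≤ ρ) (hδ : 0 ≤ δ) {z z' : E2 × ℝ} {x x' : E2}
    (hd : ∀ m ∈ M, ρ * ‖(z'.1 + z'.2 • gradient h (cen ρ m) + x') -
      (z.1 + z.2 • gradient h (cen ρ m) + x)‖ ≤ δ) :
    Ac n h ρ g S M z x ≤ ENNReal.ofReal ((1 + δ) ^ n) * Ac n h ρ g S M z' x' := by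
  unfold Ac
  rw [mul_left_comm]
  refine mul_le_mul' le_rfl ?_
  rw [Finset.mul_sum]
  refine Finset.sum_le_sum fun m hm => ?_
  rw [← lintegral_const_mul' _ _ ENNReal.ofReal_ne_top]
  refine lintegral_mono fun y => ?_
  rw [← mul_assoc, ← ENNReal.ofReal_mul (by positivity)]
  refine mul_le_mul' (ENNReal.ofReal_le_ofReal (wa_shift hρ hδ n ?_)) le_rfl
  have e : y - z'.1 - z'.2 • gradient h (cen ρ m) - x' -
      (y - z.1 - z.2 • gradient h (cen ρ m) - x) =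
      -((z'.1 + z'.2 • gradient h (cen ρ m) + x') - (z.1 + z.2 • gradient h (cen ρ m) + x)) := by
    abel
  rw [e, norm_neg]
  exact hd m hm

/-- `Ad` along a tube of level `ρ'`: it is enough to follow the cap `m'`. -/
theorem Ad_transport {δ L : ℝ} (hρ : 0 ≤ ρ) (hρ' : 0 ≤ ρ') (hδ : 0 ≤ δ) (hL0 : 0 ≤ L)
    (hL : ∀ ξ ξ', ‖gradient h ξ - gradient h ξ'‖ ≤ L * ‖ξ - ξ'‖) {m' : ℤ × ℤ}
    {z z' : E2 × ℝ} {x x' : E2}
    (hd : ρ * ‖(z'.1 + z'.2 • gradient h (cen ρ' m') + x') -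
      (z.1 + z.2 • gradient h (cen ρ' m') + x)‖ ≤ δ) :
    Ad n h ρ ρ' g S m' z x ≤
      ENNReal.ofReal ((1 + (δ + 3 * L * (ρ * ρ' * |z'.2 - z.2|))) ^ n) * Ad n h ρ ρ' g S m' z' x' := by
  unfold Ad
  refine Ac_shift hρ (by positivity) fun m hm => ?_
  have hn := (mem_nearL.1 hm).2
  unfold Near at hn
  have h1 : ‖gradient h (cen ρ m) - gradient h (cen ρ' m')‖ ≤ L * (3 * ρ') :=
    (hL _ _).trans (mul_le_mul_of_nonneg_left hn.le hL0)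
  have e : (z'.1 + z'.2 • gradient h (cen ρ m) + x') - (z.1 + z.2 • gradient h (cen ρ m) + x) =
      ((z'.1 + z'.2 • gradient h (cen ρ' m') + x') - (z.1 + z.2 • gradient h (cen ρ' m') + x)) +
        (z'.2 - z.2) • (gradient h (cen ρ m) - gradient h (cen ρ' m')) := by
    rw [smul_sub, sub_smul, sub_smul]
    abel
  rw [e]
  refine (mul_le_mul_of_nonneg_left (norm_add_le _ _) hρ).trans ?_
  rw [mul_add, norm_smul, Real.norm_eq_abs]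
  have h2 : ρ * (|z'.2 - z.2| * ‖gradient h (cen ρ m) - gradient h (cen ρ' m')‖) ≤
      ρ * (|z'.2 - z.2| * (L * (3 * ρ'))) := by gcongr
  nlinarith

theorem Ac_le_en {M : Finset (ℤ × ℤ)} (hρ : 0 ≤ ρ) (hM : M ⊆ caps ρ) (z : E2 × ℝ) (x : E2) :
    Ac n h ρ g S M z x ≤ ENNReal.ofReal (ρ ^ 2) * en ρ g S := by
  unfold Ac en
  refine mul_le_mul' le_rfl ((Finset.sum_le_sum fun m hm => ?_).trans
    (Finset.sum_le_sum_of_subset hM))
  refine lintegral_mono fun y => ?_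
  calc ENNReal.ofReal (wa ρ n (y - z.1 - z.2 • gradient h (cen ρ m) - x)) * ‖um ρ g m y‖ₑ ^ 2 ≤
        1 * ‖um ρ g m y‖ₑ ^ 2 := by
        refine mul_le_mul' ?_ le_rfl
        rw [← ENNReal.ofReal_one]
        exact ENNReal.ofReal_le_ofReal (wa_le_one hρ _ _)
    _ = _ := one_mul _

theorem nearL_sub (ρ ρ' : ℝ) (m' : ℤ × ℤ) : nearL ρ ρ' m' ⊆ caps ρ := fun _ hm => (mem_nearL.1 hm).1

theorem Ad_le_en (hρ : 0 ≤ ρ) (m' : ℤ × ℤ) (z : E2 × ℝ) (x : E2) :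
    Ad n h ρ ρ' g S m' z x ≤ ENNReal.ofReal (ρ ^ 2) * en ρ g S := Ac_le_en hρ (nearL_sub _ _ _) z x


open Classical in
/-- sum of densities of families of caps with overlap `K`. -/
theorem sum_Ac_le {β : Type*} (T : Finset β) (N : β → Finset (ℤ × ℤ)) {M : Finset (ℤ × ℤ)} {K : ℕ}
    (hN : ∀ b ∈ T, N b ⊆ M) (hK : ∀ m ∈ M, (T.filter (fun b => m ∈ N b)).card ≤ K) (z : E2 × ℝ)
    (x : E2) : ∑ b ∈ T, Ac n h ρ g S (N b) z x ≤ K * Ac n h ρ g S M z x := by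
  unfold Ac
  rw [← Finset.mul_sum, mul_left_comm]
  refine mul_le_mul' le_rfl ?_
  set a : ℤ × ℤ → ℝ≥0∞ := fun m => ∫⁻ y in S m,
    ENNReal.ofReal (wa ρ n (y - z.1 - z.2 • gradient h (cen ρ m) - x)) * ‖um ρ g m y‖ₑ ^ 2 with ha
  have h1 : ∑ b ∈ T, ∑ m ∈ N b, a m = ∑ m ∈ M, ∑ b ∈ T.filter (fun b => m ∈ N b), a m := by
    refine Finset.sum_comm' fun b m => ?_
    simp only [Finset.mem_filter]
    constructor
    · rintro ⟨hb, hm⟩
      exact ⟨⟨hb, hm⟩, hN b hb hm⟩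
    · rintro ⟨⟨hb, hm⟩, _⟩
      exact ⟨hb, hm⟩
  rw [h1, Finset.mul_sum]
  refine Finset.sum_le_sum fun m hm => ?_
  rw [Finset.sum_const, nsmul_eq_mul]
  exact mul_le_mul' (by exact_mod_cast hK m hm) le_rfl

open Classical in
theorem card_filter_nearL (hρ' : 0 < ρ') {T : Finset (ℤ × ℤ)} (hT : T ⊆ caps ρ') (m : ℤ × ℤ) :
    (T.filter (fun m' => m ∈ nearL ρ ρ' m')).card ≤ 36 := by
  refine (Finset.card_le_card fun m' hm' => ?_).trans (card_nearS (ρ := ρ) hρ' m)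
  obtain ⟨h1, h2⟩ := Finset.mem_filter.1 hm'
  exact mem_nearS.2 ⟨hT h1, (mem_nearL.1 h2).2⟩

theorem sum_Ad_le (hρ' : 0 < ρ') {T : Finset (ℤ × ℤ)} (hT : T ⊆ caps ρ') {M : Finset (ℤ × ℤ)}
    (hM : ∀ m' ∈ T, nearL ρ ρ' m' ⊆ M) (z : E2 × ℝ) (x : E2) :
    ∑ m' ∈ T, Ad n h ρ ρ' g S m' z x ≤ 36 * Ac n h ρ g S M z x := by
  classical
  have := sum_Ac_le (n := n) (h := h) (ρ := ρ) (g := g) (S := S) T (fun m' => nearL ρ ρ' m') hM
    (K := 36) (fun m _ => card_filter_nearL hρ' hT m) z x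
  exact_mod_cast this

open Classical in
/-- **LOWER** (finite counting): `U b` = the rectangle of caps around the member `b` at the point
`(zz b, yy b)`, every cap is in at most `K1` rectangles, every rectangle has at least `p` caps with
density at least `A`, all the tubes pass near the point `(z, x)`. -/
theorem lower {β : Type*} (T : Finset β) (U : β → Finset (ℤ × ℤ)) {K1 p : ℕ} {δ : ℝ} {A : ℝ≥0∞}
    (hρ : 0 ≤ ρ) (hρ' : 0 < ρ') (hδ : 0 ≤ δ) (hU : ∀ b ∈ T, U b ⊆ caps ρ')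
    (hK1 : ∀ m', (T.filter (fun b => m' ∈ U b)).card ≤ K1) (hp : ∀ b ∈ T, p ≤ (U b).card)
    (zz : β → E2 × ℝ) (yy : β → E2) (hA : ∀ b ∈ T, ∀ m' ∈ U b, A ≤ Ad n h ρ ρ' g S m' (zz b) (yy b))
    {z : E2 × ℝ} {x : E2} (hd : ∀ b ∈ T, ∀ m' ∈ U b, ∀ m ∈ nearL ρ ρ' m',
      ρ * ‖(z.1 + z.2 • gradient h (cen ρ m) + x) -
        ((zz b).1 + (zz b).2 • gradient h (cen ρ m) + yy b)‖ ≤ δ)
    {M : Finset (ℤ × ℤ)} (hM : ∀ b ∈ T, ∀ m' ∈ U b, nearL ρ ρ' m' ⊆ M) :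
    (T.card * p : ℝ≥0∞) * A ≤ ENNReal.ofReal ((1 + δ) ^ n) * ((36 * K1 : ℝ≥0∞) *
      Ac n h ρ g S M z x) := by
  have h1 : (T.card * p : ℝ≥0∞) * A ≤ ∑ b ∈ T, ∑ _m' ∈ U b, A := by
    rw [mul_assoc, ← nsmul_eq_mul]
    refine Finset.card_nsmul_le_sum T _ _ fun b hb => ?_
    rw [Finset.sum_const, nsmul_eq_mul]
    exact mul_le_mul' (by exact_mod_cast hp b hb) le_rfl
  have h2 : ∑ b ∈ T, ∑ _m' ∈ U b, A ≤ ∑ b ∈ T, ∑ m' ∈ U b,
      ENNReal.ofReal ((1 + δ) ^ n) * Ad n h ρ ρ' g S m' z x := by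
    refine Finset.sum_le_sum fun b hb => Finset.sum_le_sum fun m' hm' => ?_
    exact (hA b hb m' hm').trans (Ac_shift hρ hδ (hd b hb m' hm'))
  set W := T.biUnion U with hW
  have h3 : ∑ b ∈ T, ∑ m' ∈ U b, ENNReal.ofReal ((1 + δ) ^ n) * Ad n h ρ ρ' g S m' z x ≤
      K1 * ∑ m' ∈ W, ENNReal.ofReal ((1 + δ) ^ n) * Ad n h ρ ρ' g S m' z x := by
    have e : ∑ b ∈ T, ∑ m' ∈ U b, ENNReal.ofReal ((1 + δ) ^ n) * Ad n h ρ ρ' g S m' z x =
        ∑ m' ∈ W, ∑ b ∈ T.filter (fun b => m' ∈ U b),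
          ENNReal.ofReal ((1 + δ) ^ n) * Ad n h ρ ρ' g S m' z x := by
      refine Finset.sum_comm' fun b m' => ?_
      simp only [Finset.mem_filter, hW, Finset.mem_biUnion]
      constructor
      · rintro ⟨hb, hm⟩
        exact ⟨⟨hb, hm⟩, b, hb, hm⟩
      · rintro ⟨⟨hb, hm⟩, _⟩
        exact ⟨hb, hm⟩
    rw [e, Finset.mul_sum]
    refine Finset.sum_le_sum fun m' _ => ?_
    rw [Finset.sum_const, nsmul_eq_mul]
    exact mul_le_mul' (by exact_mod_cast hK1 m') le_rfl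
  have h4 : ∑ m' ∈ W, Ad n h ρ ρ' g S m' z x ≤ 36 * Ac n h ρ g S M z x := by
    refine sum_Ad_le hρ' (fun m' hm' => ?_) (fun m' hm' => ?_) z x
    · obtain ⟨b, hb, hm⟩ := Finset.mem_biUnion.1 hm'
      exact hU b hb hm
    · obtain ⟨b, hb, hm⟩ := Finset.mem_biUnion.1 hm'
      exact hM b hb m' hm
  refine h1.trans (h2.trans (h3.trans ?_))
  rw [← Finset.mul_sum]
  calc (K1 : ℝ≥0∞) * (ENNReal.ofReal ((1 + δ) ^ n) * ∑ m' ∈ W, Ad n h ρ ρ' g S m' z x) ≤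
        K1 * (ENNReal.ofReal ((1 + δ) ^ n) * (36 * Ac n h ρ g S M z x)) := by gcongr
    _ = _ := by ring

end Crest.Agent.R138.Ad480
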