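import Crest.Agent.R138.Sup2_882
import Crest.Agent.R138.Low1_448
import Crest.Agent.R138.Sup6_882

-- ▼ part R138/Sm1_858
section

/-!
# R138 / R139, wave side (helper858): SUPM, part 1

Plates with an anisotropic local energy: one plate.
-/

set_option autoImplicit false

open MeasureTheory FourierTransform
open scoped ContDiff ENNReal

namespace Crest.Agent.R138.Sm858

open Crest.Agent.R138.Defs Crest.Agent.R138.Wf448
open Crest.Agent.R138.Ker858 (rect volume_rect)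
open Crest.Agent.R138.Sup882 (iso U en se dw_iso measurable_U kap kap_pos volume_ball_E2
  measurableSet_rect holder_R norm_iso_apply)
open Crest.Agent.R138.Low448 (fr norm_fr_sq)

/-! ### integrals of the anisotropic weight -/

theorem lint_1d {u : ℝ} (hu : 0 < u) :
    ∫⁻ x : ℝ, ENNReal.ofReal ((1 + (x / u) ^ 2)⁻¹) = ENNReal.ofReal (Real.pi * u) := by
  have hi : Integrable fun x : ℝ => (1 + (x / u) ^ 2)⁻¹ :=
    integrable_inv_one_add_sq.comp_div hu.ne'
  rw [← ofReal_integral_eq_lintegral_ofReal hi (Filter.Eventually.of_forall fun x => by positivity)]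
  congr 1
  have h := MeasureTheory.Measure.integral_comp_div (fun x : ℝ => (1 + x ^ 2)⁻¹) u
  rw [h, integral_univ_inv_one_add_sq, abs_of_pos hu, smul_eq_mul, mul_comm]

theorem lint_frame (b : OrthonormalBasis (Fin 2) ℝ E2) {f g : ℝ → ℝ≥0∞} (hf : Measurable f)
    (hg : Measurable g) :
    ∫⁻ x : E2, f (inner ℝ x (b 0)) * g (inner ℝ x (b 1)) = (∫⁻ s, f s) * ∫⁻ s, g s := by
  have hm : Measurable fun y : Fin 2 → ℝ => f (y 0) * g (y 1) :=
    (hf.comp (measurable_pi_apply 0)).mul (hg.comp (measurable_pi_apply 1))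
  have hm2 : Measurable fun y : E2 => f (y 0) * g (y 1) := by
    have := hm.comp (PiLp.volume_preserving_ofLp (Fin 2)).measurable
    exact this
  have h1 : ∫⁻ x : E2, f (inner ℝ x (b 0)) * g (inner ℝ x (b 1)) =
      ∫⁻ y : E2, f (y 0) * g (y 1) := by
    rw [← b.measurePreserving_repr.lintegral_comp hm2]
    refine lintegral_congr fun x => ?_
    rw [b.repr_apply_apply, b.repr_apply_apply, real_inner_comm x (b 0), real_inner_comm x (b 1)]
  have h2 : ∫⁻ y : E2, f (y 0) * g (y 1) = ∫⁻ y : Fin 2 → ℝ, f (y 0) * g (y 1) :=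
    (PiLp.volume_preserving_ofLp (Fin 2)).lintegral_comp hm
  have h3 : ∫⁻ y : Fin 2 → ℝ, f (y 0) * g (y 1) = ∫⁻ p : ℝ × ℝ, f p.1 * g p.2 :=
    (volume_preserving_finTwoArrow ℝ).lintegral_comp
      (f := fun p : ℝ × ℝ => f p.1 * g p.2) ((hf.comp measurable_fst).mul (hg.comp measurable_snd))
  rw [h1, h2, h3, Measure.volume_eq_prod, lintegral_prod_mul hf.aemeasurable hg.aemeasurable]

theorem dw_fr (n : ℕ) (b : OrthonormalBasis (Fin 2) ℝ E2) (u w : ℝ) (x : E2) :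
    dw n (fr b ![u, w]) x =
      ((1 + ((inner ℝ x (b 0) / u) ^ 2 + (inner ℝ x (b 1) / w) ^ 2)) ^ n)⁻¹ := by
  unfold dw gw
  rw [norm_fr_sq]
  simp only [Matrix.cons_val_zero, Matrix.cons_val_one, Matrix.cons_val_fin_one]

theorem dw_le_prod (n : ℕ) (hn : 2 ≤ n) (b : OrthonormalBasis (Fin 2) ℝ E2) (u w : ℝ) (x : E2) :
    dw n (fr b ![u, w]) x ≤
      (1 + (inner ℝ x (b 0) / u) ^ 2)⁻¹ * (1 + (inner ℝ x (b 1) / w) ^ 2)⁻¹ := by
  rw [dw_fr, ← mul_inv]
  set α := (inner ℝ x (b 0) / u) ^ 2 with hα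
  set β := (inner ℝ x (b 1) / w) ^ 2 with hβ
  have hα0 : 0 ≤ α := sq_nonneg _
  have hβ0 : 0 ≤ β := sq_nonneg _
  refine inv_anti₀ (by positivity) ?_
  calc (1 + α) * (1 + β) ≤ (1 + (α + β)) ^ 2 := by nlinarith [mul_nonneg hα0 hβ0]
    _ ≤ (1 + (α + β)) ^ n := pow_le_pow_right₀ (by linarith) hn

theorem lint_dw (n : ℕ) (hn : 2 ≤ n) (b : OrthonormalBasis (Fin 2) ℝ E2) {u w : ℝ} (hu : 0 < u)
    (hw : 0 < w) (c : E2) :
    ∫⁻ x, ENNReal.ofReal (dw n (fr b ![u, w]) (c - x)) ≤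
      ENNReal.ofReal (Real.pi ^ 2 * (u * w)) := by
  rw [lintegral_sub_left_eq_self (fun x => ENNReal.ofReal (dw n (fr b ![u, w]) x)) c]
  calc ∫⁻ x, ENNReal.ofReal (dw n (fr b ![u, w]) x)
      ≤ ∫⁻ x : E2, ENNReal.ofReal ((1 + (inner ℝ x (b 0) / u) ^ 2)⁻¹) *
          ENNReal.ofReal ((1 + (inner ℝ x (b 1) / w) ^ 2)⁻¹) := by
        refine lintegral_mono fun x => ?_
        rw [← ENNReal.ofReal_mul (by positivity)]
        exact ENNReal.ofReal_le_ofReal (dw_le_prod n hn b u w x)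
    _ = (∫⁻ s : ℝ, ENNReal.ofReal ((1 + (s / u) ^ 2)⁻¹)) *
          ∫⁻ s : ℝ, ENNReal.ofReal ((1 + (s / w) ^ 2)⁻¹) := by
        refine lint_frame b (f := fun s => ENNReal.ofReal ((1 + (s / u) ^ 2)⁻¹))
          (g := fun s => ENNReal.ofReal ((1 + (s / w) ^ 2)⁻¹)) ?_ ?_
        · fun_prop
        · fun_prop
    _ = _ := by
        have hpi := Real.pi_pos
        rw [lint_1d hu, lint_1d hw, ← ENNReal.ofReal_mul (by positivity)]
        congr 1; ring

theorem norm_div_le_fr (b : OrthonormalBasis (Fin 2) ℝ E2) {u w : ℝ} (hu : 0 < u) (huw : u ≤ w)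
    (x : E2) : ‖x‖ / w ≤ ‖fr b ![u, w] x‖ := by
  have hw : 0 < w := hu.trans_le huw
  refine le_of_sq_le_sq ?_ (norm_nonneg _)
  rw [norm_fr_sq, div_pow, Low448.norm_sq_eq b x]
  simp only [Matrix.cons_val_zero, Matrix.cons_val_one, Matrix.cons_val_fin_one]
  rw [add_div, div_pow, div_pow]
  gcongr

/-- **a box is replaced by a ball** for slowly varying densities. -/
theorem box_ball (N : ℕ) {K : ℝ} (hK : 0 ≤ K) (b : OrthonormalBasis (Fin 2) ℝ E2) {u w : ℝ}
    (hu : 0 < u) (huw : u ≤ w) (H : E2 → ℝ≥0∞) (hH : Measurable H)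
    (hs : ∀ x x', H x ≤ ENNReal.ofReal (K * (1 + ‖x - x'‖ / w) ^ N) * H x') (c : E2) :
    ∫⁻ x, ENNReal.ofReal (dw (N + 2) (fr b ![u, w]) (c - x)) * H x ≤
      ENNReal.ofReal (K * 5 ^ N * Real.pi ^ 2 / kap * (u / w)) *
        ∫⁻ x in Metric.closedBall c w, H x := by
  have hw : 0 < w := hu.trans_le huw
  have hκ := kap_pos
  have hpi := Real.pi_pos
  set L := ∫⁻ x, ENNReal.ofReal (dw (N + 2) (fr b ![u, w]) (c - x)) * H x with hL
  have h1 : ∀ x' ∈ Metric.closedBall c w,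
      L ≤ ENNReal.ofReal (K * 5 ^ N * (Real.pi ^ 2 * (u * w))) * H x' := by
    intro x' hx'
    rw [mem_closedBall_iff_norm] at hx'
    calc L ≤ ∫⁻ x, ENNReal.ofReal (K * 5 ^ N) * H x' *
          ENNReal.ofReal (dw 2 (fr b ![u, w]) (c - x)) := by
          refine lintegral_mono fun x => ?_
          refine (mul_le_mul' le_rfl (hs x x')).trans ?_
          rw [← mul_assoc, ← ENNReal.ofReal_mul (dw_pos _ _ _).le, mul_right_comm,
            ← ENNReal.ofReal_mul (by positivity)]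
          refine mul_le_mul' (ENNReal.ofReal_le_ofReal ?_) le_rfl
          set q := ‖fr b ![u, w] (c - x)‖ with hq
          have hq0 : 0 ≤ q := norm_nonneg _
          have h2 : ‖x - x'‖ / w ≤ q + 1 := by
            have h3 := norm_div_le_fr b hu huw (c - x)
            have h4 : ‖x - x'‖ ≤ ‖c - x‖ + ‖x' - c‖ := by
              calc ‖x - x'‖ = ‖(c - x) + (x' - c)‖ := by rw [← norm_neg]; congr 1; abel
                _ ≤ _ := norm_add_le _ _
            calc ‖x - x'‖ / w ≤ (‖c - x‖ + w) / w := by gcongr; linarith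
              _ = ‖c - x‖ / w + 1 := by field_simp
              _ ≤ q + 1 := by linarith
          have h5 : dw (N + 2) (fr b ![u, w]) (c - x) = ((1 + q ^ 2) ^ (N + 2))⁻¹ := rfl
          have h6 : dw 2 (fr b ![u, w]) (c - x) = ((1 + q ^ 2) ^ 2)⁻¹ := rfl
          rw [h5, h6]
          have h7 : (1 + ‖x - x'‖ / w) ^ N ≤ 5 ^ N * (1 + q ^ 2) ^ N := by
            rw [← mul_pow]
            gcongr
            nlinarith [sq_nonneg (q - 1)]
          have h8 : ((1 + q ^ 2) ^ (N + 2))⁻¹ * (K * (5 ^ N * (1 + q ^ 2) ^ N)) =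
              K * 5 ^ N * ((1 + q ^ 2) ^ 2)⁻¹ := by
            rw [pow_add]
            have h9 : (1 + q ^ 2) ^ N ≠ 0 := by positivity
            have h10 : (1 + q ^ 2) ^ 2 ≠ 0 := by positivity
            field_simp
          rw [← h8]
          gcongr
      _ = ENNReal.ofReal (K * 5 ^ N) * H x' *
          ∫⁻ x, ENNReal.ofReal (dw 2 (fr b ![u, w]) (c - x)) := by
          refine lintegral_const_mul _ ?_
          exact ((continuous_dw 2 (fr b ![u, w])).comp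
            (continuous_const.sub continuous_id)).measurable.ennreal_ofReal
      _ ≤ ENNReal.ofReal (K * 5 ^ N) * H x' * ENNReal.ofReal (Real.pi ^ 2 * (u * w)) := by
          gcongr
          exact lint_dw 2 le_rfl b hu hw c
      _ = _ := by
          rw [mul_right_comm, ← ENNReal.ofReal_mul (by positivity)]
  have h2 : ENNReal.ofReal (kap * w ^ 2) * L ≤
      ENNReal.ofReal (K * 5 ^ N * (Real.pi ^ 2 * (u * w))) * ∫⁻ x in Metric.closedBall c w, H x := by
    calc ENNReal.ofReal (kap * w ^ 2) * L = ∫⁻ _x in Metric.closedBall c w, L := by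
          rw [setLIntegral_const, volume_ball_E2 _ hw.le, mul_comm]
      _ ≤ ∫⁻ x in Metric.closedBall c w,
          ENNReal.ofReal (K * 5 ^ N * (Real.pi ^ 2 * (u * w))) * H x :=
          setLIntegral_mono' Metric.isClosed_closedBall.measurableSet h1
      _ = _ := by rw [lintegral_const_mul _ hH]
  have h3 : ENNReal.ofReal (kap * w ^ 2) ≠ 0 := by
    rw [Ne, ENNReal.ofReal_eq_zero, not_le]; positivity
  calc L = (ENNReal.ofReal (kap * w ^ 2))⁻¹ * (ENNReal.ofReal (kap * w ^ 2) * L) := by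
        rw [← mul_assoc, ENNReal.inv_mul_cancel h3 ENNReal.ofReal_ne_top, one_mul]
    _ ≤ (ENNReal.ofReal (kap * w ^ 2))⁻¹ *
      (ENNReal.ofReal (K * 5 ^ N * (Real.pi ^ 2 * (u * w))) *
        ∫⁻ x in Metric.closedBall c w, H x) := by gcongr
    _ = _ := by
        rw [← mul_assoc, ← ENNReal.ofReal_inv_of_pos (by positivity),
          ← ENNReal.ofReal_mul (by positivity)]
        congr 2
        field_simp

/-! ### one plate -/

/-- the local energy of a selection, general weight. -/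
noncomputable def seT (n : ℕ) (T : E2 →L[ℝ] E2) {M : Type} [Fintype M] (a : M → E2 → ℂ)
    (v : M → E2) (g : E2 → ℂ) (S : M → Set E2) (x : E2) (t : ℝ) : ℝ≥0∞ :=
  ∑ m, ∫⁻ y in S m, ENNReal.ofReal (dw n T (y - (x + t • v m))) * U (a m) g y

/-- the energy of a selection. -/
noncomputable def en1 {M : Type} [Fintype M] (a : M → E2 → ℂ) (g : E2 → ℂ) (S : M → Set E2) :
    ℝ≥0∞ := ∑ m, ∫⁻ y in S m, U (a m) g y

theorem en_eq1 {M I : Type} [Fintype M] (a : M → E2 → ℂ) (g : E2 → ℂ) (S : I → M → Set E2)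
    (i : I) : en a g S i = en1 a g (S i) := rfl


theorem measurable_dwT (n : ℕ) (T : E2 →L[ℝ] E2) (u : E2) :
    Measurable fun p : E2 × E2 => ENNReal.ofReal (dw n T (p.2 - (p.1 + u))) :=
  ((continuous_dw n T).comp
    (continuous_snd.sub (continuous_fst.add continuous_const))).measurable.ennreal_ofReal

theorem measurable_dwU (n : ℕ) (T : E2 →L[ℝ] E2) (u : E2) {a : E2 → ℂ} (hs : ContDiff ℝ ∞ a)
    (hc : HasCompactSupport a) {g : E2 → ℂ} (hg : Integrable g) :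
    Measurable fun p : E2 × E2 => ENNReal.ofReal (dw n T (p.2 - (p.1 + u))) * U a g p.2 :=
  (measurable_dwT n T u).mul ((measurable_U hs hc hg).comp measurable_snd)

theorem measurable_seT (n : ℕ) (T : E2 →L[ℝ] E2) {M : Type} [Fintype M] {a : M → E2 → ℂ}
    (v : M → E2) {g : E2 → ℂ} (S : M → Set E2) (t : ℝ) (hs : ∀ m, ContDiff ℝ ∞ (a m))
    (hc : ∀ m, HasCompactSupport (a m)) (hg : Integrable g) :
    Measurable fun x => seT n T a v g S x t := by
  unfold seT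
  refine Finset.measurable_fun_sum _ fun m _ => ?_
  exact (measurable_dwU n T (t • v m) (hs m) (hc m) hg).lintegral_prod_right'

/-- upper bound of the total local energy. -/
theorem int_seT_le (n : ℕ) (hn : 2 ≤ n) (b : OrthonormalBasis (Fin 2) ℝ E2) {u w : ℝ} (hu : 0 < u)
    (hw : 0 < w) {M : Type} [Fintype M] {a : M → E2 → ℂ} {v : M → E2} {g : E2 → ℂ}
    {S : M → Set E2} (hS : ∀ m, MeasurableSet (S m)) (hs : ∀ m, ContDiff ℝ ∞ (a m))
    (hc : ∀ m, HasCompactSupport (a m)) (hg : Integrable g) (t : ℝ) :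
    ∫⁻ x, seT n (fr b ![u, w]) a v g S x t ≤
      ENNReal.ofReal (Real.pi ^ 2 * (u * w)) * en1 a g S := by
  unfold seT en1
  rw [lintegral_finsetSum, Finset.mul_sum]
  · refine Finset.sum_le_sum fun m _ => ?_
    rw [lintegral_lintegral_swap (measurable_dwU n _ (t • v m) (hs m) (hc m) hg).aemeasurable,
      ← lintegral_const_mul' _ _ ENNReal.ofReal_ne_top]
    refine setLIntegral_mono' (hS m) fun y _ => ?_
    have hmx : Measurable fun x => ENNReal.ofReal (dw n (fr b ![u, w]) (y - (x + t • v m))) :=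
      ((continuous_dw n (fr b ![u, w])).comp
        (continuous_const.sub (continuous_id.add continuous_const))).measurable.ennreal_ofReal
    rw [lintegral_mul_const _ hmx]
    refine mul_le_mul_left ?_ _
    have h := lint_dw n hn b hu hw (y - t • v m)
    refine le_trans (le_of_eq (lintegral_congr fun x => ?_)) h
    congr 2
    abel
  · intro m _
    exact (measurable_dwU n _ (t • v m) (hs m) (hc m) hg).lintegral_prod_right'

/-- lower bound of the total local energy on the plate. -/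
theorem int_seT_ge (n : ℕ) {A r u w : ℝ} (hr : 0 < r) (hu : 0 < u) (hw : 0 < w)
    {M : Type} [Fintype M] {a : M → E2 → ℂ} {v : M → E2} {c : E2}
    {b : OrthonormalBasis (Fin 2) ℝ E2} {s : Fin 2 → ℝ} {x0 : E2} {S : M → Set E2}
    (hS : ∀ m, MeasurableSet (S m))
    (hdir : ∀ m, (S m).Nonempty → ∀ j, |inner ℝ (v m - c) (b j)| ≤ A * s j)
    (hpos : ∀ m, ∀ y ∈ S m, ∀ j, |inner ℝ (y - x0) (b j)| ≤ A * (s j * r))
    (hus : u ≤ s 0 * r) (hws : w ≤ s 1 * r)
    {g : E2 → ℂ} (hs : ∀ m, ContDiff ℝ ∞ (a m)) (hc : ∀ m, HasCompactSupport (a m))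
    (hg : Integrable g) (t : ℝ) (ht : |t| ≤ r) :
    ENNReal.ofReal ((3 ^ n)⁻¹ * (4 * (u * w))) * en1 a g S ≤
      ∫⁻ x in rect (x0 - t • c) b (fun j => s j * r) (2 + 2 * A),
        seT n (fr b ![u, w]) a v g S x t := by
  set R := rect (x0 - t • c) b (fun j => s j * r) (2 + 2 * A) with hR
  have hsj : ∀ j : Fin 2, ![u, w] j ≤ s j * r := by
    intro j; fin_cases j <;> simp [hus, hws]
  have hsj0 : ∀ j : Fin 2, 0 < ![u, w] j := by
    intro j; fin_cases j <;> simp [hu, hw]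
  unfold seT en1
  rw [lintegral_finsetSum, Finset.mul_sum]
  · refine Finset.sum_le_sum fun m _ => ?_
    rw [lintegral_lintegral_swap (measurable_dwU n _ (t • v m) (hs m) (hc m) hg).aemeasurable,
      ← lintegral_const_mul' _ _ ENNReal.ofReal_ne_top]
    refine setLIntegral_mono' (hS m) fun y hy => ?_
    have hmx : Measurable fun x => ENNReal.ofReal (dw n (fr b ![u, w]) (y - (x + t • v m))) :=
      ((continuous_dw n (fr b ![u, w])).comp
        (continuous_const.sub (continuous_id.add continuous_const))).measurable.ennreal_ofReal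
    rw [lintegral_mul_const _ hmx]
    refine mul_le_mul_left ?_ _
    have hsub : rect (y - t • v m) b ![u, w] 1 ⊆ R := by
      intro x hx j
      have e : x - (x0 - t • c) = (x - (y - t • v m)) + (y - x0) - t • (v m - c) := by
        rw [smul_sub]; abel
      have hb1 := hx j
      rw [one_mul] at hb1
      have hb2 := hpos m y hy j
      have hb3 := hdir m ⟨y, hy⟩ j
      have hwl := hsj j
      have hwl0 := hsj0 j
      have hb4 : |t| * |inner ℝ (v m - c) (b j)| ≤ A * (s j * r) := by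
        calc |t| * |inner ℝ (v m - c) (b j)| ≤ r * (A * s j) :=
              mul_le_mul ht hb3 (abs_nonneg _) hr.le
          _ = _ := by ring
      rw [e, inner_sub_left, inner_add_left, inner_smul_left]
      simp only [conj_trivial]
      have h2 := abs_sub (inner ℝ (x - (y - t • v m)) (b j) + inner ℝ (y - x0) (b j))
        (t * inner ℝ (v m - c) (b j))
      have h3 := abs_add_le (inner ℝ (x - (y - t • v m)) (b j)) (inner ℝ (y - x0) (b j))
      rw [abs_mul] at h2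
      calc _ ≤ _ := h2
        _ ≤ ![u, w] j + A * (s j * r) + A * (s j * r) := by linarith
        _ < (2 + 2 * A) * (s j * r) := by nlinarith
    have hm1 : MeasurableSet (rect (y - t • v m) b ![u, w] 1) := measurableSet_rect _ _ _ _
    calc ENNReal.ofReal ((3 ^ n)⁻¹ * (4 * (u * w)))
        = ∫⁻ _x in rect (y - t • v m) b ![u, w] 1, ENNReal.ofReal ((3 ^ n)⁻¹) := by
          rw [setLIntegral_const, volume_rect, Fin.prod_univ_two]
          simp only [Matrix.cons_val_zero, Matrix.cons_val_one, Matrix.cons_val_fin_one]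
          rw [← ENNReal.ofReal_mul (by positivity), ← ENNReal.ofReal_mul (by positivity)]
          congr 1; ring
      _ ≤ ∫⁻ x in rect (y - t • v m) b ![u, w] 1,
            ENNReal.ofReal (dw n (fr b ![u, w]) (y - (x + t • v m))) := by
          refine setLIntegral_mono' hm1 fun x hx => ?_
          refine ENNReal.ofReal_le_ofReal ?_
          rw [dw_fr]
          have e1 : y - (x + t • v m) = -(x - (y - t • v m)) := by abel
          rw [e1, inner_neg_left, inner_neg_left, neg_div, neg_div, neg_sq, neg_sq]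
          have h0 := hx 0
          have h1 := hx 1
          simp only [Matrix.cons_val_zero, Matrix.cons_val_one, Matrix.cons_val_fin_one,
            one_mul] at h0 h1
          have h2 : (inner ℝ (x - (y - t • v m)) (b 0) / u) ^ 2 ≤ 1 := by
            rw [sq_le_one_iff_abs_le_one, abs_div, abs_of_pos hu, div_le_one hu]; exact h0.le
          have h3 : (inner ℝ (x - (y - t • v m)) (b 1) / w) ^ 2 ≤ 1 := by
            rw [sq_le_one_iff_abs_le_one, abs_div, abs_of_pos hw, div_le_one hw]; exact h1.le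
          gcongr
          linarith
      _ ≤ _ := lintegral_mono_set hsub
  · intro m _
    exact (measurable_dwU n _ (t • v m) (hs m) (hc m) hg).lintegral_prod_right'

end Crest.Agent.R138.Sm858
end

-- ▼ part R138/Sm2_858
section

/-!
# R138 / R139, wave side (helper858): SUPM, part 2

One plate (Hölder and the multiplicity bound), one frame.
-/

set_option autoImplicit false

open MeasureTheory FourierTransform
open scoped ContDiff ENNReal

namespace Crest.Agent.R138.Sm858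

open Crest.Agent.R138.Defs Crest.Agent.R138.Wf448
open Crest.Agent.R138.Ker858 (rect volume_rect)
open Crest.Agent.R138.Sup882 (iso U en se dw_iso measurable_U kap kap_pos volume_ball_E2
  measurableSet_rect holder_R norm_iso_apply)
open Crest.Agent.R138.Low448 (fr norm_fr_sq)

/-- the box is replaced by the ball for a selection. -/
theorem seT_ball (N : ℕ) {K : ℝ} (hK : 0 ≤ K) (b : OrthonormalBasis (Fin 2) ℝ E2) {u w : ℝ}
    (hu : 0 < u) (huw : u ≤ w)
    {M : Type} [Fintype M] {a : M → E2 → ℂ} {v : M → E2} {g : E2 → ℂ} {S : M → Set E2}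
    (hS : ∀ m, MeasurableSet (S m)) (hs : ∀ m, ContDiff ℝ ∞ (a m))
    (hc : ∀ m, HasCompactSupport (a m)) (hg : Integrable g) (t : ℝ)
    (H : E2 → ℝ≥0∞) (hH : Measurable H)
    (hsl : ∀ x x', H x ≤ ENNReal.ofReal (K * (1 + ‖x - x'‖ / w) ^ N) * H x')
    (T' : Set E2)
    (hsub : ∀ m, ∀ y ∈ S m, Metric.closedBall (y - t • v m) w ⊆ T') :
    ∫⁻ x, seT (N + 2) (fr b ![u, w]) a v g S x t * H x ≤
      ENNReal.ofReal (K * 5 ^ N * Real.pi ^ 2 / kap * (u / w) * 2 ^ N) *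
        ∫⁻ x in T', seT N (iso w) a v g S x t * H x := by
  have hw : 0 < w := hu.trans_le huw
  have hκ := kap_pos
  have hpi := Real.pi_pos
  set C0 : ℝ := K * 5 ^ N * Real.pi ^ 2 / kap * (u / w) with hC0
  have hC00 : 0 ≤ C0 := by positivity
  have hmH : ∀ (n : ℕ) (T : E2 →L[ℝ] E2) (m : M), Measurable fun p : E2 × E2 =>
      ENNReal.ofReal (dw n T (p.2 - (p.1 + t • v m))) * U (a m) g p.2 * H p.1 := fun n T m =>
    (measurable_dwU n T (t • v m) (hs m) (hc m) hg).mul (hH.comp measurable_fst)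
  have hexp : ∀ (n : ℕ) (T : E2 →L[ℝ] E2) (μ : Measure E2) [SFinite μ],
      ∫⁻ x, seT n T a v g S x t * H x ∂μ = ∑ m, ∫⁻ y in S m, ∫⁻ x,
        ENNReal.ofReal (dw n T (y - (x + t • v m))) * U (a m) g y * H x ∂μ := by
    intro n T μ _
    unfold seT
    simp_rw [Finset.sum_mul]
    rw [lintegral_finsetSum]
    · refine Finset.sum_congr rfl fun m _ => ?_
      have h0 := lintegral_lintegral_swap (μ := μ) (ν := volume.restrict (S m))
        (f := fun x y => ENNReal.ofReal (dw n T (y - (x + t • v m))) * U (a m) g y * H x)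
        (hmH n T m).aemeasurable
      rw [← h0]
      refine lintegral_congr fun x => ?_
      exact (lintegral_mul_const (H x) ((measurable_dwU n T (t • v m) (hs m) (hc m) hg).comp
        (measurable_prodMk_left (x := x)))).symm
    · intro m _
      exact ((measurable_dwU n T (t • v m) (hs m) (hc m) hg).lintegral_prod_right').mul hH
  rw [hexp, hexp, Finset.mul_sum]
  refine Finset.sum_le_sum fun m _ => ?_
  rw [← lintegral_const_mul' _ _ ENNReal.ofReal_ne_top]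
  refine setLIntegral_mono' (hS m) fun y hy => ?_
  have h1 := box_ball N hK b hu huw H hH hsl (y - t • v m)
  calc ∫⁻ x, ENNReal.ofReal (dw (N + 2) (fr b ![u, w]) (y - (x + t • v m))) * U (a m) g y * H x
      = U (a m) g y *
        ∫⁻ x, ENNReal.ofReal (dw (N + 2) (fr b ![u, w]) ((y - t • v m) - x)) * H x := by
        rw [← lintegral_const_mul]
        · refine lintegral_congr fun x => ?_
          rw [show y - (x + t • v m) = (y - t • v m) - x by abel]
          ring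
        · exact (((continuous_dw (N + 2) (fr b ![u, w])).comp
            (continuous_const.sub continuous_id)).measurable.ennreal_ofReal).mul hH
    _ ≤ U (a m) g y * (ENNReal.ofReal C0 * ∫⁻ x in Metric.closedBall (y - t • v m) w, H x) := by
        gcongr
    _ ≤ U (a m) g y * (ENNReal.ofReal C0 * ∫⁻ x in Metric.closedBall (y - t • v m) w,
          ENNReal.ofReal (2 ^ N) * (ENNReal.ofReal (dw N (iso w) (y - (x + t • v m))) * H x)) := by
        gcongr U (a m) g y * (ENNReal.ofReal C0 * ?_)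
        refine setLIntegral_mono' Metric.isClosed_closedBall.measurableSet fun x hx => ?_
        rw [← mul_assoc, ← ENNReal.ofReal_mul (by positivity)]
        refine le_mul_of_one_le_left zero_le ?_
        rw [← ENNReal.ofReal_one]
        refine ENNReal.ofReal_le_ofReal ?_
        rw [mem_closedBall_iff_norm] at hx
        rw [dw_iso hw]
        have h4 : ‖y - (x + t • v m)‖ ≤ w := by
          rw [show y - (x + t • v m) = -(x - (y - t • v m)) by abel, norm_neg]; exact hx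
        have h5 : ‖y - (x + t • v m)‖ / w ≤ 1 := by rw [div_le_one hw]; exact h4
        have h6 : (‖y - (x + t • v m)‖ / w) ^ 2 ≤ 1 := pow_le_one₀ (by positivity) h5
        have h7 : (1 + (‖y - (x + t • v m)‖ / w) ^ 2) ^ N ≤ 2 ^ N := by
          gcongr
          linarith
        rw [← div_eq_mul_inv, one_le_div (by positivity)]
        exact h7
    _ ≤ U (a m) g y * (ENNReal.ofReal C0 * ∫⁻ x in T',
          ENNReal.ofReal (2 ^ N) * (ENNReal.ofReal (dw N (iso w) (y - (x + t • v m))) * H x)) := by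
        gcongr U (a m) g y * (ENNReal.ofReal C0 * ?_)
        exact lintegral_mono_set (hsub m y hy)
    _ = _ := by
        have hmm : Measurable fun x => ENNReal.ofReal (dw N (iso w) (y - (x + t • v m))) * H x :=
          (((continuous_dw N (iso w)).comp
            (continuous_const.sub (continuous_id.add continuous_const))).measurable.ennreal_ofReal).mul hH
        rw [lintegral_const_mul _ hmm, ENNReal.ofReal_mul hC00]
        have e : ∫⁻ x in T', ENNReal.ofReal (dw N (iso w) (y - (x + t • v m))) * U (a m) g y * H x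
            = U (a m) g y * ∫⁻ x in T', ENNReal.ofReal (dw N (iso w) (y - (x + t • v m))) * H x := by
          rw [← lintegral_const_mul _ hmm]
          refine lintegral_congr fun x => ?_
          ring
        rw [e]
        ring

theorem rpow_three_half (x : ℝ≥0∞) : x ^ (3 / 2 : ℝ) = x * x ^ (1 / 2 : ℝ) := by
  rw [show (3 / 2 : ℝ) = 1 + 1 / 2 by norm_num,
    ENNReal.rpow_add_of_nonneg _ _ zero_le_one (by norm_num), ENNReal.rpow_one]

theorem ofReal_half {x : ℝ} (hx : 0 ≤ x) :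
    ENNReal.ofReal x ^ (1 / 2 : ℝ) = ENNReal.ofReal (x ^ (1 / 2 : ℝ)) :=
  ENNReal.ofReal_rpow_of_nonneg hx (by norm_num)

/-- **one plate at one time.** -/
theorem one_plate (n : ℕ) {A r u w : ℝ} (hA : 0 ≤ A) (hr : 0 < r) (hu : 0 < u) (hw : 0 < w)
    {M : Type} [Fintype M] {a : M → E2 → ℂ} {v : M → E2} {c : E2}
    {b : OrthonormalBasis (Fin 2) ℝ E2} {s : Fin 2 → ℝ} {x0 : E2} {S : M → Set E2}
    (hS : ∀ m, MeasurableSet (S m))
    (hdir : ∀ m, (S m).Nonempty → ∀ j, |inner ℝ (v m - c) (b j)| ≤ A * s j)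
    (hpos : ∀ m, ∀ y ∈ S m, ∀ j, |inner ℝ (y - x0) (b j)| ≤ A * (s j * r))
    (hus : u ≤ s 0 * r) (hws : w ≤ s 1 * r) (hs0 : ∀ j, 0 < s j)
    {g : E2 → ℂ} (hs : ∀ m, ContDiff ℝ ∞ (a m)) (hc : ∀ m, HasCompactSupport (a m))
    (hg : Integrable g) (t : ℝ) (ht : |t| ≤ r) (G : E2 → ℝ≥0∞) (hG : Measurable G)
    {Mu τ : ℝ} (hMu : 0 ≤ Mu) (hτ : 0 ≤ τ)
    (hH : ∀ x ∈ rect (x0 - t • c) b (fun j => s j * r) (2 + 2 * A),
      seT n (fr b ![u, w]) a v g S x t ≤
        ENNReal.ofReal (u * w) * (ENNReal.ofReal Mu * G x + ENNReal.ofReal τ)) :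
    ENNReal.ofReal ((s 0 * s 1 * r ^ 2) ^ (-(1/2) : ℝ)) * en1 a g S ^ (3 / 2 : ℝ) ≤
      ENNReal.ofReal (4 * (1 + A) * ((3 ^ n)⁻¹ * 4) ^ (-(3 / 2) : ℝ) * (u * w)⁻¹) *
        (ENNReal.ofReal (Mu ^ (1 / 2 : ℝ)) *
            (∫⁻ x, seT n (fr b ![u, w]) a v g S x t * G x ^ (1 / 2 : ℝ)) +
          ENNReal.ofReal (τ ^ (1 / 2 : ℝ)) * ∫⁻ x, seT n (fr b ![u, w]) a v g S x t) := by
  have hs00 := hs0 0
  have hs01 := hs0 1
  have hq : 0 < s 0 * s 1 * r ^ 2 := by positivity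
  set q : ℝ := s 0 * s 1 * r ^ 2 with hqdef
  set c0 : ℝ := (3 ^ n)⁻¹ * 4 with hc0
  have hc00 : 0 < c0 := by positivity
  have huw : 0 < u * w := by positivity
  set f : E2 → ℝ≥0∞ := fun x => seT n (fr b ![u, w]) a v g S x t with hf
  have hfm : Measurable f := measurable_seT n _ v S t hs hc hg
  have h1 := int_seT_ge (a := a) n hr hu hw hS hdir hpos hus hws hs hc hg t ht
  set R := rect (x0 - t • c) b (fun j => s j * r) (2 + 2 * A) with hRdef
  have h2 := holder_R (volume.restrict R) f hfm.aemeasurable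
  have hvol : (volume.restrict R) Set.univ = ENNReal.ofReal (16 * (1 + A) ^ 2 * q) := by
    rw [Measure.restrict_apply_univ, hRdef, volume_rect, Fin.prod_univ_two,
      ← ENNReal.ofReal_mul (by positivity)]
    congr 1; rw [hqdef]; ring
  rw [hvol] at h2
  set X := ENNReal.ofReal (Mu ^ (1 / 2 : ℝ)) * (∫⁻ x, f x * G x ^ (1 / 2 : ℝ)) +
    ENNReal.ofReal (τ ^ (1 / 2 : ℝ)) * ∫⁻ x, f x with hX
  have h3 : ∫⁻ x in R, f x ^ (3 / 2 : ℝ) ≤ ENNReal.ofReal ((u * w) ^ (1 / 2 : ℝ)) * X := by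
    calc ∫⁻ x in R, f x ^ (3 / 2 : ℝ)
        ≤ ∫⁻ x in R, ENNReal.ofReal ((u * w) ^ (1 / 2 : ℝ)) *
            (ENNReal.ofReal (Mu ^ (1 / 2 : ℝ)) * (f x * G x ^ (1 / 2 : ℝ)) +
              ENNReal.ofReal (τ ^ (1 / 2 : ℝ)) * f x) := by
          refine setLIntegral_mono' (measurableSet_rect _ _ _ _) fun x hx => ?_
          rw [rpow_three_half]
          have h4 : f x ^ (1 / 2 : ℝ) ≤ ENNReal.ofReal ((u * w) ^ (1 / 2 : ℝ)) *
              (ENNReal.ofReal (Mu ^ (1 / 2 : ℝ)) * G x ^ (1 / 2 : ℝ) +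
                ENNReal.ofReal (τ ^ (1 / 2 : ℝ))) := by
            calc f x ^ (1 / 2 : ℝ)
                ≤ (ENNReal.ofReal (u * w) *
                    (ENNReal.ofReal Mu * G x + ENNReal.ofReal τ)) ^ (1 / 2 : ℝ) := by
                  gcongr
                  exact hH x hx
              _ = ENNReal.ofReal ((u * w) ^ (1 / 2 : ℝ)) *
                    (ENNReal.ofReal Mu * G x + ENNReal.ofReal τ) ^ (1 / 2 : ℝ) := by
                  rw [ENNReal.mul_rpow_of_nonneg _ _ (by norm_num), ofReal_half huw.le]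
              _ ≤ ENNReal.ofReal ((u * w) ^ (1 / 2 : ℝ)) *
                    ((ENNReal.ofReal Mu * G x) ^ (1 / 2 : ℝ) +
                      (ENNReal.ofReal τ) ^ (1 / 2 : ℝ)) := by
                  gcongr
                  exact ENNReal.rpow_add_le_add_rpow _ _ (by norm_num) (by norm_num)
              _ = _ := by
                  rw [ENNReal.mul_rpow_of_nonneg _ _ (by norm_num), ofReal_half hMu,
                    ofReal_half hτ]
          calc f x * f x ^ (1 / 2 : ℝ) ≤ f x * (ENNReal.ofReal ((u * w) ^ (1 / 2 : ℝ)) *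
              (ENNReal.ofReal (Mu ^ (1 / 2 : ℝ)) * G x ^ (1 / 2 : ℝ) +
                ENNReal.ofReal (τ ^ (1 / 2 : ℝ)))) := by gcongr
            _ = _ := by ring
      _ ≤ ∫⁻ x, ENNReal.ofReal ((u * w) ^ (1 / 2 : ℝ)) *
            (ENNReal.ofReal (Mu ^ (1 / 2 : ℝ)) * (f x * G x ^ (1 / 2 : ℝ)) +
              ENNReal.ofReal (τ ^ (1 / 2 : ℝ)) * f x) := setLIntegral_le_lintegral _ _
      _ = _ := by
          rw [lintegral_const_mul' _ _ ENNReal.ofReal_ne_top, lintegral_add_left]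
          · rw [lintegral_const_mul' _ _ ENNReal.ofReal_ne_top,
              lintegral_const_mul' _ _ ENNReal.ofReal_ne_top]
          · exact (hfm.mul (hG.pow_const _)).const_mul _
  have h5 : ENNReal.ofReal ((c0 * (u * w)) ^ (3 / 2 : ℝ)) * en1 a g S ^ (3 / 2 : ℝ) ≤
      ENNReal.ofReal (4 * (1 + A) * q ^ (1 / 2 : ℝ) * (u * w) ^ (1 / 2 : ℝ)) * X := by
    calc ENNReal.ofReal ((c0 * (u * w)) ^ (3 / 2 : ℝ)) * en1 a g S ^ (3 / 2 : ℝ)
        = (ENNReal.ofReal ((3 ^ n)⁻¹ * (4 * (u * w))) * en1 a g S) ^ (3 / 2 : ℝ) := by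
          rw [ENNReal.mul_rpow_of_nonneg _ _ (by norm_num),
            ENNReal.ofReal_rpow_of_nonneg (by positivity) (by norm_num), hc0]
          congr 3
          ring
      _ ≤ (∫⁻ x in R, f x) ^ (3 / 2 : ℝ) := by gcongr
      _ ≤ _ := h2
      _ ≤ ENNReal.ofReal (16 * (1 + A) ^ 2 * q) ^ (1 / 2 : ℝ) *
            (ENNReal.ofReal ((u * w) ^ (1 / 2 : ℝ)) * X) := by gcongr
      _ = _ := by
          rw [ofReal_half (by positivity), ← mul_assoc, ← ENNReal.ofReal_mul (by positivity)]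
          congr 2
          rw [Real.mul_rpow (by positivity) (by positivity),
            show 16 * (1 + A) ^ 2 = (4 * (1 + A)) ^ 2 by ring, ← Real.sqrt_eq_rpow,
            Real.sqrt_sq (by positivity)]
  have h6 : q ^ (-(1/2) : ℝ) * (c0 * (u * w)) ^ (-(3/2) : ℝ) * (c0 * (u * w)) ^ (3 / 2 : ℝ) =
      q ^ (-(1/2) : ℝ) := by
    rw [mul_assoc, ← Real.rpow_add (by positivity)]
    norm_num
  have h7 : q ^ (-(1/2) : ℝ) * (c0 * (u * w)) ^ (-(3/2) : ℝ) *
      (4 * (1 + A) * q ^ (1 / 2 : ℝ) * (u * w) ^ (1 / 2 : ℝ)) =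
      4 * (1 + A) * c0 ^ (-(3/2) : ℝ) * (u * w)⁻¹ := by
    have e1 : q ^ (-(1/2) : ℝ) * q ^ (1 / 2 : ℝ) = 1 := by
      rw [← Real.rpow_add hq]; norm_num
    have e2 : (u * w) ^ (-(3/2) : ℝ) * (u * w) ^ (1 / 2 : ℝ) = (u * w)⁻¹ := by
      rw [← Real.rpow_add huw, ← Real.rpow_neg_one]; norm_num
    rw [Real.mul_rpow hc00.le huw.le]
    calc _ = 4 * (1 + A) * c0 ^ (-(3/2) : ℝ) * (q ^ (-(1/2) : ℝ) * q ^ (1 / 2 : ℝ)) *
          ((u * w) ^ (-(3/2) : ℝ) * (u * w) ^ (1 / 2 : ℝ)) := by ring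
      _ = _ := by rw [e1, e2, mul_one]
  calc ENNReal.ofReal (q ^ (-(1/2) : ℝ)) * en1 a g S ^ (3 / 2 : ℝ)
      = ENNReal.ofReal (q ^ (-(1/2) : ℝ) * (c0 * (u * w)) ^ (-(3/2) : ℝ)) *
        (ENNReal.ofReal ((c0 * (u * w)) ^ (3 / 2 : ℝ)) * en1 a g S ^ (3 / 2 : ℝ)) := by
        rw [← mul_assoc, ← ENNReal.ofReal_mul (by positivity), h6]
    _ ≤ ENNReal.ofReal (q ^ (-(1/2) : ℝ) * (c0 * (u * w)) ^ (-(3/2) : ℝ)) *
        (ENNReal.ofReal (4 * (1 + A) * q ^ (1 / 2 : ℝ) * (u * w) ^ (1 / 2 : ℝ)) * X) := by gcongr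
    _ = _ := by
        rw [← mul_assoc, ← ENNReal.ofReal_mul (by positivity), h7]

end Crest.Agent.R138.Sm858
end

-- ▼ part R138/Sm3_858
section

/-!
# R138 / R139, wave side (helper858): SUPM, part 3

One frame.
-/

set_option autoImplicit false

open MeasureTheory FourierTransform
open scoped ContDiff ENNReal

namespace Crest.Agent.R138.Sm858

open Crest.Agent.R138.Defs Crest.Agent.R138.Wf448
open Crest.Agent.R138.Ker858 (rect volume_rect)
open Crest.Agent.R138.Sup882 (iso U en se dw_iso measurable_U kap kap_pos measurableSet_rect)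
open Crest.Agent.R138.Low448 (fr norm_fr_sq)

/-- the constant of one plate. -/
noncomputable def kc (N : ℕ) (A : ℝ) : ℝ := 4 * (1 + A) * ((3 ^ (N + 2))⁻¹ * 4) ^ (-(3 / 2) : ℝ)

theorem kc_nonneg (N : ℕ) {A : ℝ} (hA : 0 ≤ A) : 0 ≤ kc N A := by unfold kc; positivity

/-- **one frame, one time.** -/
theorem slice_mult (N : ℕ) {A r u w C1 CG : ℝ} (hA : 0 ≤ A) (hr : 0 < r) (hu : 0 < u) (huw : u ≤ w)
    (hCG : 0 ≤ CG)
    {M I : Type} [Fintype M] [Fintype I] {a : M → E2 → ℂ} {v : M → E2} {c : I → E2}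
    {b : I → OrthonormalBasis (Fin 2) ℝ E2} {s : I → Fin 2 → ℝ} {x0 : I → E2}
    {S : I → M → Set E2}
    (hS : ∀ i m, MeasurableSet (S i m))
    (hdir : ∀ i m, (S i m).Nonempty → ∀ j, |inner ℝ (v m - c i) (b i j)| ≤ A * s i j)
    (hpos : ∀ i m, ∀ y ∈ S i m, ∀ j, |inner ℝ (y - x0 i) (b i j)| ≤ A * (s i j * r))
    (hus : ∀ i, u ≤ s i 0 * r) (hws : ∀ i, w ≤ s i 1 * r) (hs0 : ∀ i j, 0 < s i j)
    {g : E2 → ℂ} (hs : ∀ m, ContDiff ℝ ∞ (a m)) (hc : ∀ m, HasCompactSupport (a m))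
    (hg : Integrable g) (t : ℝ) (ht : |t| ≤ r) (G : E2 → ℝ≥0∞) (hG : Measurable G)
    {Mu τ : ℝ} (hMu : 0 ≤ Mu) (hτ : 0 ≤ τ)
    (hH : ∀ i, ∀ x ∈ rect (x0 i - t • c i) (b i) (fun j => s i j * r) (2 + 2 * A),
      seT (N + 2) (fr (b i) ![u, w]) a v g (S i) x t ≤
        ENNReal.ofReal (u * w) * (ENNReal.ofReal Mu * G x + ENNReal.ofReal τ))
    (hsl : ∀ x x', G x ≤ ENNReal.ofReal (CG * (1 + ‖x - x'‖ / w) ^ (2 * N)) * G x')
    (hsum : ∀ x, ∑ i, se N w a v g S i x t ≤ ENNReal.ofReal (C1 * w ^ 2) * G x)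
    (T' : Set E2) (hsub : ∀ i m, ∀ y ∈ S i m, Metric.closedBall (y - t • v m) w ⊆ T') :
    ∑ i, ENNReal.ofReal ((s i 0 * s i 1 * r ^ 2) ^ (-(1/2) : ℝ)) * en a g S i ^ (3 / 2 : ℝ) ≤
      ENNReal.ofReal (kc N A * (CG ^ (1 / 2 : ℝ) * 5 ^ N * Real.pi ^ 2 / kap * 2 ^ N) * C1 *
          Mu ^ (1 / 2 : ℝ)) * (∫⁻ x in T', G x ^ (3 / 2 : ℝ)) +
        ENNReal.ofReal (kc N A * Real.pi ^ 2 * τ ^ (1 / 2 : ℝ)) * ∑ i, en a g S i := by
  have hw : 0 < w := hu.trans_le huw
  have hκ := kap_pos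
  have hpi := Real.pi_pos
  have hkc := kc_nonneg N hA
  set H : E2 → ℝ≥0∞ := fun x => G x ^ (1 / 2 : ℝ) with hHdef
  have hHm : Measurable H := hG.pow_const _
  have hHs : ∀ x x', H x ≤ ENNReal.ofReal (CG ^ (1 / 2 : ℝ) * (1 + ‖x - x'‖ / w) ^ N) * H x' := by
    intro x x'
    have h1 : H x ≤ (ENNReal.ofReal (CG * (1 + ‖x - x'‖ / w) ^ (2 * N)) * G x') ^ (1 / 2 : ℝ) := by
      rw [hHdef]
      simp only
      gcongr
      exact hsl x x'
    refine h1.trans (le_of_eq ?_)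
    have h2 : 0 ≤ 1 + ‖x - x'‖ / w := by positivity
    rw [ENNReal.mul_rpow_of_nonneg _ _ (by norm_num), ofReal_half (by positivity)]
    congr 2
    rw [Real.mul_rpow hCG (by positivity)]
    congr 1
    rw [mul_comm 2 N, pow_mul, ← Real.sqrt_eq_rpow, Real.sqrt_sq (by positivity)]
  set C3 : ℝ := CG ^ (1 / 2 : ℝ) * 5 ^ N * Real.pi ^ 2 / kap * 2 ^ N with hC3
  have hC30 : 0 ≤ C3 := by positivity
  -- one plate
  have hone : ∀ i, ENNReal.ofReal ((s i 0 * s i 1 * r ^ 2) ^ (-(1/2) : ℝ)) *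
      en a g S i ^ (3 / 2 : ℝ) ≤
      ENNReal.ofReal (kc N A * C3 * Mu ^ (1 / 2 : ℝ) * (w ^ 2)⁻¹) *
        (∫⁻ x in T', se N w a v g S i x t * H x) +
      ENNReal.ofReal (kc N A * Real.pi ^ 2 * τ ^ (1 / 2 : ℝ)) * en a g S i := by
    intro i
    have h1 := one_plate (N + 2) hA hr hu hw (hS i) (hdir i) (hpos i) (hus i) (hws i) (hs0 i) hs hc
      hg t ht G hG hMu hτ (hH i)
    have h2 := seT_ball N (by positivity : 0 ≤ CG ^ (1 / 2 : ℝ)) (b i) hu huw (a := a) (v := v)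
      (hS i) hs hc hg t H hHm hHs T' (hsub i)
    have h3 := int_seT_le (N + 2) (by omega) (b i) hu hw (a := a) (v := v) (hS i) hs hc hg t
    refine h1.trans ?_
    rw [mul_add]
    refine add_le_add ?_ ?_
    · calc ENNReal.ofReal (4 * (1 + A) * ((3 ^ (N + 2))⁻¹ * 4) ^ (-(3 / 2) : ℝ) * (u * w)⁻¹) *
          (ENNReal.ofReal (Mu ^ (1 / 2 : ℝ)) *
            ∫⁻ x, seT (N + 2) (fr (b i) ![u, w]) a v g (S i) x t * G x ^ (1 / 2 : ℝ))
          ≤ ENNReal.ofReal (kc N A * (u * w)⁻¹) * (ENNReal.ofReal (Mu ^ (1 / 2 : ℝ)) *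
            (ENNReal.ofReal (CG ^ (1 / 2 : ℝ) * 5 ^ N * Real.pi ^ 2 / kap * (u / w) * 2 ^ N) *
              ∫⁻ x in T', seT N (iso w) a v g (S i) x t * H x)) := by
            gcongr ENNReal.ofReal ?_ * (ENNReal.ofReal (Mu ^ (1 / 2 : ℝ)) * ?_)
            exact le_rfl
        _ = _ := by
            rw [← mul_assoc, ← mul_assoc, ← ENNReal.ofReal_mul (by positivity),
              ← ENNReal.ofReal_mul (by positivity)]
            congr 2
            rw [hC3]
            field_simp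
    · calc ENNReal.ofReal (4 * (1 + A) * ((3 ^ (N + 2))⁻¹ * 4) ^ (-(3 / 2) : ℝ) * (u * w)⁻¹) *
          (ENNReal.ofReal (τ ^ (1 / 2 : ℝ)) *
            ∫⁻ x, seT (N + 2) (fr (b i) ![u, w]) a v g (S i) x t)
          ≤ ENNReal.ofReal (kc N A * (u * w)⁻¹) * (ENNReal.ofReal (τ ^ (1 / 2 : ℝ)) *
            (ENNReal.ofReal (Real.pi ^ 2 * (u * w)) * en1 a g (S i))) := by
            gcongr ENNReal.ofReal ?_ * (ENNReal.ofReal (τ ^ (1 / 2 : ℝ)) * ?_)
            exact le_rfl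
        _ = _ := by
            rw [← mul_assoc, ← mul_assoc, ← ENNReal.ofReal_mul (by positivity),
              ← ENNReal.ofReal_mul (by positivity), en_eq1]
            congr 2
            field_simp
  have hmse : ∀ i, Measurable fun x => se N w a v g S i x t := fun i =>
    measurable_seT N (iso w) v (S i) t hs hc hg
  calc ∑ i, ENNReal.ofReal ((s i 0 * s i 1 * r ^ 2) ^ (-(1/2) : ℝ)) * en a g S i ^ (3 / 2 : ℝ)
      ≤ ∑ i, (ENNReal.ofReal (kc N A * C3 * Mu ^ (1 / 2 : ℝ) * (w ^ 2)⁻¹) *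
        (∫⁻ x in T', se N w a v g S i x t * H x) +
      ENNReal.ofReal (kc N A * Real.pi ^ 2 * τ ^ (1 / 2 : ℝ)) * en a g S i) :=
        Finset.sum_le_sum fun i _ => hone i
    _ = ENNReal.ofReal (kc N A * C3 * Mu ^ (1 / 2 : ℝ) * (w ^ 2)⁻¹) *
        (∫⁻ x in T', (∑ i, se N w a v g S i x t) * H x) +
        ENNReal.ofReal (kc N A * Real.pi ^ 2 * τ ^ (1 / 2 : ℝ)) * ∑ i, en a g S i := by
        rw [Finset.sum_add_distrib, ← Finset.mul_sum, ← Finset.mul_sum, ← lintegral_finsetSum]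
        · congr 2
          refine lintegral_congr fun x => ?_
          rw [Finset.sum_mul]
        · intro i _
          exact (hmse i).mul hHm
    _ ≤ ENNReal.ofReal (kc N A * C3 * Mu ^ (1 / 2 : ℝ) * (w ^ 2)⁻¹) *
        (∫⁻ x in T', ENNReal.ofReal (C1 * w ^ 2) * G x ^ (3 / 2 : ℝ)) +
        ENNReal.ofReal (kc N A * Real.pi ^ 2 * τ ^ (1 / 2 : ℝ)) * ∑ i, en a g S i := by
        refine add_le_add (mul_le_mul' le_rfl (lintegral_mono fun x => ?_)) le_rfl
        rw [rpow_three_half, ← mul_assoc]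
        exact mul_le_mul' (hsum x) le_rfl
    _ = _ := by
        rw [lintegral_const_mul' _ _ ENNReal.ofReal_ne_top, ← mul_assoc,
          ← ENNReal.ofReal_mul (by positivity)]
        congr 3
        field_simp

/-- **SUPM, one frame.** -/
theorem frame_mult (N : ℕ) {A CG : ℝ} (hA : 0 ≤ A) (hCG : 0 ≤ CG) :
    ∃ C : ℝ, 0 ≤ C ∧ ∀ r w : ℝ, 1 ≤ r → r ^ (1 / 2 : ℝ) ≤ w →
    ∀ (ι I : Type) [Fintype ι] [Fintype I] (a : ι → E2 → ℂ) (v : ι → E2),
    (∀ m, ContDiff ℝ ∞ (a m)) → (∀ m, HasCompactSupport (a m)) →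
    ∀ g : E2 → ℂ, Integrable g →
    ∀ (c : I → E2) (b : I → OrthonormalBasis (Fin 2) ℝ E2) (s : I → Fin 2 → ℝ) (x0 : I → E2)
      (S : I → ι → Set E2),
    (∀ i m, MeasurableSet (S i m)) →
    (∀ i m, (S i m).Nonempty → ∀ j, |inner ℝ (v m - c i) (b i j)| ≤ A * s i j) →
    (∀ i m, ∀ y ∈ S i m, ∀ j, |inner ℝ (y - x0 i) (b i j)| ≤ A * (s i j * r)) →
    (∀ i, r ^ (1 / 2 : ℝ) ≤ s i 0 * r) → (∀ i, w ≤ s i 1 * r) → (∀ i j, 0 < s i j) →
    ∀ T : Set (E2 × ℝ), MeasurableSet T →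
    (∀ i m, ∀ y ∈ S i m, ∀ t, |t| ≤ r → ∀ x ∈ Metric.closedBall (y - t • v m) w, (x, t) ∈ T) →
    ∀ G : E2 × ℝ → ℝ≥0∞, Measurable G →
    (∀ x x' t, G (x, t) ≤ ENNReal.ofReal (CG * (1 + ‖x - x'‖ / w) ^ (2 * N)) * G (x', t)) →
    (∀ x t, |t| ≤ r → ∑ i, se N w a v g S i x t ≤ ENNReal.ofReal (CG * w ^ 2) * G (x, t)) →
    ∀ Mu τ : ℝ, 0 ≤ Mu → 0 ≤ τ →
    (∀ i x t, |t| ≤ r → x ∈ rect (x0 i - t • c i) (b i) (fun j => s i j * r) (2 + 2 * A) →
      seT (N + 2) (fr (b i) ![r ^ (1 / 2 : ℝ), w]) a v g (S i) x t ≤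
        ENNReal.ofReal (r ^ (1 / 2 : ℝ) * w) *
          (ENNReal.ofReal Mu * G (x, t) + ENNReal.ofReal τ)) →
    ∑ i, ENNReal.ofReal (r * (s i 0 * s i 1 * r ^ 2) ^ (-(1/2) : ℝ)) * en a g S i ^ (3 / 2 : ℝ) ≤
      ENNReal.ofReal (C * Mu ^ (1 / 2 : ℝ)) * (∫⁻ z in T, G z ^ (3 / 2 : ℝ)) +
        ENNReal.ofReal (C * τ ^ (1 / 2 : ℝ)) * (ENNReal.ofReal r * ∑ i, en a g S i) := by
  have hκ := kap_pos
  have hpi := Real.pi_pos
  have hkc := kc_nonneg N hA
  set Q1 : ℝ := kc N A * (CG ^ (1 / 2 : ℝ) * 5 ^ N * Real.pi ^ 2 / kap * 2 ^ N) * CG with hQ1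
  set Q2 : ℝ := kc N A * Real.pi ^ 2 with hQ2
  have hQ10 : 0 ≤ Q1 := by positivity
  have hQ20 : 0 ≤ Q2 := by positivity
  refine ⟨Q1 + 2 * Q2, by positivity, ?_⟩
  intro r w hr hw ι I _ _ a v hsm hcp g hg c b s x0 S hS hdir hpos hus hws
    hs0 T hT hTS G hG hsl hsum Mu τ hMu hτ hH
  have hr0 : 0 < r := by linarith
  have hu0 : 0 < r ^ (1 / 2 : ℝ) := Real.rpow_pos_of_pos hr0 _
  have hw0 : 0 < w := hu0.trans_le hw
  set E := ∑ i, en a g S i with hE
  set Y := ∑ i, ENNReal.ofReal ((s i 0 * s i 1 * r ^ 2) ^ (-(1/2) : ℝ)) * en a g S i ^ (3 / 2 : ℝ)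
    with hY
  have hslice : ∀ t ∈ Set.Icc (-r) r, Y ≤ ENNReal.ofReal (Q1 * Mu ^ (1 / 2 : ℝ)) *
      (∫⁻ x, T.indicator (fun z => G z ^ (3 / 2 : ℝ)) (x, t)) +
        ENNReal.ofReal (Q2 * τ ^ (1 / 2 : ℝ)) * E := by
    intro t ht
    have ht' : |t| ≤ r := abs_le.2 ht
    have hTt : MeasurableSet ((fun x : E2 => ((x, t) : E2 × ℝ)) ⁻¹' T) :=
      hT.preimage (measurable_id.prodMk measurable_const)
    have h2 := slice_mult N hA hr0 hu0 hw (C1 := CG) (CG := CG) hCG hS hdir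
      hpos hus hws hs0 hsm hcp hg t ht' (fun x => G (x, t))
      (hG.comp (measurable_id.prodMk measurable_const)) hMu hτ
      (fun i x hx => hH i x t ht' hx) (fun x x' => hsl x x' t)
      (fun x => hsum x t ht')
      ((fun x => ((x, t) : E2 × ℝ)) ⁻¹' T) (fun i m y hy x hx => hTS i m y hy t ht' x hx)
    refine h2.trans (add_le_add (le_of_eq ?_) (le_of_eq ?_))
    · rw [← hQ1, ← lintegral_indicator hTt]
      congr 1
    · rw [← hQ2]
  have hm : Measurable (T.indicator (fun z => G z ^ (3 / 2 : ℝ))) :=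
    (hG.pow_const _).indicator hT
  have hfin : ENNReal.ofReal (2 * r) * Y ≤ ENNReal.ofReal (Q1 * Mu ^ (1 / 2 : ℝ)) *
      (∫⁻ z in T, G z ^ (3 / 2 : ℝ)) +
        ENNReal.ofReal (2 * r) * (ENNReal.ofReal (Q2 * τ ^ (1 / 2 : ℝ)) * E) := by
    calc ENNReal.ofReal (2 * r) * Y = ∫⁻ _t in Set.Icc (-r) r, Y := by
          rw [setLIntegral_const, Real.volume_Icc, mul_comm]
          congr 2; ring
      _ ≤ ∫⁻ t in Set.Icc (-r) r, (ENNReal.ofReal (Q1 * Mu ^ (1 / 2 : ℝ)) *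
            (∫⁻ x, T.indicator (fun z => G z ^ (3 / 2 : ℝ)) (x, t)) +
            ENNReal.ofReal (Q2 * τ ^ (1 / 2 : ℝ)) * E) :=
          setLIntegral_mono' measurableSet_Icc hslice
      _ = ENNReal.ofReal (Q1 * Mu ^ (1 / 2 : ℝ)) * (∫⁻ t in Set.Icc (-r) r,
            ∫⁻ x, T.indicator (fun z => G z ^ (3 / 2 : ℝ)) (x, t)) +
            ENNReal.ofReal (2 * r) * (ENNReal.ofReal (Q2 * τ ^ (1 / 2 : ℝ)) * E) := by
          rw [lintegral_add_right _ measurable_const, lintegral_const_mul' _ _ ENNReal.ofReal_ne_top,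
            setLIntegral_const, Real.volume_Icc, mul_comm (ENNReal.ofReal (Q2 * _) * E)]
          congr 3; ring
      _ ≤ ENNReal.ofReal (Q1 * Mu ^ (1 / 2 : ℝ)) * (∫⁻ t,
            ∫⁻ x, T.indicator (fun z => G z ^ (3 / 2 : ℝ)) (x, t)) +
            ENNReal.ofReal (2 * r) * (ENNReal.ofReal (Q2 * τ ^ (1 / 2 : ℝ)) * E) := by
          gcongr
          exact Measure.restrict_le_self
      _ = _ := by
          rw [← lintegral_indicator hT, Measure.volume_eq_prod, lintegral_prod_symm _ hm.aemeasurable]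
  calc ∑ i, ENNReal.ofReal (r * (s i 0 * s i 1 * r ^ 2) ^ (-(1/2) : ℝ)) * en a g S i ^ (3 / 2 : ℝ)
      = ENNReal.ofReal r * Y := by
        rw [hY, Finset.mul_sum]
        refine Finset.sum_congr rfl fun i _ => ?_
        rw [ENNReal.ofReal_mul hr0.le, mul_assoc]
    _ ≤ ENNReal.ofReal (2 * r) * Y := by
        gcongr
        linarith
    _ ≤ _ := hfin
    _ ≤ _ := by
        have e1 : ENNReal.ofReal (2 * r) * (ENNReal.ofReal (Q2 * τ ^ (1 / 2 : ℝ)) * E) =
            ENNReal.ofReal (2 * Q2 * τ ^ (1 / 2 : ℝ)) * (ENNReal.ofReal r * E) := by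
          rw [← mul_assoc, ← mul_assoc, ← ENNReal.ofReal_mul (by positivity),
            ← ENNReal.ofReal_mul (by positivity)]
          congr 2; ring
        rw [e1]
        gcongr
        · linarith
        · linarith

end Crest.Agent.R138.Sm858
end

-- ▼ part R138/Sm4_858

/-!
# R138 / R139, wave side (helper858): SUPM, part 4

Many frames; literal form over `W188.Plates`.
-/

set_option autoImplicit false

open MeasureTheory FourierTransform
open scoped ContDiff ENNReal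

namespace Crest.Agent.R138.Sm858

open Crest.Agent.R138.Defs Crest.Agent.R138.Wf448
open Crest.Agent.R138.Ker858 (rect volume_rect)
open Crest.Agent.R138.Sup882 (iso U en se dw_iso reg card_sep_le grad_norm_le
  caps_packet norm_cen_le sides_pos)
open Crest.Agent.R138.Wpk685 (cap win cen caps um)
open Crest.Agent.R138.Bn759 (nearId)
open Crest.Agent.R138.W188 (Plate Plates val Sd tr)
open Crest.Agent.R138.Low448 (fr)

/-- bounded overlap of the frames, general density. -/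
theorem sum_framesG {K r R : ℝ} (hr : 0 < r) (hK : 0 ≤ K) (hR : K * r ≤ R)
    (Z : Finset (E2 × ℝ)) (hsep : ∀ x ∈ Z, ∀ y ∈ Z, x ≠ y → r ≤ dist x y)
    (hZ : ∀ x ∈ Z, x ∈ cyl R) (F : E2 × ℝ → ℝ≥0∞) (hm : Measurable F) :
    ∑ z ∈ Z, ∫⁻ p in reg K r, F (p + z) ≤
      ENNReal.ofReal ((2 * K + 2) ^ 3) * ∫⁻ p in cyl (2 * R), F p := by
  classical
  have hreg : MeasurableSet (reg K r) := Metric.isClosed_closedBall.measurableSet
  have hcyl : MeasurableSet (cyl (2 * R)) := by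
    have : cyl (2 * R) = {p : E2 × ℝ | ‖p.1‖ ≤ 2 * R} ∩ {p | |p.2| ≤ 2 * R} := rfl
    rw [this]
    exact (isClosed_le (by fun_prop) continuous_const).measurableSet.inter
      (isClosed_le (by fun_prop) continuous_const).measurableSet
  have e1 : ∀ z, ∫⁻ p in reg K r, F (p + z)
      = ∫⁻ q, (reg K r).indicator (fun _ => (1 : ℝ≥0∞)) (q - z) * F q := by
    intro z
    rw [← lintegral_indicator hreg, ← lintegral_add_right_eq_self
      (fun q => (reg K r).indicator (fun _ => (1 : ℝ≥0∞)) (q - z) * F q) z]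
    refine lintegral_congr fun p => ?_
    rw [add_sub_cancel_right]
    by_cases hp : p ∈ reg K r
    · rw [Set.indicator_of_mem hp, Set.indicator_of_mem hp, one_mul]
    · rw [Set.indicator_of_notMem hp, Set.indicator_of_notMem hp, zero_mul]
  have hind : ∀ z, Measurable fun q : E2 × ℝ => (reg K r).indicator (fun _ => (1 : ℝ≥0∞)) (q - z) :=
    fun z => (measurable_const.indicator hreg).comp (measurable_id.sub_const z)
  simp_rw [e1]
  have hsum := lintegral_finsetSum (μ := (volume : Measure (E2 × ℝ))) Z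
    (f := fun z q => (reg K r).indicator (fun _ => (1 : ℝ≥0∞)) (q - z) * F q)
    (fun z _ => (hind z).mul hm)
  rw [← hsum, ← lintegral_const_mul _ hm, ← lintegral_indicator hcyl]
  refine lintegral_mono fun q => ?_
  rw [← Finset.sum_mul]
  by_cases hq : q ∈ cyl (2 * R)
  · rw [Set.indicator_of_mem hq]
    gcongr
    have h1 : ∑ z ∈ Z, (reg K r).indicator (fun _ => (1 : ℝ≥0∞)) (q - z)
        = ((Z.filter fun z => q - z ∈ reg K r).card : ℝ≥0∞) := by
      rw [Finset.card_filter]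
      push_cast
      refine Finset.sum_congr rfl fun z _ => ?_
      by_cases hz : q - z ∈ reg K r
      · simp [hz]
      · simp [hz]
    rw [h1, ← ENNReal.ofReal_natCast]
    refine ENNReal.ofReal_le_ofReal ?_
    refine card_sep_le hr hK _ ?_ q ?_
    · intro x hx y hy
      exact hsep x (Finset.mem_filter.1 hx).1 y (Finset.mem_filter.1 hy).1
    · intro x hx
      have := (Finset.mem_filter.1 hx).2
      rw [reg, mem_closedBall_zero_iff] at this
      rw [dist_comm, dist_eq_norm]; exact this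
  · rw [Set.indicator_of_notMem hq]
    refine le_of_eq ?_
    rw [Finset.sum_eq_zero, zero_mul]
    intro z hz
    rw [Set.indicator_of_notMem]
    intro hcon
    apply hq
    rw [reg, mem_closedBall_zero_iff, Prod.norm_def, max_le_iff] at hcon
    have hz2 := hZ z hz
    have h3 : ‖q.1‖ ≤ ‖(q - z).1‖ + ‖z.1‖ := by
      calc ‖q.1‖ = ‖(q.1 - z.1) + z.1‖ := by rw [sub_add_cancel]
        _ ≤ _ := norm_add_le _ _
    have h4 : |q.2| ≤ |(q - z).2| + |z.2| := by
      calc |q.2| = |(q.2 - z.2) + z.2| := by rw [sub_add_cancel]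
        _ ≤ _ := abs_add_le _ _
    have h5 : |(q - z).2| ≤ K * r := by simpa using hcon.2
    constructor
    · linarith [hcon.1, hz2.1]
    · linarith [hz2.2]

open Classical in
/-- **SUPM, many frames, abstract form.** -/
theorem frames_mult (N : ℕ) {A CG V X : ℝ} (hA : 0 ≤ A) (hCG : 0 ≤ CG) (hV : 0 ≤ V) (hX : 0 ≤ X) :
    ∃ C : ℝ, 0 ≤ C ∧ ∀ r w R : ℝ, 1 ≤ r → (X + 2 * A + V + 1) * r ≤ R → r ^ (1 / 2 : ℝ) ≤ w →
    w ≤ r → ∀ (ι I K : Type) [Fintype ι] [Fintype I] [Fintype K] (a : ι → E2 → ℂ) (v : ι → E2),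
    (∀ m, ContDiff ℝ ∞ (a m)) → (∀ m, HasCompactSupport (a m)) → (∀ m, ‖v m‖ ≤ V) →
    ∀ γ : E2 × ℝ → E2 → ℂ, (∀ ζ, Integrable (γ ζ)) →
    ∀ (z : I → E2 × ℝ) (c : I → E2) (b : I → OrthonormalBasis (Fin 2) ℝ E2) (s : I → Fin 2 → ℝ)
      (x0 : I → E2) (S : I → ι → Set E2) (κ : I → K),
    (∀ i, z i ∈ cyl R) → (∀ i j, z i ≠ z j → r ≤ dist (z i) (z j)) →
    (∀ i m, MeasurableSet (S i m)) →
    (∀ i m, (S i m).Nonempty → ∀ j, |inner ℝ (v m - c i) (b i j)| ≤ A * s i j) →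
    (∀ i m, ∀ y ∈ S i m, ∀ j, |inner ℝ (y - x0 i) (b i j)| ≤ A * (s i j * r)) →
    (∀ i, r ^ (1 / 2 : ℝ) ≤ s i 0 * r) → (∀ i, w ≤ s i 1 * r) → (∀ i j, 0 < s i j) →
    (∀ i j, s i j ≤ 1) → (∀ i, ‖x0 i‖ ≤ X * r) →
    ∀ G : K → E2 × ℝ → ℝ≥0∞, (∀ k, Measurable (G k)) →
    (∀ k x x' t, G k (x, t) ≤ ENNReal.ofReal (CG * (1 + ‖x - x'‖ / w) ^ (2 * N)) * G k (x', t)) →
    (∀ k ζ x t, |t| ≤ r → ∑ i with κ i = k ∧ z i = ζ, se N w a v (γ ζ) S i x t ≤
      ENNReal.ofReal (CG * w ^ 2) * G k ((x, t) + ζ)) →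
    ∀ Mu τ : ℝ, 0 ≤ Mu → 0 ≤ τ →
    (∀ i x t, |t| ≤ r → x ∈ rect (x0 i - t • c i) (b i) (fun j => s i j * r) (2 + 2 * A) →
      seT (N + 2) (fr (b i) ![r ^ (1 / 2 : ℝ), w]) a v (γ (z i)) (S i) x t ≤
        ENNReal.ofReal (r ^ (1 / 2 : ℝ) * w) *
          (ENNReal.ofReal Mu * G (κ i) ((x, t) + z i) + ENNReal.ofReal τ)) →
    ∑ i, ENNReal.ofReal (r * (s i 0 * s i 1 * r ^ 2) ^ (-(1/2) : ℝ)) *
        en a (γ (z i)) S i ^ (3 / 2 : ℝ) ≤
      ENNReal.ofReal (C * Mu ^ (1 / 2 : ℝ)) * (∑ k, ∫⁻ p in cyl (2 * R), G k p ^ (3 / 2 : ℝ)) +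
        ENNReal.ofReal (C * τ ^ (1 / 2 : ℝ)) *
          (ENNReal.ofReal r * ∑ i, en a (γ (z i)) S i) := by
  obtain ⟨C1, hC1, h1⟩ := frame_mult N hA hCG
  set K0 : ℝ := X + 2 * A + V + 1 with hK0
  have hK01 : 1 ≤ K0 := by rw [hK0]; linarith
  refine ⟨C1 * (2 * K0 + 2) ^ 3, by positivity, ?_⟩
  intro r w R hr hR hw hwr ι I K _ _ _ a v hsm hcp hv γ hγ z c b s x0 S κ hz hsep hmeas
    hdir hpos hus hws hs0 hs1 hx0 G hG hsl hsum Mu τ hMu hτ hH
  have hr0 : 0 < r := by linarith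
  have hreg : MeasurableSet (reg K0 r) := Metric.isClosed_closedBall.measurableSet
  have hK3 : 1 ≤ (2 * K0 + 2) ^ 3 := one_le_pow₀ (by linarith)
  -- sums over a class
  have hJ : ∀ (k : K) (ζ : E2 × ℝ) (f : I → ℝ≥0∞), ∑ i : {i : I // κ i = k ∧ z i = ζ}, f i.1 =
      ∑ i with κ i = k ∧ z i = ζ, f i := by
    intro k ζ f
    symm
    refine Finset.sum_subtype _ ?_ f
    intro i
    simp only [Finset.mem_filter, Finset.mem_univ, true_and]
  -- one frame and one cap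
  have hone : ∀ (k : K) (ζ : E2 × ℝ),
      ∑ i with κ i = k ∧ z i = ζ,
        ENNReal.ofReal (r * (s i 0 * s i 1 * r ^ 2) ^ (-(1/2) : ℝ)) *
        en a (γ (z i)) S i ^ (3 / 2 : ℝ) ≤
      ENNReal.ofReal (C1 * Mu ^ (1 / 2 : ℝ)) * (∫⁻ p in reg K0 r, G k (p + ζ) ^ (3 / 2 : ℝ)) +
        ENNReal.ofReal (C1 * τ ^ (1 / 2 : ℝ)) * (ENNReal.ofReal r *
          ∑ i with κ i = k ∧ z i = ζ, en a (γ (z i)) S i) := by
    intro k ζ
    have h2 := h1 r w hr hw ι {i : I // κ i = k ∧ z i = ζ} a v hsm hcp (γ ζ) (hγ ζ)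
      (fun i => c i.1) (fun i => b i.1) (fun i => s i.1) (fun i => x0 i.1) (fun i => S i.1)
      (fun i => hmeas i.1) (fun i => hdir i.1) (fun i => hpos i.1) (fun i => hus i.1)
      (fun i => hws i.1) (fun i => hs0 i.1) (reg K0 r) hreg
      (by
        intro i m y hy t ht x hx
        rw [reg, mem_closedBall_zero_iff, Prod.norm_def, max_le_iff]
        rw [mem_closedBall_iff_norm] at hx
        have hy1 : ‖y - x0 i.1‖ ≤ 2 * (A * r) := by
          refine Sup882.norm_le_of_inner (b i.1) _ (by positivity) fun j => ?_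
          refine (hpos i.1 m y hy j).trans ?_
          gcongr
          exact mul_le_of_le_one_left hr0.le (hs1 _ _)
        constructor
        · calc ‖x‖ = ‖(x - (y - t • v m)) + (y - x0 i.1) + x0 i.1 - t • v m‖ := by
                congr 1; abel
            _ ≤ ‖(x - (y - t • v m)) + (y - x0 i.1) + x0 i.1‖ + ‖t • v m‖ := norm_sub_le _ _
            _ ≤ (‖x - (y - t • v m)‖ + ‖y - x0 i.1‖ + ‖x0 i.1‖) + |t| * ‖v m‖ := by
                rw [norm_smul, Real.norm_eq_abs]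
                gcongr
                exact norm_add₃_le
            _ ≤ (w + 2 * (A * r) + X * r) + r * V := by
                gcongr
                · exact hx0 _
                · exact hv m
            _ ≤ K0 * r := by rw [hK0]; nlinarith
        · calc ‖((x, t) : E2 × ℝ).2‖ = |t| := rfl
            _ ≤ r := ht
            _ ≤ K0 * r := by nlinarith)
      (fun p => G k (p + ζ)) ((hG k).comp (measurable_id.add_const ζ))
      (by
        intro x x' t
        have h3 := hsl k (x + ζ.1) (x' + ζ.1) (t + ζ.2)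
        rw [add_sub_add_right_eq_sub] at h3
        exact h3)
      (by
        intro x t ht
        refine le_trans (le_of_eq ?_) (hsum k ζ x t ht)
        exact hJ k ζ fun i => se N w a v (γ ζ) S i x t)
      Mu τ hMu hτ
      (by
        intro i x t ht hx
        have h3 := hH i.1 x t ht hx
        rw [i.2.1, i.2.2] at h3
        exact h3)
    have e1 : ∀ f : I → ℝ≥0∞ → ℝ≥0∞, ∑ i with κ i = k ∧ z i = ζ, f i (en a (γ (z i)) S i) =
        ∑ i : {i : I // κ i = k ∧ z i = ζ}, f i.1 (en a (γ ζ) S i.1) := by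
      intro f
      rw [hJ k ζ fun i => f i (en a (γ ζ) S i)]
      refine Finset.sum_congr rfl fun i hi => ?_
      rw [(Finset.mem_filter.1 hi).2.2]
    have e2 := e1 fun i x => ENNReal.ofReal (r * (s i 0 * s i 1 * r ^ 2) ^ (-(1/2) : ℝ)) *
      x ^ (3 / 2 : ℝ)
    have e3 := e1 fun _ x => x
    rw [e2, e3]
    exact h2
  -- sum over the frames and caps
  set Z : Finset (E2 × ℝ) := Finset.univ.image z with hZ
  have hsplit : ∀ f : I → ℝ≥0∞, ∑ i, f i =
      ∑ k : K, ∑ ζ ∈ Z, ∑ i with κ i = k ∧ z i = ζ, f i := by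
    intro f
    rw [← Finset.sum_fiberwise Finset.univ κ f]
    refine Finset.sum_congr rfl fun k _ => ?_
    have h3 := Finset.sum_fiberwise_of_maps_to (s := Finset.univ.filter fun i => κ i = k) (t := Z)
      (g := z) (fun i _ => Finset.mem_image_of_mem z (Finset.mem_univ i)) f
    rw [← h3]
    refine Finset.sum_congr rfl fun ζ _ => ?_
    rw [Finset.filter_filter]
  rw [hsplit fun i => ENNReal.ofReal (r * (s i 0 * s i 1 * r ^ 2) ^ (-(1/2) : ℝ)) *
        en a (γ (z i)) S i ^ (3 / 2 : ℝ), hsplit fun i => en a (γ (z i)) S i]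
  have hfr : ∀ k : K, ∑ ζ ∈ Z, ∫⁻ p in reg K0 r, G k (p + ζ) ^ (3 / 2 : ℝ) ≤
      ENNReal.ofReal ((2 * K0 + 2) ^ 3) * ∫⁻ p in cyl (2 * R), G k p ^ (3 / 2 : ℝ) := by
    intro k
    refine sum_framesG hr0 (by linarith) hR Z ?_ ?_ (fun p => G k p ^ (3 / 2 : ℝ))
      ((hG k).pow_const _)
    · intro x hx y hy hxy
      obtain ⟨i, -, rfl⟩ := Finset.mem_image.1 hx
      obtain ⟨j, -, rfl⟩ := Finset.mem_image.1 hy
      exact hsep i j hxy
    · intro x hx
      obtain ⟨i, -, rfl⟩ := Finset.mem_image.1 hx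
      exact hz i
  calc ∑ k : K, ∑ ζ ∈ Z, ∑ i with κ i = k ∧ z i = ζ,
        ENNReal.ofReal (r * (s i 0 * s i 1 * r ^ 2) ^ (-(1/2) : ℝ)) *
        en a (γ (z i)) S i ^ (3 / 2 : ℝ)
      ≤ ∑ k : K, ∑ ζ ∈ Z, (ENNReal.ofReal (C1 * Mu ^ (1 / 2 : ℝ)) *
          (∫⁻ p in reg K0 r, G k (p + ζ) ^ (3 / 2 : ℝ)) +
        ENNReal.ofReal (C1 * τ ^ (1 / 2 : ℝ)) * (ENNReal.ofReal r *
          ∑ i with κ i = k ∧ z i = ζ, en a (γ (z i)) S i)) :=
        Finset.sum_le_sum fun k _ => Finset.sum_le_sum fun ζ _ => hone k ζ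
    _ = ENNReal.ofReal (C1 * Mu ^ (1 / 2 : ℝ)) *
          (∑ k : K, ∑ ζ ∈ Z, ∫⁻ p in reg K0 r, G k (p + ζ) ^ (3 / 2 : ℝ)) +
        ENNReal.ofReal (C1 * τ ^ (1 / 2 : ℝ)) * (ENNReal.ofReal r *
          ∑ k : K, ∑ ζ ∈ Z, ∑ i with κ i = k ∧ z i = ζ, en a (γ (z i)) S i) := by
        simp only [Finset.sum_add_distrib, Finset.mul_sum]
    _ ≤ ENNReal.ofReal (C1 * Mu ^ (1 / 2 : ℝ)) *
          (∑ k : K, ENNReal.ofReal ((2 * K0 + 2) ^ 3) *
            ∫⁻ p in cyl (2 * R), G k p ^ (3 / 2 : ℝ)) +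
        ENNReal.ofReal (C1 * (2 * K0 + 2) ^ 3 * τ ^ (1 / 2 : ℝ)) * (ENNReal.ofReal r *
          ∑ k : K, ∑ ζ ∈ Z, ∑ i with κ i = k ∧ z i = ζ, en a (γ (z i)) S i) := by
        gcongr with k _
        · exact hfr k
        · exact le_mul_of_one_le_right hC1 hK3
    _ = _ := by
        rw [← Finset.mul_sum, ← mul_assoc, ← ENNReal.ofReal_mul (by positivity)]
        congr 3
        ring

/-- local energy of a selection of packets of level `r`, weight `T`. -/
noncomputable def seP (n : ℕ) (T : E2 →L[ℝ] E2) (h : E2 → ℝ) (r : ℝ) (g : E2 → ℂ)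
    (S : ℤ × ℤ → Set E2) (x : E2) (t : ℝ) : ℝ≥0∞ :=
  ∑ m ∈ caps (r ^ (-(1/2) : ℝ)), ∫⁻ y in S m,
    ENNReal.ofReal (dw n T (y - (x + t • gradient h (cen (r ^ (-(1/2) : ℝ)) m)))) *
      ‖um (r ^ (-(1/2) : ℝ)) g m y‖ₑ ^ 2

theorem U_eq (ρ : ℝ) (g : E2 → ℂ) (m : ℤ × ℤ) (y : E2) :
    U (cap win (cen ρ m) ρ) g y = ‖um ρ g m y‖ₑ ^ 2 := by
  unfold U um
  rw [ENNReal.ofReal_pow (norm_nonneg _), ofReal_norm]

theorem seP_eq (n : ℕ) (T : E2 →L[ℝ] E2) (h : E2 → ℝ) (r : ℝ) (g : E2 → ℂ)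
    (S : ℤ × ℤ → Set E2) (x : E2) (t : ℝ) :
    seP n T h r g S x t = seT n T
      (fun m : {m // m ∈ caps (r ^ (-(1/2) : ℝ))} =>
        cap win (cen (r ^ (-(1/2) : ℝ)) m.1) (r ^ (-(1/2) : ℝ)))
      (fun m => gradient h (cen (r ^ (-(1/2) : ℝ)) m.1)) g (fun m => S m.1) x t := by
  unfold seP seT
  rw [← Finset.sum_coe_sort (caps (r ^ (-(1/2) : ℝ)))]
  refine Finset.sum_congr rfl fun m _ => ?_
  refine lintegral_congr fun y => ?_
  rw [U_eq]

theorem enP_eq (r : ℝ) (g : E2 → ℂ) (S : ℤ × ℤ → Set E2) :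
    Wpk685.en (r ^ (-(1/2) : ℝ)) g S = en1
      (fun m : {m // m ∈ caps (r ^ (-(1/2) : ℝ))} =>
        cap win (cen (r ^ (-(1/2) : ℝ)) m.1) (r ^ (-(1/2) : ℝ))) g (fun m => S m.1) := by
  unfold Wpk685.en en1
  rw [← Finset.sum_coe_sort (caps (r ^ (-(1/2) : ℝ)))]
  refine Finset.sum_congr rfl fun m _ => ?_
  refine lintegral_congr fun y => ?_
  rw [U_eq]


open Classical in
/-- **SUPM**: plates against local densities, with a multiplicity. -/
theorem SUPM (B : ℕ → ℝ) (hB : B 2 ≤ 1 / 10) (A : ℝ) (hA : 1 ≤ A) (N : ℕ) (CG : ℝ)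
    (hCG : 0 ≤ CG) :
    ∃ C : ℝ, 0 ≤ C ∧ ∀ h : E2 → ℝ, ParB B h → fderiv ℝ h 0 = 0 →
    ∀ g : E2 → ℂ, Integrable g →
    ∀ r s1 s2 w R : ℝ, 1 ≤ r → (3 * A + 8) * r ≤ R → Sd r s1 s2 → r ^ (1 / 2 : ℝ) ≤ w → w ≤ s2 * r →
    ∀ (I : Finset ℕ) (P : ℕ → Plate), Plates A h r s1 s2 R I P →
    ∀ (κ : Type) (K : Finset κ) (lab : ℕ → κ), (∀ i ∈ I, lab i ∈ K) →
    ∀ G : κ → E2 × ℝ → ℝ≥0∞, (∀ k ∈ K, Measurable (G k)) →
    (∀ k ∈ K, ∀ x x' t, G k (x, t) ≤
      ENNReal.ofReal (CG * (1 + ‖x - x'‖ / w) ^ (2 * N)) * G k (x', t)) →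
    (∀ k ∈ K, ∀ ζ ∈ cyl R, ∀ x t, |t| ≤ r → ∑ i ∈ I with lab i = k ∧ (P i).z = ζ,
      seP N (iso w) h r (tr h ζ g) (P i).S x t ≤ ENNReal.ofReal (CG * w ^ 2) * G k ((x, t) + ζ)) →
    ∀ Mu τ : ℝ, 0 ≤ Mu → 0 ≤ τ →
    (∀ i ∈ I, ∀ x t, |t| ≤ r →
      x ∈ rect ((P i).x - t • (P i).c) (P i).b (fun j => ![s1, s2] j * r) (2 + 2 * A) →
      seP (N + 2) (fr (P i).b ![r ^ (1 / 2 : ℝ), w]) h r (tr h (P i).z g) (P i).S x t ≤
        ENNReal.ofReal (r ^ (1 / 2 : ℝ) * w) *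
          (ENNReal.ofReal Mu * G (lab i) ((x, t) + (P i).z) + ENNReal.ofReal τ)) →
    val h g r s1 s2 I P ≤
      ENNReal.ofReal (C * Mu ^ (1 / 2 : ℝ)) * (∑ k ∈ K, ∫⁻ p in cyl (2 * R), G k p ^ (3 / 2 : ℝ)) +
        ENNReal.ofReal (C * τ ^ (1 / 2 : ℝ)) * (ENNReal.ofReal r *
          ∑ i ∈ I, Wpk685.en (r ^ (-(1/2) : ℝ)) (tr h (P i).z g) (P i).S) := by
  obtain ⟨C, hC, h1⟩ := frames_mult N (A := A) (CG := CG) (V := 7) (X := A)
    (by linarith) hCG (by norm_num) (by linarith)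
  obtain ⟨W, hW1, hcap⟩ := caps_packet 0
  refine ⟨C, hC, ?_⟩
  intro h hh hh1 g hg r s1 s2 w R hr hR' hs hw hws2 I P hP κ K lab hlab G hG hsl hsum Mu τ hMu hτ hH
  have hn := nearId hB hh
  have hr0 : 0 < r := by linarith
  have hR : (A + 2 * A + 7 + 1) * r ≤ R := by
    rwa [show A + 2 * A + 7 + 1 = 3 * A + 8 by ring]
  obtain ⟨hs1, hs2⟩ := sides_pos hr hs
  set ρ : ℝ := r ^ (-(1/2) : ℝ) with hρdef
  have hρ : 0 < ρ := Real.rpow_pos_of_pos hr0 _
  have hρ1 : ρ ≤ 1 := Real.rpow_le_one_of_one_le_of_nonpos hr (by norm_num)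
  have hwr : w ≤ r := hws2.trans (mul_le_of_le_one_left hr0.le hs.hi)
  have hcaps := hcap h hn r hr 2 le_rfl
  have hsj : ∀ j : Fin 2, 0 < ![s1, s2] j := by
    intro j; fin_cases j <;> simp [hs1, hs2]
  have hsj1 : ∀ j : Fin 2, ![s1, s2] j ≤ 1 := by
    intro j; fin_cases j
    · simp; exact hs.le.trans hs.hi
    · simp; exact hs.hi
  have hfil : ∀ (k : {k // k ∈ K}) (ζ : E2 × ℝ) (f : ℕ → ℝ≥0∞),
      ∑ i : {i // i ∈ I} with (⟨lab i.1, hlab i.1 i.2⟩ : {k // k ∈ K}) = k ∧ (P i.1).z = ζ, f i.1 =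
      ∑ i ∈ I with lab i = k.1 ∧ (P i).z = ζ, f i := by
    intro k ζ f
    rw [Finset.sum_filter, Finset.sum_filter, ← Finset.sum_coe_sort I
      (fun i => if lab i = k.1 ∧ (P i).z = ζ then f i else 0)]
    refine Finset.sum_congr rfl fun i _ => ?_
    simp only [Subtype.ext_iff]
  have hbig := h1 r w R hr hR hw hwr {m // m ∈ caps ρ} {i // i ∈ I} {k // k ∈ K}
    (fun m => cap win (cen ρ m.1) ρ) (fun m => gradient h (cen ρ m.1)) hcaps.smooth hcaps.cpt
    (by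
      intro m
      have h2 := grad_norm_le hn hh1 (cen ρ m.1)
      have h3 := norm_cen_le hρ hρ1 m.2
      linarith)
    (fun ζ => tr h ζ g) (fun ζ => Sup882.tr_integrable hh.1.continuous ζ hg)
    (fun i => (P i.1).z) (fun i => (P i.1).c) (fun i => (P i.1).b) (fun _ => ![s1, s2])
    (fun i => (P i.1).x) (fun i m => (P i.1).S m.1)
    (fun i => ⟨lab i.1, hlab i.1 i.2⟩)
    (fun i => hP.mem i.1 i.2)
    (by
      intro i j hij
      rcases hP.sep i.1 i.2 j.1 j.2 with h2 | h2 | h2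
      · exact absurd h2 hij
      · rw [Prod.dist_eq, dist_eq_norm]; exact le_max_of_le_left h2
      · rw [Prod.dist_eq, Real.dist_eq]; exact le_max_of_le_right h2)
    (fun i m => hP.meas i.1 i.2 m.1)
    (by
      intro i m hne j
      obtain ⟨y, hy⟩ := hne
      exact (hP.box i.1 i.2 m.1 hy).1 j)
    (by
      intro i m y hy j
      refine ((hP.box i.1 i.2 m.1 hy).2 j).trans (le_of_eq ?_)
      ring)
    (by
      intro i
      show r ^ (1 / 2 : ℝ) ≤ s1 * r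
      calc r ^ (1 / 2 : ℝ) = r ^ (-(1/2) : ℝ) * r := by
            rw [← Real.rpow_add_one hr0.ne']; norm_num
        _ ≤ s1 * r := by
            gcongr
            exact hs.lo)
    (fun i => hws2)
    (fun i j => hsj j) (fun i j => hsj1 j)
    (fun i => hP.x i.1 i.2)
    (fun k => G k.1) (fun k => hG k.1 k.2)
    (fun k x x' t => hsl k.1 k.2 x x' t)
    (by
      intro k ζ x t ht
      have e4 : ∀ i : {i // i ∈ I}, se N w (fun m : {m // m ∈ caps ρ} => cap win (cen ρ m.1) ρ)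
          (fun m => gradient h (cen ρ m.1)) (tr h ζ g)
          (fun (i : {i // i ∈ I}) (m : {m // m ∈ caps ρ}) => (P i.1).S m.1) i x t =
          seP N (iso w) h r (tr h ζ g) (P i.1).S x t := fun i => (seP_eq _ _ _ _ _ _ _ _).symm
      have h6 := hfil k ζ fun i => seP N (iso w) h r (tr h ζ g) (P i).S x t
      have h7 : ∑ i ∈ I with lab i = k.1 ∧ (P i).z = ζ, seP N (iso w) h r (tr h ζ g) (P i).S x t ≤
          ENNReal.ofReal (CG * w ^ 2) * G k.1 ((x, t) + ζ) := by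
        by_cases hζ : ζ ∈ cyl R
        · exact hsum k.1 k.2 ζ hζ x t ht
        · rw [Finset.sum_eq_zero]
          · exact zero_le
          · intro i hi
            have h5 := Finset.mem_filter.1 hi
            exact absurd (h5.2.2 ▸ hP.mem i h5.1) hζ
      rw [← h6] at h7
      refine le_trans (le_of_eq ?_) h7
      refine Finset.sum_congr ?_ fun i _ => e4 i
      ext i
      simp only [Finset.mem_filter])
    Mu τ hMu hτ
    (by
      intro i x t ht hx
      have h2 := hH i.1 i.2 x t ht hx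
      rw [seP_eq] at h2
      exact h2)
  have hval : val h g r s1 s2 I P = ∑ i : {i // i ∈ I},
      ENNReal.ofReal (r * (![s1, s2] 0 * ![s1, s2] 1 * r ^ 2) ^ (-(1/2) : ℝ)) *
        en (fun m : {m // m ∈ caps ρ} => cap win (cen ρ m.1) ρ) (tr h (P i.1).z g)
          (fun (i : {i // i ∈ I}) (m : {m // m ∈ caps ρ}) => (P i.1).S m.1) i ^ (3 / 2 : ℝ) := by
    unfold val
    rw [← Finset.sum_coe_sort I]
    refine Finset.sum_congr rfl fun i _ => ?_
    rw [en_eq1, ← enP_eq r (tr h (P i.1).z g) (P i.1).S,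
      ENNReal.mul_rpow_of_nonneg _ _ (by norm_num), ← mul_assoc]
    congr 1
    rw [ENNReal.ofReal_rpow_of_nonneg hr0.le (by norm_num), ← ENNReal.ofReal_mul (by positivity)]
    congr 1
    simp only [Matrix.cons_val_zero, Matrix.cons_val_one, Matrix.cons_val_fin_one]
    rw [show s1 * s2 * r ^ 3 = (s1 * s2 * r ^ 2) * r by ring,
      Real.mul_rpow (by positivity) hr0.le, mul_assoc, ← Real.rpow_add hr0]
    norm_num
    ring
  have hsumen : ∑ i ∈ I, Wpk685.en ρ (tr h (P i).z g) (P i).S =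
      ∑ i : {i // i ∈ I}, en (fun m : {m // m ∈ caps ρ} => cap win (cen ρ m.1) ρ)
        (tr h (P i.1).z g)
        (fun (i : {i // i ∈ I}) (m : {m // m ∈ caps ρ}) => (P i.1).S m.1) i := by
    rw [← Finset.sum_coe_sort I]
    refine Finset.sum_congr rfl fun i _ => ?_
    rw [en_eq1]
    exact enP_eq r (tr h (P i.1).z g) (P i.1).S
  have hsumG : ∑ k ∈ K, ∫⁻ p in cyl (2 * R), G k p ^ (3 / 2 : ℝ) =
      ∑ k : {k // k ∈ K}, ∫⁻ p in cyl (2 * R), G k.1 p ^ (3 / 2 : ℝ) :=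
    (Finset.sum_coe_sort K fun k => ∫⁻ p in cyl (2 * R), G k p ^ (3 / 2 : ℝ)).symm
  rw [hval, hsumen, hsumG]
  exact hbig

end Crest.Agent.R138.Sm858
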