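import Mathlib
import Crest.Agent.R138.Bil6_882
import Crest.Agent.R138.Wf2_448

-- ▼ part R138/Bn1_759
section

/-! R138, broad/narrow end, part 1 (helper759).
Pure combinatorics and abstract measure theory:
* `three_or_strip`: a finite planar set contains a fat triangle or lies in a strip;
* `sum_dich`: a finite sum is dominated by one piece or by two far pieces;
* `bn_abs`: the broad / bilinear / narrow inequality at one ball. -/

set_option autoImplicit false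

open MeasureTheory
open scoped ENNReal

namespace Crest.Agent.R138.Bn759

/-- the plane. -/
abbrev P2 := EuclideanSpace ℝ (Fin 2)

/-- the determinant of two vectors. -/
def dt (v w : P2) : ℝ := v 0 * w 1 - v 1 * w 0

/-- the rotated vector. -/
noncomputable def rot (v : P2) : P2 := WithLp.toLp 2 ![-(v 1), v 0]

lemma inner_eq (v w : P2) : inner ℝ v w = v 0 * w 0 + v 1 * w 1 := by
  simp [PiLp.inner_apply, Fin.sum_univ_two]
  ring

lemma norm_sq (v : P2) : ‖v‖ ^ 2 = v 0 ^ 2 + v 1 ^ 2 := by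
  rw [← real_inner_self_eq_norm_sq, inner_eq]; ring

lemma inner_rot (v w : P2) : inner ℝ w (rot v) = dt v w := by
  rw [inner_eq]; simp [rot, dt]; ring

lemma norm_rot (v : P2) : ‖rot v‖ = ‖v‖ := by
  have : ‖rot v‖ ^ 2 = ‖v‖ ^ 2 := by
    rw [norm_sq, norm_sq]; simp [rot]; ring
  exact (sq_eq_sq₀ (norm_nonneg _) (norm_nonneg _)).1 this

lemma abs_dt_le (v w : P2) : |dt v w| ≤ ‖v‖ * ‖w‖ := by
  rw [← inner_rot, mul_comm]
  calc |inner ℝ w (rot v)| ≤ ‖w‖ * ‖rot v‖ := abs_real_inner_le_norm _ _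
    _ = ‖w‖ * ‖v‖ := by rw [norm_rot]

lemma dt_add_add (v w a b : P2) : dt (v + a) (w + b) = dt v w + dt v b + dt a w + dt a b := by
  simp [dt]; ring

/-- fat triangle: `j` is at distance `≥ ρ` from `i`, `k` is not further from `i` than `j` and at
distance `≥ ρ` from the line `ij`. -/
def Fat (ρ : ℝ) (a b c : P2) : Prop :=
  ρ ≤ ‖b - a‖ ∧ ‖c - a‖ ≤ ‖b - a‖ ∧ ρ * ‖b - a‖ ≤ |dt (b - a) (c - a)|

/-- a fat triangle stays fat under small perturbations. -/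
lemma Fat.dt_ge {ρ : ℝ} (hρ : 0 < ρ) {a b c : P2} (h : Fat ρ a b c) {a' b' c' : P2}
    (ha : ‖a' - a‖ ≤ ρ / 20) (hb : ‖b' - b‖ ≤ ρ / 20) (hc : ‖c' - c‖ ≤ ρ / 20) :
    ρ ^ 2 / 2 ≤ |dt (b' - a') (c' - a')| := by
  obtain ⟨h1, h2, h3⟩ := h
  have e1 : b' - a' = (b - a) + ((b' - b) - (a' - a)) := by abel
  have e2 : c' - a' = (c - a) + ((c' - c) - (a' - a)) := by abel
  have hn1 : ‖(b' - b) - (a' - a)‖ ≤ ρ / 10 := by
    calc _ ≤ ‖b' - b‖ + ‖a' - a‖ := norm_sub_le _ _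
      _ ≤ ρ / 10 := by linarith
  have hn2 : ‖(c' - c) - (a' - a)‖ ≤ ρ / 10 := by
    calc _ ≤ ‖c' - c‖ + ‖a' - a‖ := norm_sub_le _ _
      _ ≤ ρ / 10 := by linarith
  rw [e1, e2, dt_add_add]
  set v := b - a
  set w := c - a
  set x := (b' - b) - (a' - a)
  set y := (c' - c) - (a' - a)
  have q1 : |dt v y| ≤ ‖v‖ * (ρ / 10) :=
    (abs_dt_le v y).trans (mul_le_mul_of_nonneg_left hn2 (norm_nonneg _))
  have q2 : |dt x w| ≤ (ρ / 10) * ‖v‖ :=
    (abs_dt_le x w).trans (mul_le_mul hn1 h2 (norm_nonneg _) (by positivity))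
  have q3 : |dt x y| ≤ (ρ / 10) * (ρ / 10) :=
    (abs_dt_le x y).trans (mul_le_mul hn1 hn2 (norm_nonneg _) (by positivity))
  have hv : 0 ≤ ‖v‖ := norm_nonneg _
  have q4 : ρ * ρ ≤ ρ * ‖v‖ := mul_le_mul_of_nonneg_left h1 hρ.le
  have t1 := abs_le.1 q1
  have t2 := abs_le.1 q2
  have t3 := abs_le.1 q3
  rcases le_abs.1 h3 with h3 | h3
  · refine le_abs.2 (Or.inl ?_)
    nlinarith
  · refine le_abs.2 (Or.inr ?_)
    nlinarith

/-- **fat triangle or strip**. -/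
theorem three_or_strip {ι : Type*} (s : Finset ι) (c : ι → P2) {ρ : ℝ} (hρ : 0 < ρ) :
    (∃ i ∈ s, ∃ j ∈ s, ∃ k ∈ s, Fat ρ (c i) (c j) (c k)) ∨
      ∃ u : P2, ‖u‖ = 1 ∧ ∃ b : ℝ, ∀ i ∈ s, |inner ℝ (c i) u - b| ≤ ρ := by
  classical
  have hu0 : ∃ u : P2, ‖u‖ = 1 := ⟨EuclideanSpace.single 0 1, by simp⟩
  rcases s.eq_empty_or_nonempty with hs | hs
  · subst hs
    obtain ⟨u, hu⟩ := hu0
    exact Or.inr ⟨u, hu, 0, by simp⟩
  · obtain ⟨⟨i, j⟩, hij, hmax⟩ := Finset.exists_max_image (s ×ˢ s)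
      (fun q : ι × ι => ‖c q.2 - c q.1‖) (hs.product hs)
    rw [Finset.mem_product] at hij
    have hmax' : ∀ k ∈ s, ‖c k - c i‖ ≤ ‖c j - c i‖ := fun k hk =>
      hmax (i, k) (Finset.mem_product.2 ⟨hij.1, hk⟩)
    rcases lt_or_ge ‖c j - c i‖ ρ with hd | hd
    · obtain ⟨u, hu⟩ := hu0
      refine Or.inr ⟨u, hu, inner ℝ (c i) u, fun k hk => ?_⟩
      rw [← inner_sub_left]
      calc |inner ℝ (c k - c i) u| ≤ ‖c k - c i‖ * ‖u‖ := abs_real_inner_le_norm _ _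
        _ ≤ ρ := by rw [hu, mul_one]; exact (hmax' k hk).trans hd.le
    · by_cases h : ∃ k ∈ s, ρ * ‖c j - c i‖ ≤ |dt (c j - c i) (c k - c i)|
      · obtain ⟨k, hk, hk'⟩ := h
        exact Or.inl ⟨i, hij.1, j, hij.2, k, hk, hd, hmax' k hk, hk'⟩
      · push Not at h
        have hd0 : 0 < ‖c j - c i‖ := hρ.trans_le hd
        refine Or.inr ⟨(‖c j - c i‖)⁻¹ • rot (c j - c i), ?_,
          inner ℝ (c i) ((‖c j - c i‖)⁻¹ • rot (c j - c i)), fun k hk => ?_⟩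
        · rw [norm_smul, norm_rot, norm_inv, norm_norm, inv_mul_cancel₀ hd0.ne']
        · rw [← inner_sub_left, inner_smul_right, inner_rot, abs_mul, abs_of_pos (inv_pos.2 hd0)]
          rw [inv_mul_le_iff₀ hd0, mul_comm]
          exact (h k hk).le

/-- a finite sum of nonnegative numbers is dominated by one of them or by two far ones. -/
theorem sum_dich {A : Type*} [Fintype A] [Nonempty A] (near : A → A → Prop) (m : ℕ)
    (hnear : ∀ a (s : Finset A), (∀ b ∈ s, near a b) → s.card ≤ m) (x : A → ℝ≥0∞) :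
    (∃ a, ∑ b, x b ≤ (m + 1) * x a) ∨
      ∃ a b, ¬ near a b ∧ (∑ c, x c) ^ 2 ≤ (Fintype.card A : ℝ≥0∞) ^ 3 * (x a * x b) := by
  classical
  obtain ⟨a, -, ha⟩ := Finset.exists_max_image (Finset.univ : Finset A) x Finset.univ_nonempty
  have ha' : ∀ b, x b ≤ x a := fun b => ha b (Finset.mem_univ b)
  have hN : (Fintype.card A : ℝ≥0∞) ≠ 0 := by
    simpa using (Fintype.card_pos (α := A)).ne'
  have hN' : (Fintype.card A : ℝ≥0∞) ≠ ∞ := ENNReal.natCast_ne_top _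
  by_cases h : ∃ b, ¬ near a b ∧ x a ≤ (Fintype.card A : ℝ≥0∞) * x b
  · obtain ⟨b, hb, hb'⟩ := h
    refine Or.inr ⟨a, b, hb, ?_⟩
    have h1 : ∑ c, x c ≤ (Fintype.card A : ℝ≥0∞) * x a := by
      calc ∑ c, x c ≤ ∑ _c : A, x a := Finset.sum_le_sum fun c _ => ha' c
        _ = _ := by simp
    calc (∑ c, x c) ^ 2 ≤ ((Fintype.card A : ℝ≥0∞) * x a) ^ 2 := by gcongr
      _ = (Fintype.card A : ℝ≥0∞) ^ 2 * (x a * x a) := by ring
      _ ≤ (Fintype.card A : ℝ≥0∞) ^ 2 * (x a * ((Fintype.card A : ℝ≥0∞) * x b)) := by gcongr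
      _ = _ := by ring
  · push Not at h
    refine Or.inl ⟨a, ?_⟩
    have hfar : ∑ b ∈ Finset.univ.filter (fun b => ¬ near a b), x b ≤ x a := by
      calc ∑ b ∈ Finset.univ.filter (fun b => ¬ near a b), x b
          ≤ ∑ b ∈ Finset.univ.filter (fun b => ¬ near a b), (Fintype.card A : ℝ≥0∞)⁻¹ * x a := by
            refine Finset.sum_le_sum fun b hb => ?_
            have := (h b (Finset.mem_filter.1 hb).2).le
            rw [mul_comm, ← div_eq_mul_inv, ENNReal.le_div_iff_mul_le (Or.inl hN) (Or.inl hN'),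
              mul_comm]
            exact this
        _ = ((Finset.univ.filter (fun b => ¬ near a b)).card : ℝ≥0∞) *
              ((Fintype.card A : ℝ≥0∞)⁻¹ * x a) := by simp
        _ ≤ (Fintype.card A : ℝ≥0∞) * ((Fintype.card A : ℝ≥0∞)⁻¹ * x a) := by
            gcongr
            exact Finset.card_le_univ _
        _ = x a := by rw [← mul_assoc, ENNReal.mul_inv_cancel hN hN', one_mul]
    have hnr : ∑ b ∈ Finset.univ.filter (fun b => near a b), x b ≤ m * x a := by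
      calc ∑ b ∈ Finset.univ.filter (fun b => near a b), x b
          ≤ ∑ b ∈ Finset.univ.filter (fun b => near a b), x a :=
            Finset.sum_le_sum fun b _ => ha' b
        _ = ((Finset.univ.filter (fun b => near a b)).card : ℝ≥0∞) * x a := by simp
        _ ≤ m * x a := by
            gcongr
            exact hnear a _ fun b hb => (Finset.mem_filter.1 hb).2
    rw [← Finset.sum_filter_add_sum_filter_not Finset.univ (fun b => near a b)]
    calc _ ≤ m * x a + x a := add_le_add hnr hfar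
      _ = _ := by ring

lemma cube_add_le (a b : ℝ≥0∞) : (a + b) ^ 3 ≤ 4 * (a ^ 3 + b ^ 3) := by
  rcases eq_or_ne a ∞ with ha | ha
  · subst ha; simp
  rcases eq_or_ne b ∞ with hb | hb
  · subst hb; simp
  lift a to NNReal using ha
  lift b to NNReal using hb
  norm_cast
  rw [← NNReal.coe_le_coe]
  push_cast
  have h1 : (0:ℝ) ≤ a := a.2
  have h2 : (0:ℝ) ≤ b := b.2
  nlinarith [mul_nonneg h1 h2, mul_nonneg (add_nonneg h1 h2) (sq_nonneg ((a:ℝ) - b))]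

lemma rpow_three_halves_sq (y : ℝ≥0∞) : (y ^ 2) ^ (3 / 2 : ℝ) = y ^ 3 := by
  rw [← ENNReal.rpow_natCast y 2, ← ENNReal.rpow_mul, ← ENNReal.rpow_natCast y 3]
  norm_num

/-- Jensen for the exponent `3/2`. -/
lemma lintegral_three_halves {X : Type*} [MeasurableSpace X] (μ : Measure X)
    [IsProbabilityMeasure μ] {y : X → ℝ≥0∞} (hy : AEMeasurable y μ) :
    ∫⁻ x, y x ^ (3 / 2 : ℝ) ∂μ ≤ (∫⁻ x, y x ^ 2 ∂μ) ^ (3 / 4 : ℝ) := by
  have h := ENNReal.lintegral_mul_le_Lp_mul_Lq μ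
    (p := 4 / 3) (q := 4) ⟨by norm_num, by norm_num, by norm_num⟩
    (f := fun x => y x ^ (3 / 2 : ℝ)) (g := fun _ => 1) (hy.pow_const _) aemeasurable_const
  simp only [Pi.mul_apply, mul_one, ENNReal.one_rpow, lintegral_const, measure_univ] at h
  refine h.trans (le_of_eq ?_)
  have e : ∀ x, (y x ^ (3 / 2 : ℝ)) ^ (4 / 3 : ℝ) = y x ^ 2 := fun x => by
    rw [← ENNReal.rpow_mul, ← ENNReal.rpow_natCast (y x) 2]
    norm_num
  simp only [e]
  norm_num

lemma sum_pair_le {A : Type*} [Fintype A] (y : A × A → ℝ≥0∞) (P : A × A → Prop)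
    [DecidablePred P] (p : A × A) (hp : P p) :
    y p ≤ ∑ q ∈ Finset.univ.filter P, y q :=
  Finset.single_le_sum (f := y) (fun _ _ => bot_le) (by simp [hp])

/-- the pointwise cubic form of the dichotomy. -/
lemma sum_cube_dich {A : Type*} [Fintype A] [Nonempty A] (near : A → A → Prop)
    [DecidableRel near] (m : ℕ)
    (hnear : ∀ a (s : Finset A), (∀ b ∈ s, near a b) → s.card ≤ m) (x F : A → ℝ≥0∞)
    (M0 : ℝ≥0∞) (hxF : ∀ a, x a ≤ F a + M0) :
    (∑ a, x a) ^ 3 ≤ 4 * (m + 1) ^ 3 * (∑ a, F a ^ 3 + M0 ^ 3) +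
      (Fintype.card A : ℝ≥0∞) ^ 5 * ∑ p ∈ Finset.univ.filter (fun p : A × A => ¬ near p.1 p.2),
            (x p.1 * x p.2) ^ (3 / 2 : ℝ) := by
  rcases sum_dich near m hnear x with ⟨a, ha⟩ | ⟨a, b, hab, h⟩
  · refine le_trans ?_ le_self_add
    calc (∑ a, x a) ^ 3 ≤ ((m + 1) * x a) ^ 3 := by gcongr
      _ ≤ ((m + 1) * (F a + M0)) ^ 3 := by gcongr; exact hxF a
      _ = (m + 1) ^ 3 * (F a + M0) ^ 3 := by ring
      _ ≤ (m + 1) ^ 3 * (4 * (F a ^ 3 + M0 ^ 3)) := by gcongr; exact cube_add_le _ _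
      _ ≤ (m + 1) ^ 3 * (4 * (∑ a, F a ^ 3 + M0 ^ 3)) := by
          gcongr
          exact Finset.single_le_sum (f := fun a => F a ^ 3) (fun _ _ => bot_le)
            (Finset.mem_univ a)
      _ = _ := by ring
  · refine le_trans ?_ le_add_self
    have hN1 : (1 : ℝ≥0∞) ≤ (Fintype.card A : ℝ≥0∞) := by
      exact_mod_cast Fintype.card_pos (α := A)
    calc (∑ a, x a) ^ 3 = ((∑ a, x a) ^ 2) ^ (3 / 2 : ℝ) :=
          (rpow_three_halves_sq _).symm
      _ ≤ ((Fintype.card A : ℝ≥0∞) ^ 3 * (x a * x b)) ^ (3 / 2 : ℝ) := by gcongr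
      _ = ((Fintype.card A : ℝ≥0∞) ^ 3) ^ (3 / 2 : ℝ) * (x a * x b) ^ (3 / 2 : ℝ) :=
          ENNReal.mul_rpow_of_nonneg _ _ (by norm_num)
      _ ≤ (Fintype.card A : ℝ≥0∞) ^ 5 * (x a * x b) ^ (3 / 2 : ℝ) := by
          gcongr
          rw [← ENNReal.rpow_natCast _ 3, ← ENNReal.rpow_mul, ← ENNReal.rpow_natCast _ 5]
          exact ENNReal.rpow_le_rpow_of_exponent_le hN1 (by norm_num)
      _ ≤ _ := mul_le_mul_right
          (sum_pair_le (fun p => (x p.1 * x p.2) ^ (3 / 2 : ℝ)) (fun p => ¬ near p.1 p.2) (a, b) hab) _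

set_option maxHeartbeats 1000000 in
/-- **broad / bilinear / narrow at one ball.** -/
theorem bn_abs {X : Type*} [MeasurableSpace X] (μ : Measure X) [IsProbabilityMeasure μ]
    {J A : Type*} [Fintype J] [Nonempty J] [DecidableEq J] [Fintype A] [Nonempty A]
    [DecidableEq A] (α : J → A)
    (near : A → A → Prop) [DecidableRel near] (m : ℕ)
    (hnear : ∀ a (s : Finset A), (∀ b ∈ s, near a b) → s.card ≤ m)
    (c : J → P2) {ρ : ℝ} (hρ : 0 < ρ) (f : J → X → ℂ) (hf : ∀ j, Measurable (f j))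
    (Mx : J → ℝ≥0∞) (hM : ∀ j, ∀ᵐ x ∂μ, ‖f j x‖ₑ ≤ Mx j) (Q C1 C2 : ℝ≥0∞)
    (hQ : ∀ j, Mx j ^ 2 ≤ C1 * Q)
    (hbil : ∀ S : Finset J, (∃ u : P2, ‖u‖ = 1 ∧ ∃ b : ℝ, ∀ j, j ∈ S ↔ |inner ℝ (c j) u - b| ≤ ρ) →
      ∀ a₁ a₂, ¬ near a₁ a₂ →
        ∫⁻ x, (‖∑ j ∈ S.filter (fun j => α j = a₁), f j x‖ₑ *
          ‖∑ j ∈ S.filter (fun j => α j = a₂), f j x‖ₑ) ^ 2 ∂μ ≤ C2 * Q ^ 2)
    (T : Finset (J × J × J)) (hT : ∀ i j k, Fat ρ (c i) (c j) (c k) → (i, j, k) ∈ T) :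
    ∫⁻ x, ‖∑ j, f j x‖ₑ ^ 3 ∂μ ≤
      16 * (m + 1) ^ 3 * ∑ a, ∫⁻ x, ‖∑ j ∈ Finset.univ.filter (fun j => α j = a), f j x‖ₑ ^ 3 ∂μ +
      (20 * (m + 1) ^ 3 * C1 ^ (3 / 2 : ℝ) + 4 * (Fintype.card A : ℝ≥0∞) ^ 7 * C2 ^ (3 / 4 : ℝ)) *
        Q ^ (3 / 2 : ℝ) +
      (Fintype.card J : ℝ≥0∞) ^ 6 * ∑ q ∈ T, Mx q.1 * Mx q.2.1 * Mx q.2.2 := by
  classical
  obtain ⟨j₀, -, hj₀⟩ := Finset.exists_max_image (Finset.univ : Finset J) Mx Finset.univ_nonempty
  have hmax : ∀ j, Mx j ≤ Mx j₀ := fun j => hj₀ j (Finset.mem_univ j)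
  set M0 := Mx j₀ with hM0
  set n : ℝ≥0∞ := (Fintype.card J : ℝ≥0∞) with hn
  have hn0 : n ≠ 0 := by simpa [hn] using (Fintype.card_pos (α := J)).ne'
  have hn1 : n ≠ ∞ := ENNReal.natCast_ne_top _
  have hall : ∀ᵐ x ∂μ, ∀ j, ‖f j x‖ₑ ≤ Mx j := ae_all_iff.2 hM
  have enorm_sum : ∀ (s : Finset J) (x : X), ‖∑ j ∈ s, f j x‖ₑ ≤ ∑ j ∈ s, ‖f j x‖ₑ := fun s x =>
    enorm_sum_le _ _
  rcases three_or_strip (Finset.univ.filter (fun j => M0 ≤ n * Mx j)) c hρ with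
    ⟨i, hi, j, hj, k, hk, hF⟩ | ⟨u, hu, b, hS⟩
  · -- broad case
    refine le_trans ?_ le_add_self
    have hi' := (Finset.mem_filter.1 hi).2
    have hj' := (Finset.mem_filter.1 hj).2
    have hk' := (Finset.mem_filter.1 hk).2
    calc ∫⁻ x, ‖∑ j, f j x‖ₑ ^ 3 ∂μ ≤ ∫⁻ _x, (n * M0) ^ 3 ∂μ := by
          refine lintegral_mono_ae ?_
          filter_upwards [hall] with x hx
          refine pow_le_pow_left' ?_ 3
          calc ‖∑ j, f j x‖ₑ ≤ ∑ j, ‖f j x‖ₑ := enorm_sum _ x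
            _ ≤ ∑ _j : J, M0 := Finset.sum_le_sum fun j _ => (hx j).trans (hmax j)
            _ = n * M0 := by simp [hn]
      _ = n ^ 3 * (M0 * M0 * M0) := by
          rw [lintegral_const, measure_univ, mul_one]; ring
      _ ≤ n ^ 3 * ((n * Mx i) * (n * Mx j) * (n * Mx k)) := by gcongr
      _ = n ^ 6 * (Mx i * Mx j * Mx k) := by ring
      _ ≤ n ^ 6 * ∑ q ∈ T, Mx q.1 * Mx q.2.1 * Mx q.2.2 := by
          gcongr
          exact Finset.single_le_sum (f := fun q : J × J × J => Mx q.1 * Mx q.2.1 * Mx q.2.2)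
            (fun _ _ => bot_le) (hT i j k hF)
  · -- strip case
    refine le_trans ?_ le_self_add
    set S : Finset J := Finset.univ.filter (fun j => |inner ℝ (c j) u - b| ≤ ρ) with hSdef
    have hSS : ∀ j, j ∈ S ↔ |inner ℝ (c j) u - b| ≤ ρ := fun j => by simp [hSdef]
    have hout : ∀ j, j ∉ S → Mx j ≤ n⁻¹ * M0 := fun j hj => by
      have h1 : j ∉ Finset.univ.filter (fun j => M0 ≤ n * Mx j) := fun h => hj ((hSS j).2 (hS j h))
      rw [Finset.mem_filter, not_and, not_le] at h1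
      have h2 := (h1 (Finset.mem_univ j)).le
      rw [mul_comm, ← div_eq_mul_inv, ENNReal.le_div_iff_mul_le (Or.inl hn0) (Or.inl hn1), mul_comm]
      exact h2
    have houts : ∀ s : Finset J, (∀ j ∈ s, j ∉ S) → ∑ j ∈ s, Mx j ≤ M0 := fun s hs => by
      calc ∑ j ∈ s, Mx j ≤ ∑ j ∈ s, n⁻¹ * M0 := Finset.sum_le_sum fun j hj => hout j (hs j hj)
        _ = (s.card : ℝ≥0∞) * (n⁻¹ * M0) := by simp
        _ ≤ n * (n⁻¹ * M0) := by
            have h5 : (s.card : ℝ≥0∞) ≤ n := by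
              rw [hn]; exact_mod_cast Finset.card_le_univ s
            exact mul_le_mul_left h5 _
        _ = M0 := by rw [← mul_assoc, ENNReal.mul_inv_cancel hn0 hn1, one_mul]
    set N : ℝ≥0∞ := (Fintype.card A : ℝ≥0∞) with hN
    set xa : A → X → ℝ≥0∞ := fun a x => ‖∑ j ∈ S.filter (fun j => α j = a), f j x‖ₑ with hxa
    set Fa : A → X → ℝ≥0∞ := fun a x =>
      ‖∑ j ∈ Finset.univ.filter (fun j => α j = a), f j x‖ₑ with hFa
    have hxm : ∀ a, Measurable (xa a) := fun a =>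
      (Finset.measurable_fun_sum _ fun j _ => hf j).enorm
    have hFm : ∀ a, Measurable (Fa a) := fun a =>
      (Finset.measurable_fun_sum _ fun j _ => hf j).enorm
    have hpt : ∀ᵐ x ∂μ, ‖∑ j, f j x‖ₑ ^ 3 ≤ 16 * (m + 1) ^ 3 * ∑ a, Fa a x ^ 3 +
        20 * (m + 1) ^ 3 * M0 ^ 3 +
        4 * N ^ 5 * ∑ p ∈ Finset.univ.filter (fun p : A × A => ¬ near p.1 p.2),
          (xa p.1 x * xa p.2 x) ^ (3 / 2 : ℝ) := by
      filter_upwards [hall] with x hx
      -- the sum is `F_S + F_{S^c}`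
      have h1 : ‖∑ j, f j x‖ₑ ≤ ∑ a, xa a x + M0 := by
        have e : ∑ j, f j x = ∑ a, (∑ j ∈ S.filter (fun j => α j = a), f j x) +
            ∑ j ∈ Sᶜ, f j x := by
          rw [Finset.sum_fiberwise, Finset.sum_add_sum_compl]
        rw [e]
        refine (enorm_add_le _ _).trans (add_le_add (enorm_sum_le _ _) ?_)
        refine (enorm_sum _ _).trans ((Finset.sum_le_sum fun j _ => hx j).trans ?_)
        exact houts _ fun j hj => Finset.mem_compl.1 hj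
      have h2 : ∀ a, xa a x ≤ Fa a x + M0 := fun a => by
        have e : ∑ j ∈ S.filter (fun j => α j = a), f j x =
            ∑ j ∈ Finset.univ.filter (fun j => α j = a), f j x -
              ∑ j ∈ Sᶜ.filter (fun j => α j = a), f j x := by
          rw [eq_sub_iff_add_eq, ← Finset.sum_union]
          · congr 1
            ext j
            simp only [Finset.mem_union, Finset.mem_filter, Finset.mem_compl, Finset.mem_univ,
              true_and]
            tauto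
          · rw [Finset.disjoint_left]
            intro j h1 h2
            simp only [Finset.mem_filter, Finset.mem_compl] at h1 h2
            exact h2.1 h1.1
        simp only [hxa, hFa]
        rw [e]
        refine (enorm_sub_le).trans (add_le_add le_rfl ?_)
        refine (enorm_sum _ _).trans ((Finset.sum_le_sum fun j _ => hx j).trans ?_)
        exact houts _ fun j hj => Finset.mem_compl.1 (Finset.mem_filter.1 hj).1
      have h3 : (∑ a, xa a x) ^ 3 ≤ 4 * (m + 1) ^ 3 * (∑ a, Fa a x ^ 3 + M0 ^ 3) +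
          N ^ 5 * ∑ p ∈ Finset.univ.filter (fun p : A × A => ¬ near p.1 p.2),
            (xa p.1 x * xa p.2 x) ^ (3 / 2 : ℝ) :=
        sum_cube_dich near m hnear (fun a => xa a x) (fun a => Fa a x) M0 h2
      calc ‖∑ j, f j x‖ₑ ^ 3 ≤ (∑ a, xa a x + M0) ^ 3 := by gcongr
        _ ≤ 4 * ((∑ a, xa a x) ^ 3 + M0 ^ 3) := cube_add_le _ _
        _ ≤ 4 * ((4 * (m + 1) ^ 3 * (∑ a, Fa a x ^ 3 + M0 ^ 3) +
          N ^ 5 * ∑ p ∈ Finset.univ.filter (fun p : A × A => ¬ near p.1 p.2),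
            (xa p.1 x * xa p.2 x) ^ (3 / 2 : ℝ)) + (m + 1) ^ 3 * M0 ^ 3) := by
            gcongr
            calc M0 ^ 3 = 1 * M0 ^ 3 := (one_mul _).symm
              _ ≤ (m + 1) ^ 3 * M0 ^ 3 := by
                gcongr
                exact one_le_pow₀ (by simp)
        _ = _ := by ring
    have hM03 : M0 ^ 3 ≤ C1 ^ (3 / 2 : ℝ) * Q ^ (3 / 2 : ℝ) := by
      rw [← rpow_three_halves_sq, ← ENNReal.mul_rpow_of_nonneg _ _ (by norm_num)]
      gcongr
      exact hQ j₀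
    calc ∫⁻ x, ‖∑ j, f j x‖ₑ ^ 3 ∂μ ≤ ∫⁻ x, (16 * (m + 1) ^ 3 * ∑ a, Fa a x ^ 3 +
        20 * (m + 1) ^ 3 * M0 ^ 3 +
        4 * N ^ 5 * ∑ p ∈ Finset.univ.filter (fun p : A × A => ¬ near p.1 p.2),
          (xa p.1 x * xa p.2 x) ^ (3 / 2 : ℝ)) ∂μ := lintegral_mono_ae hpt
      _ = 16 * (m + 1) ^ 3 * ∑ a, ∫⁻ x, Fa a x ^ 3 ∂μ + 20 * (m + 1) ^ 3 * M0 ^ 3 +
          4 * N ^ 5 * ∑ p ∈ Finset.univ.filter (fun p : A × A => ¬ near p.1 p.2),
            ∫⁻ x, (xa p.1 x * xa p.2 x) ^ (3 / 2 : ℝ) ∂μ := by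
          rw [lintegral_add_right, lintegral_add_right, lintegral_const_mul, lintegral_finsetSum,
            lintegral_const, measure_univ, mul_one, lintegral_const_mul, lintegral_finsetSum]
          · exact fun p _ => ((hxm p.1).mul (hxm p.2)).pow_const _
          · exact Finset.measurable_fun_sum _ fun p _ => ((hxm p.1).mul (hxm p.2)).pow_const _
          · exact fun a _ => (hFm a).pow_const _
          · exact Finset.measurable_fun_sum _ fun a _ => (hFm a).pow_const _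
          · exact measurable_const
          · exact (Finset.measurable_fun_sum _ fun p _ =>
              ((hxm p.1).mul (hxm p.2)).pow_const _).const_mul _
      _ ≤ 16 * (m + 1) ^ 3 * ∑ a, ∫⁻ x, Fa a x ^ 3 ∂μ +
          20 * (m + 1) ^ 3 * (C1 ^ (3 / 2 : ℝ) * Q ^ (3 / 2 : ℝ)) +
          4 * N ^ 5 * (N ^ 2 * (C2 ^ (3 / 4 : ℝ) * Q ^ (3 / 2 : ℝ))) := by
          gcongr
          calc ∑ p ∈ Finset.univ.filter (fun p : A × A => ¬ near p.1 p.2),
                ∫⁻ x, (xa p.1 x * xa p.2 x) ^ (3 / 2 : ℝ) ∂μ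
              ≤ ∑ p ∈ Finset.univ.filter (fun p : A × A => ¬ near p.1 p.2),
                C2 ^ (3 / 4 : ℝ) * Q ^ (3 / 2 : ℝ) := by
                refine Finset.sum_le_sum fun p hp => ?_
                have hp' := (Finset.mem_filter.1 hp).2
                refine (lintegral_three_halves μ ((hxm p.1).mul (hxm p.2)).aemeasurable).trans ?_
                calc (∫⁻ x, (xa p.1 x * xa p.2 x) ^ 2 ∂μ) ^ (3 / 4 : ℝ)
                    ≤ (C2 * Q ^ 2) ^ (3 / 4 : ℝ) := by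
                      gcongr
                      exact hbil S ⟨u, hu, b, hSS⟩ p.1 p.2 hp'
                  _ = C2 ^ (3 / 4 : ℝ) * Q ^ (3 / 2 : ℝ) := by
                      rw [ENNReal.mul_rpow_of_nonneg _ _ (by norm_num), ← ENNReal.rpow_natCast Q 2,
                        ← ENNReal.rpow_mul]
                      norm_num
            _ = ((Finset.univ.filter (fun p : A × A => ¬ near p.1 p.2)).card : ℝ≥0∞) *
                (C2 ^ (3 / 4 : ℝ) * Q ^ (3 / 2 : ℝ)) := by simp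
            _ ≤ N ^ 2 * (C2 ^ (3 / 4 : ℝ) * Q ^ (3 / 2 : ℝ)) := by
                gcongr
                have : (Finset.univ.filter (fun p : A × A => ¬ near p.1 p.2)).card ≤
                    Fintype.card A ^ 2 := by
                  refine (Finset.card_le_univ _).trans ?_
                  rw [Fintype.card_prod, sq]
                rw [hN]
                exact_mod_cast this
      _ = _ := by ring

end Crest.Agent.R138.Bn759
end

-- ▼ part R138/Bn2_759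
section

/-! R138, broad/narrow end, part 2 (helper759): the locally constant property of a wave whose
spectrum lies in a ball of radius `A / K`, with an `L¹` average on the right. -/

set_option autoImplicit false

open MeasureTheory SchwartzMap FourierTransform
open scoped FourierTransform SchwartzMap ENNReal

namespace Crest.Agent.R138.Bn759

open Crest.Agent.R138.Defs (E2 ee ext)
open Crest.Agent.R138.Bil882 (wave wt Gam W norm_fst_le norm_snd_le norm_le_add)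

section general

variable {V : Type*} [NormedAddCommGroup V] [InnerProductSpace ℝ V] [FiniteDimensional ℝ V]
  [MeasurableSpace V] [BorelSpace V]

/-- the bump. -/
noncomputable def bmp (V : Type*) [NormedAddCommGroup V] [InnerProductSpace ℝ V]
    [FiniteDimensional ℝ V] (A : ℝ) (hA : 0 ≤ A) : ContDiffBump (0 : V) :=
  ⟨A + 1, A + 2, by linarith, by linarith⟩

/-- the bump as a Schwartz function. -/
noncomputable def bmpS (A : ℝ) (hA : 0 ≤ A) : 𝓢(V, ℂ) :=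
  HasCompactSupport.toSchwartzMap (f := fun ζ : V => ((bmp V A hA ζ : ℝ) : ℂ))
    ((bmp V A hA).hasCompactSupport.comp_left (g := fun r : ℝ => (r : ℂ)) (by simp))
    (Complex.ofRealCLM.contDiff.comp (bmp V A hA).contDiff)

lemma bmpS_one {A : ℝ} (hA : 0 ≤ A) {ζ : V} (h : ‖ζ‖ ≤ A) : (bmpS (V := V) A hA) ζ = 1 := by
  have h1 : (bmpS (V := V) A hA) ζ = ((bmp V A hA ζ : ℝ) : ℂ) := rfl
  rw [h1, (bmp V A hA).one_of_mem_closedBall]
  · simp
  · rw [mem_closedBall_zero_iff]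
    show ‖ζ‖ ≤ A + 1
    linarith

/-- the reproducing kernel. -/
noncomputable def ker (A : ℝ) (hA : 0 ≤ A) (w0 : V) (K : ℝ) (u : V) : ℂ :=
  ((K ^ Module.finrank ℝ V)⁻¹ : ℝ) *
    ((Real.fourierChar (inner ℝ w0 u) : ℂ) * (𝓕⁻ (bmpS (V := V) A hA)) (K⁻¹ • u))

lemma continuous_char (w0 : V) : Continuous fun u : V => (Real.fourierChar (inner ℝ w0 u) : ℂ) := by
  have : Continuous fun t : ℝ => ((Real.fourierChar t : Circle) : ℂ) := by fun_prop
  exact this.comp (by fun_prop)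

lemma continuous_ker (A : ℝ) (hA : 0 ≤ A) (w0 : V) (K : ℝ) :
    Continuous (ker A hA w0 K) := by
  unfold ker
  refine continuous_const.mul ((continuous_char w0).mul ?_)
  exact (SchwartzMap.continuous _).comp (by fun_prop)

lemma ker_bound (N : ℕ) (A : ℝ) (hA : 0 ≤ A) : ∃ C : ℝ, 0 < C ∧ ∀ (w0 : V) (K : ℝ), 0 < K → ∀ u,
    ‖ker A hA w0 K u‖ ≤ C * (K ^ Module.finrank ℝ V)⁻¹ * ((1 + ‖u‖ / K) ^ N)⁻¹ := by
  have h := fun x => SchwartzMap.one_add_le_sup_seminorm_apply (𝕜 := ℝ) (m := (N, 0)) (k := N)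
    (n := 0) le_rfl le_rfl (𝓕⁻ (bmpS (V := V) A hA)) x
  refine ⟨2 ^ N * (Finset.Iic ((N, 0) : ℕ × ℕ)).sup
      (fun m => SchwartzMap.seminorm ℝ m.1 m.2) (𝓕⁻ (bmpS (V := V) A hA)) + 1, by positivity,
      fun w0 K hK u => ?_⟩
  have h1 := h (K⁻¹ • u)
  simp only [norm_iteratedFDeriv_zero] at h1
  have e : ‖K⁻¹ • u‖ = ‖u‖ / K := by
    rw [norm_smul, norm_inv, Real.norm_of_nonneg hK.le]; ring
  rw [e] at h1
  have h2 : ‖ker A hA w0 K u‖ =
      (K ^ Module.finrank ℝ V)⁻¹ * ‖(𝓕⁻ (bmpS (V := V) A hA)) (K⁻¹ • u)‖ := by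
    unfold ker
    rw [norm_mul, norm_mul, Circle.norm_coe, one_mul, Complex.norm_real,
      Real.norm_of_nonneg (by positivity)]
  rw [h2]
  have h3 : 0 < (1 + ‖u‖ / K) ^ N := by positivity
  have h4 : ‖(𝓕⁻ (bmpS (V := V) A hA)) (K⁻¹ • u)‖ ≤
      (2 ^ N * (Finset.Iic ((N, 0) : ℕ × ℕ)).sup
      (fun m => SchwartzMap.seminorm ℝ m.1 m.2) (𝓕⁻ (bmpS (V := V) A hA)) + 1) *
        ((1 + ‖u‖ / K) ^ N)⁻¹ := by
    rw [← div_eq_mul_inv, le_div_iff₀ h3]
    linarith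
  calc _ ≤ (K ^ Module.finrank ℝ V)⁻¹ * ((2 ^ N * (Finset.Iic ((N, 0) : ℕ × ℕ)).sup
      (fun m => SchwartzMap.seminorm ℝ m.1 m.2) (𝓕⁻ (bmpS (V := V) A hA)) + 1) *
        ((1 + ‖u‖ / K) ^ N)⁻¹) := by gcongr
    _ = _ := by ring

lemma integrable_ker (A : ℝ) (hA : 0 ≤ A) (w0 : V) {K : ℝ} (hK : 0 < K) :
    Integrable (ker A hA w0 K) := by
  unfold ker
  refine Integrable.const_mul ?_ _
  have h1 : Integrable fun u : V => (𝓕⁻ (bmpS (V := V) A hA)) (K⁻¹ • u) :=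
    (integrable_comp_smul_iff volume _ (by positivity)).2 (SchwartzMap.integrable _)
  refine h1.norm.mono' ((continuous_char w0).aestronglyMeasurable.mul h1.1)
    (Filter.Eventually.of_forall fun u => ?_)
  rw [norm_mul, Circle.norm_coe, one_mul]

lemma integral_ker (A : ℝ) (hA : 0 ≤ A) (w0 : V) {K : ℝ} (hK : 0 < K) {ξ : V}
    (hξ : ‖ξ - w0‖ ≤ A / K) :
    ∫ u, (Real.fourierChar (-(inner ℝ ξ u)) : ℂ) * ker A hA w0 K u = 1 := by
  have e1 : ∀ u : V, (Real.fourierChar (-(inner ℝ ξ u)) : ℂ) * ker A hA w0 K u =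
      (fun v : V => (((K ^ Module.finrank ℝ V)⁻¹ : ℝ) : ℂ) *
        ((Real.fourierChar (-(inner ℝ v (K • (ξ - w0)))) : ℂ) *
          (𝓕⁻ (bmpS (V := V) A hA)) v)) (K⁻¹ • u) := by
    intro u
    have e2 : inner ℝ (K⁻¹ • u) (K • (ξ - w0)) = inner ℝ ξ u - inner ℝ w0 u := by
      rw [inner_smul_left, inner_smul_right, inner_sub_right, real_inner_comm u ξ,
        real_inner_comm u w0]
      simp
      field_simp
    simp only [ker]
    rw [e2, show -(inner ℝ ξ u - inner ℝ w0 u) = -(inner ℝ ξ u) + inner ℝ w0 u by ring,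
      AddChar.map_add_eq_mul, Circle.coe_mul]
    ring
  have e0 := Measure.integral_comp_smul (volume : Measure V) (fun v : V =>
    (((K ^ Module.finrank ℝ V)⁻¹ : ℝ) : ℂ) *
        ((Real.fourierChar (-(inner ℝ v (K • (ξ - w0)))) : ℂ) *
          (𝓕⁻ (bmpS (V := V) A hA)) v)) K⁻¹
  rw [integral_congr_ae (Filter.Eventually.of_forall e1), e0, integral_const_mul]
  have e3 : ∫ v : V, (Real.fourierChar (-(inner ℝ v (K • (ξ - w0)))) : ℂ) *
          (𝓕⁻ (bmpS (V := V) A hA)) v = 1 := by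
    have h1 : (𝓕 (𝓕⁻ (bmpS (V := V) A hA))) (K • (ξ - w0)) =
        ∫ v : V, (Real.fourierChar (-(inner ℝ v (K • (ξ - w0)))) : ℂ) *
          (𝓕⁻ (bmpS (V := V) A hA)) v := by
      rw [SchwartzMap.fourier_coe, Real.fourier_eq]
      rfl
    rw [← h1, FourierTransform.fourier_fourierInv_eq]
    apply bmpS_one
    rw [norm_smul, Real.norm_of_nonneg hK.le]
    rw [le_div_iff₀ hK] at hξ
    linarith
  rw [e3, mul_one]
  have hp : 0 < K ^ Module.finrank ℝ V := by positivity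
  rw [inv_pow, inv_inv, abs_of_pos hp, Complex.real_smul, ← Complex.ofReal_mul,
    mul_inv_cancel₀ hp.ne', Complex.ofReal_one]

/-- the reproducing formula. -/
theorem wave_repr (μ : Measure V) [IsFiniteMeasure μ] {g : V → ℂ} (hg : Integrable g μ)
    (A : ℝ) (hA : 0 ≤ A) (w0 : V) {K : ℝ} (hK : 0 < K)
    (hs : ∀ ξ, g ξ ≠ 0 → ‖ξ - w0‖ ≤ A / K) (x : V) :
    wave μ g x = ∫ u, ker A hA w0 K u * wave μ g (x - u) := by
  unfold wave
  have h1 : ∀ ξ : V, (Real.fourierChar (inner ℝ ξ x) : ℂ) * g ξ =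
      ∫ u, ker A hA w0 K u * ((Real.fourierChar (inner ℝ ξ (x - u)) : ℂ) * g ξ) := by
    intro ξ
    by_cases h0 : g ξ = 0
    · simp [h0]
    · have e : ∀ u, ker A hA w0 K u * ((Real.fourierChar (inner ℝ ξ (x - u)) : ℂ) * g ξ) =
          ((Real.fourierChar (inner ℝ ξ x) : ℂ) * g ξ) *
            ((Real.fourierChar (-(inner ℝ ξ u)) : ℂ) * ker A hA w0 K u) := by
        intro u
        rw [inner_sub_right, sub_eq_add_neg, AddChar.map_add_eq_mul, Circle.coe_mul]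
        ring
      simp_rw [e]
      rw [integral_const_mul, integral_ker A hA w0 hK (hs ξ h0), mul_one]
  simp_rw [← integral_const_mul]
  rw [← integral_integral_swap]
  · exact integral_congr_ae (Filter.Eventually.of_forall fun ξ => h1 ξ)
  · have i1 : Integrable (fun p : V × V => g p.1 * ker A hA w0 K p.2) (μ.prod volume) :=
      hg.mul_prod (integrable_ker A hA w0 hK)
    refine i1.norm.mono' ?_ (Filter.Eventually.of_forall fun p => ?_)
    · have hc : Continuous fun p : V × V => (Real.fourierChar (inner ℝ p.1 (x - p.2)) : ℂ) := by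
        have : Continuous fun t : ℝ => ((Real.fourierChar t : Circle) : ℂ) := by fun_prop
        exact this.comp (by fun_prop)
      refine AEStronglyMeasurable.mul ?_ (hc.aestronglyMeasurable.mul ?_)
      · exact ((continuous_ker A hA w0 K).comp continuous_snd).aestronglyMeasurable
      · exact hg.1.comp_fst
    · show ‖ker A hA w0 K p.2 * ((Real.fourierChar (inner ℝ p.1 (x - p.2)) : ℂ) * g p.1)‖ ≤
        ‖g p.1 * ker A hA w0 K p.2‖
      rw [norm_mul, norm_mul, norm_mul, Circle.norm_coe, one_mul, mul_comm]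

/-- **locally constant property**, `L¹` form. -/
theorem wave_loc (N : ℕ) (A : ℝ) (hA : 0 ≤ A) : ∃ C : ℝ, 0 < C ∧ ∀ (μ : Measure V)
    [IsFiniteMeasure μ] (g : V → ℂ), Integrable g μ → ∀ (w0 : V) (K : ℝ), 0 < K →
    (∀ ξ, g ξ ≠ 0 → ‖ξ - w0‖ ≤ A / K) → ∀ x,
    ‖wave μ g x‖ₑ ≤ ENNReal.ofReal (C * (K ^ Module.finrank ℝ V)⁻¹) *
      ∫⁻ y, ‖wave μ g y‖ₑ * ENNReal.ofReal ((1 + ‖x - y‖ / K) ^ N)⁻¹ := by
  obtain ⟨C, hC, hk⟩ := ker_bound (V := V) N A hA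
  refine ⟨C, hC, fun μ _ g hg w0 K hK hs x => ?_⟩
  rw [wave_repr μ hg A hA w0 hK hs x, ← lintegral_const_mul']
  swap
  · exact ENNReal.ofReal_ne_top
  refine (enorm_integral_le_lintegral_enorm _).trans ?_
  rw [← lintegral_sub_left_eq_self _ x]
  refine lintegral_mono fun u => ?_
  rw [enorm_mul, sub_sub_cancel]
  have h1 : ‖ker A hA w0 K (x - u)‖ₑ ≤ ENNReal.ofReal (C * (K ^ Module.finrank ℝ V)⁻¹) *
      ENNReal.ofReal ((1 + ‖x - u‖ / K) ^ N)⁻¹ := by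
    rw [← ENNReal.ofReal_mul (by positivity), ← ofReal_norm]
    exact ENNReal.ofReal_le_ofReal (hk w0 K hK _)
  calc _ ≤ (ENNReal.ofReal (C * (K ^ Module.finrank ℝ V)⁻¹) *
      ENNReal.ofReal ((1 + ‖x - u‖ / K) ^ N)⁻¹) * ‖wave μ g u‖ₑ := by gcongr
    _ = _ := by ring

end general

open Crest.Agent.R138.Bil882 (muG gG ext_eq_wave integrable_gG hasSpec_ext finrank_W
  measurable_wt)

lemma continuous_ext {h : E2 → ℝ} (hh : Continuous h) {g : E2 → ℂ} (hg : Measurable g)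
    (hM : ∃ M, ∀ ξ, ‖g ξ‖ ≤ M) {r : ℝ} (hr : ∀ ξ, r < ‖ξ‖ → g ξ = 0) :
    Continuous fun p : E2 × ℝ => ext h g p.1 p.2 := by
  obtain ⟨M, hM⟩ := hM
  have hc : Continuous (fun w : W => ext h g (WithLp.ofLp w).1 (WithLp.ofLp w).2) :=
    (hasSpec_ext hh hg hM hr Set.univ fun _ _ => Set.mem_univ _).temp.1.continuous
  exact hc.comp (f := fun p : E2 × ℝ => (WithLp.toLp 2 p : W)) (by fun_prop)

/-- the ball of radius `K` around `z` (norm `|x| + |t|`). -/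
def U (K : ℝ) (z : E2 × ℝ) : Set (E2 × ℝ) := {p | ‖p.1 - z.1‖ + |p.2 - z.2| ≤ K}

/-- the weight of the ball `U K z`. -/
noncomputable def wz (N : ℕ) (K : ℝ) (z p : E2 × ℝ) : ℝ := wt N K z.1 z.2 p

lemma wz_eq (N : ℕ) (K : ℝ) (z p : E2 × ℝ) :
    wz N K z p = ((1 + (‖p.1 - z.1‖ + |p.2 - z.2|) / K) ^ N)⁻¹ := rfl


/-- **locally constant property** of an extension function with small spectrum. -/
theorem ext_loc (N : ℕ) (A : ℝ) (hA : 0 ≤ A) : ∃ C : ℝ, 0 < C ∧ ∀ h : E2 → ℝ, Continuous h →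
    ∀ g : E2 → ℂ, Measurable g → (∃ M, ∀ ξ, ‖g ξ‖ ≤ M) → ∀ r : ℝ, (∀ ξ, r < ‖ξ‖ → g ξ = 0) →
    ∀ (w0 : W) (K : ℝ), 0 < K → (∀ ξ, g ξ ≠ 0 → ‖Gam h ξ - w0‖ ≤ A / K) →
    ∀ z p, p ∈ U K z → ‖ext h g p.1 p.2‖ₑ ≤ ENNReal.ofReal (C * (K ^ 3)⁻¹) *
      ∫⁻ q : E2 × ℝ, ‖ext h g q.1 q.2‖ₑ * ENNReal.ofReal (wz N K z q) := by
  obtain ⟨C, hC, hk⟩ := wave_loc (V := W) N A hA
  refine ⟨C * 2 ^ N, by positivity, ?_⟩
  intro h hh g hg hM r hr w0 K hK hs z p hp
  have hcont := continuous_ext hh hg hM hr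
  obtain ⟨M, hM⟩ := hM
  have e : ∀ w : W, wave (muG h r) (gG h g) w = ext h g (WithLp.ofLp w).1 (WithLp.ofLp w).2 := by
    intro w
    rw [ext_eq_wave hh hg hr]
  have hs' : ∀ w, gG h g w ≠ 0 → ‖w - w0‖ ≤ A / K := by
    intro w hw
    unfold gG at hw
    split_ifs at hw with h1
    · rw [h1]; exact hs _ hw
    · exact absurd rfl hw
  have h1 := hk (muG h r) (gG h g) (integrable_gG hh hg hM r) w0 K hK hs' (WithLp.toLp 2 p)
  simp only [e, finrank_W] at h1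
  refine h1.trans ?_
  rw [ENNReal.ofReal_mul hC.le, ENNReal.ofReal_mul (by positivity), ENNReal.ofReal_mul hC.le]
  have m0 : Measurable fun q : E2 × ℝ => ‖ext h g q.1 q.2‖ₑ * ENNReal.ofReal (wz N K z q) :=
    hcont.measurable.enorm.mul (measurable_wt N K z.1 z.2).ennreal_ofReal
  have h2 : ∫⁻ w : W, ‖ext h g (WithLp.ofLp w).1 (WithLp.ofLp w).2‖ₑ *
        ENNReal.ofReal ((1 + ‖(WithLp.toLp 2 p : W) - w‖ / K) ^ N)⁻¹ ≤
      ENNReal.ofReal (2 ^ N) *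
        ∫⁻ q : E2 × ℝ, ‖ext h g q.1 q.2‖ₑ * ENNReal.ofReal (wz N K z q) := by
    rw [← lintegral_const_mul _ m0,
      ← (WithLp.volume_preserving_ofLp E2 ℝ).lintegral_comp (m0.const_mul _)]
    refine lintegral_mono fun w => ?_
    have h3 : ((1 + ‖(WithLp.toLp 2 p : W) - w‖ / K) ^ N)⁻¹ ≤ 2 ^ N * wz N K z (WithLp.ofLp w) := by
      rw [wz_eq]
      have n1 : ‖p.1 - (WithLp.ofLp w).1‖ ≤ ‖(WithLp.toLp 2 p : W) - w‖ :=
        norm_fst_le ((WithLp.toLp 2 p : W) - w)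
      have n2 : |p.2 - (WithLp.ofLp w).2| ≤ ‖(WithLp.toLp 2 p : W) - w‖ :=
        norm_snd_le ((WithLp.toLp 2 p : W) - w)
      have n3 : ‖(WithLp.ofLp w).1 - z.1‖ ≤ ‖p.1 - z.1‖ + ‖p.1 - (WithLp.ofLp w).1‖ := by
        calc ‖(WithLp.ofLp w).1 - z.1‖ = ‖(p.1 - z.1) - (p.1 - (WithLp.ofLp w).1)‖ := by
              congr 1; abel
          _ ≤ _ := norm_sub_le _ _
      have n4 : |(WithLp.ofLp w).2 - z.2| ≤ |p.2 - z.2| + |p.2 - (WithLp.ofLp w).2| := by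
        calc |(WithLp.ofLp w).2 - z.2| = |(p.2 - z.2) - (p.2 - (WithLp.ofLp w).2)| := by
              congr 1; ring
          _ ≤ _ := abs_sub _ _
      have n5 : (‖(WithLp.ofLp w).1 - z.1‖ + |(WithLp.ofLp w).2 - z.2|) ≤
          K + 2 * ‖(WithLp.toLp 2 p : W) - w‖ := by
        have : ‖p.1 - z.1‖ + |p.2 - z.2| ≤ K := hp
        linarith
      have n6 : 1 + (‖(WithLp.ofLp w).1 - z.1‖ + |(WithLp.ofLp w).2 - z.2|) / K ≤
          2 * (1 + ‖(WithLp.toLp 2 p : W) - w‖ / K) := by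
        have : (‖(WithLp.ofLp w).1 - z.1‖ + |(WithLp.ofLp w).2 - z.2|) / K ≤
            1 + 2 * (‖(WithLp.toLp 2 p : W) - w‖ / K) := by
          rw [div_le_iff₀ hK]
          calc _ ≤ _ := n5
            _ = _ := by field_simp
        linarith
      rw [← div_eq_mul_inv, le_div_iff₀ (by positivity), inv_mul_le_iff₀ (by positivity), ← mul_pow,
        mul_comm _ (2:ℝ)]
      gcongr
    calc _ ≤ ‖ext h g (WithLp.ofLp w).1 (WithLp.ofLp w).2‖ₑ *
          ENNReal.ofReal (2 ^ N * wz N K z (WithLp.ofLp w)) := by gcongr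
      _ = _ := by rw [ENNReal.ofReal_mul (by positivity)]; ring
  calc _ ≤ ENNReal.ofReal C * ENNReal.ofReal (K ^ 3)⁻¹ * (ENNReal.ofReal (2 ^ N) *
        ∫⁻ q : E2 × ℝ, ‖ext h g q.1 q.2‖ₑ * ENNReal.ofReal (wz N K z q)) := by gcongr
    _ = _ := by ring

end Crest.Agent.R138.Bn759
end

-- ▼ part R138/Bn3_759

/-! R138, broad/narrow end, part 3 (helper759): smooth cut-offs in direction space, derivative
bounds, the weighted multiplier lemma in space-time. -/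

set_option autoImplicit false

open MeasureTheory SchwartzMap FourierTransform
open scoped FourierTransform SchwartzMap ENNReal ContDiff

namespace Crest.Agent.R138.Bn759

open Crest.Agent.R138.Defs (E2 ee ext ParB)
open Crest.Agent.R138.Bil882 (NearId ee_eq)

/-! ### the gradient -/

lemma hasGradientAt_sq (ξ : E2) : HasGradientAt (fun ξ : E2 => ‖ξ‖ ^ 2 / 2) ξ ξ := by
  rw [hasGradientAt_iff_hasFDerivAt]
  have h := (hasStrictFDerivAt_norm_sq ξ).hasFDerivAt.mul_const (1 / 2 : ℝ)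
  refine (h.congr_fderiv ?_).congr_of_eventuallyEq (Filter.Eventually.of_forall fun x => by ring)
  ext v
  simp

lemma gradient_split {h : E2 → ℝ} (hh : Differentiable ℝ h) (ξ : E2) :
    gradient h ξ = gradient (fun ξ : E2 => h ξ - ‖ξ‖ ^ 2 / 2) ξ + ξ := by
  have h1 := (hh ξ).hasGradientAt
  have h2 := hasGradientAt_sq ξ
  have h3 : HasGradientAt (fun ξ : E2 => h ξ - ‖ξ‖ ^ 2 / 2) (gradient h ξ - ξ) ξ := by
    rw [hasGradientAt_iff_hasFDerivAt] at *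
    have := h1.sub h2
    rw [map_sub]
    exact this
  rw [h3.gradient]
  abel

lemma contDiff_gradient {h : E2 → ℝ} (hh : ContDiff ℝ ∞ h) : ContDiff ℝ ∞ (gradient h) := by
  have h1 : ContDiff ℝ ∞ (fderiv ℝ h) := hh.fderiv_right (by simp)
  exact (InnerProductSpace.toDual ℝ E2).symm.toContinuousLinearEquiv.contDiff.comp h1

lemma norm_iteratedFDeriv_gradient (h : E2 → ℝ) (i : ℕ) (ξ : E2) :
    ‖iteratedFDeriv ℝ i (gradient h) ξ‖ = ‖iteratedFDeriv ℝ (i + 1) h ξ‖ := by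
  rw [← norm_iteratedFDeriv_fderiv]
  exact (InnerProductSpace.toDual ℝ E2).symm.norm_iteratedFDeriv_comp_left (fderiv ℝ h) ξ i

lemma norm_iteratedFDeriv_id_le (i : ℕ) (hi : 1 ≤ i) (ξ : E2) :
    ‖iteratedFDeriv ℝ i (fun ξ : E2 => ξ) ξ‖ ≤ 1 := by
  obtain ⟨k, rfl⟩ : ∃ k, i = k + 1 := ⟨i - 1, by omega⟩
  rw [← norm_iteratedFDeriv_fderiv]
  have : fderiv ℝ (fun ξ : E2 => ξ) = fun _ => ContinuousLinearMap.id ℝ E2 := by
    ext1 v; exact fderiv_fun_id
  rw [this]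
  rcases k with _ | k
  · rw [norm_iteratedFDeriv_zero]
    exact ContinuousLinearMap.norm_id_le
  · rw [iteratedFDeriv_const_of_ne (by omega)]
    simp

/-- all derivatives of the gradient, of order `1..n`, are bounded by the class constant. -/
lemma grad_bound {B : ℕ → ℝ} {h : E2 → ℝ} (hh : ParB B h) (i : ℕ) (hi : 1 ≤ i) (ξ : E2) :
    ‖iteratedFDeriv ℝ i (gradient h) ξ‖ ≤ 1 + |B (i + 1)| := by
  have hq : ContDiff ℝ ∞ (fun ξ : E2 => h ξ - ‖ξ‖ ^ 2 / 2) :=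
    hh.1.sub ((contDiff_norm_sq ℝ).div_const 2)
  have e : gradient h = fun ξ => gradient (fun ξ : E2 => h ξ - ‖ξ‖ ^ 2 / 2) ξ + ξ :=
    funext fun ξ => gradient_split (hh.1.differentiable (by simp)) ξ
  rw [e]
  have h1 : iteratedFDeriv ℝ i (fun ξ => gradient (fun ξ : E2 => h ξ - ‖ξ‖ ^ 2 / 2) ξ + ξ) ξ =
      iteratedFDeriv ℝ i (gradient (fun ξ : E2 => h ξ - ‖ξ‖ ^ 2 / 2)) ξ +
        iteratedFDeriv ℝ i (fun ξ : E2 => ξ) ξ :=
    fun_iteratedFDeriv_add_apply ((contDiff_gradient hq).of_le (by exact_mod_cast le_top)).contDiffAt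
      contDiff_id.contDiffAt
  rw [h1]
  refine (norm_add_le _ _).trans ?_
  rw [norm_iteratedFDeriv_gradient, add_comm]
  refine add_le_add (norm_iteratedFDeriv_id_le i hi ξ) ?_
  exact (hh.2 (i + 1) (by omega) ξ).trans (le_abs_self _)

/-- the class constant. -/
noncomputable def BB (B : ℕ → ℝ) (n : ℕ) : ℝ := 1 + ∑ i ∈ Finset.range (n + 2), |B i|

lemma one_le_BB (B : ℕ → ℝ) (n : ℕ) : 1 ≤ BB B n := by
  unfold BB
  have : 0 ≤ ∑ i ∈ Finset.range (n + 2), |B i| := Finset.sum_nonneg fun i _ => abs_nonneg _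
  linarith

lemma grad_bound' {B : ℕ → ℝ} {h : E2 → ℝ} (hh : ParB B h) {n i : ℕ} (hi : 1 ≤ i) (hin : i ≤ n)
    (ξ : E2) : ‖iteratedFDeriv ℝ i (gradient h) ξ‖ ≤ BB B n := by
  refine (grad_bound hh i hi ξ).trans ?_
  unfold BB
  have := Finset.single_le_sum (f := fun i => |B i|) (fun i _ => abs_nonneg _)
    (Finset.mem_range.2 (show i + 1 < n + 2 by omega))
  linarith

/-- `NearId` from the class. -/
lemma nearId {B : ℕ → ℝ} (hB : B 2 ≤ 1 / 10) {h : E2 → ℝ} (hh : ParB B h) :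
    NearId h (1 / 10) := by
  intro ξ η
  have hd := hh.1.differentiable (by simp)
  have hq : ContDiff ℝ ∞ (fun ξ : E2 => h ξ - ‖ξ‖ ^ 2 / 2) :=
    hh.1.sub ((contDiff_norm_sq ℝ).div_const 2)
  have e : (gradient h ξ - gradient h η) - (ξ - η) =
      gradient (fun ξ : E2 => h ξ - ‖ξ‖ ^ 2 / 2) ξ -
        gradient (fun ξ : E2 => h ξ - ‖ξ‖ ^ 2 / 2) η := by
    rw [gradient_split hd ξ, gradient_split hd η]; abel
  rw [e]
  have hc := contDiff_gradient hq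
  refine Convex.norm_image_sub_le_of_norm_fderiv_le (s := Set.univ)
    (fun x _ => (hc.differentiable (by simp)) x) (fun x _ => ?_) convex_univ
    (Set.mem_univ _) (Set.mem_univ _)
  have h1 := norm_iteratedFDeriv_gradient (fun ξ : E2 => h ξ - ‖ξ‖ ^ 2 / 2) 1 x
  rw [norm_iteratedFDeriv_one] at h1
  rw [h1]
  exact (hh.2 2 le_rfl x).trans hB

/-! ### multipliers through the gradient -/

/-- smooth functions with all derivatives bounded, by `c` up to order `n`. -/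
structure Mul (n : ℕ) (c : ℝ) (Φ : E2 → ℂ) : Prop where
  cd : ContDiff ℝ ∞ Φ
  bd : ∀ i ≤ n, ∀ y, ‖iteratedFDeriv ℝ i Φ y‖ ≤ c
  tg : ∀ i, ∃ C, ∀ y, ‖iteratedFDeriv ℝ i Φ y‖ ≤ C

lemma Mul.nonneg {n : ℕ} {c : ℝ} {Φ : E2 → ℂ} (h : Mul n c Φ) : 0 ≤ c :=
  (norm_nonneg _).trans (h.bd 0 (Nat.zero_le _) 0)

/-- the multiplier. -/
noncomputable def mm (h : E2 → ℝ) (κ : ℝ) (Φ : E2 → ℂ) (ξ : E2) : ℂ := Φ (κ • gradient h ξ)

lemma contDiff_mm {h : E2 → ℝ} (hh : ContDiff ℝ ∞ h) (κ : ℝ) {Φ : E2 → ℂ} (hΦ : ContDiff ℝ ∞ Φ) :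
    ContDiff ℝ ∞ (mm h κ Φ) :=
  hΦ.comp ((contDiff_gradient hh).const_smul κ)

lemma mm_bound {B : ℕ → ℝ} {h : E2 → ℝ} (hh : ParB B h) {n : ℕ} {c : ℝ} {Φ : E2 → ℂ}
    (hΦ : Mul n c Φ) {κ K : ℝ} (hκ : 0 ≤ κ) (hκK : κ ≤ K) (hK : 1 ≤ K) {i : ℕ} (hi : i ≤ n) (ξ : E2) :
    ‖iteratedFDeriv ℝ i (mm h κ Φ) ξ‖ ≤ i.factorial * c * (K * BB B n) ^ i := by
  have h1 := norm_iteratedFDeriv_comp_le (𝕜 := ℝ) (g := Φ) (f := fun ξ => κ • gradient h ξ)
    (n := i) (N := (⊤ : ℕ∞)) (C := c) (D := K * BB B n) hΦ.cd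
    ((contDiff_gradient hh.1).const_smul κ) (by exact_mod_cast le_top) ξ
    (fun j hj => hΦ.bd j (hj.trans hi) _) (fun j hj1 hj => ?_)
  · exact h1
  · have e : iteratedFDeriv ℝ j (fun ξ => κ • gradient h ξ) ξ =
        κ • iteratedFDeriv ℝ j (gradient h) ξ :=
      iteratedFDeriv_const_smul_apply'
        ((contDiff_gradient hh.1).of_le (by exact_mod_cast le_top)).contDiffAt
    rw [e, norm_smul, Real.norm_of_nonneg hκ]
    have h2 := grad_bound' hh hj1 (hj.trans hi) ξ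
    have h3 : 1 ≤ K * BB B n := by
      calc (1:ℝ) = 1 * 1 := by ring
        _ ≤ K * BB B n := mul_le_mul hK (one_le_BB B n) (by norm_num) (by linarith)
    calc κ * ‖iteratedFDeriv ℝ j (gradient h) ξ‖ ≤ K * BB B n :=
          mul_le_mul hκK h2 (norm_nonneg _) (by linarith)
      _ ≤ (K * BB B n) ^ j := le_self_pow₀ h3 (by omega)

lemma temperate_mm {B : ℕ → ℝ} {h : E2 → ℝ} (hh : ParB B h) {Φ : E2 → ℂ}
    (hΦ : ContDiff ℝ ∞ Φ) (hb : ∀ i, ∃ C, ∀ y, ‖iteratedFDeriv ℝ i Φ y‖ ≤ C) (κ : ℝ) :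
    (mm h κ Φ).HasTemperateGrowth := by
  have hΦt : Φ.HasTemperateGrowth := by
    refine ⟨hΦ, fun n => ?_⟩
    obtain ⟨C, hC⟩ := hb n
    exact ⟨0, C, fun x => by simpa using hC x⟩
  have hgt : (gradient h).HasTemperateGrowth := by
    refine Function.HasTemperateGrowth.of_fderiv (k := 1)
      (C := ‖gradient h 0‖ + BB B 1) ?_ ((contDiff_gradient hh.1).differentiable (by simp)) ?_
    · refine ⟨(contDiff_gradient hh.1).fderiv_right (by simp), fun n => ⟨0, BB B (n + 1), fun x => ?_⟩⟩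
      rw [norm_iteratedFDeriv_fderiv, pow_zero, mul_one]
      exact grad_bound' hh (by omega) le_rfl x
    · intro x
      have h1 : ‖gradient h x - gradient h 0‖ ≤ BB B 1 * ‖x - 0‖ := by
        refine Convex.norm_image_sub_le_of_norm_fderiv_le (s := Set.univ)
          (fun x _ => ((contDiff_gradient hh.1).differentiable (by simp)) x) (fun x _ => ?_)
          convex_univ (Set.mem_univ _) (Set.mem_univ _)
        have := grad_bound' hh (le_refl 1) (le_refl 1) x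
        rwa [norm_iteratedFDeriv_one] at this
      have h2 : ‖gradient h x‖ ≤ ‖gradient h x - gradient h 0‖ + ‖gradient h 0‖ := by
        calc ‖gradient h x‖ = ‖(gradient h x - gradient h 0) + gradient h 0‖ := by
              rw [sub_add_cancel]
          _ ≤ _ := norm_add_le _ _
      rw [sub_zero] at h1
      have h3 := one_le_BB B 1
      have h4 := norm_nonneg x
      have h5 := norm_nonneg (gradient h 0)
      rw [pow_one]
      nlinarith [mul_nonneg h4 h5]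
  have h4 : (fun ξ => κ • gradient h ξ).HasTemperateGrowth :=
    (Function.HasTemperateGrowth.const κ).smul hgt
  exact hΦt.comp h4

/-! ### slices -/

open Crest.Agent.R138.Wf448 (wE dw gw Nn LI decayL adj)

/-- the slice of `g` at time `t`. -/
noncomputable def sl (h : E2 → ℝ) (g : E2 → ℂ) (t : ℝ) (ξ : E2) : ℂ := g ξ * ee (t * h ξ)

lemma ee_add (a b : ℝ) : ee (a + b) = ee a * ee b := by
  rw [ee_eq, ee_eq, ee_eq, AddChar.map_add_eq_mul, Circle.coe_mul]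

lemma norm_ee (a : ℝ) : ‖ee a‖ = 1 := by rw [ee_eq, Circle.norm_coe]

lemma continuous_ee : Continuous ee := by
  have : ee = fun t => (Real.fourierChar t : ℂ) := funext ee_eq
  rw [this]; fun_prop

lemma ext_eq_slice (h : E2 → ℝ) (g : E2 → ℂ) (x : E2) (t : ℝ) :
    ext h g x t = 𝓕⁻ (sl h g t) x := by
  rw [Real.fourierInv_eq]
  unfold Crest.Agent.R138.Defs.ext sl
  refine integral_congr_ae (Filter.Eventually.of_forall fun ξ => ?_)
  simp only
  rw [ee_add, ee_eq (inner ℝ x ξ), Circle.smul_def, real_inner_comm]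
  simp only [smul_eq_mul]
  ring

lemma sl_mul (h : E2 → ℝ) (g m : E2 → ℂ) (t : ℝ) :
    sl h (fun ξ => m ξ * g ξ) t = fun ξ => m ξ * sl h g t ξ := by
  funext ξ; unfold sl; ring

lemma measurable_sl {h : E2 → ℝ} (hh : Continuous h) {g : E2 → ℂ} (hg : Measurable g) (t : ℝ) :
    Measurable (sl h g t) :=
  hg.mul (continuous_ee.comp (by fun_prop)).measurable

lemma integrable_of_bdd {g : E2 → ℂ} (hg : Measurable g) (hM : ∃ M, ∀ ξ, ‖g ξ‖ ≤ M) {r : ℝ}
    (hr : ∀ ξ, r < ‖ξ‖ → g ξ = 0) : Integrable g := by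
  obtain ⟨M, hM⟩ := hM
  have h1 : g = (Metric.closedBall (0:E2) r).indicator g := by
    funext ξ
    by_cases hξ : ξ ∈ Metric.closedBall (0:E2) r
    · rw [Set.indicator_of_mem hξ]
    · rw [Set.indicator_of_notMem hξ]
      exact hr ξ (by simpa using hξ)
  rw [h1, integrable_indicator_iff measurableSet_closedBall]
  exact Measure.integrableOn_of_bounded (M := M) measure_closedBall_lt_top.ne hg.aestronglyMeasurable
    (Filter.Eventually.of_forall fun ξ => hM ξ)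

lemma memLp_of_bdd {g : E2 → ℂ} (hg : Measurable g) (hM : ∃ M, ∀ ξ, ‖g ξ‖ ≤ M) {r : ℝ}
    (hr : ∀ ξ, r < ‖ξ‖ → g ξ = 0) : MemLp g 2 := by
  obtain ⟨M, hM⟩ := hM
  have h2 : MemLp g ⊤ := memLp_top_of_bound hg.aestronglyMeasurable M
    (Filter.Eventually.of_forall hM)
  refine h2.mono_exponent_of_measure_support_ne_top (s := Metric.closedBall (0:E2) r)
    (fun ξ hξ => hr ξ (by simpa using hξ)) measure_closedBall_lt_top.ne le_top

/-- the scaling map. -/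
noncomputable def sc (K : ℝ) : E2 →L[ℝ] E2 := K⁻¹ • ContinuousLinearMap.id ℝ E2

lemma norm_adj_sc_le {K : ℝ} (hK : 0 < K) : ‖adj (sc K)‖ ≤ K⁻¹ := by
  have h1 : ‖adj (sc K)‖ = ‖sc K‖ := by
    exact LinearIsometryEquiv.norm_map (ContinuousLinearMap.adjoint) (sc K)
  rw [h1]
  unfold sc
  rw [norm_smul, norm_inv, Real.norm_of_nonneg hK.le]
  have := ContinuousLinearMap.norm_id_le (𝕜 := ℝ) (E := E2)
  calc K⁻¹ * ‖ContinuousLinearMap.id ℝ E2‖ ≤ K⁻¹ * 1 := by gcongr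
    _ = K⁻¹ := mul_one _

lemma Nn_le_sc {K : ℝ} (hK : 0 < K) (j : ℕ) (f : E2 → ℂ) (ξ : E2) :
    Nn (sc K) j f ξ ≤ (K⁻¹) ^ j * ‖iteratedFDeriv ℝ j f ξ‖ := by
  unfold Crest.Agent.R138.Wf448.Nn
  refine (ContinuousMultilinearMap.norm_compContinuousLinearMap_le _ _).trans ?_
  rw [mul_comm]
  refine mul_le_mul_of_nonneg_right ?_ (norm_nonneg _)
  rw [Finset.prod_const, Finset.card_univ, Fintype.card_fin]
  exact pow_le_pow_left₀ (norm_nonneg _) (norm_adj_sc_le hK) j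

/-- **weighted multiplier lemma on a slice.** -/
theorem mult_slice (n : ℕ) : ∃ C : ℝ, 0 ≤ C ∧ ∀ (B : ℕ → ℝ) (h : E2 → ℝ), ParB B h →
    ∀ (c : ℝ), 0 < c → ∀ (Φ : E2 → ℂ), Mul n c Φ → ∀ (κ K : ℝ), 0 ≤ κ → κ ≤ K → 1 ≤ K →
    ∀ g : E2 → ℂ, Measurable g → (∃ M, ∀ ξ, ‖g ξ‖ ≤ M) → ∀ r : ℝ, (∀ ξ, r < ‖ξ‖ → g ξ = 0) →
    ∀ (x0 : E2) (t : ℝ),
      wE n (sc K) x0 (sl h (fun ξ => mm h κ Φ ξ * g ξ) t) ≤
        ENNReal.ofReal (C * (n.factorial * c * BB B n ^ n) ^ 2) * wE n (sc K) x0 (sl h g t) := by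
  obtain ⟨C, hC, h0⟩ := decayL (V := E2) (W := E2) n
  refine ⟨C, hC, ?_⟩
  intro B h hh c hc Φ hΦ κ K hκ hκK hK g hg hM r hr x0 t
  have hK0 : 0 < K := by linarith
  have hBB := one_le_BB B n
  have hpos : 0 < (n.factorial : ℝ) * c * BB B n ^ n := by
    have : (0:ℝ) < n.factorial := by exact_mod_cast n.factorial_pos
    positivity
  have hcont : Continuous h := hh.1.continuous
  have hsb : ∃ M, ∀ ξ, ‖sl h g t ξ‖ ≤ M := by
    obtain ⟨M, hM⟩ := hM
    exact ⟨M, fun ξ => by unfold sl; rw [norm_mul, norm_ee, mul_one]; exact hM ξ⟩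
  have hsr : ∀ ξ, r < ‖ξ‖ → sl h g t ξ = 0 := fun ξ hξ => by unfold sl; rw [hr ξ hξ, zero_mul]
  have h1 := h0 (sc K) x0 Unit Unit (fun _ _ => mm h κ Φ) (fun _ => sl h g t)
    ((n.factorial : ℝ) * c * BB B n ^ n) hpos
    (fun _ _ => temperate_mm hh hΦ.cd hΦ.tg κ)
    (fun _ => integrable_of_bdd (measurable_sl hcont hg t) hsb hsr)
    (fun _ => memLp_of_bdd (measurable_sl hcont hg t) hsb hsr)
    (fun j hj ξ => by
      simp only [Finset.univ_unique, Finset.sum_const, Finset.card_singleton, one_smul]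
      refine pow_le_pow_left₀ (norm_nonneg _) ?_ 2
      refine (Nn_le_sc hK0 j _ ξ).trans ?_
      have h2 := mm_bound hh hΦ hκ hκK hK hj ξ
      calc (K⁻¹) ^ j * ‖iteratedFDeriv ℝ j (mm h κ Φ) ξ‖
          ≤ (K⁻¹) ^ j * (j.factorial * c * (K * BB B n) ^ j) := by gcongr
        _ = j.factorial * c * BB B n ^ j := by
            rw [mul_pow, inv_pow]; field_simp
        _ ≤ n.factorial * c * BB B n ^ n := by
            gcongr)
  simp only [Finset.univ_unique, Finset.sum_const, Finset.card_singleton, one_smul] at h1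
  rw [sl_mul]
  exact h1

/-- the product weight of the `K`-ball around `z`. -/
noncomputable def pw (n : ℕ) (K : ℝ) (z p : E2 × ℝ) : ℝ :=
  dw n (sc K) (p.1 - z.1) * ((1 + |p.2 - z.2| / K) ^ (2 * n))⁻¹

lemma measurable_pw (n : ℕ) (K : ℝ) (z : E2 × ℝ) : Measurable (pw n K z) := by
  have h1 : Continuous (dw n (sc K)) := (Crest.Agent.R138.Wf448.temperate_dw n (sc K)).1.continuous
  unfold pw
  refine Measurable.mul (h1.comp (by fun_prop)).measurable ?_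
  fun_prop

lemma dw_sc (n : ℕ) {K : ℝ} (hK : 0 < K) (x : E2) : dw n (sc K) x = ((1 + (‖x‖ / K) ^ 2) ^ n)⁻¹ := by
  unfold Crest.Agent.R138.Wf448.dw Crest.Agent.R138.Wf448.gw sc
  rw [_root_.smul_apply, ContinuousLinearMap.id_apply, norm_smul, norm_inv,
    Real.norm_of_nonneg hK.le, inv_mul_eq_div]

lemma wz_le_pw (n : ℕ) {K : ℝ} (hK : 0 < K) (z p : E2 × ℝ) : wz (4 * n) K z p ≤ pw n K z p := by
  rw [wz_eq, pw, dw_sc n hK, ← mul_inv]
  set a := ‖p.1 - z.1‖ / K with ha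
  set b := |p.2 - z.2| / K with hb
  have ha0 : 0 ≤ a := by positivity
  have hb0 : 0 ≤ b := by positivity
  rw [add_div]
  refine inv_anti₀ (by positivity) ?_
  calc (1 + a ^ 2) ^ n * (1 + b) ^ (2 * n) ≤ ((1 + (a + b)) ^ 2) ^ n * (1 + (a + b)) ^ (2 * n) := by
        gcongr
        · nlinarith
        · linarith
    _ = (1 + (a + b)) ^ (4 * n) := by
        rw [← pow_mul, ← pow_add]; congr 1; ring

lemma pw_le_wz (n : ℕ) {K : ℝ} (hK : 0 < K) (z p : E2 × ℝ) :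
    pw n K z p ≤ 2 ^ n * wz (2 * n) K z p := by
  rw [wz_eq, pw, dw_sc n hK, ← mul_inv]
  set a := ‖p.1 - z.1‖ / K with ha
  set b := |p.2 - z.2| / K with hb
  have ha0 : 0 ≤ a := by positivity
  have hb0 : 0 ≤ b := by positivity
  rw [add_div, ← div_eq_mul_inv, le_div_iff₀ (by positivity), inv_mul_le_iff₀ (by positivity)]
  have h1 : (1 + (a + b)) ^ 2 ≤ (1 + a ^ 2) * 2 * (1 + b) ^ 2 := by
    have h2 : 1 + (a + b) ≤ (1 + a) * (1 + b) := by nlinarith [mul_nonneg ha0 hb0]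
    have h3 : (1 + a) ^ 2 ≤ (1 + a ^ 2) * 2 := by nlinarith [sq_nonneg (1 - a)]
    calc (1 + (a + b)) ^ 2 ≤ ((1 + a) * (1 + b)) ^ 2 := by gcongr
      _ = (1 + a) ^ 2 * (1 + b) ^ 2 := by ring
      _ ≤ (1 + a ^ 2) * 2 * (1 + b) ^ 2 := by gcongr
  calc (1 + (a + b)) ^ (2 * n) = ((1 + (a + b)) ^ 2) ^ n := by rw [pow_mul]
    _ ≤ ((1 + a ^ 2) * 2 * (1 + b) ^ 2) ^ n := by gcongr
    _ = _ := by rw [mul_pow, mul_pow, ← pow_mul]; ring

lemma wz_anti {N M : ℕ} (h : N ≤ M) {K : ℝ} (hK : 0 < K) (z p : E2 × ℝ) :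
    wz M K z p ≤ wz N K z p := by
  rw [wz_eq, wz_eq]
  have : 1 ≤ 1 + (‖p.1 - z.1‖ + |p.2 - z.2|) / K := by
    have : 0 ≤ (‖p.1 - z.1‖ + |p.2 - z.2|) / K := by positivity
    linarith
  exact inv_anti₀ (by positivity) (pow_le_pow_right₀ this h)


lemma supp_mul {g m : E2 → ℂ} {r : ℝ} (hr : ∀ ξ : E2, r < ‖ξ‖ → g ξ = 0) :
    ∀ ξ : E2, r < ‖ξ‖ → m ξ * g ξ = 0 := fun ξ hξ => by rw [hr ξ hξ, mul_zero]

lemma bdd_mul {g m : E2 → ℂ} (hM : ∃ M, ∀ ξ, ‖g ξ‖ ≤ M) {c : ℝ} (hm : ∀ ξ, ‖m ξ‖ ≤ c) :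
    ∃ M, ∀ ξ, ‖m ξ * g ξ‖ ≤ M := by
  obtain ⟨M, hM⟩ := hM
  refine ⟨c * M, fun ξ => ?_⟩
  rw [norm_mul]
  exact mul_le_mul (hm ξ) (hM ξ) (norm_nonneg _) ((norm_nonneg _).trans (hm ξ))

lemma Mul.le {n : ℕ} {c : ℝ} {Φ : E2 → ℂ} (h : Mul n c Φ) (y : E2) : ‖Φ y‖ ≤ c := by
  have := h.bd 0 (Nat.zero_le _) y
  simpa using this

/-- **weighted multiplier lemma in space-time.** -/
theorem mult_st (n : ℕ) : ∃ C : ℝ, 0 ≤ C ∧ ∀ (B : ℕ → ℝ) (h : E2 → ℝ), ParB B h →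
    ∀ (c : ℝ), 0 < c → ∀ (Φ : E2 → ℂ), Mul n c Φ → ∀ (κ K : ℝ), 0 ≤ κ → κ ≤ K → 1 ≤ K →
    ∀ g : E2 → ℂ, Measurable g → (∃ M, ∀ ξ, ‖g ξ‖ ≤ M) → ∀ r : ℝ, (∀ ξ, r < ‖ξ‖ → g ξ = 0) →
    ∀ z : E2 × ℝ,
      ∫⁻ p : E2 × ℝ, ‖ext h (fun ξ => mm h κ Φ ξ * g ξ) p.1 p.2‖ₑ ^ 2 * ENNReal.ofReal (pw n K z p) ≤
        ENNReal.ofReal (C * (n.factorial * c * BB B n ^ n) ^ 2) *
          ∫⁻ p : E2 × ℝ, ‖ext h g p.1 p.2‖ₑ ^ 2 * ENNReal.ofReal (pw n K z p) := by
  obtain ⟨C, hC, h0⟩ := mult_slice n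
  refine ⟨C, hC, ?_⟩
  intro B h hh c hc Φ hΦ κ K hκ hκK hK g hg hM r hr z
  have hcont : Continuous h := hh.1.continuous
  have key : ∀ g' : E2 → ℂ, Measurable g' → (∃ M, ∀ ξ, ‖g' ξ‖ ≤ M) → (∀ ξ, r < ‖ξ‖ → g' ξ = 0) →
      ∫⁻ p : E2 × ℝ, ‖ext h g' p.1 p.2‖ₑ ^ 2 * ENNReal.ofReal (pw n K z p) =
        ∫⁻ t : ℝ, ENNReal.ofReal ((1 + |t - z.2| / K) ^ (2 * n))⁻¹ *
          wE n (sc K) z.1 (sl h g' t) := by
    intro g' hg' hM' hr'
    have hm : Measurable fun p : E2 × ℝ =>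
        ‖ext h g' p.1 p.2‖ₑ ^ 2 * ENNReal.ofReal (pw n K z p) :=
      ((continuous_ext hcont hg' hM' hr').measurable.enorm.pow_const 2).mul
        (measurable_pw n K z).ennreal_ofReal
    rw [Measure.volume_eq_prod, lintegral_prod_symm _ hm.aemeasurable]
    refine lintegral_congr fun t => ?_
    unfold Crest.Agent.R138.Wf448.wE Crest.Agent.R138.Wf448.LI
    rw [← lintegral_const_mul' _ _ ENNReal.ofReal_ne_top]
    refine lintegral_congr fun x => ?_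
    simp only [pw]
    rw [ext_eq_slice, ENNReal.ofReal_mul (Crest.Agent.R138.Wf448.dw_pos n (sc K) (x - z.1)).le,
      ENNReal.ofReal_mul (Crest.Agent.R138.Wf448.dw_pos n (sc K) (x - z.1)).le,
      ENNReal.ofReal_pow (norm_nonneg _), ofReal_norm]
    ring
  have hmc : Measurable (fun ξ => mm h κ Φ ξ * g ξ) :=
    (contDiff_mm hh.1 κ hΦ.cd).continuous.measurable.mul hg
  rw [key _ hmc (bdd_mul hM fun ξ => hΦ.le _) (supp_mul hr), key g hg hM hr,
    ← lintegral_const_mul' _ _ ENNReal.ofReal_ne_top]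
  refine lintegral_mono fun t => ?_
  have h1 := h0 B h hh c hc Φ hΦ κ K hκ hκK hK g hg hM r hr z.1 t
  calc _ ≤ ENNReal.ofReal ((1 + |t - z.2| / K) ^ (2 * n))⁻¹ *
        (ENNReal.ofReal (C * (n.factorial * c * BB B n ^ n) ^ 2) *
          wE n (sc K) z.1 (sl h g t)) := by gcongr
    _ = _ := by ring

/-! ### the lattice partition of unity -/

/-- the one-dimensional bump: `∑ k, th (x - k) = 1`. -/
noncomputable def th (x : ℝ) : ℝ := Real.smoothTransition (x + 1) - Real.smoothTransition x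

lemma th_nonneg (x : ℝ) : 0 ≤ th x :=
  sub_nonneg.2 (Real.smoothTransition.monotone (by linarith))

lemma th_le_one (x : ℝ) : th x ≤ 1 := by
  unfold th
  have h1 := Real.smoothTransition.le_one (x + 1)
  have h2 := Real.smoothTransition.nonneg x
  linarith

lemma th_eq_zero {x : ℝ} (h : 1 ≤ |x|) : th x = 0 := by
  unfold th
  rcases le_abs'.1 h with h | h
  · rw [Real.smoothTransition.zero_of_nonpos (by linarith),
      Real.smoothTransition.zero_of_nonpos (by linarith), sub_zero]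
  · rw [Real.smoothTransition.one_of_one_le (by linarith),
      Real.smoothTransition.one_of_one_le (by linarith), sub_self]

lemma contDiff_th : ContDiff ℝ ∞ th := by
  unfold th
  have h : ContDiff ℝ ∞ Real.smoothTransition := Real.smoothTransition.contDiff
  exact (h.comp (contDiff_id.add contDiff_const)).sub h

lemma sum_th {n : ℕ} {x : ℝ} (hx : |x| ≤ n) :
    ∑ k ∈ Finset.Icc (-(n:ℤ)) n, th (x - k) = 1 := by
  have h1 : ∀ m : ℕ, ∑ k ∈ Finset.Icc (-(n:ℤ)) (-(n:ℤ) + m), th (x - k) =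
      Real.smoothTransition (x + n + 1) - Real.smoothTransition (x + n - m) := by
    intro m
    induction m with
    | zero =>
      simp only [Nat.cast_zero, add_zero, Finset.Icc_self, Finset.sum_singleton, th, sub_zero]
      push_cast
      congr 2 <;> ring
    | succ m ih =>
      have e : Finset.Icc (-(n:ℤ)) (-(n:ℤ) + ((m + 1 : ℕ) : ℤ)) =
          insert (-(n:ℤ) + ((m + 1 : ℕ) : ℤ)) (Finset.Icc (-(n:ℤ)) (-(n:ℤ) + m)) := by
        ext k
        simp only [Finset.mem_Icc, Finset.mem_insert]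
        push_cast
        omega
      rw [e, Finset.sum_insert, ih]
      · unfold th
        push_cast
        have e1 : x - (-(n:ℝ) + (m + 1)) + 1 = x + n - m := by ring
        have e2 : x - (-(n:ℝ) + (m + 1)) = x + n - (m + 1) := by ring
        rw [e1, e2]
        ring
      · simp only [Finset.mem_Icc]
        push_cast
        omega
  have h2 := h1 (2 * n)
  have e : -(n:ℤ) + ((2 * n : ℕ) : ℤ) = n := by push_cast; ring
  rw [e] at h2
  rw [h2]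
  have h3 := abs_le.1 hx
  rw [Real.smoothTransition.one_of_one_le (by linarith),
    Real.smoothTransition.zero_of_nonpos (by push_cast; linarith), sub_zero]

/-- the two-dimensional bump at the lattice point `a`. -/
noncomputable def th2 (a : ℤ × ℤ) (y : E2) : ℝ := th (y 0 - a.1) * th (y 1 - a.2)

lemma contDiff_th2 (a : ℤ × ℤ) : ContDiff ℝ ∞ (th2 a) := by
  unfold th2
  have h0 : ContDiff ℝ ∞ fun y : E2 => y 0 - (a.1 : ℝ) :=
    (contDiff_piLp_apply (p := 2)).sub contDiff_const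
  have h1 : ContDiff ℝ ∞ fun y : E2 => y 1 - (a.2 : ℝ) :=
    (contDiff_piLp_apply (p := 2)).sub contDiff_const
  exact (contDiff_th.comp h0).mul (contDiff_th.comp h1)

lemma th2_nonneg (a : ℤ × ℤ) (y : E2) : 0 ≤ th2 a y := mul_nonneg (th_nonneg _) (th_nonneg _)

lemma th2_ne_zero {a : ℤ × ℤ} {y : E2} (h : th2 a y ≠ 0) : |y 0 - a.1| < 1 ∧ |y 1 - a.2| < 1 := by
  constructor
  · by_contra h1
    exact h (by unfold th2; rw [th_eq_zero (not_lt.1 h1), zero_mul])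
  · by_contra h1
    exact h (by unfold th2; rw [th_eq_zero (x := y 1 - a.2) (not_lt.1 h1), mul_zero])

/-- the lattice square. -/
noncomputable def sq (n : ℕ) : Finset (ℤ × ℤ) := Finset.Icc (-(n:ℤ)) n ×ˢ Finset.Icc (-(n:ℤ)) n

lemma sum_th2 {n : ℕ} {y : E2} (h : ‖y‖ ≤ n) : ∑ a ∈ sq n, th2 a y = 1 := by
  have h0 : |y 0| ≤ n := (by simpa using PiLp.norm_apply_le y 0 : |y 0| ≤ ‖y‖).trans h
  have h1 : |y 1| ≤ n := (by simpa using PiLp.norm_apply_le y 1 : |y 1| ≤ ‖y‖).trans h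
  unfold sq th2
  rw [Finset.sum_product]
  simp only [← Finset.mul_sum]
  rw [← Finset.sum_mul, sum_th h0, one_mul]
  exact sum_th h1

/-- the lattice vector. -/
noncomputable def lv (a : ℤ × ℤ) : E2 := WithLp.toLp 2 ![(a.1 : ℝ), (a.2 : ℝ)]

lemma th2_eq (a : ℤ × ℤ) (y : E2) : th2 a y = th2 0 (y - lv a) := by
  simp [th2, lv]

lemma hasCompactSupport_th2 : HasCompactSupport (th2 0) := by
  refine HasCompactSupport.intro (isCompact_closedBall (0:E2) 2) fun y hy => ?_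
  by_contra h
  have h1 := th2_ne_zero h
  apply hy
  rw [mem_closedBall_zero_iff]
  have h2 : ‖y‖ ^ 2 = y 0 ^ 2 + y 1 ^ 2 := norm_sq y
  simp only [Prod.fst_zero, Int.cast_zero, sub_zero, Prod.snd_zero] at h1
  have h3 := (sq_lt_one_iff_abs_lt_one _).2 h1.1
  have h4 := (sq_lt_one_iff_abs_lt_one _).2 h1.2
  nlinarith [norm_nonneg y]

lemma deriv_th2_bdd (i : ℕ) : ∃ C : ℝ, 0 < C ∧ ∀ (a : ℤ × ℤ) (y : E2),
    ‖iteratedFDeriv ℝ i (th2 a) y‖ ≤ C := by
  have h1 : Continuous (iteratedFDeriv ℝ i (th2 0)) :=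
    (contDiff_th2 0).continuous_iteratedFDeriv (by exact_mod_cast le_top)
  obtain ⟨C, hC⟩ := (hasCompactSupport_th2.iteratedFDeriv (𝕜 := ℝ) i).exists_bound_of_continuous h1
  refine ⟨|C| + 1, by positivity, fun a y => ?_⟩
  have e : th2 a = fun y => th2 0 (y - lv a) := funext (th2_eq a)
  rw [e, iteratedFDeriv_comp_sub]
  exact (hC _).trans ((le_abs_self C).trans (by linarith))

lemma deriv_th2_supp {i : ℕ} {a : ℤ × ℤ} {y : E2} (h : iteratedFDeriv ℝ i (th2 a) y ≠ 0) :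
    |y 0 - a.1| ≤ 1 ∧ |y 1 - a.2| ≤ 1 := by
  have h1 : y ∈ tsupport (th2 a) := support_iteratedFDeriv_subset i (by simpa using h)
  have h2 : tsupport (th2 a) ⊆ {y : E2 | |y 0 - a.1| ≤ 1 ∧ |y 1 - a.2| ≤ 1} := by
    refine closure_minimal (fun y hy => ?_) ?_
    · have := th2_ne_zero hy
      exact ⟨this.1.le, this.2.le⟩
    · refine IsClosed.inter ?_ ?_
      · exact isClosed_le (f := fun y : E2 => |y 0 - (a.1 : ℝ)|) (g := fun _ => (1:ℝ))
          (by fun_prop) continuous_const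
      · exact isClosed_le (f := fun y : E2 => |y 1 - (a.2 : ℝ)|) (g := fun _ => (1:ℝ))
          (by fun_prop) continuous_const
  exact h2 h1

lemma card_near_le (T : Finset (ℤ × ℤ)) (y : E2) (P : ℤ × ℤ → Prop) [DecidablePred P]
    (hP : ∀ a, P a → |y 0 - a.1| ≤ 1 ∧ |y 1 - a.2| ≤ 1) : (T.filter P).card ≤ 9 := by
  have h1 : T.filter P ⊆ Finset.Icc ⌈y 0 - 1⌉ ⌊y 0 + 1⌋ ×ˢ Finset.Icc ⌈y 1 - 1⌉ ⌊y 1 + 1⌋ := by
    intro a ha
    have h2 := hP a (Finset.mem_filter.1 ha).2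
    have h3 := abs_le.1 h2.1
    have h4 := abs_le.1 h2.2
    simp only [Finset.mem_product, Finset.mem_Icc, Int.ceil_le, Int.le_floor]
    refine ⟨⟨?_, ?_⟩, ?_, ?_⟩ <;> linarith
  have hc : ∀ x : ℝ, (Finset.Icc ⌈x - 1⌉ ⌊x + 1⌋).card ≤ 3 := by
    intro x
    rw [Int.card_Icc]
    have h5 : (⌊x + 1⌋ : ℝ) ≤ x + 1 := Int.floor_le _
    have h6 : x - 1 ≤ (⌈x - 1⌉ : ℝ) := Int.le_ceil _
    have h7 : ((⌊x + 1⌋ + 1 - ⌈x - 1⌉ : ℤ) : ℝ) ≤ 3 := by push_cast; linarith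
    have h8 : (⌊x + 1⌋ + 1 - ⌈x - 1⌉ : ℤ) ≤ 3 := by exact_mod_cast h7
    omega
  calc (T.filter P).card ≤ _ := Finset.card_le_card h1
    _ = (Finset.Icc ⌈y 0 - 1⌉ ⌊y 0 + 1⌋).card * (Finset.Icc ⌈y 1 - 1⌉ ⌊y 1 + 1⌋).card :=
        Finset.card_product _ _
    _ ≤ 3 * 3 := Nat.mul_le_mul (hc _) (hc _)
    _ = 9 := rfl

/-- the sum of the bumps over `T`. -/
noncomputable def Ph (T : Finset (ℤ × ℤ)) (y : E2) : ℂ := ((∑ a ∈ T, th2 a y : ℝ) : ℂ)

lemma contDiff_sum_th2 (T : Finset (ℤ × ℤ)) : ContDiff ℝ ∞ fun y => ∑ a ∈ T, th2 a y :=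
  ContDiff.sum fun a _ => contDiff_th2 a

lemma deriv_Ph {i : ℕ} {C : ℝ} (hC : 0 < C) (h : ∀ (a : ℤ × ℤ) (y : E2),
    ‖iteratedFDeriv ℝ i (th2 a) y‖ ≤ C) (T : Finset (ℤ × ℤ)) (y : E2) :
    ‖iteratedFDeriv ℝ i (Ph T) y‖ ≤ 9 * C := by
  classical
  have e1 : ‖iteratedFDeriv ℝ i (Ph T) y‖ = ‖iteratedFDeriv ℝ i (fun y => ∑ a ∈ T, th2 a y) y‖ := by
    have h1 := Complex.ofRealLI.norm_iteratedFDeriv_comp_left
      (f := fun y => ∑ a ∈ T, th2 a y) (x := y) (n := i) (i := i)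
      ((contDiff_sum_th2 T).of_le (by exact_mod_cast le_top)).contDiffAt le_rfl
    rw [← h1]
    rfl
  rw [e1, iteratedFDeriv_fun_sum_apply fun a _ =>
    ((contDiff_th2 a).of_le (by exact_mod_cast le_top)).contDiffAt]
  calc ‖∑ a ∈ T, iteratedFDeriv ℝ i (th2 a) y‖
      = ‖∑ a ∈ T.filter (fun a => iteratedFDeriv ℝ i (th2 a) y ≠ 0),
          iteratedFDeriv ℝ i (th2 a) y‖ := by rw [Finset.sum_filter_ne_zero]
    _ ≤ ∑ a ∈ T.filter (fun a => iteratedFDeriv ℝ i (th2 a) y ≠ 0),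
          ‖iteratedFDeriv ℝ i (th2 a) y‖ := norm_sum_le _ _
    _ ≤ ∑ a ∈ T.filter (fun a => iteratedFDeriv ℝ i (th2 a) y ≠ 0), C :=
        Finset.sum_le_sum fun a _ => h a y
    _ = ((T.filter (fun a => iteratedFDeriv ℝ i (th2 a) y ≠ 0)).card : ℝ) * C := by simp
    _ ≤ 9 * C := by
        gcongr
        exact_mod_cast card_near_le T y _ fun a ha => deriv_th2_supp ha

lemma mul_Ph (n : ℕ) : ∃ c : ℝ, 0 < c ∧ ∀ T : Finset (ℤ × ℤ), Mul n c (Ph T) := by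
  choose C hC0 hC using deriv_th2_bdd
  refine ⟨9 * ∑ i ∈ Finset.range (n + 1), C i, ?_, fun T => ⟨?_, fun i hi y => ?_, fun i => ?_⟩⟩
  · have : 0 < ∑ i ∈ Finset.range (n + 1), C i :=
      Finset.sum_pos (fun i _ => hC0 i) ⟨0, by simp⟩
    positivity
  · exact Complex.ofRealCLM.contDiff.comp (contDiff_sum_th2 T)
  · refine (deriv_Ph (hC0 i) (hC i) T y).trans ?_
    have := Finset.single_le_sum (f := C) (fun i _ => (hC0 i).le)
      (Finset.mem_range.2 (show i < n + 1 by omega))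
    linarith
  · exact ⟨_, fun y => deriv_Ph (hC0 i) (hC i) T y⟩

lemma norm_Ph_le (T : Finset (ℤ × ℤ)) (y : E2) : ‖Ph T y‖ ≤ 9 := by
  classical
  unfold Ph
  rw [Complex.norm_real, Real.norm_of_nonneg (Finset.sum_nonneg fun a _ => th2_nonneg a y),
    ← Finset.sum_filter_ne_zero]
  calc ∑ a ∈ T.filter (fun a => th2 a y ≠ 0), th2 a y
      ≤ ∑ a ∈ T.filter (fun a => th2 a y ≠ 0), (1:ℝ) := Finset.sum_le_sum fun a _ => by
        unfold th2
        exact mul_le_one₀ (th_le_one _) (th_nonneg _) (th_le_one _)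
    _ = ((T.filter (fun a => th2 a y ≠ 0)).card : ℝ) := by simp
    _ ≤ 9 := by
        exact_mod_cast card_near_le T y _ fun a ha => by
          have := th2_ne_zero ha
          exact ⟨this.1.le, this.2.le⟩

end Crest.Agent.R138.Bn759
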