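import Crest.Agent.R138.Wpk7_685
import Crest.Agent.R138.DecDef_774

-- ▼ part R138/Wpk8_685
section

/-!
# R138 / R139: selectable wave packets, part 8 (helper685): dyadic sides, discrete densities imply
densities, total energy, levels.
-/

set_option autoImplicit false
set_option linter.unusedSectionVars false

open MeasureTheory FourierTransform
open scoped ContDiff ENNReal

namespace Crest.Agent.R138.Wpk685

open Crest.Agent.R138.Defs

/-! ### dyadic sides -/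

/-- dyadic side. -/
noncomputable def sg (ρ : ℝ) (a : ℕ) : ℝ := min (2 ^ a * ρ) 1

theorem sg_le_one (ρ : ℝ) (a : ℕ) : sg ρ a ≤ 1 := min_le_right _ _

theorem sg_ge {ρ : ℝ} (hρ : 0 < ρ) (hρ1 : ρ ≤ 1) (a : ℕ) : ρ ≤ sg ρ a := by
  unfold sg
  refine le_min ?_ hρ1
  have : (1:ℝ) ≤ 2 ^ a := one_le_pow₀ (by norm_num)
  nlinarith

theorem sg_mono {ρ : ℝ} (hρ : 0 < ρ) {a b : ℕ} (h : a ≤ b) : sg ρ a ≤ sg ρ b := by
  unfold sg
  have : (2:ℝ) ^ a ≤ 2 ^ b := pow_le_pow_right₀ (by norm_num) h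
  gcongr

theorem sg_succ {ρ : ℝ} (hρ : 0 < ρ) (a : ℕ) : sg ρ (a + 1) ≤ 2 * sg ρ a := by
  unfold sg
  rw [pow_succ]
  have h1 : 0 < 2 ^ a * ρ := by positivity
  rcases le_total (2 ^ a * ρ) 1 with h | h
  · rw [min_eq_left h]
    exact (min_le_left _ _).trans (by linarith)
  · rw [min_eq_right h]
    exact (min_le_right _ _).trans (by norm_num)

theorem exists_side {ρ : ℝ} (hρ : 0 < ρ) {n : ℕ} (hn : 1 ≤ 2 ^ n * ρ) {s : ℝ} (h1 : ρ ≤ s)
    (h2 : s ≤ 1) : ∃ a ≤ n, s ≤ sg ρ a ∧ sg ρ a ≤ 2 * s ∧ ∀ b, s ≤ sg ρ b → a ≤ b := by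
  classical
  have hex : ∃ a, s ≤ sg ρ a := ⟨n, by unfold sg; rw [min_eq_right hn]; exact h2⟩
  refine ⟨Nat.find hex, Nat.find_min' hex ?_, Nat.find_spec hex, ?_, fun b hb => Nat.find_min' hex hb⟩
  · unfold sg; rw [min_eq_right hn]; exact h2
  · rcases Nat.eq_zero_or_pos (Nat.find hex) with h | h
    · rw [h]
      unfold sg
      refine (min_le_left _ _).trans ?_
      rw [pow_zero, one_mul]
      linarith
    · have h3 := Nat.find_min hex (Nat.sub_one_lt_of_lt h)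
      push Not at h3
      have h4 := sg_succ hρ (Nat.find hex - 1)
      rw [Nat.sub_add_cancel h] at h4
      linarith

/-- a discrete test box. -/
structure Tst where
  c : E2
  b : OrthonormalBasis (Fin 2) ℝ E2
  y : E2
  a : Fin 2 → ℕ

/-- the cell `x` lies in the test box `p`. -/
def inP (h : E2 → ℝ) (ρ l r : ℝ) (p : Tst) (x : Cel) : Prop :=
  (∀ i, |inner ℝ (gradient h (cen ρ x.1) - p.c) (p.b i)| ≤ sg ρ (p.a i)) ∧
    ∀ i, |inner ℝ (cen l x.2 - p.y) (p.b i)| ≤ sg ρ (p.a i) * r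

/-- normalised cost of the sides. -/
noncomputable def cst (q ρ r : ℝ) (a : Fin 2 → ℕ) : ℝ :=
  (sg ρ (a 1)) ^ q * (sg ρ (a 0) * sg ρ (a 1) * r ^ 2)

open Classical in
/-- discrete density bound. -/
def DD (q : ℝ) (h : E2 → ℝ) (ρ l r : ℝ) (g : E2 → ℂ) (n : ℕ) (X : Finset Cel) (Δ : ℝ) : Prop :=
  ∀ p : Tst, p.a 0 ≤ p.a 1 → p.a 1 ≤ n →
    ∑ x ∈ X with inP h ρ l r p x, ec ρ l g x ≤ ENNReal.ofReal (Δ * cst q ρ r p.a)

theorem DD.mono {q : ℝ} {h : E2 → ℝ} {ρ l r : ℝ} {g : E2 → ℂ} {n : ℕ} {X Y : Finset Cel} {Δ : ℝ}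
    (H : DD q h ρ l r g n X Δ) (hY : Y ⊆ X) : DD q h ρ l r g n Y Δ := by
  classical
  intro p h1 h2
  refine (Finset.sum_le_sum_of_subset ?_).trans (H p h1 h2)
  exact Finset.filter_subset_filter _ hY

theorem cover_sum {α κ : Type*} (e : α → ℝ≥0∞) (X : Finset α) (J : Finset κ) (Q : α → Prop)
    [DecidablePred Q] (T : κ → α → Prop) [∀ j, DecidablePred (T j)]
    (h : ∀ x ∈ X, Q x → ∃ j ∈ J, T j x) :
    ∑ x ∈ X with Q x, e x ≤ ∑ j ∈ J, ∑ x ∈ X with T j x, e x := by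
  classical
  simp only [Finset.sum_filter]
  rw [Finset.sum_comm]
  refine Finset.sum_le_sum fun x hx => ?_
  by_cases hq : Q x
  · obtain ⟨j, hj, hT⟩ := h x hx hq
    rw [if_pos hq]
    refine le_trans ?_ (Finset.single_le_sum (f := fun j => if T j x then e x else 0)
      (fun _ _ => zero_le) hj)
    simp only [if_pos hT]
    exact le_rfl
  · rw [if_neg hq]
    exact zero_le

theorem en_mono {ρ : ℝ} {g : E2 → ℂ} {S T : ℤ × ℤ → Set E2} (h : ∀ m ∈ caps ρ, S m ⊆ T m) :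
    en ρ g S ≤ en ρ g T := by
  unfold en
  exact Finset.sum_le_sum fun m hm => lintegral_mono_set (h m hm)

theorem dens_core {q : ℝ} (hq : 0 ≤ q) {h : E2 → ℝ} {r : ℝ} (hr : 1 ≤ r) {g : E2 → ℂ} {n : ℕ}
    (hn : 1 ≤ 2 ^ n * r ^ (-(1/2) : ℝ)) {X : Finset Cel}
    (hX : ∀ x ∈ X, x.1 ∈ caps (r ^ (-(1/2) : ℝ))) {Δ : ℝ} (hΔ : 0 ≤ Δ)
    (H : DD q h (r ^ (-(1/2) : ℝ)) (r ^ (-(1/2) : ℝ) * r) r g n X Δ)
    (c : E2) (b : OrthonormalBasis (Fin 2) ℝ E2) (s : Fin 2 → ℝ) (y0 : E2)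
    (hs : ∀ i, r ^ (-(1/2) : ℝ) ≤ s i ∧ s i ≤ 1) (hs01 : s 0 ≤ s 1) :
    en (r ^ (-(1/2) : ℝ)) g
        (fun m => cs (r ^ (-(1/2) : ℝ) * r) X m ∩ pbox h r c b s y0 m) ≤
      ENNReal.ofReal ((49 * 2 ^ (q + 2) * Δ) * (max (s 0) (s 1)) ^ q * (s 0 * s 1 * r ^ 2)) := by
  classical
  obtain ⟨hρ, hρ1, hρ2⟩ := rp_facts hr
  have hr0 : 0 < r := by linarith
  have hpb : ∀ m, pbox h r c b s y0 m = {y | (∀ i, |inner ℝ (gradient h (cen (r ^ (-(1/2) : ℝ)) m) - c) (b i)| ≤ s i) ∧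
    ∀ i, |inner ℝ (y - y0) (b i)| ≤ s i * r} := fun m => rfl
  set ρ : ℝ := r ^ (-(1/2) : ℝ) with hρdef
  set l : ℝ := ρ * r with hl
  have hl0 : 0 < l := by positivity
  obtain ⟨a0, ha0n, ha01, ha02, ha03⟩ := exists_side hρ hn (hs 0).1 (hs 0).2
  obtain ⟨a1, ha1n, ha11, ha12, ha13⟩ := exists_side hρ hn (hs 1).1 (hs 1).2
  have ha : a0 ≤ a1 := ha03 a1 (hs01.trans ha11)
  have hs0 : 0 < s 0 := hρ.trans_le (hs 0).1
  have hs1 : 0 < s 1 := hρ.trans_le (hs 1).1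
  set a : Fin 2 → ℕ := ![a0, a1] with hadef
  have hsa : ∀ i, s i ≤ sg ρ (a i) := by
    intro i; fin_cases i
    · exact ha01
    · exact ha11
  set J : Finset (ℤ × ℤ) := Finset.Icc (-⌈(3:ℝ)⌉) ⌈(3:ℝ)⌉ ×ˢ Finset.Icc (-⌈(3:ℝ)⌉) ⌈(3:ℝ)⌉ with hJ
  have hJc : J.card = 49 := by
    rw [hJ, Finset.card_product]
    have : ⌈(3:ℝ)⌉ = 3 := by
      have := Int.ceil_natCast (R := ℝ) 3
      exact_mod_cast this
    rw [this]
    rfl
  set tp : ℤ × ℤ → Tst := fun j => ⟨c, b, y0 + sh b ![2 * j.1 * (sg ρ (a 0) * r),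
    2 * j.2 * (sg ρ (a 1) * r)], a⟩ with htp
  have hsg : ∀ i, 0 < sg ρ (a i) := fun i => hρ.trans_le (sg_ge hρ hρ1 _)
  -- cells which meet the box
  set Q : Cel → Prop := fun x => ∃ y, kk l y = x.2 ∧ y ∈ pbox h r c b s y0 x.1 with hQ
  have step1 : en ρ g (fun m => cs l X m ∩ pbox h r c b s y0 m) ≤
      ∑ x ∈ X with Q x, ec ρ l g x := by
    rw [← en_cs ρ l g (X.filter Q) (fun x hx => hX x (Finset.mem_filter.1 hx).1)]
    refine en_mono fun m _ y hy => ?_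
    show (m, kk l y) ∈ X.filter Q
    rw [Finset.mem_filter]
    exact ⟨hy.1, y, rfl, hy.2⟩
  have step2 : ∑ x ∈ X with Q x, ec ρ l g x ≤
      ∑ j ∈ J, ∑ x ∈ X with inP h ρ l r (tp j) x, ec ρ l g x := by
    refine cover_sum _ _ _ _ _ fun x hx hQx => ?_
    obtain ⟨y, hy1, hy2⟩ := hQx
    rw [hpb] at hy2
    obtain ⟨hy3, hy4⟩ := hy2
    have h5 : ∀ i, |inner ℝ (cen l x.2 - y0) (b i)| ≤ 3 * (sg ρ (a i) * r) := by
      intro i
      have h6 : cen l x.2 - y0 = (y - y0) - (y - cen l x.2) := by abel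
      rw [h6, inner_sub_left]
      refine (abs_sub _ _).trans ?_
      have h7 : |inner ℝ (y - cen l x.2) (b i)| ≤ 3 / 2 * l := by
        refine (abs_real_inner_le_norm _ _).trans ?_
        rw [b.norm_eq_one, mul_one, ← hy1]
        exact kk_dist hl0 y
      have h8 : l ≤ s i * r := by
        rw [hl]
        have := (hs i).1
        gcongr
      have h9 := hy4 i
      have h10 : s i * r ≤ sg ρ (a i) * r := by
        have := hsa i
        gcongr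
      have h11 : 0 < sg ρ (a i) * r := mul_pos (hsg i) hr0
      linarith
    obtain ⟨j, hj1, hj2⟩ := near_shift (by norm_num : (1:ℝ) ≤ 3) b
      (s := fun i => sg ρ (a i) * r) (fun i => mul_pos (hsg i) hr0) (cen l x.2 - y0) h5
    refine ⟨j, hj1, fun i => (hy3 i).trans (hsa i), fun i => ?_⟩
    have h12 := hj2 i
    have h13 : (tp j).y = y0 + sh b ![2 * j.1 * (sg ρ (a 0) * r),
      2 * j.2 * (sg ρ (a 1) * r)] := rfl
    rw [h13, ← sub_sub]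
    exact h12
  have step3 : ∑ j ∈ J, ∑ x ∈ X with inP h ρ l r (tp j) x, ec ρ l g x ≤
      ∑ j ∈ J, ENNReal.ofReal (Δ * cst q ρ r a) :=
    Finset.sum_le_sum fun j _ => H (tp j) ha ha1n
  refine (step1.trans (step2.trans step3)).trans ?_
  rw [Finset.sum_const, hJc, nsmul_eq_mul]
  have h13 : ((49 : ℕ) : ℝ≥0∞) = ENNReal.ofReal 49 := by
    rw [ENNReal.ofReal_ofNat]; rfl
  rw [h13, ← ENNReal.ofReal_mul (by norm_num)]
  refine ENNReal.ofReal_le_ofReal ?_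
  rw [max_eq_right hs01]
  unfold cst
  have e0 : sg ρ (a 0) ≤ 2 * s 0 := ha02
  have e1 : sg ρ (a 1) ≤ 2 * s 1 := ha12
  have hg0 : 0 < sg ρ (a 0) := hsg 0
  have hg1 : 0 < sg ρ (a 1) := hsg 1
  have h14 : (sg ρ (a 1)) ^ q ≤ (2 * s 1) ^ q := by
    gcongr
  have h15 : sg ρ (a 0) * sg ρ (a 1) * r ^ 2 ≤ (2 * s 0) * (2 * s 1) * r ^ 2 := by
    gcongr
  have h16 : (2 * s 1) ^ q = 2 ^ q * s 1 ^ q := Real.mul_rpow (by norm_num) hs1.le
  have h17 : (2:ℝ) ^ (q + 2) = 2 ^ q * 4 := by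
    rw [Real.rpow_add (by norm_num)]; norm_num
  have hsq : 0 ≤ s 1 ^ q := by positivity
  calc 49 * (Δ * ((sg ρ (a 1)) ^ q * (sg ρ (a 0) * sg ρ (a 1) * r ^ 2))) ≤
      49 * (Δ * ((2 * s 1) ^ q * ((2 * s 0) * (2 * s 1) * r ^ 2))) := by
        gcongr
    _ = _ := by
        rw [h16, h17]; ring

theorem dens_of_dd {q : ℝ} (hq : 0 ≤ q) {h : E2 → ℝ} {r : ℝ} (hr : 1 ≤ r) {g : E2 → ℂ} {n : ℕ}
    (hn : 1 ≤ 2 ^ n * r ^ (-(1/2) : ℝ)) {X : Finset Cel}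
    (hX : ∀ x ∈ X, x.1 ∈ caps (r ^ (-(1/2) : ℝ))) {Δ : ℝ} (hΔ : 0 ≤ Δ)
    (H : DD q h (r ^ (-(1/2) : ℝ)) (r ^ (-(1/2) : ℝ) * r) r g n X Δ) :
    Dens q h r g (cs (r ^ (-(1/2) : ℝ) * r) X) (49 * 2 ^ (q + 2) * Δ) := by
  intro c b s y0 hs
  rcases le_total (s 0) (s 1) with h01 | h01
  · exact dens_core hq hr hn hX hΔ H c b s y0 hs h01
  · have h1 := dens_core hq hr hn hX hΔ H c (b.reindex (Equiv.swap 0 1))
      (fun i => s (Equiv.swap 0 1 i)) y0 (fun i => hs _) (by simpa using h01)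
    have h2 : ∀ m, pbox h r c (b.reindex (Equiv.swap 0 1)) (fun i => s (Equiv.swap 0 1 i)) y0 m =
        pbox h r c b s y0 m := by
      intro m
      ext y
      simp only [pbox, Set.mem_ofPred_eq, Fin.forall_fin_two, OrthonormalBasis.reindex_apply,
        Equiv.symm_swap, Equiv.swap_apply_left, Equiv.swap_apply_right]
      tauto
    simp only [h2, Equiv.swap_apply_left, Equiv.swap_apply_right] at h1
    rw [max_comm, mul_comm (s 1) (s 0)] at h1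
    exact h1

/-- total energy bound from the discrete density. -/
theorem tot_le (B : ℕ → ℝ) {q : ℝ} {h : E2 → ℝ} (hh : ParB B h) (h1 : fderiv ℝ h 0 = 0) {r : ℝ}
    (hr : 1 ≤ r) {g : E2 → ℂ} {n : ℕ} (hn : 1 ≤ 2 ^ n * r ^ (-(1/2) : ℝ)) {X : Finset Cel}
    {K : ℝ} (hK : 1 ≤ K)
    (hX : ∀ x ∈ X, x.1 ∈ caps (r ^ (-(1/2) : ℝ)) ∧ ‖cen (r ^ (-(1/2) : ℝ) * r) x.2‖ ≤ K * r)
    {Δ : ℝ} (hΔ : 0 ≤ Δ)
    (H : DD q h (r ^ (-(1/2) : ℝ)) (r ^ (-(1/2) : ℝ) * r) r g n X Δ) :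
    ∑ x ∈ X, ec (r ^ (-(1/2) : ℝ)) (r ^ (-(1/2) : ℝ) * r) g x ≤
      ENNReal.ofReal (((Finset.Icc (-⌈6 * (1 + |B 2|)⌉) ⌈6 * (1 + |B 2|)⌉ ×ˢ
        Finset.Icc (-⌈6 * (1 + |B 2|)⌉) ⌈6 * (1 + |B 2|)⌉) ×ˢ
        (Finset.Icc (-⌈K⌉) ⌈K⌉ ×ˢ Finset.Icc (-⌈K⌉) ⌈K⌉)).card * (Δ * r ^ 2)) := by
  classical
  obtain ⟨hρ, hρ1, hρ2⟩ := rp_facts hr
  have hr0 : 0 < r := by linarith
  set ρ : ℝ := r ^ (-(1/2) : ℝ) with hρdef
  set l : ℝ := ρ * r with hl
  have hl0 : 0 < l := by positivity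
  set V : ℝ := 6 * (1 + |B 2|) with hV
  have hB2 : 0 ≤ |B 2| := abs_nonneg _
  have hV1 : 1 ≤ V := by rw [hV]; linarith
  set J : Finset ((ℤ × ℤ) × (ℤ × ℤ)) := (Finset.Icc (-⌈V⌉) ⌈V⌉ ×ˢ Finset.Icc (-⌈V⌉) ⌈V⌉) ×ˢ
        (Finset.Icc (-⌈K⌉) ⌈K⌉ ×ˢ Finset.Icc (-⌈K⌉) ⌈K⌉) with hJ
  set b : OrthonormalBasis (Fin 2) ℝ E2 := EuclideanSpace.basisFun (Fin 2) ℝ with hb
  have hsn : sg ρ n = 1 := by unfold sg; rw [min_eq_right hn]
  set tp : (ℤ × ℤ) × (ℤ × ℤ) → Tst := fun j => ⟨sh b ![2 * j.1.1 * 1, 2 * j.1.2 * 1], b,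
    sh b ![2 * j.2.1 * r, 2 * j.2.2 * r], ![n, n]⟩ with htp
  have hcaps : ∀ m ∈ caps ρ, ‖cen ρ m‖ ≤ 6 := by
    intro m hm
    have h2 : ∀ z : ℤ, z ∈ Finset.Icc (-⌈2 / ρ⌉ - 1) (⌈2 / ρ⌉ + 1) → |ρ * z| ≤ 4 := by
      intro z hz
      obtain ⟨hz1, hz2⟩ := Finset.mem_Icc.1 hz
      have h3 : (⌈2 / ρ⌉ : ℝ) < 2 / ρ + 1 := Int.ceil_lt_add_one _
      have h4 : (z : ℝ) ≤ ⌈2 / ρ⌉ + 1 := by exact_mod_cast hz2
      have h5 : (-⌈2 / ρ⌉ - 1 : ℝ) ≤ z := by exact_mod_cast hz1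
      have h6 : ρ * (2 / ρ) = 2 := by field_simp
      rw [abs_le]
      constructor <;> nlinarith
    have hm' := Finset.mem_product.1 hm
    have h3 := h2 _ hm'.1
    have h4 := h2 _ hm'.2
    refine le_of_sq_le_sq ?_ (by norm_num)
    rw [EuclideanSpace.norm_sq_eq, Fin.sum_univ_two, cen_zero, cen_one]
    simp only [Real.norm_eq_abs]
    have a0 := abs_nonneg (ρ * (m.1 : ℝ))
    have a1 := abs_nonneg (ρ * (m.2 : ℝ))
    nlinarith
  have step : ∑ x ∈ X with True, ec ρ l g x ≤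
      ∑ j ∈ J, ∑ x ∈ X with inP h ρ l r (tp j) x, ec ρ l g x := by
    refine cover_sum _ _ _ _ _ fun x hx _ => ?_
    obtain ⟨hx1, hx2⟩ := hX x hx
    have h5 : ∀ i, |inner ℝ (gradient h (cen ρ x.1)) (b i)| ≤ V * (fun _ : Fin 2 => (1:ℝ)) i := by
      intro i
      refine (abs_real_inner_le_norm _ _).trans ?_
      rw [b.norm_eq_one, mul_one]
      refine (grad_le hh h1 _).trans ?_
      have := hcaps _ hx1
      simp only [mul_one]
      rw [hV]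
      nlinarith
    obtain ⟨j1, hj1, hj1'⟩ := near_shift hV1 b (s := fun _ => (1:ℝ)) (fun _ => one_pos) _ h5
    have h6 : ∀ i, |inner ℝ (cen l x.2) (b i)| ≤ K * (fun _ : Fin 2 => r) i := by
      intro i
      refine (abs_real_inner_le_norm _ _).trans ?_
      rw [b.norm_eq_one, mul_one]
      exact hx2
    obtain ⟨j2, hj2, hj2'⟩ := near_shift hK b (s := fun _ => r) (fun _ => hr0) _ h6
    refine ⟨(j1, j2), Finset.mem_product.2 ⟨hj1, hj2⟩, fun i => ?_, fun i => ?_⟩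
    · have h7 := hj1' i
      have h8 : sg ρ ((tp (j1, j2)).a i) = 1 := by
        rw [htp]; fin_cases i <;> exact hsn
      rw [h8]
      exact h7
    · have h7 := hj2' i
      have h8 : sg ρ ((tp (j1, j2)).a i) = 1 := by
        rw [htp]; fin_cases i <;> exact hsn
      rw [h8, one_mul]
      exact h7
  rw [Finset.filter_true] at step
  refine step.trans ?_
  have step3 : ∑ j ∈ J, ∑ x ∈ X with inP h ρ l r (tp j) x, ec ρ l g x ≤
      ∑ j ∈ J, ENNReal.ofReal (Δ * r ^ 2) := by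
    refine Finset.sum_le_sum fun j _ => (H (tp j) le_rfl le_rfl).trans ?_
    refine ENNReal.ofReal_le_ofReal (le_of_eq ?_)
    have e0 : (tp j).a 0 = n := rfl
    have e1 : (tp j).a 1 = n := rfl
    unfold cst
    rw [e0, e1, hsn]
    simp
  refine step3.trans ?_
  rw [Finset.sum_const, nsmul_eq_mul, ← ENNReal.ofReal_natCast, ← ENNReal.ofReal_mul (by positivity)]

/-! ### levels -/

theorem levels {α π : Type*} [DecidableEq α] (e : α → ℝ≥0∞) (T : π → α → Prop)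
    [∀ p, DecidablePred (T p)] (cost : ℕ → π → ℝ≥0∞) (X0 : Finset α) :
    ∃ (X : ℕ → Finset α) (n : ℕ → ℕ) (P : ℕ → ℕ → Option π) (A : ℕ → ℕ → Finset α), X 0 = X0 ∧
      ∀ j, (∀ i < n j, A j i ⊆ X j ∧ ∃ p, P j i = some p ∧ (∀ x ∈ A j i, T p x) ∧
          cost j p < ∑ x ∈ A j i, e x) ∧
        (∀ i < n j, ∀ i' < n j, i ≠ i' → Disjoint (A j i) (A j i')) ∧
        (∀ x, x ∈ X (j + 1) ↔ x ∈ X j ∧ ∀ i < n j, x ∉ A j i) ∧
        ∀ p, ∑ x ∈ X (j + 1) with T p x, e x ≤ cost j p := by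
  classical
  have H := fun (j : ℕ) (X : Finset α) => extract e T (cost j) X
  choose nn PP AA h1 h2 h3 using H
  let Xs : ℕ → Finset α := fun j => Nat.rec X0
    (fun j Y => Y.filter (fun x => ∀ i < nn j Y, x ∉ AA j Y i)) j
  have hXs : ∀ j, Xs (j + 1) = (Xs j).filter (fun x => ∀ i < nn j (Xs j), x ∉ AA j (Xs j) i) :=
    fun j => rfl
  refine ⟨Xs, fun j => nn j (Xs j), fun j => PP j (Xs j), fun j => AA j (Xs j), rfl, fun j =>
    ⟨h1 j (Xs j), h2 j (Xs j), ?_, ?_⟩⟩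
  · intro x
    rw [hXs, Finset.mem_filter]
  · intro p
    refine le_trans (le_of_eq ?_) (h3 j (Xs j) p)
    rw [hXs]
    refine Finset.sum_congr ?_ fun _ _ => rfl
    ext x
    simp only [Finset.mem_filter]
    tauto

end Crest.Agent.R138.Wpk685
end

-- ▼ part R138/Wpk9_685

/-!
# R138 / R139: selectable wave packets, part 9 (helper685): greedy data, labels, analytic helpers.
-/

set_option autoImplicit false
set_option linter.unusedSectionVars false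
set_option linter.unusedVariables false

open MeasureTheory FourierTransform
open scoped ContDiff ENNReal

namespace Crest.Agent.R138.Wpk685

open Crest.Agent.R138.Defs Crest.Agent.R138.W188

/-! ### analytic helpers -/

theorem lintEn {f : E2 → ℂ} (hf : MemLp f 2) : ∫⁻ ξ, ‖f ξ‖ₑ ^ 2 = ENNReal.ofReal (En f) := by
  unfold En
  rw [ofReal_integral_eq_lintegral_ofReal hf.norm.integrable_sq
    (Filter.Eventually.of_forall fun _ => by positivity)]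
  refine lintegral_congr fun ξ => ?_
  rw [ENNReal.ofReal_pow (norm_nonneg _), ofReal_norm]

theorem En_nn (g : E2 → ℂ) : 0 ≤ En g := integral_nonneg fun _ => by positivity

theorem norm_tr' (h : E2 → ℝ) (z : E2 × ℝ) (g : E2 → ℂ) (ξ : E2) : ‖tr h z g ξ‖ = ‖g ξ‖ := by
  unfold tr
  rw [norm_mul, norm_ee, mul_one]

theorem En_tr' (h : E2 → ℝ) (z : E2 × ℝ) (g : E2 → ℂ) : En (tr h z g) = En g := by
  unfold En
  simp only [norm_tr']

theorem En_sub_le {f g : E2 → ℂ} (hf : MemLp f 2) (hg : MemLp g 2) :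
    En (fun ξ => f ξ - g ξ) ≤ 2 * En f + 2 * En g := by
  unfold En
  rw [← integral_const_mul, ← integral_const_mul, ← integral_add]
  · refine integral_mono_of_nonneg (Filter.Eventually.of_forall fun _ => by positivity) ?_ ?_
    · exact (hf.norm.integrable_sq.const_mul 2).add (hg.norm.integrable_sq.const_mul 2)
    · refine Filter.Eventually.of_forall fun ξ => ?_
      have h1 := norm_sub_le (f ξ) (g ξ)
      have h2 := norm_nonneg (f ξ - g ξ)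
      simp only
      nlinarith [sq_nonneg (‖f ξ‖ - ‖g ξ‖)]
  · exact hf.norm.integrable_sq.const_mul 2
  · exact hg.norm.integrable_sq.const_mul 2

theorem norm_le_of_enorm_sq {z : ℂ} {a : ℝ} (ha : 0 ≤ a) (h : ‖z‖ₑ ^ 2 ≤ ENNReal.ofReal a) :
    ‖z‖ ≤ Real.sqrt a := by
  rw [← ofReal_norm, ← ENNReal.ofReal_pow (norm_nonneg _), ENNReal.ofReal_le_ofReal_iff ha] at h
  exact Real.le_sqrt_of_sq_le h

theorem phase_cont {h : E2 → ℝ} (hh : Continuous h) (x : E2) (t : ℝ) :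
    Continuous fun ξ => ee (inner ℝ x ξ + t * h ξ) :=
  contDiff_ee.continuous.comp
    ((continuous_const.inner continuous_id).add (continuous_const.mul hh))

theorem phase_int {h : E2 → ℝ} (hh : Continuous h) {f : E2 → ℂ} (hf : Integrable f) (x : E2)
    (t : ℝ) : Integrable (fun ξ => f ξ * ee (inner ℝ x ξ + t * h ξ)) :=
  hf.mul_bdd (c := 1) (phase_cont hh x t).aestronglyMeasurable
    (Filter.Eventually.of_forall fun y => (norm_ee _).le)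

theorem ext_lin {h : E2 → ℝ} (hh : Continuous h) {f1 f2 f3 : E2 → ℂ} (h1 : Integrable f1)
    (h2 : Integrable f2) (h3 : Integrable f3) (x : E2) (t : ℝ) :
    ext h (fun ξ => f1 ξ - f2 ξ + f3 ξ) x t = ext h f1 x t - ext h f2 x t + ext h f3 x t := by
  unfold Defs.ext
  have i1 := phase_int hh h1 x t
  have i2 := phase_int hh h2 x t
  have i3 := phase_int hh h3 x t
  have i12 : Integrable (fun ξ => f1 ξ * ee (inner ℝ x ξ + t * h ξ) -
      f2 ξ * ee (inner ℝ x ξ + t * h ξ)) := i1.sub i2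
  rw [← integral_sub i1 i2, ← integral_add i12 i3]
  congr 1
  funext ξ
  ring

theorem sup_ext : ∃ C : ℝ, 0 ≤ C ∧ ∀ (h : E2 → ℝ) (F : E2 → ℂ), MemLp F 2 →
    (∀ ξ, 2 < ‖ξ‖ → F ξ = 0) → ∀ (x : E2) (t : ℝ), ‖ext h F x t‖ ≤ C * Real.sqrt (En F) := by
  set V : ℝ≥0∞ := volume (Metric.closedBall (0 : E2) 2) with hV
  have hVt : V ≠ ⊤ := measure_closedBall_lt_top.ne
  refine ⟨Real.sqrt V.toReal, by positivity, ?_⟩
  intro h F hF hs x t
  rw [← Real.sqrt_mul ENNReal.toReal_nonneg]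
  refine norm_le_of_enorm_sq (mul_nonneg ENNReal.toReal_nonneg (En_nn F)) ?_
  rw [ENNReal.ofReal_mul ENNReal.toReal_nonneg, ENNReal.ofReal_toReal hVt, ← lintEn hF]
  have h1 : ‖ext h F x t‖ₑ ≤ ∫⁻ ξ, ‖F ξ‖ₑ * (Metric.closedBall (0 : E2) 2).indicator 1 ξ := by
    unfold Defs.ext
    refine (enorm_integral_le_lintegral_enorm _).trans (lintegral_mono fun ξ => ?_)
    simp only
    rw [enorm_mul]
    have h2 : ‖ee (inner ℝ x ξ + t * h ξ)‖ₑ = 1 := by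
      rw [← ofReal_norm, norm_ee, ENNReal.ofReal_one]
    rw [h2, mul_one]
    by_cases hξ : ξ ∈ Metric.closedBall (0 : E2) 2
    · rw [Set.indicator_of_mem hξ, Pi.one_apply, mul_one]
    · rw [hs ξ (by rw [Metric.mem_closedBall, dist_zero_right] at hξ; linarith [not_le.1 hξ])]
      simp
  have hm : Measurable ((Metric.closedBall (0 : E2) 2).indicator (1 : E2 → ℝ≥0∞)) :=
    measurable_one.indicator Metric.isClosed_closedBall.measurableSet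
  refine (pow_le_pow_left₀ zero_le h1 2).trans ?_
  refine (lint_sq_le hF.1.enorm hm.aemeasurable).trans ?_
  rw [lintegral_indicator_one Metric.isClosed_closedBall.measurableSet]
  refine mul_le_mul_right ?_ _
  refine lintegral_mono fun ξ => ?_
  calc ‖F ξ‖ₑ ^ 2 * (Metric.closedBall (0 : E2) 2).indicator 1 ξ ≤ ‖F ξ‖ₑ ^ 2 * 1 := by
        gcongr
        exact Set.indicator_le_self' (fun _ _ => zero_le) ξ
    _ = _ := mul_one _

theorem norm_le_of_inner (b : OrthonormalBasis (Fin 2) ℝ E2) {v : E2} {a : ℝ}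
    (h : ∀ i, |inner ℝ v (b i)| ≤ a) : ‖v‖ ≤ 2 * a := by
  have ha : 0 ≤ a := (abs_nonneg _).trans (h 0)
  refine le_of_sq_le_sq ?_ (by positivity)
  rw [← b.sum_sq_inner_left v, Fin.sum_univ_two]
  have h0 := h 0
  have h1 := h 1
  have e0 := sq_abs (inner ℝ v (b 0))
  have e1 := sq_abs (inner ℝ v (b 1))
  have a0 := abs_nonneg (inner ℝ v (b 0))
  have a1 := abs_nonneg (inner ℝ v (b 1))
  nlinarith

theorem PBox_mono {q : ℝ} {Na : ℕ} {h : E2 → ℝ} {g : E2 → ℂ} {R D D' : ℝ} (hR : 1 ≤ R)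
    (H : PBox q Na h g R D) (hD : D ≤ D') : PBox q Na h g R D' := by
  intro c b s hs ψ hψ x0 t0 hx ht
  refine (H c b s hs ψ hψ x0 t0 hx ht).trans (ENNReal.ofReal_le_ofReal ?_)
  have hR0 : 0 < R := by linarith
  have h0 : 0 < s 0 := (Real.rpow_pos_of_pos hR0 _).trans_le (hs 0).1
  have h1 : 0 < s 1 := (Real.rpow_pos_of_pos hR0 _).trans_le (hs 1).1
  have h2 : 0 < max (s 0) (s 1) := lt_max_of_lt_left h0
  gcongr

/-! ### greedy data -/

theorem greedy {q : ℝ} {h : E2 → ℝ} {ρ l r : ℝ} {g : E2 → ℂ} {n : ℕ} (X0 : Finset Cel) {Δ0 : ℝ}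
    (H0 : DD q h ρ l r g n X0 Δ0) :
    ∃ (X : ℕ → Finset Cel) (nn : ℕ → ℕ) (P : ℕ → ℕ → Tst) (A : ℕ → ℕ → Finset Cel),
      X 0 = X0 ∧
      (∀ j, ∀ i < nn j, A j i ⊆ X j ∧ (P j i).a 0 ≤ (P j i).a 1 ∧ (P j i).a 1 ≤ n ∧
        (∀ x ∈ A j i, inP h ρ l r (P j i) x) ∧
        ENNReal.ofReal (Δ0 / 2 ^ (j + 1) * cst q ρ r (P j i).a) < ∑ x ∈ A j i, ec ρ l g x) ∧
      (∀ j, ∀ i < nn j, ∀ i' < nn j, i ≠ i' → Disjoint (A j i) (A j i')) ∧
      (∀ j, ∀ x, x ∈ X (j + 1) ↔ x ∈ X j ∧ ∀ i < nn j, x ∉ A j i) ∧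
      ∀ j, DD q h ρ l r g n (X j) (Δ0 / 2 ^ j) := by
  classical
  obtain ⟨X, nn, P, A, hX0, H⟩ := levels (ec ρ l g) (inP h ρ l r)
    (fun j p => if p.a 0 ≤ p.a 1 ∧ p.a 1 ≤ n then ENNReal.ofReal (Δ0 / 2 ^ (j + 1) * cst q ρ r p.a)
      else ⊤) X0
  refine ⟨X, nn, fun j i => (P j i).getD ⟨0, EuclideanSpace.basisFun (Fin 2) ℝ, 0, fun _ => 0⟩, A,
    hX0, ?_, fun j => (H j).2.1, fun j => (H j).2.2.1, ?_⟩
  · intro j i hi
    obtain ⟨h1, p, hp, h2, h3⟩ := (H j).1 i hi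
    simp only [hp, Option.getD_some]
    by_cases hc : p.a 0 ≤ p.a 1 ∧ p.a 1 ≤ n
    · simp only [if_pos hc] at h3
      exact ⟨h1, hc.1, hc.2, h2, h3⟩
    · simp only [if_neg hc] at h3
      exact absurd h3 not_top_lt
  · intro j
    rcases j with _ | j
    · rw [hX0, pow_zero, div_one]
      exact H0
    · intro p h1 h2
      have h3 := (H j).2.2.2 p
      simp only [if_pos (And.intro h1 h2)] at h3
      exact h3

section comb

variable {X : ℕ → Finset Cel} {nn : ℕ → ℕ} {A : ℕ → ℕ → Finset Cel}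
  (hA : ∀ j, ∀ i < nn j, A j i ⊆ X j)
  (hd : ∀ j, ∀ i < nn j, ∀ i' < nn j, i ≠ i' → Disjoint (A j i) (A j i'))
  (hX : ∀ j, ∀ x, x ∈ X (j + 1) ↔ x ∈ X j ∧ ∀ i < nn j, x ∉ A j i)

include hX in
theorem X_anti {j j' : ℕ} (h : j ≤ j') : X j' ⊆ X j := by
  induction j', h using Nat.le_induction with
  | base => exact Finset.Subset.refl _
  | succ k hk ih => exact fun x hx => ih ((hX k x).1 hx).1

include hA hd hX in
theorem A_uniq {j i j' i' : ℕ} (hi : i < nn j) (hi' : i' < nn j') {x : Cel} (hx : x ∈ A j i)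
    (hx' : x ∈ A j' i') : j = j' ∧ i = i' := by
  have key : ∀ {j i j' i' : ℕ}, i < nn j → i' < nn j' → x ∈ A j i → x ∈ A j' i' → ¬ j < j' := by
    intro j i j' i' hi hi' hx hx' hlt
    have h1 := X_anti hX (Nat.succ_le_of_lt hlt) (hA j' i' hi' hx')
    exact ((hX j x).1 h1).2 i hi hx
  have hjj : j = j' := le_antisymm (not_lt.1 (key hi' hi hx' hx)) (not_lt.1 (key hi hi' hx hx'))
  subst hjj
  refine ⟨rfl, ?_⟩
  by_contra hne
  exact Finset.disjoint_left.1 (hd j i hi i' hi' hne) hx hx'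

include hA hX in
theorem X_part (J : ℕ) (x : Cel) :
    x ∈ X 0 ↔ x ∈ X J ∨ ∃ j < J, ∃ i < nn j, x ∈ A j i := by
  induction J with
  | zero => simp
  | succ J ih =>
    rw [ih, hX]
    constructor
    · rintro (h | ⟨j, hj, i, hi, h⟩)
      · by_cases h2 : ∃ i < nn J, x ∈ A J i
        · obtain ⟨i, hi, h3⟩ := h2
          exact Or.inr ⟨J, by omega, i, hi, h3⟩
        · push Not at h2
          exact Or.inl ⟨h, h2⟩
      · exact Or.inr ⟨j, by omega, i, hi, h⟩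
    · rintro (h | ⟨j, hj, i, hi, h⟩)
      · exact Or.inl h.1
      · rcases Nat.lt_succ_iff_lt_or_eq.1 hj with h2 | h2
        · exact Or.inr ⟨j, h2, i, hi, h⟩
        · subst h2
          exact Or.inl (hA j i hi h)

end comb

/-! ### labels -/

/-- code of a label. -/
def lab (a0 a1 j : ℕ) : ℕ := Nat.pair (Nat.pair a0 a1) j
def la0 (k : ℕ) : ℕ := (Nat.unpair (Nat.unpair k).1).1
def la1 (k : ℕ) : ℕ := (Nat.unpair (Nat.unpair k).1).2
def lj (k : ℕ) : ℕ := (Nat.unpair k).2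

theorem la0_lab (a0 a1 j : ℕ) : la0 (lab a0 a1 j) = a0 := by simp [la0, lab]
theorem la1_lab (a0 a1 j : ℕ) : la1 (lab a0 a1 j) = a1 := by simp [la1, lab]
theorem lj_lab (a0 a1 j : ℕ) : lj (lab a0 a1 j) = j := by simp [lj, lab]
theorem lab_self (k : ℕ) : lab (la0 k) (la1 k) (lj k) = k := by
  unfold lab la0 la1 lj
  rw [Nat.pair_unpair, Nat.pair_unpair]

/-- the finite set of labels. -/
def Lam (n J : ℕ) : Finset ℕ :=
  (((Finset.range (n + 1) ×ˢ Finset.range (n + 1)) ×ˢ Finset.range J).image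
    (fun t => lab t.1.1 t.1.2 t.2)).filter (fun k => la0 k ≤ la1 k)

theorem mem_Lam {n J k : ℕ} : k ∈ Lam n J ↔ la0 k ≤ la1 k ∧ la1 k ≤ n ∧ lj k < J := by
  unfold Lam
  rw [Finset.mem_filter, Finset.mem_image]
  constructor
  · rintro ⟨⟨t, ht, rfl⟩, h1⟩
    rw [Finset.mem_product, Finset.mem_product, Finset.mem_range, Finset.mem_range,
      Finset.mem_range] at ht
    rw [la0_lab, la1_lab] at h1
    rw [la0_lab, la1_lab, lj_lab]
    exact ⟨h1, by omega, ht.2⟩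
  · rintro ⟨h1, h2, h3⟩
    refine ⟨⟨((la0 k, la1 k), lj k), ?_, lab_self k⟩, h1⟩
    rw [Finset.mem_product, Finset.mem_product, Finset.mem_range, Finset.mem_range,
      Finset.mem_range]
    exact ⟨⟨by simp only; omega, by simp only; omega⟩, h3⟩

theorem card_Lam (n J : ℕ) : (Lam n J).card ≤ (n + 1) ^ 2 * J := by
  unfold Lam
  refine (Finset.card_filter_le _ _).trans (Finset.card_image_le.trans ?_)
  rw [Finset.card_product, Finset.card_product, Finset.card_range, Finset.card_range, sq]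

theorem card_bound {ε : ℝ} (hε : 0 < ε) (T : ℕ) : ∃ C : ℝ, 0 ≤ C ∧ ∀ R : ℝ, 1 ≤ R →
    ((Lam ⌈Real.logb 2 R⌉₊ (T * ⌈Real.logb 2 R⌉₊)).card : ℝ) ≤ C * R ^ ε := by
  refine ⟨T * (6 / ε + 2) ^ 3, by positivity, ?_⟩
  intro R hR
  set n := ⌈Real.logb 2 R⌉₊ with hn
  have hR0 : 0 < R := by linarith
  have h1 : (n : ℝ) < Real.logb 2 R + 1 := Nat.ceil_lt_add_one (Real.logb_nonneg (by norm_num) hR)
  have h2 : Real.logb 2 R ≤ 2 * Real.log R := by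
    unfold Real.logb
    have h3 := Real.log_two_gt_d9
    have h4 : 0 ≤ Real.log R := Real.log_nonneg hR
    rw [div_le_iff₀ (by linarith)]
    nlinarith
  have h3 : Real.log R ≤ R ^ (ε / 3) / (ε / 3) := Real.log_le_rpow_div hR0.le (by positivity)
  have h4 : 1 ≤ R ^ (ε / 3) := Real.one_le_rpow hR (by positivity)
  have h5 : (n : ℝ) + 1 ≤ (6 / ε + 2) * R ^ (ε / 3) := by
    have h6 : R ^ (ε / 3) / (ε / 3) = 3 / ε * R ^ (ε / 3) := by
      field_simp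
    rw [h6] at h3
    have h7 : (6 / ε + 2) * R ^ (ε / 3) = 2 * (3 / ε * R ^ (ε / 3)) + 2 * R ^ (ε / 3) := by ring
    rw [h7]
    linarith
  have h8 : ((Lam n (T * n)).card : ℝ) ≤ (n + 1) ^ 2 * (T * n) := by
    exact_mod_cast card_Lam n (T * n)
  have h9 : (R ^ (ε / 3)) ^ 3 = R ^ ε := by
    rw [← Real.rpow_natCast, ← Real.rpow_mul hR0.le]
    congr 1
    push_cast
    ring
  calc ((Lam n (T * n)).card : ℝ) ≤ (n + 1) ^ 2 * (T * n) := h8
    _ ≤ T * ((n:ℝ) + 1) ^ 3 := by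
        have h10 : (0:ℝ) ≤ n := Nat.cast_nonneg _
        have h11 : (0:ℝ) ≤ T := Nat.cast_nonneg _
        have : ((n:ℝ) + 1) ^ 2 * (T * n) ≤ ((n:ℝ) + 1) ^ 2 * (T * (n + 1)) := by
          gcongr
          linarith
        linarith
    _ ≤ T * ((6 / ε + 2) * R ^ (ε / 3)) ^ 3 := by gcongr
    _ = T * (6 / ε + 2) ^ 3 * R ^ ε := by rw [mul_pow, h9]; ring

theorem two_pow_logb {R : ℝ} (hR : 1 ≤ R) : R ≤ 2 ^ ⌈Real.logb 2 R⌉₊ := by
  have h1 : R = 2 ^ Real.logb 2 R := (Real.rpow_logb (by norm_num) (by norm_num) (by linarith)).symm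
  calc R = 2 ^ Real.logb 2 R := h1
    _ ≤ (2:ℝ) ^ ((⌈Real.logb 2 R⌉₊ : ℕ) : ℝ) := by
        exact Real.rpow_le_rpow_of_exponent_le (by norm_num) (Nat.le_ceil _)
    _ = _ := Real.rpow_natCast _ _

/-! ### the inequality (D6) for one plate -/

theorem d6_real {q s1 s2 r Δ e : ℝ} (hs1 : 0 < s1) (hs2 : 0 < s2) (hr : 0 < r) (hΔ : 0 ≤ Δ)
    (he : Δ / 2 * (s2 ^ q * (s1 * s2 * r ^ 2)) ≤ e) (he0 : 0 ≤ e) :
    Real.sqrt Δ * r * e ≤ Real.sqrt 2 * (s2 ^ (-q / 2) *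
      ((s1 * s2 * r ^ 3) ^ (-(1/2) : ℝ) * (r * e) ^ (3 / 2 : ℝ))) := by
  rcases eq_or_lt_of_le he0 with h0 | h0
  · rw [← h0, mul_zero]
    positivity
  set u : ℝ := s2 ^ (q / 2) with hu
  have hu0 : 0 < u := Real.rpow_pos_of_pos hs2 _
  have e1 : s2 ^ q = u ^ 2 := by
    rw [hu, ← Real.rpow_natCast, ← Real.rpow_mul hs2.le]
    congr 1; push_cast; ring
  have e2 : s2 ^ (-q / 2) = u⁻¹ := by
    rw [hu, ← Real.rpow_neg hs2.le]
    congr 1; ring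
  set v : ℝ := Real.sqrt (s1 * s2) with hv
  have hv0 : 0 < v := Real.sqrt_pos.2 (mul_pos hs1 hs2)
  have e3 : s1 * s2 = v ^ 2 := (Real.sq_sqrt (mul_pos hs1 hs2).le).symm
  set w : ℝ := Real.sqrt r with hw
  have hw0 : 0 < w := Real.sqrt_pos.2 hr
  have e4 : r = w ^ 2 := (Real.sq_sqrt hr.le).symm
  set E : ℝ := Real.sqrt e with hE
  have hE0 : 0 < E := Real.sqrt_pos.2 h0
  have e5 : e = E ^ 2 := (Real.sq_sqrt he0).symm
  set D : ℝ := Real.sqrt Δ with hD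
  have hD0 : 0 ≤ D := Real.sqrt_nonneg _
  have e6 : Δ = D ^ 2 := (Real.sq_sqrt hΔ).symm
  set t : ℝ := Real.sqrt 2 with ht
  have ht0 : 0 < t := Real.sqrt_pos.2 (by norm_num)
  have e7 : t ^ 2 = 2 := Real.sq_sqrt (by norm_num)
  have e8 : (s1 * s2 * r ^ 3) ^ (-(1/2) : ℝ) = (v * w ^ 3)⁻¹ := by
    have : s1 * s2 * r ^ 3 = (v * w ^ 3) ^ 2 := by rw [e3, e4]; ring
    rw [this, ← Real.rpow_natCast, ← Real.rpow_mul (by positivity)]
    have h2 : ((2:ℕ):ℝ) * (-(1/2)) = -1 := by norm_num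
    rw [h2, Real.rpow_neg_one]
  have e9 : (r * e) ^ (3 / 2 : ℝ) = (w * E) ^ 3 := by
    have : r * e = (w * E) ^ 2 := by rw [e4, e5]; ring
    rw [this, ← Real.rpow_natCast, ← Real.rpow_mul (by positivity)]
    have h2 : ((2:ℕ):ℝ) * (3/2) = ((3:ℕ):ℝ) := by norm_num
    rw [h2, Real.rpow_natCast]
  rw [e2, e8, e9]
  have key : D * w ^ 2 * u * v ≤ t * E := by
    refine le_of_sq_le_sq ?_ (by positivity)
    rw [e1, e3, e5, e6, e4] at he
    have : (D * w ^ 2 * u * v) ^ 2 = 2 * (D ^ 2 / 2 * (u ^ 2 * (v ^ 2 * (w ^ 2) ^ 2))) := by ring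
    rw [this, mul_pow, e7]
    linarith
  have e10 : D * r * e = (D * w ^ 2 * u * v) * (E ^ 2 * (u⁻¹ * v⁻¹)) := by
    rw [e4, e5]; field_simp
  have e11 : t * (u⁻¹ * ((v * w ^ 3)⁻¹ * (w * E) ^ 3)) = (t * E) * (E ^ 2 * (u⁻¹ * v⁻¹)) := by
    field_simp
  rw [e10, e11]
  gcongr

theorem d6_enn {q s1 s2 r Δ : ℝ} {e : ℝ≥0∞} (hs1 : 0 < s1) (hs2 : 0 < s2) (hr : 0 < r)
    (hΔ : 0 ≤ Δ) (het : e ≠ ⊤)
    (he : ENNReal.ofReal (Δ / 2 * (s2 ^ q * (s1 * s2 * r ^ 2))) ≤ e) :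
    ENNReal.ofReal (Real.sqrt Δ * r) * e ≤ ENNReal.ofReal (Real.sqrt 2) *
      (ENNReal.ofReal (s2 ^ (-q / 2)) * (ENNReal.ofReal ((s1 * s2 * r ^ 3) ^ (-(1/2) : ℝ)) *
        (ENNReal.ofReal r * e) ^ (3 / 2 : ℝ))) := by
  set e' : ℝ := e.toReal with he'
  have h1 : e = ENNReal.ofReal e' := (ENNReal.ofReal_toReal het).symm
  have h2 : 0 ≤ e' := ENNReal.toReal_nonneg
  rw [h1] at he ⊢
  rw [ENNReal.ofReal_le_ofReal_iff h2] at he
  have h3 := d6_real (q := q) hs1 hs2 hr hΔ he h2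
  rw [← ENNReal.ofReal_mul hr.le, ENNReal.ofReal_rpow_of_nonneg (by positivity) (by norm_num),
    ← ENNReal.ofReal_mul (by positivity), ← ENNReal.ofReal_mul (by positivity),
    ← ENNReal.ofReal_mul (by positivity), ← ENNReal.ofReal_mul (by positivity)]
  exact ENNReal.ofReal_le_ofReal h3

end Crest.Agent.R138.Wpk685
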