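import Crest.Agent.R138.Low4_448
import Crest.Agent.R138.Loc1_878
import Crest.Agent.R138.Ad_480
import Crest.Agent.R138.Rect_779
import Crest.Agent.R138.Sup5_882
import Crest.Agent.R138.PDef_654
import Crest.Agent.R138.Ad2_480
import Crest.Agent.R138.Sm4_858
import Crest.Agent.R138.Wpk9_685

-- ▼ part R138/Up1_448
section

/-!
# R138 / R139: UPPER (F3), slab orthogonality (helper448), part 1

Strips in frequency: orthogonality on an interval of length `1/θ` in the direction `b 1`, with a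
weight of arbitrary thickness `1/θ'` in the direction `b 0`; local constancy of a cap of size `θ`.
-/

set_option autoImplicit false

open MeasureTheory FourierTransform
open scoped ContDiff ENNReal InnerProductSpace

namespace Crest.Agent.R138.Up448

open Crest.Agent.R138.Defs Crest.Agent.R138.Wpk685 Crest.Agent.R138.Wf448
  Crest.Agent.R138.Low448 Crest.Agent.R138.W188 Crest.Agent.R138.Loc878

/-- the frame of the box `(1/θ' in b 0) × (1/θ in b 1)`. -/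
noncomputable def bx (b : OrthonormalBasis (Fin 2) ℝ E2) (θ' θ : ℝ) : E2 →L[ℝ] E2 :=
  fr b ![θ'⁻¹, θ⁻¹]

theorem norm_bx_sq (b : OrthonormalBasis (Fin 2) ℝ E2) (θ' θ : ℝ) (y : E2) :
    ‖bx b θ' θ y‖ ^ 2 = (θ' * inner ℝ y (b 0)) ^ 2 + (θ * inner ℝ y (b 1)) ^ 2 := by
  unfold bx
  rw [norm_fr_sq]
  simp only [Matrix.cons_val_zero, Matrix.cons_val_one]
  rw [div_inv_eq_mul, div_inv_eq_mul, mul_comm θ', mul_comm θ]

theorem inner_adj_bx (b : OrthonormalBasis (Fin 2) ℝ E2) (θ' θ : ℝ) (y : E2) :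
    inner ℝ (adj (bx b θ' θ) y) (b 1) = θ * inner ℝ y (b 1) := by
  rw [ContinuousLinearMap.adjoint_inner_left]
  unfold bx
  rw [real_inner_comm]
  have h := inner_fr b ![θ'⁻¹, θ⁻¹] (b 1)
  have e : fr b ![θ'⁻¹, θ⁻¹] (b 1) = θ • b 1 := by
    rw [fr_apply, Fin.sum_univ_two, b.inner_eq_zero (show (0 : Fin 2) ≠ 1 by decide),
      b.inner_eq_one]
    simp
  rw [e, inner_smul_left, real_inner_comm]
  simp

theorem card_int_near (a : ℝ) (K : Finset ℤ) :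
    ((K.filter fun k : ℤ => |a - k| < 4).card : ℝ) ≤ 9 := by
  have h : (K.filter fun k : ℤ => |a - k| < 4) ⊆ Finset.Icc (⌊a⌋ - 4) (⌊a⌋ + 4) := by
    intro k hk
    rw [Finset.mem_filter] at hk
    have h1 := abs_lt.1 hk.2
    have h2 := Int.floor_le a
    have h3 := Int.lt_floor_add_one a
    rw [Finset.mem_Icc]
    constructor
    · have : (⌊a⌋ : ℝ) - 4 < k + 1 := by linarith
      have h4 : ⌊a⌋ - 4 < k + 1 := by exact_mod_cast this
      omega
    · have : (k : ℝ) < ⌊a⌋ + 1 + 4 := by linarith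
      have h4 : k < ⌊a⌋ + 1 + 4 := by exact_mod_cast this
      omega
  have h2 := Finset.card_le_card h
  rw [Int.card_Icc] at h2
  have h3 : (⌊a⌋ + 4 + 1 - (⌊a⌋ - 4)).toNat = 9 := by omega
  rw [h3] at h2
  exact_mod_cast h2

/-- **orthogonality of strips** on an interval of length `1/θ` in the direction `b 1`. -/
theorem strip_row (n : ℕ) : ∃ C : ℝ, 0 ≤ C ∧ ∀ (b : OrthonormalBasis (Fin 2) ℝ E2) (θ' θ : ℝ),
    0 < θ → ∀ (c : E2) (K : Finset ℤ) (g : ℤ → E2 → ℂ), (∀ k, Integrable (g k)) →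
    (∀ k, MemLp (g k) 2) → (∀ k ∈ K, ∀ ξ, g k ξ ≠ 0 → |inner ℝ ξ (b 1) - k * θ| ≤ 3 * θ) →
    wE n (bx b θ' θ) c (fun ξ => ∑ k ∈ K, g k ξ) ≤
      ENNReal.ofReal C * ∑ k ∈ K, wE n (bx b θ' θ) c (g k) := by
  classical
  obtain ⟨C1, hC1, h1⟩ := decayL (V := E2) (W := E2) n
  obtain ⟨K0, hK0, h2⟩ := cutoffC ℝ
  obtain ⟨χ, hχ1, hχ2, hχ3, hχ4, hχ5, hχ6⟩ := h2 (Metric.closedBall 0 3) 1 one_pos
  set M : ℝ := 1 + ∑ j ∈ Finset.range (n + 1), K0 j ^ 2 with hM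
  have hM0 : 0 < M := by positivity
  refine ⟨C1 * (M * 9), by positivity, ?_⟩
  intro b θ' θ hθ c K g hg hg2 hS
  set A := bx b θ' θ with hA
  set L : E2 →L[ℝ] ℝ := θ⁻¹ • innerSL ℝ (b 1) with hL
  have hLx : ∀ ξ, L ξ = θ⁻¹ * inner ℝ ξ (b 1) := by
    intro ξ
    rw [hL, smul_apply, innerSL_apply_apply, smul_eq_mul, real_inner_comm]
  set m : ℤ → E2 → ℂ := fun k ξ => χ (L ξ - k) with hm
  have hmT : ∀ k, (m k).HasTemperateGrowth := by
    intro k
    have h3 : (fun ξ : E2 => L ξ - (k:ℝ)).HasTemperateGrowth :=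
      L.hasTemperateGrowth.sub (Function.HasTemperateGrowth.const _)
    exact hχ1.comp h3
  have hzero : ∀ x : ℝ, 4 ≤ |x| → ∀ j, iteratedFDeriv ℝ j χ x = 0 := by
    intro x hx j
    refine hχ3 j x fun hc => ?_
    rw [Metric.mem_thickening_iff] at hc
    obtain ⟨z, hz, hz2⟩ := hc
    rw [Metric.mem_closedBall, dist_zero_right, Real.norm_eq_abs] at hz
    rw [Real.dist_eq] at hz2
    have := abs_sub_abs_le_abs_sub x z
    linarith
  have hNn : ∀ k j ξ, Nn A j (m k) ξ ≤ ‖iteratedFDeriv ℝ j χ (L ξ - k)‖ := by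
    intro k j ξ
    have hχc : ContDiff ℝ j χ := hχ1.1.of_le (by exact_mod_cast le_top)
    rw [Nn_eq A ((hmT k).1.of_le (by exact_mod_cast le_top))]
    have e1 : (fun y : E2 => m k (ξ + adj A y)) =
        (fun s : ℝ => χ ((L ξ - k) + s)) ∘ (innerSL ℝ (b 1)) := by
      funext y
      simp only [hm, Function.comp, innerSL_apply_apply]
      congr 1
      rw [map_add, hLx (adj A y), hA, inner_adj_bx, real_inner_comm (b 1) y]
      field_simp
      ring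
    have h4 : ContDiff ℝ j (fun s : ℝ => χ ((L ξ - k) + s)) :=
      hχc.comp (contDiff_const.add contDiff_id)
    rw [e1, ContinuousLinearMap.iteratedFDeriv_comp_right (innerSL ℝ (b 1)) h4 0 le_rfl,
      iteratedFDeriv_comp_add_left]
    refine (ContinuousMultilinearMap.norm_compContinuousLinearMap_le _ _).trans ?_
    rw [Finset.prod_const, Finset.card_fin, innerSL_apply_norm, b.norm_eq_one, one_pow, mul_one]
    simp
  have hb := h1 A c {k // k ∈ K} Unit (fun _ k => m k) (fun k => g k) (Real.sqrt (M * 9))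
    (by positivity) (fun _ k => hmT k) (fun k => hg k) (fun k => hg2 k) ?_
  · simp only [Finset.univ_unique, Finset.sum_singleton] at hb
    have e1 : (fun ξ => ∑ k : {k // k ∈ K}, m k ξ * g k ξ) = fun ξ => ∑ k ∈ K, g k ξ := by
      funext ξ
      rw [← Finset.sum_coe_sort K]
      refine Finset.sum_congr rfl fun k _ => ?_
      by_cases h : g k ξ = 0
      · rw [h, mul_zero]
      · have h5 := hS k k.2 ξ h
        have h6 : m k ξ = 1 := by
          refine hχ2 _ ?_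
          rw [Metric.mem_closedBall, dist_zero_right, Real.norm_eq_abs, hLx]
          have e2 : θ⁻¹ * inner ℝ ξ (b 1) - ((k : ℤ) : ℝ) = (inner ℝ ξ (b 1) - (k : ℤ) * θ) / θ := by
            field_simp
          rw [e2, abs_div, abs_of_pos hθ, div_le_iff₀ hθ]
          exact h5
        rw [h6, one_mul]
    rw [e1, Real.sq_sqrt (by positivity), Finset.sum_coe_sort K (fun k => wE n A c (g k))] at hb
    exact hb
  · intro j hj ξ
    simp only [Finset.univ_unique, Finset.sum_singleton]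
    rw [Real.sq_sqrt (by positivity)]
    have e2 : ∀ k : ℤ, Nn A j (m k) ξ ^ 2 ≤ if |L ξ - k| < 4 then M else 0 := by
      intro k
      split_ifs with hk
      · have a1 : Nn A j (m k) ξ ≤ K0 j := by
          refine (hNn k j ξ).trans ((hχ5 j _).trans ?_)
          simp
        refine (pow_le_pow_left₀ (Nn_nonneg _ _ _ _) a1 2).trans ?_
        have a2 := Finset.single_le_sum (f := fun j => K0 j ^ 2) (fun j _ => sq_nonneg _)
          (Finset.mem_range.2 (Nat.lt_succ_of_le hj))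
        linarith
      · have : Nn A j (m k) ξ = 0 := by
          refine le_antisymm ((hNn k j ξ).trans ?_) (Nn_nonneg _ _ _ _)
          rw [hzero _ (not_lt.1 hk), norm_zero]
        rw [this]; norm_num
    rw [Finset.sum_coe_sort K (fun k => Nn A j (m k) ξ ^ 2)]
    refine (Finset.sum_le_sum fun k _ => e2 k).trans ?_
    rw [← Finset.sum_filter, Finset.sum_const, nsmul_eq_mul, mul_comm]
    exact mul_le_mul_of_nonneg_left (card_int_near _ _) hM0.le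

theorem lintegral_coord (b : OrthonormalBasis (Fin 2) ℝ E2) {f g : ℝ → ℝ≥0∞} (hf : Measurable f)
    (hg : Measurable g) :
    ∫⁻ x : E2, f (inner ℝ x (b 0)) * g (inner ℝ x (b 1)) = (∫⁻ s, f s) * ∫⁻ t, g t := by
  have hm : Measurable fun p : ℝ × ℝ => f p.1 * g p.2 :=
    (hf.comp measurable_fst).mul (hg.comp measurable_snd)
  have h1 : MeasurePreserving (fun x : E2 => (inner ℝ x (b 0), inner ℝ x (b 1)))
      (volume : Measure E2) (volume : Measure (ℝ × ℝ)) := by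
    have e : (fun x : E2 => (inner ℝ x (b 0), inner ℝ x (b 1))) =
        (MeasurableEquiv.finTwoArrow (α := ℝ)) ∘ (WithLp.ofLp (p := 2) (V := Fin 2 → ℝ)) ∘ b.repr := by
      funext x
      simp only [Function.comp, MeasurableEquiv.finTwoArrow_apply]
      rw [show (b.repr x).ofLp 0 = inner ℝ (b 0) x from b.repr_apply_apply x 0,
        show (b.repr x).ofLp 1 = inner ℝ (b 1) x from b.repr_apply_apply x 1,
        real_inner_comm, real_inner_comm x (b 1)]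
    rw [e]
    exact (volume_preserving_finTwoArrow ℝ).comp
      ((PiLp.volume_preserving_ofLp (Fin 2)).comp b.measurePreserving_repr)
  rw [← lintegral_prod_mul hf.aemeasurable hg.aemeasurable, ← Measure.volume_eq_prod,
    ← h1.lintegral_comp hm]

theorem lintegral_quad {θ : ℝ} (hθ : 0 < θ) :
    ∫⁻ s : ℝ, ENNReal.ofReal ((1 + (θ * s) ^ 2)⁻¹) = ENNReal.ofReal (Real.pi / θ) := by
  have hi : Integrable (fun s : ℝ => (1 + (θ * s) ^ 2)⁻¹) :=
    integrable_inv_one_add_sq.comp_mul_left' hθ.ne'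
  rw [← ofReal_integral_eq_lintegral_ofReal hi
      (Filter.Eventually.of_forall fun x => by positivity)]
  congr 1
  have h1 := Measure.integral_comp_mul_left (fun s : ℝ => (1 + s ^ 2)⁻¹) θ
  rw [h1, integral_univ_inv_one_add_sq, abs_of_pos (inv_pos.2 hθ), smul_eq_mul]
  field_simp

/-- the mass of the slab. -/
theorem lintegral_bx (b : OrthonormalBasis (Fin 2) ℝ E2) {θ' θ : ℝ} (hθ' : 0 < θ') (hθ : 0 < θ)
    (c : E2) : ∫⁻ x : E2, ENNReal.ofReal (dw 2 (bx b θ' θ) (x - c)) ≤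
      ENNReal.ofReal (Real.pi ^ 2 / (θ' * θ)) := by
  have h1 : ∫⁻ x : E2, ENNReal.ofReal (dw 2 (bx b θ' θ) (x - c)) =
      ∫⁻ x : E2, ENNReal.ofReal (dw 2 (bx b θ' θ) x) :=
    lintegral_sub_right_eq_self (fun x : E2 => ENNReal.ofReal (dw 2 (bx b θ' θ) x)) c
  rw [h1]
  calc ∫⁻ x : E2, ENNReal.ofReal (dw 2 (bx b θ' θ) x)
      ≤ ∫⁻ x : E2, ENNReal.ofReal ((1 + (θ' * inner ℝ x (b 0)) ^ 2)⁻¹) *
          ENNReal.ofReal ((1 + (θ * inner ℝ x (b 1)) ^ 2)⁻¹) := by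
        refine lintegral_mono fun x => ?_
        rw [← ENNReal.ofReal_mul (by positivity)]
        refine ENNReal.ofReal_le_ofReal ?_
        unfold dw gw
        rw [norm_bx_sq, ← mul_inv]
        refine inv_anti₀ (by positivity) ?_
        nlinarith [sq_nonneg (θ' * inner ℝ x (b 0)), sq_nonneg (θ * inner ℝ x (b 1)),
          mul_nonneg (sq_nonneg (θ' * inner ℝ x (b 0))) (sq_nonneg (θ * inner ℝ x (b 1))),
          sq_nonneg ((θ' * inner ℝ x (b 0)) ^ 2 + (θ * inner ℝ x (b 1)) ^ 2)]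
    _ = ENNReal.ofReal (Real.pi / θ') * ENNReal.ofReal (Real.pi / θ) := by
        have h2 := lintegral_coord b
          (f := fun s => ENNReal.ofReal ((1 + (θ' * s) ^ 2)⁻¹))
          (g := fun s => ENNReal.ofReal ((1 + (θ * s) ^ 2)⁻¹)) (by fun_prop) (by fun_prop)
        rw [h2, lintegral_quad hθ', lintegral_quad hθ]
    _ = _ := by
        rw [← ENNReal.ofReal_mul (by positivity)]
        congr 1
        field_simp

/-- the scaling by `l`. -/
noncomputable def scl (l : ℝ) (hl : l ≠ 0) : E2 ≃L[ℝ] E2 :=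
  ContinuousLinearEquiv.smulLeft (Units.mk0 l hl)

theorem coe_scl (l : ℝ) (hl : l ≠ 0) : (scl l hl : E2 →L[ℝ] E2) = iso l := by
  ext1 x; rfl

theorem adj_iso (l : ℝ) (η : E2) : adj (iso l) η = l • η := by
  refine ext_inner_right ℝ fun v => ?_
  rw [ContinuousLinearMap.adjoint_inner_left, iso_apply, inner_smul_right, real_inner_smul_left]

theorem adet_iso (l : ℝ) : adet (iso l) = l ^ 2 := by
  unfold adet iso
  have e : ((l • ContinuousLinearMap.id ℝ E2 : E2 →L[ℝ] E2) : E2 →ₗ[ℝ] E2) =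
      l • (LinearMap.id : E2 →ₗ[ℝ] E2) := rfl
  rw [e, LinearMap.det_smul, LinearMap.det_id, mul_one, finrank_euclideanSpace_fin,
    abs_of_nonneg (sq_nonneg l)]

theorem norm_bx_ge (b : OrthonormalBasis (Fin 2) ℝ E2) {θ' θ : ℝ} (hθ : 0 ≤ θ) (hθ' : θ ≤ θ')
    (y : E2) : ‖iso θ y‖ ≤ ‖bx b θ' θ y‖ := by
  refine le_of_sq_le_sq ?_ (norm_nonneg _)
  rw [norm_bx_sq, iso_apply, norm_smul, mul_pow, norm_sq_eq b y, Real.norm_eq_abs, sq_abs]
  have h1 : (θ * inner ℝ y (b 0)) ^ 2 ≤ (θ' * inner ℝ y (b 0)) ^ 2 := by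
    rw [mul_pow, mul_pow]
    gcongr
  nlinarith [h1]

theorem lc_pt (n : ℕ) (b : OrthonormalBasis (Fin 2) ℝ E2) {θ' θ : ℝ} (hθ : 0 < θ) (hθθ' : θ ≤ θ')
    (c x y : E2) : dw (n + 2) (bx b θ' θ) (x - c) * dw n (iso (2 * θ)) (y - x) ≤
      dw 2 (bx b θ' θ) (x - c) * (2 ^ n * dw n (iso θ) (y - c)) := by
  have e1 : dw (n + 2) (bx b θ' θ) (x - c) =
      dw 2 (bx b θ' θ) (x - c) * dw n (bx b θ' θ) (x - c) := by
    unfold dw gw
    rw [pow_add, mul_inv, mul_comm]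
  rw [e1, mul_assoc]
  refine mul_le_mul_of_nonneg_left ?_ (dw_pos _ _ _).le
  have a1 := norm_bx_ge b hθ.le hθθ' (x - c)
  have a2 : ‖iso θ (y - x)‖ ≤ ‖iso (2 * θ) (y - x)‖ := by
    rw [iso_apply, iso_apply, norm_smul, norm_smul, Real.norm_eq_abs, Real.norm_eq_abs,
      abs_of_pos hθ, abs_of_pos (by positivity : (0:ℝ) < 2 * θ)]
    nlinarith [norm_nonneg (y - x)]
  have a3 : ‖iso θ (y - c)‖ ≤ ‖iso θ (x - c)‖ + ‖iso θ (y - x)‖ := by
    have : iso θ (y - c) = iso θ (x - c) + iso θ (y - x) := by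
      rw [← map_add]; congr 1; abel
    rw [this]; exact norm_add_le _ _
  unfold dw gw
  rw [← mul_inv, ← mul_pow, ← div_eq_mul_inv, ← one_div, div_le_div_iff₀ (by positivity)
    (by positivity), one_mul, ← mul_pow]
  refine pow_le_pow_left₀ (by positivity) ?_ n
  have n1 := norm_nonneg (iso θ (x - c))
  have n2 := norm_nonneg (iso θ (y - x))
  have n3 := norm_nonneg (iso θ (y - c))
  have q1 : ‖iso θ (x - c)‖ ^ 2 ≤ ‖bx b θ' θ (x - c)‖ ^ 2 := pow_le_pow_left₀ n1 a1 2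
  have q2 : ‖iso θ (y - x)‖ ^ 2 ≤ ‖iso (2 * θ) (y - x)‖ ^ 2 := pow_le_pow_left₀ n2 a2 2
  have q3 : ‖iso θ (y - c)‖ ^ 2 ≤ 2 * (‖iso θ (x - c)‖ ^ 2 + ‖iso θ (y - x)‖ ^ 2) := by
    have := pow_le_pow_left₀ n3 a3 2
    nlinarith [sq_nonneg (‖iso θ (x - c)‖ - ‖iso θ (y - x)‖)]
  have q4 : (1 + ‖iso θ (x - c)‖ ^ 2) * (1 + ‖iso θ (y - x)‖ ^ 2) ≤
      (1 + ‖bx b θ' θ (x - c)‖ ^ 2) * (1 + ‖iso (2 * θ) (y - x)‖ ^ 2) := by gcongr
  nlinarith [mul_nonneg (sq_nonneg ‖iso θ (x - c)‖) (sq_nonneg ‖iso θ (y - x)‖)]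

/-- abstract Tonelli with a pointwise domination. -/
theorem tonelli_dom {u v : E2 → ℝ≥0∞} {k : E2 → E2 → ℝ≥0∞} {F w : E2 → ℝ≥0∞} {a b : ℝ≥0∞}
    (hu : Measurable u) (hv : Measurable v) (hk : Measurable (fun p : E2 × E2 => k p.1 p.2))
    (hF : Measurable F) (hu0 : ∀ x, u x ≠ ⊤) (ha0 : a ≠ ⊤) (hb0 : b ≠ ⊤)
    (h : ∀ x y, u x * k x y ≤ v x * (a * w y))
    (hI : ∫⁻ x, v x ≤ b) : ∫⁻ x, u x * (∫⁻ y, k x y * F y) ≤ (b * a) * ∫⁻ y, w y * F y := by
  calc ∫⁻ x, u x * (∫⁻ y, k x y * F y) = ∫⁻ x, ∫⁻ y, u x * (k x y * F y) := by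
        refine lintegral_congr fun x => ?_
        rw [lintegral_const_mul' _ _ (hu0 x)]
    _ = ∫⁻ y, ∫⁻ x, u x * (k x y * F y) := by
        rw [lintegral_lintegral_swap]
        exact ((hu.comp measurable_fst).mul (hk.mul (hF.comp measurable_snd))).aemeasurable
    _ ≤ ∫⁻ y, ∫⁻ x, v x * (a * w y * F y) := by
        refine lintegral_mono fun y => lintegral_mono fun x => ?_
        have h2 := mul_le_mul_left (h x y) (F y)
        calc u x * (k x y * F y) = u x * k x y * F y := by ring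
          _ ≤ _ := h2
          _ = _ := by ring
    _ = ∫⁻ y, (∫⁻ x, v x) * (a * w y * F y) := by
        refine lintegral_congr fun y => ?_
        rw [lintegral_mul_const _ hv]
    _ ≤ ∫⁻ y, (b * a) * (w y * F y) := by
        refine lintegral_mono fun y => ?_
        calc (∫⁻ x, v x) * (a * w y * F y) ≤ b * (a * w y * F y) := mul_le_mul_left hI _
          _ = _ := by ring
    _ = _ := lintegral_const_mul' _ _ (ENNReal.mul_ne_top hb0 ha0)


theorem meas_dw_sub (c : E2) (k : ℕ) (A : E2 →L[ℝ] E2) : Measurable fun x : E2 => ENNReal.ofReal (dw k A (x - c)) := by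
  have h : Continuous (dw k A) := continuous_dw k A
  exact (h.comp (continuous_id.sub continuous_const)).measurable.ennreal_ofReal

theorem meas_dw_sub2 (A : E2 →L[ℝ] E2) (n : ℕ) : Measurable fun p : E2 × E2 => ENNReal.ofReal (dw n A (p.2 - p.1)) := by
  have h : Continuous (dw n A) := continuous_dw n A
  exact (h.comp (continuous_snd.sub continuous_fst)).measurable.ennreal_ofReal

/-- integration over the slab of a local average. -/
theorem slab_avg (n : ℕ) (b : OrthonormalBasis (Fin 2) ℝ E2) {θ' θ : ℝ} (hθ : 0 < θ)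
    (hθθ' : θ ≤ θ') (c : E2) {F : E2 → ℝ≥0∞} (hF : Measurable F) :
    ∫⁻ x, ENNReal.ofReal (dw (n + 2) (bx b θ' θ) (x - c)) *
        (∫⁻ y, ENNReal.ofReal (dw n (iso (2 * θ)) (y - x)) * F y) ≤
      (ENNReal.ofReal (Real.pi ^ 2 / (θ' * θ)) * ENNReal.ofReal (2 ^ n)) *
        ∫⁻ y, ENNReal.ofReal (dw n (iso θ) (y - c)) * F y := by
  have hθ' : 0 < θ' := hθ.trans_le hθθ'
  refine tonelli_dom (meas_dw_sub c (n + 2) _) (meas_dw_sub c 2 (bx b θ' θ)) (meas_dw_sub2 _ n) hF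
    (fun _ => ENNReal.ofReal_ne_top) ENNReal.ofReal_ne_top ENNReal.ofReal_ne_top ?_
    (lintegral_bx b hθ' hθ c)
  intro x y
  have h1 := ENNReal.ofReal_le_ofReal (lc_pt n b hθ hθθ' c x y)
  rw [ENNReal.ofReal_mul (dw_pos _ _ _).le, ENNReal.ofReal_mul (dw_pos _ _ _).le,
    ENNReal.ofReal_mul (by positivity : (0:ℝ) ≤ 2 ^ n)] at h1
  exact h1

/-- **local constancy**: the energy of a cap of size `θ` on the slab. -/
theorem lc (n : ℕ) : ∃ C : ℝ, 0 ≤ C ∧ ∀ (b : OrthonormalBasis (Fin 2) ℝ E2) (θ' θ : ℝ),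
    0 < θ → θ ≤ θ' → ∀ (c ξ0 : E2) (f : E2 → ℂ), Integrable f →
    (∀ ξ, f ξ ≠ 0 → ‖ξ - ξ0‖ ≤ 2 * θ) →
    wE (n + 2) (bx b θ' θ) c f ≤ ENNReal.ofReal (C * (θ / θ')) * wE n (iso θ) c f := by
  obtain ⟨C1, hC1, h1⟩ := loc_const E2 n
  refine ⟨C1 * 4 * 2 ^ n * Real.pi ^ 2, by positivity, ?_⟩
  intro b θ' θ hθ hθθ' c ξ0 f hf hs
  have hθ' : 0 < θ' := hθ.trans_le hθθ'
  have h2θ : (2 * θ) ≠ 0 := by positivity
  have key : ∀ x, ‖𝓕⁻ f x‖ₑ ^ 2 ≤ ENNReal.ofReal (C1 * (2 * θ) ^ 2) * wE n (iso (2 * θ)) x f := by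
    intro x
    have h2 := h1 (scl (2 * θ) h2θ) ξ0 f hf ?_ x
    · rw [coe_scl, adet_iso] at h2
      exact h2
    · intro ξ hξ
      refine ⟨(2 * θ)⁻¹ • (ξ - ξ0), ?_, ?_⟩
      · rw [norm_smul, norm_inv, Real.norm_eq_abs, abs_of_pos (by positivity : (0:ℝ) < 2 * θ),
          inv_mul_le_iff₀ (by positivity), mul_one]
        exact hs ξ hξ
      · rw [coe_scl, adj_iso, smul_smul, mul_inv_cancel₀ h2θ, one_smul, add_sub_cancel]
  have hm : Measurable fun x => ‖𝓕⁻ f x‖ₑ ^ 2 := measurable_nsq hf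
  have h5 := slab_avg n b hθ hθθ' c hm
  simp only [wE_eq] at key ⊢
  calc ∫⁻ x, ENNReal.ofReal (dw (n + 2) (bx b θ' θ) (x - c)) * ‖𝓕⁻ f x‖ₑ ^ 2
      ≤ ∫⁻ x, ENNReal.ofReal (C1 * (2 * θ) ^ 2) * (ENNReal.ofReal (dw (n + 2) (bx b θ' θ) (x - c)) *
          (∫⁻ y, ENNReal.ofReal (dw n (iso (2 * θ)) (y - x)) * ‖𝓕⁻ f y‖ₑ ^ 2)) := by
        refine lintegral_mono fun x => ?_
        rw [mul_left_comm]
        exact mul_le_mul_right (key x) _
    _ = ENNReal.ofReal (C1 * (2 * θ) ^ 2) * ∫⁻ x, ENNReal.ofReal (dw (n + 2) (bx b θ' θ) (x - c)) *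
          (∫⁻ y, ENNReal.ofReal (dw n (iso (2 * θ)) (y - x)) * ‖𝓕⁻ f y‖ₑ ^ 2) :=
        lintegral_const_mul' _ _ ENNReal.ofReal_ne_top
    _ ≤ ENNReal.ofReal (C1 * (2 * θ) ^ 2) * (ENNReal.ofReal (Real.pi ^ 2 / (θ' * θ)) *
          ENNReal.ofReal (2 ^ n) *
          ∫⁻ y, ENNReal.ofReal (dw n (iso θ) (y - c)) * ‖𝓕⁻ f y‖ₑ ^ 2) := mul_le_mul_right h5 _
    _ = _ := by
        rw [← mul_assoc, ← ENNReal.ofReal_mul (by positivity), ← ENNReal.ofReal_mul (by positivity)]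
        congr 2
        field_simp
        ring

end Crest.Agent.R138.Up448
end

-- ▼ part R138/Up2_448
section

/-!
# R138 / R139: UPPER (F3), slab orthogonality (helper448), part 2

`upper`: the energy of a cap of size `θ'` on a slab `(1/θ' in b 0) × (1/θ in b 1)` is at most
`(θ/θ')·ν` times its energy on the ball of radius `1/θ`, where `ν` bounds the number of active caps
of size `θ` in a strip `⟪ξ, b 1⟫ = kθ + O(θ)`.
-/

set_option autoImplicit false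

open MeasureTheory FourierTransform
open scoped ContDiff ENNReal InnerProductSpace
namespace Crest.Agent.R138.Up448

open Crest.Agent.R138.Defs Crest.Agent.R138.Wpk685 Crest.Agent.R138.Wf448
  Crest.Agent.R138.Low448 Crest.Agent.R138.W188 Crest.Agent.R138.Loc878

/-- `ortho_col` over a `Finset`. -/
theorem col_fin (n : ℕ) : ∃ C : ℝ, 0 ≤ C ∧ ∀ (A : E2 →L[ℝ] E2) (c : E2) (ρ : ℝ), 0 < ρ → ‖A‖ ≤ ρ →
    ∀ (κ : Type) (s : Finset κ) (m : κ → E2 → ℂ) (g : E2 → ℂ) (K L : ℝ), 0 < K → 0 < L →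
    (∀ i ∈ s, (m i).HasTemperateGrowth) →
    (∀ i ∈ s, ∀ j ≤ n, ∀ ξ, ‖iteratedFDeriv ℝ j (m i) ξ‖ ≤ K * (ρ⁻¹) ^ j) →
    (∀ ξ, (Set.ncard {i | i ∈ s ∧ ξ ∈ tsupport (m i)} : ℝ) ≤ L) → Integrable g → MemLp g 2 →
    ∑ i ∈ s, wE n A c (fun ξ => m i ξ * g ξ) ≤ ENNReal.ofReal (C * K ^ 2 * L) * wE n A c g := by
  obtain ⟨C1, hC1, h1⟩ := Crest.Agent.R138.Wf448.ortho_col (V := E2) (W := E2) n
  refine ⟨C1, hC1, ?_⟩
  intro A c ρ hρ hA κ s m g K L hK hL hm hmK hov hg hg2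
  have h2 := h1 A c ρ hρ hA {i // i ∈ s} (fun i => m i.1) g K L hK hL
    (fun i => hm i.1 i.2) (fun i => hmK i.1 i.2) ?_ hg hg2
  · have e2 : ∑ i : {i // i ∈ s}, wE n A c (fun ξ => m i.1 ξ * g ξ) =
        ∑ i ∈ s, wE n A c (fun ξ => m i ξ * g ξ) :=
      Finset.sum_coe_sort s (fun i => wE n A c (fun ξ => m i ξ * g ξ))
    rwa [e2] at h2
  · intro ξ
    refine le_trans ?_ (hov ξ)
    have e3 : {i | i ∈ s ∧ ξ ∈ tsupport (m i)} =
        Subtype.val '' {i : {i // i ∈ s} | ξ ∈ tsupport (m i.1)} := by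
      ext i
      simp only [Set.mem_ofPred_eq, Set.mem_image, Subtype.exists, exists_and_right,
        exists_eq_right]
      tauto
    rw [e3, Set.ncard_image_of_injective _ Subtype.val_injective]

/-- Bessel for the caps, local weight. -/
theorem caps_col (n : ℕ) : ∃ C : ℝ, 0 ≤ C ∧ ∀ (θ : ℝ), 0 < θ → ∀ (c : E2) (s : Finset (ℤ × ℤ))
    (g : E2 → ℂ), Integrable g → MemLp g 2 →
    ∑ m ∈ s, wE n (iso θ) c (fun ξ => cap win (cen θ m) θ ξ * g ξ) ≤
      ENNReal.ofReal C * wE n (iso θ) c g := by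
  obtain ⟨C1, hC1, h1⟩ := col_fin n
  obtain ⟨K, hK, hwin⟩ := win_kbound n
  refine ⟨C1 * K ^ 2 * 36, by positivity, ?_⟩
  intro θ hθ c s g hg hg2
  refine h1 (iso θ) c θ hθ (norm_iso_le hθ.le) (ℤ × ℤ) s (fun m => cap win (cen θ m) θ) g K 36 hK
    (by norm_num) (fun m _ => temperate_cap win_contDiff (fun ζ hζ => win_zero' hζ) _ hθ)
    (fun m _ j hj ξ => hwin θ θ hθ le_rfl m j hj ξ) ?_ hg hg2
  intro ξ
  have : Set.ncard {m | m ∈ s ∧ ξ ∈ tsupport (cap win (cen θ m) θ)} ≤ 36 := by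
    refine card_near hθ ξ _ fun m hm => ?_
    have h2 : tsupport (cap win (cen θ m) θ) ⊆ Metric.closedBall (cen θ m) (71 / 50 * θ) := by
      apply closure_minimal _ Metric.isClosed_closedBall
      intro x hx
      rw [Metric.mem_closedBall, dist_eq_norm]
      exact capwin_supp hθ m x hx
    have h3 := h2 hm.2
    rw [Metric.mem_closedBall, dist_eq_norm] at h3
    linarith
  exact_mod_cast this

/-- one larger window, local weight. -/
theorem cap_mult (n : ℕ) : ∃ C : ℝ, 0 ≤ C ∧ ∀ (θ θ' : ℝ), 0 < θ → θ ≤ θ' → ∀ (c : E2)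
    (m' : ℤ × ℤ) (g : E2 → ℂ), Integrable g → MemLp g 2 →
    wE n (iso θ) c (fun ξ => cap win (cen θ' m') θ' ξ * g ξ) ≤
      ENNReal.ofReal C * wE n (iso θ) c g := by
  obtain ⟨C1, hC1, h1⟩ := col_fin n
  obtain ⟨K, hK, hwin⟩ := win_kbound n
  refine ⟨C1 * K ^ 2 * 1, by positivity, ?_⟩
  intro θ θ' hθ hθ' c m' g hg hg2
  have h2 := h1 (iso θ) c θ hθ (norm_iso_le hθ.le) Unit {()} (fun _ => cap win (cen θ' m') θ') g K 1 hK
    one_pos (fun _ _ => temperate_cap win_contDiff (fun ζ hζ => win_zero' hζ) _ (hθ.trans_le hθ'))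
    (fun _ _ j hj ξ => hwin θ θ' hθ hθ' m' j hj ξ) ?_ hg hg2
  · simpa using h2
  · intro ξ
    have : (Set.ncard {i : Unit | i ∈ ({()} : Finset Unit) ∧
        ξ ∈ tsupport (cap win (cen θ' m') θ')}) ≤ 1 :=
      (Set.ncard_le_ncard (Set.subset_univ _)).trans (by simp)
    exact_mod_cast this

theorem wE_sum_sq (n : ℕ) (A : E2 →L[ℝ] E2) (c : E2) {ι : Type*} (s : Finset ι) (f : ι → E2 → ℂ)
    (hf : ∀ i ∈ s, Integrable (f i)) : wE n A c (fun ξ => ∑ i ∈ s, f i ξ) ≤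
      (s.card : ℝ≥0∞) * ∑ i ∈ s, wE n A c (f i) := by
  simp only [wE_eq]
  rw [← lintegral_finsetSum']
  · rw [← lintegral_const_mul' _ _ (ENNReal.natCast_ne_top _)]
    refine lintegral_mono fun x => ?_
    rw [← Finset.mul_sum, mul_left_comm]
    exact mul_le_mul_right (enorm_fourierInv_sum_sq s f hf x) _
  · intro i hi
    exact ((meas_dw_sub c n A).mul (measurable_nsq (hf i hi))).aemeasurable


theorem wE_split (n : ℕ) (A : E2 →L[ℝ] E2) (c : E2) {ι : Type*} (s : Finset ι) (P : ι → Prop)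
    [DecidablePred P] (f : ι → E2 → ℂ) (hf : ∀ i ∈ s, Integrable (f i)) :
    wE n A c (fun ξ => ∑ i ∈ s, f i ξ) ≤
      2 * (((s.filter P).card : ℝ≥0∞) * ∑ i ∈ s.filter P, wE n A c (f i) +
        ((s.filter fun i => ¬ P i).card : ℝ≥0∞) * ∑ i ∈ s.filter fun i => ¬ P i, wE n A c (f i)) := by
  classical
  have h1 := wE_sum_sq n A c (Finset.univ : Finset Bool)
    (fun j ξ => ∑ i ∈ s.filter (fun i => (decide (P i)) = j), f i ξ)
    (fun j _ => integrable_finsetSum _ fun i hi => hf i (Finset.mem_filter.1 hi).1)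
  have e1 : (fun ξ => ∑ j : Bool, ∑ i ∈ s.filter (fun i => (decide (P i)) = j), f i ξ) =
      fun ξ => ∑ i ∈ s, f i ξ := by
    funext ξ
    exact Finset.sum_fiberwise s _ _
  rw [e1] at h1
  refine h1.trans ?_
  simp only [Fintype.univ_bool, Finset.mem_singleton, Bool.true_eq_false, not_false_eq_true,
    Finset.card_insert_of_notMem, Finset.card_singleton, Finset.sum_insert, Finset.sum_singleton,
    decide_eq_true_eq, decide_eq_false_iff_not]
  norm_num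
  gcongr
  · exact wE_sum_sq n A c _ f (fun i hi => hf i (Finset.mem_filter.1 hi).1)
  · exact wE_sum_sq n A c _ f (fun i hi => hf i (Finset.mem_filter.1 hi).1)

/-- the strip of a cap. -/
noncomputable def stp (b : OrthonormalBasis (Fin 2) ℝ E2) (θ : ℝ) (m : ℤ × ℤ) : ℤ :=
  ⌊inner ℝ (cen θ m) (b 1) / θ⌋

theorem stp_near (b : OrthonormalBasis (Fin 2) ℝ E2) {θ : ℝ} (hθ : 0 < θ) (m : ℤ × ℤ) :
    |inner ℝ (cen θ m) (b 1) - stp b θ m * θ| ≤ θ := by
  unfold stp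
  have h1 := Int.floor_le (inner ℝ (cen θ m) (b 1) / θ)
  have h2 := Int.lt_floor_add_one (inner ℝ (cen θ m) (b 1) / θ)
  rw [le_div_iff₀ hθ] at h1
  rw [div_lt_iff₀ hθ] at h2
  rw [abs_le]
  constructor <;> nlinarith

set_option maxHeartbeats 800000 in
/-- **UPPER (F3)**: slab orthogonality with a bound `ν` for the number of active directions in a
strip. -/
theorem upper (n : ℕ) : ∃ C : ℝ, 0 ≤ C ∧ ∀ (b : OrthonormalBasis (Fin 2) ℝ E2) (θ θ' : ℝ),
    0 < θ → θ ≤ θ' → ∀ (c : E2) (G : E2 → ℂ), Integrable G → MemLp G 2 →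
    (∀ ξ, 2 < ‖ξ‖ → G ξ = 0) → ∀ (m' : ℤ × ℤ) (Act : Finset (ℤ × ℤ)) (ν : ℝ),
    (∀ k : ℤ, (Set.ncard {m | m ∈ Act ∧ Near θ θ' m' m ∧
      |inner ℝ (cen θ m) (b 1) - k * θ| ≤ 4 * θ} : ℝ) ≤ ν) →
    wE (n + 2) (bx b θ' θ) c (fun ξ => cap win (cen θ' m') θ' ξ * G ξ) ≤
      ENNReal.ofReal (C * (θ / θ')) * (ENNReal.ofReal ν *
        wE n (iso θ) c (fun ξ => cap win (cen θ' m') θ' ξ * G ξ) +
        ((caps θ).card : ℝ≥0∞) * ∑ m ∈ nearL θ θ' m' \ Act,
          wE n (iso θ) c (fun ξ => cap win (cen θ m) θ ξ * G ξ)) := by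
  classical
  obtain ⟨C1, hC1, h1⟩ := strip_row (n + 2)
  obtain ⟨C2, hC2, h2⟩ := lc n
  obtain ⟨C3, hC3, h3⟩ := caps_col n
  obtain ⟨C4, hC4, h4⟩ := cap_mult n
  refine ⟨C1 * 2 * C2 * (C3 + C4), by positivity, ?_⟩
  intro b θ θ' hθ hθθ' c G hG hG2 hGs m' Act ν hν
  have hθ' : 0 < θ' := hθ.trans_le hθθ'
  have hν0 : 0 ≤ ν := le_trans (by positivity) (hν 0)
  set F : E2 → ℂ := fun ξ => cap win (cen θ' m') θ' ξ * G ξ with hF
  have hFi : Integrable F := win_int hG m'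
  have hF2 : MemLp F 2 := win_l2 hG2 m'
  set f : ℤ × ℤ → E2 → ℂ := fun m ξ => cap win (cen θ m) θ ξ * F ξ with hf
  have hfi : ∀ m, Integrable (f m) := fun m => win_int hFi m
  have hf2 : ∀ m, MemLp (f m) 2 := fun m => win_l2 hF2 m
  set K : Finset ℤ := (nearL θ θ' m').image (stp b θ) with hK
  set s : ℤ → Finset (ℤ × ℤ) := fun k => (nearL θ θ' m').filter (fun m => stp b θ m = k) with hs
  have eF : (fun ξ => ∑ k ∈ K, ∑ m ∈ s k, f m ξ) = F := by
    funext ξ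
    rw [Finset.sum_fiberwise_of_maps_to (fun m hm => Finset.mem_image_of_mem _ hm)]
    exact sum_nearL hθ hθθ' hGs m' ξ
  have a1 := h1 b θ' θ hθ c K (fun k ξ => ∑ m ∈ s k, f m ξ)
    (fun k => integrable_finsetSum _ fun m _ => hfi m)
    (fun k => memLp_finsetSum _ fun m _ => hf2 m) ?_
  · rw [eF] at a1
    -- one strip
    have a2 : ∀ k ∈ K, wE (n + 2) (bx b θ' θ) c (fun ξ => ∑ m ∈ s k, f m ξ) ≤
        2 * (ENNReal.ofReal ν * ∑ m ∈ (s k).filter (fun m => m ∈ Act), wE (n + 2) (bx b θ' θ) c (f m) +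
        ((caps θ).card : ℝ≥0∞) * ∑ m ∈ (s k).filter (fun m => ¬ m ∈ Act),
          wE (n + 2) (bx b θ' θ) c (f m)) := by
      intro k _
      refine (wE_split (n + 2) (bx b θ' θ) c (s k) (fun m => m ∈ Act) f (fun m _ => hfi m)).trans ?_
      gcongr
      · have h5 := hν k
        have h6 : ((s k).filter (fun m => m ∈ Act)).card ≤ Set.ncard {m | m ∈ Act ∧ Near θ θ' m' m ∧
            |inner ℝ (cen θ m) (b 1) - k * θ| ≤ 4 * θ} := by
          rw [← Set.ncard_coe_finset]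
          refine Set.ncard_le_ncard ?_ (Act.finite_toSet.subset fun m hm => hm.1)
          intro m hm
          simp only [Finset.coe_filter, Set.mem_ofPred_eq, hs, Finset.mem_filter] at hm
          refine ⟨hm.2, (mem_nearL.1 hm.1.1).2, ?_⟩
          rw [← hm.1.2]
          exact (stp_near b hθ m).trans (by linarith)
        have h7 : (((s k).filter (fun m => m ∈ Act)).card : ℝ) ≤ ν :=
          le_trans (by exact_mod_cast h6) h5
        rw [← ENNReal.ofReal_natCast]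
        exact ENNReal.ofReal_le_ofReal h7
      · intro m hm
        rw [Finset.mem_filter] at hm
        exact (mem_nearL.1 (Finset.mem_filter.1 hm.1).1).1
    -- sum over the strips
    have a3 : ∑ k ∈ K, wE (n + 2) (bx b θ' θ) c (fun ξ => ∑ m ∈ s k, f m ξ) ≤
        2 * (ENNReal.ofReal ν * ∑ m ∈ (nearL θ θ' m').filter (fun m => m ∈ Act),
          wE (n + 2) (bx b θ' θ) c (f m) +
        ((caps θ).card : ℝ≥0∞) * ∑ m ∈ nearL θ θ' m' \ Act, wE (n + 2) (bx b θ' θ) c (f m)) := by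
      refine (Finset.sum_le_sum a2).trans (le_of_eq ?_)
      have b1 : ∑ k ∈ K, ∑ m ∈ (s k).filter (fun m => m ∈ Act), wE (n + 2) (bx b θ' θ) c (f m) =
          ∑ m ∈ (nearL θ θ' m').filter (fun m => m ∈ Act), wE (n + 2) (bx b θ' θ) c (f m) := by
        rw [← Finset.sum_fiberwise_of_maps_to (t := K) (g := stp b θ)
          (s := (nearL θ θ' m').filter (fun m => m ∈ Act))]
        · refine Finset.sum_congr rfl fun k _ => ?_
          refine Finset.sum_congr ?_ fun _ _ => rfl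
          ext m
          simp only [hs, Finset.mem_filter]
          tauto
        · intro m hm
          exact Finset.mem_image_of_mem _ (Finset.mem_filter.1 hm).1
      have b2 : ∑ k ∈ K, ∑ m ∈ (s k).filter (fun m => ¬ m ∈ Act), wE (n + 2) (bx b θ' θ) c (f m) =
          ∑ m ∈ nearL θ θ' m' \ Act, wE (n + 2) (bx b θ' θ) c (f m) := by
        rw [← Finset.sum_fiberwise_of_maps_to (t := K) (g := stp b θ) (s := nearL θ θ' m' \ Act)]
        · refine Finset.sum_congr rfl fun k _ => ?_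
          refine Finset.sum_congr ?_ fun _ _ => rfl
          ext m
          simp only [hs, Finset.mem_filter, Finset.mem_sdiff]
          tauto
        · intro m hm
          exact Finset.mem_image_of_mem _ (Finset.mem_sdiff.1 hm).1
      rw [← Finset.mul_sum, Finset.sum_add_distrib, ← Finset.mul_sum, ← Finset.mul_sum, b1, b2]
    -- local constancy
    have a4 : ∀ m, wE (n + 2) (bx b θ' θ) c (f m) ≤
        ENNReal.ofReal (C2 * (θ / θ')) * wE n (iso θ) c (f m) := by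
      intro m
      refine h2 b θ' θ hθ hθθ' c (cen θ m) (f m) (hfi m) fun ξ hξ => ?_
      have := capwin_supp hθ m ξ (left_ne_zero_of_mul hξ)
      linarith
    have a5 : ∑ m ∈ (nearL θ θ' m').filter (fun m => m ∈ Act), wE (n + 2) (bx b θ' θ) c (f m) ≤
        ENNReal.ofReal (C2 * (θ / θ')) * (ENNReal.ofReal (C3 + C4) * wE n (iso θ) c F) := by
      calc _ ≤ ∑ m ∈ (nearL θ θ' m').filter (fun m => m ∈ Act),
            ENNReal.ofReal (C2 * (θ / θ')) * wE n (iso θ) c (f m) :=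
            Finset.sum_le_sum fun m _ => a4 m
        _ = ENNReal.ofReal (C2 * (θ / θ')) * ∑ m ∈ (nearL θ θ' m').filter (fun m => m ∈ Act),
            wE n (iso θ) c (f m) := by rw [Finset.mul_sum]
        _ ≤ ENNReal.ofReal (C2 * (θ / θ')) * (ENNReal.ofReal C3 * wE n (iso θ) c F) :=
            mul_le_mul_right (h3 θ hθ c _ F hFi hF2) _
        _ ≤ _ := by gcongr; linarith
    have a6 : ∑ m ∈ nearL θ θ' m' \ Act, wE (n + 2) (bx b θ' θ) c (f m) ≤
        ENNReal.ofReal (C2 * (θ / θ')) * (ENNReal.ofReal (C3 + C4) * ∑ m ∈ nearL θ θ' m' \ Act,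
          wE n (iso θ) c (fun ξ => cap win (cen θ m) θ ξ * G ξ)) := by
      rw [Finset.mul_sum, Finset.mul_sum]
      refine Finset.sum_le_sum fun m _ => (a4 m).trans (mul_le_mul_right ?_ _)
      have e1 : f m = fun ξ => cap win (cen θ' m') θ' ξ * (cap win (cen θ m) θ ξ * G ξ) := by
        funext ξ
        simp only [hf, hF]
        ring
      rw [e1]
      refine (h4 θ θ' hθ hθθ' c m' _ (win_int hG m) (win_l2 hG2 m)).trans ?_
      gcongr
      linarith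
    calc wE (n + 2) (bx b θ' θ) c F ≤ ENNReal.ofReal C1 *
          (2 * (ENNReal.ofReal ν * (ENNReal.ofReal (C2 * (θ / θ')) *
            (ENNReal.ofReal (C3 + C4) * wE n (iso θ) c F)) +
          ((caps θ).card : ℝ≥0∞) * (ENNReal.ofReal (C2 * (θ / θ')) *
            (ENNReal.ofReal (C3 + C4) * ∑ m ∈ nearL θ θ' m' \ Act,
          wE n (iso θ) c (fun ξ => cap win (cen θ m) θ ξ * G ξ))))) := by
          refine a1.trans (mul_le_mul_right (a3.trans ?_) _)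
          gcongr
      _ = _ := by
          have e5 : ENNReal.ofReal (C1 * 2 * C2 * (C3 + C4) * (θ / θ')) =
              ENNReal.ofReal C1 * 2 * ENNReal.ofReal (C2 * (θ / θ')) * ENNReal.ofReal (C3 + C4) := by
            have e6 : (2 : ℝ≥0∞) = ENNReal.ofReal 2 := by simp
            have hq : 0 ≤ θ / θ' := by positivity
            rw [e6, ← ENNReal.ofReal_mul hC1, ← ENNReal.ofReal_mul (by positivity),
              ← ENNReal.ofReal_mul (by positivity)]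
            congr 1
            ring
          rw [e5]
          ring
  · intro k _ ξ hξ
    obtain ⟨m, hm, hne⟩ := Finset.exists_ne_zero_of_sum_ne_zero hξ
    have h5 := capwin_supp hθ m ξ (left_ne_zero_of_mul hne)
    have h6 := stp_near b hθ m
    have h7 : stp b θ m = k := (Finset.mem_filter.1 hm).2
    rw [h7] at h6
    have h8 : |inner ℝ (ξ - cen θ m) (b 1)| ≤ ‖ξ - cen θ m‖ := by
      have := abs_real_inner_le_norm (ξ - cen θ m) (b 1)
      rwa [b.norm_eq_one, mul_one] at this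
    have e1 : inner ℝ ξ (b 1) - k * θ = inner ℝ (ξ - cen θ m) (b 1) +
        (inner ℝ (cen θ m) (b 1) - k * θ) := by
      rw [inner_sub_left]; ring
    rw [e1]
    refine (abs_add_le _ _).trans ?_
    linarith

end Crest.Agent.R138.Up448
end

-- ▼ part R138/Up3_448
section

/-!
# R138 / R139: UPPER (F3), slab orthogonality (helper448), part 3

`upper_rep`, `upper_sel`: the energy of a cap of size `ρ'` of a selected wave `tr h z (sel ρ g S)` on
a slab `(1/ρ' in b 0) × (1/ρ in b 1)` is at most `(ρ/ρ')·ρ⁻²·(ν + tail)` times the density `Ad` of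
the selected packets, where `ν` bounds the number of active caps of size `ρ` in a strip.
-/

set_option autoImplicit false

open MeasureTheory FourierTransform
open scoped ContDiff ENNReal InnerProductSpace

namespace Crest.Agent.R138.Up448

open Crest.Agent.R138.Defs Crest.Agent.R138.Wpk685
open Crest.Agent.R138.Wf448 (wE sl adj dw dw_pos gw)
open Crest.Agent.R138.W188 (tr)
open Crest.Agent.R138.Loc878
open Crest.Agent.R138.Ad480 (wa wa_pos wa_le_one wa_shift wa_cont Ac Ad)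

theorem SV_wa {ρ : ℝ} (hρ : 0 ≤ ρ) (n : ℕ) (c : E2) : SV ρ 1 n (fun x => wa ρ n (x - c)) where
  meas := ((wa_cont hρ n).comp (continuous_id.sub continuous_const)).measurable
  pos := fun x => wa_pos hρ n _
  sv := by
    intro x y
    rw [one_mul]
    refine wa_shift hρ (by positivity) n ?_
    have e : y - c - (x - c) = -(x - y) := by abel
    rw [e, norm_neg]

theorem dw_iso_le_wa (n : ℕ) {ρ : ℝ} (hρ : 0 ≤ ρ) (v : E2) :
    dw n (iso ρ) v ≤ 2 ^ n * wa ρ n v := by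
  rw [dw_iso]
  unfold wa
  rw [norm_smul, Real.norm_eq_abs, abs_of_nonneg hρ]
  have hu : 0 ≤ ρ * ‖v‖ := by positivity
  rw [← div_eq_mul_inv, inv_eq_one_div, div_le_div_iff₀ (by positivity) (by positivity), one_mul,
    ← mul_pow]
  refine pow_le_pow_left₀ (by positivity) ?_ n
  nlinarith [sq_nonneg (ρ * ‖v‖ - 1 / 2)]

/-- one represented piece in one larger cap. -/
theorem one_rep (B : ℕ → ℝ) (n : ℕ) (L : ℝ) (hL : 1 ≤ L) : ∃ C : ℝ, 0 ≤ C ∧ ∀ h, ParB B h →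
    ∀ (ρ ρ' A : ℝ) (w : E2 → ℝ), 0 < ρ → ρ ≤ ρ' → ρ ≤ 1 → SV ρ A n w →
    ∀ (m : ℤ × ℤ) (G v : E2 → ℂ), Rep ρ (cen ρ m) G v →
    ∀ z : E2 × ℝ, |z.2| * ρ ^ 2 ≤ L → ∀ m' : ℤ × ℤ,
    WE w (fun ξ => cap win (cen ρ' m') ρ' ξ * tr h z G ξ) ≤
      ENNReal.ofReal (C * A ^ 5) * ∫⁻ y,
        ENNReal.ofReal (w (y - z.1 - z.2 • gradient h (cen ρ m))) * ‖v y‖ₑ ^ 2 := by
  obtain ⟨C2, hC2, h2⟩ := sv_transport B n L hL
  obtain ⟨C3, hC3, h3⟩ := sv_mult n
  obtain ⟨C4, hC4, h4⟩ := rep_energy n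
  obtain ⟨K, hK, hwin⟩ := win_kbound (n + 2)
  refine ⟨C2 * (C3 * K ^ 2 * C4), by positivity, ?_⟩
  intro h hh ρ ρ' A w hρ hρ' hρ1 hw m G v hR z hz m'
  have hA := hw.one_le
  have hpos' : 0 < ρ' := lt_of_lt_of_le hρ hρ'
  have hhc : Continuous h := hh.1.continuous
  set G' : E2 → ℂ := fun ξ => cap win (cen ρ' m') ρ' ξ * G ξ with hG'
  have hG'i : Integrable G' := win_int hR.int m'
  have hG'2 : MemLp G' 2 := win_l2 hR.l2 m'
  have hG's : ∀ ξ, G' ξ ≠ 0 → ‖ξ - cen ρ m‖ ≤ 3 / 2 * ρ := fun ξ hξ =>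
    hR.supp ξ (right_ne_zero_of_mul hξ)
  have e1 : WE w (fun ξ => cap win (cen ρ' m') ρ' ξ * tr h z G ξ) =
      WE (fun x => w (x - z.1)) (sl h G' z.2) := by
    refine WE_modulate w z.1 fun ξ => ?_
    simp only [hG', sl, tr]
    rw [ee_add]
    ring
  rw [e1]
  have hw1 := hw.comp_sub z.1
  have a2 := h2 h hh ρ A _ hρ hρ1 hw1 (cen ρ m) G' hG'i hG'2
    (fun ξ hξ => (hG's ξ hξ).trans (by linarith)) 0 z.2 hz
  rw [zero_add, sl_zero] at a2
  have hw2 : SV ρ A n (fun x => w (x - z.2 • gradient h (cen ρ m) - z.1)) :=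
    hw1.comp_sub (z.2 • gradient h (cen ρ m))
  have a3 := h3 ρ A _ hρ hw2 (cap win (cen ρ' m') ρ') G K hK
    (temperate_cap win_contDiff (fun ζ hζ => win_zero' hζ) _ hpos')
    (fun j hj ξ => hwin ρ ρ' hρ hρ' m' j hj ξ) hR.int hR.l2
  have a4 := h4 ρ A _ hρ hρ1 hw2 (cen ρ m) G v hR
  have e5 : ∀ y : E2, y - z.1 - z.2 • gradient h (cen ρ m) =
      y - z.2 • gradient h (cen ρ m) - z.1 := by
    intro y; abel
  simp only [e5]
  have e3 : C2 * (C3 * K ^ 2 * C4) * A ^ 5 =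
      (C2 * A ^ 2) * ((C3 * A ^ 2 * K ^ 2) * (C4 * A)) := by ring
  rw [e3, ENNReal.ofReal_mul (p := C2 * A ^ 2) (by positivity),
    mul_assoc (ENNReal.ofReal (C2 * A ^ 2))]
  refine a2.trans (mul_le_mul' le_rfl (a3.trans ?_))
  rw [ENNReal.ofReal_mul (p := C3 * A ^ 2 * K ^ 2) (by positivity),
    mul_assoc (ENNReal.ofReal (C3 * A ^ 2 * K ^ 2))]
  exact mul_le_mul' le_rfl a4

set_option maxHeartbeats 800000 in
/-- **UPPER**, a wave given by represented pieces. -/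
theorem upper_rep (B : ℕ → ℝ) (n : ℕ) (L : ℝ) (hL : 1 ≤ L) : ∃ C : ℝ, 0 ≤ C ∧ ∀ h, ParB B h →
    ∀ (ρ ρ' : ℝ), 0 < ρ → ρ ≤ ρ' → ρ ≤ 1 → ∀ (b : OrthonormalBasis (Fin 2) ℝ E2) (c : E2)
    (G v : ℤ × ℤ → E2 → ℂ), (∀ m ∈ caps ρ, Rep ρ (cen ρ m) (G m) (v m)) →
    ∀ z : E2 × ℝ, |z.2| * ρ ^ 2 ≤ L → ∀ (m' : ℤ × ℤ) (P : ℤ × ℤ → Prop) [DecidablePred P] (ν : ℝ),
    (∀ k : ℤ, (Set.ncard {m | m ∈ nearL ρ ρ' m' ∧ P m ∧ |inner ℝ (cen ρ m) (b 1) - k * ρ| ≤ ρ} : ℝ)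
      ≤ ν) →
    ∫⁻ x, ENNReal.ofReal (dw (n + 2) (bx b ρ' ρ) (x - c)) *
        ‖um ρ' (tr h z (fun ξ => ∑ m ∈ caps ρ, G m ξ)) m' x‖ₑ ^ 2 ≤
      ENNReal.ofReal (C * (ρ / ρ')) * (ENNReal.ofReal ν *
        (∑ m ∈ (nearL ρ ρ' m').filter P, ∫⁻ y,
          ENNReal.ofReal (wa ρ n (y - z.1 - z.2 • gradient h (cen ρ m) - c)) * ‖v m y‖ₑ ^ 2) +
        ((caps ρ).card : ℝ≥0∞) * ∑ m ∈ (nearL ρ ρ' m').filter (fun m => ¬ P m), ∫⁻ y,
          ENNReal.ofReal (wa ρ n (y - z.1 - z.2 • gradient h (cen ρ m) - c)) * ‖v m y‖ₑ ^ 2) := by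
  classical
  obtain ⟨C1, hC1, h1⟩ := strip_row (n + 2)
  obtain ⟨C2, hC2, h2⟩ := lc n
  obtain ⟨C3, hC3, h3⟩ := one_rep B n L hL
  refine ⟨C1 * 2 * C2 * (2 ^ n * C3), by positivity, ?_⟩
  intro h hh ρ ρ' hρ hρρ' hρ1 b c G v hR z hz m' P _ ν hν
  have hρ' : 0 < ρ' := hρ.trans_le hρρ'
  have hν0 : 0 ≤ ν := le_trans (by positivity) (hν 0)
  have hhc : Continuous h := hh.1.continuous
  set s := nearL ρ ρ' m' with hs
  have hsc : ∀ m ∈ s, m ∈ caps ρ := fun m hm => (mem_nearL.1 hm).1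
  set f : ℤ × ℤ → E2 → ℂ := fun m => if m ∈ s then
    fun ξ => cap win (cen ρ' m') ρ' ξ * tr h z (G m) ξ else 0 with hf
  have hfs : ∀ m ∈ s, f m = fun ξ => cap win (cen ρ' m') ρ' ξ * tr h z (G m) ξ := by
    intro m hm
    simp only [hf, if_pos hm]
  have hfi : ∀ m, Integrable (f m) := by
    intro m
    by_cases hm : m ∈ s
    · rw [hfs m hm]
      exact win_int (tr_int hhc (hR m (hsc m hm)).int z) m'
    · simp only [hf, if_neg hm]
      exact integrable_zero _ _ _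
  have hf2 : ∀ m, MemLp (f m) 2 := by
    intro m
    by_cases hm : m ∈ s
    · rw [hfs m hm]
      exact win_l2 (tr_l2 hhc (hR m (hsc m hm)).l2 z) m'
    · simp only [hf, if_neg hm]
      exact MemLp.zero
  have hfsupp : ∀ m, ∀ ξ, f m ξ ≠ 0 → ‖ξ - cen ρ m‖ ≤ 3 / 2 * ρ := by
    intro m ξ hξ
    by_cases hm : m ∈ s
    · rw [hfs m hm] at hξ
      refine (hR m (hsc m hm)).supp ξ fun h0 => ?_
      exact right_ne_zero_of_mul hξ (tr_zero z h0)
    · simp only [hf, if_neg hm] at hξ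
      exact absurd rfl hξ
  have esum : (fun ξ => cap win (cen ρ' m') ρ' ξ * tr h z (fun ξ => ∑ m ∈ caps ρ, G m ξ) ξ) =
      fun ξ => ∑ m ∈ s, f m ξ := by
    funext ξ
    have e1 : ∑ m ∈ s, f m ξ = ∑ m ∈ s, cap win (cen ρ' m') ρ' ξ * tr h z (G m) ξ :=
      Finset.sum_congr rfl fun m hm => by rw [hfs m hm]
    have e2 : ∑ m ∈ s, cap win (cen ρ' m') ρ' ξ * tr h z (G m) ξ =
        ∑ m ∈ caps ρ, cap win (cen ρ' m') ρ' ξ * tr h z (G m) ξ := by
      rw [hs]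
      unfold nearL
      rw [Finset.sum_filter_of_ne]
      intro m hm hne
      by_contra hc
      apply hne
      refine capfat_prod hρ hρρ' hc (G := tr h z (G m)) (fun ξ hξ => (hR m hm).supp ξ fun h0 => ?_) ξ
      exact hξ (tr_zero z h0)
    rw [e1, e2, ← Finset.mul_sum]
    congr 1
    simp only [tr]
    rw [Finset.sum_mul]
  set K : Finset ℤ := s.image (stp b ρ) with hK
  set sk : ℤ → Finset (ℤ × ℤ) := fun k => s.filter (fun m => stp b ρ m = k) with hsk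
  have eF : (fun ξ => ∑ k ∈ K, ∑ m ∈ sk k, f m ξ) = fun ξ => ∑ m ∈ s, f m ξ := by
    funext ξ
    exact Finset.sum_fiberwise_of_maps_to (fun m hm => Finset.mem_image_of_mem _ hm) _
  have a1 := h1 b ρ' ρ hρ c K (fun k ξ => ∑ m ∈ sk k, f m ξ)
    (fun k => integrable_finsetSum _ fun m _ => hfi m)
    (fun k => memLp_finsetSum _ fun m _ => hf2 m) ?_
  · rw [eF] at a1
    -- one strip
    have a2 : ∀ k ∈ K, wE (n + 2) (bx b ρ' ρ) c (fun ξ => ∑ m ∈ sk k, f m ξ) ≤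
        2 * (ENNReal.ofReal ν * ∑ m ∈ (sk k).filter P, wE (n + 2) (bx b ρ' ρ) c (f m) +
        ((caps ρ).card : ℝ≥0∞) * ∑ m ∈ (sk k).filter (fun m => ¬ P m),
          wE (n + 2) (bx b ρ' ρ) c (f m)) := by
      intro k _
      refine (wE_split (n + 2) (bx b ρ' ρ) c (sk k) P f (fun m _ => hfi m)).trans ?_
      gcongr
      · have h5 := hν k
        have h6 : ((sk k).filter P).card ≤ Set.ncard {m | m ∈ s ∧ P m ∧
            |inner ℝ (cen ρ m) (b 1) - k * ρ| ≤ ρ} := by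
          rw [← Set.ncard_coe_finset]
          refine Set.ncard_le_ncard ?_ (s.finite_toSet.subset fun m hm => hm.1)
          intro m hm
          simp only [Finset.coe_filter, Set.mem_ofPred_eq, hsk, Finset.mem_filter] at hm
          refine ⟨hm.1.1, hm.2, ?_⟩
          rw [← hm.1.2]
          exact stp_near b hρ m
        have h7 : (((sk k).filter P).card : ℝ) ≤ ν := le_trans (by exact_mod_cast h6) h5
        rw [← ENNReal.ofReal_natCast]
        exact ENNReal.ofReal_le_ofReal h7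
      · intro m hm
        rw [Finset.mem_filter] at hm
        exact hsc m (Finset.mem_filter.1 hm.1).1
    -- sum over the strips
    have a3 : ∑ k ∈ K, wE (n + 2) (bx b ρ' ρ) c (fun ξ => ∑ m ∈ sk k, f m ξ) ≤
        2 * (ENNReal.ofReal ν * ∑ m ∈ s.filter P, wE (n + 2) (bx b ρ' ρ) c (f m) +
        ((caps ρ).card : ℝ≥0∞) * ∑ m ∈ s.filter (fun m => ¬ P m),
          wE (n + 2) (bx b ρ' ρ) c (f m)) := by
      refine (Finset.sum_le_sum a2).trans (le_of_eq ?_)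
      have b1 : ∀ (Q : ℤ × ℤ → Prop) [DecidablePred Q], ∑ k ∈ K, ∑ m ∈ (sk k).filter Q,
          wE (n + 2) (bx b ρ' ρ) c (f m) = ∑ m ∈ s.filter Q, wE (n + 2) (bx b ρ' ρ) c (f m) := by
        intro Q _
        rw [← Finset.sum_fiberwise_of_maps_to (t := K) (g := stp b ρ) (s := s.filter Q)]
        · refine Finset.sum_congr rfl fun k _ => ?_
          refine Finset.sum_congr ?_ fun _ _ => rfl
          ext m
          simp only [hsk, Finset.mem_filter]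
          tauto
        · intro m hm
          exact Finset.mem_image_of_mem _ (Finset.mem_filter.1 hm).1
      rw [← Finset.mul_sum, Finset.sum_add_distrib, ← Finset.mul_sum, ← Finset.mul_sum,
        b1 P, b1 (fun m => ¬ P m)]
    -- local constancy and transport
    have a4 : ∀ m ∈ s, wE (n + 2) (bx b ρ' ρ) c (f m) ≤
        ENNReal.ofReal (C2 * (ρ / ρ')) * (ENNReal.ofReal (2 ^ n * C3) * ∫⁻ y,
          ENNReal.ofReal (wa ρ n (y - z.1 - z.2 • gradient h (cen ρ m) - c)) * ‖v m y‖ₑ ^ 2) := by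
      intro m hm
      refine (h2 b ρ' ρ hρ hρρ' c (cen ρ m) (f m) (hfi m) fun ξ hξ =>
        (hfsupp m ξ hξ).trans (by linarith)).trans (mul_le_mul' le_rfl ?_)
      have b1 := h3 h hh ρ ρ' 1 _ hρ hρρ' hρ1 (SV_wa hρ.le n c) m (G m) (v m) (hR m (hsc m hm)) z hz m'
      rw [one_pow, mul_one, ← hfs m hm] at b1
      rw [wE_eq, ENNReal.ofReal_mul (by positivity), mul_assoc]
      calc ∫⁻ x, ENNReal.ofReal (dw n (iso ρ) (x - c)) * ‖𝓕⁻ (f m) x‖ₑ ^ 2
          ≤ ∫⁻ x, ENNReal.ofReal (2 ^ n) * (ENNReal.ofReal (wa ρ n (x - c)) * ‖𝓕⁻ (f m) x‖ₑ ^ 2) := by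
            refine lintegral_mono fun x => ?_
            rw [← mul_assoc, ← ENNReal.ofReal_mul (by positivity)]
            exact mul_le_mul' (ENNReal.ofReal_le_ofReal (dw_iso_le_wa n hρ.le _)) le_rfl
        _ = ENNReal.ofReal (2 ^ n) * WE (fun x => wa ρ n (x - c)) (f m) := by
            rw [lintegral_const_mul' _ _ ENNReal.ofReal_ne_top]
            rfl
        _ ≤ _ := mul_le_mul' le_rfl b1
    have a5 : ∀ (Q : ℤ × ℤ → Prop) [DecidablePred Q], ∑ m ∈ s.filter Q,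
        wE (n + 2) (bx b ρ' ρ) c (f m) ≤
        ENNReal.ofReal (C2 * (ρ / ρ')) * (ENNReal.ofReal (2 ^ n * C3) * ∑ m ∈ s.filter Q, ∫⁻ y,
          ENNReal.ofReal (wa ρ n (y - z.1 - z.2 • gradient h (cen ρ m) - c)) * ‖v m y‖ₑ ^ 2) := by
      intro Q _
      rw [Finset.mul_sum, Finset.mul_sum]
      exact Finset.sum_le_sum fun m hm => a4 m (Finset.mem_filter.1 hm).1
    have e0 : ∫⁻ x, ENNReal.ofReal (dw (n + 2) (bx b ρ' ρ) (x - c)) *
        ‖um ρ' (tr h z (fun ξ => ∑ m ∈ caps ρ, G m ξ)) m' x‖ₑ ^ 2 =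
        wE (n + 2) (bx b ρ' ρ) c (fun ξ => ∑ m ∈ s, f m ξ) := by
      rw [wE_eq, ← esum]
      rfl
    rw [e0]
    set X1 := ∑ m ∈ s.filter P, ∫⁻ y,
      ENNReal.ofReal (wa ρ n (y - z.1 - z.2 • gradient h (cen ρ m) - c)) * ‖v m y‖ₑ ^ 2 with hX1
    set X2 := ∑ m ∈ s.filter (fun m => ¬ P m), ∫⁻ y,
      ENNReal.ofReal (wa ρ n (y - z.1 - z.2 • gradient h (cen ρ m) - c)) * ‖v m y‖ₑ ^ 2 with hX2
    calc wE (n + 2) (bx b ρ' ρ) c (fun ξ => ∑ m ∈ s, f m ξ) ≤ ENNReal.ofReal C1 *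
          (2 * (ENNReal.ofReal ν * (ENNReal.ofReal (C2 * (ρ / ρ')) *
            (ENNReal.ofReal (2 ^ n * C3) * X1)) +
          ((caps ρ).card : ℝ≥0∞) * (ENNReal.ofReal (C2 * (ρ / ρ')) *
            (ENNReal.ofReal (2 ^ n * C3) * X2)))) := by
          refine a1.trans (mul_le_mul_right (a3.trans ?_) _)
          gcongr
          · exact a5 P
          · exact a5 (fun m => ¬ P m)
      _ = _ := by
          have e5 : ENNReal.ofReal (C1 * 2 * C2 * (2 ^ n * C3) * (ρ / ρ')) =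
              ENNReal.ofReal C1 * 2 * ENNReal.ofReal (C2 * (ρ / ρ')) *
                ENNReal.ofReal (2 ^ n * C3) := by
            have e6 : (2 : ℝ≥0∞) = ENNReal.ofReal 2 := by simp
            have hq : 0 ≤ ρ / ρ' := by positivity
            rw [e6, ← ENNReal.ofReal_mul hC1, ← ENNReal.ofReal_mul (by positivity),
              ← ENNReal.ofReal_mul (by positivity)]
            congr 1
            ring
          rw [e5]
          ring
  · intro k _ ξ hξ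
    obtain ⟨m, hm, hne⟩ := Finset.exists_ne_zero_of_sum_ne_zero hξ
    have h5 := hfsupp m ξ hne
    have h6 := stp_near b hρ m
    have h7 : stp b ρ m = k := (Finset.mem_filter.1 hm).2
    rw [h7] at h6
    have h8 : |inner ℝ (ξ - cen ρ m) (b 1)| ≤ ‖ξ - cen ρ m‖ := by
      have := abs_real_inner_le_norm (ξ - cen ρ m) (b 1)
      rwa [b.norm_eq_one, mul_one] at this
    have e1 : inner ℝ ξ (b 1) - k * ρ = inner ℝ (ξ - cen ρ m) (b 1) +
        (inner ℝ (cen ρ m) (b 1) - k * ρ) := by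
      rw [inner_sub_left]; ring
    rw [e1]
    refine (abs_add_le _ _).trans ?_
    linarith


theorem card_caps_le' {ρ : ℝ} (hρ : 0 < ρ) (hρ1 : ρ ≤ 1) : ((caps ρ).card : ℝ) ≤ 81 * (ρ ^ 2)⁻¹ := by
  unfold caps
  rw [Finset.card_product, Int.card_Icc]
  have h0 : (0 : ℤ) < ⌈2 / ρ⌉ := Int.ceil_pos.2 (by positivity)
  have h1 : (((⌈2 / ρ⌉ + 1 + 1 - (-⌈2 / ρ⌉ - 1)).toNat : ℕ) : ℤ) = 2 * ⌈2 / ρ⌉ + 3 := by
    rw [Int.toNat_of_nonneg (by omega)]; ring
  have h2 : (((⌈2 / ρ⌉ + 1 + 1 - (-⌈2 / ρ⌉ - 1)).toNat : ℕ) : ℝ) = 2 * ⌈2 / ρ⌉ + 3 := by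
    exact_mod_cast h1
  have h3 := Int.ceil_lt_add_one (2 / ρ)
  have h4 : 1 ≤ ρ⁻¹ := (one_le_inv₀ hρ).2 hρ1
  have h5 : 2 * (⌈2 / ρ⌉ : ℝ) + 3 ≤ 9 * ρ⁻¹ := by
    have : 2 / ρ = 2 * ρ⁻¹ := div_eq_mul_inv _ _
    rw [this] at h3
    have h6 : (⌈2 / ρ⌉ : ℝ) < 2 * ρ⁻¹ + 1 := by rw [this]; exact h3
    linarith
  have h7 : (0 : ℝ) ≤ 2 * (⌈2 / ρ⌉ : ℝ) + 3 := by
    have : (0 : ℝ) < (⌈2 / ρ⌉ : ℝ) := by exact_mod_cast h0
    linarith
  push_cast
  rw [h2]
  calc (2 * (⌈2 / ρ⌉ : ℝ) + 3) * (2 * (⌈2 / ρ⌉ : ℝ) + 3) ≤ (9 * ρ⁻¹) * (9 * ρ⁻¹) := by gcongr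
    _ = 81 * (ρ ^ 2)⁻¹ := by field_simp; norm_num

theorem wa_add_le {ρ X : ℝ} (hρ : 0 ≤ ρ) (hX : 0 ≤ X) (n k : ℕ) {v : E2} (h : X ≤ ρ * ‖v‖) :
    wa ρ (n + k) v ≤ ((1 + X) ^ k)⁻¹ * wa ρ n v := by
  unfold wa
  have h0 : 0 ≤ ρ * ‖v‖ := by positivity
  rw [pow_add, mul_inv, mul_comm]
  refine mul_le_mul_of_nonneg_right ?_ (by positivity)
  refine inv_anti₀ (by positivity) (pow_le_pow_left₀ (by positivity) (by linarith) k)

theorem wa_anti {ρ : ℝ} (hρ : 0 ≤ ρ) (n k : ℕ) (v : E2) : wa ρ (n + k) v ≤ wa ρ n v := by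
  have h := wa_add_le hρ le_rfl n k (v := v) (by positivity)
  simpa using h

/-- **UPPER**, selected wave. -/
theorem upper_sel (B : ℕ → ℝ) (n k : ℕ) (L : ℝ) (hL : 1 ≤ L) : ∃ C : ℝ, 0 ≤ C ∧ ∀ h, ParB B h →
    ∀ (ρ ρ' : ℝ), 0 < ρ → ρ ≤ ρ' → ρ ≤ 1 → ∀ (b : OrthonormalBasis (Fin 2) ℝ E2) (c : E2)
    (g : E2 → ℂ), Integrable g → ∀ S : ℤ × ℤ → Set E2, Bs ρ S →
    ∀ z : E2 × ℝ, |z.2| * ρ ^ 2 ≤ L → ∀ (m' : ℤ × ℤ) (X ν : ℝ), 0 ≤ X →
    (∀ κ : ℤ, (Set.ncard {m | m ∈ nearL ρ ρ' m' ∧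
      (∃ y ∈ S m, ρ * ‖y - z.1 - z.2 • gradient h (cen ρ m) - c‖ ≤ X) ∧
      |inner ℝ (cen ρ m) (b 1) - κ * ρ| ≤ ρ} : ℝ) ≤ ν) →
    ∫⁻ x, ENNReal.ofReal (dw (n + k + 2) (bx b ρ' ρ) (x - c)) *
        ‖um ρ' (tr h z (sel ρ g S)) m' x‖ₑ ^ 2 ≤
      ENNReal.ofReal (C * (ρ / ρ') * (ρ ^ 2)⁻¹ * (ν + (caps ρ).card * ((1 + X) ^ k)⁻¹)) *
        Ad n h ρ ρ' g S m' z c := by
  classical
  obtain ⟨C1, hC1, h1⟩ := upper_rep B (n + k) L hL
  refine ⟨C1, hC1, ?_⟩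
  intro h hh ρ ρ' hρ hρρ' hρ1 b c g hg S hS z hz m' X ν hX hν
  have hρ' : 0 < ρ' := hρ.trans_le hρρ'
  have hν0 : 0 ≤ ν := le_trans (by positivity) (hν 0)
  set P : ℤ × ℤ → Prop := fun m => ∃ y ∈ S m,
    ρ * ‖y - z.1 - z.2 • gradient h (cen ρ m) - c‖ ≤ X with hP
  have a1 := h1 h hh ρ ρ' hρ hρρ' hρ1 b c (fun m => piece ρ g m (S m))
    (fun m => (S m).indicator (um ρ g m))
    (fun m hm => piece_rep hρ hg m (hS.meas m hm) (hS.bdd m hm)) z hz m' P ν hν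
  refine a1.trans ?_
  set T : ℤ × ℤ → ℝ≥0∞ := fun m => ∫⁻ y in S m,
    ENNReal.ofReal (wa ρ n (y - z.1 - z.2 • gradient h (cen ρ m) - c)) * ‖um ρ g m y‖ₑ ^ 2 with hT
  have hsc : ∀ m ∈ nearL ρ ρ' m', m ∈ caps ρ := fun m hm => (mem_nearL.1 hm).1
  have b1 : ∀ m ∈ nearL ρ ρ' m', ∫⁻ y, ENNReal.ofReal
      (wa ρ (n + k) (y - z.1 - z.2 • gradient h (cen ρ m) - c)) *
        ‖(S m).indicator (um ρ g m) y‖ₑ ^ 2 ≤ T m := by
    intro m hm
    rw [lint_ind (hS.meas m (hsc m hm)) (fun y => ENNReal.ofReal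
      (wa ρ (n + k) (y - z.1 - z.2 • gradient h (cen ρ m) - c))) (um ρ g m)]
    refine lintegral_mono fun y => mul_le_mul' (ENNReal.ofReal_le_ofReal (wa_anti hρ.le _ _ _)) le_rfl
  have b2 : ∀ m ∈ nearL ρ ρ' m', ¬ P m → ∫⁻ y, ENNReal.ofReal
      (wa ρ (n + k) (y - z.1 - z.2 • gradient h (cen ρ m) - c)) *
        ‖(S m).indicator (um ρ g m) y‖ₑ ^ 2 ≤ ENNReal.ofReal (((1 + X) ^ k)⁻¹) * T m := by
    intro m hm hPm
    rw [lint_ind (hS.meas m (hsc m hm)) (fun y => ENNReal.ofReal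
      (wa ρ (n + k) (y - z.1 - z.2 • gradient h (cen ρ m) - c))) (um ρ g m), hT,
      ← lintegral_const_mul' _ _ ENNReal.ofReal_ne_top]
    refine setLIntegral_mono' (hS.meas m (hsc m hm)) fun y hy => ?_
    rw [← mul_assoc, ← ENNReal.ofReal_mul (by positivity)]
    refine mul_le_mul' (ENNReal.ofReal_le_ofReal (wa_add_le hρ.le hX n k ?_)) le_rfl
    by_contra hc
    push Not at hc
    exact hPm ⟨y, hy, hc.le⟩
  have c1 : ∑ m ∈ (nearL ρ ρ' m').filter P, ∫⁻ y, ENNReal.ofReal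
      (wa ρ (n + k) (y - z.1 - z.2 • gradient h (cen ρ m) - c)) *
        ‖(S m).indicator (um ρ g m) y‖ₑ ^ 2 ≤ ∑ m ∈ nearL ρ ρ' m', T m :=
    (Finset.sum_le_sum fun m hm => b1 m (Finset.mem_filter.1 hm).1).trans
      (Finset.sum_le_sum_of_subset (Finset.filter_subset _ _))
  have c2 : ∑ m ∈ (nearL ρ ρ' m').filter (fun m => ¬ P m), ∫⁻ y, ENNReal.ofReal
      (wa ρ (n + k) (y - z.1 - z.2 • gradient h (cen ρ m) - c)) *
        ‖(S m).indicator (um ρ g m) y‖ₑ ^ 2 ≤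
      ENNReal.ofReal (((1 + X) ^ k)⁻¹) * ∑ m ∈ nearL ρ ρ' m', T m := by
    rw [Finset.mul_sum]
    exact (Finset.sum_le_sum fun m hm => b2 m (Finset.mem_filter.1 hm).1 (Finset.mem_filter.1 hm).2).trans
      (Finset.sum_le_sum_of_subset (Finset.filter_subset _ _))
  calc _ ≤ ENNReal.ofReal (C1 * (ρ / ρ')) * (ENNReal.ofReal ν * (∑ m ∈ nearL ρ ρ' m', T m) +
        ((caps ρ).card : ℝ≥0∞) * (ENNReal.ofReal (((1 + X) ^ k)⁻¹) * ∑ m ∈ nearL ρ ρ' m', T m)) := by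
        gcongr
    _ = ENNReal.ofReal (C1 * (ρ / ρ') * (ρ ^ 2)⁻¹ * (ν + (caps ρ).card * ((1 + X) ^ k)⁻¹)) *
        Ad n h ρ ρ' g S m' z c := by
        unfold Ad Ac
        have e1 : ENNReal.ofReal (C1 * (ρ / ρ') * (ρ ^ 2)⁻¹ * (ν + (caps ρ).card * ((1 + X) ^ k)⁻¹)) =
            ENNReal.ofReal (C1 * (ρ / ρ')) * ENNReal.ofReal ((ρ ^ 2)⁻¹) *
              (ENNReal.ofReal ν + ((caps ρ).card : ℝ≥0∞) * ENNReal.ofReal (((1 + X) ^ k)⁻¹)) := by
          rw [ENNReal.ofReal_mul (p := C1 * (ρ / ρ') * (ρ ^ 2)⁻¹) (by positivity),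
            ENNReal.ofReal_mul (p := C1 * (ρ / ρ')) (by positivity),
            ENNReal.ofReal_add hν0 (by positivity),
            ENNReal.ofReal_mul (p := ((caps ρ).card : ℝ)) (by positivity),
            ENNReal.ofReal_natCast]
        have e2 : ENNReal.ofReal ((ρ ^ 2)⁻¹) * ENNReal.ofReal (ρ ^ 2) = 1 := by
          rw [← ENNReal.ofReal_mul (by positivity), inv_mul_cancel₀ (by positivity),
            ENNReal.ofReal_one]
        rw [e1]
        calc _ = ENNReal.ofReal (C1 * (ρ / ρ')) * 1 *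
              ((ENNReal.ofReal ν + ((caps ρ).card : ℝ≥0∞) * ENNReal.ofReal (((1 + X) ^ k)⁻¹)) *
                ∑ m ∈ nearL ρ ρ' m', T m) := by ring
          _ = _ := by rw [← e2]; ring


end Crest.Agent.R138.Up448
end

-- ▼ part R138/Hp1_759
section

/-!
# R138 / R139, WAVE side, slab step, pointwise input (helper759)

`nu_le` : number of active caps of the parent level in one strip of one child cap, by coherence.
`lower_slab` : LOWER in the rectangle form of the slab step, over 480's densities.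
-/

set_option autoImplicit false

open MeasureTheory FourierTransform
open scoped ENNReal ContDiff

namespace Crest.Agent.R138.Hp759

open Crest.Agent.R138.Defs Crest.Agent.R138.Wpk685 Crest.Agent.R138.Loc878
open Crest.Agent.R138.Bil882 (NearId)
open Crest.Agent.R138.Ad480 (wa Ac Ad Ac_mono Ac_shift Ad_transport)
open Crest.Agent.R138.Rect779 (orth RectF class_count card_caps_le mult_le)
open Crest.Agent.R138.Sup882 (grad_lip)

/-- the component orthogonal to `b 0` is the component along `b 1`. -/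
theorem norm_orth_basis (b : OrthonormalBasis (Fin 2) ℝ E2) (v : E2) :
    ‖orth (b 0) v‖ = |(inner ℝ v (b 1) : ℝ)| := by
  have e : orth (b 0) v = (inner ℝ (b 1) v : ℝ) • b 1 := by
    unfold orth
    have h1 := b.sum_repr' v
    rw [Fin.sum_univ_two] at h1
    nth_rewrite 1 [← h1]
    abel
  rw [e, norm_smul, b.norm_eq_one, mul_one, Real.norm_eq_abs, real_inner_comm]

/-- coherence of the parent selection `S` around the normal `N`: every selected point `(m, y)` has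
a normal `N0` close to `± N` such that at most `p` caps of the thin rectangle of `m` carry a
selected point at distance `≤ Kh` of `y`. -/
def Coh (θ θ' δ Kh p : ℝ) (S : ℤ × ℤ → Set E2) (N : E2) : Prop :=
  ∀ m, ∀ y ∈ S m, ∃ N0 : E2, ‖N0‖ = 1 ∧ (‖N0 - N‖ ≤ δ ∨ ‖N0 + N‖ ≤ δ) ∧
    ∀ W : Finset (ℤ × ℤ), W ⊆ caps θ →
      (∀ m1 ∈ W, cen θ m1 ∈ RectF N0 (cen θ m) (28 * θ') (14 * θ + 56 * (δ * θ'))) →
      (∀ m1 ∈ W, ∃ y1 ∈ S m1, ‖y1 - y‖ ≤ Kh) → (W.card : ℝ) ≤ p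


/-! ### the row of a plate -/

/-- class data of the child selection `S'` (a plate with normal `N`) relative to the parent
selection `S` of `f`: the density of a selected point is at most `A1`, and at least `p` caps of its
thin rectangle have density at least `A0`. -/
def Rich (n : ℕ) (h : E2 → ℝ) (θ θ' : ℝ) (f : E2 → ℂ) (S S' : ℤ × ℤ → Set E2) (N : E2)
    (Lr wr : ℝ) (p : ℕ) (A0 A1 : ℝ≥0∞) (ζ : E2 × ℝ) : Prop :=
  ∀ m', ∀ y ∈ S' m', Ad n h θ θ' f S m' ζ y ≤ A1 ∧ ∃ R : Finset (ℤ × ℤ), R ⊆ caps θ' ∧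
    p ≤ R.card ∧ (∀ j ∈ R, cen θ' j ∈ RectF N (cen θ' m') Lr wr) ∧
    ∀ j ∈ R, A0 ≤ Ad n h θ θ' f S j ζ y

/-- transport of the density of a child cap along its tube. -/
theorem Ad_along {h : E2 → ℝ} (hn : NearId h (1 / 10)) {n : ℕ} {θ θ' : ℝ} (hθ : 0 ≤ θ)
    (hθ' : 0 ≤ θ') {f : E2 → ℂ} {S : ℤ × ℤ → Set E2} {m' : ℤ × ℤ} {ζ : E2 × ℝ} {x y : E2} {t X : ℝ}
    (hX : 0 ≤ X) (hd : θ * ‖y - t • gradient h (cen θ' m') - x‖ ≤ X) :
    Ad n h θ θ' f S m' (ζ + (0, t)) x ≤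
      ENNReal.ofReal ((1 + (X + 33 / 10 * (θ * θ' * |t|))) ^ n) * Ad n h θ θ' f S m' ζ y := by
  have h1 := Ad_transport (n := n) (g := f) (S := S) (m' := m') (z := ζ + (0, t)) (z' := ζ) (x := x)
    (x' := y) hθ hθ' hX (L := 11 / 10) (by norm_num) (fun ξ ξ' => grad_lip hn ξ ξ') (by
      have e : (ζ.1 + ζ.2 • gradient h (cen θ' m') + y) -
          ((ζ + (0, t)).1 + (ζ + (0, t)).2 • gradient h (cen θ' m') + x) =
          y - t • gradient h (cen θ' m') - x := by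
        rw [Prod.fst_add, Prod.snd_add, add_smul]
        simp only [add_zero]
        abel
      rw [e]
      exact hd)
  refine h1.trans (mul_le_mul' (ENNReal.ofReal_le_ofReal ?_) le_rfl)
  have e2 : |ζ.2 - (ζ + (0, t)).2| = |t| := by
    rw [Prod.snd_add, sub_add_cancel_left, abs_neg]
  rw [e2]
  refine le_of_eq ?_
  congr 2
  ring

open Classical in
/-- **row estimate** (UPPER side times LOWER side): `T` = caps of the plate which are active near
`(x, t)`; the sum of their densities is at most `1 / p` times the density of the parent selection. -/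
theorem row_le {h : E2 → ℝ} (hn : NearId h (1 / 10)) {n : ℕ} {θ θ' : ℝ} (hθ : 0 < θ)
    (hθ' : 0 < θ') {f : E2 → ℂ} {S S' : ℤ × ℤ → Set E2} {N : E2} (hN : ‖N‖ = 1) {Lr wr : ℝ}
    (hLr : 0 ≤ Lr) {p : ℕ} {A0 A1 : ℝ≥0∞} {ζ : E2 × ℝ}
    (hr : Rich n h θ θ' f S S' N Lr wr p A0 A1 ζ) {K0 : ℝ} (hA0 : A0 ≠ 0) (hA0' : A0 ≠ ⊤)
    (hA : A1 ≤ ENNReal.ofReal K0 * A0) {T : Finset (ℤ × ℤ)} {a K X : ℝ} (hX : 0 ≤ X) (hK : 0 ≤ K)
    (hKa : 10 / 9 * (a + 2 * wr) ≤ K * θ')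
    (ha : ∀ m ∈ T, ∀ m' ∈ T,
      |(inner ℝ N (gradient h (cen θ' m) - gradient h (cen θ' m')) : ℝ)| ≤ a)
    {x : E2} {t : ℝ} (hT : ∀ m' ∈ T, ∃ y ∈ S' m', θ * ‖y - t • gradient h (cen θ' m') - x‖ ≤ X)
    {M : Finset (ℤ × ℤ)} (hM : ∀ m ∈ caps θ, (∃ m' ∈ T,
      ‖gradient h (cen θ m) - gradient h (cen θ' m')‖ ≤ 11 / 10 * (Lr + 3 * θ')) → m ∈ M) :
    (p : ℝ≥0∞) * ∑ m' ∈ T, Ad n h θ θ' f S m' (ζ + (0, t)) x ≤
      ENNReal.ofReal ((1 + (X + 33 / 10 * (θ * θ' * |t|) + 11 / 10 * (θ * Lr * |t|))) ^ (2 * n) *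
        K0 * (36 * (2 * K + 1) ^ 2)) * Ac n h θ f S M (ζ + (0, t)) x := by
  set δ : ℝ := X + 33 / 10 * (θ * θ' * |t|) + 11 / 10 * (θ * Lr * |t|) with hδ
  have hδ0 : 0 ≤ δ := by positivity
  -- choose the points and the rectangles
  have hch : ∀ m' : ℤ × ℤ, ∃ (y : E2) (R : Finset (ℤ × ℤ)), m' ∈ T →
      θ * ‖y - t • gradient h (cen θ' m') - x‖ ≤ X ∧ Ad n h θ θ' f S m' ζ y ≤ A1 ∧ R ⊆ caps θ' ∧
      p ≤ R.card ∧ (∀ j ∈ R, cen θ' j ∈ RectF N (cen θ' m') Lr wr) ∧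
      ∀ j ∈ R, A0 ≤ Ad n h θ θ' f S j ζ y := by
    intro m'
    by_cases hm : m' ∈ T
    · obtain ⟨y, hy, hd⟩ := hT m' hm
      obtain ⟨h1, R, h2, h3, h4, h5⟩ := hr m' y hy
      exact ⟨y, R, fun _ => ⟨hd, h1, h2, h3, h4, h5⟩⟩
    · exact ⟨0, ∅, fun h => absurd h hm⟩
  choose y R hy using hch
  -- UPPER side
  have hup : ∑ m' ∈ T, Ad n h θ θ' f S m' (ζ + (0, t)) x ≤
      (T.card : ℝ≥0∞) * (ENNReal.ofReal ((1 + δ) ^ n) * A1) := by
    rw [← nsmul_eq_mul]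
    refine Finset.sum_le_card_nsmul T _ _ fun m' hm => ?_
    obtain ⟨h1, h2, _⟩ := hy m' hm
    refine (Ad_along hn hθ.le hθ'.le hX h1).trans (mul_le_mul' (ENNReal.ofReal_le_ofReal ?_) h2)
    refine pow_le_pow_left₀ (by positivity) ?_ n
    have : 0 ≤ 11 / 10 * (θ * Lr * |t|) := by positivity
    rw [hδ]; linarith
  -- LOWER side
  have hmul : ∀ j, ((T.filter fun m' => j ∈ R m').card : ℝ) ≤ (2 * K + 1) ^ 2 := by
    intro j
    refine mult_le hn hN hθ' hK hKa (T := T.filter fun m' => j ∈ R m') ?_ (cen θ' j) ?_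
      (L := Lr) (w := wr)
    · intro m hm m' hm'
      exact ha m (Finset.mem_filter.1 hm).1 m' (Finset.mem_filter.1 hm').1
    · intro m hm
      obtain ⟨hm1, hm2⟩ := Finset.mem_filter.1 hm
      exact (hy m hm1).2.2.2.2.1 j hm2
  set K1 : ℕ := ⌊(2 * K + 1) ^ 2⌋₊ with hK1
  have hmul' : ∀ j, (T.filter fun m' => j ∈ R m').card ≤ K1 := fun j => Nat.le_floor (hmul j)
  have hvel : ∀ m' ∈ T, ∀ j ∈ R m',
      ‖gradient h (cen θ' j) - gradient h (cen θ' m')‖ ≤ 11 / 10 * Lr := by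
    intro m' hm j hj
    have h2 := ((hy m' hm).2.2.2.2.1 j hj).1
    have h3 := grad_lip hn (cen θ' j) (cen θ' m')
    linarith
  have hvel2 : ∀ m' ∈ T, ∀ j ∈ R m', ∀ m ∈ nearL θ θ' j,
      ‖gradient h (cen θ m) - gradient h (cen θ' m')‖ ≤ 11 / 10 * (Lr + 3 * θ') := by
    intro m' hm j hj m hmj
    have h2 := hvel m' hm j hj
    have h3 := grad_lip hn (cen θ m) (cen θ' j)
    have h4 := (mem_nearL.1 hmj).2
    unfold Near at h4
    have e : gradient h (cen θ m) - gradient h (cen θ' m') =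
        (gradient h (cen θ m) - gradient h (cen θ' j)) +
        (gradient h (cen θ' j) - gradient h (cen θ' m')) := by abel
    rw [e]
    refine (norm_add_le _ _).trans ?_
    linarith
  have hlow := Ad480.lower (n := n) (h := h) (ρ := θ) (ρ' := θ') (g := f) (S := S) T R (K1 := K1)
    (p := p) (δ := δ) (A := A0) hθ.le hθ' hδ0 (fun m' hm => (hy m' hm).2.2.1) hmul'
    (fun m' hm => (hy m' hm).2.2.2.1) (fun _ => ζ) y (fun m' hm => (hy m' hm).2.2.2.2.2)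
    (z := ζ + (0, t)) (x := x) (by
      intro m' hm j hj m hmj
      have h1 := (hy m' hm).1
      have h2 := hvel2 m' hm j hj m hmj
      have e : ((ζ + (0, t)).1 + (ζ + (0, t)).2 • gradient h (cen θ m) + x) -
          (ζ.1 + ζ.2 • gradient h (cen θ m) + y m') =
          -(y m' - t • gradient h (cen θ' m') - x) +
            t • (gradient h (cen θ m) - gradient h (cen θ' m')) := by
        rw [Prod.fst_add, Prod.snd_add, add_smul, smul_sub]
        simp only [add_zero]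
        abel
      rw [e]
      calc θ * ‖-(y m' - t • gradient h (cen θ' m') - x) +
            t • (gradient h (cen θ m) - gradient h (cen θ' m'))‖ ≤
            θ * (‖y m' - t • gradient h (cen θ' m') - x‖ + |t| * (11 / 10 * (Lr + 3 * θ'))) := by
            refine mul_le_mul_of_nonneg_left ((norm_add_le _ _).trans ?_) hθ.le
            rw [norm_neg, norm_smul, Real.norm_eq_abs]
            have := mul_le_mul_of_nonneg_left h2 (abs_nonneg t)
            linarith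
        _ ≤ δ := by
            rw [hδ]
            nlinarith)
    (M := M) (by
      intro m' hm j hj m hmj
      exact hM m (mem_nearL.1 hmj).1 ⟨m', hm, hvel2 m' hm j hj m hmj⟩)
  -- combination
  have hK1' : (36 * K1 : ℝ≥0∞) ≤ ENNReal.ofReal (36 * (2 * K + 1) ^ 2) := by
    have h1 : (K1 : ℝ) ≤ (2 * K + 1) ^ 2 := Nat.floor_le (by positivity)
    calc (36 * K1 : ℝ≥0∞) = ENNReal.ofReal (36 * (K1 : ℝ)) := by
          rw [ENNReal.ofReal_mul (by norm_num), ENNReal.ofReal_natCast]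
          norm_num
      _ ≤ _ := ENNReal.ofReal_le_ofReal (by linarith)
  have hfin : A0 * ((p : ℝ≥0∞) * ∑ m' ∈ T, Ad n h θ θ' f S m' (ζ + (0, t)) x) ≤
      A0 * (ENNReal.ofReal ((1 + δ) ^ (2 * n) * K0 * (36 * (2 * K + 1) ^ 2)) *
        Ac n h θ f S M (ζ + (0, t)) x) := by
    by_cases hK0 : 0 ≤ K0
    · calc A0 * ((p : ℝ≥0∞) * ∑ m' ∈ T, Ad n h θ θ' f S m' (ζ + (0, t)) x)
          ≤ A0 * ((p : ℝ≥0∞) * ((T.card : ℝ≥0∞) * (ENNReal.ofReal ((1 + δ) ^ n) *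
            (ENNReal.ofReal K0 * A0)))) := by
            gcongr
            exact hup.trans (by gcongr)
        _ = (ENNReal.ofReal ((1 + δ) ^ n) * ENNReal.ofReal K0 * A0) * ((T.card * p : ℝ≥0∞) * A0) := by
            ring
        _ ≤ (ENNReal.ofReal ((1 + δ) ^ n) * ENNReal.ofReal K0 * A0) *
            (ENNReal.ofReal ((1 + δ) ^ n) * (ENNReal.ofReal (36 * (2 * K + 1) ^ 2) *
            Ac n h θ f S M (ζ + (0, t)) x)) := by
            refine mul_le_mul' le_rfl (hlow.trans ?_)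
            gcongr
        _ = _ := by
            have e : ENNReal.ofReal ((1 + δ) ^ (2 * n) * K0 * (36 * (2 * K + 1) ^ 2)) =
                ENNReal.ofReal ((1 + δ) ^ n) * (ENNReal.ofReal K0 * (ENNReal.ofReal ((1 + δ) ^ n) *
                  ENNReal.ofReal (36 * (2 * K + 1) ^ 2))) := by
              rw [← ENNReal.ofReal_mul (by positivity), ← ENNReal.ofReal_mul hK0,
                ← ENNReal.ofReal_mul (by positivity)]
              congr 1
              rw [two_mul, pow_add]; ring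
            rw [e]
            ring
    · -- then `A1 = 0` and all densities vanish
      have h0 : A1 = 0 := by
        have : ENNReal.ofReal K0 = 0 := ENNReal.ofReal_of_nonpos (by linarith)
        rw [this, zero_mul] at hA
        exact le_antisymm hA bot_le
      rw [h0, mul_zero, mul_zero] at hup
      have h1 := le_antisymm hup bot_le
      rw [h1, mul_zero, mul_zero]
      exact bot_le
  exact (ENNReal.mul_le_mul_iff_right hA0 hA0').1 hfin

end Crest.Agent.R138.Hp759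
end

-- ▼ part R138/Al1_878

/-!
# R138 / R139, wave side, AL (helper878), part 1: the pointwise input (H) of SUPM

UPPER (448) + coherence (PDef_654) + LOWER (759, 480): the local energy of an aligned child plate is
at most `C Y^(2n) Gm² pp / p` times the density of the parent selection.
-/

set_option autoImplicit false

open MeasureTheory FourierTransform
open scoped ContDiff ENNReal

namespace Crest.Agent.R138.Al878

open Crest.Agent.R138.Defs Crest.Agent.R138.W188 Crest.Agent.R138.Wpk685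
open Crest.Agent.R138.Loc878 Crest.Agent.R138.Ad480 Crest.Agent.R138.Rect779
open Crest.Agent.R138.P654
open Crest.Agent.R138.Bil882 (NearId)
open Crest.Agent.R138.Wf448 (dw)
open Crest.Agent.R138.Up448 (bx upper_sel norm_bx_sq card_caps_le' norm_bx_ge)
open Crest.Agent.R138.Low448 (fr)
open Crest.Agent.R138.Sm858 (seP)
open Crest.Agent.R138.Hp759 (Rich row_le Ad_along norm_orth_basis)
open Crest.Agent.R138.Sup882 (grad_lip)

/-- the strip count of UPPER from the coherence bound. -/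
theorem strip_count {h : E2 → ℝ} {θ θ' δ Y T pp : ℝ} {I1 : Finset ℕ} {P1 : ℕ → Plate}
    (hθ : 0 < θ) (hθθ' : θ ≤ θ') (hpp : 0 ≤ pp) (hc : Coh h θ θ' δ Y T I1 P1 pp)
    (b : OrthonormalBasis (Fin 2) ℝ E2) (z : E2 × ℝ) (hz : |z.2| ≤ T) (c : E2) (m' : ℤ × ℤ)
    (κ : ℤ) :
    (Set.ncard {m | m ∈ nearL θ θ' m' ∧ (∃ y ∈ Sal δ b I1 P1 m,
      θ * ‖y - z.1 - z.2 • gradient h (cen θ m) - c‖ ≤ Y) ∧
      |inner ℝ (cen θ m) (b 1) - κ * θ| ≤ θ} : ℝ) ≤ pp := by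
  classical
  set M : Finset (ℤ × ℤ) := (nearL θ θ' m').filter fun m => (∃ y ∈ Sal δ b I1 P1 m,
      θ * ‖y - z.1 - z.2 • gradient h (cen θ m) - c‖ ≤ Y) ∧
      |inner ℝ (cen θ m) (b 1) - κ * θ| ≤ θ with hM
  have e1 : {m | m ∈ nearL θ θ' m' ∧ (∃ y ∈ Sal δ b I1 P1 m,
      θ * ‖y - z.1 - z.2 • gradient h (cen θ m) - c‖ ≤ Y) ∧
      |inner ℝ (cen θ m) (b 1) - κ * θ| ≤ θ} = (M : Set (ℤ × ℤ)) := by
    ext m
    simp [hM]
  rw [e1, Set.ncard_coe_finset]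
  rcases M.eq_empty_or_nonempty with hE | ⟨m0, hm0⟩
  · rw [hE]; simpa using hpp
  · refine hc b (cen θ m0) z c hz M fun m hm => ?_
    obtain ⟨h1, h2, h3⟩ := Finset.mem_filter.1 hm
    obtain ⟨h1', h2', h3'⟩ := Finset.mem_filter.1 hm0
    refine ⟨(mem_nearL.1 h1).1, ⟨?_, ?_⟩, h2⟩
    · have n1 : ‖cen θ m - cen θ' m'‖ < 3 * θ' := (mem_nearL.1 h1).2
      have n2 : ‖cen θ m0 - cen θ' m'‖ < 3 * θ' := (mem_nearL.1 h1').2
      have e : cen θ m - cen θ m0 = (cen θ m - cen θ' m') - (cen θ m0 - cen θ' m') := by abel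
      rw [e]
      have := norm_sub_le (cen θ m - cen θ' m') (cen θ m0 - cen θ' m')
      linarith
    · rw [norm_orth_basis, inner_sub_left]
      have e : (inner ℝ (cen θ m) (b 1) : ℝ) - inner ℝ (cen θ m0) (b 1) =
          (inner ℝ (cen θ m) (b 1) - κ * θ) - (inner ℝ (cen θ m0) (b 1) - κ * θ) := by ring
      rw [e]
      have := abs_sub (inner ℝ (cen θ m) (b 1) - κ * θ : ℝ) (inner ℝ (cen θ m0) (b 1) - κ * θ)
      linarith

/-- angles. -/
theorem an_facts {r1 dl : ℝ} (hdl : 0 < dl) (hdl1 : dl ≤ 1) (hr : 1 ≤ dl * r1) :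
    0 < an r1 ∧ an r1 ≤ an (dl * r1) ∧ an (dl * r1) ≤ 1 ∧ an r1 ^ 2 * r1 = 1 ∧
      an (dl * r1) ^ 2 * (dl * r1) = 1 ∧ an r1 * an (dl * (dl * r1)) * (dl * r1) = 1 ∧
      (an (dl * r1))⁻¹ = (dl * r1) ^ (1/2 : ℝ) ∧ (an r1)⁻¹ = r1 ^ (1/2 : ℝ) ∧ 1 ≤ r1 ∧
      an (dl * r1) ≤ an (dl * (dl * r1)) := by
  have hr10 : 0 < r1 := by
    by_contra h
    push Not at h
    nlinarith
  have hr0 : 0 < dl * r1 := by positivity
  have hr1 : dl * r1 ≤ r1 := by nlinarith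
  have sq : ∀ x : ℝ, 0 < x → an x ^ 2 * x = 1 := by
    intro x hx
    unfold an
    rw [← Real.rpow_natCast, ← Real.rpow_mul hx.le]
    nth_rewrite 2 [← Real.rpow_one x]
    rw [← Real.rpow_add hx]
    norm_num
  have inv : ∀ x : ℝ, 0 < x → (an x)⁻¹ = x ^ (1/2 : ℝ) := by
    intro x hx
    unfold an
    rw [← Real.rpow_neg hx.le]
    norm_num
  refine ⟨by unfold an; positivity, ?_, ?_, sq _ hr10, sq _ hr0, ?_, inv _ hr0, inv _ hr10,
    by linarith, ?_⟩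
  · exact Real.rpow_le_rpow_of_nonpos hr0 hr1 (by norm_num)
  · exact Real.rpow_le_one_of_one_le_of_nonpos hr (by norm_num)
  · unfold an
    rw [← Real.mul_rpow hr10.le (by positivity)]
    have e : r1 * (dl * (dl * r1)) = (dl * r1) ^ (2 : ℝ) := by
      rw [Real.rpow_two]; ring
    rw [e, ← Real.rpow_mul hr0.le]
    nth_rewrite 2 [← Real.rpow_one (dl * r1)]
    rw [← Real.rpow_add hr0]
    norm_num
  · exact Real.rpow_le_rpow_of_nonpos (by positivity) (by nlinarith) (by norm_num)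

/-- weight outside the active region. -/
theorem dw_far (N k : ℕ) (hk : k ≤ N) (b : OrthonormalBasis (Fin 2) ℝ E2) {θ θ' Y : ℝ} (hθ : 0 < θ)
    (hθθ' : θ ≤ θ') (hY : 1 ≤ Y) {v : E2} (hv : Y < θ * ‖v‖) :
    dw N (bx b θ' θ) v ≤ ((1 + Y) ^ k)⁻¹ := by
  unfold dw Wf448.gw
  have h1 : θ * ‖v‖ ≤ ‖bx b θ' θ v‖ := by
    have := norm_bx_ge b hθ.le hθθ' v
    rwa [iso_apply, norm_smul, Real.norm_eq_abs, abs_of_pos hθ] at this
  have h2 : (1 + Y) ^ k ≤ (1 + ‖bx b θ' θ v‖ ^ 2) ^ N := by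
    have h3 : 1 + Y ≤ 1 + ‖bx b θ' θ v‖ ^ 2 := by nlinarith
    calc (1 + Y) ^ k ≤ (1 + Y) ^ N := pow_le_pow_right₀ (by linarith) hk
      _ ≤ _ := pow_le_pow_left₀ (by linarith) h3 N
  gcongr

/-- UPPER for one active child cap. -/
theorem act_le (B : ℕ → ℝ) (n k : ℕ) : ∃ C : ℝ, 0 ≤ C ∧ ∀ h, ParB B h → NearId h (1 / 10) →
    ∀ (r1 dl Y δ pp : ℝ), 0 < dl → dl ≤ 1 → 1 ≤ dl * r1 → 1 ≤ Y → 1 ≤ pp →
    ∀ g : E2 → ℂ, Integrable g → ∀ (I1 : Finset ℕ) (P1 : ℕ → Plate),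
    (∀ b, Bs (an r1) (Sal δ b I1 P1)) →
    Coh h (an r1) (an (dl * r1)) δ Y (2 * r1) I1 P1 pp →
    ∀ (b : OrthonormalBasis (Fin 2) ℝ E2) (S' : ℤ × ℤ → Set E2) (z : E2 × ℝ),
    (∀ m, MeasurableSet (S' m)) → |z.2| ≤ r1 →
    (∀ m, ∀ y ∈ S' m, ‖um (an (dl * r1)) (tr h z (sel (an r1) g (uS I1 P1))) m y‖ ≤
      2 * ‖um (an (dl * r1)) (tr h z (sel (an r1) g (Sal δ b I1 P1))) m y‖) →
    ∀ (x : E2) (t : ℝ), |t| ≤ dl * r1 → ∀ m : ℤ × ℤ,
    ∫⁻ y in S' m, ENNReal.ofReal (dw (n + k + 2) (bx b (an (dl * r1)) (an r1))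
        (y - (x + t • gradient h (cen (an (dl * r1)) m)))) *
      ‖um (an (dl * r1)) (tr h z (sel (an r1) g (uS I1 P1))) m y‖ₑ ^ 2 ≤
    ENNReal.ofReal (C * ((dl * r1) ^ (1/2 : ℝ) * r1 ^ (1/2 : ℝ)) * pp) *
        Ad n h (an r1) (an (dl * r1)) g (uS I1 P1) m (z + (0, t)) x +
      ENNReal.ofReal (C * ((dl * r1) ^ (1/2 : ℝ) * r1 ^ (1/2 : ℝ)) * ((1 + Y) ^ k)⁻¹) *
        en (an r1) g (uS I1 P1) := by
  obtain ⟨C1, hC1, H⟩ := upper_sel B n k 1 le_rfl
  refine ⟨4 * C1 * 5 ^ n + 4 * C1 * 81, by positivity, ?_⟩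
  intro h hh hn r1 dl Y δ pp hdl hdl1 hr hY hpp g hg I1 P1 hBs hcoh b S' z hS' hz hal x t ht m
  obtain ⟨hθ, hθθ', hθ'1, e1, e2, e3, e4, e5, hr1, e6⟩ := an_facts hdl hdl1 hr
  set θ := an r1 with hθdef
  set θ' := an (dl * r1) with hθ'def
  set c : E2 := x + t • gradient h (cen θ' m) with hc
  set W : ℝ := (dl * r1) ^ (1/2 : ℝ) * r1 ^ (1/2 : ℝ) with hW
  have hθ' : 0 < θ' := hθ.trans_le hθθ'
  have hr0 : 0 < dl * r1 := by linarith
  have hW0 : 0 ≤ W := by rw [hW]; positivity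
  have hWe : θ / θ' * (θ ^ 2)⁻¹ = W := by
    rw [hW, ← e4, ← e5]
    field_simp
  have hzL : |z.2| * θ ^ 2 ≤ 1 := by
    calc |z.2| * θ ^ 2 ≤ r1 * θ ^ 2 := by gcongr
      _ = 1 := by rw [mul_comm]; exact e1
  have h1 := H h hh θ θ' hθ hθθ' (hθθ'.trans hθ'1) b c g hg (Sal δ b I1 P1) (hBs b) z hzL m Y pp
    (by linarith) (fun κ => strip_count hθ hθθ' (by linarith) hcoh b z (by linarith) c m κ)
  have hsub : ∀ m, Sal δ b I1 P1 m ⊆ uS I1 P1 m := by
    intro m y hy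
    obtain ⟨i, hi, -, hy⟩ := hy
    exact Set.mem_biUnion hi hy
  have hcard : ((caps θ).card : ℝ) ≤ 81 * (θ ^ 2)⁻¹ := card_caps_le' hθ (hθθ'.trans hθ'1)
  have hY0 : 0 < (1 + Y) ^ k := by positivity
  -- transport
  have h2 : Ad n h θ θ' g (uS I1 P1) m z c ≤ ENNReal.ofReal (5 ^ n) *
      Ad n h θ θ' g (uS I1 P1) m (z + (0, t)) x := by
    have h3 := Ad_transport (n := n) (h := h) (g := g) (S := uS I1 P1) (m' := m) (z := z)
      (z' := z + (0, t)) (x := c) (x' := x) hθ.le hθ'.le (δ := 0) le_rfl (L := 11 / 10)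
      (by norm_num) (fun ξ ξ' => grad_lip hn ξ ξ') (by
        have e : (z + (0, t)).1 + (z + (0, t)).2 • gradient h (cen θ' m) + x -
            (z.1 + z.2 • gradient h (cen θ' m) + c) = 0 := by
          rw [hc, Prod.fst_add, Prod.snd_add, add_smul]
          simp only [add_zero]
          abel
        rw [e]; simp)
    refine h3.trans (mul_le_mul' (ENNReal.ofReal_le_ofReal ?_) le_rfl)
    have e : |(z + (0, t)).2 - z.2| = |t| := by
      rw [Prod.snd_add]; simp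
    rw [e]
    refine pow_le_pow_left₀ (by positivity) ?_ n
    have h4 : θ * θ' * |t| ≤ 1 := by
      calc θ * θ' * |t| ≤ θ' * θ' * (dl * r1) := by gcongr
        _ = 1 := by rw [← e2]; ring
    linarith
  -- energy bound of the density
  have h5 : Ad n h θ θ' g (uS I1 P1) m z c ≤ ENNReal.ofReal (θ ^ 2) * en θ g (uS I1 P1) :=
    Ad_le_en hθ.le m z c
  have h6 : ∫⁻ y in S' m, ENNReal.ofReal (dw (n + k + 2) (bx b θ' θ) (y - c)) *
      ‖um θ' (tr h z (sel θ g (uS I1 P1))) m y‖ₑ ^ 2 ≤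
      4 * ∫⁻ y, ENNReal.ofReal (dw (n + k + 2) (bx b θ' θ) (y - c)) *
        ‖um θ' (tr h z (sel θ g (Sal δ b I1 P1))) m y‖ₑ ^ 2 := by
    rw [← lintegral_const_mul' _ _ (by norm_num)]
    refine (setLIntegral_mono' (hS' m) fun y hy => ?_).trans (setLIntegral_le_lintegral _ _)
    have h7 := hal m y hy
    have h8 : ‖um θ' (tr h z (sel θ g (uS I1 P1))) m y‖ₑ ≤
        2 * ‖um θ' (tr h z (sel θ g (Sal δ b I1 P1))) m y‖ₑ := by
      rw [← ofReal_norm, ← ofReal_norm]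
      rw [show (2 : ℝ≥0∞) = ENNReal.ofReal 2 by norm_num, ← ENNReal.ofReal_mul (by norm_num)]
      exact ENNReal.ofReal_le_ofReal h7
    calc _ ≤ ENNReal.ofReal (dw (n + k + 2) (bx b θ' θ) (y - c)) *
          (2 * ‖um θ' (tr h z (sel θ g (Sal δ b I1 P1))) m y‖ₑ) ^ 2 := by gcongr
      _ = _ := by ring
  refine h6.trans ((mul_le_mul' le_rfl (h1.trans (mul_le_mul' le_rfl
    (Ad_mono hsub z c)))).trans ?_)
  have e7 : C1 * (θ / θ') * (θ ^ 2)⁻¹ * (pp + (caps θ).card * ((1 + Y) ^ k)⁻¹) =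
      C1 * W * pp + C1 * W * ((caps θ).card * ((1 + Y) ^ k)⁻¹) := by
    rw [← hWe]; ring
  rw [e7, ENNReal.ofReal_add (by positivity) (by positivity), add_mul, mul_add]
  refine add_le_add ?_ ?_
  · calc 4 * (ENNReal.ofReal (C1 * W * pp) * Ad n h θ θ' g (uS I1 P1) m z c)
        ≤ 4 * (ENNReal.ofReal (C1 * W * pp) * (ENNReal.ofReal (5 ^ n) *
          Ad n h θ θ' g (uS I1 P1) m (z + (0, t)) x)) := by gcongr
      _ = ENNReal.ofReal (4 * C1 * 5 ^ n * W * pp) *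
          Ad n h θ θ' g (uS I1 P1) m (z + (0, t)) x := by
        rw [← mul_assoc, ← mul_assoc, show (4 : ℝ≥0∞) = ENNReal.ofReal 4 by norm_num,
          ← ENNReal.ofReal_mul (by norm_num), ← ENNReal.ofReal_mul (by positivity)]
        congr 2
        ring
      _ ≤ _ := by
        gcongr
        have : 0 ≤ 4 * C1 * 81 := by positivity
        linarith
  · calc 4 * (ENNReal.ofReal (C1 * W * ((caps θ).card * ((1 + Y) ^ k)⁻¹)) *
          Ad n h θ θ' g (uS I1 P1) m z c)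
        ≤ 4 * (ENNReal.ofReal (C1 * W * ((81 * (θ ^ 2)⁻¹) * ((1 + Y) ^ k)⁻¹)) *
          (ENNReal.ofReal (θ ^ 2) * en θ g (uS I1 P1))) := by gcongr
      _ = ENNReal.ofReal (4 * C1 * 81 * W * ((1 + Y) ^ k)⁻¹) * en θ g (uS I1 P1) := by
        rw [← mul_assoc, ← mul_assoc, show (4 : ℝ≥0∞) = ENNReal.ofReal 4 by norm_num,
          ← ENNReal.ofReal_mul (by norm_num), ← ENNReal.ofReal_mul (by positivity)]
        congr 2
        field_simp
      _ ≤ _ := by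
        gcongr
        have : 0 ≤ 4 * C1 * 5 ^ n := by positivity
        linarith

open Classical in
/-- LOWER: the row of active child caps. -/
theorem row_al (n : ℕ) : ∃ C : ℝ, 0 ≤ C ∧ ∀ h, NearId h (1 / 10) →
    ∀ (A K0 r1 dl Y Gm a p : ℝ), 1 ≤ A → 1 ≤ K0 → 0 < dl → dl ≤ 1 → 1 ≤ dl * r1 → 1 ≤ Y →
    1 ≤ Gm → 0 ≤ a → 1 ≤ p → ∀ (g : E2 → ℂ) (S : ℤ × ℤ → Set E2)
      (b : OrthonormalBasis (Fin 2) ℝ E2) (S' : ℤ × ℤ → Set E2) (z : E2 × ℝ) (c0 : E2),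
    (∀ m, ∀ y ∈ S' m, |(inner ℝ (gradient h (cen (an (dl * r1)) m) - c0) (b 0) : ℝ)| ≤
      A * (Gm * an (dl * r1))) →
    (∀ m, ∀ y ∈ S' m, ENNReal.ofReal a ≤ Ad n h (an r1) (an (dl * r1)) g S m z y) →
    (∀ m, ∀ y ∈ S' m, Ad n h (an r1) (an (dl * r1)) g S m z y ≤ ENNReal.ofReal (8 * a)) →
    (∀ m, ∀ y ∈ S' m, p ≤ (pot n h (an r1) (an (dl * r1)) (an (dl * (dl * r1))) K0 g S b z m y : ℝ)) →
    ∀ (x : E2) (t : ℝ), |t| ≤ dl * r1 → ∀ T : Finset (ℤ × ℤ),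
    (∀ m ∈ T, ∃ y ∈ S' m, an r1 * ‖y - t • gradient h (cen (an (dl * r1)) m) - x‖ ≤ Y) →
    ∀ M : Finset (ℤ × ℤ), (∀ m ∈ caps (an r1), (∃ m' ∈ T,
      ‖gradient h (cen (an r1) m) - gradient h (cen (an (dl * r1)) m')‖ ≤
        11 / 10 * (16 * an (dl * (dl * r1)) + 3 * an (dl * r1))) → m ∈ M) →
    ∑ m ∈ T, Ad n h (an r1) (an (dl * r1)) g S m (z + (0, t)) x ≤
      ENNReal.ofReal (C * (A * Gm) ^ 2 * K0 * Y ^ (2 * n) / p) *
        Ac n h (an r1) g S M (z + (0, t)) x := by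
  refine ⟨23 ^ (2 * n) * 8 * (36 * 290 ^ 2), by positivity, ?_⟩
  intro h hn A K0 r1 dl Y Gm a p hA hK0 hdl hdl1 hr hY hGm ha hp g S b S' z c0 hdir hlo hhi hpot
    x t ht T hT M hM
  obtain ⟨hθ, hθθ', hθ'1, e1, e2, e3, e4, e5, hr1, e6⟩ := an_facts hdl hdl1 hr
  set θ := an r1 with hθdef
  set θ' := an (dl * r1) with hθ'def
  set θ'' := an (dl * (dl * r1)) with hθ''def
  have hθ' : 0 < θ' := hθ.trans_le hθθ'
  have hθ'' : 0 < θ'' := hθ'.trans_le e6
  have hr0 : 0 < dl * r1 := by linarith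
  have hp0 : 0 < p := by linarith
  have h4 : θ * θ' * |t| ≤ 1 := by
    calc θ * θ' * |t| ≤ θ' * θ' * (dl * r1) := by gcongr
      _ = 1 := by rw [← e2]; ring
  have h5 : θ * (16 * θ'') * |t| ≤ 16 := by
    calc θ * (16 * θ'') * |t| ≤ θ * (16 * θ'') * (dl * r1) := by gcongr
      _ = 16 * (θ * θ'' * (dl * r1)) := by ring
      _ = 16 := by rw [e3]; ring
  rcases eq_or_lt_of_le ha with ha0 | ha0
  · -- `a = 0`: no density at all
    refine le_trans (le_of_eq ?_) zero_le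
    refine Finset.sum_eq_zero fun m hm => ?_
    obtain ⟨y, hy, hyd⟩ := hT m hm
    have h6 := Ad_along hn (n := n) hθ.le hθ'.le (f := g) (S := S) (m' := m) (ζ := z)
      (X := Y) (by linarith) hyd
    have h7 := hhi m y hy
    rw [← ha0, mul_zero, ENNReal.ofReal_zero, nonpos_iff_eq_zero] at h7
    rw [h7, mul_zero, nonpos_iff_eq_zero] at h6
    exact h6
  · set A0 : ℝ≥0∞ := ENNReal.ofReal (a / K0) with hA0
    have hA0' : A0 ≠ 0 := by
      rw [hA0, Ne, ENNReal.ofReal_eq_zero, not_le]; positivity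
    have hrich : Rich n h θ θ' g S S' (b 0) (16 * θ'') (64 * θ') ⌈p⌉₊ A0 (ENNReal.ofReal (8 * a))
        z := by
      intro m' y hy
      refine ⟨hhi m' y hy, (caps θ').filter fun m => cen θ' m ∈ RectF (b 0) (cen θ' m')
        (16 * θ'') (64 * θ') ∧ Ad n h θ θ' g S m' z y ≤ ENNReal.ofReal K0 * Ad n h θ θ' g S m z y,
        Finset.filter_subset _ _, ?_, ?_, ?_⟩
      · exact Nat.ceil_le.2 (hpot m' y hy)
      · intro j hj
        exact (Finset.mem_filter.1 hj).2.1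
      · intro j hj
        have h6 := (hlo m' y hy).trans (Finset.mem_filter.1 hj).2.2
        rw [hA0, ENNReal.ofReal_div_of_pos (by linarith)]
        exact ENNReal.div_le_of_le_mul' h6
    have h6 := row_le hn (n := n) hθ hθ' (f := g) (S := S) (S' := S') (N := b 0)
      (b.norm_eq_one 0) (Lr := 16 * θ'') (wr := 64 * θ') (by positivity) (p := ⌈p⌉₊) (A0 := A0)
      (A1 := ENNReal.ofReal (8 * a)) (ζ := z) hrich (K0 := 8 * K0) hA0' ENNReal.ofReal_ne_top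
      (by
        rw [hA0, ← ENNReal.ofReal_mul (by positivity)]
        refine ENNReal.ofReal_le_ofReal (le_of_eq ?_)
        field_simp) (T := T) (a := 2 * (A * (Gm * θ'))) (K := 10 / 9 * (2 * (A * Gm) + 128)) (X := Y)
      (by linarith) (by positivity) (le_of_eq (by ring)) (by
        intro m hm m' hm'
        obtain ⟨y, hy, -⟩ := hT m hm
        obtain ⟨y', hy', -⟩ := hT m' hm'
        have g1 := hdir m y hy
        have g2 := hdir m' y' hy'
        rw [real_inner_comm] at g1 g2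
        have e : (inner ℝ (b 0) (gradient h (cen θ' m) - gradient h (cen θ' m')) : ℝ) =
            inner ℝ (b 0) (gradient h (cen θ' m) - c0) -
              inner ℝ (b 0) (gradient h (cen θ' m') - c0) := by
          rw [← inner_sub_right]; congr 1; abel
        rw [e]
        have := abs_sub (inner ℝ (b 0) (gradient h (cen θ' m) - c0) : ℝ)
          (inner ℝ (b 0) (gradient h (cen θ' m') - c0))
        linarith) (x := x) (t := t) hT (M := M) hM
    have hGm0 : 1 ≤ A * Gm := by nlinarith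
    have hKle : (1 + (Y + 33 / 10 * (θ * θ' * |t|) + 11 / 10 * (θ * (16 * θ'') * |t|))) ^ (2 * n) *
        (8 * K0) * (36 * (2 * (10 / 9 * (2 * (A * Gm) + 128)) + 1) ^ 2) ≤
        23 ^ (2 * n) * 8 * (36 * 290 ^ 2) * (A * Gm) ^ 2 * K0 * Y ^ (2 * n) := by
      have k1 : (1 + (Y + 33 / 10 * (θ * θ' * |t|) + 11 / 10 * (θ * (16 * θ'') * |t|))) ^ (2 * n) ≤
          (23 * Y) ^ (2 * n) := by
        refine pow_le_pow_left₀ (by positivity) ?_ _
        nlinarith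
      have k2 : (2 * (10 / 9 * (2 * (A * Gm) + 128)) + 1) ^ 2 ≤ (290 * (A * Gm)) ^ 2 := by
        refine pow_le_pow_left₀ (by positivity) ?_ _
        nlinarith
      calc _ ≤ (23 * Y) ^ (2 * n) * (8 * K0) * (36 * (290 * (A * Gm)) ^ 2) := by gcongr
        _ = _ := by rw [mul_pow, mul_pow]; ring
    set Ks := ∑ m ∈ T, Ad n h θ θ' g S m (z + (0, t)) x with hKs
    have h7 : ENNReal.ofReal p * Ks ≤ ENNReal.ofReal (23 ^ (2 * n) * 8 * (36 * 290 ^ 2) *
        (A * Gm) ^ 2 * K0 * Y ^ (2 * n)) * Ac n h θ g S M (z + (0, t)) x := by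
      refine le_trans ?_ (h6.trans (mul_le_mul' (ENNReal.ofReal_le_ofReal hKle) le_rfl))
      refine mul_le_mul' ?_ le_rfl
      rw [← ENNReal.ofReal_natCast]
      exact ENNReal.ofReal_le_ofReal (Nat.le_ceil p)
    calc Ks = ENNReal.ofReal (1 / p) * (ENNReal.ofReal p * Ks) := by
          rw [← mul_assoc, ← ENNReal.ofReal_mul (by positivity), one_div,
            inv_mul_cancel₀ hp0.ne', ENNReal.ofReal_one, one_mul]
      _ ≤ ENNReal.ofReal (1 / p) * (ENNReal.ofReal (23 ^ (2 * n) * 8 * (36 * 290 ^ 2) *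
            (A * Gm) ^ 2 * K0 * Y ^ (2 * n)) * Ac n h θ g S M (z + (0, t)) x) := by gcongr
      _ = _ := by
          rw [← mul_assoc, ← ENNReal.ofReal_mul (by positivity)]
          congr 2
          ring

open Classical in
/-- **(H)**: the pointwise input of SUPM for aligned plates. -/
theorem H_al (B : ℕ → ℝ) (n k : ℕ) : ∃ C : ℝ, 0 ≤ C ∧ ∀ h, ParB B h → NearId h (1 / 10) →
    ∀ (A K0 r1 dl Y Gm δ a p pp : ℝ), 1 ≤ A → 1 ≤ K0 → 0 < dl → dl ≤ 1 → 1 ≤ dl * r1 → 1 ≤ Y →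
    1 ≤ Gm → 1 ≤ pp → 0 ≤ a → 1 ≤ p → ∀ g : E2 → ℂ, Integrable g → MemLp g 2 →
    ∀ (I1 : Finset ℕ) (P1 : ℕ → Plate), Bs (an r1) (uS I1 P1) →
    (∀ b, Bs (an r1) (Sal δ b I1 P1)) →
    Coh h (an r1) (an (dl * r1)) δ Y (2 * r1) I1 P1 pp →
    ∀ (b : OrthonormalBasis (Fin 2) ℝ E2) (S' : ℤ × ℤ → Set E2) (z : E2 × ℝ) (c0 : E2),
    (∀ m, MeasurableSet (S' m)) → |z.2| ≤ r1 →
    (∀ m, ∀ y ∈ S' m, |(inner ℝ (gradient h (cen (an (dl * r1)) m) - c0) (b 0) : ℝ)| ≤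
      A * (Gm * an (dl * r1))) →
    (∀ m, ∀ y ∈ S' m, ENNReal.ofReal a ≤ Ad n h (an r1) (an (dl * r1)) g (uS I1 P1) m z y) →
    (∀ m, ∀ y ∈ S' m, Ad n h (an r1) (an (dl * r1)) g (uS I1 P1) m z y ≤
      ENNReal.ofReal (8 * a)) →
    (∀ m, ∀ y ∈ S' m,
      p ≤ (pot n h (an r1) (an (dl * r1)) (an (dl * (dl * r1))) K0 g (uS I1 P1) b z m y : ℝ)) →
    (∀ m, ∀ y ∈ S' m, ‖um (an (dl * r1)) (tr h z (sel (an r1) g (uS I1 P1))) m y‖ ≤
      2 * ‖um (an (dl * r1)) (tr h z (sel (an r1) g (Sal δ b I1 P1))) m y‖) →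
    ∀ (x : E2) (t : ℝ), |t| ≤ dl * r1 →
    ∀ M : Finset (ℤ × ℤ), (∀ m ∈ caps (an r1), (∃ m' ∈ caps (an (dl * r1)), (S' m').Nonempty ∧
      ‖gradient h (cen (an r1) m) - gradient h (cen (an (dl * r1)) m')‖ ≤
        11 / 10 * (16 * an (dl * (dl * r1)) + 3 * an (dl * r1))) → m ∈ M) →
    seP (n + k + 2) (fr b ![(dl * r1) ^ (1/2 : ℝ), r1 ^ (1/2 : ℝ)]) h (dl * r1)
        (tr h z (sel (an r1) g (uS I1 P1))) S' x t ≤
      ENNReal.ofReal ((dl * r1) ^ (1/2 : ℝ) * r1 ^ (1/2 : ℝ)) *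
        (ENNReal.ofReal (C * (A * Gm) ^ 2 * K0 * Y ^ (2 * n) * (pp / p)) *
            Ac n h (an r1) g (uS I1 P1) M (z + (0, t)) x +
          ENNReal.ofReal (C * r1 * ((1 + Y) ^ k)⁻¹ * En g)) := by
  obtain ⟨C1, hC1, H1⟩ := act_le B n k
  obtain ⟨C2, hC2, H2⟩ := row_al n
  obtain ⟨C3, hC3, H3⟩ := sel_energy
  obtain ⟨C4, hC4, H4⟩ := en_le
  refine ⟨C1 * C2 + (81 * C1 * C4 + C4 * C3 * C4), by positivity, ?_⟩
  intro h hh hn A K0 r1 dl Y Gm δ a p pp hA hK0 hdl hdl1 hr hY hGm hpp ha hp g hg hg2 I1 P1 hBs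
    hBa hcoh b S' z c0 hS' hz hdir hlo hhi hpot hal x t ht M hM
  obtain ⟨hθ, hθθ', hθ'1, e1, e2, e3, e4, e5, hr1, e6⟩ := an_facts hdl hdl1 hr
  set θ := an r1 with hθdef
  set θ' := an (dl * r1) with hθ'def
  set θ'' := an (dl * (dl * r1)) with hθ''def
  set S := uS I1 P1 with hS
  set F := tr h z (sel θ g S) with hF
  set W : ℝ := (dl * r1) ^ (1/2 : ℝ) * r1 ^ (1/2 : ℝ) with hW
  have hθ' : 0 < θ' := hθ.trans_le hθθ'
  have hθ1 : θ ≤ 1 := hθθ'.trans hθ'1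
  have hr0 : 0 < dl * r1 := by linarith
  have hW1 : 1 ≤ W := by
    rw [hW]
    have k1 : 1 ≤ (dl * r1) ^ (1/2 : ℝ) := Real.one_le_rpow hr (by norm_num)
    have k2 : 1 ≤ r1 ^ (1/2 : ℝ) := Real.one_le_rpow hr1 (by norm_num)
    nlinarith
  have hY0 : 0 < (1 + Y) ^ k := by positivity
  have hEn : 0 ≤ En g := integral_nonneg fun _ => by positivity
  have hEnl : ∫⁻ ξ, ‖g ξ‖ₑ ^ 2 = ENNReal.ofReal (En g) := lintEn hg2
  have hen : en θ g S ≤ ENNReal.ofReal (C4 * En g) := by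
    rw [ENNReal.ofReal_mul hC4, ← hEnl]
    exact H4 θ hθ hθ1 g hg hg2 S
  set c : ℤ × ℤ → E2 := fun m => x + t • gradient h (cen θ' m) with hc
  have hbx : fr b ![(dl * r1) ^ (1/2 : ℝ), r1 ^ (1/2 : ℝ)] = bx b θ' θ := by
    unfold Up448.bx
    rw [e4, e5]
  set f : ℤ × ℤ → ℝ≥0∞ := fun m => ∫⁻ y in S' m,
    ENNReal.ofReal (dw (n + k + 2) (bx b θ' θ) (y - c m)) * ‖um θ' F m y‖ₑ ^ 2 with hf
  have hse : seP (n + k + 2) (fr b ![(dl * r1) ^ (1/2 : ℝ), r1 ^ (1/2 : ℝ)]) h (dl * r1) F S' x t =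
      ∑ m ∈ caps θ', f m := by
    rw [hbx]; rfl
  rw [hse]
  set T : Finset (ℤ × ℤ) := (caps θ').filter fun m =>
    ∃ y ∈ S' m, θ * ‖y - t • gradient h (cen θ' m) - x‖ ≤ Y with hT
  rw [← Finset.sum_filter_add_sum_filter_not (caps θ')
    (fun m => ∃ y ∈ S' m, θ * ‖y - t • gradient h (cen θ' m) - x‖ ≤ Y)]
  -- active caps
  have a1 : ∑ m ∈ T, f m ≤ ENNReal.ofReal (C1 * W * pp) *
      (ENNReal.ofReal (C2 * (A * Gm) ^ 2 * K0 * Y ^ (2 * n) / p) *
        Ac n h θ g S M (z + (0, t)) x) +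
      ENNReal.ofReal (81 * C1 * C4 * W * r1 * ((1 + Y) ^ k)⁻¹ * En g) := by
    calc ∑ m ∈ T, f m ≤ ∑ m ∈ T, (ENNReal.ofReal (C1 * W * pp) *
          Ad n h θ θ' g S m (z + (0, t)) x +
          ENNReal.ofReal (C1 * W * ((1 + Y) ^ k)⁻¹) * en θ g S) :=
          Finset.sum_le_sum fun m _ => H1 h hh hn r1 dl Y δ pp hdl hdl1 hr hY hpp g hg I1 P1 hBa
            hcoh b S' z hS' hz hal x t ht m
      _ = ENNReal.ofReal (C1 * W * pp) * ∑ m ∈ T, Ad n h θ θ' g S m (z + (0, t)) x +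
          (T.card : ℝ≥0∞) * (ENNReal.ofReal (C1 * W * ((1 + Y) ^ k)⁻¹) * en θ g S) := by
          rw [Finset.sum_add_distrib, Finset.mul_sum, Finset.sum_const, nsmul_eq_mul]
      _ ≤ ENNReal.ofReal (C1 * W * pp) *
          (ENNReal.ofReal (C2 * (A * Gm) ^ 2 * K0 * Y ^ (2 * n) / p) *
            Ac n h θ g S M (z + (0, t)) x) +
          ENNReal.ofReal (81 * (dl * r1)) * (ENNReal.ofReal (C1 * W * ((1 + Y) ^ k)⁻¹) *
            ENNReal.ofReal (C4 * En g)) := by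
          refine add_le_add (mul_le_mul' le_rfl ?_) (mul_le_mul' ?_ (mul_le_mul' le_rfl hen))
          · refine H2 h hn A K0 r1 dl Y Gm a p hA hK0 hdl hdl1 hr hY hGm ha hp g S b S' z c0 hdir
              hlo hhi hpot x t ht T (fun m hm => (Finset.mem_filter.1 hm).2) M ?_
            intro m hm ⟨m', hm', hd⟩
            obtain ⟨hm1, y, hy, -⟩ := Finset.mem_filter.1 hm'
            exact hM m hm ⟨m', hm1, ⟨y, hy⟩, hd⟩
          · have k1 : (T.card : ℝ) ≤ 81 * (θ' ^ 2)⁻¹ := by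
              refine le_trans ?_ (card_caps_le' hθ' hθ'1)
              exact_mod_cast Finset.card_le_card (Finset.filter_subset _ _)
            have k2 : (θ' ^ 2)⁻¹ = dl * r1 := by
              rw [inv_eq_one_div, div_eq_iff (by positivity)]
              linarith [e2]
            rw [k2] at k1
            rw [← ENNReal.ofReal_natCast]
            exact ENNReal.ofReal_le_ofReal k1
      _ ≤ _ := by
          refine add_le_add le_rfl ?_
          rw [← ENNReal.ofReal_mul (by positivity), ← ENNReal.ofReal_mul (by positivity)]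
          refine ENNReal.ofReal_le_ofReal ?_
          have k3 : dl * r1 ≤ r1 := by nlinarith
          calc 81 * (dl * r1) * (C1 * W * ((1 + Y) ^ k)⁻¹ * (C4 * En g))
              ≤ 81 * r1 * (C1 * W * ((1 + Y) ^ k)⁻¹ * (C4 * En g)) := by gcongr
            _ = _ := by ring
  -- inactive caps
  have a2 : ∑ m ∈ (caps θ').filter (fun m => ¬ ∃ y ∈ S' m,
      θ * ‖y - t • gradient h (cen θ' m) - x‖ ≤ Y), f m ≤
      ENNReal.ofReal (((1 + Y) ^ k)⁻¹ * (C4 * (C3 * (C4 * En g)))) := by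
    have k1 : ∀ m ∈ (caps θ').filter (fun m => ¬ ∃ y ∈ S' m,
        θ * ‖y - t • gradient h (cen θ' m) - x‖ ≤ Y), f m ≤
        ENNReal.ofReal (((1 + Y) ^ k)⁻¹) * ∫⁻ y in S' m, ‖um θ' F m y‖ₑ ^ 2 := by
      intro m hm
      have hm2 := (Finset.mem_filter.1 hm).2
      push Not at hm2
      rw [hf, ← lintegral_const_mul' _ _ ENNReal.ofReal_ne_top]
      refine setLIntegral_mono' (hS' m) fun y hy => mul_le_mul' (ENNReal.ofReal_le_ofReal ?_) le_rfl
      refine dw_far _ k (by omega) b hθ hθθ' hY ?_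
      have := hm2 y hy
      have e : y - c m = y - t • gradient h (cen θ' m) - x := by
        show y - (x + t • gradient h (cen θ' m)) = _
        abel
      rwa [e]
    refine (Finset.sum_le_sum k1).trans ?_
    rw [← Finset.mul_sum]
    have k2 : ∑ m ∈ (caps θ').filter (fun m => ¬ ∃ y ∈ S' m,
        θ * ‖y - t • gradient h (cen θ' m) - x‖ ≤ Y), ∫⁻ y in S' m, ‖um θ' F m y‖ₑ ^ 2 ≤
        en θ' F S' := by
      unfold en
      exact Finset.sum_le_sum_of_subset (Finset.filter_subset _ _)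
    obtain ⟨s1, s2⟩ := sel_int hθ hg hBs
    have k3 : en θ' F S' ≤ ENNReal.ofReal (C4 * (C3 * (C4 * En g))) := by
      refine (H4 θ' hθ' hθ'1 F (tr_int hh.1.continuous s1 z)
        (tr_l2 hh.1.continuous s2 z) S').trans ?_
      rw [ENNReal.ofReal_mul hC4]
      refine mul_le_mul' le_rfl ?_
      have k4 : ∫⁻ ξ, ‖F ξ‖ₑ ^ 2 = ∫⁻ ξ, ‖sel θ g S ξ‖ₑ ^ 2 := by
        refine lintegral_congr fun ξ => ?_
        rw [hF, enorm_tr]
      rw [k4]
      refine (H3 θ hθ hθ1 g hg S hBs).trans ?_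
      rw [ENNReal.ofReal_mul hC3]
      exact mul_le_mul' le_rfl hen
    rw [ENNReal.ofReal_mul (by positivity)]
    exact mul_le_mul' le_rfl (k2.trans k3)
  refine (add_le_add a1 a2).trans ?_
  set C := C1 * C2 + (81 * C1 * C4 + C4 * C3 * C4) with hC
  have hp0 : 0 < p := by linarith
  have g1 : ENNReal.ofReal (C1 * W * pp) *
      (ENNReal.ofReal (C2 * (A * Gm) ^ 2 * K0 * Y ^ (2 * n) / p) *
        Ac n h θ g S M (z + (0, t)) x) =
      ENNReal.ofReal (C1 * W * pp * (C2 * (A * Gm) ^ 2 * K0 * Y ^ (2 * n) / p)) *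
        Ac n h θ g S M (z + (0, t)) x := by
    rw [← mul_assoc, ← ENNReal.ofReal_mul (by positivity)]
  have g2 : ENNReal.ofReal W * (ENNReal.ofReal (C * (A * Gm) ^ 2 * K0 * Y ^ (2 * n) * (pp / p)) *
        Ac n h θ g S M (z + (0, t)) x + ENNReal.ofReal (C * r1 * ((1 + Y) ^ k)⁻¹ * En g)) =
      ENNReal.ofReal (W * (C * (A * Gm) ^ 2 * K0 * Y ^ (2 * n) * (pp / p))) *
        Ac n h θ g S M (z + (0, t)) x +
        ENNReal.ofReal (W * (C * r1 * ((1 + Y) ^ k)⁻¹ * En g)) := by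
    rw [mul_add, ← mul_assoc, ← ENNReal.ofReal_mul (by positivity),
      ← ENNReal.ofReal_mul (by positivity)]
  rw [g1, g2, add_assoc, ← ENNReal.ofReal_add (by positivity) (by positivity)]
  refine add_le_add (mul_le_mul' (ENNReal.ofReal_le_ofReal ?_) le_rfl)
    (ENNReal.ofReal_le_ofReal ?_)
  · calc C1 * W * pp * (C2 * (A * Gm) ^ 2 * K0 * Y ^ (2 * n) / p)
        = W * ((C1 * C2) * (A * Gm) ^ 2 * K0 * Y ^ (2 * n) * (pp / p)) := by ring
      _ ≤ W * (C * (A * Gm) ^ 2 * K0 * Y ^ (2 * n) * (pp / p)) := by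
          have : C1 * C2 ≤ C := by rw [hC]; linarith [show 0 ≤ 81 * C1 * C4 + C4 * C3 * C4 by positivity]
          gcongr
  · have k5 : ((1 + Y) ^ k)⁻¹ * (C4 * (C3 * (C4 * En g))) ≤
        (C4 * C3 * C4) * W * r1 * ((1 + Y) ^ k)⁻¹ * En g := by
      have k6 : 1 ≤ W * r1 := by nlinarith
      calc ((1 + Y) ^ k)⁻¹ * (C4 * (C3 * (C4 * En g)))
          = (C4 * C3 * C4) * 1 * ((1 + Y) ^ k)⁻¹ * En g := by ring
        _ ≤ (C4 * C3 * C4) * (W * r1) * ((1 + Y) ^ k)⁻¹ * En g := by gcongr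
        _ = _ := by ring
    calc _ ≤ 81 * C1 * C4 * W * r1 * ((1 + Y) ^ k)⁻¹ * En g +
          (C4 * C3 * C4) * W * r1 * ((1 + Y) ^ k)⁻¹ * En g := by linarith
      _ = (81 * C1 * C4 + C4 * C3 * C4) * (W * r1 * ((1 + Y) ^ k)⁻¹ * En g) := by ring
      _ ≤ C * (W * r1 * ((1 + Y) ^ k)⁻¹ * En g) := by
          have : 81 * C1 * C4 + C4 * C3 * C4 ≤ C := by rw [hC]; linarith [show 0 ≤ C1 * C2 by positivity]
          gcongr
      _ = _ := by ring

end Crest.Agent.R138.Al878
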