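import Mathlib
import Crest.Agent.R070.Cs_145
import Crest.Agent.R138.Defs_665

-- ▼ part R138/Bc1_383
section

/-!
R138, block BCT (helper383), file 1: Loomis-Whitney in `ℝ³` in square-root form.
-/

set_option autoImplicit false

open MeasureTheory
open scoped ENNReal

namespace Crest.Agent.R138.Bct383

/-- square root on `ℝ≥0∞`. -/
noncomputable def sq (a : ℝ≥0∞) : ℝ≥0∞ := a ^ (1 / 2 : ℝ)

theorem sq_mono {a b : ℝ≥0∞} (h : a ≤ b) : sq a ≤ sq b := ENNReal.rpow_le_rpow h (by norm_num)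

theorem sq_mul (a b : ℝ≥0∞) : sq (a * b) = sq a * sq b :=
  ENNReal.mul_rpow_of_nonneg _ _ (by norm_num)

theorem sq_mul_self (a : ℝ≥0∞) : sq a * sq a = a := by
  unfold sq
  rw [← ENNReal.rpow_add_of_nonneg _ _ (by norm_num) (by norm_num)]
  norm_num

theorem sq_pow_two (a : ℝ≥0∞) : sq a ^ 2 = a := by
  rw [pow_two, sq_mul_self]

theorem sq_sq (a : ℝ≥0∞) : sq (a ^ 2) = a := by
  rw [pow_two, sq_mul, sq_mul_self]

theorem measurable_sq : Measurable sq := by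
  unfold sq; exact measurable_id.pow_const _


theorem sq_one : sq 1 = 1 := by unfold sq; simp

/-- Cauchy-Schwarz in square-root form. -/
theorem cs {α : Type*} [MeasurableSpace α] (μ : Measure α) {f g : α → ℝ≥0∞}
    (hf : Measurable f) (hg : Measurable g) :
    ∫⁻ x, sq (f x) * sq (g x) ∂μ ≤ sq (∫⁻ x, f x ∂μ) * sq (∫⁻ x, g x ∂μ) := by
  have h := ENNReal.lintegral_mul_le_Lp_mul_Lq μ (p := 2) (q := 2)
    (by constructor <;> norm_num)
    (measurable_sq.comp hf).aemeasurable (measurable_sq.comp hg).aemeasurable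
  have e : ∀ a : ℝ≥0∞, sq a ^ (2 : ℝ) = a := by
    intro a
    rw [show (2 : ℝ) = ((2 : ℕ) : ℝ) by norm_num, ENNReal.rpow_natCast, sq_pow_two]
  simp only [Function.comp_def, e, Pi.mul_apply] at h
  exact h

/-- **Loomis-Whitney** in `ℝ³`, square-root form. -/
theorem lw {f g h : ℝ → ℝ → ℝ≥0∞} (hf : Measurable (Function.uncurry f))
    (hg : Measurable (Function.uncurry g)) (hh : Measurable (Function.uncurry h)) :
    ∫⁻ x, ∫⁻ y, ∫⁻ z, sq (f y z) * sq (g x z) * sq (h x y)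
      ≤ sq (∫⁻ y, ∫⁻ z, f y z) * sq (∫⁻ x, ∫⁻ z, g x z) * sq (∫⁻ x, ∫⁻ y, h x y) := by
  have mF : Measurable fun y => ∫⁻ z, f y z := hf.lintegral_prod_right'
  have mG : Measurable fun x => ∫⁻ z, g x z := hg.lintegral_prod_right'
  have mH : Measurable fun x => ∫⁻ y, h x y := hh.lintegral_prod_right'
  have mf : ∀ y, Measurable (f y) := fun y => hf.comp measurable_prodMk_left
  have mg : ∀ y, Measurable (g y) := fun y => hg.comp measurable_prodMk_left
  have mh : ∀ y, Measurable (h y) := fun y => hh.comp measurable_prodMk_left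
  have h1 : ∀ x, ∫⁻ y, ∫⁻ z, sq (f y z) * sq (g x z) * sq (h x y)
      ≤ sq (∫⁻ y, ∫⁻ z, f y z) * (sq (∫⁻ z, g x z) * sq (∫⁻ y, h x y)) := by
    intro x
    calc ∫⁻ y, ∫⁻ z, sq (f y z) * sq (g x z) * sq (h x y)
        = ∫⁻ y, (∫⁻ z, sq (f y z) * sq (g x z)) * sq (h x y) := by
          refine lintegral_congr fun y => ?_
          rw [lintegral_mul_const]
          exact (measurable_sq.comp (mf y)).mul (measurable_sq.comp (mg x))
      _ ≤ ∫⁻ y, (sq (∫⁻ z, f y z) * sq (∫⁻ z, g x z)) * sq (h x y) := by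
          refine lintegral_mono fun y => ?_
          exact mul_le_mul_left (cs volume (mf y) (mg x)) _
      _ = sq (∫⁻ z, g x z) * ∫⁻ y, sq (∫⁻ z, f y z) * sq (h x y) := by
          rw [← lintegral_const_mul]
          · refine lintegral_congr fun y => ?_
            ring
          · exact (measurable_sq.comp mF).mul (measurable_sq.comp (mh x))
      _ ≤ sq (∫⁻ z, g x z) * (sq (∫⁻ y, ∫⁻ z, f y z) * sq (∫⁻ y, h x y)) := by
          exact mul_le_mul_right (cs volume mF (mh x)) _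
      _ = _ := by ring
  calc ∫⁻ x, ∫⁻ y, ∫⁻ z, sq (f y z) * sq (g x z) * sq (h x y)
      ≤ ∫⁻ x, sq (∫⁻ y, ∫⁻ z, f y z) * (sq (∫⁻ z, g x z) * sq (∫⁻ y, h x y)) :=
        lintegral_mono h1
    _ = sq (∫⁻ y, ∫⁻ z, f y z) * ∫⁻ x, sq (∫⁻ z, g x z) * sq (∫⁻ y, h x y) := by
        rw [lintegral_const_mul]
        exact (measurable_sq.comp mG).mul (measurable_sq.comp mH)
    _ ≤ sq (∫⁻ y, ∫⁻ z, f y z) * (sq (∫⁻ x, ∫⁻ z, g x z) * sq (∫⁻ x, ∫⁻ y, h x y)) :=
        mul_le_mul_right (cs volume mG mH) _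
    _ = _ := by ring

end Crest.Agent.R138.Bct383
end

-- ▼ part R138/BCT1_191
section

/-!
# Trilinear restriction, file 1 (row 138, helper191): one-dimensional weights
-/

set_option autoImplicit false

open MeasureTheory Set
open scoped ENNReal

namespace Crest.Agent.R138.BCT191

/-- the bracket `1 + |t| / r` -/
noncomputable def br (r t : ℝ) : ℝ := 1 + |t| / r

/-- the `L¹`-normalised weight at scale `r` -/
noncomputable def w (N : ℕ) (r t : ℝ) : ℝ≥0∞ := ENNReal.ofReal (r⁻¹ * (br r t ^ N)⁻¹)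

lemma one_le_br {r : ℝ} (hr : 0 < r) (t : ℝ) : 1 ≤ br r t := by
  unfold br
  have : 0 ≤ |t| / r := by positivity
  linarith

lemma br_pos {r : ℝ} (hr : 0 < r) (t : ℝ) : 0 < br r t := one_pos.trans_le (one_le_br hr t)

lemma br_neg (r t : ℝ) : br r (-t) = br r t := by unfold br; rw [abs_neg]

lemma w_neg (N : ℕ) (r t : ℝ) : w N r (-t) = w N r t := by unfold w; rw [br_neg]

lemma br_le_mul {r : ℝ} (hr : 0 < r) (s t : ℝ) : br r s ≤ br r (s + t) * br r t := by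
  unfold br
  have h : |s| ≤ |s + t| + |t| := by
    calc |s| = |s + t - t| := by ring_nf
      _ ≤ |s + t| + |t| := abs_sub _ _
  have h' : |s| / r ≤ |s + t| / r + |t| / r := by
    rw [← add_div]; exact div_le_div_of_nonneg_right h hr.le
  have h0 : 0 ≤ |s + t| / r * (|t| / r) := by positivity
  nlinarith

lemma br_le_add {r : ℝ} (hr : 0 < r) (s t : ℝ) : br r (s + t) ≤ br r s + br r t := by
  unfold br
  have h' : |s + t| / r ≤ |s| / r + |t| / r := by
    rw [← add_div]; exact div_le_div_of_nonneg_right (abs_add_le _ _) hr.le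
  linarith

lemma br_anti {r ρ : ℝ} (hr : 0 < r) (h : r ≤ ρ) (t : ℝ) : br ρ t ≤ br r t := by
  unfold br
  have : |t| / ρ ≤ |t| / r := div_le_div_of_nonneg_left (abs_nonneg _) hr h
  linarith

@[fun_prop]
lemma measurable_br (r : ℝ) : Measurable (br r) := by unfold br; fun_prop

@[fun_prop]
lemma measurable_w (N : ℕ) (r : ℝ) : Measurable (w N r) := by
  unfold w; fun_prop

lemma w_le {N : ℕ} {r : ℝ} (hr : 0 < r) (t : ℝ) : w N r t ≤ ENNReal.ofReal r⁻¹ := by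
  unfold w
  refine ENNReal.ofReal_le_ofReal ?_
  have : (br r t ^ N)⁻¹ ≤ 1 := inv_le_one_of_one_le₀ (one_le_pow₀ (one_le_br hr t))
  calc r⁻¹ * (br r t ^ N)⁻¹ ≤ r⁻¹ * 1 := mul_le_mul_of_nonneg_left this (by positivity)
    _ = r⁻¹ := mul_one _

lemma w_ne_top (N : ℕ) (r t : ℝ) : w N r t ≠ ⊤ := ENNReal.ofReal_ne_top

lemma w_pos {N : ℕ} {r : ℝ} (hr : 0 < r) (t : ℝ) : 0 < w N r t := by
  unfold w
  have := br_pos hr t
  exact ENNReal.ofReal_pos.2 (by positivity)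

/-- shift bound -/
lemma w_shift {N : ℕ} {r : ℝ} (hr : 0 < r) (s t : ℝ) :
    w N r (s + t) ≤ ENNReal.ofReal (br r t ^ N) * w N r s := by
  unfold w
  rw [← ENNReal.ofReal_mul (by have := br_pos hr t; positivity)]
  refine ENNReal.ofReal_le_ofReal ?_
  have h1 := br_pos hr s
  have h2 := br_pos hr t
  have h3 := br_pos hr (s + t)
  have h := pow_le_pow_left₀ h1.le (br_le_mul hr s t) N
  rw [mul_pow] at h
  have : (br r (s + t) ^ N)⁻¹ ≤ br r t ^ N * (br r s ^ N)⁻¹ := by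
    rw [inv_le_iff_one_le_mul₀ (by positivity)]
    have e : 1 = (br r s ^ N)⁻¹ * br r s ^ N := by field_simp
    calc (1 : ℝ) = (br r s ^ N)⁻¹ * br r s ^ N := e
      _ ≤ (br r s ^ N)⁻¹ * (br r (s + t) ^ N * br r t ^ N) :=
        mul_le_mul_of_nonneg_left h (by positivity)
      _ = _ := by ring
  calc r⁻¹ * (br r (s + t) ^ N)⁻¹ ≤ r⁻¹ * (br r t ^ N * (br r s ^ N)⁻¹) :=
        mul_le_mul_of_nonneg_left this (by positivity)
    _ = _ := by ring

lemma br_pow_mul_w {N M : ℕ} {r : ℝ} (hr : 0 < r) (t : ℝ) :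
    ENNReal.ofReal (br r t ^ M) * w (N + M) r t = w N r t := by
  unfold w
  have h := br_pos hr t
  rw [← ENNReal.ofReal_mul (by positivity)]
  congr 1
  rw [pow_add]
  field_simp


/-- the integral of the weight -/
noncomputable def I (N : ℕ) : ℝ≥0∞ := ∫⁻ t : ℝ, w N 1 t

lemma lintegral_comp_div {f : ℝ → ℝ≥0∞} {r : ℝ} (hr : 0 < r) :
    ∫⁻ t : ℝ, f (t / r) = ENNReal.ofReal r * ∫⁻ t : ℝ, f t := by
  have h := Real.smul_map_volume_mul_left (a := r⁻¹) (by positivity)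
  have hm : MeasurableEmbedding (fun x : ℝ => r⁻¹ * x) :=
    (Homeomorph.mulLeft₀ r⁻¹ (by positivity)).measurableEmbedding
  have e : ∫⁻ t : ℝ, f t = ENNReal.ofReal r⁻¹ * ∫⁻ t : ℝ, f (t / r) := by
    conv_lhs => rw [← h]
    rw [lintegral_smul_measure, hm.lintegral_map, abs_of_pos (by positivity), smul_eq_mul]
    congr 1
    refine lintegral_congr fun t => ?_
    rw [div_eq_inv_mul]
  rw [e, ← mul_assoc, ← ENNReal.ofReal_mul hr.le, mul_inv_cancel₀ hr.ne', ENNReal.ofReal_one,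
    one_mul]

lemma lintegral_sub_left {f : ℝ → ℝ≥0∞} (a : ℝ) : ∫⁻ t : ℝ, f (a - t) = ∫⁻ t : ℝ, f t :=
  lintegral_sub_left_eq_self f a

lemma lintegral_w {N : ℕ} {r : ℝ} (hr : 0 < r) : ∫⁻ t : ℝ, w N r t = I N := by
  have e : ∀ t, w N r t = ENNReal.ofReal r⁻¹ * w N 1 (t / r) := by
    intro t
    unfold w br
    rw [← ENNReal.ofReal_mul (by positivity)]
    congr 1
    rw [abs_div, abs_of_pos hr]
    simp
  simp_rw [e]
  rw [lintegral_const_mul _ (by fun_prop), lintegral_comp_div hr (f := w N 1), ← mul_assoc,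
    ← ENNReal.ofReal_mul (by positivity), inv_mul_cancel₀ hr.ne', ENNReal.ofReal_one, one_mul]
  rfl

lemma I_ne_top {N : ℕ} (hN : 2 ≤ N) : I N ≠ ⊤ := by
  have h := integrable_one_add_norm (E := ℝ) (μ := volume) (r := (N : ℝ)) (by
    simp; exact_mod_cast hN)
  have h2 := h.lintegral_lt_top
  unfold I
  refine ne_of_lt (lt_of_le_of_lt (lintegral_mono fun t => ?_) h2)
  unfold w br
  simp only [inv_one, one_mul, div_one, Real.norm_eq_abs]
  refine ENNReal.ofReal_le_ofReal ?_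
  rw [Real.rpow_neg (by positivity), Real.rpow_natCast]

lemma I_ne_zero (N : ℕ) : I N ≠ 0 := by
  unfold I
  rw [Ne, lintegral_eq_zero_iff (by fun_prop)]
  intro h
  have h1 : ∀ᵐ t : ℝ, False := by
    filter_upwards [h] with t ht
    exact (w_pos (N := N) one_pos t).ne' ht
  rw [Filter.eventually_false_iff_eq_bot, ae_eq_bot] at h1
  exact NeZero.ne (volume : Measure ℝ) h1

/-- convolution of `w N r` with a rapidly decaying kernel at the same scale -/
lemma conv_same {N : ℕ} {r : ℝ} (hr : 0 < r) {κ : ℝ → ℝ≥0∞} {C : ℝ≥0∞}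
    (hκ : ∀ z, κ z ≤ C * w (2 + N) r z) (y : ℝ) :
    ∫⁻ z, κ z * w N r (y - z) ≤ C * I 2 * w N r y := by
  calc ∫⁻ z, κ z * w N r (y - z) ≤ ∫⁻ z, C * w N r y * w 2 r z := by
        refine lintegral_mono fun z => ?_
        have h1 := w_shift (N := N) hr y (-z)
        rw [← sub_eq_add_neg, br_neg] at h1
        calc κ z * w N r (y - z) ≤ (C * w (2 + N) r z) * (ENNReal.ofReal (br r z ^ N) * w N r y) :=
              mul_le_mul' (hκ z) h1
          _ = C * w N r y * (ENNReal.ofReal (br r z ^ N) * w (2 + N) r z) := by ring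
          _ = C * w N r y * w 2 r z := by rw [br_pow_mul_w hr]
    _ = C * w N r y * I 2 := by rw [lintegral_const_mul _ (by fun_prop), lintegral_w hr]
    _ = _ := by ring

/-- the constant of `conv_le` -/
noncomputable def Cc (N M : ℕ) : ℝ≥0∞ := 2 ^ N * (2 ^ N * (I N + I M) + I N)

lemma Cc_ne_top {N M : ℕ} (hN : 2 ≤ N) (hM : 2 ≤ M) : Cc N M ≠ ⊤ := by
  unfold Cc
  have h1 := I_ne_top hN
  have h2 := I_ne_top hM
  finiteness

lemma add_pow_le' {a b : ℝ} (ha : 0 ≤ a) (hb : 0 ≤ b) (n : ℕ) :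
    (a + b) ^ n ≤ 2 ^ n * (a ^ n + b ^ n) := by
  have h := add_pow_le ha hb n
  refine h.trans (mul_le_mul_of_nonneg_right ?_ (by positivity))
  exact pow_le_pow_right₀ (by norm_num) (Nat.sub_le _ _)

/-- convolution of weights at two scales -/
lemma conv_le {N M : ℕ} (hN : 2 ≤ N) (hM : N ≤ M) {r ρ : ℝ} (hr : 0 < r) (hρ : r ≤ ρ) (t : ℝ) :
    ∫⁻ z, w N r (t - z) * w M ρ z ≤ Cc N M * w N ρ t := by
  have hρ0 : 0 < ρ := hr.trans_le hρ
  -- pointwise bound
  have key : ∀ z, ENNReal.ofReal (br ρ t ^ N) * (w N r (t - z) * w M ρ z) ≤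
      2 ^ N * ENNReal.ofReal ρ⁻¹ * (2 ^ N * (w N r (t - z) + w M ρ z) + w N r (t - z)) := by
    intro z
    set u := t - z with hu
    have h1 : br ρ t ≤ br ρ u + br ρ z := by
      have := br_le_add hρ0 u z
      rwa [hu, sub_add_cancel] at this
    have h2 : br ρ t ^ N ≤ 2 ^ N * (br ρ u ^ N + br ρ z ^ N) :=
      (pow_le_pow_left₀ (br_pos hρ0 t).le h1 N).trans
        (add_pow_le' (br_pos hρ0 u).le (br_pos hρ0 z).le N)
    have h3 : ENNReal.ofReal (br ρ t ^ N) ≤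
        2 ^ N * (ENNReal.ofReal (br ρ u ^ N) + ENNReal.ofReal (br ρ z ^ N)) := by
      have hu0 := br_pos hρ0 u
      have hz0 := br_pos hρ0 z
      calc ENNReal.ofReal (br ρ t ^ N) ≤ ENNReal.ofReal (2 ^ N * (br ρ u ^ N + br ρ z ^ N)) :=
            ENNReal.ofReal_le_ofReal h2
        _ = _ := by
            rw [ENNReal.ofReal_mul (by positivity), ENNReal.ofReal_add (by positivity)
              (by positivity), ENNReal.ofReal_pow (by norm_num)]
            norm_num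
    -- first term
    have h4 : ENNReal.ofReal (br ρ u ^ N) * w N r u ≤ 2 ^ N * (w N r u + ENNReal.ofReal ρ⁻¹) := by
      unfold w
      have hb := br_pos hr u
      have hb' := br_pos hρ0 u
      rw [← ENNReal.ofReal_mul (by positivity)]
      have e : (2 : ℝ≥0∞) ^ N * (ENNReal.ofReal (r⁻¹ * (br r u ^ N)⁻¹) + ENNReal.ofReal ρ⁻¹) =
          ENNReal.ofReal (2 ^ N * (r⁻¹ * (br r u ^ N)⁻¹ + ρ⁻¹)) := by
        rw [ENNReal.ofReal_mul (p := (2 : ℝ) ^ N) (by positivity), ENNReal.ofReal_add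
              (by positivity) (by positivity), ENNReal.ofReal_pow (by norm_num)]
        norm_num
      rw [e]
      refine ENNReal.ofReal_le_ofReal ?_
      have q1 : br ρ u ≤ br r u * ((br r u)⁻¹ + r / ρ) := by
        rw [mul_add, mul_inv_cancel₀ hb.ne']
        unfold br
        have : |u| / ρ = |u| / r * (r / ρ) := by field_simp
        have h0 : 0 ≤ r / ρ := by positivity
        nlinarith
      have q2 : br ρ u ^ N ≤ br r u ^ N * (2 ^ N * ((br r u)⁻¹ ^ N + (r / ρ) ^ N)) := by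
        refine (pow_le_pow_left₀ hb'.le q1 N).trans ?_
        rw [mul_pow]
        exact mul_le_mul_of_nonneg_left (add_pow_le' (by positivity) (by positivity) N)
          (by positivity)
      have q3 : r⁻¹ * (r / ρ) ^ N ≤ ρ⁻¹ := by
        have : (r / ρ) ^ N ≤ r / ρ := by
          refine pow_le_of_le_one (by positivity) ?_ (by omega)
          rw [div_le_one hρ0]; exact hρ
        calc r⁻¹ * (r / ρ) ^ N ≤ r⁻¹ * (r / ρ) := mul_le_mul_of_nonneg_left this (by positivity)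
          _ = ρ⁻¹ := by field_simp
      calc br ρ u ^ N * (r⁻¹ * (br r u ^ N)⁻¹)
          ≤ (br r u ^ N * (2 ^ N * ((br r u)⁻¹ ^ N + (r / ρ) ^ N))) * (r⁻¹ * (br r u ^ N)⁻¹) :=
            mul_le_mul_of_nonneg_right q2 (by positivity)
        _ = 2 ^ N * (r⁻¹ * (br r u ^ N)⁻¹ + r⁻¹ * (r / ρ) ^ N) := by
            rw [inv_pow]
            field_simp
        _ ≤ _ := by
            refine mul_le_mul_of_nonneg_left ?_ (by positivity)
            linarith
    -- second term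
    have h5 : ENNReal.ofReal (br ρ z ^ N) * w M ρ z ≤ ENNReal.ofReal ρ⁻¹ := by
      obtain ⟨k, rfl⟩ := Nat.exists_eq_add_of_le' hM
      rw [br_pow_mul_w hρ0]
      exact w_le hρ0 z
    have h6 : w M ρ z ≤ ENNReal.ofReal ρ⁻¹ := w_le hρ0 z
    calc ENNReal.ofReal (br ρ t ^ N) * (w N r u * w M ρ z)
        ≤ (2 ^ N * (ENNReal.ofReal (br ρ u ^ N) + ENNReal.ofReal (br ρ z ^ N))) *
          (w N r u * w M ρ z) := mul_le_mul_left h3 _
      _ = 2 ^ N * ((ENNReal.ofReal (br ρ u ^ N) * w N r u) * w M ρ z +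
          w N r u * (ENNReal.ofReal (br ρ z ^ N) * w M ρ z)) := by ring
      _ ≤ 2 ^ N * ((2 ^ N * (w N r u + ENNReal.ofReal ρ⁻¹)) * w M ρ z +
          w N r u * ENNReal.ofReal ρ⁻¹) := by
          refine mul_le_mul_right (add_le_add (mul_le_mul_left h4 _) (mul_le_mul_right h5 _)) _
      _ = 2 ^ N * (2 ^ N * (w N r u * w M ρ z + ENNReal.ofReal ρ⁻¹ * w M ρ z) +
          w N r u * ENNReal.ofReal ρ⁻¹) := by ring
      _ ≤ 2 ^ N * (2 ^ N * (w N r u * ENNReal.ofReal ρ⁻¹ + ENNReal.ofReal ρ⁻¹ * w M ρ z) +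
          w N r u * ENNReal.ofReal ρ⁻¹) := by
          refine mul_le_mul_right (add_le_add (mul_le_mul_right
            (add_le_add (mul_le_mul_right h6 _) le_rfl) _) le_rfl) _
      _ = _ := by ring
  have hb := br_pos hρ0 t
  have hI : ENNReal.ofReal (br ρ t ^ N) * ∫⁻ z, w N r (t - z) * w M ρ z ≤
      ENNReal.ofReal ρ⁻¹ * Cc N M := by
    rw [← lintegral_const_mul _ (by fun_prop)]
    refine (lintegral_mono key).trans ?_
    rw [lintegral_const_mul _ (by fun_prop), lintegral_add_left (by fun_prop),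
      lintegral_const_mul _ (by fun_prop), lintegral_add_left (by fun_prop),
      lintegral_sub_left (f := w N r), lintegral_w hr, lintegral_w hρ0]
    unfold Cc
    apply le_of_eq
    ring
  have e : w N ρ t = ENNReal.ofReal (br ρ t ^ N)⁻¹ * ENNReal.ofReal ρ⁻¹ := by
    unfold w
    rw [mul_comm, ENNReal.ofReal_mul (by positivity)]
  rw [e]
  have e2 : ENNReal.ofReal (br ρ t ^ N)⁻¹ * ENNReal.ofReal (br ρ t ^ N) = 1 := by
    rw [← ENNReal.ofReal_mul (by positivity), inv_mul_cancel₀ (by positivity), ENNReal.ofReal_one]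
  calc ∫⁻ z, w N r (t - z) * w M ρ z
      = ENNReal.ofReal (br ρ t ^ N)⁻¹ * (ENNReal.ofReal (br ρ t ^ N) *
        ∫⁻ z, w N r (t - z) * w M ρ z) := by rw [← mul_assoc, e2, one_mul]
    _ ≤ ENNReal.ofReal (br ρ t ^ N)⁻¹ * (ENNReal.ofReal ρ⁻¹ * Cc N M) := mul_le_mul_right hI _
    _ = _ := by ring

/-- lower bound for the convolution of weights -/
lemma conv_ge {M : ℕ} {r ρ : ℝ} (hr : 0 < r) (hρ : r ≤ ρ) (t : ℝ) :
    I (M + M) * w M ρ t ≤ ∫⁻ z, w M ρ (t - z) * w M r z := by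
  have hρ0 : 0 < ρ := hr.trans_le hρ
  rw [← lintegral_w hr, ← lintegral_mul_const _ (by fun_prop)]
  refine lintegral_mono fun z => ?_
  have h1 : w M ρ t ≤ ENNReal.ofReal (br r z ^ M) * w M ρ (t - z) := by
    have := w_shift (N := M) hρ0 (t - z) z
    rw [sub_add_cancel] at this
    refine this.trans (mul_le_mul_left (ENNReal.ofReal_le_ofReal ?_) _)
    exact pow_le_pow_left₀ (br_pos hρ0 z).le (br_anti hr hρ z) M
  calc w (M + M) r z * w M ρ t
      ≤ w (M + M) r z * (ENNReal.ofReal (br r z ^ M) * w M ρ (t - z)) := mul_le_mul_right h1 _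
    _ = (ENNReal.ofReal (br r z ^ M) * w (M + M) r z) * w M ρ (t - z) := by ring
    _ = w M r z * w M ρ (t - z) := by rw [br_pow_mul_w hr]
    _ = _ := by ring

/-- comparison of weights at comparable scales -/
lemma w_comp {N : ℕ} {r ρ k : ℝ} (hr : 0 < r) (hρ : r ≤ ρ) (hk : ρ ≤ k * r) (t : ℝ) :
    w N r t ≤ ENNReal.ofReal k * w N ρ t := by
  have hρ0 : 0 < ρ := hr.trans_le hρ
  have hk0 : 0 < k := by
    by_contra h
    have : k * r ≤ 0 := mul_nonpos_of_nonpos_of_nonneg (not_lt.1 h) hr.le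
    linarith
  unfold w
  have h1 := br_pos hr t
  have h2 := br_pos hρ0 t
  rw [← ENNReal.ofReal_mul hk0.le]
  refine ENNReal.ofReal_le_ofReal ?_
  have q1 : (br r t ^ N)⁻¹ ≤ (br ρ t ^ N)⁻¹ :=
    inv_anti₀ (by positivity) (pow_le_pow_left₀ h2.le (br_anti hr hρ t) N)
  have q2 : r⁻¹ ≤ k * ρ⁻¹ := by
    rw [← div_eq_mul_inv, inv_eq_one_div, div_le_div_iff₀ hr hρ0]
    linarith
  calc r⁻¹ * (br r t ^ N)⁻¹ ≤ (k * ρ⁻¹) * (br ρ t ^ N)⁻¹ :=
        mul_le_mul q2 q1 (by positivity) (by positivity)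
    _ = _ := by ring

end Crest.Agent.R138.BCT191
end

-- ▼ part R138/BCT2_191

/-!
# Trilinear restriction, file 2 (row 138, helper191): one-dimensional Fourier lemmas
-/

set_option autoImplicit false

open MeasureTheory Set
open scoped ENNReal FourierTransform SchwartzMap

namespace Crest.Agent.R138.BCT191

open Crest.Agent.R138.Defs (ee)
open Crest.Agent.R138.Bct383 (sq_mul sq_mono sq_mul_self measurable_sq)

/-! ### the character -/

lemma ee_add (s t : ℝ) : ee (s + t) = ee s * ee t := by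
  unfold ee
  rw [← Complex.exp_add]
  congr 1
  push_cast
  ring

@[simp] lemma norm_ee (t : ℝ) : ‖ee t‖ = 1 := by
  unfold ee
  rw [Complex.norm_exp_ofReal_mul_I]

@[simp] lemma enorm_ee (t : ℝ) : ‖ee t‖ₑ = 1 := by
  rw [← ofReal_norm, norm_ee, ENNReal.ofReal_one]

@[simp] lemma ee_zero : ee 0 = 1 := by unfold ee; simp

@[fun_prop]
lemma continuous_ee : Continuous ee := by unfold ee; fun_prop

@[fun_prop]
lemma measurable_ee : Measurable ee := continuous_ee.measurable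

lemma fourier_eq_ee (f : ℝ → ℂ) (v : ℝ) : 𝓕 f v = ∫ u, f u * ee (-(u * v)) := by
  rw [Real.fourier_eq']
  refine integral_congr_ae (Filter.Eventually.of_forall fun u => ?_)
  simp only [smul_eq_mul, ee]
  rw [mul_comm]
  congr 3
  have : inner ℝ u v = u * v := by simp [mul_comm]
  rw [this]
  push_cast
  ring

lemma fourierInv_eq_ee (f : ℝ → ℂ) (v : ℝ) : 𝓕⁻ f v = ∫ u, f u * ee (u * v) := by
  rw [Real.fourierInv_eq']
  refine integral_congr_ae (Filter.Eventually.of_forall fun u => ?_)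
  simp only [smul_eq_mul, ee]
  rw [mul_comm]
  have : inner ℝ u v = u * v := by simp [mul_comm]
  rw [this]

/-! ### bumps -/

/-- a Schwartz function equal to one on `[-a, a]` and supported in `[-2a, 2a]` -/
theorem exists_bump (a : ℝ) (ha : 0 < a) : ∃ q : 𝓢(ℝ, ℂ), (∀ x, |x| ≤ a → q x = 1) ∧
    (∀ x, 2 * a ≤ |x| → q x = 0) ∧ (∀ x, ‖q x‖ ≤ 1) := by
  let f : ContDiffBump (0 : ℝ) := ⟨a, 2 * a, ha, by linarith⟩
  have h1 : HasCompactSupport (Complex.ofRealCLM ∘ (f : ℝ → ℝ)) := f.hasCompactSupport.comp_left rfl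
  have h2 : ContDiff ℝ ((⊤ : ℕ∞) : WithTop ℕ∞) (Complex.ofRealCLM ∘ (f : ℝ → ℝ)) :=
    Complex.ofRealCLM.contDiff.comp f.contDiff
  refine ⟨h1.toSchwartzMap h2, fun x hx => ?_, fun x hx => ?_, fun x => ?_⟩
  · have : f x = 1 := f.one_of_mem_closedBall (by simpa [Metric.mem_closedBall] using hx)
    simp [this]
  · have : f x = 0 := f.zero_of_le_dist (by simpa using hx)
    simp [this]
  · have h1 := f.nonneg (x := x)
    have h2 := f.le_one (x := x)
    simp [abs_of_nonneg h1, h2]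

/-- Schwartz decay -/
theorem schwartz_decay (Q : 𝓢(ℝ, ℂ)) (M : ℕ) : ∃ C : ℝ, 0 < C ∧ ∀ u, ‖Q u‖ ≤ C * ((1 + |u|) ^ M)⁻¹ := by
  refine ⟨2 ^ M * ((Finset.Iic (M, 0)).sup fun m => SchwartzMap.seminorm ℝ m.1 m.2) Q + 1,
    by positivity, fun u => ?_⟩
  have h := SchwartzMap.one_add_le_sup_seminorm_apply (𝕜 := ℝ) (m := (M, 0)) (k := M) (n := 0)
    le_rfl le_rfl Q u
  rw [norm_iteratedFDeriv_zero, Real.norm_eq_abs] at h
  rw [← div_eq_mul_inv, le_div_iff₀ (by positivity)]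
  simp only at h
  linarith

/-- the rescaled kernel -/
noncomputable def ker (Q : 𝓢(ℝ, ℂ)) (r z : ℝ) : ℂ := (r⁻¹ : ℝ) * Q (z / r)

lemma integrable_ker (Q : 𝓢(ℝ, ℂ)) {r : ℝ} (hr : 0 < r) : Integrable (ker Q r) := by
  unfold ker
  exact (Q.integrable.comp_div hr.ne').const_mul _

lemma continuous_ker (Q : 𝓢(ℝ, ℂ)) (r : ℝ) : Continuous (ker Q r) := by
  unfold ker
  fun_prop

@[fun_prop]
lemma measurable_ker (Q : 𝓢(ℝ, ℂ)) (r : ℝ) : Measurable (ker Q r) := (continuous_ker Q r).measurable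

lemma ker_le (Q : 𝓢(ℝ, ℂ)) (M : ℕ) : ∃ C : ℝ, 0 < C ∧ ∀ r, 0 < r → ∀ z,
    ‖ker Q r z‖ₑ ≤ ENNReal.ofReal C * w M r z := by
  obtain ⟨C, hC, h⟩ := schwartz_decay Q M
  refine ⟨C, hC, fun r hr z => ?_⟩
  unfold ker w br
  rw [← ofReal_norm, norm_mul, ← ENNReal.ofReal_mul hC.le]
  refine ENNReal.ofReal_le_ofReal ?_
  have h1 := h (z / r)
  rw [abs_div, abs_of_pos hr] at h1
  rw [Complex.norm_real, Real.norm_of_nonneg (by positivity)]
  calc r⁻¹ * ‖Q (z / r)‖ ≤ r⁻¹ * (C * ((1 + |z| / r) ^ M)⁻¹) :=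
        mul_le_mul_of_nonneg_left h1 (by positivity)
    _ = _ := by ring

lemma ker_sq_le (Q : 𝓢(ℝ, ℂ)) (M : ℕ) : ∃ C : ℝ, 0 < C ∧ ∀ r, 0 < r → ∀ z,
    ENNReal.ofReal r * ‖ker Q r z‖ₑ ^ 2 ≤ ENNReal.ofReal C * w M r z := by
  obtain ⟨C, hC, h⟩ := ker_le Q M
  refine ⟨C ^ 2, by positivity, fun r hr z => ?_⟩
  have h1 := h r hr z
  calc ENNReal.ofReal r * ‖ker Q r z‖ₑ ^ 2 ≤
        ENNReal.ofReal r * (ENNReal.ofReal C * w M r z) ^ 2 :=
        mul_le_mul_right (pow_le_pow_left' h1 2) _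
    _ = ENNReal.ofReal (C ^ 2) * (ENNReal.ofReal r * w M r z) * w M r z := by
        rw [ENNReal.ofReal_pow hC.le]; ring
    _ ≤ ENNReal.ofReal (C ^ 2) * 1 * w M r z := by
        refine mul_le_mul_left (mul_le_mul_right ?_ _) _
        calc ENNReal.ofReal r * w M r z ≤ ENNReal.ofReal r * ENNReal.ofReal r⁻¹ :=
              mul_le_mul_right (w_le hr z) _
          _ = 1 := by
              rw [← ENNReal.ofReal_mul hr.le, mul_inv_cancel₀ hr.ne', ENNReal.ofReal_one]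
    _ = _ := by ring

/-- the multiplier of the kernel -/
lemma ker_fourier (Q : 𝓢(ℝ, ℂ)) {r : ℝ} (hr : 0 < r) (a : ℝ) :
    ∫ z, ker Q r z * ee (-(z * a)) = 𝓕 (Q : ℝ → ℂ) (r * a) := by
  have h := Measure.integral_comp_div (fun u => (r⁻¹ : ℝ) * Q u * ee (-(u * (r * a)))) r
  have e : ∀ z, (r⁻¹ : ℝ) * Q (z / r) * ee (-(z / r * (r * a))) = ker Q r z * ee (-(z * a)) := by
    intro z
    unfold ker
    congr 3
    field_simp
  simp_rw [e] at h
  rw [h, fourier_eq_ee, abs_of_pos hr, Complex.real_smul, ← integral_const_mul]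
  refine integral_congr_ae (Filter.Eventually.of_forall fun u => ?_)
  simp only
  rw [← mul_assoc, ← mul_assoc, ← Complex.ofReal_mul, mul_inv_cancel₀ hr.ne']
  simp

/-! ### superpositions -/

section

variable {Ω : Type*} [MeasurableSpace Ω] (μ : Measure Ω)

/-- one-dimensional superposition of exponentials -/
noncomputable def S1 (b : Ω → ℂ) (α : Ω → ℝ) (y : ℝ) : ℂ := ∫ ω, b ω * ee (y * α ω) ∂μ

set_option linter.unusedSectionVars false

variable {μ} [SFinite μ] {b : Ω → ℂ} {α : Ω → ℝ}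

lemma integrable_S1 (hb : Integrable b μ) (hα : Measurable α) (y : ℝ) :
    Integrable (fun ω => b ω * ee (y * α ω)) μ := by
  refine hb.mono (hb.aestronglyMeasurable.mul (by fun_prop)) ?_
  refine Filter.Eventually.of_forall fun ω => ?_
  simp

lemma norm_S1_le (y : ℝ) : ‖S1 μ b α y‖ ≤ ∫ ω, ‖b ω‖ ∂μ := by
  unfold S1
  refine (norm_integral_le_integral_norm _).trans (le_of_eq ?_)
  simp

lemma continuous_S1 (hb : Integrable b μ) (hα : Measurable α) : Continuous (S1 μ b α) := by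
  unfold S1
  refine continuous_of_dominated (bound := fun ω => ‖b ω‖) ?_ ?_ hb.norm ?_
  · exact fun y => (integrable_S1 hb hα y).aestronglyMeasurable
  · exact fun y => Filter.Eventually.of_forall fun ω => by simp
  · exact Filter.Eventually.of_forall fun ω => by fun_prop

/-- the Fubini identity -/
lemma fub (hb : Integrable b μ) (hα : Measurable α) {k : ℝ → ℂ} (hk : Integrable k)
    {φ : ℝ → ℝ} (hφ : Measurable φ) :
    ∫ x, k x * S1 μ b α (φ x) = ∫ ω, b ω * (∫ x, k x * ee (φ x * α ω)) ∂μ := by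
  have hint : Integrable (fun p : ℝ × Ω => k p.1 * (b p.2 * ee (φ p.1 * α p.2)))
      ((volume : Measure ℝ).prod μ) := by
    have h1 := hk.mul_prod hb
    refine h1.mono ?_ ?_
    · have h2 : AEStronglyMeasurable (fun p : ℝ × Ω => ee (φ p.1 * α p.2))
          ((volume : Measure ℝ).prod μ) := by
        apply Measurable.aestronglyMeasurable
        fun_prop
      refine (h1.aestronglyMeasurable.mul h2).congr ?_
      refine Filter.Eventually.of_forall fun p => ?_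
      simp [mul_assoc]
    · refine Filter.Eventually.of_forall fun p => ?_
      simp
  unfold S1
  calc ∫ x, k x * (∫ ω, b ω * ee (φ x * α ω) ∂μ)
      = ∫ x, ∫ ω, k x * (b ω * ee (φ x * α ω)) ∂μ := by
        refine integral_congr_ae (Filter.Eventually.of_forall fun x => ?_)
        exact (integral_const_mul _ _).symm
    _ = ∫ ω, (∫ x, k x * (b ω * ee (φ x * α ω))) ∂μ := integral_integral_swap hint
    _ = _ := by
        refine integral_congr_ae (Filter.Eventually.of_forall fun ω => ?_)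
        simp only
        rw [← integral_const_mul]
        refine integral_congr_ae (Filter.Eventually.of_forall fun x => ?_)
        ring

/-- joint measurability of a family of superpositions -/
lemma measurable_S1_family {Θ : Type*} [MeasurableSpace Θ] {b : Θ → Ω → ℂ}
    (hb : Measurable (Function.uncurry b)) (hα : Measurable α) :
    Measurable (fun p : Θ × ℝ => S1 μ (b p.1) α p.2) := by
  unfold S1
  have h : StronglyMeasurable (fun q : (Θ × ℝ) × Ω => b q.1.1 q.2 * ee (q.1.2 * α q.2)) := by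
    apply Measurable.stronglyMeasurable
    have h1 : Measurable (fun q : (Θ × ℝ) × Ω => b q.1.1 q.2) :=
      hb.comp (by fun_prop : Measurable (fun q : (Θ × ℝ) × Ω => (q.1.1, q.2)))
    fun_prop
  exact h.integral_prod_right'.measurable

/-! ### the fixed multipliers -/

/-- the bump equal to one on `[-1,1]` -/
noncomputable def q0 : 𝓢(ℝ, ℂ) := Classical.choose (exists_bump 1 one_pos)

lemma q0_one {x : ℝ} (hx : |x| ≤ 1) : q0 x = 1 :=
  (Classical.choose_spec (exists_bump 1 one_pos)).1 x hx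

lemma q0_zero {x : ℝ} (hx : 2 ≤ |x|) : q0 x = 0 :=
  (Classical.choose_spec (exists_bump 1 one_pos)).2.1 x (by linarith)

lemma q0_le (x : ℝ) : ‖q0 x‖ ≤ 1 := (Classical.choose_spec (exists_bump 1 one_pos)).2.2 x

/-- the bump supported in `[-1,1]` -/
noncomputable def p0 : 𝓢(ℝ, ℂ) := Classical.choose (exists_bump (1/2) (by norm_num))

lemma p0_one {x : ℝ} (hx : |x| ≤ 1/2) : p0 x = 1 :=
  (Classical.choose_spec (exists_bump (1/2) (by norm_num))).1 x hx

lemma p0_zero {x : ℝ} (hx : 1 ≤ |x|) : p0 x = 0 :=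
  (Classical.choose_spec (exists_bump (1/2) (by norm_num))).2.1 x (by linarith)

/-- inverse Fourier transforms -/
noncomputable def Qi : 𝓢(ℝ, ℂ) := 𝓕⁻ q0

/-- inverse Fourier transforms -/
noncomputable def Pi0 : 𝓢(ℝ, ℂ) := 𝓕⁻ p0

lemma fourier_Qi (x : ℝ) : 𝓕 (Qi : ℝ → ℂ) x = q0 x := by
  have h : 𝓕 (𝓕⁻ q0 : 𝓢(ℝ, ℂ)) = q0 := FourierTransform.fourier_fourierInv_eq q0
  rw [← SchwartzMap.fourier_coe, Qi, h]

lemma fourier_Pi0 (x : ℝ) : 𝓕 (Pi0 : ℝ → ℂ) x = p0 x := by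
  have h : 𝓕 (𝓕⁻ p0 : 𝓢(ℝ, ℂ)) = p0 := FourierTransform.fourier_fourierInv_eq p0
  rw [← SchwartzMap.fourier_coe, Pi0, h]

@[fun_prop]
lemma measurable_q0 : Measurable q0 := q0.continuous.measurable

@[fun_prop]
lemma measurable_Pi0 : Measurable Pi0 := Pi0.continuous.measurable

/-- the localised amplitude -/
noncomputable def loc (r θ : ℝ) (b : Ω → ℂ) (α : Ω → ℝ) (ω : Ω) : ℂ := b ω * q0 (r * (α ω - θ))

lemma integrable_loc (hb : Integrable b μ) (hα : Measurable α) (r θ : ℝ) :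
    Integrable (loc r θ b α) μ := by
  refine hb.mono (hb.aestronglyMeasurable.mul (by fun_prop)) ?_
  refine Filter.Eventually.of_forall fun ω => ?_
  unfold loc
  rw [norm_mul]
  exact mul_le_of_le_one_right (norm_nonneg _) (q0_le _)

/-- convolution identity -/
lemma conv_id (hb : Integrable b μ) (hα : Measurable α) {r : ℝ} (hr : 0 < r) (θ y : ℝ) :
    S1 μ (loc r θ b α) α y = ∫ z, ker Qi r z * ee (θ * z) * S1 μ b α (y - z) := by
  have hk : Integrable (fun z => ker Qi r z * ee (θ * z)) := by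
    refine (integrable_ker Qi hr).mono
      ((integrable_ker Qi hr).aestronglyMeasurable.mul (by fun_prop)) ?_
    exact Filter.Eventually.of_forall fun z => by simp
  rw [fub hb hα hk (φ := fun z => y - z) (by fun_prop)]
  unfold S1 loc
  refine integral_congr_ae (Filter.Eventually.of_forall fun ω => ?_)
  simp only
  have h := ker_fourier Qi hr (α ω - θ)
  rw [fourier_Qi] at h
  rw [← h, mul_assoc]
  congr 1
  rw [mul_comm, ← integral_const_mul]
  refine integral_congr_ae (Filter.Eventually.of_forall fun z => ?_)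
  simp only
  have e1 : ee (y * α ω) * (ker Qi r z * ee (-(z * (α ω - θ)))) =
      ker Qi r z * (ee (y * α ω) * ee (-(z * (α ω - θ)))) := by ring
  have e2 : ker Qi r z * ee (θ * z) * ee ((y - z) * α ω) =
      ker Qi r z * (ee (θ * z) * ee ((y - z) * α ω)) := by ring
  rw [e1, e2, ← ee_add, ← ee_add]
  congr 2
  ring

end

/-- Cauchy-Schwarz for averages -/
lemma cs_avg {α : Type*} [MeasurableSpace α] (ν : Measure α) {k G : α → ℂ}
    (hk : Measurable k) (hG : Measurable G) :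
    ‖∫ x, k x * G x ∂ν‖ₑ ^ 2 ≤ (∫⁻ x, ‖k x‖ₑ ∂ν) * ∫⁻ x, ‖k x‖ₑ * ‖G x‖ₑ ^ 2 ∂ν := by
  have h1 : ‖∫ x, k x * G x ∂ν‖ₑ ≤ ∫⁻ x, ‖k x‖ₑ * ‖G x‖ₑ ∂ν := by
    refine (enorm_integral_le_lintegral_enorm _).trans (le_of_eq ?_)
    simp
  have h2 := Bct383.cs ν (f := fun x => ‖k x‖ₑ) (g := fun x => ‖k x‖ₑ * ‖G x‖ₑ ^ 2)
    (by fun_prop) (by fun_prop)
  have h3 : ∀ x, Bct383.sq ‖k x‖ₑ * Bct383.sq (‖k x‖ₑ * ‖G x‖ₑ ^ 2) = ‖k x‖ₑ * ‖G x‖ₑ := by
    intro x
    rw [sq_mul, ← mul_assoc, sq_mul_self, Bct383.sq_sq]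
  simp only [h3] at h2
  calc ‖∫ x, k x * G x ∂ν‖ₑ ^ 2 ≤ (∫⁻ x, ‖k x‖ₑ * ‖G x‖ₑ ∂ν) ^ 2 := pow_le_pow_left' h1 2
    _ ≤ (Bct383.sq (∫⁻ x, ‖k x‖ₑ ∂ν) * Bct383.sq (∫⁻ x, ‖k x‖ₑ * ‖G x‖ₑ ^ 2 ∂ν)) ^ 2 := pow_le_pow_left' h2 2
    _ = _ := by rw [mul_pow, Bct383.sq_pow_two, Bct383.sq_pow_two]

/-- Plancherel on the line in `lintegral` form -/
lemma plancherel {f : ℝ → ℂ} (h1 : Integrable f) (h2 : MemLp f 2) :
    ∫⁻ x, ‖𝓕 f x‖ₑ ^ 2 = ∫⁻ x, ‖f x‖ₑ ^ 2 := by
  have h := R070.Cs145.eLpNorm_fourier h1 h2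
  have e : ∀ g : ℝ → ℂ, eLpNorm g 2 volume ^ 2 = ∫⁻ x, ‖g x‖ₑ ^ 2 := by
    intro g
    rw [eLpNorm_eq_lintegral_rpow_enorm_toReal (by norm_num) (by norm_num)]
    simp only [ENNReal.toReal_ofNat]
    rw [← ENNReal.rpow_natCast, ← ENNReal.rpow_mul]
    norm_num
  rw [← e, ← e, h]

lemma plancherel_inv {f : ℝ → ℂ} (h1 : Integrable f) (h2 : MemLp f 2) :
    ∫⁻ x, ‖𝓕⁻ f x‖ₑ ^ 2 = ∫⁻ x, ‖f x‖ₑ ^ 2 := by
  rw [← plancherel h1 h2]
  have e : ∀ x, 𝓕⁻ f x = 𝓕 f (-x) := fun x => by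
    rw [Real.fourierInv_eq_fourier_neg]
  simp_rw [e]
  exact lintegral_neg_eq_self (μ := volume) (fun x => ‖𝓕 f x‖ₑ ^ 2)

section

set_option linter.unusedSectionVars false

variable {Ω : Type*} [MeasurableSpace Ω] {μ : Measure Ω} [SFinite μ] {b : Ω → ℂ} {α : Ω → ℝ}

lemma lintegral_ker_le {r : ℝ} (hr : 0 < r) (Q : 𝓢(ℝ, ℂ)) {M : ℕ} {C : ℝ}
    (h : ∀ z, ‖ker Q r z‖ₑ ≤ ENNReal.ofReal C * w M r z) :
    ∫⁻ z, ‖ker Q r z‖ₑ ≤ ENNReal.ofReal C * I M := by
  refine (lintegral_mono h).trans ?_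
  rw [lintegral_const_mul _ (by fun_prop), lintegral_w hr]

lemma ker_bdd (Q : 𝓢(ℝ, ℂ)) (r : ℝ) : ∃ D : ℝ, ∀ z, ‖ker Q r z‖ ≤ D := by
  obtain ⟨C, hC, h⟩ := schwartz_decay Q 0
  refine ⟨|r⁻¹| * C, fun z => ?_⟩
  unfold ker
  rw [norm_mul, Complex.norm_real, Real.norm_eq_abs]
  have := h (z / r)
  simp only [pow_zero, inv_one, mul_one] at this
  exact mul_le_mul_of_nonneg_left this (abs_nonneg _)

lemma memLp_two_of_bdd {f : ℝ → ℂ} (h1 : Integrable f) {C : ℝ} (h : ∀ z, ‖f z‖ ≤ C) :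
    MemLp f 2 := by
  rw [memLp_two_iff_integrable_sq_norm h1.aestronglyMeasurable]
  have h2 : Integrable (fun z => ‖f z‖ * ‖f z‖) := by
    refine h1.norm.mul_bdd (c := C) h1.aestronglyMeasurable.norm ?_
    exact Filter.Eventually.of_forall fun z => by simpa using h z
  refine h2.congr (Filter.Eventually.of_forall fun z => ?_)
  simp only
  ring

/-- locally constant property -/
theorem lc1 (M : ℕ) (hM : 2 ≤ M) : ∃ C : ℝ, 0 < C ∧ ∀ {Ω : Type*} [MeasurableSpace Ω] 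
    (μ : Measure Ω) [SFinite μ] (b : Ω → ℂ) (α : Ω → ℝ), Integrable b μ → Measurable α → ∀ r c : ℝ,
    0 < r → (∀ ω, b ω ≠ 0 → r * |α ω - c| ≤ 1) → ∀ y,
      ‖S1 μ b α y‖ₑ ^ 2 ≤ ENNReal.ofReal C * ∫⁻ z, w M r (y - z) * ‖S1 μ b α z‖ₑ ^ 2 := by
  obtain ⟨C, hC, h⟩ := ker_le Qi M
  refine ⟨C * (C * (I M).toReal + 1), by positivity, ?_⟩
  intro Ω _ μ _ b α hb hα r c hr hs y
  have e1 : loc r c b α = b := by
    funext ω
    unfold loc
    by_cases h0 : b ω = 0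
    · rw [h0, zero_mul]
    · have := hs ω h0
      rw [q0_one, mul_one]
      rwa [abs_mul, abs_of_pos hr]
  have e2 := conv_id hb hα hr c y
  rw [e1] at e2
  have hm : Measurable (S1 μ b α) := (continuous_S1 hb hα).measurable
  have h3 := cs_avg volume (k := fun z => ker Qi r z * ee (c * z)) (G := fun z => S1 μ b α (y - z))
    (by fun_prop) (by fun_prop)
  rw [← e2] at h3
  simp only [enorm_mul, enorm_ee, mul_one] at h3
  have hI : I M ≠ ⊤ := I_ne_top hM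
  have e4 : ∫⁻ z, w M r z * ‖S1 μ b α (y - z)‖ₑ ^ 2 = ∫⁻ z, w M r (y - z) * ‖S1 μ b α z‖ₑ ^ 2 := by
    rw [← lintegral_sub_left (f := fun z => w M r z * ‖S1 μ b α (y - z)‖ₑ ^ 2) y]
    simp
  calc ‖S1 μ b α y‖ₑ ^ 2 ≤ (∫⁻ z, ‖ker Qi r z‖ₑ) * ∫⁻ z, ‖ker Qi r z‖ₑ * ‖S1 μ b α (y - z)‖ₑ ^ 2 := h3
    _ ≤ (ENNReal.ofReal C * I M) * ∫⁻ z, ENNReal.ofReal C * (w M r z * ‖S1 μ b α (y - z)‖ₑ ^ 2) := by
        refine mul_le_mul' (lintegral_ker_le hr Qi (h r hr)) (lintegral_mono fun z => ?_)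
        rw [← mul_assoc]
        exact mul_le_mul_left (h r hr z) _
    _ = (ENNReal.ofReal C * (ENNReal.ofReal C * I M)) *
          ∫⁻ z, w M r (y - z) * ‖S1 μ b α z‖ₑ ^ 2 := by
        rw [lintegral_const_mul _ (by fun_prop), e4]
        ring
    _ ≤ _ := by
        refine mul_le_mul_left ?_ _
        rw [ENNReal.ofReal_mul hC.le, ENNReal.ofReal_add (by positivity) (by norm_num),
          ENNReal.ofReal_mul hC.le, ENNReal.ofReal_toReal hI]
        refine mul_le_mul_right ?_ _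
        exact le_self_add

/-- Bessel = Plancherel in the cap parameter -/
theorem be1 (M : ℕ) : ∃ C : ℝ, 0 < C ∧ ∀ {Ω : Type*} [MeasurableSpace Ω] 
    (μ : Measure Ω) [SFinite μ] (b : Ω → ℂ) (α : Ω → ℝ), Integrable b μ → Measurable α → ∀ r : ℝ,
    0 < r → ∀ y,
      ENNReal.ofReal r * ∫⁻ θ, ‖S1 μ (loc r θ b α) α y‖ₑ ^ 2 ≤
        ENNReal.ofReal C * ∫⁻ z, w M r (y - z) * ‖S1 μ b α z‖ₑ ^ 2 := by
  obtain ⟨C, hC, h⟩ := ker_sq_le Qi M
  refine ⟨C, hC, ?_⟩
  intro Ω _ μ _ b α hb hα r hr y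
  have hc := continuous_S1 hb hα
  have hm : Measurable (S1 μ b α) := hc.measurable
  set H : ℝ → ℂ := fun z => ker Qi r z * S1 μ b α (y - z) with hH
  have hHc : Continuous H := (continuous_ker Qi r).mul (hc.comp (by fun_prop))
  have hH1 : Integrable H := by
    refine (integrable_ker Qi hr).mul_bdd (c := ∫ ω, ‖b ω‖ ∂μ)
      ((hc.comp (by fun_prop)).aestronglyMeasurable) ?_
    exact Filter.Eventually.of_forall fun z => norm_S1_le _
  have hH2 : MemLp H 2 := by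
    obtain ⟨D, hD⟩ := ker_bdd Qi r
    refine memLp_two_of_bdd hH1 (C := D * ∫ ω, ‖b ω‖ ∂μ) fun z => ?_
    simp only [hH]
    rw [norm_mul]
    exact mul_le_mul (hD z) (norm_S1_le _) (norm_nonneg _) ((norm_nonneg _).trans (hD z))
  have e : ∀ θ, S1 μ (loc r θ b α) α y = 𝓕⁻ H θ := by
    intro θ
    rw [conv_id hb hα hr θ y, fourierInv_eq_ee]
    refine integral_congr_ae (Filter.Eventually.of_forall fun z => ?_)
    simp only [hH, mul_comm θ z]
    ring
  simp_rw [e]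
  rw [plancherel_inv hH1 hH2]
  have e4 : ∫⁻ z, w M r z * ‖S1 μ b α (y - z)‖ₑ ^ 2 = ∫⁻ z, w M r (y - z) * ‖S1 μ b α z‖ₑ ^ 2 := by
    rw [← lintegral_sub_left (f := fun z => w M r z * ‖S1 μ b α (y - z)‖ₑ ^ 2) y]
    simp
  rw [← e4, ← lintegral_const_mul _ (by fun_prop), ← lintegral_const_mul _ (by fun_prop)]
  refine lintegral_mono fun z => ?_
  simp only [hH]
  rw [enorm_mul, mul_pow, ← mul_assoc, ← mul_assoc]
  exact mul_le_mul_left (h r hr z) _

/-- `r * w N r` is the inverse bracket -/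
lemma w_shift' {N : ℕ} {r : ℝ} (hr : 0 < r) (s t : ℝ) :
    ENNReal.ofReal r * w N r t * w N r (s + t) ≤ w N r s := by
  have hb := br_pos hr t
  calc ENNReal.ofReal r * w N r t * w N r (s + t)
      ≤ ENNReal.ofReal r * w N r t * (ENNReal.ofReal (br r t ^ N) * w N r s) :=
        mul_le_mul_right (w_shift hr s t) _
    _ = w N r s := by
        unfold w
        rw [← mul_assoc, ← ENNReal.ofReal_mul hr.le, ← ENNReal.ofReal_mul (by positivity)]
        have : r * (r⁻¹ * (br r t ^ N)⁻¹) * br r t ^ N = 1 := by field_simp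
        rw [this, ENNReal.ofReal_one, one_mul]

/-- the constant of `lo1` -/
noncomputable def cN (N : ℕ) : ℝ≥0∞ := ∫⁻ u, w N 1 u * ‖Pi0 u‖ₑ ^ 2

lemma cN_ne_zero (N : ℕ) : cN N ≠ 0 := by
  unfold cN
  rw [Ne, lintegral_eq_zero_iff (by fun_prop)]
  intro h
  have h1 : ∀ᵐ u : ℝ, Pi0 u = 0 := by
    filter_upwards [h] with t ht
    have h2 := (w_pos (N := N) one_pos t).ne'
    simpa [h2] using ht
  have h2 : ∀ x, 𝓕 (Pi0 : ℝ → ℂ) x = 0 := by
    intro x
    rw [fourier_eq_ee]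
    rw [integral_congr_ae (g := fun _ => (0 : ℂ))]
    · simp
    · filter_upwards [h1] with t ht
      rw [ht, zero_mul]
  have h3 := h2 0
  rw [fourier_Pi0, p0_one (by norm_num)] at h3
  exact one_ne_zero h3

lemma cN_scale {N : ℕ} {r : ℝ} (hr : 0 < r) :
    ∫⁻ z, ENNReal.ofReal r * w N r z * ‖ker Pi0 r z‖ₑ ^ 2 = ENNReal.ofReal r⁻¹ * cN N := by
  have e : ∀ z, ENNReal.ofReal r * w N r z * ‖ker Pi0 r z‖ₑ ^ 2 =
      ENNReal.ofReal r⁻¹ * ENNReal.ofReal r⁻¹ * (w N 1 (z / r) * ‖Pi0 (z / r)‖ₑ ^ 2) := by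
    intro z
    have e1 : ENNReal.ofReal r * w N r z = w N 1 (z / r) := by
      unfold w br
      rw [← ENNReal.ofReal_mul hr.le, abs_div, abs_of_pos hr]
      congr 1
      field_simp
    have e2 : ‖ker Pi0 r z‖ₑ = ENNReal.ofReal r⁻¹ * ‖Pi0 (z / r)‖ₑ := by
      unfold ker
      rw [enorm_mul]
      congr 1
      rw [← ofReal_norm, Complex.norm_real, Real.norm_of_nonneg (by positivity)]
    rw [e1, e2]
    ring
  simp_rw [e]
  rw [lintegral_const_mul _ (by fun_prop),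
    lintegral_comp_div hr (f := fun u => w N 1 u * ‖Pi0 u‖ₑ ^ 2)]
  unfold cN
  rw [← mul_assoc, mul_assoc (ENNReal.ofReal r⁻¹), ← ENNReal.ofReal_mul (by positivity),
    inv_mul_cancel₀ hr.ne', ENNReal.ofReal_one, mul_one]

/-- Fourier transform of the localised superposition -/
lemma fourier_local (hb : Integrable b μ) (hα : Measurable α) {r : ℝ} (hr : 0 < r) (y ξ : ℝ) :
    𝓕 (fun x => ker Pi0 r (x - y) * S1 μ b α x) ξ =
      ∫ ω, b ω * (ee (y * (α ω - ξ)) * p0 (r * (ξ - α ω))) ∂μ := by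
  have hk : Integrable (fun x => ker Pi0 r (x - y) * ee (-(x * ξ))) := by
    have h0 := (integrable_ker Pi0 hr).comp_sub_right y
    refine h0.mono (h0.aestronglyMeasurable.mul (by fun_prop)) ?_
    exact Filter.Eventually.of_forall fun z => by simp
  rw [fourier_eq_ee]
  have e1 : ∀ x, ker Pi0 r (x - y) * S1 μ b α x * ee (-(x * ξ)) =
      ker Pi0 r (x - y) * ee (-(x * ξ)) * S1 μ b α x := fun x => by ring
  simp_rw [e1]
  rw [fub hb hα hk (φ := fun z => z) (by fun_prop)]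
  refine integral_congr_ae (Filter.Eventually.of_forall fun ω => ?_)
  simp only
  congr 1
  have h := ker_fourier Pi0 hr (ξ - α ω)
  rw [fourier_Pi0] at h
  rw [← h, ← integral_const_mul]
  rw [← integral_sub_right_eq_self (fun z => ee (y * (α ω - ξ)) * (ker Pi0 r z *
    ee (-(z * (ξ - α ω))))) y]
  refine integral_congr_ae (Filter.Eventually.of_forall fun x => ?_)
  simp only
  have e2 : ee (y * (α ω - ξ)) * (ker Pi0 r (x - y) * ee (-((x - y) * (ξ - α ω)))) =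
      ker Pi0 r (x - y) * (ee (y * (α ω - ξ)) * ee (-((x - y) * (ξ - α ω)))) := by ring
  rw [e2, mul_assoc, ← ee_add, ← ee_add]
  congr 2
  ring

lemma fourier_local_loc (hb : Integrable b μ) (hα : Measurable α) {r : ℝ} (hr : 0 < r) (y ξ : ℝ) :
    𝓕 (fun x => ker Pi0 r (x - y) * S1 μ b α x) ξ =
      𝓕 (fun x => ker Pi0 r (x - y) * S1 μ (loc r ξ b α) α x) ξ := by
  rw [fourier_local hb hα hr, fourier_local (integrable_loc hb hα r ξ) hα hr]
  refine integral_congr_ae (Filter.Eventually.of_forall fun ω => ?_)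
  simp only [loc]
  by_cases h : 1 ≤ |r * (ξ - α ω)|
  · rw [p0_zero h]; simp
  · push Not at h
    rw [q0_one]
    · simp
    · rw [← abs_neg]
      have : -(r * (α ω - ξ)) = r * (ξ - α ω) := by ring
      rw [this]
      exact h.le

/-- local orthogonality at one centre -/
lemma lo_center (hb : Integrable b μ) (hα : Measurable α) {r : ℝ} (hr : 0 < r) (y : ℝ) :
    ∫⁻ x, ‖ker Pi0 r (x - y)‖ₑ ^ 2 * ‖S1 μ b α x‖ₑ ^ 2 ≤
      (∫⁻ z, ‖ker Pi0 r z‖ₑ) *
        ∫⁻ ξ, ∫⁻ x, ‖ker Pi0 r (x - y)‖ₑ * ‖S1 μ (loc r ξ b α) α x‖ₑ ^ 2 := by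
  have hc := continuous_S1 hb hα
  set G : ℝ → ℂ := fun x => ker Pi0 r (x - y) * S1 μ b α x with hG
  have hG1 : Integrable G := by
    refine ((integrable_ker Pi0 hr).comp_sub_right y).mul_bdd (c := ∫ ω, ‖b ω‖ ∂μ)
      hc.aestronglyMeasurable ?_
    exact Filter.Eventually.of_forall fun z => norm_S1_le _
  have hG2 : MemLp G 2 := by
    obtain ⟨D, hD⟩ := ker_bdd Pi0 r
    refine memLp_two_of_bdd hG1 (C := D * ∫ ω, ‖b ω‖ ∂μ) fun z => ?_
    simp only [hG]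
    rw [norm_mul]
    exact mul_le_mul (hD _) (norm_S1_le _) (norm_nonneg _) ((norm_nonneg _).trans (hD z))
  have hP := plancherel hG1 hG2
  have e1 : ∫⁻ x, ‖ker Pi0 r (x - y)‖ₑ ^ 2 * ‖S1 μ b α x‖ₑ ^ 2 = ∫⁻ x, ‖G x‖ₑ ^ 2 := by
    refine lintegral_congr fun x => ?_
    simp only [hG]
    rw [enorm_mul, mul_pow]
  rw [e1, ← hP]
  have hmeas : Measurable (fun ξ : ℝ => ∫⁻ z : ℝ, ‖ker Pi0 r z‖ₑ) := measurable_const
  have hle : ∀ ξ, ‖𝓕 G ξ‖ₑ ^ 2 ≤ (∫⁻ z, ‖ker Pi0 r z‖ₑ) *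
      ∫⁻ x, ‖ker Pi0 r (x - y)‖ₑ * ‖S1 μ (loc r ξ b α) α x‖ₑ ^ 2 := by
    intro ξ
    have hm : Measurable (S1 μ (loc r ξ b α) α) :=
      (continuous_S1 (integrable_loc hb hα r ξ) hα).measurable
    have e2 : 𝓕 G ξ = ∫ x, (ker Pi0 r (x - y) * ee (-(x * ξ))) * S1 μ (loc r ξ b α) α x := by
      simp only [hG]
      rw [fourier_local_loc hb hα hr, fourier_eq_ee]
      refine integral_congr_ae (Filter.Eventually.of_forall fun x => ?_)
      simp only
      ring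
    rw [e2]
    refine (cs_avg volume (by fun_prop) hm).trans (le_of_eq ?_)
    simp only [enorm_mul, enorm_ee, mul_one]
    congr 1
    exact lintegral_sub_right_eq_self (fun z => ‖ker Pi0 r z‖ₑ) y
  refine (lintegral_mono hle).trans (le_of_eq ?_)
  have hI : (∫⁻ z, ‖ker Pi0 r z‖ₑ) ≠ ⊤ := (integrable_ker Pi0 hr).2.ne
  exact lintegral_const_mul' _ _ hI

end

lemma tonelli_left {A B V : ℝ → ℝ≥0∞} (hA : Measurable A) (hB : Measurable B)
    (hV : Measurable V) :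
    ∫⁻ y, A y * ∫⁻ x, B (x - y) * V x = ∫⁻ x, (∫⁻ y, A y * B (x - y)) * V x := by
  calc ∫⁻ y, A y * ∫⁻ x, B (x - y) * V x = ∫⁻ y, ∫⁻ x, A y * (B (x - y) * V x) := by
        refine lintegral_congr fun y => ?_
        rw [lintegral_const_mul _ (by fun_prop)]
    _ = ∫⁻ x, ∫⁻ y, A y * (B (x - y) * V x) := lintegral_lintegral_swap (by fun_prop)
    _ = _ := by
        refine lintegral_congr fun x => ?_
        rw [← lintegral_mul_const _ (by fun_prop)]
        refine lintegral_congr fun y => ?_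
        ring

lemma tonelli_right {A B : ℝ → ℝ≥0∞} {U : ℝ → ℝ → ℝ≥0∞} (hA : Measurable A) (hB : Measurable B)
    (hU : Measurable (Function.uncurry U)) :
    ∫⁻ y, A y * ∫⁻ ξ, ∫⁻ x, B (x - y) * U ξ x = ∫⁻ ξ, ∫⁻ x, (∫⁻ y, A y * B (x - y)) * U ξ x := by
  have m1 : Measurable (fun p : (ℝ × ℝ) × ℝ => B (p.2 - p.1.1) * U p.1.2 p.2) := by
    have : Measurable (fun p : (ℝ × ℝ) × ℝ => U p.1.2 p.2) :=
      hU.comp (by fun_prop : Measurable (fun p : (ℝ × ℝ) × ℝ => (p.1.2, p.2)))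
    fun_prop
  have m2 : Measurable (fun p : ℝ × ℝ => ∫⁻ x, B (x - p.1) * U p.2 x) := m1.lintegral_prod_right'
  have e0 : ∀ ξ, Measurable (fun x => U ξ x) := fun ξ =>
    hU.comp (by fun_prop : Measurable (fun x : ℝ => (ξ, x)))
  calc ∫⁻ y, A y * ∫⁻ ξ, ∫⁻ x, B (x - y) * U ξ x
      = ∫⁻ y, ∫⁻ ξ, A y * ∫⁻ x, B (x - y) * U ξ x := by
        refine lintegral_congr fun y => ?_
        have : Measurable (fun ξ => ∫⁻ x, B (x - y) * U ξ x) :=
          m2.comp (by fun_prop : Measurable (fun ξ : ℝ => (y, ξ)))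
        rw [lintegral_const_mul _ this]
    _ = ∫⁻ ξ, ∫⁻ y, A y * ∫⁻ x, B (x - y) * U ξ x :=
        lintegral_lintegral_swap ((hA.comp measurable_fst).mul m2).aemeasurable
    _ = _ := by
        refine lintegral_congr fun ξ => ?_
        exact tonelli_left hA hB (e0 ξ)

/-- **local orthogonality** -/
theorem lo1 (N : ℕ) : ∃ C : ℝ, 0 < C ∧ ∀ {Ω : Type*} [MeasurableSpace Ω]
    (μ : Measure Ω) [SFinite μ] (b : Ω → ℂ) (α : Ω → ℝ), Measurable b → Integrable b μ →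
    Measurable α → ∀ r : ℝ, 0 < r → ∀ y,
    ∫⁻ z, w N r (y - z) * ‖S1 μ b α z‖ₑ ^ 2 ≤ ENNReal.ofReal C * (ENNReal.ofReal r *
      ∫⁻ θ, ∫⁻ z, w N r (y - z) * ‖S1 μ (loc r θ b α) α z‖ₑ ^ 2) := by
  obtain ⟨C, hC, h⟩ := ker_le Pi0 (2 + N)
  have hI2 : I 2 ≠ ⊤ := I_ne_top le_rfl
  have hIN : I (2 + N) ≠ ⊤ := I_ne_top (by omega)
  set D : ℝ≥0∞ := (cN N)⁻¹ * (ENNReal.ofReal C * I (2 + N)) * (ENNReal.ofReal C * I 2) with hD
  have hDt : D ≠ ⊤ := by
    have := cN_ne_zero N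
    have h0 : (cN N)⁻¹ ≠ ⊤ := ENNReal.inv_ne_top.2 this
    exact ENNReal.mul_ne_top (ENNReal.mul_ne_top h0 (ENNReal.mul_ne_top ENNReal.ofReal_ne_top hIN))
      (ENNReal.mul_ne_top ENNReal.ofReal_ne_top hI2)
  refine ⟨D.toReal + 1, by positivity, ?_⟩
  intro Ω _ μ _ b α hbm hb hα r hr y0
  have hc := continuous_S1 hb hα
  have hm : Measurable (S1 μ b α) := hc.measurable
  have hFm : Measurable (fun p : ℝ × ℝ => S1 μ (loc r p.1 b α) α p.2) := by
    refine measurable_S1_family (b := fun θ => loc r θ b α) ?_ hα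
    unfold loc
    fun_prop
  have hUm : Measurable (Function.uncurry fun ξ x => ‖S1 μ (loc r ξ b α) α x‖ₑ ^ 2) :=
    hFm.enorm.pow_const 2
  -- the average of `lo_center`
  have hav : ∫⁻ y, w N r (y0 - y) * ∫⁻ x, ‖ker Pi0 r (x - y)‖ₑ ^ 2 * ‖S1 μ b α x‖ₑ ^ 2 ≤
      ∫⁻ y, w N r (y0 - y) * ((ENNReal.ofReal C * I (2 + N)) *
        ∫⁻ ξ, ∫⁻ x, ‖ker Pi0 r (x - y)‖ₑ * ‖S1 μ (loc r ξ b α) α x‖ₑ ^ 2) := by
    refine lintegral_mono fun y => mul_le_mul_right ?_ _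
    refine (lo_center hb hα hr y).trans (mul_le_mul_left ?_ _)
    exact lintegral_ker_le hr Pi0 (h r hr)
  -- left side
  have hleft : ENNReal.ofReal r⁻¹ * cN N * ∫⁻ x, w N r (y0 - x) * ‖S1 μ b α x‖ₑ ^ 2 ≤
      ∫⁻ y, w N r (y0 - y) * ∫⁻ x, ‖ker Pi0 r (x - y)‖ₑ ^ 2 * ‖S1 μ b α x‖ₑ ^ 2 := by
    rw [tonelli_left (A := fun y => w N r (y0 - y)) (B := fun z => ‖ker Pi0 r z‖ₑ ^ 2)
      (V := fun x => ‖S1 μ b α x‖ₑ ^ 2) (by fun_prop) (by fun_prop) (by fun_prop),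
      ← lintegral_const_mul _ (by fun_prop)]
    refine lintegral_mono fun x => ?_
    rw [← mul_assoc]
    refine mul_le_mul_left ?_ _
    have e2 : ENNReal.ofReal r⁻¹ * cN N =
        ∫⁻ y, ENNReal.ofReal r * w N r (x - y) * ‖ker Pi0 r (x - y)‖ₑ ^ 2 := by
      rw [← cN_scale hr]
      exact (lintegral_sub_left (f := fun z => ENNReal.ofReal r * w N r z * ‖ker Pi0 r z‖ₑ ^ 2)
        x).symm
    rw [e2, ← lintegral_mul_const _ (by fun_prop)]
    refine lintegral_mono fun y => ?_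
    have h3 := w_shift' (N := N) hr (y0 - y) (y - x)
    have e3 : y0 - y + (y - x) = y0 - x := by ring
    have e4 : w N r (y - x) = w N r (x - y) := by rw [← w_neg]; congr 1; ring
    rw [e3, e4] at h3
    calc ENNReal.ofReal r * w N r (x - y) * ‖ker Pi0 r (x - y)‖ₑ ^ 2 * w N r (y0 - x)
        = (ENNReal.ofReal r * w N r (x - y) * w N r (y0 - x)) * ‖ker Pi0 r (x - y)‖ₑ ^ 2 := by ring
      _ ≤ _ := mul_le_mul_left h3 _
  -- right side
  have hright : ∫⁻ y, w N r (y0 - y) * ((ENNReal.ofReal C * I (2 + N)) *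
        ∫⁻ ξ, ∫⁻ x, ‖ker Pi0 r (x - y)‖ₑ * ‖S1 μ (loc r ξ b α) α x‖ₑ ^ 2) ≤
      (ENNReal.ofReal C * I (2 + N)) * ((ENNReal.ofReal C * I 2) *
        ∫⁻ ξ, ∫⁻ x, w N r (y0 - x) * ‖S1 μ (loc r ξ b α) α x‖ₑ ^ 2) := by
    have e1 : ∀ y, w N r (y0 - y) * ((ENNReal.ofReal C * I (2 + N)) *
        ∫⁻ ξ, ∫⁻ x, ‖ker Pi0 r (x - y)‖ₑ * ‖S1 μ (loc r ξ b α) α x‖ₑ ^ 2) =
        (ENNReal.ofReal C * I (2 + N)) * (w N r (y0 - y) *
        ∫⁻ ξ, ∫⁻ x, ‖ker Pi0 r (x - y)‖ₑ * ‖S1 μ (loc r ξ b α) α x‖ₑ ^ 2) := fun y => by ring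
    simp_rw [e1]
    rw [lintegral_const_mul' _ _ (ENNReal.mul_ne_top ENNReal.ofReal_ne_top hIN)]
    refine mul_le_mul_right ?_ _
    rw [tonelli_right (A := fun y => w N r (y0 - y)) (B := fun z => ‖ker Pi0 r z‖ₑ)
      (U := fun ξ x => ‖S1 μ (loc r ξ b α) α x‖ₑ ^ 2) (by fun_prop) (by fun_prop) hUm]
    rw [← lintegral_const_mul' _ _ (ENNReal.mul_ne_top ENNReal.ofReal_ne_top hI2)]
    refine lintegral_mono fun ξ => ?_
    rw [← lintegral_const_mul' _ _ (ENNReal.mul_ne_top ENNReal.ofReal_ne_top hI2)]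
    refine lintegral_mono fun x => ?_
    rw [← mul_assoc]
    refine mul_le_mul_left ?_ _
    rw [← lintegral_add_left_eq_self (fun y => w N r (y0 - y) * ‖ker Pi0 r (x - y)‖ₑ) x]
    refine le_trans (le_of_eq ?_) (conv_same (N := N) hr (κ := fun z => ‖ker Pi0 r (-z)‖ₑ)
      (C := ENNReal.ofReal C) (fun z => by simpa [w_neg] using h r hr (-z)) (y0 - x))
    refine lintegral_congr fun z => ?_
    rw [mul_comm]
    congr 2
    · congr 1; ring
    · ring
  -- conclusion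
  have hall := (hleft.trans hav).trans hright
  set X := ∫⁻ x, w N r (y0 - x) * ‖S1 μ b α x‖ₑ ^ 2 with hX
  set Y := ∫⁻ ξ, ∫⁻ x, w N r (y0 - x) * ‖S1 μ (loc r ξ b α) α x‖ₑ ^ 2 with hY
  have hcN0 := cN_ne_zero N
  have hcNt : cN N ≠ ⊤ := by
    have hle : cN N ≤ ENNReal.ofReal (1⁻¹) * ∫⁻ u, ‖Pi0 u‖ₑ ^ 2 := by
      unfold cN
      rw [← lintegral_const_mul _ (by fun_prop)]
      exact lintegral_mono fun u => mul_le_mul_left (w_le one_pos u) _
    refine ne_top_of_le_ne_top ?_ hle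
    refine ENNReal.mul_ne_top ENNReal.ofReal_ne_top ?_
    have h2 := (memLp_two_iff_integrable_sq_norm Pi0.continuous.aestronglyMeasurable).1
      (Pi0.memLp 2 (volume : Measure ℝ))
    have h3 := h2.lintegral_lt_top
    refine ne_top_of_le_ne_top h3.ne (lintegral_mono fun u => ?_)
    rw [← ofReal_norm, ENNReal.ofReal_pow (norm_nonneg _)]
  have hfin : X ≤ D * (ENNReal.ofReal r * Y) := by
    have e7 : X = (cN N)⁻¹ * ENNReal.ofReal r * (ENNReal.ofReal r⁻¹ * cN N * X) := by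
      have q1 : (cN N)⁻¹ * cN N = 1 := ENNReal.inv_mul_cancel hcN0 hcNt
      have q2 : ENNReal.ofReal r * ENNReal.ofReal r⁻¹ = 1 := by
        rw [← ENNReal.ofReal_mul hr.le, mul_inv_cancel₀ hr.ne', ENNReal.ofReal_one]
      calc X = ((cN N)⁻¹ * cN N) * (ENNReal.ofReal r * ENNReal.ofReal r⁻¹) * X := by
            rw [q1, q2]; simp
        _ = _ := by ring
    rw [e7]
    calc (cN N)⁻¹ * ENNReal.ofReal r * (ENNReal.ofReal r⁻¹ * cN N * X)
        ≤ (cN N)⁻¹ * ENNReal.ofReal r * ((ENNReal.ofReal C * I (2 + N)) *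
          ((ENNReal.ofReal C * I 2) * Y)) := mul_le_mul_right hall _
      _ = _ := by rw [hD]; ring
  refine hfin.trans (mul_le_mul_left ?_ _)
  rw [ENNReal.ofReal_add (by positivity) (by norm_num), ENNReal.ofReal_toReal hDt]
  exact le_self_add

end Crest.Agent.R138.BCT191
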