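import Mathlib
import Crest.Agent.R138.BCT2_191

-- ▼ part R138/BCT3_191
section

/-!
# Trilinear restriction, file 3 (row 138, helper191): partial convolutions in three variables and
the one-step inequality (star)
-/

set_option autoImplicit false

open MeasureTheory Set
open scoped ENNReal FourierTransform SchwartzMap

namespace Crest.Agent.R138.BCT191

open Crest.Agent.R138.Defs (ee)

/-- three-space with the sup structure -/
abbrev P3 := Fin 3 → ℝ

/-- partial convolution in the variable `i` -/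
noncomputable def Cv (i : Fin 3) (k : ℝ → ℝ≥0∞) (u : P3 → ℝ≥0∞) (y : P3) : ℝ≥0∞ :=
  ∫⁻ z, k (y i - z) * u (Function.update y i z)

/-- positive linear operators commuting with integrals over a parameter -/
structure Good (T : (P3 → ℝ≥0∞) → P3 → ℝ≥0∞) : Prop where
  mono : ∀ u v : P3 → ℝ≥0∞, (∀ y, u y ≤ v y) → ∀ y, T u y ≤ T v y
  smul : ∀ c : ℝ≥0∞, c ≠ ⊤ → ∀ (u : P3 → ℝ≥0∞) (y : P3), T (fun y => c * u y) y = c * T u y
  meas : ∀ U : ℝ → P3 → ℝ≥0∞, Measurable (Function.uncurry U) →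
    Measurable (Function.uncurry fun θ => T (U θ))
  int : ∀ U : ℝ → P3 → ℝ≥0∞, Measurable (Function.uncurry U) →
    ∀ y, T (fun y => ∫⁻ θ, U θ y) y = ∫⁻ θ, T (U θ) y

lemma Good.meas1 {T : (P3 → ℝ≥0∞) → P3 → ℝ≥0∞} (h : Good T) {u : P3 → ℝ≥0∞} (hu : Measurable u) :
    Measurable (T u) := by
  have h1 := h.meas (fun _ => u) (hu.comp measurable_snd)
  exact h1.comp (by fun_prop : Measurable (fun y : P3 => ((0 : ℝ), y)))

lemma Good.comp {T T' : (P3 → ℝ≥0∞) → P3 → ℝ≥0∞} (h : Good T) (h' : Good T') :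
    Good (fun u => T (T' u)) where
  mono u v huv y := h.mono _ _ (fun y => h'.mono _ _ huv y) y
  smul c hc u y := by
    have : T' (fun y => c * u y) = fun y => c * T' u y := funext fun y => h'.smul c hc u y
    rw [this, h.smul c hc]
  meas U hU := h.meas _ (h'.meas U hU)
  int U hU y := by
    have : T' (fun y => ∫⁻ θ, U θ y) = fun y => ∫⁻ θ, T' (U θ) y := funext fun y => h'.int U hU y
    rw [this]
    exact h.int (fun θ => T' (U θ)) (h'.meas U hU) y

lemma Good.le_smul {T : (P3 → ℝ≥0∞) → P3 → ℝ≥0∞} (h : Good T) {u v : P3 → ℝ≥0∞} {c : ℝ≥0∞}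
    (hc : c ≠ ⊤) (huv : ∀ y, u y ≤ c * v y) (y : P3) : T u y ≤ c * T v y := by
  rw [← h.smul c hc]
  exact h.mono _ _ huv y

lemma good_Cv (i : Fin 3) {k : ℝ → ℝ≥0∞} (hk : Measurable k) : Good (Cv i k) where
  mono u v huv y := lintegral_mono fun _ => mul_le_mul_right (huv _) _
  smul c hc u y := by
    unfold Cv
    rw [← lintegral_const_mul' _ _ hc]
    refine lintegral_congr fun z => ?_
    ring
  meas U hU := by
    unfold Cv
    have h1 : Measurable (fun p : (ℝ × P3) × ℝ =>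
        k (p.1.2 i - p.2) * U p.1.1 (Function.update p.1.2 i p.2)) := by
      have h2 : Measurable (fun p : (ℝ × P3) × ℝ => Function.update p.1.2 i p.2) :=
        measurable_update'.comp (by fun_prop : Measurable (fun p : (ℝ × P3) × ℝ => (p.1.2, p.2)))
      have h3 : Measurable (fun p : (ℝ × P3) × ℝ => U p.1.1 (Function.update p.1.2 i p.2)) :=
        hU.comp ((measurable_fst.comp measurable_fst).prodMk h2)
      have h4 : Measurable (fun p : (ℝ × P3) × ℝ => k (p.1.2 i - p.2)) := by fun_prop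
      exact h4.mul h3
    exact h1.lintegral_prod_right'
  int U hU y := by
    unfold Cv
    have h1 : Measurable (fun p : ℝ × ℝ => k (y i - p.1) * U p.2 (Function.update y i p.1)) := by
      have h2 : Measurable (fun p : ℝ × ℝ => Function.update y i p.1) :=
        (measurable_update y).comp measurable_fst
      have h3 : Measurable (fun p : ℝ × ℝ => U p.2 (Function.update y i p.1)) :=
        hU.comp (measurable_snd.prodMk h2)
      have h4 : Measurable (fun p : ℝ × ℝ => k (y i - p.1)) := by fun_prop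
      exact h4.mul h3
    rw [← lintegral_lintegral_swap (f := fun z θ => k (y i - z) * U θ (Function.update y i z))
      h1.aemeasurable]
    refine lintegral_congr fun z => ?_
    rw [lintegral_const_mul]
    exact hU.comp (by fun_prop : Measurable (fun θ : ℝ => (θ, Function.update y i z)))


lemma Cv_const_left (i : Fin 3) {k l : ℝ → ℝ≥0∞} {c : ℝ≥0∞} (hc : c ≠ ⊤) (h : ∀ z, k z ≤ c * l z)
    (u : P3 → ℝ≥0∞) (y : P3) : Cv i k u y ≤ c * Cv i l u y := by
  unfold Cv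
  rw [← lintegral_const_mul' _ _ hc]
  refine lintegral_mono fun z => ?_
  rw [← mul_assoc]
  exact mul_le_mul_left (h _) _

/-- partial convolutions in different variables commute -/
lemma Cv_comm {i j : Fin 3} (hij : i ≠ j) {k l : ℝ → ℝ≥0∞} (hk : Measurable k) (hl : Measurable l)
    {u : P3 → ℝ≥0∞} (hu : Measurable u) : Cv i k (Cv j l u) = Cv j l (Cv i k u) := by
  funext y
  unfold Cv
  have h1 : Measurable (fun p : ℝ × ℝ => k (y i - p.1) * (l (y j - p.2) *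
      u (Function.update (Function.update y i p.1) j p.2))) := by
    have h2 : Measurable (fun p : ℝ × ℝ => Function.update (Function.update y i p.1) j p.2) := by
      have h3 : Measurable (fun p : ℝ × ℝ => Function.update y i p.1) :=
        (measurable_update y).comp measurable_fst
      exact measurable_update'.comp (h3.prodMk measurable_snd)
    have h4 : Measurable (fun p : ℝ × ℝ => k (y i - p.1)) := by fun_prop
    have h5 : Measurable (fun p : ℝ × ℝ => l (y j - p.2)) := by fun_prop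
    exact h4.mul (h5.mul (hu.comp h2))
  have e1 : ∀ z, k (y i - z) * ∫⁻ z', l (Function.update y i z j - z') *
      u (Function.update (Function.update y i z) j z') =
      ∫⁻ z', k (y i - z) * (l (y j - z') * u (Function.update (Function.update y i z) j z')) := by
    intro z
    rw [Function.update_of_ne hij.symm, lintegral_const_mul]
    have h2 : Measurable (fun z' : ℝ => Function.update (Function.update y i z) j z') :=
      measurable_update _
    exact (by fun_prop : Measurable fun z' : ℝ => l (y j - z')).mul (hu.comp h2)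
  have e2 : ∀ z', l (y j - z') * ∫⁻ z, k (Function.update y j z' i - z) *
      u (Function.update (Function.update y j z') i z) =
      ∫⁻ z, k (y i - z) * (l (y j - z') * u (Function.update (Function.update y i z) j z')) := by
    intro z'
    rw [Function.update_of_ne hij, ← lintegral_const_mul]
    · refine lintegral_congr fun z => ?_
      rw [Function.update_comm hij.symm]
      ring
    · have h2 : Measurable (fun z : ℝ => Function.update (Function.update y j z') i z) :=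
        measurable_update _
      exact (by fun_prop : Measurable fun z : ℝ => k (y i - z)).mul (hu.comp h2)
  simp_rw [e1, e2]
  exact lintegral_lintegral_swap h1.aemeasurable

/-- composition of partial convolutions in the same variable -/
lemma Cv_comp {i : Fin 3} {k l m : ℝ → ℝ≥0∞} (hk : Measurable k) (hl : Measurable l)
    (h : ∀ t, ∫⁻ z, k (t - z) * l z ≤ m t) {u : P3 → ℝ≥0∞} (hu : Measurable u) (y : P3) :
    Cv i k (Cv i l u) y ≤ Cv i m u y := by
  unfold Cv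
  have hu' : Measurable (fun z : ℝ => u (Function.update y i z)) := hu.comp (measurable_update y)
  have e1 : ∀ z, k (y i - z) * ∫⁻ z', l (Function.update y i z i - z') *
      u (Function.update (Function.update y i z) i z') =
      ∫⁻ z', k (y i - z) * (l (z - z') * u (Function.update y i z')) := by
    intro z
    simp only [Function.update_self, Function.update_idem]
    rw [lintegral_const_mul _ (by fun_prop)]
  simp_rw [e1]
  rw [lintegral_lintegral_swap (by fun_prop)]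
  refine lintegral_mono fun z' => ?_
  have e2 : ∫⁻ z, k (y i - z) * (l (z - z') * u (Function.update y i z')) =
      (∫⁻ z, k (y i - z) * l (z - z')) * u (Function.update y i z') := by
    rw [← lintegral_mul_const _ (by fun_prop)]
    refine lintegral_congr fun z => ?_
    ring
  rw [e2]
  refine mul_le_mul_left ?_ _
  rw [← lintegral_add_left_eq_self (fun z => k (y i - z) * l (z - z')) z']
  refine le_trans (le_of_eq ?_) (h (y i - z'))
  refine lintegral_congr fun z => ?_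
  congr 2
  · ring
  · ring

/-! ### three-dimensional superpositions -/

section

set_option linter.unusedSectionVars false

variable {Ω : Type*} [MeasurableSpace Ω] (μ : Measure Ω)

/-- three-dimensional superposition of exponentials -/
noncomputable def S3 (a : Ω → ℂ) (γ : Ω → P3) (y : P3) : ℂ := ∫ ω, a ω * ee (∑ i, y i * γ ω i) ∂μ

/-- its square -/
noncomputable def F3 (a : Ω → ℂ) (γ : Ω → P3) (y : P3) : ℝ≥0∞ := ‖S3 μ a γ y‖ₑ ^ 2

/-- the amplitude with frozen variables -/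
noncomputable def frz (i : Fin 3) (y : P3) (a : Ω → ℂ) (γ : Ω → P3) (ω : Ω) : ℂ :=
  a ω * ee (∑ l ∈ Finset.univ.erase i, y l * γ ω l)

lemma S3_update (i : Fin 3) (a : Ω → ℂ) (γ : Ω → P3) (y : P3) (t : ℝ) :
    S3 μ a γ (Function.update y i t) = S1 μ (frz i y a γ) (fun ω => γ ω i) t := by
  unfold S3 S1 frz
  refine integral_congr_ae (Filter.Eventually.of_forall fun ω => ?_)
  simp only
  rw [mul_assoc, ← ee_add]
  congr 2
  rw [← Finset.add_sum_erase _ _ (Finset.mem_univ i), Function.update_self, add_comm]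
  congr 1
  refine Finset.sum_congr rfl fun l hl => ?_
  rw [Function.update_of_ne (Finset.ne_of_mem_erase hl)]

lemma S3_eq (i : Fin 3) (a : Ω → ℂ) (γ : Ω → P3) (y : P3) :
    S3 μ a γ y = S1 μ (frz i y a γ) (fun ω => γ ω i) (y i) := by
  rw [← S3_update, Function.update_eq_self]

/-- localisation in the variable `i` -/
noncomputable def loc3 (i : Fin 3) (r θ : ℝ) (a : Ω → ℂ) (γ : Ω → P3) (ω : Ω) : ℂ :=
  a ω * q0 (r * (γ ω i - θ))

lemma loc_frz (i : Fin 3) (r θ : ℝ) (y : P3) (a : Ω → ℂ) (γ : Ω → P3) :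
    loc r θ (frz i y a γ) (fun ω => γ ω i) = frz i y (loc3 i r θ a γ) γ := by
  funext ω
  unfold loc frz loc3
  ring

lemma frz_ne_zero {i : Fin 3} {y : P3} {a : Ω → ℂ} {γ : Ω → P3} {ω : Ω} (h : frz i y a γ ω ≠ 0) :
    a ω ≠ 0 := by
  intro h0
  apply h
  unfold frz
  rw [h0, zero_mul]

lemma loc3_ne_zero {i : Fin 3} {r θ : ℝ} {a : Ω → ℂ} {γ : Ω → P3} {ω : Ω}
    (h : loc3 i r θ a γ ω ≠ 0) : a ω ≠ 0 ∧ |r * (γ ω i - θ)| < 2 := by
  constructor
  · intro h0
    apply h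
    unfold loc3
    rw [h0, zero_mul]
  · by_contra h0
    push Not at h0
    apply h
    unfold loc3
    rw [q0_zero h0, mul_zero]

lemma measurable_frz (i : Fin 3) (y : P3) {a : Ω → ℂ} {γ : Ω → P3} (ha : Measurable a)
    (hγ : Measurable γ) : Measurable (frz i y a γ) := by
  unfold frz
  fun_prop

variable {μ}

lemma integrable_frz (i : Fin 3) (y : P3) {a : Ω → ℂ} {γ : Ω → P3} (ha : Integrable a μ)
    (hγ : Measurable γ) : Integrable (frz i y a γ) μ := by
  refine ha.mono (ha.aestronglyMeasurable.mul (by fun_prop)) ?_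
  exact Filter.Eventually.of_forall fun ω => by simp [frz]

lemma measurable_loc3 (i : Fin 3) (r θ : ℝ) {a : Ω → ℂ} {γ : Ω → P3} (ha : Measurable a)
    (hγ : Measurable γ) : Measurable (loc3 i r θ a γ) := by
  unfold loc3
  fun_prop

lemma integrable_loc3 [SFinite μ] (i : Fin 3) (r θ : ℝ) {a : Ω → ℂ} {γ : Ω → P3} (ha : Integrable a μ)
    (hγ : Measurable γ) : Integrable (loc3 i r θ a γ) μ :=
  integrable_loc (α := fun ω => γ ω i) ha (by fun_prop) r θ

lemma measurable_S3_family [SFinite μ] {Θ : Type*} [MeasurableSpace Θ] {a : Θ → Ω → ℂ}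
    {γ : Ω → P3} (ha : Measurable (Function.uncurry a)) (hγ : Measurable γ) :
    Measurable (fun p : Θ × P3 => S3 μ (a p.1) γ p.2) := by
  unfold S3
  have h : StronglyMeasurable (fun q : (Θ × P3) × Ω => a q.1.1 q.2 *
      ee (∑ i, q.1.2 i * γ q.2 i)) := by
    apply Measurable.stronglyMeasurable
    have h1 : Measurable (fun q : (Θ × P3) × Ω => a q.1.1 q.2) :=
      ha.comp (by fun_prop : Measurable (fun q : (Θ × P3) × Ω => (q.1.1, q.2)))
    fun_prop
  exact h.integral_prod_right'.measurable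

lemma measurable_F3_family [SFinite μ] {Θ : Type*} [MeasurableSpace Θ] {a : Θ → Ω → ℂ}
    {γ : Ω → P3} (ha : Measurable (Function.uncurry a)) (hγ : Measurable γ) :
    Measurable (Function.uncurry fun θ => F3 μ (a θ) γ) := by
  have h := measurable_S3_family (μ := μ) ha hγ
  have h2 : Measurable (fun p : Θ × P3 => ‖S3 μ (a p.1) γ p.2‖ₑ ^ 2) := h.enorm.pow_const 2
  exact h2

lemma measurable_F3 [SFinite μ] {a : Ω → ℂ} {γ : Ω → P3} (ha : Measurable a) (hγ : Measurable γ) :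
    Measurable (F3 μ a γ) := by
  have h : StronglyMeasurable (fun q : P3 × Ω => a q.2 * ee (∑ i, q.1 i * γ q.2 i)) := by
    apply Measurable.stronglyMeasurable
    fun_prop
  have h2 : Measurable (fun y : P3 => S3 μ a γ y) := h.integral_prod_right'.measurable
  exact h2.enorm.pow_const 2

lemma measurable_loc3_family (i : Fin 3) (r : ℝ) {a : Ω → ℂ} {γ : Ω → P3} (ha : Measurable a)
    (hγ : Measurable γ) : Measurable (Function.uncurry fun θ => loc3 i r θ a γ) := by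
  unfold loc3
  fun_prop

end

/-- locally constant property, three variables -/
theorem lc3 (M : ℕ) (hM : 2 ≤ M) : ∃ C : ℝ, 0 < C ∧ ∀ {Ω : Type*} [MeasurableSpace Ω]
    (μ : Measure Ω) [SFinite μ] (a : Ω → ℂ) (γ : Ω → P3), Integrable a μ → Measurable γ →
    ∀ (i : Fin 3) (r c : ℝ), 0 < r → (∀ ω, a ω ≠ 0 → r * |γ ω i - c| ≤ 1) → ∀ y,
      F3 μ a γ y ≤ ENNReal.ofReal C * Cv i (w M r) (F3 μ a γ) y := by
  obtain ⟨C, hC, h⟩ := lc1 M hM
  refine ⟨C, hC, ?_⟩
  intro Ω _ μ _ a γ ha hγ i r c hr hs y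
  have h1 := h μ (frz i y a γ) (fun ω => γ ω i) (integrable_frz i y ha hγ) (by fun_prop) r c hr
    (fun ω hω => hs ω (frz_ne_zero hω)) (y i)
  unfold Cv F3
  simp_rw [S3_update]
  rw [S3_eq μ i]
  exact h1

/-- Bessel, three variables -/
theorem be3 (M : ℕ) : ∃ C : ℝ, 0 < C ∧ ∀ {Ω : Type*} [MeasurableSpace Ω]
    (μ : Measure Ω) [SFinite μ] (a : Ω → ℂ) (γ : Ω → P3), Integrable a μ → Measurable γ →
    ∀ (i : Fin 3) (r : ℝ), 0 < r → ∀ y,
      ENNReal.ofReal r * ∫⁻ θ, F3 μ (loc3 i r θ a γ) γ y ≤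
        ENNReal.ofReal C * Cv i (w M r) (F3 μ a γ) y := by
  obtain ⟨C, hC, h⟩ := be1 M
  refine ⟨C, hC, ?_⟩
  intro Ω _ μ _ a γ ha hγ i r hr y
  have h1 := h μ (frz i y a γ) (fun ω => γ ω i) (integrable_frz i y ha hγ) (by fun_prop) r hr (y i)
  unfold Cv F3
  simp_rw [S3_update, S3_eq μ i, ← loc_frz]
  exact h1

/-- local orthogonality, three variables -/
theorem lo3 (N : ℕ) : ∃ C : ℝ, 0 < C ∧ ∀ {Ω : Type*} [MeasurableSpace Ω]
    (μ : Measure Ω) [SFinite μ] (a : Ω → ℂ) (γ : Ω → P3), Measurable a → Integrable a μ →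
    Measurable γ → ∀ (i : Fin 3) (r : ℝ), 0 < r → ∀ y,
      Cv i (w N r) (F3 μ a γ) y ≤
        ENNReal.ofReal C * (ENNReal.ofReal r * ∫⁻ θ, Cv i (w N r) (F3 μ (loc3 i r θ a γ) γ) y) := by
  obtain ⟨C, hC, h⟩ := lo1 N
  refine ⟨C, hC, ?_⟩
  intro Ω _ μ _ a γ ham ha hγ i r hr y
  have h1 := h μ (frz i y a γ) (fun ω => γ ω i) (measurable_frz i y ham hγ)
    (integrable_frz i y ha hγ) (by fun_prop) r hr (y i)
  unfold Cv F3
  simp_rw [S3_update, ← loc_frz]
  exact h1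

/-- flatness in the direction `j` -/
def Lip {Ω : Type*} (K : ℝ) (j : Fin 3) (a : Ω → ℂ) (γ : Ω → P3) : Prop :=
  ∀ ω ω', a ω ≠ 0 → a ω' ≠ 0 → ∀ δ : ℝ, (∀ i, i ≠ j → |γ ω i - γ ω' i| ≤ δ) →
    K * |γ ω j - γ ω' j| ≤ δ

lemma fin3_cases {i1 i2 j : Fin 3} (h12 : i1 ≠ i2) (h1 : i1 ≠ j) (h2 : i2 ≠ j) (i : Fin 3)
    (hi : i ≠ j) : i = i1 ∨ i = i2 := by
  omega

lemma conv_same' {N : ℕ} {r : ℝ} (hr : 0 < r) (t : ℝ) :
    ∫⁻ z, w N r (t - z) * w (2 + N) r z ≤ I 2 * w N r t := by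
  have h := conv_same (N := N) hr (κ := w (2 + N) r) (C := 1) (fun z => by simp) t
  rw [one_mul] at h
  refine le_trans (le_of_eq ?_) h
  refine lintegral_congr fun z => ?_
  ring

/-- the last algebraic step of `star` -/
lemma star_comm {N : ℕ} {r ρ : ℝ} (hr : 0 < r) {i1 i2 j : Fin 3} (h12 : i1 ≠ i2) (h1 : i1 ≠ j)
    (h2 : i2 ≠ j) {F : P3 → ℝ≥0∞} (hF : Measurable F) (y : P3) :
    Cv i2 (w N r) (Cv i1 (w N r) (Cv j (w N ρ) (Cv i1 (w (2 + N) r) (Cv i2 (w (2 + N) r) F)))) y ≤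
      I 2 * I 2 * Cv i2 (w N r) (Cv i1 (w N r) (Cv j (w N ρ) F)) y := by
  have hI : I 2 ≠ ⊤ := I_ne_top le_rfl
  have g1 := good_Cv i1 (measurable_w N r)
  have g2 := good_Cv i2 (measurable_w N r)
  have g1' := good_Cv i1 (measurable_w (2 + N) r)
  have g2' := good_Cv i2 (measurable_w (2 + N) r)
  have gj := good_Cv j (measurable_w N ρ)
  rw [← Cv_comm h1 (measurable_w _ _) (measurable_w _ _) (g2'.meas1 hF),
    ← Cv_comm h2 (measurable_w _ _) (measurable_w _ _) hF]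
  have hG : Measurable (Cv j (w N ρ) F) := gj.meas1 hF
  set G := Cv j (w N ρ) F with hGdef
  have e1 : ∀ u : P3 → ℝ≥0∞, Measurable u → ∀ y,
      Cv i1 (w N r) (Cv i1 (w (2 + N) r) u) y ≤ I 2 * Cv i1 (w N r) u y := by
    intro u hu y
    refine (Cv_comp (m := fun t => I 2 * w N r t) (measurable_w _ _) (measurable_w _ _)
      (conv_same' hr) hu y).trans ?_
    exact Cv_const_left i1 hI (fun z => le_rfl) u y
  have e2 : ∀ u : P3 → ℝ≥0∞, Measurable u → ∀ y,
      Cv i2 (w N r) (Cv i2 (w (2 + N) r) u) y ≤ I 2 * Cv i2 (w N r) u y := by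
    intro u hu y
    refine (Cv_comp (m := fun t => I 2 * w N r t) (measurable_w _ _) (measurable_w _ _)
      (conv_same' hr) hu y).trans ?_
    exact Cv_const_left i2 hI (fun z => le_rfl) u y
  calc Cv i2 (w N r) (Cv i1 (w N r) (Cv i1 (w (2 + N) r) (Cv i2 (w (2 + N) r) G))) y
      ≤ I 2 * Cv i2 (w N r) (Cv i1 (w N r) (Cv i2 (w (2 + N) r) G)) y :=
        g2.le_smul hI (e1 _ (g2'.meas1 hG)) y
    _ = I 2 * Cv i2 (w N r) (Cv i2 (w (2 + N) r) (Cv i1 (w N r) G)) y := by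
        rw [Cv_comm h12 (measurable_w _ _) (measurable_w _ _) hG]
    _ ≤ I 2 * (I 2 * Cv i2 (w N r) (Cv i1 (w N r) G) y) :=
        mul_le_mul_right (e2 _ (g1.meas1 hG) y) _
    _ = _ := by rw [mul_assoc]

/-- **the one-step inequality** -/
theorem star (N : ℕ) (hN : 2 ≤ N) : ∃ C : ℝ≥0∞, C ≠ ⊤ ∧ ∀ {Ω : Type*} [MeasurableSpace Ω]
    (μ : Measure Ω) [SFinite μ] (a : Ω → ℂ) (γ : Ω → P3), Measurable a → Integrable a μ →
    Measurable γ → ∀ (i1 i2 j : Fin 3), i1 ≠ i2 → i1 ≠ j → i2 ≠ j → ∀ r K : ℝ, 0 < r → 0 < K →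
    Lip K j a γ → ∀ y,
      Cv i2 (w N r) (Cv i1 (w N r) (F3 μ a γ)) y ≤
        C * Cv i2 (w N r) (Cv i1 (w N r) (Cv j (w N (K * r)) (F3 μ a γ))) y := by
  obtain ⟨c1, hc1, hlo⟩ := lo3 N
  obtain ⟨c2, hc2, hlc⟩ := lc3 N hN
  obtain ⟨c3, hc3, hbe⟩ := be3 (2 + N)
  have hI : I 2 ≠ ⊤ := I_ne_top le_rfl
  set C1 := ENNReal.ofReal c1 with hC1
  set C2 := ENNReal.ofReal c2 with hC2
  set C3 := ENNReal.ofReal c3 with hC3
  have hC1t : C1 ≠ ⊤ := ENNReal.ofReal_ne_top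
  have hC2t : C2 ≠ ⊤ := ENNReal.ofReal_ne_top
  have hC3t : C3 ≠ ⊤ := ENNReal.ofReal_ne_top
  refine ⟨C1 * C1 * (C2 * 4) * C3 * C3 * (I 2 * I 2), by finiteness, ?_⟩
  intro Ω _ μ _ a γ ham ha hγ i1 i2 j h12 h1 h2 r K hr hK hL y
  have hρ : 0 < K * r := by positivity
  set ρ := K * r with hρd
  set R := ENNReal.ofReal r with hR
  have hRt : R ≠ ⊤ := ENNReal.ofReal_ne_top
  have g1 := good_Cv i1 (measurable_w N r)
  have g2 := good_Cv i2 (measurable_w N r)
  have g1' := good_Cv i1 (measurable_w (2 + N) r)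
  have gj := good_Cv j (measurable_w N ρ)
  have hA := g2.comp g1
  have hT := hA.comp gj
  have hT' := hT.comp g1'
  have mF : Measurable (F3 μ a γ) := measurable_F3 ham hγ
  have m2 : Measurable (Function.uncurry fun θ => loc3 i2 r θ a γ) :=
    measurable_loc3_family i2 r ham hγ
  have mF2 : Measurable (Function.uncurry fun θ => F3 μ (loc3 i2 r θ a γ) γ) :=
    measurable_F3_family m2 hγ
  have m2' : ∀ θ, Measurable (loc3 i2 r θ a γ) := fun θ => measurable_loc3 i2 r θ ham hγ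
  have n2' : ∀ θ, Integrable (loc3 i2 r θ a γ) μ := fun θ => integrable_loc3 i2 r θ ha hγ
  have mF2' : ∀ θ, Measurable (F3 μ (loc3 i2 r θ a γ) γ) := fun θ => measurable_F3 (m2' θ) hγ
  have mF12 : ∀ θ2, Measurable (Function.uncurry fun θ =>
      F3 μ (loc3 i1 r θ (loc3 i2 r θ2 a γ) γ) γ) := fun θ2 =>
    measurable_F3_family (measurable_loc3_family i1 r (m2' θ2) hγ) hγ
  -- step 1
  have s1 : ∀ y, Cv i2 (w N r) (Cv i1 (w N r) (F3 μ a γ)) y ≤
      C1 * R * ∫⁻ θ2, Cv i2 (w N r) (Cv i1 (w N r) (F3 μ (loc3 i2 r θ2 a γ) γ)) y := by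
    intro y
    rw [Cv_comm h12.symm (measurable_w _ _) (measurable_w _ _) mF]
    have e : ∀ θ2, Cv i2 (w N r) (Cv i1 (w N r) (F3 μ (loc3 i2 r θ2 a γ) γ)) =
        Cv i1 (w N r) (Cv i2 (w N r) (F3 μ (loc3 i2 r θ2 a γ) γ)) := fun θ2 =>
      Cv_comm h12.symm (measurable_w _ _) (measurable_w _ _) (mF2' θ2)
    simp_rw [e]
    rw [← g1.int (fun θ2 => Cv i2 (w N r) (F3 μ (loc3 i2 r θ2 a γ) γ)) (g2.meas _ mF2)]
    refine g1.le_smul (by finiteness) (fun y => ?_) y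
    rw [mul_assoc]
    exact hlo μ a γ ham ha hγ i2 r hr y
  -- step 2
  have s2 : ∀ θ2 y, Cv i2 (w N r) (Cv i1 (w N r) (F3 μ (loc3 i2 r θ2 a γ) γ)) y ≤
      C1 * R * ∫⁻ θ1, Cv i2 (w N r) (Cv i1 (w N r)
        (F3 μ (loc3 i1 r θ1 (loc3 i2 r θ2 a γ) γ) γ)) y := by
    intro θ2 y
    rw [← g2.int (fun θ1 => Cv i1 (w N r) (F3 μ (loc3 i1 r θ1 (loc3 i2 r θ2 a γ) γ) γ))
      (g1.meas _ (mF12 θ2))]
    refine g2.le_smul (by finiteness) (fun y => ?_) y
    rw [mul_assoc]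
    exact hlo μ _ γ (m2' θ2) (n2' θ2) hγ i1 r hr y
  -- step 3
  have s3 : ∀ θ1 θ2 y, Cv i2 (w N r) (Cv i1 (w N r)
        (F3 μ (loc3 i1 r θ1 (loc3 i2 r θ2 a γ) γ) γ)) y ≤
      C2 * 4 * Cv i2 (w N r) (Cv i1 (w N r) (Cv j (w N ρ)
        (F3 μ (loc3 i1 r θ1 (loc3 i2 r θ2 a γ) γ) γ))) y := by
    intro θ1 θ2 y
    refine hA.le_smul (by finiteness) (fun y => ?_) y
    set a' := loc3 i1 r θ1 (loc3 i2 r θ2 a γ) γ with ha'
    have na' : Integrable a' μ := integrable_loc3 i1 r θ1 (n2' θ2) hγ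
    by_cases hz : ∃ ω0, a' ω0 ≠ 0
    · obtain ⟨ω0, hω0⟩ := hz
      have hs : ∀ ω, a' ω ≠ 0 → ρ / 4 * |γ ω j - γ ω0 j| ≤ 1 := by
        intro ω hω
        obtain ⟨p1, p2⟩ := loc3_ne_zero hω
        obtain ⟨p3, p4⟩ := loc3_ne_zero p1
        obtain ⟨q1, q2⟩ := loc3_ne_zero hω0
        obtain ⟨q3, q4⟩ := loc3_ne_zero q1
        have key : K * |γ ω j - γ ω0 j| ≤ 4 / r := by
          refine hL ω ω0 p3 q3 (4 / r) fun i hi => ?_
          rw [le_div_iff₀ hr]
          rcases fin3_cases h12 h1 h2 i hi with rfl | rfl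
          · have e : (γ ω i - γ ω0 i) * r = r * (γ ω i - θ1) - r * (γ ω0 i - θ1) := by ring
            calc |γ ω i - γ ω0 i| * r = |(γ ω i - γ ω0 i) * r| := by
                  rw [abs_mul, abs_of_pos hr]
              _ ≤ |r * (γ ω i - θ1)| + |r * (γ ω0 i - θ1)| := by rw [e]; exact abs_sub _ _
              _ ≤ 4 := by linarith
          · have e : (γ ω i - γ ω0 i) * r = r * (γ ω i - θ2) - r * (γ ω0 i - θ2) := by ring
            calc |γ ω i - γ ω0 i| * r = |(γ ω i - γ ω0 i) * r| := by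
                  rw [abs_mul, abs_of_pos hr]
              _ ≤ |r * (γ ω i - θ2)| + |r * (γ ω0 i - θ2)| := by rw [e]; exact abs_sub _ _
              _ ≤ 4 := by linarith
        rw [le_div_iff₀ hr] at key
        have : ρ / 4 * |γ ω j - γ ω0 j| = (K * |γ ω j - γ ω0 j| * r) / 4 := by
          rw [hρd]; ring
        rw [this]
        linarith
      have h3 := hlc μ a' γ na' hγ j (ρ / 4) (γ ω0 j) (by positivity) hs y
      refine h3.trans ?_
      rw [mul_assoc]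
      refine mul_le_mul_right ?_ _
      refine Cv_const_left j (by finiteness) (fun z => ?_) _ y
      have h4 := w_comp (N := N) (r := ρ / 4) (ρ := ρ) (k := 4) (by positivity) (by linarith)
        (by linarith) z
      refine h4.trans (le_of_eq ?_)
      congr 1
      norm_num
    · push Not at hz
      have : F3 μ a' γ y = 0 := by
        unfold F3 S3
        simp [hz]
      rw [this]
      exact bot_le
  -- step 4
  have s4 : ∀ θ2 y, R * ∫⁻ θ1, Cv i2 (w N r) (Cv i1 (w N r) (Cv j (w N ρ)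
        (F3 μ (loc3 i1 r θ1 (loc3 i2 r θ2 a γ) γ) γ))) y ≤
      C3 * Cv i2 (w N r) (Cv i1 (w N r) (Cv j (w N ρ)
        (Cv i1 (w (2 + N) r) (F3 μ (loc3 i2 r θ2 a γ) γ)))) y := by
    intro θ2 y
    rw [← hT.int _ (mF12 θ2), ← hT.smul R hRt]
    refine hT.le_smul hC3t (fun y => ?_) y
    exact hbe μ _ γ (n2' θ2) hγ i1 r hr y
  -- step 5
  have s5 : ∀ y, R * ∫⁻ θ2, Cv i2 (w N r) (Cv i1 (w N r) (Cv j (w N ρ)
        (Cv i1 (w (2 + N) r) (F3 μ (loc3 i2 r θ2 a γ) γ)))) y ≤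
      C3 * Cv i2 (w N r) (Cv i1 (w N r) (Cv j (w N ρ)
        (Cv i1 (w (2 + N) r) (Cv i2 (w (2 + N) r) (F3 μ a γ))))) y := by
    intro y
    rw [← hT'.int _ mF2, ← hT'.smul R hRt]
    refine hT'.le_smul hC3t (fun y => ?_) y
    exact hbe μ _ γ ha hγ i2 r hr y
  calc Cv i2 (w N r) (Cv i1 (w N r) (F3 μ a γ)) y
      ≤ C1 * R * ∫⁻ θ2, Cv i2 (w N r) (Cv i1 (w N r) (F3 μ (loc3 i2 r θ2 a γ) γ)) y := s1 y
    _ ≤ C1 * R * ∫⁻ θ2, C1 * (C2 * 4) * C3 * Cv i2 (w N r) (Cv i1 (w N r) (Cv j (w N ρ)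
        (Cv i1 (w (2 + N) r) (F3 μ (loc3 i2 r θ2 a γ) γ)))) y := by
        refine mul_le_mul_right (lintegral_mono fun θ2 => ?_) _
        calc Cv i2 (w N r) (Cv i1 (w N r) (F3 μ (loc3 i2 r θ2 a γ) γ)) y
            ≤ C1 * R * ∫⁻ θ1, Cv i2 (w N r) (Cv i1 (w N r)
              (F3 μ (loc3 i1 r θ1 (loc3 i2 r θ2 a γ) γ) γ)) y := s2 θ2 y
          _ ≤ C1 * R * ∫⁻ θ1, C2 * 4 * Cv i2 (w N r) (Cv i1 (w N r) (Cv j (w N ρ)
              (F3 μ (loc3 i1 r θ1 (loc3 i2 r θ2 a γ) γ) γ))) y :=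
            mul_le_mul_right (lintegral_mono fun θ1 => s3 θ1 θ2 y) _
          _ = C1 * (C2 * 4) * (R * ∫⁻ θ1, Cv i2 (w N r) (Cv i1 (w N r) (Cv j (w N ρ)
              (F3 μ (loc3 i1 r θ1 (loc3 i2 r θ2 a γ) γ) γ))) y) := by
            rw [lintegral_const_mul' _ _ (by finiteness)]
            ring
          _ ≤ C1 * (C2 * 4) * (C3 * Cv i2 (w N r) (Cv i1 (w N r) (Cv j (w N ρ)
              (Cv i1 (w (2 + N) r) (F3 μ (loc3 i2 r θ2 a γ) γ)))) y) :=
            mul_le_mul_right (s4 θ2 y) _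
          _ = _ := by ring
    _ = C1 * (C1 * (C2 * 4) * C3) * (R * ∫⁻ θ2, Cv i2 (w N r) (Cv i1 (w N r) (Cv j (w N ρ)
        (Cv i1 (w (2 + N) r) (F3 μ (loc3 i2 r θ2 a γ) γ)))) y) := by
        rw [lintegral_const_mul' _ _ (by finiteness)]
        ring
    _ ≤ C1 * (C1 * (C2 * 4) * C3) * (C3 * (I 2 * I 2 *
        Cv i2 (w N r) (Cv i1 (w N r) (Cv j (w N ρ) (F3 μ a γ))) y)) := by
        refine mul_le_mul_right ((s5 y).trans (mul_le_mul_right ?_ _)) _
        exact star_comm hr h12 h1 h2 mF y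
    _ = _ := by ring

end Crest.Agent.R138.BCT191
end

-- ▼ part R138/BCT4_191
section

/-!
# Trilinear restriction, file 4 (row 138, helper191): the chain of scales
-/

set_option autoImplicit false

open MeasureTheory Set
open scoped ENNReal FourierTransform SchwartzMap

namespace Crest.Agent.R138.BCT191

open Crest.Agent.R138.Defs (ee)
open Crest.Agent.R138.Bct383 (sq_mul sq_mono sq_mul_self measurable_sq)

local notation "rt" => Crest.Agent.R138.Bct383.sq

/-- composition of partial convolutions, exact form -/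
lemma Cv_comp_eq {i : Fin 3} {k l : ℝ → ℝ≥0∞} (hk : Measurable k) (hl : Measurable l)
    {u : P3 → ℝ≥0∞} (hu : Measurable u) (y : P3) :
    Cv i k (Cv i l u) y = Cv i (fun t => ∫⁻ z, k (t - z) * l z) u y := by
  unfold Cv
  have hu' : Measurable (fun z : ℝ => u (Function.update y i z)) := hu.comp (measurable_update y)
  have e1 : ∀ z, k (y i - z) * ∫⁻ z', l (Function.update y i z i - z') *
      u (Function.update (Function.update y i z) i z') =
      ∫⁻ z', k (y i - z) * (l (z - z') * u (Function.update y i z')) := by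
    intro z
    simp only [Function.update_self, Function.update_idem]
    rw [lintegral_const_mul _ (by fun_prop)]
  simp_rw [e1]
  rw [lintegral_lintegral_swap (by fun_prop)]
  refine lintegral_congr fun z' => ?_
  have e2 : ∫⁻ z, k (y i - z) * (l (z - z') * u (Function.update y i z')) =
      (∫⁻ z, k (y i - z) * l (z - z')) * u (Function.update y i z') := by
    rw [← lintegral_mul_const _ (by fun_prop)]
    refine lintegral_congr fun z => ?_
    ring
  rw [e2]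
  congr 1
  rw [← lintegral_add_left_eq_self (fun z => k (y i - z) * l (z - z')) z']
  refine lintegral_congr fun z => ?_
  congr 2
  · ring
  · ring

/-- full convolution with a product kernel -/
noncomputable def CW (k : Fin 3 → ℝ → ℝ≥0∞) (u : P3 → ℝ≥0∞) : P3 → ℝ≥0∞ :=
  Cv 0 (k 0) (Cv 1 (k 1) (Cv 2 (k 2) u))

lemma good_CW {k : Fin 3 → ℝ → ℝ≥0∞} (hk : ∀ i, Measurable (k i)) : Good (CW k) :=
  (good_Cv 0 (hk 0)).comp ((good_Cv 1 (hk 1)).comp (good_Cv 2 (hk 2)))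

/-- the order of the partial convolutions is irrelevant -/
lemma CW_perm {k : Fin 3 → ℝ → ℝ≥0∞} (hk : ∀ i, Measurable (k i)) {i2 i1 j : Fin 3}
    (h12 : i1 ≠ i2) (h1 : i1 ≠ j) (h2 : i2 ≠ j) {u : P3 → ℝ≥0∞} (hu : Measurable u) :
    CW k u = Cv i2 (k i2) (Cv i1 (k i1) (Cv j (k j) u)) := by
  have m : ∀ i, Measurable (Cv i (k i) u) := fun i => (good_Cv i (hk i)).meas1 hu
  unfold CW
  fin_cases i2 <;> fin_cases i1 <;> fin_cases j <;> simp at h12 h1 h2
  · rfl
  · show Cv 0 (k 0) (Cv 1 (k 1) (Cv 2 (k 2) u)) = Cv 0 (k 0) (Cv 2 (k 2) (Cv 1 (k 1) u))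
    rw [Cv_comm (by decide) (hk 1) (hk 2) hu]
  · show Cv 0 (k 0) (Cv 1 (k 1) (Cv 2 (k 2) u)) = Cv 1 (k 1) (Cv 0 (k 0) (Cv 2 (k 2) u))
    rw [Cv_comm (by decide) (hk 0) (hk 1) (m 2)]
  · show Cv 0 (k 0) (Cv 1 (k 1) (Cv 2 (k 2) u)) = Cv 1 (k 1) (Cv 2 (k 2) (Cv 0 (k 0) u))
    rw [Cv_comm (by decide) (hk 0) (hk 1) (m 2), Cv_comm (by decide) (hk 0) (hk 2) hu]
  · show Cv 0 (k 0) (Cv 1 (k 1) (Cv 2 (k 2) u)) = Cv 2 (k 2) (Cv 0 (k 0) (Cv 1 (k 1) u))
    rw [Cv_comm (by decide) (hk 1) (hk 2) hu, Cv_comm (by decide) (hk 0) (hk 2) (m 1)]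
  · show Cv 0 (k 0) (Cv 1 (k 1) (Cv 2 (k 2) u)) = Cv 2 (k 2) (Cv 1 (k 1) (Cv 0 (k 0) u))
    rw [Cv_comm (by decide) (hk 1) (hk 2) hu, Cv_comm (by decide) (hk 0) (hk 2) (m 1),
      Cv_comm (by decide) (hk 0) (hk 1) hu]

/-- the other two indices -/
lemma exists_other (j : Fin 3) : ∃ i1 i2 : Fin 3, i1 ≠ i2 ∧ i1 ≠ j ∧ i2 ≠ j := by
  fin_cases j
  · exact ⟨1, 2, by decide, by decide, by decide⟩
  · exact ⟨0, 2, by decide, by decide, by decide⟩
  · exact ⟨0, 1, by decide, by decide, by decide⟩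

/-- the kernels of `G j` -/
noncomputable def kG (N : ℕ) (r ρ : ℝ) (j : Fin 3) : Fin 3 → ℝ → ℝ≥0∞ :=
  Function.update (fun _ => w N r) j (w N ρ)

lemma measurable_kG (N : ℕ) (r ρ : ℝ) (j i : Fin 3) : Measurable (kG N r ρ j i) := by
  unfold kG
  by_cases h : i = j
  · subst h; rw [Function.update_self]; fun_prop
  · rw [Function.update_of_ne h]; fun_prop

lemma kG_self (N : ℕ) (r ρ : ℝ) (j : Fin 3) : kG N r ρ j j = w N ρ := by
  unfold kG; rw [Function.update_self]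

lemma kG_of_ne (N : ℕ) (r ρ : ℝ) {j i : Fin 3} (h : i ≠ j) : kG N r ρ j i = w N r := by
  unfold kG; rw [Function.update_of_ne h]

/-- the average at scale `r` -/
noncomputable def Av (N : ℕ) (r : ℝ) (u : P3 → ℝ≥0∞) : P3 → ℝ≥0∞ := CW (fun _ => w N r) u

lemma good_Av (N : ℕ) (r : ℝ) : Good (Av N r) :=
  good_CW (k := fun _ => w N r) fun _ => measurable_w N r

/-- step one: thicken the weight in the direction `j` -/
theorem thicken (N : ℕ) (hN : 2 ≤ N) : ∃ C : ℝ≥0∞, C ≠ ⊤ ∧ ∀ {Ω : Type*} [MeasurableSpace Ω]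
    (μ : Measure Ω) [SFinite μ] (a : Ω → ℂ) (γ : Ω → P3), Measurable a → Integrable a μ →
    Measurable γ → ∀ (j : Fin 3) (r K : ℝ), 0 < r → 1 ≤ K → Lip K j a γ → ∀ y,
      Av N r (F3 μ a γ) y ≤ C * CW (kG N r (K * r) j) (F3 μ a γ) y := by
  obtain ⟨C, hC, h⟩ := star N hN
  refine ⟨C * Cc N N, ENNReal.mul_ne_top hC (Cc_ne_top hN hN), ?_⟩
  intro Ω _ μ _ a γ ham ha hγ j r K hr hK hL y
  obtain ⟨i1, i2, h12, h1, h2⟩ := exists_other j
  have hs := h μ a γ ham ha hγ i1 i2 j h12 h1 h2 r K hr (by linarith) hL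
  have mF : Measurable (F3 μ a γ) := measurable_F3 ham hγ
  set F := F3 μ a γ with hF
  have hρ : r ≤ K * r := by nlinarith
  set ρ := K * r with hρd
  have g1 := good_Cv i1 (measurable_w N r)
  have g2 := good_Cv i2 (measurable_w N r)
  have gj := good_Cv j (measurable_w N r)
  have gj' := good_Cv j (measurable_w N ρ)
  have e1 : Av N r F = Cv j (w N r) (Cv i2 (w N r) (Cv i1 (w N r) F)) :=
    CW_perm (k := fun _ => w N r) (fun _ => by fun_prop) (i2 := j) (i1 := i2) (j := i1)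
      h2 h12.symm h1.symm mF
  have e2 : CW (kG N r ρ j) F = Cv i2 (w N r) (Cv i1 (w N r) (Cv j (w N ρ) F)) := by
    rw [CW_perm (measurable_kG N r ρ j) h12 h1 h2 mF, kG_self, kG_of_ne _ _ _ h1,
      kG_of_ne _ _ _ h2]
  have e3 : Cv j (w N r) (Cv i2 (w N r) (Cv i1 (w N r) (Cv j (w N ρ) F))) =
      Cv i2 (w N r) (Cv i1 (w N r) (Cv j (w N r) (Cv j (w N ρ) F))) := by
    rw [Cv_comm h2.symm (measurable_w _ _) (measurable_w _ _) (g1.meas1 (gj'.meas1 mF)),
      Cv_comm h1.symm (measurable_w _ _) (measurable_w _ _) (gj'.meas1 mF)]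
  rw [e1, e2]
  calc Cv j (w N r) (Cv i2 (w N r) (Cv i1 (w N r) F)) y
      ≤ C * Cv j (w N r) (Cv i2 (w N r) (Cv i1 (w N r) (Cv j (w N ρ) F))) y :=
        gj.le_smul hC hs y
    _ = C * Cv i2 (w N r) (Cv i1 (w N r) (Cv j (w N r) (Cv j (w N ρ) F))) y := by rw [e3]
    _ ≤ C * (Cc N N * Cv i2 (w N r) (Cv i1 (w N r) (Cv j (w N ρ) F)) y) := by
        refine mul_le_mul_right ?_ _
        refine (g2.comp g1).le_smul (Cc_ne_top hN hN) (fun y => ?_) y
        refine (Cv_comp (m := fun t => Cc N N * w N ρ t) (measurable_w _ _) (measurable_w _ _)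
          (conv_le hN le_rfl hr hρ) mF y).trans ?_
        exact Cv_const_left j (Cc_ne_top hN hN) (fun z => le_rfl) F y
    _ = _ := by rw [mul_assoc]

/-- shift of the outer variable -/
lemma Cv_shift {N : ℕ} {ρ : ℝ} (hρ : 0 < ρ) (j : Fin 3) (u : P3 → ℝ≥0∞) (y : P3) (s : ℝ) :
    Cv j (w N ρ) u y ≤ ENNReal.ofReal (br ρ (s - y j) ^ N) *
      Cv j (w N ρ) u (Function.update y j s) := by
  unfold Cv
  rw [← lintegral_const_mul' _ _ ENNReal.ofReal_ne_top]
  refine lintegral_mono fun z => ?_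
  simp only [Function.update_self, Function.update_idem]
  rw [← mul_assoc]
  refine mul_le_mul_left ?_ _
  have h := w_shift (N := N) hρ (s - z) (y j - s)
  have e1 : s - z + (y j - s) = y j - z := by ring
  have e2 : br ρ (y j - s) = br ρ (s - y j) := by rw [← br_neg]; congr 1; ring
  rw [e1, e2] at h
  exact h

lemma conv_le' {N M : ℕ} (hN : 2 ≤ N) (hM : N ≤ M) {r ρ : ℝ} (hr : 0 < r) (hρ : r ≤ ρ) (t : ℝ) :
    ∫⁻ z, w M ρ (t - z) * w N r z ≤ Cc N M * w N ρ t := by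
  refine le_trans (le_of_eq ?_) (conv_le hN hM hr hρ t)
  rw [← lintegral_sub_left (f := fun z => w M ρ (t - z) * w N r z) t]
  refine lintegral_congr fun z => ?_
  rw [sub_sub_cancel, mul_comm]

/-- the inner averages of the Loomis-Whitney step -/
lemma inner_le {N : ℕ} (hN : 2 ≤ N) {r ρ : ℝ} (hr : 0 < r) (hρ : r ≤ ρ) {i1 i2 j : Fin 3}
    (h12 : i1 ≠ i2) (h1 : i1 ≠ j) (h2 : i2 ≠ j) {F : P3 → ℝ≥0∞} (hF : Measurable F) (y : P3) :
    Cv i1 (w (N + 2) ρ) (Cv i2 (w (N + 2) ρ) (CW (kG N r ρ j) F)) y ≤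
      Cc N (N + 2) * Cc N (N + 2) * Av N ρ F y := by
  have hC : Cc N (N + 2) ≠ ⊤ := Cc_ne_top hN (by omega)
  set C := Cc N (N + 2) with hCd
  have e2 : CW (kG N r ρ j) F = Cv i2 (w N r) (Cv i1 (w N r) (Cv j (w N ρ) F)) := by
    rw [CW_perm (measurable_kG N r ρ j) h12 h1 h2 hF, kG_self, kG_of_ne _ _ _ h1,
      kG_of_ne _ _ _ h2]
  have e1 : Av N ρ F = Cv i2 (w N ρ) (Cv i1 (w N ρ) (Cv j (w N ρ) F)) :=
    CW_perm (k := fun _ => w N ρ) (fun _ => by fun_prop) h12 h1 h2 hF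
  have hG : Measurable (Cv j (w N ρ) F) := (good_Cv j (measurable_w N ρ)).meas1 hF
  rw [e1, e2]
  set G := Cv j (w N ρ) F with hGd
  have g1 := good_Cv i1 (measurable_w N r)
  have g1' := good_Cv i1 (measurable_w (N + 2) ρ)
  have g2' := good_Cv i2 (measurable_w N ρ)
  have q : ∀ (i : Fin 3) (u : P3 → ℝ≥0∞), Measurable u → ∀ y,
      Cv i (w (N + 2) ρ) (Cv i (w N r) u) y ≤ C * Cv i (w N ρ) u y := by
    intro i u hu y
    refine (Cv_comp (m := fun t => C * w N ρ t) (measurable_w _ _) (measurable_w _ _)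
      (conv_le' hN (by omega) hr hρ) hu y).trans ?_
    exact Cv_const_left i hC (fun z => le_rfl) u y
  calc Cv i1 (w (N + 2) ρ) (Cv i2 (w (N + 2) ρ) (Cv i2 (w N r) (Cv i1 (w N r) G))) y
      ≤ C * Cv i1 (w (N + 2) ρ) (Cv i2 (w N ρ) (Cv i1 (w N r) G)) y :=
        g1'.le_smul hC (q i2 _ (g1.meas1 hG)) y
    _ = C * Cv i2 (w N ρ) (Cv i1 (w (N + 2) ρ) (Cv i1 (w N r) G)) y := by
        rw [Cv_comm h12 (measurable_w _ _) (measurable_w _ _) (g1.meas1 hG)]
    _ ≤ C * (C * Cv i2 (w N ρ) (Cv i1 (w N ρ) G) y) :=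
        mul_le_mul_right (g2'.le_smul hC (q i1 G hG) y) _
    _ = _ := by rw [mul_assoc]

/-- the point with coordinates -/
def pt3 (a b c : ℝ) : P3 := ![a, b, c]

lemma measurable_pt3 {α : Type*} [MeasurableSpace α] {a b c : α → ℝ} (ha : Measurable a)
    (hb : Measurable b) (hc : Measurable c) : Measurable (fun x => pt3 (a x) (b x) (c x)) := by
  unfold pt3
  rw [measurable_pi_iff]
  intro i
  fin_cases i
  · exact ha
  · exact hb
  · exact hc

lemma upd2 (x : P3) (a b c : ℝ) : Function.update (Function.update (Function.update x 0 a) 1 b) 2 c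
    = pt3 a b c := by
  funext i
  fin_cases i
  · simp [pt3]
  · simp [pt3]
  · simp [pt3]

/-- the full convolution as an iterated integral -/
lemma Cv3_eq (k0 k1 k2 : ℝ → ℝ≥0∞) (u : P3 → ℝ≥0∞) (x : P3) :
    Cv 0 k0 (Cv 1 k1 (Cv 2 k2 u)) x =
      ∫⁻ a, k0 (x 0 - a) * ∫⁻ b, k1 (x 1 - b) * ∫⁻ c, k2 (x 2 - c) * u (pt3 a b c) := by
  unfold Cv
  simp only [upd2]
  simp

lemma Cv12_eq (k1 k2 : ℝ → ℝ≥0∞) (u : P3 → ℝ≥0∞) (x : P3) :
    Cv 1 k1 (Cv 2 k2 u) x = ∫⁻ b, k1 (x 1 - b) * ∫⁻ c, k2 (x 2 - c) * u (pt3 (x 0) b c) := by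
  have e : ∀ b c, Function.update (Function.update x 1 b) 2 c = pt3 (x 0) b c := by
    intro b c
    have := upd2 x (x 0) b c
    rwa [Function.update_eq_self] at this
  unfold Cv
  simp only [e]
  simp

lemma Cv02_eq (k1 k2 : ℝ → ℝ≥0∞) (u : P3 → ℝ≥0∞) (x : P3) :
    Cv 0 k1 (Cv 2 k2 u) x = ∫⁻ a, k1 (x 0 - a) * ∫⁻ c, k2 (x 2 - c) * u (pt3 a (x 1) c) := by
  have e : ∀ a c, Function.update (Function.update x 0 a) 2 c = pt3 a (x 1) c := by
    intro a c
    funext i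
    fin_cases i <;> simp [pt3]
  unfold Cv
  simp only [e]
  simp

lemma Cv01_eq (k1 k2 : ℝ → ℝ≥0∞) (u : P3 → ℝ≥0∞) (x : P3) :
    Cv 0 k1 (Cv 1 k2 u) x = ∫⁻ a, k1 (x 0 - a) * ∫⁻ b, k2 (x 1 - b) * u (pt3 a b (x 2)) := by
  have e : ∀ a b, Function.update (Function.update x 0 a) 1 b = pt3 a b (x 2) := by
    intro a b
    funext i
    fin_cases i <;> simp [pt3]
  unfold Cv
  simp only [e]
  simp

/-- weighted Loomis-Whitney -/
lemma lw_weighted {l0 l1 l2 : ℝ → ℝ≥0∞} (h0 : Measurable l0) (h1 : Measurable l1)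
    (h2 : Measurable l2) {f g h : ℝ → ℝ → ℝ≥0∞} (hf : Measurable (Function.uncurry f))
    (hg : Measurable (Function.uncurry g)) (hh : Measurable (Function.uncurry h)) :
    ∫⁻ a, l0 a * ∫⁻ b, l1 b * ∫⁻ c, l2 c * (rt (f b c) * rt (g a c) * rt (h a b)) ≤
      rt (∫⁻ b, l1 b * ∫⁻ c, l2 c * f b c) * rt (∫⁻ a, l0 a * ∫⁻ c, l2 c * g a c) *
        rt (∫⁻ a, l0 a * ∫⁻ b, l1 b * h a b) := by
  have hf' : ∀ b, Measurable (f b) := fun b => hf.comp measurable_prodMk_left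
  have hg' : ∀ a, Measurable (g a) := fun b => hg.comp measurable_prodMk_left
  have hh' : ∀ a, Measurable (h a) := fun b => hh.comp measurable_prodMk_left
  have mrt : Measurable Bct383.sq := measurable_sq
  have key := Bct383.lw (f := fun b c => l1 b * (l2 c * f b c)) (g := fun a c => l0 a * (l2 c * g a c))
    (h := fun a b => l0 a * (l1 b * h a b))
    ((h1.comp measurable_fst).mul ((h2.comp measurable_snd).mul hf))
    ((h0.comp measurable_fst).mul ((h2.comp measurable_snd).mul hg))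
    ((h0.comp measurable_fst).mul ((h1.comp measurable_snd).mul hh))
  have e : ∀ a b c, rt (l1 b * (l2 c * f b c)) * rt (l0 a * (l2 c * g a c)) *
      rt (l0 a * (l1 b * h a b)) = l0 a * (l1 b * (l2 c * (rt (f b c) * rt (g a c) * rt (h a b)))) := by
    intro a b c
    simp only [sq_mul]
    calc Bct383.sq (l1 b) * (Bct383.sq (l2 c) * Bct383.sq (f b c)) *
          (Bct383.sq (l0 a) * (Bct383.sq (l2 c) * Bct383.sq (g a c))) *
          (Bct383.sq (l0 a) * (Bct383.sq (l1 b) * Bct383.sq (h a b)))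
        = (Bct383.sq (l0 a) * Bct383.sq (l0 a)) * ((Bct383.sq (l1 b) * Bct383.sq (l1 b)) *
          ((Bct383.sq (l2 c) * Bct383.sq (l2 c)) *
            (Bct383.sq (f b c) * Bct383.sq (g a c) * Bct383.sq (h a b)))) := by ring
      _ = _ := by rw [sq_mul_self, sq_mul_self, sq_mul_self]
  simp_rw [e] at key
  have q1 : ∀ b, ∫⁻ c, l1 b * (l2 c * f b c) = l1 b * ∫⁻ c, l2 c * f b c := fun b =>
    lintegral_const_mul _ (h2.mul (hf' b))
  have q2 : ∀ a, ∫⁻ c, l0 a * (l2 c * g a c) = l0 a * ∫⁻ c, l2 c * g a c := fun b =>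
    lintegral_const_mul _ (h2.mul (hg' b))
  have q3 : ∀ a, ∫⁻ b, l0 a * (l1 b * h a b) = l0 a * ∫⁻ b, l1 b * h a b := fun b =>
    lintegral_const_mul _ (h1.mul (hh' b))
  simp_rw [q1, q2, q3] at key
  refine le_trans (le_of_eq ?_) key
  have m3 : ∀ a b, Measurable (fun c => l2 c * (rt (f b c) * rt (g a c) * rt (h a b))) := by
    intro a b
    exact h2.mul (((mrt.comp (hf' b)).mul (mrt.comp (hg' a))).mul measurable_const)
  have m2 : ∀ a, Measurable (Function.uncurry fun b c =>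
      l2 c * (rt (f b c) * rt (g a c) * rt (h a b))) := by
    intro a
    refine (h2.comp measurable_snd).mul (((mrt.comp hf).mul ?_).mul ?_)
    · exact mrt.comp ((hg' a).comp measurable_snd)
    · exact mrt.comp ((hh' a).comp measurable_fst)
  have m2' : ∀ a, Measurable (fun b => ∫⁻ c, l2 c * (rt (f b c) * rt (g a c) * rt (h a b))) :=
    fun a => (m2 a).lintegral_prod_right'
  refine lintegral_congr fun a => ?_
  have m1 : Measurable (fun b => l1 b * ∫⁻ c, l2 c * (rt (f b c) * rt (g a c) * rt (h a b))) :=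
    h1.mul (m2' a)
  rw [← lintegral_const_mul _ m1]
  refine lintegral_congr fun b => ?_
  rw [← lintegral_const_mul _ (m3 a b), ← lintegral_const_mul _ ((m3 a b).const_mul _)]

/-- the square root of a number at least one -/
lemma rt_le_self {a : ℝ≥0∞} (h : 1 ≤ a) : rt a ≤ a := by
  have : (1 : ℝ≥0∞) ≤ Bct383.sq a := by
    rw [← Bct383.sq_one]; exact sq_mono h
  calc Bct383.sq a = 1 * Bct383.sq a := (one_mul _).symm
    _ ≤ Bct383.sq a * Bct383.sq a := mul_le_mul_left this _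
    _ = a := sq_mul_self a

/-- the multiscale product -/
noncomputable def Mr (N : ℕ) (r : ℝ) (F : Fin 3 → P3 → ℝ≥0∞) (y : P3) : ℝ≥0∞ :=
  rt (Av N r (F 0) y) * rt (Av N r (F 1) y) * rt (Av N r (F 2) y)

/-- **Loomis-Whitney step** -/
lemma lw_step {N : ℕ} (hN : 2 ≤ N) {r ρ : ℝ} (hr : 0 < r) (hρ : r ≤ ρ) {F : Fin 3 → P3 → ℝ≥0∞}
    (hF : ∀ j, Measurable (F j)) (x : P3) :
    CW (fun _ => w (N + 2 + N) ρ) (fun y => rt (CW (kG N r ρ 0) (F 0) y) *
      rt (CW (kG N r ρ 1) (F 1) y) * rt (CW (kG N r ρ 2) (F 2) y)) x ≤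
      (Cc N (N + 2)) ^ 3 * Mr N ρ F x := by
  have hρ0 : 0 < ρ := hr.trans_le hρ
  have mrt : Measurable Bct383.sq := measurable_sq
  have mG : ∀ j, Measurable (CW (kG N r ρ j) (F j)) := fun j =>
    (good_CW (measurable_kG N r ρ j)).meas1 (hF j)
  set G : Fin 3 → P3 → ℝ≥0∞ := fun j => CW (kG N r ρ j) (F j) with hG
  have hshift : ∀ (j : Fin 3) (y : P3) (s : ℝ), w (N + 2 + N) ρ (s - y j) * rt (G j y) ≤
      w (N + 2) ρ (s - y j) * rt (G j (Function.update y j s)) := by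
    intro j y s
    obtain ⟨i1, i2, h12, h1, h2⟩ := exists_other j
    have e : G j = Cv j (w N ρ) (Cv i2 (w N r) (Cv i1 (w N r) (F j))) := by
      have := CW_perm (measurable_kG N r ρ j) (i2 := j) (i1 := i2) (j := i1) h2 h12.symm h1.symm (hF j)
      rw [kG_self, kG_of_ne _ _ _ h1, kG_of_ne _ _ _ h2] at this
      exact this
    rw [e]
    have h3 := Cv_shift (N := N) hρ0 j (Cv i2 (w N r) (Cv i1 (w N r) (F j))) y s
    have h4 := sq_mono h3
    rw [sq_mul] at h4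
    have h5 : Bct383.sq (ENNReal.ofReal (br ρ (s - y j) ^ N)) ≤
        ENNReal.ofReal (br ρ (s - y j) ^ N) := by
      apply rt_le_self
      rw [← ENNReal.ofReal_one]
      exact ENNReal.ofReal_le_ofReal (one_le_pow₀ (one_le_br hρ0 _))
    calc w (N + 2 + N) ρ (s - y j) *
          Bct383.sq (Cv j (w N ρ) (Cv i2 (w N r) (Cv i1 (w N r) (F j))) y)
        ≤ w (N + 2 + N) ρ (s - y j) * (ENNReal.ofReal (br ρ (s - y j) ^ N) *
          Bct383.sq (Cv j (w N ρ) (Cv i2 (w N r) (Cv i1 (w N r) (F j))) (Function.update y j s))) :=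
          mul_le_mul_right (h4.trans (mul_le_mul_left h5 _)) _
      _ = (ENNReal.ofReal (br ρ (s - y j) ^ N) * w (N + 2 + N) ρ (s - y j)) *
          Bct383.sq (Cv j (w N ρ) (Cv i2 (w N r) (Cv i1 (w N r) (F j))) (Function.update y j s)) := by
          ring
      _ = _ := by rw [br_pow_mul_w hρ0]
  set W := w (N + 2 + N) ρ with hW
  set l := w (N + 2) ρ with hl
  have u0 : ∀ a b c, Function.update (pt3 a b c) 0 (x 0) = pt3 (x 0) b c := by
    intro a b c; funext i; fin_cases i <;> simp [pt3]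
  have u1 : ∀ a b c, Function.update (pt3 a b c) 1 (x 1) = pt3 a (x 1) c := by
    intro a b c; funext i; fin_cases i <;> simp [pt3]
  have u2 : ∀ a b c, Function.update (pt3 a b c) 2 (x 2) = pt3 a b (x 2) := by
    intro a b c; funext i; fin_cases i <;> simp [pt3]
  have hpt : ∀ a b c, W (x 0 - a) * (W (x 1 - b) * (W (x 2 - c) *
      (rt (G 0 (pt3 a b c)) * rt (G 1 (pt3 a b c)) * rt (G 2 (pt3 a b c))))) ≤
      l (x 0 - a) * (l (x 1 - b) * (l (x 2 - c) *
      (rt (G 0 (pt3 (x 0) b c)) * rt (G 1 (pt3 a (x 1) c)) * rt (G 2 (pt3 a b (x 2)))))) := by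
    intro a b c
    have k0 := hshift 0 (pt3 a b c) (x 0)
    have k1 := hshift 1 (pt3 a b c) (x 1)
    have k2 := hshift 2 (pt3 a b c) (x 2)
    rw [u0] at k0
    rw [u1] at k1
    rw [u2] at k2
    have p0 : pt3 a b c 0 = a := rfl
    have p1 : pt3 a b c 1 = b := rfl
    have p2 : pt3 a b c 2 = c := rfl
    rw [p0] at k0
    rw [p1] at k1
    rw [p2] at k2
    calc W (x 0 - a) * (W (x 1 - b) * (W (x 2 - c) *
          (Bct383.sq (G 0 (pt3 a b c)) * Bct383.sq (G 1 (pt3 a b c)) * Bct383.sq (G 2 (pt3 a b c)))))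
        = (W (x 0 - a) * Bct383.sq (G 0 (pt3 a b c))) * ((W (x 1 - b) *
          Bct383.sq (G 1 (pt3 a b c))) * (W (x 2 - c) * Bct383.sq (G 2 (pt3 a b c)))) := by ring
      _ ≤ (l (x 0 - a) * Bct383.sq (G 0 (pt3 (x 0) b c))) * ((l (x 1 - b) *
          Bct383.sq (G 1 (pt3 a (x 1) c))) * (l (x 2 - c) * Bct383.sq (G 2 (pt3 a b (x 2))))) :=
          mul_le_mul' k0 (mul_le_mul' k1 k2)
      _ = _ := by ring
  have hWt : ∀ t, W t ≠ ⊤ := fun t => w_ne_top _ _ _
  have hlt : ∀ t, l t ≠ ⊤ := fun t => w_ne_top _ _ _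
  have m0 : ∀ j (A B C : ℝ × ℝ → ℝ), Measurable A → Measurable B → Measurable C →
      Measurable (fun p => G j (pt3 (A p) (B p) (C p))) := fun j A B C hA hB hC =>
    (mG j).comp (measurable_pt3 hA hB hC)
  have key := lw_weighted (l0 := fun a => l (x 0 - a)) (l1 := fun b => l (x 1 - b))
    (l2 := fun c => l (x 2 - c)) (f := fun b c => G 0 (pt3 (x 0) b c))
    (g := fun a c => G 1 (pt3 a (x 1) c)) (h := fun a b => G 2 (pt3 a b (x 2)))
    (by fun_prop) (by fun_prop) (by fun_prop)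
    (m0 0 _ _ _ measurable_const measurable_fst measurable_snd)
    (m0 1 _ _ _ measurable_fst measurable_const measurable_snd)
    (m0 2 _ _ _ measurable_fst measurable_snd measurable_const)
  rw [← Cv12_eq l l (G 0) x, ← Cv02_eq l l (G 1) x, ← Cv01_eq l l (G 2) x] at key
  have i0 := inner_le hN hr hρ (i1 := 1) (i2 := 2) (j := 0) (by decide) (by decide) (by decide)
    (hF 0) x
  have i1 := inner_le hN hr hρ (i1 := 0) (i2 := 2) (j := 1) (by decide) (by decide) (by decide)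
    (hF 1) x
  have i2 := inner_le hN hr hρ (i1 := 0) (i2 := 1) (j := 2) (by decide) (by decide) (by decide)
    (hF 2) x
  have hfin : ∀ j, ∀ A : ℝ≥0∞, A ≤ Cc N (N + 2) * Cc N (N + 2) * Av N ρ (F j) x →
      rt A ≤ Cc N (N + 2) * rt (Av N ρ (F j) x) := by
    intro j A hA
    refine (sq_mono hA).trans (le_of_eq ?_)
    rw [sq_mul, sq_mul, sq_mul_self]
  calc CW (fun _ => W) (fun y => rt (G 0 y) * rt (G 1 y) * rt (G 2 y)) x
      = ∫⁻ a, ∫⁻ b, ∫⁻ c, W (x 0 - a) * (W (x 1 - b) * (W (x 2 - c) *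
        (rt (G 0 (pt3 a b c)) * rt (G 1 (pt3 a b c)) * rt (G 2 (pt3 a b c))))) := by
        unfold CW
        rw [Cv3_eq]
        refine lintegral_congr fun a => ?_
        rw [← lintegral_const_mul' _ _ (hWt _)]
        refine lintegral_congr fun b => ?_
        rw [← lintegral_const_mul' _ _ (hWt _), ← lintegral_const_mul' _ _ (hWt _)]
    _ ≤ ∫⁻ a, ∫⁻ b, ∫⁻ c, l (x 0 - a) * (l (x 1 - b) * (l (x 2 - c) *
        (rt (G 0 (pt3 (x 0) b c)) * rt (G 1 (pt3 a (x 1) c)) * rt (G 2 (pt3 a b (x 2)))))) :=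
        lintegral_mono fun a => lintegral_mono fun b => lintegral_mono fun c => hpt a b c
    _ = ∫⁻ a, l (x 0 - a) * ∫⁻ b, l (x 1 - b) * ∫⁻ c, l (x 2 - c) *
        (rt (G 0 (pt3 (x 0) b c)) * rt (G 1 (pt3 a (x 1) c)) * rt (G 2 (pt3 a b (x 2)))) := by
        refine lintegral_congr fun a => ?_
        rw [← lintegral_const_mul' _ _ (hlt _)]
        refine lintegral_congr fun b => ?_
        rw [← lintegral_const_mul' _ _ (hlt _), ← lintegral_const_mul' _ _ (hlt _)]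
    _ ≤ _ := key
    _ ≤ (Cc N (N + 2) * rt (Av N ρ (F 0) x)) * (Cc N (N + 2) * rt (Av N ρ (F 1) x)) *
        (Cc N (N + 2) * rt (Av N ρ (F 2) x)) :=
        mul_le_mul' (mul_le_mul' (hfin 0 _ i0) (hfin 1 _ i1)) (hfin 2 _ i2)
    _ = _ := by unfold Mr; ring

end Crest.Agent.R138.BCT191
end

-- ▼ part R138/BCT5_191
section

/-!
# Trilinear restriction, file 5 (row 138, helper191): iteration of the chain, axis theorem
-/

set_option autoImplicit false

open MeasureTheory Set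
open scoped ENNReal FourierTransform SchwartzMap

namespace Crest.Agent.R138.BCT191

open Crest.Agent.R138.Defs (ee)
open Crest.Agent.R138.Bct383 (sq_mul sq_mono sq_mul_self measurable_sq)

local notation "rt" => Crest.Agent.R138.Bct383.sq

lemma rt_ne_top {a : ℝ≥0∞} (h : a ≠ ⊤) : rt a ≠ ⊤ := by
  intro h0
  have := sq_mul_self a
  rw [h0] at this
  simp at this
  exact h this.symm

lemma measurable_Mr (N : ℕ) (r : ℝ) {F : Fin 3 → P3 → ℝ≥0∞} (hF : ∀ j, Measurable (F j)) :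
    Measurable (Mr N r F) := by
  have mrt : Measurable Bct383.sq := measurable_sq
  have h : ∀ j, Measurable (fun y => rt (Av N r (F j) y)) := fun j =>
    mrt.comp ((good_Av N r).meas1 (hF j))
  exact ((h 0).mul (h 1)).mul (h 2)

/-- the chain step -/
theorem chain_step (N : ℕ) (hN : 2 ≤ N) : ∃ C : ℝ≥0∞, C ≠ ⊤ ∧ ∀ {Ω : Type*} [MeasurableSpace Ω]
    (μ : Measure Ω) [SFinite μ] (a : Fin 3 → Ω → ℂ) (γ : Fin 3 → Ω → P3), (∀ j, Measurable (a j)) →
    (∀ j, Integrable (a j) μ) → (∀ j, Measurable (γ j)) → ∀ (r K : ℝ), 0 < r → 1 ≤ K →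
    (∀ j, Lip K j (a j) (γ j)) → ∀ x,
      CW (fun _ => w (N + 2 + N) (K * r)) (Mr N r fun j => F3 μ (a j) (γ j)) x ≤
        C * Mr N (K * r) (fun j => F3 μ (a j) (γ j)) x := by
  obtain ⟨C, hC, h⟩ := thicken N hN
  have hrC := rt_ne_top hC
  have hCc : Cc N (N + 2) ≠ ⊤ := Cc_ne_top hN (by omega)
  refine ⟨rt C ^ 3 * Cc N (N + 2) ^ 3, by finiteness, ?_⟩
  intro Ω _ μ _ a γ ham ha hγ r K hr hK hL x
  have mF : ∀ j, Measurable (F3 μ (a j) (γ j)) := fun j => measurable_F3 (ham j) (hγ j)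
  have hρ : r ≤ K * r := by nlinarith
  have h1 : ∀ y, Mr N r (fun j => F3 μ (a j) (γ j)) y ≤ rt C ^ 3 *
      (rt (CW (kG N r (K * r) 0) (F3 μ (a 0) (γ 0)) y) *
      rt (CW (kG N r (K * r) 1) (F3 μ (a 1) (γ 1)) y) *
      rt (CW (kG N r (K * r) 2) (F3 μ (a 2) (γ 2)) y)) := by
    intro y
    have q : ∀ j, rt (Av N r (F3 μ (a j) (γ j)) y) ≤
        rt C * rt (CW (kG N r (K * r) j) (F3 μ (a j) (γ j)) y) := by
      intro j
      rw [← sq_mul]
      exact sq_mono (h μ (a j) (γ j) (ham j) (ha j) (hγ j) j r K hr hK (hL j) y)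
    calc Mr N r (fun j => F3 μ (a j) (γ j)) y
        ≤ (rt C * rt (CW (kG N r (K * r) 0) (F3 μ (a 0) (γ 0)) y)) *
          (rt C * rt (CW (kG N r (K * r) 1) (F3 μ (a 1) (γ 1)) y)) *
          (rt C * rt (CW (kG N r (K * r) 2) (F3 μ (a 2) (γ 2)) y)) :=
          mul_le_mul' (mul_le_mul' (q 0) (q 1)) (q 2)
      _ = _ := by ring
  have h2 := (good_CW (k := fun _ => w (N + 2 + N) (K * r)) fun _ => measurable_w _ _).le_smul
    (by finiteness) h1 x
  refine h2.trans ?_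
  rw [mul_assoc]
  exact mul_le_mul_right (lw_step hN hr hρ mF x) _

/-- replacing a product kernel by a convolution of two product kernels -/
lemma CW_ge {m k l : ℝ → ℝ≥0∞} (hm : Measurable m) (hk : Measurable k) (hl : Measurable l)
    {c : ℝ≥0∞} (hc : c ≠ ⊤) (h : ∀ t, m t ≤ c * ∫⁻ z, k (t - z) * l z) {u : P3 → ℝ≥0∞}
    (hu : Measurable u) (y : P3) :
    CW (fun _ => m) u y ≤ c ^ 3 * CW (fun _ => k) (CW (fun _ => l) u) y := by
  have gm : ∀ i, Good (Cv i m) := fun i => good_Cv i hm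
  have gk : ∀ i, Good (Cv i k) := fun i => good_Cv i hk
  have gl : ∀ i, Good (Cv i l) := fun i => good_Cv i hl
  have q : ∀ (i : Fin 3) (v : P3 → ℝ≥0∞), Measurable v → ∀ y,
      Cv i m v y ≤ c * Cv i k (Cv i l v) y := by
    intro i v hv y
    rw [Cv_comp_eq hk hl hv]
    exact Cv_const_left i hc h v y
  unfold CW
  calc Cv 0 m (Cv 1 m (Cv 2 m u)) y
      ≤ c * Cv 0 m (Cv 1 m (Cv 2 k (Cv 2 l u))) y :=
        ((gm 0).comp (gm 1)).le_smul hc (q 2 u hu) y
    _ ≤ c * (c * Cv 0 m (Cv 1 k (Cv 1 l (Cv 2 k (Cv 2 l u)))) y) :=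
        mul_le_mul_right ((gm 0).le_smul hc (q 1 _ ((gk 2).meas1 ((gl 2).meas1 hu))) y) _
    _ ≤ c * (c * (c * Cv 0 k (Cv 0 l (Cv 1 k (Cv 1 l (Cv 2 k (Cv 2 l u))))) y)) :=
        mul_le_mul_right (mul_le_mul_right (q 0 _ ((gk 1).meas1 ((gl 1).meas1 ((gk 2).meas1
          ((gl 2).meas1 hu)))) y) _) _
    _ = c ^ 3 * Cv 0 k (Cv 1 k (Cv 2 k (Cv 0 l (Cv 1 l (Cv 2 l u))))) y := by
        rw [Cv_comm (i := 1) (j := 2) (by decide) hl hk ((gl 2).meas1 hu),
          Cv_comm (i := 0) (j := 1) (by decide) hl hk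
            ((gk 2).meas1 ((gl 1).meas1 ((gl 2).meas1 hu))),
          Cv_comm (i := 0) (j := 2) (by decide) hl hk ((gl 1).meas1 ((gl 2).meas1 hu))]
        ring

/-- one step of the iteration -/
theorem iter_step (N : ℕ) (hN : 2 ≤ N) : ∃ C : ℝ≥0∞, C ≠ ⊤ ∧ ∀ {Ω : Type*} [MeasurableSpace Ω]
    (μ : Measure Ω) [SFinite μ] (a : Fin 3 → Ω → ℂ) (γ : Fin 3 → Ω → P3), (∀ j, Measurable (a j)) →
    (∀ j, Integrable (a j) μ) → (∀ j, Measurable (γ j)) → ∀ (r K R : ℝ), 0 < r → 1 ≤ K →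
    K * r ≤ R → (∀ j, Lip K j (a j) (γ j)) → ∀ x,
      CW (fun _ => w (N + 2 + N) R) (Mr N r fun j => F3 μ (a j) (γ j)) x ≤
        C * CW (fun _ => w (N + 2 + N) R) (Mr N (K * r) fun j => F3 μ (a j) (γ j)) x := by
  obtain ⟨C, hC, h⟩ := chain_step N hN
  set M := N + 2 + N with hM
  have hc0 : I (M + M) ≠ 0 := I_ne_zero _
  have hct : I (M + M) ≠ ⊤ := I_ne_top (by omega)
  have hci : (I (M + M))⁻¹ ≠ ⊤ := ENNReal.inv_ne_top.2 hc0
  refine ⟨(I (M + M))⁻¹ ^ 3 * C, ENNReal.mul_ne_top (ENNReal.pow_ne_top hci) hC, ?_⟩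
  intro Ω _ μ _ a γ ham ha hγ r K R hr hK hR hL x
  have mF : ∀ j, Measurable (F3 μ (a j) (γ j)) := fun j => measurable_F3 (ham j) (hγ j)
  have hρ0 : 0 < K * r := by positivity
  have h1 : ∀ t, w M R t ≤ (I (M + M))⁻¹ * ∫⁻ z, w M R (t - z) * w M (K * r) z := by
    intro t
    have h2 := conv_ge (M := M) hρ0 hR t
    calc w M R t = (I (M + M))⁻¹ * (I (M + M) * w M R t) := by
          rw [← mul_assoc, ENNReal.inv_mul_cancel hc0 hct, one_mul]
      _ ≤ _ := mul_le_mul_right h2 _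
  have h2 := CW_ge (m := w M R) (k := w M R) (l := w M (K * r)) (measurable_w _ _)
    (measurable_w _ _) (measurable_w _ _) hci h1 (measurable_Mr N r mF) x
  refine h2.trans ?_
  rw [mul_assoc]
  refine mul_le_mul_right ?_ _
  exact (good_CW (k := fun _ => w M R) fun _ => measurable_w _ _).le_smul hC
    (h μ a γ ham ha hγ r K hr hK hL) x

/-- comparison of averages at comparable scales -/
lemma Av_comp {N : ℕ} {r R K : ℝ} (hr : 0 < r) (hR : r ≤ R) (hK : R ≤ K * r) (u : P3 → ℝ≥0∞)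
    (y : P3) : Av N r u y ≤ ENNReal.ofReal K ^ 3 * Av N R u y := by
  have gr : ∀ i, Good (Cv i (w N r)) := fun i => good_Cv i (measurable_w N r)
  have q : ∀ (i : Fin 3) (v : P3 → ℝ≥0∞) (y : P3), Cv i (w N r) v y ≤
      ENNReal.ofReal K * Cv i (w N R) v y := fun i v y =>
    Cv_const_left i (by finiteness) (w_comp hr hR hK) v y
  unfold Av CW
  calc Cv 0 (w N r) (Cv 1 (w N r) (Cv 2 (w N r) u)) y
      ≤ ENNReal.ofReal K * Cv 0 (w N r) (Cv 1 (w N r) (Cv 2 (w N R) u)) y :=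
        ((gr 0).comp (gr 1)).le_smul (by finiteness) (q 2 u) y
    _ ≤ ENNReal.ofReal K * (ENNReal.ofReal K * Cv 0 (w N r) (Cv 1 (w N R) (Cv 2 (w N R) u)) y) :=
        mul_le_mul_right ((gr 0).le_smul (by finiteness) (q 1 _) y) _
    _ ≤ ENNReal.ofReal K * (ENNReal.ofReal K * (ENNReal.ofReal K *
        Cv 0 (w N R) (Cv 1 (w N R) (Cv 2 (w N R) u)) y)) :=
        mul_le_mul_right (mul_le_mul_right (q 0 _ y) _) _
    _ = _ := by ring

/-- shift of all variables -/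
lemma Av_shift {N : ℕ} {R : ℝ} (hR : 0 < R) {u : P3 → ℝ≥0∞} (hu : Measurable u) (x : P3)
    (a b c : ℝ) : Av N R u (pt3 a b c) ≤
      ENNReal.ofReal (br R (x 0 - a) ^ N) * (ENNReal.ofReal (br R (x 1 - b) ^ N) *
        (ENNReal.ofReal (br R (x 2 - c) ^ N) * Av N R u x)) := by
  have hw : ∀ i : Fin 3, Measurable ((fun _ : Fin 3 => w N R) i) := fun _ => measurable_w N R
  have e0 : Av N R u = Cv 0 (w N R) (Cv 1 (w N R) (Cv 2 (w N R) u)) := rfl
  have e1 : Av N R u = Cv 1 (w N R) (Cv 0 (w N R) (Cv 2 (w N R) u)) :=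
    CW_perm hw (by decide) (by decide) (by decide) hu
  have e2 : Av N R u = Cv 2 (w N R) (Cv 0 (w N R) (Cv 1 (w N R) u)) :=
    CW_perm hw (by decide) (by decide) (by decide) hu
  have s0 : Av N R u (pt3 a b c) ≤ ENNReal.ofReal (br R (x 0 - a) ^ N) *
      Av N R u (pt3 (x 0) b c) := by
    have := Cv_shift (N := N) hR 0 (Cv 1 (w N R) (Cv 2 (w N R) u)) (pt3 a b c) (x 0)
    have e : Function.update (pt3 a b c) 0 (x 0) = pt3 (x 0) b c := by
      funext i; fin_cases i <;> simp [pt3]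
    rw [e, ← e0] at this
    exact this
  have s1 : Av N R u (pt3 (x 0) b c) ≤ ENNReal.ofReal (br R (x 1 - b) ^ N) *
      Av N R u (pt3 (x 0) (x 1) c) := by
    have := Cv_shift (N := N) hR 1 (Cv 0 (w N R) (Cv 2 (w N R) u)) (pt3 (x 0) b c) (x 1)
    have e : Function.update (pt3 (x 0) b c) 1 (x 1) = pt3 (x 0) (x 1) c := by
      funext i; fin_cases i <;> simp [pt3]
    rw [e, ← e1] at this
    exact this
  have s2 : Av N R u (pt3 (x 0) (x 1) c) ≤ ENNReal.ofReal (br R (x 2 - c) ^ N) *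
      Av N R u x := by
    have := Cv_shift (N := N) hR 2 (Cv 0 (w N R) (Cv 1 (w N R) u)) (pt3 (x 0) (x 1) c) (x 2)
    have e : Function.update (pt3 (x 0) (x 1) c) 2 (x 2) = x := by
      funext i; fin_cases i <;> simp [pt3]
    rw [e, ← e2] at this
    exact this
  exact s0.trans (mul_le_mul_right (s1.trans (mul_le_mul_right s2 _)) _)

/-- the last scale -/
lemma last_scale {N : ℕ} {R : ℝ} (hR : 0 < R) {F : Fin 3 → P3 → ℝ≥0∞} (hF : ∀ j, Measurable (F j))
    (x : P3) : CW (fun _ => w (N + 2 + N) R) (Mr N R F) x ≤ I 2 ^ 3 * Mr N R F x := by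
  have h1 : ∀ a b c, w (N + 2 + N) R (x 0 - a) * (w (N + 2 + N) R (x 1 - b) *
      (w (N + 2 + N) R (x 2 - c) * Mr N R F (pt3 a b c))) ≤
      w 2 R (x 0 - a) * (w 2 R (x 1 - b) * (w 2 R (x 2 - c) * Mr N R F x)) := by
    intro a b c
    set B0 := ENNReal.ofReal (br R (x 0 - a) ^ N) with hB0
    set B1 := ENNReal.ofReal (br R (x 1 - b) ^ N) with hB1
    set B2 := ENNReal.ofReal (br R (x 2 - c) ^ N) with hB2
    have hB : 1 ≤ B0 * (B1 * B2) := by
      have q : ∀ t, 1 ≤ ENNReal.ofReal (br R t ^ N) := fun t => by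
        rw [← ENNReal.ofReal_one]
        exact ENNReal.ofReal_le_ofReal (one_le_pow₀ (one_le_br hR _))
      exact one_le_mul (q _) (one_le_mul (q _) (q _))
    have q : ∀ j, rt (Av N R (F j) (pt3 a b c)) ≤ rt (B0 * (B1 * B2)) * rt (Av N R (F j) x) := by
      intro j
      rw [← sq_mul]
      refine sq_mono ((Av_shift hR (hF j) x a b c).trans (le_of_eq ?_))
      ring
    have hM : Mr N R F (pt3 a b c) ≤ (B0 * (B1 * B2)) * (B0 * (B1 * B2)) * Mr N R F x := by
      calc Mr N R F (pt3 a b c) ≤ (rt (B0 * (B1 * B2)) * rt (Av N R (F 0) x)) *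
            (rt (B0 * (B1 * B2)) * rt (Av N R (F 1) x)) *
            (rt (B0 * (B1 * B2)) * rt (Av N R (F 2) x)) :=
            mul_le_mul' (mul_le_mul' (q 0) (q 1)) (q 2)
        _ = (rt (B0 * (B1 * B2)) * rt (B0 * (B1 * B2))) * rt (B0 * (B1 * B2)) * Mr N R F x := by
            unfold Mr; ring
        _ ≤ _ := by
            rw [sq_mul_self]
            exact mul_le_mul_left (mul_le_mul_right (rt_le_self hB) _) _
    have hw : ∀ t, ENNReal.ofReal (br R t ^ N) * (ENNReal.ofReal (br R t ^ N) *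
        w (N + 2 + N) R t) = w 2 R t := by
      intro t
      rw [br_pow_mul_w hR, show N + 2 = 2 + N by ring, br_pow_mul_w hR]
    calc w (N + 2 + N) R (x 0 - a) * (w (N + 2 + N) R (x 1 - b) *
          (w (N + 2 + N) R (x 2 - c) * Mr N R F (pt3 a b c)))
        ≤ w (N + 2 + N) R (x 0 - a) * (w (N + 2 + N) R (x 1 - b) *
          (w (N + 2 + N) R (x 2 - c) * ((B0 * (B1 * B2)) * (B0 * (B1 * B2)) * Mr N R F x))) :=
          mul_le_mul_right (mul_le_mul_right (mul_le_mul_right hM _) _) _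
      _ = (B0 * (B0 * w (N + 2 + N) R (x 0 - a))) * ((B1 * (B1 * w (N + 2 + N) R (x 1 - b))) *
          ((B2 * (B2 * w (N + 2 + N) R (x 2 - c))) * Mr N R F x)) := by ring
      _ = _ := by rw [hB0, hB1, hB2, hw, hw, hw]
  have e : ∀ (i : Fin 3) (c : ℝ≥0∞), ∫⁻ a, w 2 R (x i - a) * c = I 2 * c := fun i c => by
    rw [lintegral_mul_const _ (by fun_prop), lintegral_sub_left (f := w 2 R), lintegral_w hR]
  have hwt : ∀ t, w (N + 2 + N) R t ≠ ⊤ := fun t => w_ne_top _ _ _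
  calc CW (fun _ => w (N + 2 + N) R) (Mr N R F) x
      = ∫⁻ a, ∫⁻ b, ∫⁻ c, w (N + 2 + N) R (x 0 - a) * (w (N + 2 + N) R (x 1 - b) *
      (w (N + 2 + N) R (x 2 - c) * Mr N R F (pt3 a b c))) := by
        unfold CW
        rw [Cv3_eq]
        refine lintegral_congr fun a => ?_
        rw [← lintegral_const_mul' _ _ (hwt _)]
        refine lintegral_congr fun b => ?_
        rw [← lintegral_const_mul' _ _ (hwt _), ← lintegral_const_mul' _ _ (hwt _)]
    _ ≤ ∫⁻ a, ∫⁻ b, ∫⁻ c, w 2 R (x 0 - a) * (w 2 R (x 1 - b) * (w 2 R (x 2 - c) * Mr N R F x)) :=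
        lintegral_mono fun a => lintegral_mono fun b => lintegral_mono fun c => h1 a b c
    _ = ∫⁻ a, w 2 R (x 0 - a) * ∫⁻ b, w 2 R (x 1 - b) * ∫⁻ c, w 2 R (x 2 - c) * Mr N R F x := by
        refine lintegral_congr fun a => ?_
        rw [← lintegral_const_mul' _ _ (w_ne_top _ _ _)]
        refine lintegral_congr fun b => ?_
        rw [← lintegral_const_mul' _ _ (w_ne_top _ _ _), ← lintegral_const_mul' _ _ (w_ne_top _ _ _)]
    _ = _ := by
        rw [e 2, e 1, e 0]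
        ring

/-- the first scale -/
lemma first_scale (N : ℕ) (hN : 2 ≤ N) (L : ℝ) (hL : 1 ≤ L) : ∃ C : ℝ≥0∞, C ≠ ⊤ ∧
    ∀ {Ω : Type*} [MeasurableSpace Ω] (μ : Measure Ω) [SFinite μ] (a : Ω → ℂ) (γ : Ω → P3),
    Measurable a → Integrable a μ → Measurable γ → (∀ ω, a ω ≠ 0 → ∀ i, |γ ω i| ≤ L) → ∀ y,
      F3 μ a γ y ≤ C * Av N 1 (F3 μ a γ) y := by
  obtain ⟨c, hc, h⟩ := lc3 N hN
  have hL0 : 0 < L := by linarith
  set C := ENNReal.ofReal c * ENNReal.ofReal L with hC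
  have hCt : C ≠ ⊤ := by finiteness
  refine ⟨C ^ 3, by finiteness, ?_⟩
  intro Ω _ μ _ a γ ham ha hγ hb y
  have q : ∀ (i : Fin 3) (y : P3), F3 μ a γ y ≤ C * Cv i (w N 1) (F3 μ a γ) y := by
    intro i y
    have h1 := h μ a γ ha hγ i L⁻¹ 0 (by positivity) (fun ω hω => by
      rw [sub_zero, inv_mul_le_iff₀ hL0, mul_one]
      exact hb ω hω i) y
    refine h1.trans ?_
    rw [hC, mul_assoc]
    refine mul_le_mul_right ?_ _
    refine Cv_const_left i (by finiteness) (fun z => ?_) _ y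
    have hL1 : L⁻¹ ≤ 1 := inv_le_one_of_one_le₀ hL
    exact w_comp (by positivity) hL1 (by rw [mul_inv_cancel₀ hL0.ne']) z
  have g0 := good_Cv 0 (measurable_w N 1)
  have g1 := good_Cv 1 (measurable_w N 1)
  calc F3 μ a γ y ≤ C * Cv 0 (w N 1) (F3 μ a γ) y := q 0 y
    _ ≤ C * (C * Cv 0 (w N 1) (Cv 1 (w N 1) (F3 μ a γ)) y) :=
        mul_le_mul_right (g0.le_smul hCt (q 1) y) _
    _ ≤ C * (C * (C * Cv 0 (w N 1) (Cv 1 (w N 1) (Cv 2 (w N 1) (F3 μ a γ))) y)) :=
        mul_le_mul_right (mul_le_mul_right ((g0.comp g1).le_smul hCt (q 2) y) _) _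
    _ = _ := by unfold Av CW; ring

/-- **trilinear restriction, axis form** -/
theorem axis (N : ℕ) (hN : 2 ≤ N) (ε : ℝ) (hε : 0 < ε) : ∃ K : ℝ, 1 < K ∧ ∀ L : ℝ, 1 ≤ L →
    ∃ C : ℝ, 0 < C ∧ ∀ {Ω : Type*} [MeasurableSpace Ω]
    (μ : Measure Ω) [SFinite μ] (a : Fin 3 → Ω → ℂ) (γ : Fin 3 → Ω → P3), (∀ j, Measurable (a j)) →
    (∀ j, Integrable (a j) μ) → (∀ j, Measurable (γ j)) → (∀ j, Lip K j (a j) (γ j)) →
    (∀ j ω, a j ω ≠ 0 → ∀ i, |γ j ω i| ≤ L) → ∀ R : ℝ, 1 ≤ R → ∀ x,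
      CW (fun _ => w (N + 2 + N) R) (fun y => ‖S3 μ (a 0) (γ 0) y‖ₑ * ‖S3 μ (a 1) (γ 1) y‖ₑ *
        ‖S3 μ (a 2) (γ 2) y‖ₑ) x ≤
        ENNReal.ofReal (C * R ^ ε) * Mr N R (fun j => F3 μ (a j) (γ j)) x := by
  obtain ⟨C1, hC1, hiter⟩ := iter_step N hN
  set c1 : ℝ := C1.toReal + 1 with hc1
  have hc1p : 1 ≤ c1 := by rw [hc1]; have := ENNReal.toReal_nonneg (a := C1); linarith
  have hc1le : C1 ≤ ENNReal.ofReal c1 := by
    rw [hc1, ENNReal.ofReal_add (by positivity) (by norm_num), ENNReal.ofReal_toReal hC1]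
    exact le_self_add
  set K : ℝ := 1 + c1 ^ (1 / ε) with hK
  have hK1 : 1 < K := by
    have : 0 < c1 ^ (1 / ε) := by positivity
    linarith
  have hKε : c1 ≤ K ^ ε := by
    calc c1 = (c1 ^ (1 / ε)) ^ ε := by
          rw [← Real.rpow_mul (by linarith)]
          field_simp
          rw [Real.rpow_one]
      _ ≤ K ^ ε := Real.rpow_le_rpow (by positivity) (by linarith) hε.le
  refine ⟨K, hK1, fun L hL => ?_⟩
  obtain ⟨C2, hC2, hfirst⟩ := first_scale N hN L hL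
  have hI : I 2 ≠ ⊤ := I_ne_top le_rfl
  set D : ℝ≥0∞ := rt C2 ^ 3 * (rt (ENNReal.ofReal K ^ 3) ^ 3 * I 2 ^ 3) with hD
  have hDt : D ≠ ⊤ := by
    have h1 := rt_ne_top hC2
    have h2 : rt (ENNReal.ofReal K ^ 3) ≠ ⊤ := rt_ne_top (by finiteness)
    finiteness
  refine ⟨D.toReal + 1, by positivity, ?_⟩
  intro Ω _ μ _ a γ ham ha hγ hLip hb R hR x
  have mF : ∀ j, Measurable (F3 μ (a j) (γ j)) := fun j => measurable_F3 (ham j) (hγ j)
  set F : Fin 3 → P3 → ℝ≥0∞ := fun j => F3 μ (a j) (γ j) with hF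
  have hR0 : 0 < R := by linarith
  obtain ⟨m, hm1, hm2⟩ := exists_nat_pow_near hR hK1
  -- the chain
  have hchain : ∀ n : ℕ, K ^ n ≤ R → CW (fun _ => w (N + 2 + N) R) (Mr N 1 F) x ≤
      C1 ^ n * CW (fun _ => w (N + 2 + N) R) (Mr N (K ^ n) F) x := by
    intro n
    induction n with
    | zero => intro _; simp
    | succ n ih =>
      intro hn
      have hn' : K ^ n ≤ R := (pow_le_pow_right₀ hK1.le (Nat.le_succ n)).trans hn
      refine (ih hn').trans ?_
      have h1 := hiter μ a γ ham ha hγ (K ^ n) K R (by positivity) hK1.le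
        (by rw [← pow_succ']; exact hn) hLip x
      rw [← pow_succ'] at h1
      calc C1 ^ n * CW (fun _ => w (N + 2 + N) R) (Mr N (K ^ n) F) x
          ≤ C1 ^ n * (C1 * CW (fun _ => w (N + 2 + N) R) (Mr N (K ^ (n + 1)) F) x) :=
            mul_le_mul_right h1 _
        _ = _ := by ring
  have hgood := good_CW (k := fun _ => w (N + 2 + N) R) fun _ => measurable_w (N + 2 + N) R
  -- first scale
  have hf : ∀ y, ‖S3 μ (a 0) (γ 0) y‖ₑ * ‖S3 μ (a 1) (γ 1) y‖ₑ * ‖S3 μ (a 2) (γ 2) y‖ₑ ≤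
      rt C2 ^ 3 * Mr N 1 F y := by
    intro y
    have q : ∀ j, ‖S3 μ (a j) (γ j) y‖ₑ ≤ rt C2 * rt (Av N 1 (F j) y) := by
      intro j
      rw [← sq_mul, ← Bct383.sq_sq ‖S3 μ (a j) (γ j) y‖ₑ]
      exact sq_mono (hfirst μ (a j) (γ j) (ham j) (ha j) (hγ j) (hb j) y)
    refine (mul_le_mul' (mul_le_mul' (q 0) (q 1)) (q 2)).trans (le_of_eq ?_)
    unfold Mr
    ring
  -- last scale
  have hlast : CW (fun _ => w (N + 2 + N) R) (Mr N (K ^ m) F) x ≤
      (rt (ENNReal.ofReal K ^ 3) ^ 3 * I 2 ^ 3) * Mr N R F x := by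
    have q : ∀ y, Mr N (K ^ m) F y ≤ rt (ENNReal.ofReal K ^ 3) ^ 3 * Mr N R F y := by
      intro y
      have q1 : ∀ j, rt (Av N (K ^ m) (F j) y) ≤
          rt (ENNReal.ofReal K ^ 3) * rt (Av N R (F j) y) := by
        intro j
        rw [← sq_mul]
        exact sq_mono (Av_comp (by positivity) hm1 (by rw [← pow_succ']; exact hm2.le) (F j) y)
      refine (mul_le_mul' (mul_le_mul' (q1 0) (q1 1)) (q1 2)).trans (le_of_eq ?_)
      unfold Mr
      ring
    have h2 : rt (ENNReal.ofReal K ^ 3) ≠ ⊤ := rt_ne_top (by finiteness)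
    refine (hgood.le_smul (by finiteness) q x).trans ?_
    rw [mul_assoc]
    exact mul_le_mul_right (last_scale hR0 mF x) _
  have hpow : C1 ^ m ≤ ENNReal.ofReal (R ^ ε) := by
    calc C1 ^ m ≤ ENNReal.ofReal c1 ^ m := pow_le_pow_left' hc1le m
      _ = ENNReal.ofReal (c1 ^ m) := by rw [ENNReal.ofReal_pow (by linarith)]
      _ ≤ ENNReal.ofReal (R ^ ε) := by
          refine ENNReal.ofReal_le_ofReal ?_
          calc c1 ^ m ≤ (K ^ ε) ^ m := pow_le_pow_left₀ (by linarith) hKε m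
            _ = (K ^ m) ^ ε := by
                rw [← Real.rpow_natCast, ← Real.rpow_natCast, ← Real.rpow_mul (by linarith),
                  ← Real.rpow_mul (by linarith), mul_comm]
            _ ≤ R ^ ε := Real.rpow_le_rpow (by positivity) hm1 hε.le
  have hrC2 := rt_ne_top hC2
  calc CW (fun _ => w (N + 2 + N) R) (fun y => ‖S3 μ (a 0) (γ 0) y‖ₑ * ‖S3 μ (a 1) (γ 1) y‖ₑ *
        ‖S3 μ (a 2) (γ 2) y‖ₑ) x
      ≤ rt C2 ^ 3 * CW (fun _ => w (N + 2 + N) R) (Mr N 1 F) x :=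
        hgood.le_smul (by finiteness) hf x
    _ ≤ rt C2 ^ 3 * (ENNReal.ofReal (R ^ ε) * ((rt (ENNReal.ofReal K ^ 3) ^ 3 * I 2 ^ 3) *
        Mr N R F x)) := by
        refine mul_le_mul_right ((hchain m hm1).trans (mul_le_mul' hpow hlast)) _
    _ = D * ENNReal.ofReal (R ^ ε) * Mr N R F x := by rw [hD]; ring
    _ ≤ _ := by
        refine mul_le_mul_left ?_ _
        rw [ENNReal.ofReal_mul (by positivity)]
        refine mul_le_mul_left ?_ _
        rw [ENNReal.ofReal_add (by positivity) (by norm_num), ENNReal.ofReal_toReal hDt]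
        exact le_self_add

end Crest.Agent.R138.BCT191
end

-- ▼ part R138/BCT6_191
section

/-!
# Trilinear restriction, file 6 (row 138, helper191): linear change of variables, three small caps
-/

set_option autoImplicit false

open MeasureTheory Set
open scoped ENNReal FourierTransform SchwartzMap

namespace Crest.Agent.R138.BCT191

open Crest.Agent.R138.Defs (ee ext E2 cyl)
open Crest.Agent.R138.Bct383 (sq_mul sq_mono sq_mul_self measurable_sq)

local notation "rt" => Crest.Agent.R138.Bct383.sq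

/-! ### iterated integrals -/


lemma lintegral_fin2 {f : (Fin 2 → ℝ) → ℝ≥0∞} (hf : Measurable f) :
    ∫⁻ y, f y = ∫⁻ a, ∫⁻ b, f ![a, b] := by
  have h := (volume_preserving_finTwoArrow ℝ).symm
  rw [← h.lintegral_comp_emb (MeasurableEquiv.measurableEmbedding _)]
  rw [Measure.volume_eq_prod, lintegral_prod _ (by
    exact (hf.comp (MeasurableEquiv.measurable _)).aemeasurable)]
  rfl

lemma lintegral_P3 {f : P3 → ℝ≥0∞} (hf : Measurable f) :
    ∫⁻ y, f y = ∫⁻ a, ∫⁻ b, ∫⁻ c, f (pt3 a b c) := by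
  have h := (volume_preserving_piFinSuccAbove (fun _ : Fin 3 => ℝ) 0).symm
  rw [← h.lintegral_comp_emb (MeasurableEquiv.measurableEmbedding _)]
  rw [Measure.volume_eq_prod, lintegral_prod _ (by
    exact (hf.comp (MeasurableEquiv.measurable _)).aemeasurable)]
  refine lintegral_congr fun a => ?_
  have h2 : Measurable (fun q : Fin 2 → ℝ =>
      f ((MeasurableEquiv.piFinSuccAbove (fun _ : Fin 3 => ℝ) 0).symm (a, q))) :=
    hf.comp ((MeasurableEquiv.measurable _).comp (by fun_prop))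
  rw [lintegral_fin2 h2]
  refine lintegral_congr fun b => lintegral_congr fun c => ?_
  congr 1
  funext i
  fin_cases i <;> rfl

lemma lintegral_E2 {f : E2 → ℝ≥0∞} (hf : Measurable f) :
    ∫⁻ x, f x = ∫⁻ a, ∫⁻ b, f (WithLp.toLp 2 ![a, b]) := by
  have h := PiLp.volume_preserving_toLp (Fin 2)
  rw [← h.lintegral_comp hf]
  have h2 : Measurable (fun q : Fin 2 → ℝ => f (WithLp.toLp 2 q)) := hf.comp h.measurable
  exact lintegral_fin2 h2

/-- the space-time point as an element of `P3` -/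
def emb (p : E2 × ℝ) : P3 := pt3 (p.1 0) (p.1 1) p.2

lemma measurable_emb : Measurable emb := by
  unfold emb
  exact measurable_pt3 (by fun_prop) (by fun_prop) (by fun_prop)

lemma lintegral_emb {f : P3 → ℝ≥0∞} (hf : Measurable f) :
    ∫⁻ p : E2 × ℝ, f (emb p) = ∫⁻ y, f y := by
  have h1 : Measurable (fun q : E2 × ℝ => f (emb q)) := hf.comp measurable_emb
  rw [Measure.volume_eq_prod, lintegral_prod _ h1.aemeasurable, lintegral_P3 hf]
  have h2 : Measurable (fun x : E2 => ∫⁻ t : ℝ, f (emb (x, t))) := h1.lintegral_prod_right'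
  rw [lintegral_E2 h2]
  rfl

/-- linear change of variables -/
lemma lintegral_mulVec {A : Matrix (Fin 3) (Fin 3) ℝ} (hA : A.det ≠ 0) {f : P3 → ℝ≥0∞}
    (hf : Measurable f) :
    ENNReal.ofReal |A.det| * ∫⁻ y : P3, f (A.mulVec y) = ∫⁻ x : P3, f x := by
  have h := Real.map_matrix_volume_pi_eq_smul_volume_pi hA
  have hm : Measurable (Matrix.toLin' A : P3 → P3) :=
    (LinearMap.continuous_of_finiteDimensional _).measurable
  have e : ∫⁻ y : P3, f (A.mulVec y) = ENNReal.ofReal |A.det⁻¹| * ∫⁻ x : P3, f x := by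
    have e1 : ∫⁻ y : P3, f (A.mulVec y) = ∫⁻ y : P3, f (Matrix.toLin' A y) := by
      refine lintegral_congr fun y => ?_
      rw [Matrix.toLin'_apply]
    rw [e1, ← lintegral_map hf hm, h, lintegral_smul_measure, smul_eq_mul]
  rw [e, ← mul_assoc, ← ENNReal.ofReal_mul (abs_nonneg _), ← abs_mul, mul_inv_cancel₀ hA, abs_one,
    ENNReal.ofReal_one, one_mul]

/-- the full convolution at the origin -/
lemma CW_zero {W : ℝ → ℝ≥0∞} (hW : Measurable W) (hWt : ∀ t, W t ≠ ⊤) (hWe : ∀ t, W (-t) = W t)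
    {u : P3 → ℝ≥0∞} (hu : Measurable u) :
    CW (fun _ => W) u 0 = ∫⁻ y : P3, W (y 0) * (W (y 1) * (W (y 2) * u y)) := by
  have hm : Measurable (fun y : P3 => W (y 0) * (W (y 1) * (W (y 2) * u y))) := by fun_prop
  rw [lintegral_P3 hm]
  unfold CW
  rw [Cv3_eq]
  refine lintegral_congr fun a => ?_
  rw [← lintegral_const_mul' _ _ (hWt _)]
  refine lintegral_congr fun b => ?_
  rw [← lintegral_const_mul' _ _ (hWt _), ← lintegral_const_mul' _ _ (hWt _)]
  refine lintegral_congr fun c => ?_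
  have e : ∀ s : ℝ, W (0 - s) = W s := fun s => by rw [zero_sub, hWe]
  show W (0 - a) * (W (0 - b) * (W (0 - c) * u (pt3 a b c))) =
    W a * (W b * (W c * u (pt3 a b c)))
  rw [e, e, e]

/-! ### the extension operator as a superposition -/

/-- the spectral point -/
noncomputable def Xi (h : E2 → ℝ) (ξ : E2) : P3 := pt3 (ξ 0) (ξ 1) (h ξ - h 0)

lemma measurable_Xi {h : E2 → ℝ} (hh : Measurable h) : Measurable (Xi h) := by
  unfold Xi
  exact measurable_pt3 (by fun_prop) (by fun_prop) (by fun_prop)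

lemma inner_E2 (x ξ : E2) : inner ℝ x ξ = x 0 * ξ 0 + x 1 * ξ 1 := by
  rw [EuclideanSpace.inner_eq_star_dotProduct]
  simp [dotProduct, Fin.sum_univ_two]
  ring

lemma enorm_ext (h : E2 → ℝ) (g : E2 → ℂ) (p : E2 × ℝ) :
    ‖ext h g p.1 p.2‖ₑ = ‖S3 volume g (Xi h) (emb p)‖ₑ := by
  have e : ext h g p.1 p.2 = ee (p.2 * h 0) * S3 volume g (Xi h) (emb p) := by
    unfold Defs.ext S3
    rw [← integral_const_mul]
    refine integral_congr_ae (Filter.Eventually.of_forall fun ξ => ?_)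
    simp only
    have e1 : ee (p.2 * h 0) * (g ξ * ee (∑ i, emb p i * Xi h ξ i)) =
        g ξ * (ee (p.2 * h 0) * ee (∑ i, emb p i * Xi h ξ i)) := by ring
    rw [e1, ← ee_add]
    congr 2
    rw [inner_E2, Fin.sum_univ_three]
    simp only [emb, Xi, pt3]
    simp
    ring
  rw [e, enorm_mul, enorm_ee, one_mul]

/-- superpositions under a linear map -/
lemma S3_mulVec (g : E2 → ℂ) (Γ : E2 → P3) (T : Matrix (Fin 3) (Fin 3) ℝ) (y : P3) :
    S3 volume g (fun ξ => T.mulVec (Γ ξ)) y = S3 volume g Γ (T.transpose.mulVec y) := by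
  unfold S3
  refine integral_congr_ae (Filter.Eventually.of_forall fun ξ => ?_)
  simp only
  congr 2
  simp only [Matrix.mulVec, dotProduct, Fin.sum_univ_three, Matrix.transpose_apply]
  ring

/-- conservation of energy -/
lemma energy {h : E2 → ℝ} (hh : Measurable h) {g : E2 → ℂ} (h1 : Integrable g) (h2 : MemLp g 2)
    (t : ℝ) : ∫⁻ x : E2, ‖ext h g x t‖ₑ ^ 2 = ∫⁻ ξ, ‖g ξ‖ₑ ^ 2 := by
  have m : Measurable (fun ξ : E2 => ee (t * h ξ)) := by fun_prop
  have f1 : Integrable (fun ξ => g ξ * ee (t * h ξ)) := by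
    refine h1.mono (h1.aestronglyMeasurable.mul m.aestronglyMeasurable) ?_
    exact Filter.Eventually.of_forall fun ξ => by simp
  have f2 : MemLp (fun ξ => g ξ * ee (t * h ξ)) 2 := by
    refine h2.mono (h2.aestronglyMeasurable.mul m.aestronglyMeasurable) ?_
    exact Filter.Eventually.of_forall fun ξ => by simp
  have e : ∀ x : E2, ext h g x t = 𝓕⁻ (fun ξ => g ξ * ee (t * h ξ)) x := by
    intro x
    rw [Real.fourierInv_eq']
    unfold Defs.ext
    refine integral_congr_ae (Filter.Eventually.of_forall fun ξ => ?_)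
    simp only [smul_eq_mul]
    rw [real_inner_comm, add_comm, ee_add]
    have : Complex.exp (↑(2 * Real.pi * inner ℝ ξ x) * Complex.I) = ee (inner ℝ ξ x) := rfl
    rw [this]
    ring
  simp_rw [e]
  have hP := R070.Cs145.eLpNorm_fourier f1 f2
  have q : ∀ u : E2 → ℂ, eLpNorm u 2 volume ^ 2 = ∫⁻ x, ‖u x‖ₑ ^ 2 := by
    intro u
    rw [eLpNorm_eq_lintegral_rpow_enorm_toReal (by norm_num) (by norm_num)]
    simp only [ENNReal.toReal_ofNat]
    rw [← ENNReal.rpow_natCast, ← ENNReal.rpow_mul]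
    norm_num
  have e2 : ∀ x : E2, 𝓕⁻ (fun ξ => g ξ * ee (t * h ξ)) x =
      𝓕 (fun ξ => g ξ * ee (t * h ξ)) (-x) := fun x => by
    rw [Real.fourierInv_eq_fourier_neg]
  simp_rw [e2]
  rw [lintegral_neg_eq_self (μ := (volume : Measure E2))
    (fun x => ‖𝓕 (fun ξ => g ξ * ee (t * h ξ)) x‖ₑ ^ 2), ← q, hP, q]
  refine lintegral_congr fun ξ => ?_
  simp

/-! ### geometry -/

/-- twice the signed area of the triangle -/
def area (v : Fin 3 → E2) : ℝ :=
  (v 1 0 - v 0 0) * (v 2 1 - v 0 1) - (v 2 0 - v 0 0) * (v 1 1 - v 0 1)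

/-- the matrix of the normals -/
def Tm (v : Fin 3 → E2) : Matrix (Fin 3) (Fin 3) ℝ := Matrix.of fun j => pt3 (-(v j 0)) (-(v j 1)) 1

lemma det_Tm (v : Fin 3 → E2) : (Tm v).det = area v := by
  rw [Matrix.det_fin_three]
  simp [Tm, pt3, area]
  ring

lemma Tm_mulVec (v : Fin 3 → E2) (X : P3) (j : Fin 3) :
    (Tm v).mulVec X j = -(v j 0) * X 0 - v j 1 * X 1 + X 2 := by
  simp [Matrix.mulVec, dotProduct, Fin.sum_univ_three, Tm, pt3]
  ring

lemma TmT_mulVec0 (v : Fin 3 → E2) (Y : P3) :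
    (Tm v).transpose.mulVec Y 0 = -(v 0 0) * Y 0 - v 1 0 * Y 1 - v 2 0 * Y 2 := by
  simp [Matrix.mulVec, dotProduct, Fin.sum_univ_three, Tm, pt3]
  ring

lemma TmT_mulVec1 (v : Fin 3 → E2) (Y : P3) :
    (Tm v).transpose.mulVec Y 1 = -(v 0 1) * Y 0 - v 1 1 * Y 1 - v 2 1 * Y 2 := by
  simp [Matrix.mulVec, dotProduct, Fin.sum_univ_three, Tm, pt3]
  ring

lemma TmT_mulVec2 (v : Fin 3 → E2) (Y : P3) :
    (Tm v).transpose.mulVec Y 2 = Y 0 + Y 1 + Y 2 := by
  simp [Matrix.mulVec, dotProduct, Fin.sum_univ_three, Tm, pt3]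

lemma abs_sub_le_two {a b M : ℝ} (ha : |a| ≤ M) (hb : |b| ≤ M) : |a - b| ≤ 2 * M := by
  have := abs_sub a b
  linarith

/-- the spectral displacement is controlled by the three normal components -/
lemma area_bound {v : Fin 3 → E2} {M m x y z : ℝ} (hM : ∀ j i, |v j i| ≤ M)
    (hm : ∀ k, |-(v k 0) * x - v k 1 * y + z| ≤ m) :
    |area v| * |x| ≤ 8 * M * m ∧ |area v| * |y| ≤ 8 * M * m := by
  have hM0 : 0 ≤ M := (abs_nonneg _).trans (hM 0 0)
  have hm0 : 0 ≤ m := (abs_nonneg _).trans (hm 0)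
  set e : Fin 3 → ℝ := fun k => -(v k 0) * x - v k 1 * y + z with he
  have h10 : |e 1 - e 0| ≤ 2 * m := abs_sub_le_two (hm 1) (hm 0)
  have h20 : |e 2 - e 0| ≤ 2 * m := abs_sub_le_two (hm 2) (hm 0)
  have a10 : |v 1 0 - v 0 0| ≤ 2 * M := abs_sub_le_two (hM 1 0) (hM 0 0)
  have a20 : |v 2 0 - v 0 0| ≤ 2 * M := abs_sub_le_two (hM 2 0) (hM 0 0)
  have b10 : |v 1 1 - v 0 1| ≤ 2 * M := abs_sub_le_two (hM 1 1) (hM 0 1)
  have b20 : |v 2 1 - v 0 1| ≤ 2 * M := abs_sub_le_two (hM 2 1) (hM 0 1)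
  have e1 : area v * x = (e 2 - e 0) * (v 1 1 - v 0 1) - (e 1 - e 0) * (v 2 1 - v 0 1) := by
    simp only [he, area]; ring
  have e2 : area v * y = (e 1 - e 0) * (v 2 0 - v 0 0) - (e 2 - e 0) * (v 1 0 - v 0 0) := by
    simp only [he, area]; ring
  constructor
  · rw [← abs_mul, e1]
    calc |(e 2 - e 0) * (v 1 1 - v 0 1) - (e 1 - e 0) * (v 2 1 - v 0 1)|
        ≤ |(e 2 - e 0) * (v 1 1 - v 0 1)| + |(e 1 - e 0) * (v 2 1 - v 0 1)| := abs_sub _ _
      _ ≤ (2 * m) * (2 * M) + (2 * m) * (2 * M) := by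
          rw [abs_mul, abs_mul]
          gcongr
      _ = _ := by ring
  · rw [← abs_mul, e2]
    calc |(e 1 - e 0) * (v 2 0 - v 0 0) - (e 2 - e 0) * (v 1 0 - v 0 0)|
        ≤ |(e 1 - e 0) * (v 2 0 - v 0 0)| + |(e 2 - e 0) * (v 1 0 - v 0 0)| := abs_sub _ _
      _ ≤ (2 * m) * (2 * M) + (2 * m) * (2 * M) := by
          rw [abs_mul, abs_mul]
          gcongr
      _ = _ := by ring

lemma norm_E2_le (x : E2) : ‖x‖ ≤ |x 0| + |x 1| := by
  rw [EuclideanSpace.norm_eq, Fin.sum_univ_two]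
  rw [Real.sqrt_le_left (by positivity)]
  simp only [Real.norm_eq_abs, sq_abs]
  nlinarith [abs_nonneg (x 0), abs_nonneg (x 1), sq_abs (x 0), sq_abs (x 1),
    mul_nonneg (abs_nonneg (x 0)) (abs_nonneg (x 1))]

lemma abs_coord_le (x : E2) (i : Fin 2) : |x i| ≤ ‖x‖ := by
  have := PiLp.norm_apply_le x i
  simpa using this

/-- mean value inequality for the phase -/
lemma phase_mvt {h : E2 → ℝ} {L δ : ℝ} (hd : Differentiable ℝ h)
    (hL : ∀ ξ ξ', ‖gradient h ξ - gradient h ξ'‖ ≤ L * ‖ξ - ξ'‖) (hL0 : 0 ≤ L) {c ξ ξ' : E2}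
    (h1 : ‖ξ - c‖ ≤ δ) (h2 : ‖ξ' - c‖ ≤ δ) :
    |h ξ - h ξ' - inner ℝ (gradient h c) (ξ - ξ')| ≤ L * δ * ‖ξ - ξ'‖ := by
  set f : E2 → ℝ := fun x => h x - inner ℝ (gradient h c) x with hf
  set f' : E2 → E2 →L[ℝ] ℝ := fun x => InnerProductSpace.toDual ℝ E2 (gradient h x - gradient h c)
    with hf'
  have hder : ∀ x ∈ Metric.closedBall c δ, HasFDerivWithinAt f (f' x) (Metric.closedBall c δ) x := by
    intro x _
    have e1 := (hd x).hasGradientAt.hasFDerivAt
    have e2 : HasFDerivAt (fun x : E2 => inner ℝ (gradient h c) x)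
        (InnerProductSpace.toDual ℝ E2 (gradient h c)) x := by
      have := (InnerProductSpace.toDual ℝ E2 (gradient h c)).hasFDerivAt (x := x)
      exact this
    have e3 := e1.sub e2
    rw [← map_sub] at e3
    exact e3.hasFDerivWithinAt
  have hb : ∀ x ∈ Metric.closedBall c δ, ‖f' x‖ ≤ L * δ := by
    intro x hx
    simp only [hf']
    rw [LinearIsometryEquiv.norm_map]
    refine (hL x c).trans (mul_le_mul_of_nonneg_left ?_ hL0)
    rwa [Metric.mem_closedBall, dist_eq_norm] at hx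
  have h3 := (convex_closedBall c δ).norm_image_sub_le_of_norm_hasFDerivWithin_le hder hb
    (x := ξ') (y := ξ) (by rwa [Metric.mem_closedBall, dist_eq_norm])
    (by rwa [Metric.mem_closedBall, dist_eq_norm])
  have e : f ξ - f ξ' = h ξ - h ξ' - inner ℝ (gradient h c) (ξ - ξ') := by
    simp only [hf]
    rw [inner_sub_right]
    ring
  rw [e, Real.norm_eq_abs] at h3
  exact h3

/-- flatness of a small cap after the change of variables -/
lemma lip_cap {h : E2 → ℝ} {L M K ν δ : ℝ} (hd : Differentiable ℝ h)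
    (hL : ∀ ξ ξ', ‖gradient h ξ - gradient h ξ'‖ ≤ L * ‖ξ - ξ'‖) (hL0 : 0 ≤ L) (hK : 1 < K)
    (hν : 0 < ν) {v : Fin 3 → E2} (hM : ∀ j i, |v j i| ≤ M) (hv : ν ≤ |area v|) {j : Fin 3} {c : E2}
    (hc : v j = gradient h c) {g : E2 → ℂ} (hg : ∀ ξ, g ξ ≠ 0 → ‖ξ - c‖ ≤ δ)
    (hδ : K * (L * δ * (16 * M)) ≤ ν) (hδ0 : 0 ≤ δ) :
    Lip K j g (fun ξ => (Tm v).mulVec (Xi h ξ)) := by
  intro ξ ξ' h1 h2 η hη
  have hM0 : 0 ≤ M := (abs_nonneg _).trans (hM 0 0)
  obtain ⟨i0, hi0⟩ : ∃ i : Fin 3, i ≠ j := exists_ne j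
  have hη0 : 0 ≤ η := (abs_nonneg _).trans (hη i0 hi0)
  set x := ξ 0 - ξ' 0 with hx
  set y := ξ 1 - ξ' 1 with hy
  set z := h ξ - h ξ' with hz
  have hE : ∀ k, (Tm v).mulVec (Xi h ξ) k - (Tm v).mulVec (Xi h ξ') k =
      -(v k 0) * x - v k 1 * y + z := by
    intro k
    rw [Tm_mulVec, Tm_mulVec]
    simp only [Xi, pt3, hx, hy, hz]
    simp
    ring
  have hEj : |-(v j 0) * x - v j 1 * y + z| ≤ L * δ * ‖ξ - ξ'‖ := by
    have := phase_mvt hd hL hL0 (hg ξ h1) (hg ξ' h2)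
    rw [← hc, inner_E2] at this
    refine le_trans (le_of_eq ?_) this
    congr 1
    simp only [hx, hy, hz, PiLp.sub_apply]
    ring
  set m := max η |-(v j 0) * x - v j 1 * y + z| with hm
  have hmall : ∀ k, |-(v k 0) * x - v k 1 * y + z| ≤ m := by
    intro k
    by_cases hk : k = j
    · rw [hk]; exact le_max_right _ _
    · rw [← hE k]; exact (hη k hk).trans (le_max_left _ _)
  obtain ⟨b1, b2⟩ := area_bound hM hmall
  have hn : ‖ξ - ξ'‖ ≤ |x| + |y| := norm_E2_le (ξ - ξ')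
  have h3 : ν * ‖ξ - ξ'‖ ≤ 16 * M * m := by
    have hA : 0 ≤ |area v| := abs_nonneg _
    calc ν * ‖ξ - ξ'‖ ≤ |area v| * (|x| + |y|) := by gcongr
      _ = |area v| * |x| + |area v| * |y| := by ring
      _ ≤ _ := by linarith
  have hm0 : 0 ≤ m := hη0.trans (le_max_left _ _)
  set E := |-(v j 0) * x - v j 1 * y + z| with hEd
  have h4 : K * E ≤ m := by
    have h5 : ν * (K * E) ≤ ν * m := by
      calc ν * (K * E) ≤ ν * (K * (L * δ * ‖ξ - ξ'‖)) := by gcongr
        _ = K * (L * δ) * (ν * ‖ξ - ξ'‖) := by ring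
        _ ≤ K * (L * δ) * (16 * M * m) := by
            refine mul_le_mul_of_nonneg_left h3 (by positivity)
        _ = (K * (L * δ * (16 * M))) * m := by ring
        _ ≤ ν * m := by gcongr
    exact le_of_mul_le_mul_left h5 hν
  show K * |(Tm v).mulVec (Xi h ξ) j - (Tm v).mulVec (Xi h ξ') j| ≤ η
  rw [hE j]
  show K * E ≤ η
  rcases le_total E η with h6 | h6
  · rwa [hm, max_eq_left h6] at h4
  · rw [hm, max_eq_right h6] at h4
    have hE0 : 0 ≤ E := abs_nonneg _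
    have : E ≤ 0 := by nlinarith
    have hE00 : E = 0 := le_antisymm this hE0
    rw [hE00, mul_zero]
    exact hη0

end Crest.Agent.R138.BCT191
end

-- ▼ part R138/BCT7_191
section

/-!
# Trilinear restriction, file 7 (row 138, helper191): three small transversal caps
-/

set_option autoImplicit false

open MeasureTheory Set
open scoped ENNReal FourierTransform SchwartzMap

namespace Crest.Agent.R138.BCT191

open Crest.Agent.R138.Defs (ee E2 cyl)
open Crest.Agent.R138.Bct383 (sq_mul sq_mono sq_mul_self measurable_sq)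

local notation "rt" => Crest.Agent.R138.Bct383.sq
local notation "ext'" => Crest.Agent.R138.Defs.ext

/-- the energy of a function -/
noncomputable def En (g : E2 → ℂ) : ℝ≥0∞ := ∫⁻ ξ, ‖g ξ‖ₑ ^ 2

lemma br_add_le {r : ℝ} (hr : 0 < r) (a b : ℝ) : br r (a + b) ≤ br r a * br r b := by
  have := br_le_mul hr (a + b) (-b)
  rwa [br_neg, add_neg_cancel_right] at this

/-- product of three one-dimensional weights against the weight of the sum -/
lemma w3_le {N : ℕ} {r : ℝ} (hr : 0 < r) (a b c : ℝ) :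
    w N r a * (w N r b * w N r c) ≤ ENNReal.ofReal r⁻¹ ^ 2 * w N r (a + b + c) := by
  unfold w
  have ha := br_pos hr a
  have hb := br_pos hr b
  have hc := br_pos hr c
  have hs := br_pos hr (a + b + c)
  rw [← ENNReal.ofReal_pow (by positivity), ← ENNReal.ofReal_mul (by positivity),
    ← ENNReal.ofReal_mul (by positivity), ← ENNReal.ofReal_mul (by positivity)]
  refine ENNReal.ofReal_le_ofReal ?_
  have h1 : br r (a + b + c) ≤ br r a * br r b * br r c :=
    (br_add_le hr _ _).trans (mul_le_mul_of_nonneg_right (br_add_le hr _ _) hc.le)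
  have h2 : br r (a + b + c) ^ N ≤ br r a ^ N * br r b ^ N * br r c ^ N := by
    rw [← mul_pow, ← mul_pow]
    exact pow_le_pow_left₀ hs.le h1 N
  have h3 : (br r a ^ N * br r b ^ N * br r c ^ N)⁻¹ ≤ (br r (a + b + c) ^ N)⁻¹ :=
    inv_anti₀ (by positivity) h2
  calc r⁻¹ * (br r a ^ N)⁻¹ * (r⁻¹ * (br r b ^ N)⁻¹ * (r⁻¹ * (br r c ^ N)⁻¹))
      = r⁻¹ ^ 3 * (br r a ^ N * br r b ^ N * br r c ^ N)⁻¹ := by
        rw [mul_inv, mul_inv]; ring
    _ ≤ r⁻¹ ^ 3 * (br r (a + b + c) ^ N)⁻¹ := mul_le_mul_of_nonneg_left h3 (by positivity)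
    _ = _ := by ring

lemma measurable_F3_ext {h : E2 → ℝ} (hh : Measurable h) {g : E2 → ℂ} (hg : Measurable g) :
    Measurable (F3 volume g (Xi h)) := measurable_F3 hg (measurable_Xi hh)

/-- weighted energy over space-time -/
lemma weighted_energy {h : E2 → ℝ} (hh : Measurable h) {g : E2 → ℂ} (hg : Measurable g)
    (h1 : Integrable g) (h2 : MemLp g 2) {N : ℕ} {r : ℝ} (hr : 0 < r) :
    ∫⁻ X : P3, w N r (X 2) * F3 volume g (Xi h) X = I N * En g := by
  have hm : Measurable (fun X : P3 => w N r (X 2) * F3 volume g (Xi h) X) := by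
    have := measurable_F3_ext hh hg
    fun_prop
  rw [← lintegral_emb hm, Measure.volume_eq_prod]
  have hm2 : Measurable (fun p : E2 × ℝ => w N r (emb p 2) * F3 volume g (Xi h) (emb p)) :=
    hm.comp measurable_emb
  rw [lintegral_prod_symm _ hm2.aemeasurable]
  have e : ∀ t : ℝ, ∫⁻ x : E2, w N r (emb (x, t) 2) * F3 volume g (Xi h) (emb (x, t)) =
      w N r t * En g := by
    intro t
    have e1 : ∀ x : E2, w N r (emb (x, t) 2) * F3 volume g (Xi h) (emb (x, t)) =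
        w N r t * ‖ext' h g x t‖ₑ ^ 2 := by
      intro x
      have := enorm_ext h g (x, t)
      simp only at this
      rw [this]
      rfl
    simp_rw [e1]
    rw [lintegral_const_mul' _ _ (w_ne_top _ _ _), energy hh h1 h2 t]
    rfl
  simp_rw [e]
  rw [lintegral_mul_const _ (by fun_prop), lintegral_w hr]

/-- the average of the superposition after the change of variables -/
lemma Av_le {h : E2 → ℝ} (hh : Measurable h) {g : E2 → ℂ} (hg : Measurable g)
    (h1 : Integrable g) (h2 : MemLp g 2) {N : ℕ} {r : ℝ} (hr : 0 < r) {v : Fin 3 → E2}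
    (hv : area v ≠ 0) :
    ENNReal.ofReal |area v| * Av N r (F3 volume g fun ξ => (Tm v).mulVec (Xi h ξ)) 0 ≤
      ENNReal.ofReal r⁻¹ ^ 2 * (I N * En g) := by
  have hdet : (Tm v).transpose.det = area v := by rw [Matrix.det_transpose, det_Tm]
  have hm0 := measurable_F3_ext hh hg
  have hmv : ∀ A : Matrix (Fin 3) (Fin 3) ℝ, Measurable (fun y : P3 => A.mulVec y) := fun A => by
    have hc : Continuous (Matrix.toLin' A : P3 → P3) := LinearMap.continuous_of_finiteDimensional _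
    have e : (fun y : P3 => A.mulVec y) = (Matrix.toLin' A : P3 → P3) := by
      funext y
      rw [Matrix.toLin'_apply]
    rw [e]
    exact hc.measurable
  have hF : ∀ y, F3 volume g (fun ξ => (Tm v).mulVec (Xi h ξ)) y =
      F3 volume g (Xi h) ((Tm v).transpose.mulVec y) := by
    intro y
    unfold F3
    rw [S3_mulVec]
  have hm1 : Measurable (F3 volume g fun ξ => (Tm v).mulVec (Xi h ξ)) := by
    have : (F3 volume g fun ξ => (Tm v).mulVec (Xi h ξ)) =
      fun y => F3 volume g (Xi h) ((Tm v).transpose.mulVec y) := funext hF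
    rw [this]
    exact hm0.comp (hmv _)
  unfold Av
  rw [CW_zero (measurable_w N r) (fun t => w_ne_top _ _ _) (fun t => w_neg _ _ _) hm1]
  have hle : ∀ y : P3, w N r (y 0) * (w N r (y 1) * (w N r (y 2) *
      F3 volume g (fun ξ => (Tm v).mulVec (Xi h ξ)) y)) ≤
      ENNReal.ofReal r⁻¹ ^ 2 * (w N r ((Tm v).transpose.mulVec y 2) *
        F3 volume g (Xi h) ((Tm v).transpose.mulVec y)) := by
    intro y
    rw [hF, TmT_mulVec2]
    calc w N r (y 0) * (w N r (y 1) * (w N r (y 2) *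
          F3 volume g (Xi h) ((Tm v).transpose.mulVec y)))
        = (w N r (y 0) * (w N r (y 1) * w N r (y 2))) *
          F3 volume g (Xi h) ((Tm v).transpose.mulVec y) := by ring
      _ ≤ (ENNReal.ofReal r⁻¹ ^ 2 * w N r (y 0 + y 1 + y 2)) *
          F3 volume g (Xi h) ((Tm v).transpose.mulVec y) := mul_le_mul_left (w3_le hr _ _ _) _
      _ = _ := by ring
  have hm : Measurable (fun X : P3 => w N r (X 2) * F3 volume g (Xi h) X) := by fun_prop
  have hcv := lintegral_mulVec (A := (Tm v).transpose) (by rw [hdet]; exact hv) hm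
  rw [hdet, weighted_energy hh hg h1 h2 hr] at hcv
  calc ENNReal.ofReal |area v| * ∫⁻ y : P3, w N r (y 0) * (w N r (y 1) * (w N r (y 2) *
        F3 volume g (fun ξ => (Tm v).mulVec (Xi h ξ)) y))
      ≤ ENNReal.ofReal |area v| * ∫⁻ y : P3, ENNReal.ofReal r⁻¹ ^ 2 *
        (w N r ((Tm v).transpose.mulVec y 2) *
        F3 volume g (Xi h) ((Tm v).transpose.mulVec y)) :=
        mul_le_mul_right (lintegral_mono hle) _
    _ = ENNReal.ofReal r⁻¹ ^ 2 * (ENNReal.ofReal |area v| * ∫⁻ y : P3,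
        w N r ((Tm v).transpose.mulVec y 2) *
        F3 volume g (Xi h) ((Tm v).transpose.mulVec y)) := by
        rw [lintegral_const_mul' _ _ (by finiteness)]
        ring
    _ = _ := by rw [hcv]

/-- the inverse change of variables maps the cylinder to a ball -/
lemma inv_bound {v : Fin 3 → E2} {M R ν : ℝ} (hM1 : 1 ≤ M) (hM : ∀ j i, |v j i| ≤ M) (hν : 0 < ν)
    (hν1 : ν ≤ 1) (hv : ν ≤ |area v|) {Y : P3}
    (hY : ∀ i, |(Tm v).transpose.mulVec Y i| ≤ R) (i : Fin 3) :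
    |Y i| ≤ 18 * M ^ 2 * R / ν := by
  have hR0 : 0 ≤ R := (abs_nonneg _).trans (hY 0)
  set X0 := (Tm v).transpose.mulVec Y 0 with hX0
  set X1 := (Tm v).transpose.mulVec Y 1 with hX1
  set X2 := (Tm v).transpose.mulVec Y 2 with hX2
  have q0 : |X0| ≤ R := hY 0
  have q1 : |X1| ≤ R := hY 1
  have q2 : |X2| ≤ R := hY 2
  have a10 : |v 1 0 - v 0 0| ≤ 2 * M := abs_sub_le_two (hM 1 0) (hM 0 0)
  have a20 : |v 2 0 - v 0 0| ≤ 2 * M := abs_sub_le_two (hM 2 0) (hM 0 0)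
  have b10 : |v 1 1 - v 0 1| ≤ 2 * M := abs_sub_le_two (hM 1 1) (hM 0 1)
  have b20 : |v 2 1 - v 0 1| ≤ 2 * M := abs_sub_le_two (hM 2 1) (hM 0 1)
  have p0 : |X0 + v 0 0 * X2| ≤ 2 * M * R := by
    calc |X0 + v 0 0 * X2| ≤ |X0| + |v 0 0| * |X2| := by rw [← abs_mul]; exact abs_add_le _ _
      _ ≤ R + M * R := by
          have := hM 0 0
          gcongr
      _ ≤ 2 * M * R := by nlinarith
  have p1 : |X1 + v 0 1 * X2| ≤ 2 * M * R := by
    calc |X1 + v 0 1 * X2| ≤ |X1| + |v 0 1| * |X2| := by rw [← abs_mul]; exact abs_add_le _ _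
      _ ≤ R + M * R := by
          have := hM 0 1
          gcongr
      _ ≤ 2 * M * R := by nlinarith
  have e1 : area v * Y 1 = (X1 + v 0 1 * X2) * (v 2 0 - v 0 0) -
      (X0 + v 0 0 * X2) * (v 2 1 - v 0 1) := by
    rw [hX0, hX1, hX2, TmT_mulVec0, TmT_mulVec1, TmT_mulVec2, area]
    ring
  have e2 : area v * Y 2 = (X0 + v 0 0 * X2) * (v 1 1 - v 0 1) -
      (X1 + v 0 1 * X2) * (v 1 0 - v 0 0) := by
    rw [hX0, hX1, hX2, TmT_mulVec0, TmT_mulVec1, TmT_mulVec2, area]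
    ring
  have f1 : ν * |Y 1| ≤ 8 * M ^ 2 * R := by
    calc ν * |Y 1| ≤ |area v| * |Y 1| := by gcongr
      _ = |area v * Y 1| := (abs_mul _ _).symm
      _ ≤ |(X1 + v 0 1 * X2) * (v 2 0 - v 0 0)| + |(X0 + v 0 0 * X2) * (v 2 1 - v 0 1)| := by
          rw [e1]; exact abs_sub _ _
      _ ≤ (2 * M * R) * (2 * M) + (2 * M * R) * (2 * M) := by
          rw [abs_mul, abs_mul]
          gcongr
      _ = _ := by ring
  have f2 : ν * |Y 2| ≤ 8 * M ^ 2 * R := by
    calc ν * |Y 2| ≤ |area v| * |Y 2| := by gcongr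
      _ = |area v * Y 2| := (abs_mul _ _).symm
      _ ≤ |(X0 + v 0 0 * X2) * (v 1 1 - v 0 1)| + |(X1 + v 0 1 * X2) * (v 1 0 - v 0 0)| := by
          rw [e2]; exact abs_sub _ _
      _ ≤ (2 * M * R) * (2 * M) + (2 * M * R) * (2 * M) := by
          rw [abs_mul, abs_mul]
          gcongr
      _ = _ := by ring
  have f0 : ν * |Y 0| ≤ 17 * M ^ 2 * R := by
    have e0 : Y 0 = X2 - Y 1 - Y 2 := by rw [hX2, TmT_mulVec2]; ring
    have g : |Y 0| ≤ |X2| + |Y 1| + |Y 2| := by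
      rw [e0]
      exact (abs_sub _ _).trans (add_le_add (abs_sub _ _) le_rfl)
    have g2 : ν * |X2| ≤ M ^ 2 * R := by
      calc ν * |X2| ≤ 1 * R := by gcongr
        _ ≤ M ^ 2 * R := by
          refine mul_le_mul_of_nonneg_right ?_ hR0
          nlinarith
    calc ν * |Y 0| ≤ ν * (|X2| + |Y 1| + |Y 2|) := by gcongr
      _ = ν * |X2| + ν * |Y 1| + ν * |Y 2| := by ring
      _ ≤ _ := by linarith
  rw [le_div_iff₀ hν]
  have hpos : 0 ≤ M ^ 2 * R := by positivity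
  fin_cases i
  · show |Y 0| * ν ≤ _
    nlinarith
  · show |Y 1| * ν ≤ _
    nlinarith
  · show |Y 2| * ν ≤ _
    nlinarith

lemma rt_mono_of_le_one {ν : ℝ} (_hν : 0 ≤ ν) (hν1 : ν ≤ 1) :
    ENNReal.ofReal ν ≤ rt (ENNReal.ofReal ν) := by
  have h1 : Bct383.sq (ENNReal.ofReal ν) ≤ 1 := by
    rw [← Bct383.sq_one]
    refine sq_mono ?_
    rw [← ENNReal.ofReal_one]
    exact ENNReal.ofReal_le_ofReal hν1
  calc ENNReal.ofReal ν = rt (ENNReal.ofReal ν) * rt (ENNReal.ofReal ν) := (sq_mul_self _).symm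
    _ ≤ rt (ENNReal.ofReal ν) * 1 := mul_le_mul_right h1 _
    _ = _ := mul_one _

lemma measurable_congr_fun {α : Type*} [MeasurableSpace α] {f g : α → ℝ≥0∞} (hf : Measurable f)
    (h : ∀ x, f x = g x) : Measurable g := by
  have : f = g := funext h
  rwa [← this]

/-- **trilinear restriction for three small transversal caps** -/
theorem cap (L M : ℝ) (hL0 : 0 ≤ L) (hM1 : 1 ≤ M) (ε : ℝ) (hε : 0 < ε) :
    ∃ K : ℝ, 1 < K ∧ ∃ C : ℝ, 0 < C ∧ ∀ h : E2 → ℝ, Differentiable ℝ h →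
    (∀ ξ ξ', ‖gradient h ξ - gradient h ξ'‖ ≤ L * ‖ξ - ξ'‖) →
    (∀ ξ, ‖ξ‖ ≤ 2 → ‖gradient h ξ‖ ≤ M) → ∀ ν R δ : ℝ, 0 < ν → ν ≤ 1 → 1 ≤ R → 0 ≤ δ →
    K * (L * δ * (16 * M)) ≤ ν → ∀ g : Fin 3 → E2 → ℂ, (∀ j, Measurable (g j)) →
    (∀ j, Integrable (g j)) → (∀ j, MemLp (g j) 2) → (∀ j ξ, g j ξ ≠ 0 → ‖ξ‖ ≤ 2) →
    ∀ c : Fin 3 → E2, (∀ j, ‖c j‖ ≤ 2) → (∀ j ξ, g j ξ ≠ 0 → ‖ξ - c j‖ ≤ δ) →
    ν ≤ |area fun j => gradient h (c j)| →
      ∫⁻ p in cyl R, ‖ext' h (g 0) p.1 p.2‖ₑ * ‖ext' h (g 1) p.1 p.2‖ₑ * ‖ext' h (g 2) p.1 p.2‖ₑ ≤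
        ENNReal.ofReal (C * (R / ν) ^ ε * ν⁻¹) * (rt (En (g 0)) * rt (En (g 1)) * rt (En (g 2))) := by
  obtain ⟨K, hK, hax⟩ := axis 2 le_rfl ε hε
  obtain ⟨C, hC, hax⟩ := hax (6 * M) (by linarith)
  have hI : I 2 ≠ ⊤ := I_ne_top le_rfl
  have hrI : rt (I 2) ≠ ⊤ := rt_ne_top hI
  set c3 : ℝ := (rt (I 2)).toReal + 1 with hc3
  have hc3p : 0 < c3 := by positivity
  have hc3le : rt (I 2) ≤ ENNReal.ofReal c3 := by
    rw [hc3, ENNReal.ofReal_add (by positivity) (by norm_num), ENNReal.ofReal_toReal hrI]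
    exact le_self_add
  refine ⟨K, hK, 64 ^ 3 * C * (18 * M ^ 2) ^ ε * c3 ^ 3, by positivity, ?_⟩
  intro h hd hL hG ν R δ hν hν1 hR hδ hKδ g hgm hgi hg2 hgs c hc hgc harea
  have hh : Measurable h := hd.continuous.measurable
  set v : Fin 3 → E2 := fun j => gradient h (c j) with hv
  have hvM : ∀ j i, |v j i| ≤ M := fun j i => (abs_coord_le _ i).trans (hG _ (hc j))
  have hv0 : area v ≠ 0 := by
    intro h0
    rw [h0, abs_zero] at harea
    linarith
  set R' : ℝ := 18 * M ^ 2 * R / ν with hR'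
  have hR'1 : 1 ≤ R' := by
    rw [hR', le_div_iff₀ hν]
    nlinarith
  have hR'0 : 0 < R' := by linarith
  set W := w (2 + 2 + 2) R' with hW
  set γ : Fin 3 → E2 → P3 := fun _ ξ => (Tm v).mulVec (Xi h ξ) with hγ
  have hXi := measurable_Xi hh
  have hmv : ∀ A : Matrix (Fin 3) (Fin 3) ℝ, Measurable (fun y : P3 => A.mulVec y) := fun A => by
    have hc : Continuous (Matrix.toLin' A : P3 → P3) := LinearMap.continuous_of_finiteDimensional _
    have e : (fun y : P3 => A.mulVec y) = (Matrix.toLin' A : P3 → P3) := by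
      funext y
      rw [Matrix.toLin'_apply]
    rw [e]
    exact hc.measurable
  have hγm : ∀ j, Measurable (γ j) := fun j => (hmv _).comp hXi
  have hLip : ∀ j, Lip K j (g j) (γ j) := fun j =>
    lip_cap hd hL hL0 hK hν hvM harea rfl (hgc j) hKδ hδ
  have hbd : ∀ j ξ, g j ξ ≠ 0 → ∀ i, |γ j ξ i| ≤ 6 * M := by
    intro j ξ hξ i
    have hξ2 := hgs j ξ hξ
    simp only [hγ]
    rw [Tm_mulVec]
    have x0 : |Xi h ξ 0| ≤ 2 := (abs_coord_le ξ 0).trans hξ2
    have x1 : |Xi h ξ 1| ≤ 2 := (abs_coord_le ξ 1).trans hξ2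
    have x2 : |Xi h ξ 2| ≤ 2 * M := by
      show |h ξ - h 0| ≤ 2 * M
      have hder : ∀ x ∈ Metric.closedBall (0 : E2) 2, HasFDerivWithinAt h
          (InnerProductSpace.toDual ℝ E2 (gradient h x)) (Metric.closedBall (0 : E2) 2) x :=
        fun x _ => (hd x).hasGradientAt.hasFDerivAt.hasFDerivWithinAt
      have hb : ∀ x ∈ Metric.closedBall (0 : E2) 2,
          ‖InnerProductSpace.toDual ℝ E2 (gradient h x)‖ ≤ M := by
        intro x hx
        rw [LinearIsometryEquiv.norm_map]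
        exact hG x (by simpa using hx)
      have h3 := (convex_closedBall (0 : E2) 2).norm_image_sub_le_of_norm_hasFDerivWithin_le hder hb
        (x := 0) (y := ξ) (by simp) (by simpa using hξ2)
      rw [Real.norm_eq_abs, sub_zero] at h3
      calc |h ξ - h 0| ≤ M * ‖ξ‖ := h3
        _ ≤ M * 2 := by gcongr
        _ = 2 * M := by ring
    have hv0' := hvM i 0
    have hv1' := hvM i 1
    calc |-(v i 0) * Xi h ξ 0 - v i 1 * Xi h ξ 1 + Xi h ξ 2|
        ≤ |v i 0| * |Xi h ξ 0| + |v i 1| * |Xi h ξ 1| + |Xi h ξ 2| := by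
          refine (abs_add_le _ _).trans (add_le_add ((abs_sub _ _).trans ?_) le_rfl)
          rw [abs_mul, abs_neg, abs_mul]
      _ ≤ M * 2 + M * 2 + 2 * M := by gcongr
      _ = 6 * M := by ring
  have key := hax volume g γ hgm hgi hγm hLip hbd R' hR'1 0
  set A := (Tm v).transpose with hA
  have hdet : A.det = area v := by rw [hA, Matrix.det_transpose, det_Tm]
  set D := ENNReal.ofReal |area v| with hD
  -- the integrand
  have mS : ∀ j, Measurable (fun X => ‖S3 volume (g j) (Xi h) X‖ₑ) := by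
    intro j
    have h1 := measurable_F3_ext hh (hgm j)
    have h2 : Measurable (fun X => rt (F3 volume (g j) (Xi h) X)) :=
      Bct383.measurable_sq.comp h1
    refine (measurable_congr_fun h2 fun X => ?_)
    unfold F3
    rw [Bct383.sq_sq]
  set u : P3 → ℝ≥0∞ := fun X => ‖S3 volume (g 0) (Xi h) X‖ₑ * ‖S3 volume (g 1) (Xi h) X‖ₑ *
    ‖S3 volume (g 2) (Xi h) X‖ₑ with hu
  have hum : Measurable u := ((mS 0).mul (mS 1)).mul (mS 2)
  set B : Set P3 := {X | ∀ i, |X i| ≤ R} with hB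
  have hBm : MeasurableSet B := by
    rw [hB, ofPred_forall]
    exact MeasurableSet.iInter fun i => measurableSet_le (by fun_prop) measurable_const
  have hcm : MeasurableSet (cyl R) := by
    have e : cyl R = {p : E2 × ℝ | ‖p.1‖ ≤ R} ∩ {p : E2 × ℝ | |p.2| ≤ R} := rfl
    rw [e]
    have m1 : Measurable (fun p : E2 × ℝ => ‖p.1‖) := by fun_prop
    have m2 : Measurable (fun p : E2 × ℝ => |p.2|) := by fun_prop
    exact (measurableSet_le m1 measurable_const).inter (measurableSet_le m2 measurable_const)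
  have hBu : Measurable (B.indicator u) := hum.indicator hBm
  have s1 : ∫⁻ p in cyl R, ‖ext' h (g 0) p.1 p.2‖ₑ * ‖ext' h (g 1) p.1 p.2‖ₑ *
      ‖ext' h (g 2) p.1 p.2‖ₑ ≤ ∫⁻ X, B.indicator u X := by
    rw [← lintegral_emb hBu]
    refine le_trans ?_ (setLIntegral_le_lintegral (cyl R) _)
    refine setLIntegral_mono' hcm fun p hp => ?_
    have hpB : emb p ∈ B := by
      intro i
      obtain ⟨hp1, hp2⟩ := hp
      fin_cases i
      · exact (abs_coord_le p.1 0).trans hp1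
      · exact (abs_coord_le p.1 1).trans hp1
      · exact hp2
    rw [indicator_of_mem hpB, enorm_ext, enorm_ext, enorm_ext]
  have s2 : ∫⁻ X, B.indicator u X = D * ∫⁻ Y : P3, B.indicator u (A.mulVec Y) := by
    rw [hD, ← hdet, lintegral_mulVec (by rw [hdet]; exact hv0) hBu]
  have hWY : ∀ t, |t| ≤ R' → 1 ≤ ENNReal.ofReal (64 * R') * W t := by
    intro t ht
    have hb := br_pos hR'0 t
    have hb2 : br R' t ≤ 2 := by
      unfold br
      have : |t| / R' ≤ 1 := by rw [div_le_one hR'0]; exact ht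
      linarith
    rw [hW]
    unfold w
    rw [← ENNReal.ofReal_mul (by positivity), ← ENNReal.ofReal_one]
    refine ENNReal.ofReal_le_ofReal ?_
    have hb6 : br R' t ^ (2 + 2 + 2) ≤ 64 := by
      calc br R' t ^ (2 + 2 + 2) ≤ 2 ^ (2 + 2 + 2) := pow_le_pow_left₀ hb.le hb2 _
        _ = 64 := by norm_num
    have e : 64 * R' * (R'⁻¹ * (br R' t ^ (2 + 2 + 2))⁻¹) = 64 * (br R' t ^ (2 + 2 + 2))⁻¹ := by
      field_simp
    rw [e, ← div_eq_mul_inv, le_div_iff₀ (by positivity), one_mul]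
    exact hb6
  have s3 : ∀ Y : P3, B.indicator u (A.mulVec Y) ≤ ENNReal.ofReal (64 * R') ^ 3 *
      (W (Y 0) * (W (Y 1) * (W (Y 2) * u (A.mulVec Y)))) := by
    intro Y
    by_cases hY : A.mulVec Y ∈ B
    · rw [indicator_of_mem hY]
      have hi := inv_bound hM1 hvM hν hν1 harea hY
      have k0 := hWY _ (hi 0)
      have k1 := hWY _ (hi 1)
      have k2 := hWY _ (hi 2)
      calc u (A.mulVec Y) = 1 * (1 * (1 * u (A.mulVec Y))) := by simp
        _ ≤ (ENNReal.ofReal (64 * R') * W (Y 0)) * ((ENNReal.ofReal (64 * R') * W (Y 1)) *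
            ((ENNReal.ofReal (64 * R') * W (Y 2)) * u (A.mulVec Y))) := by gcongr
        _ = _ := by ring
    · rw [indicator_of_notMem hY]
      exact bot_le
  have huA : Measurable (fun Y : P3 => u (A.mulVec Y)) := hum.comp (hmv A)
  have s4 : ∫⁻ Y : P3, W (Y 0) * (W (Y 1) * (W (Y 2) * u (A.mulVec Y))) =
      CW (fun _ => W) (fun y => ‖S3 volume (g 0) (γ 0) y‖ₑ * ‖S3 volume (g 1) (γ 1) y‖ₑ *
        ‖S3 volume (g 2) (γ 2) y‖ₑ) 0 := by
    rw [← CW_zero (measurable_w _ _) (fun t => w_ne_top _ _ _) (fun t => w_neg _ _ _) huA]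
    congr 1
    funext y
    simp only [hγ, hu, S3_mulVec, hA]
  set F : Fin 3 → P3 → ℝ≥0∞ := fun j => F3 volume (g j) (γ j) with hF
  have hAv : ∀ j, D * Av 2 R' (F j) 0 ≤ ENNReal.ofReal R'⁻¹ ^ 2 * (I 2 * En (g j)) := fun j =>
    Av_le hh (hgm j) (hgi j) (hg2 j) hR'0 hv0
  have hAv2 : ∀ j, rt D * rt (Av 2 R' (F j) 0) ≤
      ENNReal.ofReal R'⁻¹ * (ENNReal.ofReal c3 * rt (En (g j))) := by
    intro j
    have h1 := sq_mono (hAv j)
    rw [sq_mul, sq_mul, sq_mul, Bct383.sq_sq] at h1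
    exact h1.trans (mul_le_mul_right (mul_le_mul_left hc3le _) _)
  have s5 : D * Mr 2 R' F 0 ≤ ENNReal.ofReal ν⁻¹ * ((ENNReal.ofReal R'⁻¹ * ENNReal.ofReal c3) ^ 3 *
      (rt (En (g 0)) * rt (En (g 1)) * rt (En (g 2)))) := by
    have h1 : ENNReal.ofReal ν ≤ rt D :=
      (rt_mono_of_le_one hν.le hν1).trans (sq_mono (ENNReal.ofReal_le_ofReal harea))
    have h2 : ENNReal.ofReal ν⁻¹ * ENNReal.ofReal ν = 1 := by
      rw [← ENNReal.ofReal_mul (by positivity), inv_mul_cancel₀ hν.ne', ENNReal.ofReal_one]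
    calc D * Mr 2 R' F 0 = ENNReal.ofReal ν⁻¹ * (ENNReal.ofReal ν * (D * Mr 2 R' F 0)) := by
          rw [← mul_assoc, h2, one_mul]
      _ ≤ ENNReal.ofReal ν⁻¹ * (rt D * (D * Mr 2 R' F 0)) :=
          mul_le_mul_right (mul_le_mul_left h1 _) _
      _ = ENNReal.ofReal ν⁻¹ * ((rt D * rt (Av 2 R' (F 0) 0)) * (rt D * rt (Av 2 R' (F 1) 0)) *
          (rt D * rt (Av 2 R' (F 2) 0))) := by
          have e : D = rt D * rt D := (sq_mul_self D).symm
          congr 1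
          calc rt D * (D * Mr 2 R' F 0) = rt D * ((rt D * rt D) * Mr 2 R' F 0) := by rw [← e]
            _ = _ := by unfold Mr; ring
      _ ≤ ENNReal.ofReal ν⁻¹ * ((ENNReal.ofReal R'⁻¹ * (ENNReal.ofReal c3 * rt (En (g 0)))) *
          (ENNReal.ofReal R'⁻¹ * (ENNReal.ofReal c3 * rt (En (g 1)))) *
          (ENNReal.ofReal R'⁻¹ * (ENNReal.ofReal c3 * rt (En (g 2))))) :=
          mul_le_mul_right (mul_le_mul' (mul_le_mul' (hAv2 0) (hAv2 1)) (hAv2 2)) _
      _ = _ := by ring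
  calc ∫⁻ p in cyl R, ‖ext' h (g 0) p.1 p.2‖ₑ * ‖ext' h (g 1) p.1 p.2‖ₑ *
        ‖ext' h (g 2) p.1 p.2‖ₑ
      ≤ D * ∫⁻ Y : P3, B.indicator u (A.mulVec Y) := s1.trans (le_of_eq s2)
    _ ≤ D * ∫⁻ Y : P3, ENNReal.ofReal (64 * R') ^ 3 *
        (W (Y 0) * (W (Y 1) * (W (Y 2) * u (A.mulVec Y)))) :=
        mul_le_mul_right (lintegral_mono s3) _
    _ = D * (ENNReal.ofReal (64 * R') ^ 3 * CW (fun _ => W) (fun y =>
        ‖S3 volume (g 0) (γ 0) y‖ₑ * ‖S3 volume (g 1) (γ 1) y‖ₑ *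
        ‖S3 volume (g 2) (γ 2) y‖ₑ) 0) := by
        rw [lintegral_const_mul' _ _ (by finiteness), s4]
    _ ≤ D * (ENNReal.ofReal (64 * R') ^ 3 * (ENNReal.ofReal (C * R' ^ ε) * Mr 2 R' F 0)) :=
        mul_le_mul_right (mul_le_mul_right key _) _
    _ = ENNReal.ofReal (64 * R') ^ 3 * (ENNReal.ofReal (C * R' ^ ε) * (D * Mr 2 R' F 0)) := by ring
    _ ≤ ENNReal.ofReal (64 * R') ^ 3 * (ENNReal.ofReal (C * R' ^ ε) * (ENNReal.ofReal ν⁻¹ *
        ((ENNReal.ofReal R'⁻¹ * ENNReal.ofReal c3) ^ 3 *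
        (rt (En (g 0)) * rt (En (g 1)) * rt (En (g 2)))))) :=
        mul_le_mul_right (mul_le_mul_right s5 _) _
    _ = (ENNReal.ofReal (64 * R') ^ 3 * (ENNReal.ofReal (C * R' ^ ε) * (ENNReal.ofReal ν⁻¹ *
        (ENNReal.ofReal R'⁻¹ * ENNReal.ofReal c3) ^ 3))) *
        (rt (En (g 0)) * rt (En (g 1)) * rt (En (g 2))) := by ring
    _ = _ := by
        congr 1
        rw [← ENNReal.ofReal_pow (by positivity), ← ENNReal.ofReal_mul (by positivity),
          ← ENNReal.ofReal_pow (by positivity), ← ENNReal.ofReal_mul (by positivity),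
          ← ENNReal.ofReal_mul (by positivity), ← ENNReal.ofReal_mul (by positivity)]
        congr 1
        have e : R' ^ ε = (18 * M ^ 2) ^ ε * (R / ν) ^ ε := by
          rw [← Real.mul_rpow (by positivity) (by positivity), hR']
          congr 1
          ring
        rw [e]
        field_simp

end Crest.Agent.R138.BCT191
end

-- ▼ part R138/BCT8_191

/-!
# Trilinear restriction, file 8 (row 138, helper191): sum over small caps, final statement
-/

set_option autoImplicit false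

open MeasureTheory Set
open scoped ENNReal

namespace Crest.Agent.R138.BCT191

open Crest.Agent.R138.Defs (E2 cyl)
open Crest.Agent.R138.Bct383 (sq_mul sq_mono sq_mul_self measurable_sq)

local notation "rt" => Crest.Agent.R138.Bct383.sq
local notation "ext'" => Crest.Agent.R138.Defs.ext

/-- the index of the cell -/
noncomputable def cell (s : ℝ) (ξ : E2) : ℤ × ℤ := (⌊ξ 0 / s⌋, ⌊ξ 1 / s⌋)

lemma measurable_cell (s : ℝ) : Measurable (cell s) := by
  unfold cell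
  exact (Int.measurable_floor.comp (by fun_prop)).prodMk (Int.measurable_floor.comp (by fun_prop))

lemma cell_close {s : ℝ} (hs : 0 < s) {ξ ξ' : E2} (h : cell s ξ = cell s ξ') :
    ‖ξ - ξ'‖ ≤ 2 * s := by
  have h0 : ⌊ξ 0 / s⌋ = ⌊ξ' 0 / s⌋ := congrArg Prod.fst h
  have h1 : ⌊ξ 1 / s⌋ = ⌊ξ' 1 / s⌋ := congrArg Prod.snd h
  have k : ∀ a b : ℝ, ⌊a / s⌋ = ⌊b / s⌋ → |a - b| ≤ s := by
    intro a b hab
    have := Int.abs_sub_lt_one_of_floor_eq_floor hab
    rw [← sub_div, abs_div, abs_of_pos hs, div_lt_one hs] at this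
    exact this.le
  have := norm_E2_le (ξ - ξ')
  have a0 := k _ _ h0
  have a1 := k _ _ h1
  simp only [PiLp.sub_apply] at this
  linarith

/-- the finite set of cells meeting the disc of radius two -/
noncomputable def cells (s : ℝ) : Finset (ℤ × ℤ) :=
  (Finset.Icc (-⌈2 / s⌉ - 1) ⌈2 / s⌉) ×ˢ (Finset.Icc (-⌈2 / s⌉ - 1) ⌈2 / s⌉)

lemma mem_cells {s : ℝ} (hs : 0 < s) {ξ : E2} (h : ‖ξ‖ ≤ 2) : cell s ξ ∈ cells s := by
  have k : ∀ a : ℝ, |a| ≤ 2 → ⌊a / s⌋ ∈ Finset.Icc (-⌈2 / s⌉ - 1) ⌈2 / s⌉ := by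
    intro a ha
    rw [abs_le] at ha
    rw [Finset.mem_Icc]
    have h1 : a / s ≤ 2 / s := div_le_div_of_nonneg_right ha.2 hs.le
    have h2 : -(2 / s) ≤ a / s := by
      rw [← neg_div]; exact div_le_div_of_nonneg_right ha.1 hs.le
    have h3 := Int.le_ceil (2 / s)
    constructor
    · rw [Int.le_floor]
      push_cast
      linarith
    · have := Int.floor_le (a / s)
      have h4 : (⌊a / s⌋ : ℝ) ≤ (⌈2 / s⌉ : ℝ) := by linarith
      exact_mod_cast h4
  unfold cells cell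
  rw [Finset.mem_product]
  exact ⟨k _ ((abs_coord_le ξ 0).trans h), k _ ((abs_coord_le ξ 1).trans h)⟩

lemma card_cells {s : ℝ} (hs : 0 < s) (hs1 : s ≤ 1) : ((cells s).card : ℝ) ≤ (8 / s) ^ 2 := by
  unfold cells
  rw [Finset.card_product, Int.card_Icc]
  have h0 : (0 : ℝ) < 2 / s := by positivity
  have hc : (0 : ℤ) < ⌈2 / s⌉ := Int.ceil_pos.2 h0
  have h1 : (((⌈2 / s⌉ + 1 - (-⌈2 / s⌉ - 1)).toNat : ℕ) : ℝ) ≤ 8 / s := by
    have h2 : (((⌈2 / s⌉ + 1 - (-⌈2 / s⌉ - 1)).toNat : ℕ) : ℤ) = ⌈2 / s⌉ + 1 - (-⌈2 / s⌉ - 1) :=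
      Int.toNat_of_nonneg (by omega)
    have h3 : (((⌈2 / s⌉ + 1 - (-⌈2 / s⌉ - 1)).toNat : ℕ) : ℝ) =
        ((⌈2 / s⌉ + 1 - (-⌈2 / s⌉ - 1) : ℤ) : ℝ) := by exact_mod_cast h2
    rw [h3]
    push_cast
    have h4 := (Int.ceil_lt_add_one (2 / s)).le
    have h5 : 8 / s = 2 * (2 / s) + 4 / s := by ring
    have h6 : 4 ≤ 4 / s := by rw [le_div_iff₀ hs]; linarith
    rw [h5]
    linarith
  push_cast
  rw [sq]
  exact mul_le_mul h1 h1 (by positivity) (by positivity)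

/-- the piece of `g` in a cell -/
noncomputable def piece (s : ℝ) (g : E2 → ℂ) (k : ℤ × ℤ) : E2 → ℂ := (cell s ⁻¹' {k}).indicator g

lemma measurableSet_cell (s : ℝ) (k : ℤ × ℤ) : MeasurableSet (cell s ⁻¹' {k}) :=
  (measurable_cell s) (measurableSet_singleton k)

lemma piece_ne_zero {s : ℝ} {g : E2 → ℂ} {k : ℤ × ℤ} {ξ : E2} (h : piece s g k ξ ≠ 0) :
    cell s ξ = k ∧ g ξ ≠ 0 := by
  unfold piece at h
  rw [indicator_apply_ne_zero] at h
  exact ⟨h.1, h.2⟩

lemma sum_piece {s : ℝ} (hs : 0 < s) {g : E2 → ℂ} (hg : ∀ ξ, g ξ ≠ 0 → ‖ξ‖ ≤ 2) (ξ : E2) :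
    ∑ k ∈ cells s, piece s g k ξ = g ξ := by
  by_cases h : g ξ = 0
  · rw [h]
    refine Finset.sum_eq_zero fun k _ => ?_
    by_contra h2
    exact (piece_ne_zero h2).2 h
  · rw [Finset.sum_eq_single_of_mem (cell s ξ) (mem_cells hs (hg ξ h))]
    · unfold piece
      rw [indicator_of_mem (by simp)]
    · intro k _ hk
      by_contra h2
      exact hk (piece_ne_zero h2).1.symm

lemma En_piece_le (s : ℝ) (g : E2 → ℂ) (k : ℤ × ℤ) : En (piece s g k) ≤ En g := by
  unfold En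
  refine lintegral_mono fun ξ => ?_
  refine pow_le_pow_left' ?_ 2
  unfold piece
  rw [enorm_indicator_eq_indicator_enorm]
  exact indicator_le_self _ _ _

lemma ext_piece {s : ℝ} (hs : 0 < s) {h : E2 → ℝ} (hh : Measurable h) {g : E2 → ℂ}
    (h1 : Integrable g) (hg : ∀ ξ, g ξ ≠ 0 → ‖ξ‖ ≤ 2) (p : E2 × ℝ) :
    ‖ext' h g p.1 p.2‖ₑ ≤ ∑ k ∈ cells s, ‖ext' h (piece s g k) p.1 p.2‖ₑ := by
  have e : ext' h g p.1 p.2 = ∑ k ∈ cells s, ext' h (piece s g k) p.1 p.2 := by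
    unfold Defs.ext
    rw [← integral_finsetSum]
    · refine integral_congr_ae (Filter.Eventually.of_forall fun ξ => ?_)
      simp only
      rw [← Finset.sum_mul, sum_piece hs hg]
    · intro k _
      have h2 : Integrable (piece s g k) := h1.indicator (measurableSet_cell s k)
      refine h2.mono (h2.aestronglyMeasurable.mul ?_) ?_
      · apply Measurable.aestronglyMeasurable
        fun_prop
      · exact Filter.Eventually.of_forall fun ξ => by simp
  rw [e]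
  exact enorm_sum_le _ _

lemma measurable_ext_enorm {h : E2 → ℝ} (hh : Measurable h) {g : E2 → ℂ} (hg : Measurable g) :
    Measurable (fun p : E2 × ℝ => ‖ext' h g p.1 p.2‖ₑ) := by
  have h1 := measurable_F3_ext hh hg
  have h2 : Measurable (fun p : E2 × ℝ => rt (F3 volume g (Xi h) (emb p))) :=
    Bct383.measurable_sq.comp (h1.comp measurable_emb)
  refine measurable_congr_fun h2 fun p => ?_
  rw [enorm_ext]
  unfold F3
  rw [Bct383.sq_sq]

/-- integrability and square integrability of bounded functions supported in the disc -/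
lemma bdd_integrable {g : E2 → ℂ} (hg : Measurable g) {B : ℝ} (hB : ∀ ξ, ‖g ξ‖ ≤ B)
    (hs : ∀ ξ, g ξ ≠ 0 → ‖ξ‖ ≤ 2) : Integrable g ∧ MemLp g 2 := by
  have hB0 : 0 ≤ B := (norm_nonneg _).trans (hB 0)
  set D : E2 → ℝ := (Metric.closedBall (0 : E2) 2).indicator fun _ => B with hD
  have hDi : Integrable D := by
    rw [hD, integrable_indicator_iff measurableSet_closedBall]
    exact (integrableOn_const (by exact measure_closedBall_lt_top.ne) (by simp))
  have hle : ∀ ξ, ‖g ξ‖ ≤ D ξ := by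
    intro ξ
    by_cases h : g ξ = 0
    · rw [h, norm_zero, hD]
      exact indicator_nonneg (fun _ _ => hB0) _
    · rw [hD, indicator_of_mem (by simpa using hs ξ h)]
      exact hB ξ
  have h1 : Integrable g := by
    refine hDi.mono hg.aestronglyMeasurable (Filter.Eventually.of_forall fun ξ => ?_)
    exact (hle ξ).trans (le_abs_self _)
  refine ⟨h1, ?_⟩
  rw [memLp_two_iff_integrable_sq_norm hg.aestronglyMeasurable]
  refine (h1.norm.const_mul B).mono (by fun_prop) (Filter.Eventually.of_forall fun ξ => ?_)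
  simp only [norm_pow, norm_norm, norm_mul, Real.norm_of_nonneg hB0]
  rw [sq]
  exact mul_le_mul_of_nonneg_right (hB ξ) (norm_nonneg _)

/-- **trilinear restriction** (Bennett–Carbery–Tao in dimension three, exponent `1`, with the loss
`R ^ ε` and a power of the transversality). -/
theorem trilinear_restriction (L ε : ℝ) (hL0 : 0 ≤ L) (hε : 0 < ε) :
    ∃ C : ℝ, 0 < C ∧ ∀ h : E2 → ℝ, Differentiable ℝ h →
    (∀ ξ ξ', ‖gradient h ξ - gradient h ξ'‖ ≤ L * ‖ξ - ξ'‖) → ‖gradient h 0‖ ≤ L →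
    ∀ ν R : ℝ, 0 < ν → ν ≤ 1 → 1 ≤ R → ∀ g : Fin 3 → E2 → ℂ, (∀ j, Measurable (g j)) →
    (∀ j, ∃ B : ℝ, ∀ ξ, ‖g j ξ‖ ≤ B) → (∀ j ξ, g j ξ ≠ 0 → ‖ξ‖ ≤ 2) →
    (∀ ξ : Fin 3 → E2, (∀ j, g j (ξ j) ≠ 0) → ν ≤ |area fun j => gradient h (ξ j)|) →
      ∫⁻ p in cyl R, ‖ext' h (g 0) p.1 p.2‖ₑ * ‖ext' h (g 1) p.1 p.2‖ₑ * ‖ext' h (g 2) p.1 p.2‖ₑ ≤
        ENNReal.ofReal (C * (ν⁻¹) ^ (7 + ε) * R ^ ε) *
          (rt (En (g 0)) * rt (En (g 1)) * rt (En (g 2))) := by
  set M : ℝ := 3 * L + 1 with hM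
  have hM1 : 1 ≤ M := by linarith
  obtain ⟨K, hK, C, hC, hcap⟩ := cap L M hL0 hM1 ε hε
  set b : ℝ := 32 * K * M * (L + 1) with hb
  have hb1 : 1 ≤ b := by
    have h1 : 1 ≤ K * M := by nlinarith
    have h2 : 1 ≤ K * M * (L + 1) := by nlinarith
    rw [hb]
    nlinarith
  refine ⟨C * (8 * b) ^ 6, by positivity, ?_⟩
  intro h hd hL hG0 ν R hν hν1 hR g hgm hgb hgs htr
  have hh : Measurable h := hd.continuous.measurable
  have hG : ∀ ξ, ‖ξ‖ ≤ 2 → ‖gradient h ξ‖ ≤ M := by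
    intro ξ hξ
    have h1 := hL ξ 0
    rw [sub_zero] at h1
    calc ‖gradient h ξ‖ = ‖(gradient h ξ - gradient h 0) + gradient h 0‖ := by rw [sub_add_cancel]
      _ ≤ ‖gradient h ξ - gradient h 0‖ + ‖gradient h 0‖ := norm_add_le _ _
      _ ≤ L * ‖ξ‖ + L := add_le_add h1 hG0
      _ ≤ L * 2 + L := by gcongr
      _ ≤ M := by rw [hM]; linarith
  set s : ℝ := ν / b with hs
  have hs0 : 0 < s := by positivity
  have hs1 : s ≤ 1 := by
    rw [hs, div_le_one (by positivity)]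
    linarith
  have hint : ∀ j, Integrable (g j) ∧ MemLp (g j) 2 := fun j => by
    obtain ⟨B, hB⟩ := hgb j
    exact bdd_integrable (hgm j) hB (hgs j)
  set Q := cells s with hQ
  set X : ℝ≥0∞ := ENNReal.ofReal (C * (R / ν) ^ ε * ν⁻¹) *
    (rt (En (g 0)) * rt (En (g 1)) * rt (En (g 2))) with hX
  -- one triple of cells
  have hone : ∀ k0 k1 k2 : ℤ × ℤ, ∫⁻ p in cyl R, ‖ext' h (piece s (g 0) k0) p.1 p.2‖ₑ *
      ‖ext' h (piece s (g 1) k1) p.1 p.2‖ₑ * ‖ext' h (piece s (g 2) k2) p.1 p.2‖ₑ ≤ X := by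
    intro k0 k1 k2
    set k : Fin 3 → ℤ × ℤ := ![k0, k1, k2] with hk
    set G : Fin 3 → E2 → ℂ := fun j => piece s (g j) (k j) with hGd
    by_cases hz : ∀ j, ∃ ξ, G j ξ ≠ 0
    · choose c hc using hz
      have hc' : ∀ j, cell s (c j) = k j ∧ g j (c j) ≠ 0 := fun j => piece_ne_zero (hc j)
      have key := hcap h hd hL hG ν R (2 * s) hν hν1 hR (by positivity) (by
          have e : K * (L * (2 * s) * (16 * M)) = ν * (L / (L + 1)) := by
            rw [hs, hb]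
            field_simp
            ring
          rw [e]
          have : L / (L + 1) ≤ 1 := by rw [div_le_one (by linarith)]; linarith
          nlinarith) G
        (fun j => (hgm j).indicator (measurableSet_cell s (k j)))
        (fun j => (hint j).1.indicator (measurableSet_cell s (k j)))
        (fun j => (hint j).2.indicator (measurableSet_cell s (k j)))
        (fun j ξ hξ => hgs j ξ (piece_ne_zero hξ).2) c
        (fun j => hgs j _ (hc' j).2)
        (fun j ξ hξ => cell_close hs0 ((piece_ne_zero hξ).1.trans (hc' j).1.symm))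
        (htr c fun j => (hc' j).2)
      refine key.trans ?_
      rw [hX]
      refine mul_le_mul_right ?_ _
      have q : ∀ j, rt (En (G j)) ≤ rt (En (g j)) := fun j => sq_mono (En_piece_le _ _ _)
      exact mul_le_mul' (mul_le_mul' (q 0) (q 1)) (q 2)
    · push Not at hz
      obtain ⟨j, hj⟩ := hz
      have hz0 : ∀ p : E2 × ℝ, ‖ext' h (G j) p.1 p.2‖ₑ = 0 := by
        intro p
        unfold Defs.ext
        simp [hj]
      have hzero : ∀ p : E2 × ℝ, ‖ext' h (G 0) p.1 p.2‖ₑ * ‖ext' h (G 1) p.1 p.2‖ₑ *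
          ‖ext' h (G 2) p.1 p.2‖ₑ = 0 := by
        intro p
        have := hz0 p
        fin_cases j
        · simp only [Fin.zero_eta] at this; rw [this]; simp
        · simp only [Fin.mk_one] at this; rw [this]; simp
        · simp only [Fin.reduceFinMk] at this; rw [this]; simp
      calc ∫⁻ p in cyl R, ‖ext' h (G 0) p.1 p.2‖ₑ * ‖ext' h (G 1) p.1 p.2‖ₑ *
            ‖ext' h (G 2) p.1 p.2‖ₑ = ∫⁻ p in cyl R, 0 := lintegral_congr fun p => hzero p
        _ = 0 := by simp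
        _ ≤ X := bot_le
  have hm : ∀ j k, Measurable (fun p : E2 × ℝ => ‖ext' h (piece s (g j) k) p.1 p.2‖ₑ) :=
    fun j k => measurable_ext_enorm hh ((hgm j).indicator (measurableSet_cell s k))
  have hcard : (Q.card : ℝ≥0∞) ≤ ENNReal.ofReal ((8 / s) ^ 2) := by
    rw [← ENNReal.ofReal_natCast]
    exact ENNReal.ofReal_le_ofReal (card_cells hs0 hs1)
  calc ∫⁻ p in cyl R, ‖ext' h (g 0) p.1 p.2‖ₑ * ‖ext' h (g 1) p.1 p.2‖ₑ *
        ‖ext' h (g 2) p.1 p.2‖ₑ
      ≤ ∫⁻ p in cyl R, ∑ k0 ∈ Q, ∑ k1 ∈ Q, ∑ k2 ∈ Q, ‖ext' h (piece s (g 0) k0) p.1 p.2‖ₑ *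
        ‖ext' h (piece s (g 1) k1) p.1 p.2‖ₑ * ‖ext' h (piece s (g 2) k2) p.1 p.2‖ₑ := by
        refine lintegral_mono fun p => ?_
        refine (mul_le_mul' (mul_le_mul' (ext_piece hs0 hh (hint 0).1 (hgs 0) p)
          (ext_piece hs0 hh (hint 1).1 (hgs 1) p)) (ext_piece hs0 hh (hint 2).1 (hgs 2) p)).trans
          (le_of_eq ?_)
        rw [Finset.sum_mul_sum, Finset.sum_mul]
        refine Finset.sum_congr rfl fun k0 _ => ?_
        rw [Finset.sum_mul]
        refine Finset.sum_congr rfl fun k1 _ => ?_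
        rw [Finset.mul_sum]
    _ = ∑ k0 ∈ Q, ∑ k1 ∈ Q, ∑ k2 ∈ Q, ∫⁻ p in cyl R, ‖ext' h (piece s (g 0) k0) p.1 p.2‖ₑ *
        ‖ext' h (piece s (g 1) k1) p.1 p.2‖ₑ * ‖ext' h (piece s (g 2) k2) p.1 p.2‖ₑ := by
        have m3 : ∀ k0 k1 k2, Measurable (fun p : E2 × ℝ => ‖ext' h (piece s (g 0) k0) p.1 p.2‖ₑ *
            ‖ext' h (piece s (g 1) k1) p.1 p.2‖ₑ * ‖ext' h (piece s (g 2) k2) p.1 p.2‖ₑ) :=
          fun k0 k1 k2 => ((hm 0 k0).mul (hm 1 k1)).mul (hm 2 k2)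
        rw [lintegral_finsetSum _ (fun k0 _ => Finset.measurable_fun_sum _ fun k1 _ =>
          Finset.measurable_fun_sum _ fun k2 _ => m3 k0 k1 k2)]
        refine Finset.sum_congr rfl fun k0 _ => ?_
        rw [lintegral_finsetSum _ (fun k1 _ => Finset.measurable_fun_sum _ fun k2 _ => m3 k0 k1 k2)]
        refine Finset.sum_congr rfl fun k1 _ => ?_
        rw [lintegral_finsetSum _ (fun k2 _ => m3 k0 k1 k2)]
    _ ≤ ∑ k0 ∈ Q, ∑ k1 ∈ Q, ∑ k2 ∈ Q, X :=
        Finset.sum_le_sum fun k0 _ => Finset.sum_le_sum fun k1 _ => Finset.sum_le_sum fun k2 _ =>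
          hone k0 k1 k2
    _ = (Q.card : ℝ≥0∞) ^ 3 * X := by
        simp only [Finset.sum_const, nsmul_eq_mul]
        ring
    _ ≤ ENNReal.ofReal ((8 / s) ^ 2) ^ 3 * X := mul_le_mul_left (pow_le_pow_left' hcard 3) _
    _ = _ := by
        rw [hX, ← mul_assoc, ← ENNReal.ofReal_pow (by positivity),
          ← ENNReal.ofReal_mul (by positivity)]
        congr 2
        have e1 : (8 / s) = 8 * b * ν⁻¹ := by rw [hs]; field_simp
        have e2 : (R / ν) ^ ε = R ^ ε * (ν⁻¹) ^ ε := by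
          rw [div_eq_mul_inv, Real.mul_rpow (by positivity) (by positivity)]
        have e3 : (ν⁻¹) ^ (7 + ε) = (ν⁻¹) ^ 7 * (ν⁻¹) ^ ε := by
          rw [Real.rpow_add (by positivity)]
          congr 1
          exact_mod_cast Real.rpow_natCast (ν⁻¹) 7
        rw [e1, e2, e3]
        ring

end Crest.Agent.R138.BCT191
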