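import Mathlib
import Crest.Agent.R138.Defs_665

-- ▼ part R138/Bil_882
section

set_option autoImplicit false

open MeasureTheory SchwartzMap FourierTransform
open scoped FourierTransform SchwartzMap ENNReal Convolution

namespace Crest.Agent.R138.Bil882

variable {V : Type*} [NormedAddCommGroup V] [InnerProductSpace ℝ V] [FiniteDimensional ℝ V]
  [MeasurableSpace V] [BorelSpace V]


theorem integrable_norm_sq (F : 𝓢(V, ℂ)) : Integrable fun x => ‖F x‖ ^ 2 := by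
  have h := (F.memLp 2 volume).integrable_norm_pow (by norm_num)
  simpa using h


/-- `(∫ f)^2 ≤ μ(S) ∫ f^2` for `f` vanishing outside `S`. -/
theorem lintegral_sq_le {α : Type*} [MeasurableSpace α] (μ : Measure α) (f : α → ℝ≥0∞)
    (hf : AEMeasurable f μ) (S : Set α) (hS : MeasurableSet S) (h0 : ∀ x, x ∉ S → f x = 0) :
    (∫⁻ x, f x ∂μ) ^ 2 ≤ μ S * ∫⁻ x, f x ^ 2 ∂μ := by
  have h1 : ∫⁻ x, f x ∂μ = ∫⁻ x, (S.indicator (fun _ => (1 : ℝ≥0∞)) * f) x ∂μ := by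
    refine lintegral_congr fun x => ?_
    by_cases hx : x ∈ S
    · simp [hx]
    · simp [hx, h0 x hx]
  have h2 := ENNReal.lintegral_mul_le_Lp_mul_Lq μ (Real.HolderConjugate.two_two)
    (f := S.indicator (fun _ => (1 : ℝ≥0∞))) (g := f)
    ((measurable_const.indicator hS).aemeasurable) hf
  have h3 : ∫⁻ x, (S.indicator (fun _ => (1 : ℝ≥0∞)) x) ^ (2 : ℝ) ∂μ = μ S := by
    have : ∀ x, (S.indicator (fun _ => (1 : ℝ≥0∞)) x) ^ (2 : ℝ)
        = S.indicator (fun _ => (1 : ℝ≥0∞)) x := by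
      intro x
      by_cases hx : x ∈ S <;> simp [hx]
    simp_rw [this]
    rw [lintegral_indicator_const hS]; simp
  rw [h3] at h2
  rw [h1]
  calc (∫⁻ x, (S.indicator (fun _ => (1 : ℝ≥0∞)) * f) x ∂μ) ^ 2
      ≤ (μ S ^ (1 / (2 : ℝ)) * (∫⁻ x, f x ^ (2 : ℝ) ∂μ) ^ (1 / (2 : ℝ))) ^ 2 := by gcongr
    _ = μ S * ∫⁻ x, f x ^ 2 ∂μ := by
        rw [mul_pow]
        have e : ∀ y : ℝ≥0∞, (y ^ (1 / (2 : ℝ))) ^ 2 = y := by
          intro y
          rw [← ENNReal.rpow_natCast, ← ENNReal.rpow_mul]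
          norm_num
        rw [e, e]
        simp

theorem ofReal_int_sq (F : V → ℂ) (hF : Integrable fun x => ‖F x‖ ^ 2) :
    ENNReal.ofReal (∫ x, ‖F x‖ ^ 2) = ∫⁻ x, ‖F x‖ₑ ^ 2 := by
  rw [ofReal_integral_eq_lintegral_ofReal hF (Filter.Eventually.of_forall fun _ => by positivity)]
  refine lintegral_congr fun x => ?_
  rw [ENNReal.ofReal_pow (norm_nonneg _), ofReal_norm]

/-- the `L²` bound for a convolution with a bound for the overlap measure. -/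
theorem conv_sq (k1 k2 : 𝓢(V, ℂ)) (M : ℝ) (hM0 : 0 ≤ M)
    (hM : ∀ ζ : V, volume {ω : V | k1 ω ≠ 0 ∧ k2 (ζ - ω) ≠ 0} ≤ ENNReal.ofReal M) :
    ∫ ζ, ‖(k1 ⋆[ContinuousLinearMap.mul ℂ ℂ] k2) ζ‖ ^ 2
      ≤ M * (∫ x, ‖k1 x‖ ^ 2) * ∫ x, ‖k2 x‖ ^ 2 := by
  have hc : ∀ ζ, (k1 ⋆[ContinuousLinearMap.mul ℂ ℂ] k2) ζ
      = SchwartzMap.convolution (ContinuousLinearMap.mul ℂ ℂ) k1 k2 ζ := fun ζ =>
    (convolution_apply _ _ _ ζ).symm
  have hI : Integrable fun ζ => ‖(k1 ⋆[ContinuousLinearMap.mul ℂ ℂ] k2) ζ‖ ^ 2 := by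
    simp_rw [hc]; exact integrable_norm_sq _
  have key : ∫⁻ ζ, ‖(k1 ⋆[ContinuousLinearMap.mul ℂ ℂ] k2) ζ‖ₑ ^ 2
      ≤ ENNReal.ofReal M * (∫⁻ x, ‖k1 x‖ₑ ^ 2) * ∫⁻ x, ‖k2 x‖ₑ ^ 2 := by
    have m1 : Measurable fun x => ‖k1 x‖ₑ := k1.continuous.measurable.enorm
    have m2 : Measurable fun x => ‖k2 x‖ₑ := k2.continuous.measurable.enorm
    have step : ∀ ζ, ‖(k1 ⋆[ContinuousLinearMap.mul ℂ ℂ] k2) ζ‖ₑ ^ 2
        ≤ ENNReal.ofReal M * ∫⁻ ω, ‖k1 ω‖ₑ ^ 2 * ‖k2 (ζ - ω)‖ₑ ^ 2 := by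
      intro ζ
      have a1 : ‖(k1 ⋆[ContinuousLinearMap.mul ℂ ℂ] k2) ζ‖ₑ
          ≤ ∫⁻ ω, ‖k1 ω‖ₑ * ‖k2 (ζ - ω)‖ₑ := by
        rw [convolution_def]
        refine (enorm_integral_le_lintegral_enorm _).trans (le_of_eq ?_)
        refine lintegral_congr fun ω => ?_
        simp [enorm_mul]
      have hS : MeasurableSet {ω : V | k1 ω ≠ 0 ∧ k2 (ζ - ω) ≠ 0} := by
        apply MeasurableSet.inter
        · exact (isOpen_ne_fun k1.continuous continuous_const).measurableSet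
        · exact (isOpen_ne_fun (k2.continuous.comp (continuous_const.sub continuous_id))
            continuous_const).measurableSet
      have mm : Measurable fun ω => ‖k1 ω‖ₑ * ‖k2 (ζ - ω)‖ₑ :=
        m1.mul (m2.comp (measurable_const.sub measurable_id))
      calc ‖(k1 ⋆[ContinuousLinearMap.mul ℂ ℂ] k2) ζ‖ₑ ^ 2
          ≤ (∫⁻ ω, ‖k1 ω‖ₑ * ‖k2 (ζ - ω)‖ₑ) ^ 2 := by gcongr
        _ ≤ volume {ω : V | k1 ω ≠ 0 ∧ k2 (ζ - ω) ≠ 0}
              * ∫⁻ ω, (‖k1 ω‖ₑ * ‖k2 (ζ - ω)‖ₑ) ^ 2 := by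
            refine lintegral_sq_le volume _ mm.aemeasurable _ hS ?_
            intro ω hω
            simp only [Set.mem_ofPred_eq, not_and_or, not_not] at hω
            rcases hω with h | h <;> simp [h]
        _ ≤ ENNReal.ofReal M * ∫⁻ ω, ‖k1 ω‖ₑ ^ 2 * ‖k2 (ζ - ω)‖ₑ ^ 2 := by
            gcongr
            · exact hM ζ
            · rw [mul_pow]
    calc ∫⁻ ζ, ‖(k1 ⋆[ContinuousLinearMap.mul ℂ ℂ] k2) ζ‖ₑ ^ 2
        ≤ ∫⁻ ζ, ENNReal.ofReal M * ∫⁻ ω, ‖k1 ω‖ₑ ^ 2 * ‖k2 (ζ - ω)‖ₑ ^ 2 :=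
          lintegral_mono step
      _ = ENNReal.ofReal M * ∫⁻ ζ, ∫⁻ ω, ‖k1 ω‖ₑ ^ 2 * ‖k2 (ζ - ω)‖ₑ ^ 2 := by
          rw [lintegral_const_mul' _ _ ENNReal.ofReal_ne_top]
      _ = ENNReal.ofReal M * ∫⁻ ω, ∫⁻ ζ, ‖k1 ω‖ₑ ^ 2 * ‖k2 (ζ - ω)‖ₑ ^ 2 := by
          rw [lintegral_lintegral_swap]
          exact (((m1.pow_const 2).comp measurable_snd).mul
            ((m2.pow_const 2).comp (measurable_fst.sub measurable_snd))).aemeasurable
      _ = ENNReal.ofReal M * ∫⁻ ω, ‖k1 ω‖ₑ ^ 2 * ∫⁻ x, ‖k2 x‖ₑ ^ 2 := by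
          congr 1
          refine lintegral_congr fun ω => ?_
          rw [lintegral_const_mul' _ _ (by simp)]
          congr 1
          exact lintegral_sub_right_eq_self (fun x => ‖k2 x‖ₑ ^ 2) ω
      _ = ENNReal.ofReal M * (∫⁻ x, ‖k1 x‖ₑ ^ 2) * ∫⁻ x, ‖k2 x‖ₑ ^ 2 := by
          rw [lintegral_mul_const _ (m1.pow_const 2), mul_assoc]
  rw [← ofReal_int_sq _ hI, ← ofReal_int_sq _ (integrable_norm_sq k1),
    ← ofReal_int_sq _ (integrable_norm_sq k2), ← ENNReal.ofReal_mul hM0,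
    ← ENNReal.ofReal_mul (by positivity)] at key
  exact (ENNReal.ofReal_le_ofReal_iff (by positivity)).1 key

/-- the pointwise product of two Schwartz functions. -/
noncomputable def mulS (F G : 𝓢(V, ℂ)) : 𝓢(V, ℂ) := pairing (ContinuousLinearMap.mul ℂ ℂ) F G

@[simp] theorem mulS_apply (F G : 𝓢(V, ℂ)) (x : V) : mulS F G x = F x * G x := rfl

theorem fourierInv_apply_neg (F : 𝓢(V, ℂ)) (ζ : V) : 𝓕⁻ F ζ = 𝓕 F (-ζ) := by
  rw [fourierInv_coe, fourier_coe, Real.fourierInv_eq_fourier_neg]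

/-- the spectrum of a product -/
theorem fourier_mulS (F G : 𝓢(V, ℂ)) (ζ : V) :
    𝓕 (mulS F G) ζ = ((𝓕⁻ F : 𝓢(V, ℂ)) ⋆[ContinuousLinearMap.mul ℂ ℂ] (𝓕⁻ G : 𝓢(V, ℂ))) (-ζ) := by
  have h1 : 𝓕 (SchwartzMap.convolution (ContinuousLinearMap.mul ℂ ℂ) (𝓕⁻ F : 𝓢(V, ℂ))
      (𝓕⁻ G : 𝓢(V, ℂ))) = mulS F G := by
    rw [fourier_convolution]; simp [mulS]
  have h2 : 𝓕⁻ (mulS F G) = SchwartzMap.convolution (ContinuousLinearMap.mul ℂ ℂ)
      (𝓕⁻ F : 𝓢(V, ℂ)) (𝓕⁻ G : 𝓢(V, ℂ)) := by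
    rw [← h1]; simp
  have h3 : 𝓕 (mulS F G) ζ = 𝓕⁻ (mulS F G) (-ζ) := by rw [fourierInv_apply_neg, neg_neg]
  rw [h3, h2, convolution_apply]

/-- BILINEAR ESTIMATE, spectral form. -/
theorem bil (F1 F2 : 𝓢(V, ℂ)) (M : ℝ) (hM0 : 0 ≤ M)
    (hM : ∀ ζ : V, volume {ω : V | 𝓕 F1 ω ≠ 0 ∧ 𝓕 F2 (ζ - ω) ≠ 0} ≤ ENNReal.ofReal M) :
    ∫ x, ‖F1 x * F2 x‖ ^ 2 ≤ M * (∫ x, ‖F1 x‖ ^ 2) * ∫ x, ‖F2 x‖ ^ 2 := by
  have e0 : ∀ F : 𝓢(V, ℂ), ∫ x, ‖(𝓕⁻ F : 𝓢(V, ℂ)) x‖ ^ 2 = ∫ x, ‖F x‖ ^ 2 := by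
    intro F
    have := integral_norm_sq_fourier (𝓕⁻ F : 𝓢(V, ℂ))
    rw [← this]; simp
  have h := conv_sq (𝓕⁻ F1 : 𝓢(V, ℂ)) (𝓕⁻ F2 : 𝓢(V, ℂ)) M hM0 (by
    intro ζ
    have hpre : {ω : V | (𝓕⁻ F1 : 𝓢(V, ℂ)) ω ≠ 0 ∧ (𝓕⁻ F2 : 𝓢(V, ℂ)) (ζ - ω) ≠ 0}
        = (fun ω => -ω) ⁻¹' {ω : V | 𝓕 F1 ω ≠ 0 ∧ 𝓕 F2 (-ζ - ω) ≠ 0} := by
      ext ω
      simp only [Set.mem_ofPred_eq, Set.mem_preimage, fourierInv_apply_neg]
      rw [show -(ζ - ω) = -ζ - -ω by abel]
    rw [hpre, Measure.measure_preimage_neg]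
    exact hM (-ζ))
  rw [e0, e0] at h
  refine le_trans (le_of_eq ?_) h
  have e1 : ∫ x, ‖F1 x * F2 x‖ ^ 2 = ∫ x, ‖mulS F1 F2 x‖ ^ 2 := rfl
  rw [e1, ← integral_norm_sq_fourier]
  rw [← integral_neg_eq_self (fun ζ =>
    ‖((𝓕⁻ F1 : 𝓢(V, ℂ)) ⋆[ContinuousLinearMap.mul ℂ ℂ] (𝓕⁻ F2 : 𝓢(V, ℂ))) ζ‖ ^ 2)]
  simp_rw [fourier_mulS]



end Crest.Agent.R138.Bil882
end

-- ▼ part R138/Bil2_882
section

set_option autoImplicit false

open MeasureTheory SchwartzMap FourierTransform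
open scoped FourierTransform SchwartzMap ENNReal Convolution

namespace Crest.Agent.R138.Bil882

variable {V : Type*} [NormedAddCommGroup V] [InnerProductSpace ℝ V] [FiniteDimensional ℝ V]
  [MeasurableSpace V] [BorelSpace V]

/-- superposition of characters, `F(x) = ∫ e(⟨ξ, x⟩) g(ξ) dμ(ξ)`. -/
noncomputable def wave (μ : Measure V) (g : V → ℂ) (x : V) : ℂ :=
  ∫ ξ, (Real.fourierChar (inner ℝ ξ x) : ℂ) * g ξ ∂μ

theorem wave_eq (μ : Measure V) (g : V → ℂ) :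
    wave μ g = VectorFourier.fourierIntegral Real.fourierChar μ
      (-(innerSL ℝ : V →L[ℝ] V →L[ℝ] ℝ)).toLinearMap₁₂ g := by
  ext x
  unfold wave VectorFourier.fourierIntegral
  refine integral_congr_ae (Filter.Eventually.of_forall fun ξ => ?_)
  simp only [Circle.smul_def, smul_eq_mul]
  congr 3
  simp

theorem wave_temperate (μ : Measure V) (g : V → ℂ) (hg : Integrable g μ) (R : ℝ)
    (hR : ∀ ξ, g ξ ≠ 0 → ‖ξ‖ ≤ R) : (wave μ g).HasTemperateGrowth := by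
  have hint : ∀ n : ℕ, Integrable (fun v => ‖v‖ ^ n * ‖g v‖) μ := by
    intro n
    refine Integrable.mono' (hg.norm.const_mul (|R| ^ n)) ?_ ?_
    · exact ((continuous_norm.pow n).aestronglyMeasurable).mul hg.1.norm
    · refine Filter.Eventually.of_forall fun v => ?_
      rw [norm_mul, norm_pow, norm_norm, norm_norm]
      by_cases h : g v = 0
      · simp [h]
      · have := hR v h
        gcongr
        exact this.trans (le_abs_self R)
  rw [wave_eq]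
  set L : V →L[ℝ] V →L[ℝ] ℝ := -(innerSL ℝ : V →L[ℝ] V →L[ℝ] ℝ) with hL
  refine ⟨VectorFourier.contDiff_fourierIntegral (N := ⊤) L fun n _ => hint n, fun n => ?_⟩
  refine ⟨0, ∫ v, (2 * Real.pi * ‖L‖) ^ n * (‖v‖ ^ n * ‖g v‖) ∂μ, fun w => ?_⟩
  rw [VectorFourier.iteratedFDeriv_fourierIntegral (N := ⊤) L (fun n _ => hint n) hg.1
    (n := n) (by exact_mod_cast le_top)]
  rw [pow_zero, mul_one]
  refine (VectorFourier.norm_fourierIntegral_le_integral_norm _ _ _ _ _).trans ?_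
  refine integral_mono_of_nonneg (Filter.Eventually.of_forall fun _ => norm_nonneg _)
    ((hint n).const_mul _) (Filter.Eventually.of_forall fun v => ?_)
  refine (VectorFourier.norm_fourierPowSMulRight_le L g v n).trans (le_of_eq ?_)
  ring

/-- the spectrum of `F ψ` for a superposition of characters. -/
theorem fourier_loc_wave (μ : Measure V) [IsFiniteMeasure μ] (g : V → ℂ) (hg : Integrable g μ)
    (R : ℝ) (hR : ∀ ξ, g ξ ≠ 0 → ‖ξ‖ ≤ R) (ψ : 𝓢(V, ℂ)) (ζ : V) :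
    𝓕 (smulLeftCLM ℂ (wave μ g) ψ) ζ = ∫ ξ, g ξ * 𝓕 ψ (ζ - ξ) ∂μ := by
  have ht := wave_temperate μ g hg R hR
  have e1 : 𝓕 (smulLeftCLM ℂ (wave μ g) ψ) ζ
      = ∫ x, (Real.fourierChar (-inner ℝ x ζ) : ℂ) * ((∫ ξ, (Real.fourierChar (inner ℝ ξ x) : ℂ) * g ξ ∂μ) * ψ x) := by
    rw [fourier_coe, Real.fourier_eq]
    refine integral_congr_ae (Filter.Eventually.of_forall fun x => ?_)
    simp only [Circle.smul_def, smul_eq_mul]
    rw [smulLeftCLM_apply_apply ht]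
    rfl
  have e2 : ∀ x, (Real.fourierChar (-inner ℝ x ζ) : ℂ)
        * ((∫ ξ, (Real.fourierChar (inner ℝ ξ x) : ℂ) * g ξ ∂μ) * ψ x)
      = ∫ ξ, g ξ * ((Real.fourierChar (-inner ℝ x (ζ - ξ)) : ℂ) * ψ x) ∂μ := by
    intro x
    rw [← integral_mul_const, ← integral_const_mul]
    refine integral_congr_ae (Filter.Eventually.of_forall fun ξ => ?_)
    simp only
    have : (Real.fourierChar (-inner ℝ x (ζ - ξ)) : ℂ)
        = (Real.fourierChar (-inner ℝ x ζ) : ℂ) * (Real.fourierChar (inner ℝ ξ x) : ℂ) := by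
      rw [← Circle.coe_mul, ← AddChar.map_add_eq_mul]
      congr 2
      rw [inner_sub_right, real_inner_comm x ξ]; ring
    rw [this]; ring
  rw [e1]
  simp_rw [e2]
  rw [integral_integral_swap]
  · refine integral_congr_ae (Filter.Eventually.of_forall fun ξ => ?_)
    simp only
    rw [integral_const_mul, fourier_coe, Real.fourier_eq]
    congr 1
  · have h1 : Integrable (fun p : V × V => ψ p.1 * g p.2) (volume.prod μ) :=
      ψ.integrable.mul_prod hg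
    refine Integrable.mono' h1.norm ?_ (Filter.Eventually.of_forall fun p => ?_)
    · have hc : Continuous fun p : V × V => (Real.fourierChar (-inner ℝ p.1 (ζ - p.2)) : ℂ) := by
        have : Continuous fun t : ℝ => ((Real.fourierChar t : Circle) : ℂ) := by fun_prop
        exact this.comp (by fun_prop)
      have h2 : AEStronglyMeasurable (fun p : V × V => g p.2) (volume.prod μ) :=
        hg.1.comp_snd
      exact h2.mul (hc.aestronglyMeasurable.mul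
        ((ψ.continuous.comp continuous_fst).aestronglyMeasurable))
    · simp only [Function.uncurry, norm_mul, Circle.norm_coe, one_mul]
      rw [mul_comm]

/-- `F` is tempered and `F ψ` has its spectrum in the `ρ`-neighbourhood of `A` as soon as the
spectrum of `ψ` is in the ball of radius `ρ`. -/
structure HasSpec (F : V → ℂ) (A : Set V) : Prop where
  temp : F.HasTemperateGrowth
  spec : ∀ (ρ : ℝ) (ψ : 𝓢(V, ℂ)), (∀ ζ, 𝓕 ψ ζ ≠ 0 → ‖ζ‖ ≤ ρ) →
    ∀ ζ, 𝓕 (smulLeftCLM ℂ F ψ) ζ ≠ 0 → ∃ a ∈ A, ‖ζ - a‖ ≤ ρ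

theorem hasSpec_wave (μ : Measure V) [IsFiniteMeasure μ] (g : V → ℂ) (hg : Integrable g μ)
    (R : ℝ) (hR : ∀ ξ, g ξ ≠ 0 → ‖ξ‖ ≤ R) (A : Set V) (hA : ∀ ξ, g ξ ≠ 0 → ξ ∈ A) :
    HasSpec (wave μ g) A := by
  refine ⟨wave_temperate μ g hg R hR, fun ρ ψ hψ ζ hζ => ?_⟩
  by_contra hcon
  push Not at hcon
  apply hζ
  rw [fourier_loc_wave μ g hg R hR ψ ζ, ← integral_zero V ℂ (μ := μ)]
  congr 1
  ext ξ
  by_cases h : g ξ = 0
  · simp [h]
  · have h1 := hcon ξ (hA ξ h)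
    have h2 : 𝓕 ψ (ζ - ξ) = 0 := by
      by_contra h3
      exact absurd (hψ _ h3) (not_le.2 h1)
    rw [h2, mul_zero]

theorem HasSpec.mono {F : V → ℂ} {A B : Set V} (h : HasSpec F A) (hAB : A ⊆ B) : HasSpec F B :=
  ⟨h.temp, fun ρ ψ hψ ζ hζ => by
    obtain ⟨a, ha, h1⟩ := h.spec ρ ψ hψ ζ hζ
    exact ⟨a, hAB ha, h1⟩⟩


/-- LOCAL BILINEAR ESTIMATE -/
theorem bil_loc (F1 F2 : V → ℂ) (A1 A2 : Set V) (h1 : HasSpec F1 A1) (h2 : HasSpec F2 A2)
    (ψ : 𝓢(V, ℂ)) (ρ : ℝ) (hψ : ∀ ζ, 𝓕 ψ ζ ≠ 0 → ‖ζ‖ ≤ ρ) (M : ℝ) (hM0 : 0 ≤ M)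
    (hM : ∀ ζ : V, volume {ω : V | (∃ a ∈ A1, ‖ω - a‖ ≤ ρ) ∧ ∃ a ∈ A2, ‖ζ - ω - a‖ ≤ ρ}
      ≤ ENNReal.ofReal M) :
    ∫ x, ‖F1 x * F2 x‖ ^ 2 * ‖ψ x‖ ^ 4
      ≤ M * (∫ x, ‖F1 x‖ ^ 2 * ‖ψ x‖ ^ 2) * ∫ x, ‖F2 x‖ ^ 2 * ‖ψ x‖ ^ 2 := by
  have h := bil (smulLeftCLM ℂ F1 ψ) (smulLeftCLM ℂ F2 ψ) M hM0 (by
    intro ζ
    refine (measure_mono ?_).trans (hM ζ)
    intro ω hω
    exact ⟨h1.spec ρ ψ hψ _ hω.1, h2.spec ρ ψ hψ _ hω.2⟩)
  have e : ∀ F : V → ℂ, F.HasTemperateGrowth → ∀ x, smulLeftCLM ℂ F ψ x = F x * ψ x := by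
    intro F hF x
    rw [smulLeftCLM_apply_apply hF]; rfl
  simp_rw [e F1 h1.temp, e F2 h2.temp] at h
  convert h using 2
  · congr 1; ext x
    simp only [norm_mul, mul_pow]; ring
  · congr 2; ext x
    simp only [norm_mul, mul_pow]
  · congr 1; ext x
    simp only [norm_mul, mul_pow]


end Crest.Agent.R138.Bil882
end

-- ▼ part R138/Bil3_882
section

set_option autoImplicit false

open MeasureTheory SchwartzMap FourierTransform
open scoped FourierTransform SchwartzMap ENNReal Convolution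

namespace Crest.Agent.R138.Bil882

variable {V : Type*} [NormedAddCommGroup V] [InnerProductSpace ℝ V] [FiniteDimensional ℝ V]
  [MeasurableSpace V] [BorelSpace V]

/-- the model bump. -/
noncomputable def eta (V : Type*) [NormedAddCommGroup V] [InnerProductSpace ℝ V]
    [FiniteDimensional ℝ V] : ContDiffBump (0 : V) := ⟨1/40, 1/20, by norm_num, by norm_num⟩

/-- the model bump as a Schwartz function. -/
noncomputable def etaS : 𝓢(V, ℂ) :=
  HasCompactSupport.toSchwartzMap (f := fun ζ : V => ((eta V ζ : ℝ) : ℂ))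
    (by
      have := (eta V).hasCompactSupport
      exact this.comp_left (g := fun r : ℝ => (r : ℂ)) (by simp))
    (by
      have h : ContDiff ℝ (⊤ : ℕ∞) (eta V) := (eta V).contDiff
      exact Complex.ofRealCLM.contDiff.comp h)

@[simp] theorem etaS_apply (ζ : V) : (etaS (V := V)) ζ = ((eta V ζ : ℝ) : ℂ) := rfl

theorem int_eta_pos : 0 < ∫ ζ : V, (eta V ζ : ℝ) := (eta V).integral_pos

theorem etaS_ne_zero {ζ : V} (h : (etaS (V := V)) ζ ≠ 0) : ‖ζ‖ ≤ 1 / 20 := by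
  rw [etaS_apply] at h
  have h1 : eta V ζ ≠ 0 := by exact_mod_cast h
  have h2 : ζ ∈ Function.support (eta V) := h1
  rw [(eta V).support_eq] at h2
  have h3 : ‖ζ‖ < 1 / 20 := by simpa [eta] using h2
  exact h3.le

/-- the model cut-off: spectrum in the ball of radius `1/20`, at least `1` in norm on the unit ball. -/
noncomputable def psi1 : 𝓢(V, ℂ) := ((2 / ∫ ζ : V, (eta V ζ : ℝ) : ℝ) : ℂ) • 𝓕⁻ (etaS (V := V))

theorem psi1_lower {x : V} (hx : ‖x‖ ≤ 1) : 1 ≤ ‖psi1 (V := V) x‖ := by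
  have hm := int_eta_pos (V := V)
  have e1 : (𝓕⁻ (etaS (V := V)) : 𝓢(V, ℂ)) x
      = ∫ ζ : V, (Real.fourierChar (inner ℝ ζ x) : ℂ) * ((eta V ζ : ℝ) : ℂ) := by
    rw [fourierInv_coe, Real.fourierInv_eq]
    refine integral_congr_ae (Filter.Eventually.of_forall fun ζ => ?_)
    simp [Circle.smul_def]
  have hint : Integrable fun ζ : V => (Real.fourierChar (inner ℝ ζ x) : ℂ) * ((eta V ζ : ℝ) : ℂ) := by
    have h1 : Integrable (etaS (V := V)) := (etaS (V := V)).integrable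
    refine h1.norm.mono' ?_ (Filter.Eventually.of_forall fun ζ => ?_)
    · refine AEStronglyMeasurable.mul ?_ h1.1
      have hc : Continuous fun ζ : V => (Real.fourierChar (inner ℝ ζ x) : ℂ) := by
        have : Continuous fun t : ℝ => ((Real.fourierChar t : Circle) : ℂ) := by fun_prop
        exact this.comp (by fun_prop)
      exact hc.aestronglyMeasurable
    · simp [Circle.norm_coe]
  have hre : (1 / 2 : ℝ) * ∫ ζ : V, (eta V ζ : ℝ) ≤ ((𝓕⁻ (etaS (V := V)) : 𝓢(V, ℂ)) x).re := by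
    rw [e1]
    have e2 : (∫ ζ : V, (Real.fourierChar (inner ℝ ζ x) : ℂ) * ((eta V ζ : ℝ) : ℂ)).re
        = ∫ ζ : V, ((Real.fourierChar (inner ℝ ζ x) : ℂ) * ((eta V ζ : ℝ) : ℂ)).re := by
      exact (integral_re hint).symm
    rw [e2, ← integral_const_mul]
    refine integral_mono ?_ hint.re fun ζ => ?_
    · exact ((eta V).integrable).const_mul _
    · simp only
      have e3 : ((Real.fourierChar (inner ℝ ζ x) : ℂ) * ((eta V ζ : ℝ) : ℂ)).re
          = Real.cos (2 * Real.pi * inner ℝ ζ x) * eta V ζ := by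
        rw [Real.fourierChar_apply, Complex.re_mul_ofReal, Complex.exp_ofReal_mul_I_re]
      rw [e3]
      by_cases hz : eta V ζ = 0
      · rw [hz]; simp
      · have h4 : ‖ζ‖ ≤ 1 / 20 := by
          apply etaS_ne_zero (V := V)
          rw [etaS_apply]; exact_mod_cast hz
        have h5 : |inner ℝ ζ x| ≤ 1 / 20 := by
          refine (abs_real_inner_le_norm ζ x).trans ?_
          calc ‖ζ‖ * ‖x‖ ≤ (1 / 20) * 1 := by gcongr
            _ = 1 / 20 := by ring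
        have h6 : (1 / 2 : ℝ) ≤ Real.cos (2 * Real.pi * inner ℝ ζ x) := by
          rw [← Real.cos_abs, ← Real.cos_pi_div_three]
          have hpi := Real.pi_pos
          apply Real.cos_le_cos_of_nonneg_of_le_pi (abs_nonneg _) (by linarith)
          rw [abs_mul, abs_mul, abs_of_pos hpi, abs_of_pos (by norm_num : (0:ℝ) < 2)]
          nlinarith
        have h7 : 0 ≤ eta V ζ := (eta V).nonneg
        nlinarith
  have : ‖psi1 (V := V) x‖ = 2 / (∫ ζ : V, (eta V ζ : ℝ)) * ‖(𝓕⁻ (etaS (V := V)) : 𝓢(V, ℂ)) x‖ := by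
    unfold psi1
    rw [smul_apply, norm_smul, Complex.norm_real, Real.norm_of_nonneg (by positivity)]
  rw [this]
  have h8 : (1 / 2 : ℝ) * ∫ ζ : V, (eta V ζ : ℝ) ≤ ‖(𝓕⁻ (etaS (V := V)) : 𝓢(V, ℂ)) x‖ :=
    hre.trans (Complex.re_le_norm _)
  calc (1 : ℝ) = 2 / (∫ ζ : V, (eta V ζ : ℝ)) * ((1 / 2 : ℝ) * ∫ ζ : V, (eta V ζ : ℝ)) := by
        field_simp
    _ ≤ _ := by gcongr

theorem psi1_decay (N : ℕ) : ∃ C : ℝ, 0 < C ∧ ∀ x : V, ‖psi1 (V := V) x‖ * (1 + ‖x‖) ^ N ≤ C := by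
  have h := fun x => SchwartzMap.one_add_le_sup_seminorm_apply (𝕜 := ℝ) (m := (N, 0)) (k := N)
    (n := 0) le_rfl le_rfl (psi1 (V := V)) x
  refine ⟨2 ^ N * (Finset.Iic ((N, 0) : ℕ × ℕ)).sup
      (fun m => SchwartzMap.seminorm ℝ m.1 m.2) (psi1 (V := V)) + 1, ?_, fun x => ?_⟩
  · positivity
  · have := h x
    simp only [norm_iteratedFDeriv_zero] at this
    linarith

/-- the cut-off at centre `z0` and scale `r`: as a Schwartz function with spectrum in the ball of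
radius `1/(20 r)`. -/
theorem exists_cut (z0 : V) (r : ℝ) (hr : 0 < r) : ∃ ψ : 𝓢(V, ℂ),
    (∀ ζ, 𝓕 ψ ζ ≠ 0 → ‖ζ‖ ≤ 1 / (20 * r)) ∧ ∀ x, ψ x = psi1 (V := V) (r⁻¹ • (x - z0)) := by
  -- the frequency side
  let f : V → ℂ := fun ζ => (((2 / ∫ ζ : V, (eta V ζ : ℝ)) * r ^ (Module.finrank ℝ V) : ℝ) : ℂ) *
    ((Real.fourierChar (-inner ℝ ζ z0) : ℂ) * ((eta V (r • ζ) : ℝ) : ℂ))
  have hf0 : ∀ ζ, f ζ ≠ 0 → ‖ζ‖ ≤ 1 / (20 * r) := by
    intro ζ h
    have h1 : (etaS (V := V)) (r • ζ) ≠ 0 := by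
      intro h2
      apply h
      simp only [f]
      rw [etaS_apply] at h2
      rw [h2]; simp
    have h3 := etaS_ne_zero h1
    rw [norm_smul, Real.norm_of_nonneg hr.le] at h3
    rw [le_div_iff₀ (by positivity)]
    linarith
  have hsupp : HasCompactSupport f := by
    apply HasCompactSupport.of_support_subset_isCompact
      (isCompact_closedBall (0 : V) (1 / (20 * r)))
    intro ζ hζ
    simpa using hf0 ζ hζ
  have hchar : ContDiff ℝ (⊤ : ℕ∞) fun ζ : V => (Real.fourierChar (-inner ℝ ζ z0) : ℂ) := by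
    have : (fun ζ : V => (Real.fourierChar (-inner ℝ ζ z0) : ℂ))
        = fun ζ => Complex.exp (((2 * Real.pi * (-inner ℝ ζ z0) : ℝ) : ℂ) * Complex.I) := by
      ext ζ; rw [Real.fourierChar_apply]
    rw [this]
    apply ContDiff.cexp
    apply ContDiff.mul _ contDiff_const
    apply Complex.ofRealCLM.contDiff.comp
    exact contDiff_const.mul ((contDiff_id.inner ℝ contDiff_const).neg)
  have hsm : ContDiff ℝ (⊤ : ℕ∞) f := by
    apply contDiff_const.mul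
    apply hchar.mul
    have h : ContDiff ℝ (⊤ : ℕ∞) (eta V) := (eta V).contDiff
    exact Complex.ofRealCLM.contDiff.comp (h.comp (contDiff_const_smul r))
  let fS : 𝓢(V, ℂ) := hsupp.toSchwartzMap hsm
  have hfS : ∀ ζ, fS ζ = f ζ := fun ζ => rfl
  refine ⟨𝓕⁻ fS, fun ζ hζ => ?_, fun x => ?_⟩
  · have : 𝓕 (𝓕⁻ fS : 𝓢(V, ℂ)) = fS := by simp
    rw [this, hfS] at hζ
    exact hf0 ζ hζ
  · rw [fourierInv_coe, Real.fourierInv_eq]
    unfold psi1
    rw [smul_apply, fourierInv_coe, Real.fourierInv_eq, smul_eq_mul]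
    have e1 : ∀ ζ : V, (Real.fourierChar (inner ℝ ζ x)) • fS ζ
        = (((2 / ∫ ζ : V, (eta V ζ : ℝ)) * r ^ (Module.finrank ℝ V) : ℝ) : ℂ) *
          (fun ω : V => (Real.fourierChar (inner ℝ ω (r⁻¹ • (x - z0))) : ℂ) *
            ((eta V ω : ℝ) : ℂ)) (r • ζ) := by
      intro ζ
      rw [hfS]
      simp only [f, Circle.smul_def, smul_eq_mul]
      have : (Real.fourierChar (inner ℝ (r • ζ) (r⁻¹ • (x - z0))) : ℂ)
          = (Real.fourierChar (inner ℝ ζ x) : ℂ) * (Real.fourierChar (-inner ℝ ζ z0) : ℂ) := by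
        rw [← Circle.coe_mul, ← AddChar.map_add_eq_mul]
        congr 2
        rw [inner_smul_left, inner_smul_right, inner_sub_right]
        simp only [RCLike.conj_to_real]
        field_simp
        ring
      rw [this]; ring
    rw [integral_congr_ae (Filter.Eventually.of_forall e1)]
    rw [integral_const_mul]
    have e3 := Measure.integral_comp_smul_of_nonneg (μ := (volume : Measure V))
      (fun ω : V => (Real.fourierChar (inner ℝ ω (r⁻¹ • (x - z0))) : ℂ) *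
            ((eta V ω : ℝ) : ℂ)) r (hR := hr.le)
    rw [e3]
    simp only [Circle.smul_def, smul_eq_mul, etaS_apply]
    rw [Complex.real_smul, ← mul_assoc]
    congr 1
    push_cast
    have : (r : ℂ) ^ Module.finrank ℝ V ≠ 0 := by
      apply pow_ne_zero; exact_mod_cast hr.ne'
    field_simp

end Crest.Agent.R138.Bil882
end

-- ▼ part R138/Bil4_882

set_option autoImplicit false

open MeasureTheory SchwartzMap FourierTransform
open scoped FourierTransform SchwartzMap ENNReal Convolution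

namespace Crest.Agent.R138.Bil882

open Crest.Agent.R138.Defs (E2 ee ext Par)

/-- space-time with its Euclidean structure. -/
abbrev W := WithLp 2 (E2 × ℝ)

/-- the graph of the phase. -/
noncomputable def Gam (h : E2 → ℝ) (ξ : E2) : W := WithLp.toLp 2 (ξ, h ξ)

theorem continuous_Gam {h : E2 → ℝ} (hh : Continuous h) : Continuous (Gam h) := by
  unfold Gam
  fun_prop

theorem finrank_W : Module.finrank ℝ W = 3 := by
  rw [show Module.finrank ℝ W = Module.finrank ℝ (E2 × ℝ) from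
    LinearEquiv.finrank_eq (WithLp.linearEquiv 2 ℝ (E2 × ℝ))]
  simp

theorem ee_eq (t : ℝ) : ee t = (Real.fourierChar t : ℂ) := by
  unfold Crest.Agent.R138.Defs.ee
  rw [Real.fourierChar_apply]

/-- the measure on the graph carrying the extension functions. -/
noncomputable def muG (h : E2 → ℝ) (r : ℝ) : Measure W :=
  ((volume : Measure E2).restrict (Metric.closedBall 0 r)).map (Gam h)

instance (h : E2 → ℝ) (r : ℝ) : IsFiniteMeasure (muG h r) := by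
  unfold muG
  have : IsFiniteMeasure ((volume : Measure E2).restrict (Metric.closedBall 0 r)) :=
    ⟨by rw [Measure.restrict_apply_univ]; exact measure_closedBall_lt_top⟩
  infer_instance

/-- the density on space-time. -/
noncomputable def gG (h : E2 → ℝ) (g : E2 → ℂ) (w : W) : ℂ :=
  if w = Gam h (WithLp.ofLp w).1 then g (WithLp.ofLp w).1 else 0

theorem gG_Gam (h : E2 → ℝ) (g : E2 → ℂ) (ξ : E2) : gG h g (Gam h ξ) = g ξ := by
  unfold gG Gam; simp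

theorem measurable_gG {h : E2 → ℝ} (hh : Continuous h) {g : E2 → ℂ} (hg : Measurable g) :
    Measurable (gG h g) := by
  unfold gG
  have h1 : Measurable fun w : W => (WithLp.ofLp w).1 := by
    have : Continuous fun w : W => (WithLp.ofLp w).1 := by fun_prop
    exact this.measurable
  refine Measurable.ite ?_ (hg.comp h1) measurable_const
  have hc : IsClosed {w : W | w = Gam h (WithLp.ofLp w).1} := by
    apply isClosed_eq continuous_id
    exact (continuous_Gam hh).comp (by fun_prop)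
  exact hc.measurableSet

theorem integrable_gG {h : E2 → ℝ} (hh : Continuous h) {g : E2 → ℂ} (hg : Measurable g)
    {M : ℝ} (hM : ∀ ξ, ‖g ξ‖ ≤ M) (r : ℝ) : Integrable (gG h g) (muG h r) := by
  refine Integrable.of_bound (measurable_gG hh hg).aestronglyMeasurable (|M|) ?_
  refine Filter.Eventually.of_forall fun w => ?_
  unfold gG
  split_ifs with hw
  · exact (hM _).trans (le_abs_self M)
  · simp

/-- an extension function is a superposition of characters carried by the graph. -/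
theorem ext_eq_wave {h : E2 → ℝ} (hh : Continuous h) {g : E2 → ℂ} (hg : Measurable g)
    {r : ℝ} (hr : ∀ ξ, r < ‖ξ‖ → g ξ = 0) (x : E2) (t : ℝ) :
    ext h g x t = wave (muG h r) (gG h g) (WithLp.toLp 2 (x, t)) := by
  unfold wave muG
  rw [integral_map (continuous_Gam hh).measurable.aemeasurable]
  · have e1 : ∀ ξ : E2, (Real.fourierChar (inner ℝ (Gam h ξ) (WithLp.toLp 2 (x, t) : W)) : ℂ)
        * gG h g (Gam h ξ) = g ξ * ee (inner ℝ x ξ + t * h ξ) := by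
      intro ξ
      rw [gG_Gam, ee_eq, mul_comm]
      congr 3
      unfold Gam
      rw [WithLp.prod_inner_apply]
      simp only [real_inner_comm x ξ]
      simp [mul_comm]
    simp_rw [e1]
    unfold Crest.Agent.R138.Defs.ext
    rw [setIntegral_eq_integral_of_forall_compl_eq_zero]
    intro ξ hξ
    have : r < ‖ξ‖ := by simpa using hξ
    rw [hr ξ this, zero_mul]
  · have m1 : Measurable fun w : W =>
        (Real.fourierChar (inner ℝ w (WithLp.toLp 2 (x, t) : W)) : ℂ) * gG h g w := by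
      refine Measurable.mul ?_ (measurable_gG hh hg)
      have hc : Continuous fun w : W =>
          (Real.fourierChar (inner ℝ w (WithLp.toLp 2 (x, t) : W)) : ℂ) := by
        have : Continuous fun t : ℝ => ((Real.fourierChar t : Circle) : ℂ) := by fun_prop
        exact this.comp (by fun_prop)
      exact hc.measurable
    exact m1.aestronglyMeasurable

/-- the spectrum of an extension function. -/
theorem hasSpec_ext {h : E2 → ℝ} (hh : Continuous h) {g : E2 → ℂ} (hg : Measurable g)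
    {M : ℝ} (hM : ∀ ξ, ‖g ξ‖ ≤ M) {r : ℝ} (hr : ∀ ξ, r < ‖ξ‖ → g ξ = 0) (Ω : Set E2)
    (hΩ : ∀ ξ, g ξ ≠ 0 → ξ ∈ Ω) :
    HasSpec (fun w : W => ext h g (WithLp.ofLp w).1 (WithLp.ofLp w).2) (Gam h '' Ω) := by
  have e : (fun w : W => ext h g (WithLp.ofLp w).1 (WithLp.ofLp w).2)
      = wave (muG h r) (gG h g) := by
    ext w
    rw [ext_eq_wave hh hg hr]
  rw [e]
  obtain ⟨B, hB⟩ : ∃ B, ∀ ξ ∈ Metric.closedBall (0 : E2) r, ‖Gam h ξ‖ ≤ B :=
    (isCompact_closedBall (0 : E2) r).exists_bound_of_continuousOn (continuous_Gam hh).continuousOn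
  have hne : ∀ w, gG h g w ≠ 0 → ∃ ξ, g ξ ≠ 0 ∧ Gam h ξ = w := by
    intro w hw
    unfold gG at hw
    split_ifs at hw with h1
    · exact ⟨_, hw, h1.symm⟩
    · exact absurd rfl hw
  refine hasSpec_wave _ _ (integrable_gG hh hg hM r) B ?_ _ ?_
  · intro w hw
    obtain ⟨ξ, h1, rfl⟩ := hne w hw
    apply hB
    rw [Metric.mem_closedBall, dist_zero_right]
    by_contra h2
    exact h1 (hr ξ (not_le.1 h2))
  · intro w hw
    obtain ⟨ξ, h1, rfl⟩ := hne w hw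
    exact ⟨ξ, hΩ ξ h1, rfl⟩

/-- covering lemma for the overlap set. -/
theorem volume_le_of_cover (S : Set W) (s : W → ℝ) (K X Y : ℝ) (hK : 0 < K) (hX : 0 ≤ X)
    (hY : 0 ≤ Y) (h1 : ∀ a ∈ S, ∀ b ∈ S, |s a - s b| ≤ X / K)
    (h2 : ∀ a ∈ S, ∀ b ∈ S, |s a - s b| ≤ 1 / K → ‖a - b‖ ≤ Y / K) :
    volume S ≤ ENNReal.ofReal ((2 * X + 3) * (Y / K) ^ 3) * volume (Metric.ball (0 : W) 1) := by
  classical
  rcases S.eq_empty_or_nonempty with rfl | ⟨a0, ha0⟩
  · simp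
  -- label of a point
  let lab : W → ℤ := fun a => ⌊K * (s a - s a0)⌋
  have hlab : ∀ a ∈ S, lab a ∈ Finset.Icc (-⌈X⌉) ⌊X⌋ := by
    intro a ha
    have h3 := abs_le.1 (h1 a ha a0 ha0)
    have h4 : -X ≤ K * (s a - s a0) := by
      have := mul_le_mul_of_nonneg_left h3.1 hK.le
      have e : K * -(X / K) = -X := by field_simp
      linarith
    have h5 : K * (s a - s a0) ≤ X := by
      have := mul_le_mul_of_nonneg_left h3.2 hK.le
      have e : K * (X / K) = X := by field_simp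
      linarith
    rw [Finset.mem_Icc]
    constructor
    · apply Int.le_floor.2
      push_cast
      have := Int.le_ceil X
      linarith
    · exact Int.floor_le_floor h5
  let rep : ℤ → W := fun j => if hj : ∃ a ∈ S, lab a = j then hj.choose else 0
  have hrep : ∀ a ∈ S, rep (lab a) ∈ S ∧ lab (rep (lab a)) = lab a := by
    intro a ha
    have hj : ∃ b ∈ S, lab b = lab a := ⟨a, ha, rfl⟩
    simp only [rep, dif_pos hj]
    exact hj.choose_spec
  have hcov : S ⊆ ⋃ j ∈ Finset.Icc (-⌈X⌉) ⌊X⌋, Metric.closedBall (rep j) (Y / K) := by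
    intro a ha
    simp only [Set.mem_iUnion]
    refine ⟨lab a, hlab a ha, ?_⟩
    rw [Metric.mem_closedBall, dist_eq_norm]
    obtain ⟨h3, h4⟩ := hrep a ha
    apply h2 a ha _ h3
    have h5 := Int.abs_sub_lt_one_of_floor_eq_floor (a := K * (s a - s a0))
      (b := K * (s (rep (lab a)) - s a0)) h4.symm
    have h6 : K * (s a - s a0) - K * (s (rep (lab a)) - s a0) = K * (s a - s (rep (lab a))) := by
      ring
    rw [h6, abs_mul, abs_of_pos hK] at h5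
    rw [le_div_iff₀ hK]
    linarith
  have hcard : ((Finset.Icc (-⌈X⌉) ⌊X⌋).card : ℝ) ≤ 2 * X + 3 := by
    rw [Int.card_Icc]
    have h3 : (0:ℤ) ≤ ⌊X⌋ + 1 - -⌈X⌉ := by
      have : 0 ≤ ⌊X⌋ := Int.floor_nonneg.2 hX
      have : 0 ≤ ⌈X⌉ := Int.ceil_nonneg hX
      omega
    have h4 : (((⌊X⌋ + 1 - -⌈X⌉).toNat : ℤ) : ℝ) = ((⌊X⌋ + 1 - -⌈X⌉ : ℤ) : ℝ) := by
      rw [Int.toNat_of_nonneg h3]
    have h5 : (((⌊X⌋ + 1 - -⌈X⌉).toNat : ℕ) : ℝ) = ((⌊X⌋ + 1 - -⌈X⌉ : ℤ) : ℝ) := by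
      rw [← h4]; norm_cast
    rw [h5]
    push_cast
    have := Int.floor_le X
    have := (Int.ceil_lt_add_one X).le
    linarith
  calc volume S ≤ volume (⋃ j ∈ Finset.Icc (-⌈X⌉) ⌊X⌋, Metric.closedBall (rep j) (Y / K)) :=
        measure_mono hcov
    _ ≤ ∑ j ∈ Finset.Icc (-⌈X⌉) ⌊X⌋, volume (Metric.closedBall (rep j) (Y / K)) :=
        measure_biUnion_finset_le _ _
    _ = ∑ j ∈ Finset.Icc (-⌈X⌉) ⌊X⌋, ENNReal.ofReal ((Y / K) ^ 3) * volume (Metric.ball (0 : W) 1) := by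
        refine Finset.sum_congr rfl fun j _ => ?_
        rw [Measure.addHaar_closedBall _ _ (by positivity), finrank_W]
    _ = ((Finset.Icc (-⌈X⌉) ⌊X⌋).card : ℝ≥0∞) * (ENNReal.ofReal ((Y / K) ^ 3)
          * volume (Metric.ball (0 : W) 1)) := by
        rw [Finset.sum_const, nsmul_eq_mul]
    _ ≤ ENNReal.ofReal (2 * X + 3) * (ENNReal.ofReal ((Y / K) ^ 3)
          * volume (Metric.ball (0 : W) 1)) := by
        gcongr
        rw [← ENNReal.ofReal_natCast]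
        exact ENNReal.ofReal_le_ofReal hcard
    _ = _ := by
        rw [← mul_assoc, ← ENNReal.ofReal_mul (by positivity)]

end Crest.Agent.R138.Bil882
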