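import Crest.Agent.R138.Bn3_759

-- ▼ part R138/Bn4_759
section

/-! R138, broad/narrow end, part 4 (helper759): measure of the balls, integrals of the weights,
pieces of an extension function. -/

set_option autoImplicit false

open MeasureTheory
open scoped ENNReal

namespace Crest.Agent.R138.Bn759

open Crest.Agent.R138.Defs (E2 ee ext ParB cyl)
open Crest.Agent.R138.Bil882 (NearId ee_eq Gam W)

instance instHaarER : (volume : Measure (E2 × ℝ)).IsAddHaarMeasure := by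
  rw [Measure.volume_eq_prod]; infer_instance

lemma finrank_ER : Module.finrank ℝ (E2 × ℝ) = 3 := by simp

lemma lintegral_comp_scale {f : E2 × ℝ → ℝ≥0∞} (hf : Measurable f) {K : ℝ} (hK : 0 < K)
    (z : E2 × ℝ) :
    ∫⁻ p : E2 × ℝ, f (K⁻¹ • (p - z)) = ENNReal.ofReal (K ^ 3) * ∫⁻ p : E2 × ℝ, f p := by
  have h1 : ∫⁻ p : E2 × ℝ, f (K⁻¹ • (p - z)) = ∫⁻ p : E2 × ℝ, f (K⁻¹ • p) :=
    lintegral_sub_right_eq_self (fun p => f (K⁻¹ • p)) z
  have h2 := Measure.map_addHaar_smul (volume : Measure (E2 × ℝ)) (r := K⁻¹) (by positivity)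
  have h3 : ∫⁻ p : E2 × ℝ, f (K⁻¹ • p) =
      ∫⁻ p, f p ∂(Measure.map (K⁻¹ • · : E2 × ℝ → E2 × ℝ) (volume : Measure (E2 × ℝ))) :=
    (lintegral_map hf (measurable_const_smul _)).symm
  rw [h1, h3, h2, lintegral_smul_measure, finrank_ER, smul_eq_mul]
  congr 2
  rw [inv_pow, inv_inv, abs_of_pos (by positivity)]

lemma measurableSet_U (K : ℝ) (z : E2 × ℝ) : MeasurableSet (U K z) :=
  (isClosed_le (f := fun p : E2 × ℝ => ‖p.1 - z.1‖ + |p.2 - z.2|) (g := fun _ => K)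
    (by fun_prop) continuous_const).measurableSet

/-- the volume of the unit ball. -/
noncomputable def v0 : ℝ≥0∞ := volume (U 1 (0 : E2 × ℝ))

lemma v0_ne_zero : v0 ≠ 0 := by
  have h1 : Metric.ball (0 : E2 × ℝ) (1 / 2) ⊆ U 1 0 := by
    intro p hp
    rw [mem_ball_zero_iff] at hp
    have h2 := (norm_fst_le p).trans hp.le
    have h3 := (norm_snd_le p).trans hp.le
    rw [Real.norm_eq_abs] at h3
    show ‖p.1 - 0‖ + |p.2 - 0| ≤ 1
    rw [sub_zero, sub_zero]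
    linarith
  have h2 : 0 < volume (Metric.ball (0 : E2 × ℝ) (1 / 2)) :=
    Metric.measure_ball_pos _ _ (by norm_num)
  exact (h2.trans_le (measure_mono h1)).ne'

lemma v0_ne_top : v0 ≠ ∞ := by
  have h1 : U 1 (0 : E2 × ℝ) ⊆ Metric.closedBall (0 : E2 × ℝ) 1 := by
    intro p hp
    have h2 : ‖p.1 - 0‖ + |p.2 - 0| ≤ 1 := hp
    rw [sub_zero, sub_zero] at h2
    rw [mem_closedBall_zero_iff, Prod.norm_def, max_le_iff, Real.norm_eq_abs]
    constructor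
    · linarith [abs_nonneg p.2]
    · linarith [norm_nonneg p.1]
  exact ((measure_mono h1).trans_lt measure_closedBall_lt_top).ne

lemma mem_U_iff {K : ℝ} (hK : 0 < K) (z p : E2 × ℝ) :
    p ∈ U K z ↔ K⁻¹ • (p - z) ∈ U 1 (0 : E2 × ℝ) := by
  show ‖p.1 - z.1‖ + |p.2 - z.2| ≤ K ↔ ‖(K⁻¹ • (p - z)).1 - 0‖ + |(K⁻¹ • (p - z)).2 - 0| ≤ 1
  rw [sub_zero, sub_zero, Prod.smul_fst, Prod.smul_snd, Prod.fst_sub, Prod.snd_sub, norm_smul,
    norm_inv, Real.norm_of_nonneg hK.le, smul_eq_mul, abs_mul, abs_of_pos (inv_pos.2 hK), ← mul_add,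
    inv_mul_le_iff₀ hK, mul_one]

lemma volume_U {K : ℝ} (hK : 0 < K) (z : E2 × ℝ) :
    volume (U K z) = ENNReal.ofReal (K ^ 3) * v0 := by
  have h1 := lintegral_comp_scale
    (f := (U 1 (0 : E2 × ℝ)).indicator 1) (measurable_one.indicator (measurableSet_U 1 0)) hK z
  rw [lintegral_indicator_one (measurableSet_U 1 0)] at h1
  rw [v0, ← h1, ← lintegral_indicator_one (measurableSet_U K z)]
  refine lintegral_congr fun p => ?_
  by_cases hp : p ∈ U K z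
  · rw [Set.indicator_of_mem hp, Set.indicator_of_mem ((mem_U_iff hK z p).1 hp)]; rfl
  · rw [Set.indicator_of_notMem hp, Set.indicator_of_notMem fun h => hp ((mem_U_iff hK z p).2 h)]

/-- the integral of the weight of the unit ball. -/
noncomputable def IW (N : ℕ) : ℝ≥0∞ := ∫⁻ p : E2 × ℝ, ENNReal.ofReal (wz N 1 0 p)

lemma IW_ne_top {N : ℕ} (hN : 4 ≤ N) : IW N ≠ ∞ := by
  have h1 : Integrable (fun p : E2 × ℝ => (1 + ‖p‖) ^ (-(4:ℝ))) :=
    integrable_one_add_norm (by rw [finrank_ER]; norm_num)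
  have h2 : ∫⁻ p : E2 × ℝ, ENNReal.ofReal ((1 + ‖p‖) ^ (-(4:ℝ))) < ∞ := by
    have := h1.2
    rw [hasFiniteIntegral_iff_ofReal (Filter.Eventually.of_forall fun p => by positivity)] at this
    exact this
  refine ((lintegral_mono fun p => ENNReal.ofReal_le_ofReal ?_).trans_lt h2).ne
  refine (wz_anti hN one_pos 0 p).trans ?_
  rw [wz_eq, Real.rpow_neg (by positivity), show (4:ℝ) = ((4:ℕ):ℝ) by norm_num, Real.rpow_natCast]
  have h3 : ‖p‖ ≤ ‖p.1‖ + |p.2| := by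
    rw [Prod.norm_def, max_le_iff, Real.norm_eq_abs]
    constructor
    · linarith [abs_nonneg p.2]
    · linarith [norm_nonneg p.1]
  have e : ‖p.1 - (0 : E2 × ℝ).1‖ + |p.2 - (0 : E2 × ℝ).2| = ‖p.1‖ + |p.2| := by simp
  rw [e, div_one]
  exact inv_anti₀ (by positivity) (by gcongr)

lemma measurable_wz (N : ℕ) (K : ℝ) (z : E2 × ℝ) : Measurable (wz N K z) :=
  Crest.Agent.R138.Bil882.measurable_wt N K z.1 z.2

lemma lintegral_wz (N : ℕ) {K : ℝ} (hK : 0 < K) (z : E2 × ℝ) :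
    ∫⁻ p : E2 × ℝ, ENNReal.ofReal (wz N K z p) = ENNReal.ofReal (K ^ 3) * IW N := by
  rw [IW, ← lintegral_comp_scale (measurable_wz N 1 0).ennreal_ofReal hK z]
  refine lintegral_congr fun p => ?_
  congr 1
  rw [wz_eq, wz_eq]
  congr 2
  rw [Prod.smul_fst, Prod.smul_snd, Prod.fst_sub, Prod.snd_sub, Prod.fst_zero, Prod.snd_zero,
    sub_zero, sub_zero, norm_smul, norm_inv, Real.norm_of_nonneg hK.le, smul_eq_mul, abs_mul,
    abs_of_pos (inv_pos.2 hK), ← mul_add, div_one, inv_mul_eq_div]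

/-- weighted Cauchy–Schwarz. -/
lemma cs_wz (N : ℕ) {K : ℝ} (hK : 0 < K) (z : E2 × ℝ) {f : E2 × ℝ → ℝ≥0∞} (hf : Measurable f) :
    (∫⁻ p : E2 × ℝ, f p * ENNReal.ofReal (wz N K z p)) ^ 2 ≤
      (∫⁻ p : E2 × ℝ, f p ^ 2 * ENNReal.ofReal (wz N K z p)) * (ENNReal.ofReal (K ^ 3) * IW N) := by
  have hw := (measurable_wz N K z).ennreal_ofReal
  rw [← lintegral_wz N hK z]
  have h := ENNReal.lintegral_mul_le_Lp_mul_Lq (volume : Measure (E2 × ℝ))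
    (p := 2) (q := 2) ⟨by norm_num, by norm_num, by norm_num⟩
    (f := fun p => f p * (ENNReal.ofReal (wz N K z p)) ^ (1 / 2 : ℝ))
    (g := fun p => (ENNReal.ofReal (wz N K z p)) ^ (1 / 2 : ℝ))
    ((hf.mul (hw.pow_const _)).aemeasurable) (hw.pow_const _).aemeasurable
  have e1 : ∀ p : E2 × ℝ, ((fun p => f p * (ENNReal.ofReal (wz N K z p)) ^ (1 / 2 : ℝ)) *
      (fun p => (ENNReal.ofReal (wz N K z p)) ^ (1 / 2 : ℝ))) p =
      f p * ENNReal.ofReal (wz N K z p) := by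
    intro p
    simp only [Pi.mul_apply]
    rw [mul_assoc, ← ENNReal.rpow_add_of_nonneg _ _ (by norm_num) (by norm_num)]
    norm_num
  have e2 : ∀ p : E2 × ℝ, (f p * (ENNReal.ofReal (wz N K z p)) ^ (1 / 2 : ℝ)) ^ (2:ℝ) =
      f p ^ 2 * ENNReal.ofReal (wz N K z p) := by
    intro p
    rw [ENNReal.mul_rpow_of_nonneg _ _ (by norm_num), ← ENNReal.rpow_mul]
    norm_num
  have e3 : ∀ p : E2 × ℝ, ((ENNReal.ofReal (wz N K z p)) ^ (1 / 2 : ℝ)) ^ (2:ℝ) =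
      ENNReal.ofReal (wz N K z p) := by
    intro p
    rw [← ENNReal.rpow_mul]
    norm_num
  simp only [e1, e2, e3] at h
  calc (∫⁻ p : E2 × ℝ, f p * ENNReal.ofReal (wz N K z p)) ^ 2
      ≤ ((∫⁻ p : E2 × ℝ, f p ^ 2 * ENNReal.ofReal (wz N K z p)) ^ (1 / 2 : ℝ) *
        (∫⁻ p : E2 × ℝ, ENNReal.ofReal (wz N K z p)) ^ (1 / 2 : ℝ)) ^ 2 := by gcongr
    _ = _ := by
        rw [mul_pow, ← ENNReal.rpow_natCast, ← ENNReal.rpow_natCast, ← ENNReal.rpow_mul,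
          ← ENNReal.rpow_mul]
        norm_num

end Crest.Agent.R138.Bn759
end

-- ▼ part R138/Bn5_759
section

/-! R138, broad/narrow end, part 5 (helper759): pieces of an extension function and their
localisation. -/

set_option autoImplicit false

open MeasureTheory
open scoped ENNReal

namespace Crest.Agent.R138.Bn759

open Crest.Agent.R138.Defs (E2 ee ext ParB cyl)
open Crest.Agent.R138.Bil882 (NearId ee_eq Gam W lip_of_grad norm_le_add planar_bilinear wt)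

/-- admissible densities. -/
structure Nice (r : ℝ) (g : E2 → ℂ) : Prop where
  m : Measurable g
  b : ∃ M, ∀ ξ, ‖g ξ‖ ≤ M
  s : ∀ ξ, r < ‖ξ‖ → g ξ = 0

/-- multiplication by the bumps of `T` at scale `1/κ` in direction space. -/
noncomputable def pc (h : E2 → ℝ) (κ : ℝ) (T : Finset (ℤ × ℤ)) (g : E2 → ℂ) : E2 → ℂ :=
  fun ξ => mm h κ (Ph T) ξ * g ξ

lemma continuous_mm {B : ℕ → ℝ} {h : E2 → ℝ} (hh : ParB B h) (κ : ℝ) (T : Finset (ℤ × ℤ)) :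
    Continuous (mm h κ (Ph T)) :=
  (contDiff_mm hh.1 κ (Complex.ofRealCLM.contDiff.comp (contDiff_sum_th2 T))).continuous

lemma Nice.pc {B : ℕ → ℝ} {h : E2 → ℝ} (hh : ParB B h) {r : ℝ} {g : E2 → ℂ} (hg : Nice r g)
    (κ : ℝ) (T : Finset (ℤ × ℤ)) : Nice r (pc h κ T g) :=
  ⟨(continuous_mm hh κ T).measurable.mul hg.m, bdd_mul hg.b fun _ => norm_Ph_le T _, supp_mul hg.s⟩

lemma Nice.zero (r : ℝ) : Nice r (fun _ => 0) :=
  ⟨measurable_const, ⟨0, fun _ => by simp⟩, fun _ _ => rfl⟩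

lemma Nice.integrable {r : ℝ} {g : E2 → ℂ} (hg : Nice r g) : Integrable g :=
  integrable_of_bdd hg.m hg.b hg.s

lemma Nice.ext_integrable {h : E2 → ℝ} (hh : Continuous h) {r : ℝ} {g : E2 → ℂ} (hg : Nice r g)
    (x : E2) (t : ℝ) : Integrable fun ξ => g ξ * ee (inner ℝ x ξ + t * h ξ) := by
  refine hg.integrable.norm.mono' ?_ (Filter.Eventually.of_forall fun ξ => ?_)
  · exact (hg.m.mul (continuous_ee.comp (by fun_prop)).measurable).aestronglyMeasurable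
  · rw [norm_mul, norm_ee, mul_one]

lemma Nice.cont {h : E2 → ℝ} (hh : Continuous h) {r : ℝ} {g : E2 → ℂ} (hg : Nice r g) :
    Continuous fun p : E2 × ℝ => ext h g p.1 p.2 := continuous_ext hh hg.m hg.b hg.s

lemma ext_sum {h : E2 → ℝ} (hh : Continuous h) {r : ℝ} {ι : Type*} (s : Finset ι)
    {G : ι → E2 → ℂ} (hG : ∀ i ∈ s, Nice r (G i)) (x : E2) (t : ℝ) :
    ext h (fun ξ => ∑ i ∈ s, G i ξ) x t = ∑ i ∈ s, ext h (G i) x t := by
  unfold Crest.Agent.R138.Defs.ext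
  rw [← integral_finsetSum s fun i hi => (hG i hi).ext_integrable hh x t]
  refine integral_congr_ae (Filter.Eventually.of_forall fun ξ => ?_)
  simp only [Finset.sum_mul]

/-- index type of the pieces. -/
abbrev JJ (n n1 : ℕ) := {p // p ∈ sq n} × {a // a ∈ sq n1}

/-- the piece with index `j`. -/
noncomputable def Gj (h : E2 → ℝ) (K K1 : ℝ) (g : E2 → ℂ) {n n1 : ℕ} (j : JJ n n1) : E2 → ℂ :=
  pc h K {(j.1 : ℤ × ℤ)} (pc h K1 {(j.2 : ℤ × ℤ)} g)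

lemma sum_Gj (h : E2 → ℝ) (K K1 : ℝ) (g : E2 → ℂ) {n n1 : ℕ} (S : Finset (JJ n n1))
    (a : {a // a ∈ sq n1}) (hS : ∀ j ∈ S, j.2 = a) (ξ : E2) :
    ∑ j ∈ S, Gj h K K1 g j ξ =
      pc h K (S.image fun j => (j.1 : ℤ × ℤ)) (pc h K1 {(a : ℤ × ℤ)} g) ξ := by
  unfold Gj pc mm Ph
  rw [Finset.sum_image]
  · push_cast
    rw [Finset.sum_mul]
    refine Finset.sum_congr rfl fun j hj => ?_
    rw [hS j hj]
    simp
  · intro i hi j hj hij
    have h1 : i.1 = j.1 := Subtype.ext hij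
    have h2 : i.2 = j.2 := (hS i hi).trans (hS j hj).symm
    exact Prod.ext h1 h2

lemma pc_full {h : E2 → ℝ} {κ : ℝ} {n : ℕ} {g : E2 → ℂ} {r : ℝ} (hg : ∀ ξ, r < ‖ξ‖ → g ξ = 0)
    (hn : ∀ ξ, ‖ξ‖ ≤ r → ‖κ • gradient h ξ‖ ≤ n) : pc h κ (sq n) g = g := by
  funext ξ
  unfold pc mm Ph
  by_cases hξ : ‖ξ‖ ≤ r
  · rw [sum_th2 (hn ξ hξ)]; simp
  · rw [hg ξ (not_le.1 hξ), mul_zero]

lemma pc_ne_zero {h : E2 → ℝ} {κ : ℝ} {T : Finset (ℤ × ℤ)} {g : E2 → ℂ} {ξ : E2}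
    (hξ : pc h κ T g ξ ≠ 0) : g ξ ≠ 0 ∧ ∃ p ∈ T, ‖κ • gradient h ξ - lv p‖ ≤ 3 / 2 := by
  unfold pc mm Ph at hξ
  refine ⟨right_ne_zero_of_mul hξ, ?_⟩
  have h1 : ∑ a ∈ T, th2 a (κ • gradient h ξ) ≠ 0 := by
    intro h0
    apply left_ne_zero_of_mul hξ
    rw [h0, Complex.ofReal_zero]
  obtain ⟨p, hp, hp'⟩ := Finset.exists_ne_zero_of_sum_ne_zero h1
  refine ⟨p, hp, ?_⟩
  have h2 := th2_ne_zero hp'
  have h3 := (sq_lt_one_iff_abs_lt_one _).2 h2.1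
  have h4 := (sq_lt_one_iff_abs_lt_one _).2 h2.2
  have h5 : ‖κ • gradient h ξ - lv p‖ ^ 2 < 2 := by
    rw [norm_sq]
    have e0 : (κ • gradient h ξ - lv p) 0 = (κ • gradient h ξ) 0 - p.1 := by simp [lv]
    have e1 : (κ • gradient h ξ - lv p) 1 = (κ • gradient h ξ) 1 - p.2 := by simp [lv]
    rw [e0, e1]
    linarith
  nlinarith [norm_nonneg (κ • gradient h ξ - lv p)]

lemma pc_zero_of {h : E2 → ℝ} {κ : ℝ} {T : Finset (ℤ × ℤ)} {g : E2 → ℂ} {ξ : E2}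
    (hξ : g ξ = 0) : pc h κ T g ξ = 0 := by unfold pc; rw [hξ, mul_zero]

/-- distances of parameters from distances of directions. -/
lemma dist_le_of_grad {h : E2 → ℝ} (hn : NearId h (1 / 10)) (ξ η : E2) :
    ‖ξ - η‖ ≤ 10 / 9 * ‖gradient h ξ - gradient h η‖ := by
  have h1 := hn ξ η
  have h2 : ‖ξ - η‖ ≤ ‖gradient h ξ - gradient h η‖ +
      ‖(gradient h ξ - gradient h η) - (ξ - η)‖ := by
    calc ‖ξ - η‖ = ‖(gradient h ξ - gradient h η) - ((gradient h ξ - gradient h η) - (ξ - η))‖ := by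
          congr 1; abel
      _ ≤ _ := norm_sub_le _ _
  linarith

lemma dist_ge_of_grad {h : E2 → ℝ} (hn : NearId h (1 / 10)) (ξ η : E2) :
    ‖gradient h ξ - gradient h η‖ ≤ 11 / 10 * ‖ξ - η‖ := by
  have h1 := hn ξ η
  have h2 : ‖gradient h ξ - gradient h η‖ ≤ ‖(gradient h ξ - gradient h η) - (ξ - η)‖ +
      ‖ξ - η‖ := by
    calc ‖gradient h ξ - gradient h η‖
        = ‖((gradient h ξ - gradient h η) - (ξ - η)) + (ξ - η)‖ := by
          congr 1; abel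
      _ ≤ _ := norm_add_le _ _
  linarith

lemma grad_le {h : E2 → ℝ} (hn : NearId h (1 / 10)) (h0 : ‖gradient h 0‖ ≤ 1) {ξ : E2} {r : ℝ}
    (hξ : ‖ξ‖ ≤ r) : ‖gradient h ξ‖ ≤ 1 + 11 / 10 * r := by
  have h1 := dist_ge_of_grad hn ξ 0
  rw [sub_zero] at h1
  have h2 : ‖gradient h ξ‖ ≤ ‖gradient h 0‖ + ‖gradient h ξ - gradient h 0‖ := by
    calc ‖gradient h ξ‖ = ‖gradient h 0 + (gradient h ξ - gradient h 0)‖ := by congr 1; abel
      _ ≤ _ := norm_add_le _ _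
  linarith

lemma dir_close {h : E2 → ℝ} {κ : ℝ} (hκ : 0 < κ) {p : ℤ × ℤ} {ξ : E2}
    (h1 : ‖κ • gradient h ξ - lv p‖ ≤ 3 / 2) : ‖gradient h ξ - κ⁻¹ • lv p‖ ≤ 3 / 2 / κ := by
  have e : gradient h ξ - κ⁻¹ • lv p = κ⁻¹ • (κ • gradient h ξ - lv p) := by
    rw [smul_sub, smul_smul, inv_mul_cancel₀ hκ.ne', one_smul]
  rw [e, norm_smul, norm_inv, Real.norm_of_nonneg hκ.le, inv_mul_eq_div]
  gcongr

/-- two parameters in the same piece are `10/(3κ)`-close. -/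
lemma par_close {h : E2 → ℝ} (hn : NearId h (1 / 10)) {κ : ℝ} (hκ : 0 < κ) {p : ℤ × ℤ} {ξ η : E2}
    (h1 : ‖κ • gradient h ξ - lv p‖ ≤ 3 / 2) (h2 : ‖κ • gradient h η - lv p‖ ≤ 3 / 2) :
    ‖ξ - η‖ ≤ 10 / 3 / κ := by
  have h3 := dir_close hκ h1
  have h4 := dir_close hκ h2
  have h5 : ‖gradient h ξ - gradient h η‖ ≤ 3 / 2 / κ + 3 / 2 / κ := by
    calc ‖gradient h ξ - gradient h η‖
        = ‖(gradient h ξ - κ⁻¹ • lv p) - (gradient h η - κ⁻¹ • lv p)‖ := by congr 1; abel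
      _ ≤ _ := (norm_sub_le _ _).trans (add_le_add h3 h4)
  refine (dist_le_of_grad hn ξ η).trans ?_
  calc 10 / 9 * ‖gradient h ξ - gradient h η‖ ≤ 10 / 9 * (3 / 2 / κ + 3 / 2 / κ) := by gcongr
    _ = 10 / 3 / κ := by ring

/-- the piece of the graph carrying one piece lies in a ball of radius `17/κ`. -/
lemma Gam_close {h : E2 → ℝ} (hd : Differentiable ℝ h) (hn : NearId h (1 / 10))
    (h0 : ‖gradient h 0‖ ≤ 1) {κ : ℝ} (hκ : 0 < κ) {p : ℤ × ℤ} {ξ η : E2} (hξ : ‖ξ‖ ≤ 1)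
    (hη : ‖η‖ ≤ 1)
    (h1 : ‖κ • gradient h ξ - lv p‖ ≤ 3 / 2) (h2 : ‖κ • gradient h η - lv p‖ ≤ 3 / 2) :
    ‖Gam h ξ - Gam h η‖ ≤ 17 / κ := by
  have h3 := par_close hn hκ h1 h2
  have hL : ∀ ξ : E2, ‖ξ‖ ≤ 2 → ‖gradient h ξ‖ ≤ 4 := fun ξ hξ =>
    (grad_le hn h0 hξ).trans (by norm_num)
  have h4 := lip_of_grad hd hL (hη.trans (by norm_num)) (hξ.trans (by norm_num))
  refine (norm_le_add _).trans ?_
  have e1 : (WithLp.ofLp (Gam h ξ - Gam h η)).1 = ξ - η := rfl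
  have e2 : (WithLp.ofLp (Gam h ξ - Gam h η)).2 = h ξ - h η := rfl
  rw [e1, e2]
  calc ‖ξ - η‖ + |h ξ - h η| ≤ 10 / 3 / κ + 4 * (10 / 3 / κ) := by
        gcongr
        exact h4.trans (by gcongr)
    _ = 50 / 3 / κ := by ring
    _ ≤ 17 / κ := by gcongr; norm_num

end Crest.Agent.R138.Bn759
end

-- ▼ part R138/Bn6_759
section

/-! R138, broad/narrow end, part 6 (helper759): the inequality on one ball for an extension
function. -/

set_option autoImplicit false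

open MeasureTheory
open scoped ENNReal

namespace Crest.Agent.R138.Bn759

open Crest.Agent.R138.Defs (E2 ee ext ParB cyl)
open Crest.Agent.R138.Bil882 (NearId ee_eq Gam W lip_of_grad norm_le_add planar_bilinear wt)

/-- weighted energy of the `K`-ball, normalised. -/
noncomputable def QQ (n : ℕ) (h : E2 → ℝ) (K : ℝ) (g : E2 → ℂ) (z : E2 × ℝ) : ℝ≥0∞ :=
  ENNReal.ofReal (K ^ 3)⁻¹ * ∫⁻ p : E2 × ℝ, ‖ext h g p.1 p.2‖ₑ ^ 2 * ENNReal.ofReal (pw n K z p)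

/-- weighted `L¹` average. -/
noncomputable def ML (N : ℕ) (h : E2 → ℝ) (K : ℝ) (g : E2 → ℂ) (z : E2 × ℝ) : ℝ≥0∞ :=
  ENNReal.ofReal (K ^ 3)⁻¹ * ∫⁻ p : E2 × ℝ, ‖ext h g p.1 p.2‖ₑ * ENNReal.ofReal (wz N K z p)

/-- multipliers do not increase the weighted energy. -/
lemma QQ_pc (B : ℕ → ℝ) (n : ℕ) : ∃ C : ℝ, 0 < C ∧ ∀ h : E2 → ℝ, ParB B h →
    ∀ (κ K : ℝ), 0 ≤ κ → κ ≤ K → 1 ≤ K → ∀ (r : ℝ) (g : E2 → ℂ), Nice r g →
    ∀ (T : Finset (ℤ × ℤ)) (z : E2 × ℝ),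
      QQ n h K (pc h κ T g) z ≤ ENNReal.ofReal C * QQ n h K g z := by
  obtain ⟨C, hC, hm⟩ := mult_st n
  obtain ⟨c, hc, hP⟩ := mul_Ph n
  refine ⟨C * (n.factorial * c * BB B n ^ n) ^ 2 + 1, by positivity, ?_⟩
  intro h hh κ K hκ hκK hK r g hg T z
  have h1 := hm B h hh c hc (Ph T) (hP T) κ K hκ hκK hK g hg.m hg.b r hg.s z
  unfold QQ
  calc _ ≤ ENNReal.ofReal (K ^ 3)⁻¹ * (ENNReal.ofReal (C * (n.factorial * c * BB B n ^ n) ^ 2) *
          ∫⁻ p : E2 × ℝ, ‖ext h g p.1 p.2‖ₑ ^ 2 * ENNReal.ofReal (pw n K z p)) := by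
        gcongr
        exact h1
    _ ≤ ENNReal.ofReal (K ^ 3)⁻¹ * (ENNReal.ofReal (C * (n.factorial * c * BB B n ^ n) ^ 2 + 1) *
          ∫⁻ p : E2 × ℝ, ‖ext h g p.1 p.2‖ₑ ^ 2 * ENNReal.ofReal (pw n K z p)) := by
        gcongr
        linarith
    _ = _ := by ring

/-- `L¹` average by the energy. -/
lemma ML_sq_le (n : ℕ) (hn : 1 ≤ n) : ∃ C : ℝ, 0 < C ∧ ∀ h : E2 → ℝ, Continuous h →
    ∀ K : ℝ, 0 < K → ∀ (r : ℝ) (g : E2 → ℂ), Nice r g → ∀ z : E2 × ℝ,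
      ML (4 * n) h K g z ^ 2 ≤ ENNReal.ofReal C * QQ n h K g z := by
  have hI : IW (4 * n) ≠ ∞ := IW_ne_top (by omega)
  refine ⟨(IW (4 * n)).toReal + 1, by positivity, ?_⟩
  intro h hh K hK r g hg z
  have h1 := cs_wz (4 * n) hK z (hg.cont hh).measurable.enorm
  unfold ML QQ
  have e : ENNReal.ofReal (K ^ 3)⁻¹ * ENNReal.ofReal (K ^ 3) = 1 := by
    rw [← ENNReal.ofReal_mul (by positivity), inv_mul_cancel₀ (by positivity), ENNReal.ofReal_one]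
  calc (ENNReal.ofReal (K ^ 3)⁻¹ *
          ∫⁻ p : E2 × ℝ, ‖ext h g p.1 p.2‖ₑ * ENNReal.ofReal (wz (4 * n) K z p)) ^ 2
      = ENNReal.ofReal (K ^ 3)⁻¹ ^ 2 *
          (∫⁻ p : E2 × ℝ, ‖ext h g p.1 p.2‖ₑ * ENNReal.ofReal (wz (4 * n) K z p)) ^ 2 := by
        rw [mul_pow]
    _ ≤ ENNReal.ofReal (K ^ 3)⁻¹ ^ 2 *
          ((∫⁻ p : E2 × ℝ, ‖ext h g p.1 p.2‖ₑ ^ 2 * ENNReal.ofReal (wz (4 * n) K z p)) *
            (ENNReal.ofReal (K ^ 3) * IW (4 * n))) := by gcongr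
    _ = (ENNReal.ofReal (K ^ 3)⁻¹ * ENNReal.ofReal (K ^ 3)) * IW (4 * n) *
          (ENNReal.ofReal (K ^ 3)⁻¹ *
          (∫⁻ p : E2 × ℝ, ‖ext h g p.1 p.2‖ₑ ^ 2 * ENNReal.ofReal (wz (4 * n) K z p))) := by ring
    _ ≤ ENNReal.ofReal ((IW (4 * n)).toReal + 1) * (ENNReal.ofReal (K ^ 3)⁻¹ *
          (∫⁻ p : E2 × ℝ, ‖ext h g p.1 p.2‖ₑ ^ 2 * ENNReal.ofReal (pw n K z p))) := by
        rw [e, one_mul]
        gcongr
        · calc IW (4 * n) = ENNReal.ofReal (IW (4 * n)).toReal := (ENNReal.ofReal_toReal hI).symm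
            _ ≤ _ := ENNReal.ofReal_le_ofReal (by linarith)
        · exact wz_le_pw n hK z _

/-- sup bound for a piece. -/
lemma sup_piece (N : ℕ) : ∃ C : ℝ, 0 < C ∧ ∀ h : E2 → ℝ, Differentiable ℝ h →
    NearId h (1 / 10) → ‖gradient h 0‖ ≤ 1 → ∀ K : ℝ, 0 < K → ∀ g : E2 → ℂ, Nice 1 g →
    ∀ p : ℤ × ℤ, (∀ ξ, g ξ ≠ 0 → ‖K • gradient h ξ - lv p‖ ≤ 3 / 2) →
    ∀ z q : E2 × ℝ, q ∈ U K z → ‖ext h g q.1 q.2‖ₑ ≤ ENNReal.ofReal C * ML N h K g z := by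
  obtain ⟨C, hC, h1⟩ := ext_loc N 17 (by norm_num)
  refine ⟨C, hC, ?_⟩
  intro h hd hn h0 K hK g hg p hp z q hq
  have h2 : ∃ w0 : W, ∀ ξ, g ξ ≠ 0 → ‖Gam h ξ - w0‖ ≤ 17 / K := by
    by_cases he : ∃ η, g η ≠ 0
    · obtain ⟨η, hη⟩ := he
      refine ⟨Gam h η, fun ξ hξ => ?_⟩
      have s1 : ‖ξ‖ ≤ 1 := by by_contra hc; exact hξ (hg.s ξ (not_le.1 hc))
      have s2 : ‖η‖ ≤ 1 := by by_contra hc; exact hη (hg.s η (not_le.1 hc))
      exact Gam_close hd hn h0 hK s1 s2 (hp ξ hξ) (hp η hη)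
    · push Not at he
      exact ⟨0, fun ξ hξ => absurd (he ξ) hξ⟩
  obtain ⟨w0, hw⟩ := h2
  have h3 := h1 h hd.continuous g hg.m hg.b 1 hg.s w0 K hK hw z q hq
  unfold ML
  calc _ ≤ _ := h3
    _ = _ := by rw [ENNReal.ofReal_mul hC.le, mul_assoc]

/-- the near relation of the coarse pieces. -/
def near {n1 : ℕ} (a b : {a // a ∈ sq n1}) : Prop :=
  |(a : ℤ × ℤ).1 - (b : ℤ × ℤ).1| ≤ 2000 ∧ |(a : ℤ × ℤ).2 - (b : ℤ × ℤ).2| ≤ 2000

instance {n1 : ℕ} : DecidableRel (near (n1 := n1)) := fun _ _ => by unfold near; infer_instance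

lemma near_card {n1 : ℕ} (a : {a // a ∈ sq n1}) (s : Finset {a // a ∈ sq n1})
    (hs : ∀ b ∈ s, near a b) : s.card ≤ 16008001 := by
  classical
  have h1 : s.card = (s.image fun b : {a // a ∈ sq n1} => (b : ℤ × ℤ)).card :=
    (Finset.card_image_of_injective s Subtype.val_injective).symm
  rw [h1]
  have h2 : (s.image fun b : {a // a ∈ sq n1} => (b : ℤ × ℤ)) ⊆
      Finset.Icc ((a : ℤ × ℤ).1 - 2000) ((a : ℤ × ℤ).1 + 2000) ×ˢ
        Finset.Icc ((a : ℤ × ℤ).2 - 2000) ((a : ℤ × ℤ).2 + 2000) := by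
    intro b hb
    obtain ⟨c, hc, rfl⟩ := Finset.mem_image.1 hb
    have h3 := hs c hc
    have h4 := abs_le.1 h3.1
    have h5 := abs_le.1 h3.2
    simp only [Finset.mem_product, Finset.mem_Icc]
    omega
  refine (Finset.card_le_card h2).trans ?_
  rw [Finset.card_product, Int.card_Icc, Int.card_Icc]
  have e1 : ((a : ℤ × ℤ).1 + 2000 + 1 - ((a : ℤ × ℤ).1 - 2000)).toNat = 4001 := by
    have : (a : ℤ × ℤ).1 + 2000 + 1 - ((a : ℤ × ℤ).1 - 2000) = 4001 := by ring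
    rw [this]; rfl
  have e2 : ((a : ℤ × ℤ).2 + 2000 + 1 - ((a : ℤ × ℤ).2 - 2000)).toNat = 4001 := by
    have : (a : ℤ × ℤ).2 + 2000 + 1 - ((a : ℤ × ℤ).2 - 2000) = 4001 := by ring
    rw [this]; rfl
  rw [e1, e2]

lemma lv_sub_norm {a b : ℤ × ℤ} (h : ¬(|a.1 - b.1| ≤ 2000 ∧ |a.2 - b.2| ≤ 2000)) :
    2000 < ‖lv a - lv b‖ := by
  have e0 : (lv a - lv b) 0 = ((a.1 - b.1 : ℤ) : ℝ) := by simp [lv]
  have e1 : (lv a - lv b) 1 = ((a.2 - b.2 : ℤ) : ℝ) := by simp [lv]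
  by_contra hc
  apply h
  rw [not_lt] at hc
  constructor
  · have h1 : |(lv a - lv b) 0| ≤ ‖lv a - lv b‖ := by simpa using PiLp.norm_apply_le (lv a - lv b) 0
    rw [e0] at h1
    have h2 : |((a.1 - b.1 : ℤ) : ℝ)| ≤ 2000 := h1.trans hc
    rw [← Int.cast_abs] at h2
    exact_mod_cast h2
  · have h1 : |(lv a - lv b) 1| ≤ ‖lv a - lv b‖ := by simpa using PiLp.norm_apply_le (lv a - lv b) 1
    rw [e1] at h1
    have h2 : |((a.2 - b.2 : ℤ) : ℝ)| ≤ 2000 := h1.trans hc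
    rw [← Int.cast_abs] at h2
    exact_mod_cast h2

/-- **bilinear bound for two far coarse pieces of a strip.** -/
lemma bil_piece (B : ℕ → ℝ) (hB2 : B 2 ≤ 1 / 10) (n : ℕ) : ∃ C : ℝ, 0 < C ∧ ∀ h : E2 → ℝ,
    ParB B h → ‖gradient h 0‖ ≤ 1 → ∀ K1 K : ℝ, 1 ≤ K1 → K1 ≤ K → ∀ g : E2 → ℂ, Nice 1 g →
    ∀ a₁ a₂ : ℤ × ℤ, ¬(|a₁.1 - a₂.1| ≤ 2000 ∧ |a₁.2 - a₂.2| ≤ 2000) →
    ∀ (u : E2) (b : ℝ), ‖u‖ = 1 → ∀ T₁ T₂ : Finset (ℤ × ℤ),
    (∀ p ∈ T₁, |inner ℝ (K⁻¹ • lv p) u - b| ≤ 40 / K) →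
    (∀ p ∈ T₂, |inner ℝ (K⁻¹ • lv p) u - b| ≤ 40 / K) → ∀ z : E2 × ℝ,
      ∫⁻ p in U K z, ‖ext h (pc h K T₁ (pc h K1 {a₁} g)) p.1 p.2‖ₑ ^ 2 *
          ‖ext h (pc h K T₂ (pc h K1 {a₂} g)) p.1 p.2‖ₑ ^ 2 ≤
        ENNReal.ofReal (C * K1 * K ^ 3) * QQ n h K g z ^ 2 := by
  obtain ⟨C1, hC1, hbil⟩ := planar_bilinear (L := 4) (A := 42) (by norm_num) (by norm_num) (4 * n)
  obtain ⟨C2, hC2, hQ⟩ := QQ_pc B n
  refine ⟨C1 * C2 ^ 4, by positivity, ?_⟩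
  intro h hh h0 K1 K hK1 hK g hg a₁ a₂ ha u b hu T₁ T₂ hT1 hT2 z
  have hK0 : 0 < K := by linarith
  have hK10 : 0 < K1 := by linarith
  have hd : Differentiable ℝ h := hh.1.differentiable (by simp)
  have hn := nearId hB2 hh
  have hL : ∀ ξ : E2, ‖ξ‖ ≤ 2 → ‖gradient h ξ‖ ≤ 4 := fun ξ hξ =>
    (grad_le hn h0 hξ).trans (by norm_num)
  set G1 := pc h K T₁ (pc h K1 {a₁} g) with hG1
  set G2 := pc h K T₂ (pc h K1 {a₂} g) with hG2
  have N1 : Nice 1 G1 := (hg.pc hh K1 {a₁}).pc hh K T₁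
  have N2 : Nice 1 G2 := (hg.pc hh K1 {a₂}).pc hh K T₂
  -- properties of the supports
  have sup : ∀ (a : ℤ × ℤ) (T : Finset (ℤ × ℤ)),
      (∀ p ∈ T, |inner ℝ (K⁻¹ • lv p) u - b| ≤ 40 / K) → ∀ ξ,
      pc h K T (pc h K1 {a} g) ξ ≠ 0 → ‖ξ‖ ≤ 1 ∧ ‖K1 • gradient h ξ - lv a‖ ≤ 3 / 2 ∧
        |inner ℝ (gradient h ξ) u - b| ≤ 42 / K := by
    intro a T hT ξ hξ
    obtain ⟨h1, p, hp, hp'⟩ := pc_ne_zero hξ
    obtain ⟨h2, q, hq, hq'⟩ := pc_ne_zero h1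
    rw [Finset.mem_singleton] at hq
    subst hq
    refine ⟨?_, hq', ?_⟩
    · by_contra hc
      exact h2 (hg.s ξ (not_le.1 hc))
    · have h3 := dir_close hK0 hp'
      have h4 : |inner ℝ (gradient h ξ - K⁻¹ • lv p) u| ≤ 3 / 2 / K := by
        refine (abs_real_inner_le_norm _ _).trans ?_
        rw [hu, mul_one]; exact h3
      have h5 := hT p hp
      have e : inner ℝ (gradient h ξ) u - b =
          inner ℝ (gradient h ξ - K⁻¹ • lv p) u + (inner ℝ (K⁻¹ • lv p) u - b) := by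
        rw [inner_sub_left]; ring
      rw [e]
      refine (abs_add_le _ _).trans ?_
      calc _ ≤ 3 / 2 / K + 40 / K := add_le_add h4 h5
        _ = (3 / 2 + 40) / K := by ring
        _ ≤ 42 / K := by gcongr; norm_num
  by_cases e1 : ∃ ξ, G1 ξ ≠ 0
  swap
  · push Not at e1
    have e : ∀ p : E2 × ℝ, ext h G1 p.1 p.2 = 0 := fun p => by
      unfold Crest.Agent.R138.Defs.ext; simp [e1]
    simp [e]
  by_cases e2 : ∃ ξ, G2 ξ ≠ 0
  swap
  · push Not at e2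
    have e : ∀ p : E2 × ℝ, ext h G2 p.1 p.2 = 0 := fun p => by
      unfold Crest.Agent.R138.Defs.ext; simp [e2]
    simp [e]
  obtain ⟨p1, hp1⟩ := e1
  obtain ⟨p2, hp2⟩ := e2
  obtain ⟨b1, c1, d1⟩ := sup a₁ T₁ hT1 p1 hp1
  obtain ⟨b2, c2, d2⟩ := sup a₂ T₂ hT2 p2 hp2
  -- separation
  have hfar := lv_sub_norm ha
  have hsep : 1997 / K1 ≤ ‖gradient h p1 - gradient h p2‖ := by
    have h1 : ‖lv a₁ - lv a₂‖ ≤ ‖K1 • gradient h p1 - lv a₁‖ + ‖K1 • gradient h p2 - lv a₂‖ +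
        ‖K1 • (gradient h p1 - gradient h p2)‖ := by
      calc ‖lv a₁ - lv a₂‖ = ‖-(K1 • gradient h p1 - lv a₁) + (K1 • gradient h p2 - lv a₂) +
            K1 • (gradient h p1 - gradient h p2)‖ := by congr 1; rw [smul_sub]; abel
        _ ≤ _ := (norm_add_le _ _).trans (add_le_add ((norm_add_le _ _).trans
            (add_le_add (norm_neg _).le le_rfl)) le_rfl)
    rw [norm_smul, Real.norm_of_nonneg hK10.le] at h1
    rw [div_le_iff₀ hK10]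
    nlinarith
  have hK1b : 475 ≤ K1 := by
    have h1 := grad_le hn h0 b1
    have h2 := grad_le hn h0 b2
    have h3 : ‖gradient h p1 - gradient h p2‖ ≤ 4.2 := by
      refine (norm_sub_le _ _).trans ?_
      linarith
    have h4 := hsep.trans h3
    rw [div_le_iff₀ hK10] at h4
    linarith
  have hsep' : 334 / K1 ≤ ‖p1 - p2‖ := by
    have h1 := dist_ge_of_grad hn p1 p2
    have h2 : 1997 / K1 ≤ 11 / 10 * ‖p1 - p2‖ := hsep.trans h1
    have h3 : 334 / K1 ≤ 10 / 11 * (1997 / K1) := by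
      rw [← mul_div_assoc]; gcongr; norm_num
    linarith
  have hν : (334 : ℝ) / K1 / 100 = 334 / 100 / K1 := by ring
  have hclose : ∀ (a : ℤ × ℤ) (T : Finset (ℤ × ℤ))
      (hT : ∀ p ∈ T, |inner ℝ (K⁻¹ • lv p) u - b| ≤ 40 / K) (η : E2),
      ‖K1 • gradient h η - lv a‖ ≤ 3 / 2 → ∀ ξ,
      pc h K T (pc h K1 {a} g) ξ ≠ 0 → ‖ξ - η‖ ≤ 334 / K1 / 100 ∧
        |inner ℝ (gradient h ξ) u - b| ≤ 42 / K := by
    intro a T hT η hη ξ hξ
    obtain ⟨b3, c3, d3⟩ := sup a T hT ξ hξ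
    refine ⟨?_, d3⟩
    refine (par_close hn hK10 c3 hη).trans ?_
    rw [hν]
    exact div_le_div_of_nonneg_right (by norm_num) hK10.le
  have hmain := hbil h hd hn hL (rot u) u (by rw [norm_rot, hu]) hu
    (by rw [real_inner_comm, inner_rot]; unfold dt; ring) (334 / K1) K b (by positivity)
    (by rw [div_le_one hK10]; linarith) (hK1.trans hK) p1 p2 b1 b2 hsep' G1 G2 N1.m N2.m N1.b N2.b
    (hclose a₁ T₁ hT1 p1 c1) (hclose a₂ T₂ hT2 p2 c2) z.1 z.2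
  -- energies
  have hen : ∀ (a : ℤ × ℤ) (T : Finset (ℤ × ℤ)),
      ∫⁻ p : E2 × ℝ, ‖ext h (pc h K T (pc h K1 {a} g)) p.1 p.2‖ₑ ^ 2 *
        ENNReal.ofReal (wt (4 * n) K z.1 z.2 p) ≤
        ENNReal.ofReal (K ^ 3) * (ENNReal.ofReal (C2 ^ 2) * QQ n h K g z) := by
    intro a T
    have h1 := hQ h hh K K hK0.le le_rfl (hK1.trans hK) 1 _ (hg.pc hh K1 {a}) T z
    have h2 := hQ h hh K1 K hK10.le hK (hK1.trans hK) 1 _ hg {a} z
    have e : ENNReal.ofReal (K ^ 3) * ENNReal.ofReal (K ^ 3)⁻¹ = 1 := by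
      rw [← ENNReal.ofReal_mul (by positivity), mul_inv_cancel₀ (by positivity),
        ENNReal.ofReal_one]
    calc _ ≤ ∫⁻ p : E2 × ℝ, ‖ext h (pc h K T (pc h K1 {a} g)) p.1 p.2‖ₑ ^ 2 *
          ENNReal.ofReal (pw n K z p) := by
          refine lintegral_mono fun p => ?_
          gcongr
          exact wz_le_pw n hK0 z p
      _ = ENNReal.ofReal (K ^ 3) * QQ n h K (pc h K T (pc h K1 {a} g)) z := by
          unfold QQ; rw [← mul_assoc, e, one_mul]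
      _ ≤ ENNReal.ofReal (K ^ 3) * (ENNReal.ofReal C2 * (ENNReal.ofReal C2 * QQ n h K g z)) := by
          gcongr
          exact h1.trans (by gcongr)
      _ = _ := by rw [pow_two C2, ENNReal.ofReal_mul hC2.le]; ring
  refine hmain.trans ?_
  calc _ ≤ ENNReal.ofReal (C1 * (334 / K1)⁻¹ * (K ^ 3)⁻¹) *
        (ENNReal.ofReal (K ^ 3) * (ENNReal.ofReal (C2 ^ 2) * QQ n h K g z)) *
        (ENNReal.ofReal (K ^ 3) * (ENNReal.ofReal (C2 ^ 2) * QQ n h K g z)) := by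
        gcongr
        · exact hen a₁ T₁
        · exact hen a₂ T₂
    _ = ENNReal.ofReal (C1 * (334 / K1)⁻¹ * (K ^ 3)⁻¹ * K ^ 3 * C2 ^ 2 * K ^ 3 * C2 ^ 2) *
        QQ n h K g z ^ 2 := by
        rw [ENNReal.ofReal_mul (p := C1 * (334 / K1)⁻¹ * (K ^ 3)⁻¹ * K ^ 3 * C2 ^ 2 * K ^ 3)
            (by positivity),
          ENNReal.ofReal_mul (p := C1 * (334 / K1)⁻¹ * (K ^ 3)⁻¹ * K ^ 3 * C2 ^ 2) (by positivity),
          ENNReal.ofReal_mul (p := C1 * (334 / K1)⁻¹ * (K ^ 3)⁻¹ * K ^ 3) (by positivity),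
          ENNReal.ofReal_mul (p := C1 * (334 / K1)⁻¹ * (K ^ 3)⁻¹) (by positivity)]
        ring
    _ ≤ _ := by
        refine mul_le_mul_left (ENNReal.ofReal_le_ofReal ?_) _
        have e3 : C1 * (334 / K1)⁻¹ * (K ^ 3)⁻¹ * K ^ 3 * C2 ^ 2 * K ^ 3 * C2 ^ 2 =
            C1 * C2 ^ 4 * K1 * K ^ 3 / 334 := by field_simp
        rw [e3, div_le_iff₀ (by norm_num)]
        have : 0 ≤ C1 * C2 ^ 4 * K1 * K ^ 3 := by positivity
        linarith

end Crest.Agent.R138.Bn759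
end

-- ▼ part R138/Bn7_759
section

/-! R138, broad/narrow end, part 7 (helper759): the broad/bilinear/narrow inequality on one ball. -/

set_option autoImplicit false

open MeasureTheory
open scoped ENNReal

namespace Crest.Agent.R138.Bn759

open Crest.Agent.R138.Defs (E2 ee ext ParB cyl)
open Crest.Agent.R138.Bil882 (NearId ee_eq Gam W lip_of_grad norm_le_add planar_bilinear wt)

/-- number of lattice steps. -/
noncomputable def nn (K : ℝ) : ℕ := ⌈3 * K⌉₊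

lemma nn_ge (K : ℝ) : 3 * K ≤ nn K := Nat.le_ceil _

lemma nn_le {K : ℝ} (hK : 1 ≤ K) : (nn K : ℝ) ≤ 4 * K := by
  have := (Nat.ceil_lt_add_one (show (0:ℝ) ≤ 3 * K by linarith)).le
  unfold nn
  linarith

lemma card_sq (n : ℕ) : (sq n).card = (2 * n + 1) ^ 2 := by
  unfold sq
  rw [Finset.card_product, Int.card_Icc]
  have : ((n:ℤ) + 1 - (-(n:ℤ))).toNat = 2 * n + 1 := by omega
  rw [this]; ring

lemma card_sq_le {K : ℝ} (hK : 1 ≤ K) : ((sq (nn K)).card : ℝ) ≤ 81 * K ^ 2 := by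
  rw [card_sq]
  push_cast
  have h1 := nn_le hK
  have h2 : (0:ℝ) ≤ nn K := by positivity
  have h3 : 2 * (nn K : ℝ) + 1 ≤ 9 * K := by linarith
  calc (2 * (nn K : ℝ) + 1) ^ 2 ≤ (9 * K) ^ 2 := by gcongr
    _ = 81 * K ^ 2 := by ring

/-- the centre of the piece `j`. -/
noncomputable def cj (K : ℝ) {n n1 : ℕ} (j : JJ n n1) : P2 := K⁻¹ • lv (j.1 : ℤ × ℤ)

open Classical in
/-- the fat triples. -/
noncomputable def Tr (K : ℝ) (n n1 : ℕ) : Finset (JJ n n1 × JJ n n1 × JJ n n1) :=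
  Finset.univ.filter fun q => Fat (40 / K) (cj K q.1) (cj K q.2.1) (cj K q.2.2)

lemma Gj_supp {h : E2 → ℝ} {K K1 : ℝ} {g : E2 → ℂ} {n n1 : ℕ} {j : JJ n n1} {ξ : E2}
    (hξ : Gj h K K1 g j ξ ≠ 0) : g ξ ≠ 0 ∧ ‖K • gradient h ξ - lv (j.1 : ℤ × ℤ)‖ ≤ 3 / 2 := by
  obtain ⟨h1, p, hp, hp'⟩ := pc_ne_zero hξ
  rw [Finset.mem_singleton] at hp
  subst hp
  exact ⟨(pc_ne_zero h1).1, hp'⟩

lemma nonempty_sq (n : ℕ) : Nonempty {p // p ∈ sq n} :=
  ⟨⟨(0, 0), by simp [sq]⟩⟩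

lemma ofReal_card_le {n : ℕ} {x : ℝ} (h : (n : ℝ) ≤ x) : (n : ℝ≥0∞) ≤ ENNReal.ofReal x := by
  rw [← ENNReal.ofReal_natCast]
  exact ENNReal.ofReal_le_ofReal h

set_option maxHeartbeats 1000000 in
/-- **broad / bilinear / narrow on one ball.** -/
theorem bn_ball (B : ℕ → ℝ) (hB2 : B 2 ≤ 1 / 10) (n : ℕ) (hn : 1 ≤ n) : ∃ C : ℝ, 0 < C ∧
    ∀ h : E2 → ℝ, ParB B h → ‖gradient h 0‖ ≤ 1 → ∀ K1 K : ℝ, 1 ≤ K1 → K1 ≤ K →
    ∀ g : E2 → ℂ, Nice 1 g → ∀ z : E2 × ℝ,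
      (volume (U K z))⁻¹ * ∫⁻ p in U K z, ‖ext h g p.1 p.2‖ₑ ^ 3 ≤
        ENNReal.ofReal C * (∑ a : {a // a ∈ sq (nn K1)},
          (volume (U K z))⁻¹ * ∫⁻ p in U K z, ‖ext h (pc h K1 {(a : ℤ × ℤ)} g) p.1 p.2‖ₑ ^ 3) +
        ENNReal.ofReal (C * K1 ^ 15) * QQ n h K g z ^ (3 / 2 : ℝ) +
        ENNReal.ofReal (C * K ^ 24) * ∑ q ∈ Tr K (nn K) (nn K1),
          ML (4 * n) h K (Gj h K K1 g q.1) z * ML (4 * n) h K (Gj h K K1 g q.2.1) z *
            ML (4 * n) h K (Gj h K K1 g q.2.2) z := by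
  obtain ⟨Cs, hCs, hsup⟩ := sup_piece (4 * n)
  obtain ⟨Cm, hCm, hmlq⟩ := ML_sq_le n hn
  obtain ⟨Cq, hCq, hqpc⟩ := QQ_pc B n
  obtain ⟨Cb, hCb, hbil⟩ := bil_piece B hB2 n
  -- constants
  set c1 : ℝ := Cs ^ 2 * Cm * Cq ^ 2 with hc1
  have hv0 := v0_ne_zero
  have hv1 := v0_ne_top
  set c2 : ℝ := Cb * (v0.toReal)⁻¹ with hc2
  have hvpos : 0 < v0.toReal := ENNReal.toReal_pos hv0 hv1
  have hc1p : 0 < c1 := by positivity
  have hc2p : 0 < c2 := by positivity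
  set m : ℝ := 16008001 + 1 with hm
  have hmp : 0 < m := by rw [hm]; norm_num
  refine ⟨16 * m ^ 3 + (20 * m ^ 3 * c1 ^ (3 / 2 : ℝ) + 4 * 81 ^ 7 * (1 + c2)) +
    (81 * 81) ^ 6 * Cs ^ 3, by positivity, ?_⟩
  set CC : ℝ := 16 * m ^ 3 + (20 * m ^ 3 * c1 ^ (3 / 2 : ℝ) + 4 * 81 ^ 7 * (1 + c2)) +
    (81 * 81) ^ 6 * Cs ^ 3 with hCC
  intro h hh h0 K1 K hK1 hK g hg z
  have hK0 : 0 < K := by linarith
  have hK10 : 0 < K1 := by linarith
  have hKK : 1 ≤ K := hK1.trans hK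
  have hd : Differentiable ℝ h := hh.1.differentiable (by simp)
  have hc : Continuous h := hd.continuous
  have hnr := nearId hB2 hh
  have hgr : ∀ ξ : E2, ‖ξ‖ ≤ 1 → ‖gradient h ξ‖ ≤ 3 := fun ξ hξ =>
    (grad_le hnr h0 hξ).trans (by norm_num)
  have hfull : ∀ κ : ℝ, 0 < κ → ∀ ξ : E2, ‖ξ‖ ≤ 1 → ‖κ • gradient h ξ‖ ≤ nn κ := fun κ hκ ξ hξ => by
    rw [norm_smul, Real.norm_of_nonneg hκ.le]
    calc κ * ‖gradient h ξ‖ ≤ κ * 3 := by gcongr; exact hgr ξ hξ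
      _ = 3 * κ := by ring
      _ ≤ _ := nn_ge κ
  have := nonempty_sq (nn K)
  have := nonempty_sq (nn K1)
  -- the probability measure
  have hvU : volume (U K z) ≠ 0 := by
    rw [volume_U hK0]
    exact mul_ne_zero (by simpa using by positivity) hv0
  have hvU' : volume (U K z) ≠ ∞ := by
    rw [volume_U hK0]
    exact ENNReal.mul_ne_top ENNReal.ofReal_ne_top hv1
  set μ : Measure (E2 × ℝ) := (volume (U K z))⁻¹ • volume.restrict (U K z) with hμ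
  have : IsProbabilityMeasure μ := ⟨by
    rw [hμ, Measure.smul_apply, Measure.restrict_apply_univ, smul_eq_mul,
      ENNReal.inv_mul_cancel hvU hvU']⟩
  have hμl : ∀ f : E2 × ℝ → ℝ≥0∞, ∫⁻ p, f p ∂μ = (volume (U K z))⁻¹ * ∫⁻ p in U K z, f p := by
    intro f
    rw [hμ, lintegral_smul_measure, smul_eq_mul]
  -- the pieces
  have hNj : ∀ j : JJ (nn K) (nn K1), Nice 1 (Gj h K K1 g j) := fun j =>
    (hg.pc hh K1 _).pc hh K _
  have hsumS : ∀ (a : {a // a ∈ sq (nn K1)}) (S : Finset (JJ (nn K) (nn K1))),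
      (∀ j ∈ S, j.2 = a) → ∀ p : E2 × ℝ, ∑ j ∈ S, ext h (Gj h K K1 g j) p.1 p.2 =
      ext h (pc h K (S.image fun j => (j.1 : ℤ × ℤ)) (pc h K1 {(a : ℤ × ℤ)} g)) p.1 p.2 := by
    intro a S hS p
    rw [← ext_sum hc S (fun i _ => hNj i)]
    congr 1
    funext ξ
    exact sum_Gj h K K1 g S a hS ξ
  have hsumA : ∀ (a : {a // a ∈ sq (nn K1)}) (p : E2 × ℝ),
      ∑ j ∈ Finset.univ.filter (fun j : JJ (nn K) (nn K1) => j.2 = a),
        ext h (Gj h K K1 g j) p.1 p.2 = ext h (pc h K1 {(a : ℤ × ℤ)} g) p.1 p.2 := by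
    intro a p
    rw [hsumS a _ (fun j hj => (Finset.mem_filter.1 hj).2) p]
    have e : ((Finset.univ.filter (fun j : JJ (nn K) (nn K1) => j.2 = a)).image
        fun j => (j.1 : ℤ × ℤ)) = sq (nn K) := by
      ext q
      simp only [Finset.mem_image, Finset.mem_filter, Finset.mem_univ, true_and]
      constructor
      · rintro ⟨j, -, rfl⟩
        exact j.1.2
      · intro hq
        exact ⟨(⟨q, hq⟩, a), rfl, rfl⟩
    rw [e, pc_full (r := 1) (hg.pc hh K1 _).s (hfull K hK0)]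
  have hsumAll : ∀ p : E2 × ℝ, ∑ j : JJ (nn K) (nn K1), ext h (Gj h K K1 g j) p.1 p.2 =
      ext h g p.1 p.2 := by
    intro p
    have e1 : ∑ j : JJ (nn K) (nn K1), ext h (Gj h K K1 g j) p.1 p.2 =
        ∑ a : {a // a ∈ sq (nn K1)}, ext h (pc h K1 {(a : ℤ × ℤ)} g) p.1 p.2 := by
      rw [← Finset.sum_fiberwise Finset.univ (fun j : JJ (nn K) (nn K1) => j.2)]
      exact Finset.sum_congr rfl fun a _ => hsumA a p
    rw [e1, ← ext_sum hc Finset.univ (fun a _ => hg.pc hh K1 _)]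
    have e2 : (fun ξ => ∑ a : {a // a ∈ sq (nn K1)}, pc h K1 {(a : ℤ × ℤ)} g ξ) = g := by
      have e3 : (fun ξ => ∑ a : {a // a ∈ sq (nn K1)}, pc h K1 {(a : ℤ × ℤ)} g ξ) =
          pc h K1 (sq (nn K1)) g := by
        funext ξ
        unfold pc mm Ph
        rw [← Finset.sum_mul]
        congr 1
        push_cast
        simp only [Finset.sum_singleton]
        exact Finset.sum_coe_sort (sq (nn K1)) (fun a => ((th2 a (K1 • gradient h ξ) : ℝ) : ℂ))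
      rw [e3]
      exact pc_full (r := 1) hg.s (hfull K1 hK10)
    rw [e2]
  -- apply the abstract inequality
  have habs := bn_abs μ (J := JJ (nn K) (nn K1)) (A := {a // a ∈ sq (nn K1)}) (fun j => j.2)
    near 16008001 near_card (cj K) (ρ := 40 / K) (by positivity)
    (fun j p => ext h (Gj h K K1 g j) p.1 p.2)
    (fun j => ((hNj j).cont hc).measurable)
    (fun j => ENNReal.ofReal Cs * ML (4 * n) h K (Gj h K K1 g j) z) (fun j => by
      rw [hμ]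
      refine Measure.ae_smul_measure ?_ _
      rw [ae_restrict_iff' (measurableSet_U K z)]
      exact Filter.Eventually.of_forall fun p hp => hsup h hd hnr h0 K hK0 _ (hNj j)
        (j.1 : ℤ × ℤ) (fun ξ hξ => (Gj_supp hξ).2) z p hp)
    (QQ n h K g z) (ENNReal.ofReal c1) (ENNReal.ofReal (c2 * K1)) (fun j => by
      have h1 := hmlq h hc K hK0 1 _ (hNj j) z
      have h2 := hqpc h hh K K hK0.le le_rfl hKK 1 _ (hg.pc hh K1 {(j.2 : ℤ × ℤ)})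
        {(j.1 : ℤ × ℤ)} z
      have h3 := hqpc h hh K1 K hK10.le hK hKK 1 _ hg {(j.2 : ℤ × ℤ)} z
      calc (ENNReal.ofReal Cs * ML (4 * n) h K (Gj h K K1 g j) z) ^ 2
          = ENNReal.ofReal Cs ^ 2 * ML (4 * n) h K (Gj h K K1 g j) z ^ 2 := by rw [mul_pow]
        _ ≤ ENNReal.ofReal Cs ^ 2 * (ENNReal.ofReal Cm * (ENNReal.ofReal Cq *
              (ENNReal.ofReal Cq * QQ n h K g z))) := by
            gcongr
            exact h1.trans (by gcongr; exact h2.trans (by gcongr))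
        _ = ENNReal.ofReal c1 * QQ n h K g z := by
            rw [hc1, ENNReal.ofReal_mul (by positivity), ENNReal.ofReal_mul (by positivity),
              ENNReal.ofReal_pow hCs.le, ENNReal.ofReal_pow hCq.le]
            ring)
    (fun S hS a₁ a₂ ha => by
      obtain ⟨u, hu, b, hS⟩ := hS
      rw [hμl]
      simp only [mul_pow]
      have e1 : ∀ a : {a // a ∈ sq (nn K1)}, ∀ p : E2 × ℝ,
          ∑ j ∈ S.filter (fun j => j.2 = a), ext h (Gj h K K1 g j) p.1 p.2 =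
          ext h (pc h K ((S.filter (fun j => j.2 = a)).image fun j => (j.1 : ℤ × ℤ))
            (pc h K1 {(a : ℤ × ℤ)} g)) p.1 p.2 := fun a p =>
        hsumS a _ (fun j hj => (Finset.mem_filter.1 hj).2) p
      simp only [e1]
      have hT : ∀ a : {a // a ∈ sq (nn K1)},
          ∀ p ∈ (S.filter (fun j => j.2 = a)).image fun j => (j.1 : ℤ × ℤ),
          |inner ℝ (K⁻¹ • lv p) u - b| ≤ 40 / K := by
        intro a p hp
        obtain ⟨j, hj, rfl⟩ := Finset.mem_image.1 hp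
        exact (hS j).1 (Finset.mem_filter.1 hj).1
      have h1 := hbil h hh h0 K1 K hK1 hK g hg a₁ a₂ ha u b hu _ _ (hT a₁) (hT a₂) z
      calc _ ≤ (volume (U K z))⁻¹ * (ENNReal.ofReal (Cb * K1 * K ^ 3) * QQ n h K g z ^ 2) := by
            gcongr
        _ = ENNReal.ofReal (c2 * K1) * QQ n h K g z ^ 2 := by
            rw [volume_U hK0, ENNReal.mul_inv (Or.inr hv1) (Or.inr hv0),
              ← ENNReal.ofReal_inv_of_pos (by positivity), ← mul_assoc]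
            congr 1
            have e2 : v0⁻¹ = ENNReal.ofReal (v0.toReal)⁻¹ := by
              rw [ENNReal.ofReal_inv_of_pos hvpos, ENNReal.ofReal_toReal hv1]
            rw [e2, ← ENNReal.ofReal_mul (by positivity), ← ENNReal.ofReal_mul (by positivity)]
            congr 1
            rw [hc2]
            field_simp)
    (Tr K (nn K) (nn K1)) (fun i j k hF => by
      classical
      unfold Tr
      rw [Finset.mem_filter]
      exact ⟨Finset.mem_univ _, hF⟩)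
  simp only [hsumAll, hsumA, hμl] at habs
  refine habs.trans ?_
  -- clean up the constants
  have hCC0 : 0 < CC := by positivity
  have t0 : (0:ℝ) ≤ c1 ^ (3 / 2 : ℝ) := by positivity
  have em : (((16008001 : ℕ) : ℝ≥0∞) + 1) = ENNReal.ofReal m := by
    rw [hm, ENNReal.ofReal_add (by norm_num) (by norm_num)]
    norm_num
  refine add_le_add (add_le_add ?_ ?_) ?_
  · refine mul_le_mul_left ?_ _
    have e : (16 : ℝ≥0∞) * (((16008001 : ℕ) : ℝ≥0∞) + 1) ^ 3 = ENNReal.ofReal (16 * m ^ 3) := by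
      rw [ENNReal.ofReal_mul (by norm_num), ENNReal.ofReal_pow hmp.le, hm,
        ENNReal.ofReal_add (by norm_num) (by norm_num)]
      norm_num
    rw [e]
    refine ENNReal.ofReal_le_ofReal ?_
    rw [hCC]
    have : 0 ≤ 20 * m ^ 3 * c1 ^ (3 / 2 : ℝ) + 4 * 81 ^ 7 * (1 + c2) + (81 * 81) ^ 6 * Cs ^ 3 := by
      positivity
    linarith
  · refine mul_le_mul_left ?_ _
    have e1 : (20 : ℝ≥0∞) * (((16008001 : ℕ) : ℝ≥0∞) + 1) ^ 3 * ENNReal.ofReal c1 ^ (3 / 2 : ℝ) =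
        ENNReal.ofReal (20 * m ^ 3 * c1 ^ (3 / 2 : ℝ)) := by
      have e20 : (20 : ℝ≥0∞) = ENNReal.ofReal 20 := by norm_num
      rw [em, ENNReal.ofReal_rpow_of_nonneg hc1p.le (by norm_num), ← ENNReal.ofReal_pow hmp.le, e20,
        ← ENNReal.ofReal_mul (by norm_num), ← ENNReal.ofReal_mul (by positivity)]
    have e2 : ENNReal.ofReal (c2 * K1) ^ (3 / 4 : ℝ) ≤ ENNReal.ofReal ((1 + c2) * K1) := by
      rw [ENNReal.ofReal_rpow_of_nonneg (by positivity) (by norm_num)]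
      refine ENNReal.ofReal_le_ofReal ?_
      have h1 : (c2 * K1) ^ (3 / 4 : ℝ) ≤ (1 + c2 * K1) ^ (3 / 4 : ℝ) :=
        Real.rpow_le_rpow (by positivity) (by linarith) (by norm_num)
      have h2 : (1 + c2 * K1) ^ (3 / 4 : ℝ) ≤ (1 + c2 * K1) ^ (1 : ℝ) :=
        Real.rpow_le_rpow_of_exponent_le (by nlinarith [mul_pos hc2p hK10]) (by norm_num)
      rw [Real.rpow_one] at h2
      nlinarith
    have e3 : ((Fintype.card {a // a ∈ sq (nn K1)} : ℕ) : ℝ≥0∞) ≤ ENNReal.ofReal (81 * K1 ^ 2) := by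
      rw [Fintype.card_coe]
      exact ofReal_card_le (card_sq_le hK1)
    calc _ ≤ ENNReal.ofReal (20 * m ^ 3 * c1 ^ (3 / 2 : ℝ)) +
          4 * ENNReal.ofReal (81 * K1 ^ 2) ^ 7 * ENNReal.ofReal ((1 + c2) * K1) := by
          rw [e1]
          gcongr
      _ = ENNReal.ofReal (20 * m ^ 3 * c1 ^ (3 / 2 : ℝ) +
          4 * (81 * K1 ^ 2) ^ 7 * ((1 + c2) * K1)) := by
          rw [ENNReal.ofReal_add (by positivity) (by positivity),
            ENNReal.ofReal_mul (p := 4 * (81 * K1 ^ 2) ^ 7) (by positivity),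
            ENNReal.ofReal_mul (p := 4) (by norm_num), ENNReal.ofReal_pow (by positivity)]
          norm_num
      _ ≤ _ := by
          refine ENNReal.ofReal_le_ofReal ?_
          have h1 : (1:ℝ) ≤ K1 ^ 15 := one_le_pow₀ hK1
          have h2 : 20 * m ^ 3 * c1 ^ (3 / 2 : ℝ) ≤ 20 * m ^ 3 * c1 ^ (3 / 2 : ℝ) * K1 ^ 15 :=
            le_mul_of_one_le_right (by positivity) h1
          have h3 : 4 * (81 * K1 ^ 2) ^ 7 * ((1 + c2) * K1) =
              4 * 81 ^ 7 * (1 + c2) * K1 ^ 15 := by ring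
          have h4 : 0 ≤ 16 * m ^ 3 + (81 * 81) ^ 6 * Cs ^ 3 := by positivity
          rw [h3, hCC]
          nlinarith [mul_nonneg h4 (zero_le_one.trans h1)]
  · have e1 : ((Fintype.card (JJ (nn K) (nn K1)) : ℕ) : ℝ≥0∞) ≤
        ENNReal.ofReal (81 * K ^ 2 * (81 * K ^ 2)) := by
      rw [Fintype.card_prod, Fintype.card_coe, Fintype.card_coe]
      refine ofReal_card_le ?_
      push_cast
      refine mul_le_mul (card_sq_le hKK) ((card_sq_le hK1).trans ?_) (by positivity) (by positivity)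
      gcongr
    have e2 : ∀ q : JJ (nn K) (nn K1) × JJ (nn K) (nn K1) × JJ (nn K) (nn K1),
        ENNReal.ofReal Cs * ML (4 * n) h K (Gj h K K1 g q.1) z *
            (ENNReal.ofReal Cs * ML (4 * n) h K (Gj h K K1 g q.2.1) z) *
          (ENNReal.ofReal Cs * ML (4 * n) h K (Gj h K K1 g q.2.2) z) =
        ENNReal.ofReal (Cs ^ 3) * (ML (4 * n) h K (Gj h K K1 g q.1) z *
          ML (4 * n) h K (Gj h K K1 g q.2.1) z * ML (4 * n) h K (Gj h K K1 g q.2.2) z) := by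
      intro q
      rw [ENNReal.ofReal_pow hCs.le]
      ring
    simp only [e2]
    rw [← Finset.mul_sum, ← mul_assoc]
    refine mul_le_mul_left ?_ _
    calc _ ≤ ENNReal.ofReal (81 * K ^ 2 * (81 * K ^ 2)) ^ 6 * ENNReal.ofReal (Cs ^ 3) := by gcongr
      _ = ENNReal.ofReal ((81 * 81) ^ 6 * Cs ^ 3 * K ^ 24) := by
          rw [← ENNReal.ofReal_pow (by positivity), ← ENNReal.ofReal_mul (by positivity)]
          congr 1
          ring
      _ ≤ _ := by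
          refine ENNReal.ofReal_le_ofReal ?_
          refine mul_le_mul_of_nonneg_right ?_ (by positivity)
          rw [hCC]
          have : 0 ≤ 16 * m ^ 3 + (20 * m ^ 3 * c1 ^ (3 / 2 : ℝ) + 4 * 81 ^ 7 * (1 + c2)) := by
            positivity
          linarith

end Crest.Agent.R138.Bn759
end

-- ▼ part R138/Bn8_759
section

/-! R138, broad/narrow end, part 8 (helper759): integration over the balls; the broad part by
trilinear restriction (hypothesis `B3`). -/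

set_option autoImplicit false

open MeasureTheory
open scoped ENNReal

namespace Crest.Agent.R138.Bn759

open Crest.Agent.R138.Defs (E2 ee ext ParB cyl)
open Crest.Agent.R138.Bil882 (NearId ee_eq Gam W lip_of_grad norm_le_add planar_bilinear wt)

/-! ### averages over balls -/

lemma isClosed_cyl (R : ℝ) : IsClosed (cyl R) := by
  have h1 : IsClosed {p : E2 × ℝ | ‖p.1‖ ≤ R} := isClosed_le (by fun_prop) continuous_const
  have h2 : IsClosed {p : E2 × ℝ | |p.2| ≤ R} := isClosed_le (by fun_prop) continuous_const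
  exact h1.inter h2

lemma measurableSet_cyl (R : ℝ) : MeasurableSet (cyl R) := (isClosed_cyl R).measurableSet

lemma mem_U_comm {K : ℝ} {z p : E2 × ℝ} : p ∈ U K z ↔ z ∈ U K p := by
  show ‖p.1 - z.1‖ + |p.2 - z.2| ≤ K ↔ ‖z.1 - p.1‖ + |z.2 - p.2| ≤ K
  rw [norm_sub_rev, abs_sub_comm]

lemma lintegral_avg {f : E2 × ℝ → ℝ≥0∞} (hf : Measurable f) (K : ℝ) (A : Set (E2 × ℝ)) :
    ∫⁻ z in A, ∫⁻ p in U K z, f p = ∫⁻ p : E2 × ℝ, f p * volume (A ∩ U K p) := by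
  have hG : MeasurableSet {q : (E2 × ℝ) × (E2 × ℝ) | q.2 ∈ U K q.1} := by
    refine (isClosed_le (f := fun q : (E2 × ℝ) × (E2 × ℝ) => ‖q.2.1 - q.1.1‖ + |q.2.2 - q.1.2|)
      (g := fun _ => K) (by fun_prop) continuous_const).measurableSet
  have h1 : ∀ z : E2 × ℝ, ∫⁻ p in U K z, f p =
      ∫⁻ p : E2 × ℝ, {q : (E2 × ℝ) × (E2 × ℝ) | q.2 ∈ U K q.1}.indicator (fun q => f q.2) (z, p) := by
    intro z
    rw [← lintegral_indicator (measurableSet_U K z)]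
    rfl
  simp_rw [h1]
  rw [lintegral_lintegral_swap]
  · refine lintegral_congr fun p => ?_
    have h2 : ∀ z : E2 × ℝ, {q : (E2 × ℝ) × (E2 × ℝ) | q.2 ∈ U K q.1}.indicator
        (fun q => f q.2) (z, p) = (U K p).indicator (fun _ => f p) z := by
      intro z
      by_cases hz : p ∈ U K z
      · rw [Set.indicator_of_mem (by exact hz), Set.indicator_of_mem (mem_U_comm.1 hz)]
      · rw [Set.indicator_of_notMem (by exact hz),
          Set.indicator_of_notMem fun h => hz (mem_U_comm.2 h)]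
    simp_rw [h2]
    rw [lintegral_indicator (measurableSet_U K p), lintegral_const, Measure.restrict_apply_univ,
      Measure.restrict_apply (measurableSet_U K p), Set.inter_comm]
  · exact ((hf.comp measurable_snd).indicator hG).aemeasurable

lemma U_subset_cyl {K R S : ℝ} {p : E2 × ℝ} (hp : p ∈ cyl R) (h : R + K ≤ S) :
    U K p ⊆ cyl S := by
  intro z hz
  have h1 : ‖z.1 - p.1‖ + |z.2 - p.2| ≤ K := hz
  have h2 : ‖p.1‖ ≤ R := hp.1
  have h3 : |p.2| ≤ R := hp.2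
  have h4 : ‖z.1‖ ≤ ‖z.1 - p.1‖ + ‖p.1‖ := by
    calc ‖z.1‖ = ‖(z.1 - p.1) + p.1‖ := by rw [sub_add_cancel]
      _ ≤ _ := norm_add_le _ _
  have h5 : |z.2| ≤ |z.2 - p.2| + |p.2| := by
    calc |z.2| = |(z.2 - p.2) + p.2| := by rw [sub_add_cancel]
      _ ≤ _ := abs_add_le _ _
  have h6 := norm_nonneg (z.1 - p.1)
  have h7 := abs_nonneg (z.2 - p.2)
  exact ⟨by linarith, by linarith⟩

lemma vU_ne_zero {K : ℝ} (hK : 0 < K) (z : E2 × ℝ) : volume (U K z) ≠ 0 := by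
  rw [volume_U hK]
  exact mul_ne_zero (by simpa using by positivity) v0_ne_zero

lemma vU_ne_top {K : ℝ} (hK : 0 < K) (z : E2 × ℝ) : volume (U K z) ≠ ∞ := by
  rw [volume_U hK]
  exact ENNReal.mul_ne_top ENNReal.ofReal_ne_top v0_ne_top

lemma avg_eq {f : E2 × ℝ → ℝ≥0∞} (hf : Measurable f) {K : ℝ} (hK : 0 < K) (A : Set (E2 × ℝ)) :
    ∫⁻ z in A, (volume (U K z))⁻¹ * ∫⁻ p in U K z, f p =
      (volume (U K 0))⁻¹ * ∫⁻ p : E2 × ℝ, f p * volume (A ∩ U K p) := by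
  have e : ∀ z : E2 × ℝ, volume (U K z) = volume (U K 0) := fun z => by
    rw [volume_U hK, volume_U hK]
  simp_rw [e]
  rw [lintegral_const_mul' _ _ (ENNReal.inv_ne_top.2 (vU_ne_zero hK 0)), lintegral_avg hf K A]



/-! ### the energy term -/

/-- the functional `N_K` (the weighted form). -/
noncomputable def NN (N : ℕ) (h : E2 → ℝ) (g : E2 → ℂ) (w R : ℝ) : ℝ≥0∞ :=
  ∫⁻ z in cyl R, (ENNReal.ofReal (w ^ 3)⁻¹ *
    ∫⁻ p : E2 × ℝ, ‖ext h g p.1 p.2‖ₑ ^ 2 * ENNReal.ofReal (wt N w z.1 z.2 p)) ^ (3 / 2 : ℝ)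

lemma QQ_le_NN {n N : ℕ} (hnN : N ≤ 2 * n) (h : E2 → ℝ) {K : ℝ} (hK : 0 < K) (g : E2 → ℂ)
    (R : ℝ) : ∫⁻ z in cyl R, QQ n h K g z ^ (3 / 2 : ℝ) ≤
      ENNReal.ofReal ((2 ^ n) ^ (3 / 2 : ℝ)) * NN N h g K R := by
  unfold NN
  rw [← lintegral_const_mul' _ _ ENNReal.ofReal_ne_top]
  refine lintegral_mono fun z => ?_
  rw [← ENNReal.ofReal_rpow_of_nonneg (by positivity) (by norm_num),
    ← ENNReal.mul_rpow_of_nonneg _ _ (by norm_num)]
  refine ENNReal.rpow_le_rpow ?_ (by norm_num)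
  unfold QQ
  rw [← mul_assoc, mul_comm (ENNReal.ofReal (2 ^ n)), mul_assoc]
  gcongr
  rw [← lintegral_const_mul' _ _ ENNReal.ofReal_ne_top]
  refine lintegral_mono fun p => ?_
  calc ‖ext h g p.1 p.2‖ₑ ^ 2 * ENNReal.ofReal (pw n K z p)
      ≤ ‖ext h g p.1 p.2‖ₑ ^ 2 * ENNReal.ofReal (2 ^ n * wz N K z p) := by
        gcongr
        refine (pw_le_wz n hK z p).trans ?_
        gcongr
        exact wz_anti hnN hK z p
    _ = _ := by
        rw [ENNReal.ofReal_mul (by positivity)]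
        simp only [wz]
        ring

/-! ### the broad term -/

/-- translation of a wave by modulation (same as `tr` of the blueprint). -/
noncomputable def tr (h : E2 → ℝ) (w : E2 × ℝ) (g : E2 → ℂ) (ξ : E2) : ℂ :=
  g ξ * ee (inner ℝ w.1 ξ + w.2 * h ξ)

lemma ext_tr (h : E2 → ℝ) (w : E2 × ℝ) (g : E2 → ℂ) (z : E2 × ℝ) :
    ext h (tr h w g) z.1 z.2 = ext h g (z + w).1 (z + w).2 := by
  unfold Crest.Agent.R138.Defs.ext tr
  refine integral_congr_ae (Filter.Eventually.of_forall fun ξ => ?_)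
  simp only
  rw [mul_assoc, ← ee_add]
  congr 2
  rw [Prod.fst_add, Prod.snd_add, inner_add_left]
  ring

lemma norm_tr (h : E2 → ℝ) (w : E2 × ℝ) (g : E2 → ℂ) (ξ : E2) : ‖tr h w g ξ‖ = ‖g ξ‖ := by
  unfold tr; rw [norm_mul, norm_ee, mul_one]

lemma Nice.tr {h : E2 → ℝ} (hh : Continuous h) {r : ℝ} {g : E2 → ℂ} (hg : Nice r g)
    (w : E2 × ℝ) : Nice r (tr h w g) := by
  refine ⟨hg.m.mul (continuous_ee.comp (by fun_prop)).measurable, ?_, fun ξ hξ => ?_⟩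
  · obtain ⟨M, hM⟩ := hg.b
    exact ⟨M, fun ξ => by rw [norm_tr]; exact hM ξ⟩
  · unfold Crest.Agent.R138.Bn759.tr; rw [hg.s ξ hξ, zero_mul]

/-- **trilinear restriction** (helper191's B3), with constants `A`, `C`. -/
def B3 (L ε A C : ℝ) : Prop :=
  ∀ h : E2 → ℝ, Differentiable ℝ h → ‖gradient h 0‖ ≤ L →
    (∀ ξ ξ', ‖gradient h ξ - gradient h ξ'‖ ≤ L * ‖ξ - ξ'‖) → ∀ ν R : ℝ, 0 < ν → ν ≤ 1 → 1 ≤ R →
    ∀ g : Fin 3 → E2 → ℂ, (∀ j, Measurable (g j)) → (∀ j, ∃ M, ∀ ξ, ‖g j ξ‖ ≤ M) →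
    (∀ j ξ, 2 < ‖ξ‖ → g j ξ = 0) →
    (∀ ξ : Fin 3 → E2, (∀ j, g j (ξ j) ≠ 0) →
      ν ≤ |dt (gradient h (ξ 1) - gradient h (ξ 0)) (gradient h (ξ 2) - gradient h (ξ 0))|) →
    ∫⁻ p in cyl R, ‖ext h (g 0) p.1 p.2‖ₑ * ‖ext h (g 1) p.1 p.2‖ₑ * ‖ext h (g 2) p.1 p.2‖ₑ ≤
      ENNReal.ofReal (C * ν ^ (-A) * R ^ ε * √(∫ ξ, ‖g 0 ξ‖ ^ 2) * √(∫ ξ, ‖g 1 ξ‖ ^ 2) *
        √(∫ ξ, ‖g 2 ξ‖ ^ 2))

/-- the normalised weight as a density on translations. -/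
noncomputable def om (N : ℕ) (K : ℝ) (w : E2 × ℝ) : ℝ≥0∞ :=
  ENNReal.ofReal (K ^ 3)⁻¹ * ENNReal.ofReal (wz N K 0 w)

lemma measurable_om (N : ℕ) (K : ℝ) : Measurable (om N K) :=
  measurable_const.mul (measurable_wz N K 0).ennreal_ofReal

lemma lintegral_om (N : ℕ) {K : ℝ} (hK : 0 < K) : ∫⁻ w, om N K w = IW N := by
  unfold om
  rw [lintegral_const_mul' _ _ ENNReal.ofReal_ne_top, lintegral_wz N hK 0, ← mul_assoc,
    ← ENNReal.ofReal_mul (by positivity), inv_mul_cancel₀ (by positivity), ENNReal.ofReal_one,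
    one_mul]

lemma ML_eq (N : ℕ) (h : E2 → ℝ) (K : ℝ) (g : E2 → ℂ) (z : E2 × ℝ) :
    ML N h K g z = ∫⁻ w, om N K w * ‖ext h g (z + w).1 (z + w).2‖ₑ := by
  unfold ML om
  rw [← lintegral_add_left_eq_self (fun p : E2 × ℝ => ‖ext h g p.1 p.2‖ₑ *
    ENNReal.ofReal (wz N K z p)) z, ← lintegral_const_mul' _ _ ENNReal.ofReal_ne_top]
  refine lintegral_congr fun w => ?_
  have e : wz N K z (z + w) = wz N K 0 w := by
    rw [wz_eq, wz_eq]
    simp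
  rw [e]
  ring

/-- averaging one factor. -/
lemma avg_one {X Y : Type*} [MeasurableSpace X] [MeasurableSpace Y] (μ : Measure X)
    (ν : Measure Y) [SFinite μ] [SFinite ν] {ω : Y → ℝ≥0∞} (hω : Measurable ω)
    {F : X × Y → ℝ≥0∞} (hF : Measurable F) {G : X → ℝ≥0∞} (hG : Measurable G) {D : ℝ≥0∞}
    (h : ∀ y, ∫⁻ x, G x * F (x, y) ∂μ ≤ D) :
    ∫⁻ x, G x * (∫⁻ y, ω y * F (x, y) ∂ν) ∂μ ≤ (∫⁻ y, ω y ∂ν) * D := by
  have e1 : ∀ x, G x * (∫⁻ y, ω y * F (x, y) ∂ν) = ∫⁻ y, ω y * (G x * F (x, y)) ∂ν := by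
    intro x
    have hm1 : Measurable fun y => ω y * F (x, y) :=
      hω.mul (hF.comp (measurable_const.prodMk measurable_id))
    rw [← lintegral_const_mul _ hm1]
    exact lintegral_congr fun y => by ring
  simp_rw [e1]
  rw [lintegral_lintegral_swap, ← lintegral_mul_const _ hω]
  · refine lintegral_mono fun y => ?_
    have hm2 : Measurable fun x => G x * F (x, y) :=
      hG.mul (hF.comp (measurable_id.prodMk measurable_const))
    rw [lintegral_const_mul _ hm2]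
    exact mul_le_mul_right (h y) _
  · exact ((hω.comp measurable_snd).mul ((hG.comp measurable_fst).mul hF)).aemeasurable

/-- averaging three factors. -/
lemma avg_three {X Y : Type*} [MeasurableSpace X] [MeasurableSpace Y] (μ : Measure X)
    (ν : Measure Y) [SFinite μ] [SFinite ν] {ω : Y → ℝ≥0∞} (hω : Measurable ω)
    {F1 F2 F3 : X × Y → ℝ≥0∞} (h1 : Measurable F1) (h2 : Measurable F2) (h3 : Measurable F3)
    {D : ℝ≥0∞} (h : ∀ y1 y2 y3, ∫⁻ x, F1 (x, y1) * F2 (x, y2) * F3 (x, y3) ∂μ ≤ D) :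
    ∫⁻ x, (∫⁻ y, ω y * F1 (x, y) ∂ν) * (∫⁻ y, ω y * F2 (x, y) ∂ν) *
      (∫⁻ y, ω y * F3 (x, y) ∂ν) ∂μ ≤ (∫⁻ y, ω y ∂ν) ^ 3 * D := by
  have m : ∀ {F : X × Y → ℝ≥0∞}, Measurable F → Measurable fun x => ∫⁻ y, ω y * F (x, y) ∂ν :=
    fun hF => ((hω.comp measurable_snd).mul hF).lintegral_prod_right'
  have c : ∀ {F : X × Y → ℝ≥0∞}, Measurable F → ∀ y, Measurable fun x => F (x, y) :=
    fun hF y => hF.comp (measurable_id.prodMk measurable_const)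
  have A : ∀ y1 y2, ∫⁻ x, (F1 (x, y1) * F2 (x, y2)) * (∫⁻ y, ω y * F3 (x, y) ∂ν) ∂μ ≤
      (∫⁻ y, ω y ∂ν) * D := fun y1 y2 =>
    avg_one μ ν hω h3 (G := fun x => F1 (x, y1) * F2 (x, y2)) ((c h1 y1).mul (c h2 y2))
      fun y3 => h y1 y2 y3
  have B' : ∀ y1, ∫⁻ x, (F1 (x, y1) * (∫⁻ y, ω y * F3 (x, y) ∂ν)) *
      (∫⁻ y, ω y * F2 (x, y) ∂ν) ∂μ ≤ (∫⁻ y, ω y ∂ν) * ((∫⁻ y, ω y ∂ν) * D) := fun y1 =>
    avg_one μ ν hω h2 (G := fun x => F1 (x, y1) * (∫⁻ y, ω y * F3 (x, y) ∂ν))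
      ((c h1 y1).mul (m h3)) fun y2 => by
      refine le_trans (le_of_eq ?_) (A y1 y2)
      exact lintegral_congr fun x => by ring
  have C' : ∫⁻ x, ((∫⁻ y, ω y * F3 (x, y) ∂ν) * (∫⁻ y, ω y * F2 (x, y) ∂ν)) *
      (∫⁻ y, ω y * F1 (x, y) ∂ν) ∂μ ≤
        (∫⁻ y, ω y ∂ν) * ((∫⁻ y, ω y ∂ν) * ((∫⁻ y, ω y ∂ν) * D)) :=
    avg_one μ ν hω h1 (G := fun x => (∫⁻ y, ω y * F3 (x, y) ∂ν) * (∫⁻ y, ω y * F2 (x, y) ∂ν))
      ((m h3).mul (m h2)) fun y1 => by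
      refine le_trans (le_of_eq ?_) (B' y1)
      exact lintegral_congr fun x => by ring
  calc _ = ∫⁻ x, ((∫⁻ y, ω y * F3 (x, y) ∂ν) * (∫⁻ y, ω y * F2 (x, y) ∂ν)) *
      (∫⁻ y, ω y * F1 (x, y) ∂ν) ∂μ := lintegral_congr fun x => by ring
    _ ≤ _ := C'
    _ = _ := by ring

lemma measurable_ext_shift {h : E2 → ℝ} (hh : Continuous h) {r : ℝ} {g : E2 → ℂ}
    (hg : Nice r g) : Measurable fun q : (E2 × ℝ) × (E2 × ℝ) =>
      ‖ext h g (q.1 + q.2).1 (q.1 + q.2).2‖ₑ := by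
  have h1 := hg.cont hh
  have h2 : Continuous fun q : (E2 × ℝ) × (E2 × ℝ) => q.1 + q.2 := by fun_prop
  exact (h1.comp h2).measurable.enorm

/-- a product of three averages is bounded by the worst translate. -/
lemma triple_avg (N : ℕ) {h : E2 → ℝ} (hh : Continuous h) {K : ℝ} (hK : 0 < K) {r : ℝ}
    {g1 g2 g3 : E2 → ℂ} (h1 : Nice r g1) (h2 : Nice r g2) (h3 : Nice r g3) (S : Set (E2 × ℝ))
    (D : ℝ≥0∞)
    (hD : ∀ w1 w2 w3 : E2 × ℝ, ∫⁻ z in S, ‖ext h g1 (z + w1).1 (z + w1).2‖ₑ *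
      ‖ext h g2 (z + w2).1 (z + w2).2‖ₑ * ‖ext h g3 (z + w3).1 (z + w3).2‖ₑ ≤ D) :
    ∫⁻ z in S, ML N h K g1 z * ML N h K g2 z * ML N h K g3 z ≤ IW N ^ 3 * D := by
  simp_rw [ML_eq]
  rw [← lintegral_om N hK]
  exact avg_three (volume.restrict S) volume (measurable_om N K) (measurable_ext_shift hh h1)
    (measurable_ext_shift hh h2) (measurable_ext_shift hh h3) hD

end Crest.Agent.R138.Bn759
end

-- ▼ part R138/Bn9_759

/-! R138, broad/narrow end, part 9 (helper759): **BN2**, the integrated inequality. -/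

set_option autoImplicit false

open MeasureTheory
open scoped ENNReal

namespace Crest.Agent.R138.Bn759

open Crest.Agent.R138.Defs (E2 ee ext ParB cyl)
open Crest.Agent.R138.Bil882 (NearId ee_eq Gam W lip_of_grad norm_le_add planar_bilinear wt)

lemma measurable_avg {f : E2 × ℝ → ℝ≥0∞} (hf : Measurable f) {K : ℝ} (hK : 0 < K) :
    Measurable fun z : E2 × ℝ => (volume (U K z))⁻¹ * ∫⁻ p in U K z, f p := by
  have hG : MeasurableSet {q : (E2 × ℝ) × (E2 × ℝ) | q.2 ∈ U K q.1} := by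
    refine (isClosed_le (f := fun q : (E2 × ℝ) × (E2 × ℝ) => ‖q.2.1 - q.1.1‖ + |q.2.2 - q.1.2|)
      (g := fun _ => K) (by fun_prop) continuous_const).measurableSet
  have h1 : ∀ z : E2 × ℝ, (volume (U K z))⁻¹ * ∫⁻ p in U K z, f p = (volume (U K 0))⁻¹ *
      ∫⁻ p : E2 × ℝ, {q : (E2 × ℝ) × (E2 × ℝ) | q.2 ∈ U K q.1}.indicator (fun q => f q.2) (z, p) := by
    intro z
    rw [← lintegral_indicator (measurableSet_U K z), volume_U hK, volume_U hK]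
    rfl
  simp_rw [h1]
  exact ((hf.comp measurable_snd).indicator hG).lintegral_prod_right'.const_mul _

lemma measurable_ML (N : ℕ) {h : E2 → ℝ} (hh : Continuous h) (K : ℝ) {r : ℝ} {g : E2 → ℂ}
    (hg : Nice r g) : Measurable (ML N h K g) := by
  have e : ML N h K g = fun z => ∫⁻ w, om N K w * ‖ext h g (z + w).1 (z + w).2‖ₑ :=
    funext fun z => ML_eq N h K g z
  rw [e]
  exact (((measurable_om N K).comp measurable_snd).mul
    (measurable_ext_shift hh hg)).lintegral_prod_right'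

lemma norm_mm_single_le (h : E2 → ℝ) (κ : ℝ) (a : ℤ × ℤ) (ξ : E2) :
    ‖mm h κ (Ph {a}) ξ‖ ≤ 1 := by
  unfold mm Ph
  rw [Complex.norm_real, Finset.sum_singleton, Real.norm_of_nonneg (th2_nonneg a _)]
  unfold th2
  exact mul_le_one₀ (th_le_one _) (th_nonneg _) (th_le_one _)

lemma norm_pc_single_le (h : E2 → ℝ) (κ : ℝ) (a : ℤ × ℤ) (g : E2 → ℂ) (ξ : E2) :
    ‖pc h κ {a} g ξ‖ ≤ ‖g ξ‖ := by
  unfold pc
  rw [norm_mul]
  exact mul_le_of_le_one_left (norm_nonneg _) (norm_mm_single_le h κ a ξ)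

lemma norm_Gj_le (h : E2 → ℝ) (K K1 : ℝ) (g : E2 → ℂ) {n n1 : ℕ} (j : JJ n n1) (ξ : E2) :
    ‖Gj h K K1 g j ξ‖ ≤ ‖g ξ‖ :=
  (norm_pc_single_le h K _ _ ξ).trans (norm_pc_single_le h K1 _ g ξ)

lemma Nice.sq_integrable {r : ℝ} {g : E2 → ℂ} (hg : Nice r g) :
    Integrable fun ξ => ‖g ξ‖ ^ 2 := by
  have := (memLp_of_bdd hg.m hg.b hg.s).integrable_norm_pow (by norm_num)
  simpa using this

lemma integral_sq_le {r : ℝ} {g g' : E2 → ℂ} (hg : Nice r g)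
    (hle : ∀ ξ, ‖g' ξ‖ ≤ ‖g ξ‖) : ∫ ξ, ‖g' ξ‖ ^ 2 ≤ ∫ ξ, ‖g ξ‖ ^ 2 := by
  refine integral_mono_of_nonneg (Filter.Eventually.of_forall fun ξ => by positivity)
    hg.sq_integrable (Filter.Eventually.of_forall fun ξ => ?_)
  have := hle ξ
  simp only
  gcongr

/-- the trilinear estimate for translates of a fat triple of pieces. -/
lemma broad_piece {ε A C3 : ℝ} (hC3 : 0 ≤ C3) (hB3 : B3 2 ε A C3) {B : ℕ → ℝ}
    (hB2 : B 2 ≤ 1 / 10) {h : E2 → ℝ} (hh : ParB B h) (h0 : ‖gradient h 0‖ ≤ 1) {K1 K R : ℝ}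
    (hK1 : 1 ≤ K1) (hK : K1 ≤ K) (hKR : K ≤ R) {g : E2 → ℂ} (hg : Nice 1 g)
    (q : JJ (nn K) (nn K1) × JJ (nn K) (nn K1) × JJ (nn K) (nn K1))
    (hq : q ∈ Tr K (nn K) (nn K1)) (w1 w2 w3 : E2 × ℝ) :
    ∫⁻ z in cyl (2 * R), ‖ext h (Gj h K K1 g q.1) (z + w1).1 (z + w1).2‖ₑ *
      ‖ext h (Gj h K K1 g q.2.1) (z + w2).1 (z + w2).2‖ₑ *
      ‖ext h (Gj h K K1 g q.2.2) (z + w3).1 (z + w3).2‖ₑ ≤
    ENNReal.ofReal (C3 * ((K ^ 2)⁻¹) ^ (-A) * (2 * R) ^ ε * √(∫ ξ, ‖g ξ‖ ^ 2) ^ 3) := by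
  classical
  have hK0 : 0 < K := by linarith
  have hKK : 1 ≤ K := hK1.trans hK
  have hR0 : 0 < R := by linarith
  have hd : Differentiable ℝ h := hh.1.differentiable (by simp)
  have hc : Continuous h := hd.continuous
  have hnr := nearId hB2 hh
  have hN : ∀ j : JJ (nn K) (nn K1), Nice 1 (Gj h K K1 g j) := fun j =>
    (hg.pc hh K1 _).pc hh K _
  set G : Fin 3 → E2 → ℂ := ![tr h w1 (Gj h K K1 g q.1), tr h w2 (Gj h K K1 g q.2.1),
    tr h w3 (Gj h K K1 g q.2.2)] with hG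
  have hF : Fat (40 / K) (cj K q.1) (cj K q.2.1) (cj K q.2.2) := by
    unfold Tr at hq
    exact (Finset.mem_filter.1 hq).2
  have hNG : ∀ j, Nice 1 (G j) := by
    intro j
    fin_cases j
    · exact (hN q.1).tr hc w1
    · exact (hN q.2.1).tr hc w2
    · exact (hN q.2.2).tr hc w3
  have hpert : ∀ (j : JJ (nn K) (nn K1)) (w : E2 × ℝ) (ξ : E2), tr h w (Gj h K K1 g j) ξ ≠ 0 →
      ‖gradient h ξ - cj K j‖ ≤ 40 / K / 20 := by
    intro j w ξ hξ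
    have h1 : Gj h K K1 g j ξ ≠ 0 := by
      intro h2; apply hξ; unfold tr; rw [h2, zero_mul]
    have h3 := dir_close hK0 (Gj_supp h1).2
    refine h3.trans ?_
    have e : 40 / K / 20 = 2 / K := by ring
    rw [e]
    exact div_le_div_of_nonneg_right (by norm_num) hK0.le
  have h1 := hB3 h hd (h0.trans (by norm_num)) (fun ξ ξ' => (dist_ge_of_grad hnr ξ ξ').trans (by
      have := norm_nonneg (ξ - ξ'); linarith)) (K ^ 2)⁻¹ (2 * R) (by positivity)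
    (inv_le_one_of_one_le₀ (one_le_pow₀ hKK)) (by linarith) G (fun j => (hNG j).m)
    (fun j => (hNG j).b) (fun j ξ hξ => (hNG j).s ξ (by linarith)) (fun ξ hξ => by
      have a0 := hpert q.1 w1 (ξ 0) (hξ 0)
      have a1 := hpert q.2.1 w2 (ξ 1) (hξ 1)
      have a2 := hpert q.2.2 w3 (ξ 2) (hξ 2)
      have a3 := hF.dt_ge (by positivity) a0 a1 a2
      refine le_trans ?_ a3
      rw [div_pow, div_div, ← one_div, div_le_div_iff₀ (by positivity) (by positivity)]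
      nlinarith [pow_pos hK0 2])
  have e0 : ∀ z : E2 × ℝ, ‖ext h (Gj h K K1 g q.1) (z + w1).1 (z + w1).2‖ₑ *
      ‖ext h (Gj h K K1 g q.2.1) (z + w2).1 (z + w2).2‖ₑ *
      ‖ext h (Gj h K K1 g q.2.2) (z + w3).1 (z + w3).2‖ₑ =
      ‖ext h (G 0) z.1 z.2‖ₑ * ‖ext h (G 1) z.1 z.2‖ₑ * ‖ext h (G 2) z.1 z.2‖ₑ := by
    intro z
    rw [← ext_tr, ← ext_tr, ← ext_tr]
    rfl
  simp_rw [e0]
  refine h1.trans (ENNReal.ofReal_le_ofReal ?_)
  have hint : ∀ (j : JJ (nn K) (nn K1)) (w : E2 × ℝ),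
      √(∫ ξ, ‖tr h w (Gj h K K1 g j) ξ‖ ^ 2) ≤ √(∫ ξ, ‖g ξ‖ ^ 2) := by
    intro j w
    refine Real.sqrt_le_sqrt (integral_sq_le hg fun ξ => ?_)
    rw [norm_tr]
    exact norm_Gj_le h K K1 g j ξ
  have i0 := hint q.1 w1
  have i1 := hint q.2.1 w2
  have i2 := hint q.2.2 w3
  have hpos : 0 ≤ C3 * ((K ^ 2)⁻¹) ^ (-A) * (2 * R) ^ ε := by positivity
  calc _ ≤ C3 * ((K ^ 2)⁻¹) ^ (-A) * (2 * R) ^ ε * √(∫ ξ, ‖g ξ‖ ^ 2) * √(∫ ξ, ‖g ξ‖ ^ 2) *
        √(∫ ξ, ‖g ξ‖ ^ 2) := by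
        refine mul_le_mul (mul_le_mul (mul_le_mul_of_nonneg_left i0 hpos) i1 (Real.sqrt_nonneg _)
          (by positivity)) i2 (Real.sqrt_nonneg _) (by positivity)
    _ = _ := by ring


end Crest.Agent.R138.Bn759
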