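import Crest.Agent.R138.RR5_323
import Crest.Agent.R138.DecC_685
import Crest.Agent.R138.WAsm2_188

-- ▼ part R138/GenRoot1_639
section

/-!
# R138 wave side: domination and one step (helper639), part 1: domination

Domination is used in energy form: `en ρ (H κ) S ≤ en ρ (H π) S` for all labels `κ`.
-/

set_option autoImplicit false

open MeasureTheory FourierTransform
open scoped ContDiff ENNReal

namespace Crest.Agent.R138.GR639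

open Crest.Agent.R138.Defs Crest.Agent.R138.Bil882 Crest.Agent.R138.W188
open Crest.Agent.R138.Wpk685 Crest.Agent.R138.W323

/-- pointwise domination implies domination in energy form. -/
theorem en_mono_pt {ρ : ℝ} {f f' : E2 → ℂ} {S : ℤ × ℤ → Set E2} (hS : ∀ m, MeasurableSet (S m))
    (H : ∀ m ∈ caps ρ, ∀ y ∈ S m, ‖um ρ f m y‖ₑ ≤ ‖um ρ f' m y‖ₑ) : en ρ f S ≤ en ρ f' S := by
  unfold en
  refine Finset.sum_le_sum fun m hm => ?_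
  exact setLIntegral_mono' (hS m) fun y hy => pow_le_pow_left' (H m hm y hy) 2

/-- a decomposition in the frame `ζ` seen in the frame `z`. -/
theorem tr_dec {h : E2 → ℝ} {g : E2 → ℂ} (z : E2 × ℝ) {ζ : E2 × ℝ}
    {Λ : Finset ℕ} {G : ℕ → E2 → ℂ} {e : E2 → ℂ}
    (hdec : ∀ ξ, tr h ζ g ξ = ∑ k ∈ Λ, G k ξ + e ξ) :
    tr h z g = fun ξ => ∑ k ∈ Λ, tr h (z - ζ) (G k) ξ + tr h (z - ζ) e ξ := by
  rw [← tr_sum, ← show z - ζ + ζ = z from sub_add_cancel z ζ, ← tr_add, sub_add_cancel]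
  congr 1
  funext ξ
  exact hdec ξ


/-- **energy of a selection under domination.** -/
theorem en_dom {h : E2 → ℝ} (hh : Continuous h) {ρ : ℝ} {g : E2 → ℂ} {z ζ : E2 × ℝ}
    {Λ : Finset ℕ} {G : ℕ → E2 → ℂ} {e : E2 → ℂ} (hG : ∀ k ∈ Λ, Gd (G k)) (he : Gd e)
    (hdec : ∀ ξ, tr h ζ g ξ = ∑ k ∈ Λ, G k ξ + e ξ) {π : ℕ} {S : ℤ × ℤ → Set E2}
    (hmax : ∀ κ ∈ Λ, en ρ (tr h (z - ζ) (G κ)) S ≤ en ρ (tr h (z - ζ) (G π)) S) :
    en ρ (tr h z g) S ≤ ((Λ.card : ℝ≥0∞) + 1) ^ 2 * (en ρ (tr h (z - ζ) (G π)) S +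
      en ρ (tr h (z - ζ) e) S) := by
  rw [tr_dec z hdec]
  refine (en_sum Λ (G := fun k => tr h (z - ζ) (G k)) (e := tr h (z - ζ) e)
    (fun k hk => (W323.Gd.tr hh (hG k hk) _).int) (W323.Gd.tr hh he _).int S).trans ?_
  have h1 : ∑ k ∈ Λ, en ρ (tr h (z - ζ) (G k)) S ≤
      ((Λ.card : ℝ≥0∞) + 1) * en ρ (tr h (z - ζ) (G π)) S := by
    refine (Finset.sum_le_sum hmax).trans ?_
    rw [Finset.sum_const, nsmul_eq_mul]
    gcongr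
    exact le_self_add
  calc ((Λ.card : ℝ≥0∞) + 1) * (∑ k ∈ Λ, en ρ (tr h (z - ζ) (G k)) S +
        en ρ (tr h (z - ζ) e) S)
      ≤ ((Λ.card : ℝ≥0∞) + 1) * (((Λ.card : ℝ≥0∞) + 1) * en ρ (tr h (z - ζ) (G π)) S +
        ((Λ.card : ℝ≥0∞) + 1) * en ρ (tr h (z - ζ) e) S) := by
        gcongr
        exact le_mul_of_one_le_left' le_add_self
    _ = _ := by ring

theorem pow32_two (a b r n : ℝ≥0∞) :
    (r * (n ^ 2 * (a + b))) ^ (3 / 2 : ℝ) ≤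
      2 * n ^ 3 * ((r * a) ^ (3 / 2 : ℝ) + (r * b) ^ (3 / 2 : ℝ)) := by
  have e1 : r * (n ^ 2 * (a + b)) = n ^ 2 * (r * a + r * b) := by ring
  rw [e1, ENNReal.mul_rpow_of_nonneg (n ^ 2) (r * a + r * b) (by norm_num : (0:ℝ) ≤ 3 / 2)]
  have h3 : (n ^ 2) ^ (3 / 2 : ℝ) = n ^ 3 := by
    rw [← ENNReal.rpow_natCast, ← ENNReal.rpow_mul, ← ENNReal.rpow_natCast]
    norm_num
  have h4 : (2 : ℝ≥0∞) ^ ((3 / 2 : ℝ) - 1) ≤ 2 := by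
    calc (2 : ℝ≥0∞) ^ ((3 / 2 : ℝ) - 1) ≤ 2 ^ (1 : ℝ) :=
          ENNReal.rpow_le_rpow_of_exponent_le (by norm_num) (by norm_num)
      _ = 2 := ENNReal.rpow_one _
  rw [h3]
  calc n ^ 3 * (r * a + r * b) ^ (3 / 2 : ℝ)
      ≤ n ^ 3 * (2 ^ ((3 / 2 : ℝ) - 1) * ((r * a) ^ (3 / 2 : ℝ) + (r * b) ^ (3 / 2 : ℝ))) := by
        gcongr
        have := ENNReal.rpow_add_le_mul_rpow_add_rpow (r * a) (r * b) (p := 3 / 2) (by norm_num)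
        exact this
    _ ≤ n ^ 3 * (2 * ((r * a) ^ (3 / 2 : ℝ) + (r * b) ^ (3 / 2 : ℝ))) := by gcongr
    _ = _ := by ring

/-- contribution of one plate under domination. -/
theorem tm_dom {h : E2 → ℝ} (hh : Continuous h) {r s1 s2 : ℝ} {g : E2 → ℂ} {ζ : E2 × ℝ}
    {Λ : Finset ℕ} {G : ℕ → E2 → ℂ} {e : E2 → ℂ} (hG : ∀ k ∈ Λ, Gd (G k)) (he : Gd e)
    (hdec : ∀ ξ, tr h ζ g ξ = ∑ k ∈ Λ, G k ξ + e ξ) {π : ℕ}
    (p : Plate)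
    (hmax : ∀ κ ∈ Λ, en (r ^ (-(1/2) : ℝ)) (tr h (p.z - ζ) (G κ)) p.S ≤
      en (r ^ (-(1/2) : ℝ)) (tr h (p.z - ζ) (G π)) p.S) :
    tm h g r s1 s2 p ≤ 2 * ((Λ.card : ℝ≥0∞) + 1) ^ 3 * (tm h (G π) r s1 s2 (shift ζ p) +
      tm h e r s1 s2 (shift ζ p)) := by
  unfold tm
  have h1 := en_dom hh hG he hdec hmax
  calc ENNReal.ofReal ((s1 * s2 * r ^ 3) ^ (-(1/2) : ℝ)) *
        (ENNReal.ofReal r * en (r ^ (-(1/2) : ℝ)) (tr h p.z g) p.S) ^ (3 / 2 : ℝ)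
      ≤ ENNReal.ofReal ((s1 * s2 * r ^ 3) ^ (-(1/2) : ℝ)) *
        (ENNReal.ofReal r * (((Λ.card : ℝ≥0∞) + 1) ^ 2 * (en (r ^ (-(1/2) : ℝ))
          (tr h (p.z - ζ) (G π)) p.S + en (r ^ (-(1/2) : ℝ)) (tr h (p.z - ζ) e) p.S))) ^
            (3 / 2 : ℝ) := by
        gcongr
    _ ≤ ENNReal.ofReal ((s1 * s2 * r ^ 3) ^ (-(1/2) : ℝ)) *
        (2 * ((Λ.card : ℝ≥0∞) + 1) ^ 3 * ((ENNReal.ofReal r * en (r ^ (-(1/2) : ℝ))
          (tr h (p.z - ζ) (G π)) p.S) ^ (3 / 2 : ℝ) +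
          (ENNReal.ofReal r * en (r ^ (-(1/2) : ℝ)) (tr h (p.z - ζ) e) p.S) ^
            (3 / 2 : ℝ))) := by
        gcongr
        exact pow32_two _ _ _ _
    _ = _ := by
        simp only [shift]
        ring

end Crest.Agent.R138.GR639
end

-- ▼ part R138/GenRoot2_639
section

/-!
# R138 wave side: domination and one step (helper639), part 2: ROOT and GEN
-/

set_option autoImplicit false

open MeasureTheory FourierTransform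
open scoped ContDiff ENNReal

namespace Crest.Agent.R138.GR639

open Crest.Agent.R138.Defs Crest.Agent.R138.Bil882 Crest.Agent.R138.W188
open Crest.Agent.R138.Wpk685 Crest.Agent.R138.W323

/-- the union of plate systems with separated frames. -/
theorem plG_sigma {A : ℝ} {h : E2 → ℝ} {r s1 s2 R : ℝ} (Z : Finset (E2 × ℝ))
    (hsep : ∀ z ∈ Z, ∀ z' ∈ Z, Sep r z z')
    (I : E2 × ℝ → Finset ℕ) (P : E2 × ℝ → ℕ → Plate)
    (hP : ∀ z ∈ Z, Plates A h r s1 s2 R (I z) (P z)) (hz : ∀ z ∈ Z, ∀ i ∈ I z, (P z i).z = z) :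
    PlG A h r s1 s2 R (Z.sigma I) (fun j => P j.1 j.2) := by
  refine ⟨fun j hj => ?_, fun j hj j' hj' => ?_, fun j hj => ?_, fun j hj m => ?_,
    fun j hj m => ?_, fun j hj j' hj' hne hzz m => ?_⟩
  · obtain ⟨h1, h2⟩ := Finset.mem_sigma.1 hj
    exact (hP _ h1).mem _ h2
  · obtain ⟨h1, h2⟩ := Finset.mem_sigma.1 hj
    obtain ⟨h1', h2'⟩ := Finset.mem_sigma.1 hj'
    simp only [hz _ h1 _ h2, hz _ h1' _ h2']
    exact hsep _ h1 _ h1'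
  · obtain ⟨h1, h2⟩ := Finset.mem_sigma.1 hj
    exact (hP _ h1).x _ h2
  · obtain ⟨h1, h2⟩ := Finset.mem_sigma.1 hj
    exact (hP _ h1).meas _ h2 m
  · obtain ⟨h1, h2⟩ := Finset.mem_sigma.1 hj
    exact (hP _ h1).box _ h2 m
  · obtain ⟨h1, h2⟩ := Finset.mem_sigma.1 hj
    obtain ⟨h1', h2'⟩ := Finset.mem_sigma.1 hj'
    simp only [hz _ h1 _ h2, hz _ h1' _ h2'] at hzz
    obtain ⟨z, i⟩ := j
    obtain ⟨z', i'⟩ := j'
    simp only at hzz h1 h2 h1' h2' ⊢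
    subst hzz
    refine (hP _ h1).disj i h2 i' h2' (fun hii => hne (by rw [hii])) ?_ m
    rw [hz _ h1 _ h2, hz _ h1 _ h2']


/-- the contribution of the rests. -/
theorem rest_sum {A : ℝ} {h : E2 → ℝ} (hA : 0 ≤ A) {R r2 s1 s2 : ℝ}
    (hr2 : 0 ≤ r2) (hs1 : s1 ≤ 1) (hs2 : s2 ≤ 1) (Z : Finset (E2 × ℝ))
    (I : E2 × ℝ → Finset ℕ) (P : E2 × ℝ → ℕ → Plate)
    (hP : ∀ z ∈ Z, Plates A h r2 s1 s2 R (I z) (P z)) (hz : ∀ z ∈ Z, ∀ i ∈ I z, (P z i).z = z)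
    (ζ : E2 × ℝ → E2 × ℝ) (e : E2 × ℝ → E2 → ℂ)
    (W : ℝ≥0∞) (hW : ∀ z ∈ Z, en (r2 ^ (-(1/2) : ℝ)) (tr h (z - ζ z) (e (ζ z)))
      (fun _ => Metric.closedBall 0 (3 * A * r2)) ≤ W) :
    ∑ z ∈ Z, ∑ i ∈ I z, tm h (e (ζ z)) r2 s1 s2 (shift (ζ z) (P z i)) ≤
      ENNReal.ofReal ((s1 * s2 * r2 ^ 3) ^ (-(1/2) : ℝ)) *
          (ENNReal.ofReal r2 * ((Z.card : ℝ≥0∞) * W)) ^ (3 / 2 : ℝ) := by
  classical
  unfold tm
  rw [Finset.sum_sigma' Z I, ← Finset.mul_sum]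
  gcongr
  refine (sum_rpow_le (Z.sigma I) _ (by norm_num)).trans ?_
  rw [← Finset.mul_sum]
  gcongr
  rw [← Finset.sum_sigma' Z I (fun z i => en (r2 ^ (-(1/2) : ℝ))
    (tr h (shift (ζ z) (P z i)).z (e (ζ z))) (shift (ζ z) (P z i)).S)]
  have h2 : ∀ z ∈ Z, ∑ i ∈ I z, en (r2 ^ (-(1/2) : ℝ))
      (tr h (shift (ζ z) (P z i)).z (e (ζ z))) (shift (ζ z) (P z i)).S ≤ W := by
    intro z hzz
    have h3 : ∑ i ∈ I z, en (r2 ^ (-(1/2) : ℝ))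
        (tr h (shift (ζ z) (P z i)).z (e (ζ z))) (shift (ζ z) (P z i)).S =
        ∑ i ∈ I z, en (r2 ^ (-(1/2) : ℝ)) (tr h (z - ζ z) (e (ζ z))) (P z i).S := by
      refine Finset.sum_congr rfl fun i hi => ?_
      unfold shift
      simp only [hz z hzz i hi]
    rw [h3]
    refine (en_union _ (fun i => (P z i).S) (fun _ => Metric.closedBall 0 (3 * A * r2))
      (fun i hi m => ?_) (fun i hi j hj hne m => ?_) (fun i hi m y hy => ?_)).trans (hW z hzz)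
    · exact (hP z hzz).meas i hi m
    · exact (hP z hzz).disj i hi j hj hne ((hz z hzz i hi).trans (hz z hzz j hj).symm) m
    · rw [mem_closedBall_zero_iff]
      exact pos_le hA hr2 hs1 hs2 ((hP z hzz).x i hi) ((hP z hzz).box i hi m hy)
  refine (Finset.sum_le_sum h2).trans ?_
  rw [Finset.sum_const, nsmul_eq_mul]

/-- **GEN, core**: one step under domination. -/
theorem gen_core {A : ℝ} {h : E2 → ℝ} (hh : Continuous h) (hA : 0 ≤ A) {R r1 r2 s1 s2 : ℝ}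
    (hr2 : 0 ≤ r2) (hs1 : s1 ≤ 1) (hs2 : s2 ≤ 1) {g : E2 → ℂ} (Z1 Z2 : Finset (E2 × ℝ))
    (hsep : ∀ z ∈ Z2, ∀ z' ∈ Z2, Sep r2 z z')
    (ζ : E2 × ℝ → E2 × ℝ) (hζ : ∀ z ∈ Z2, ζ z ∈ Z1 ∧ z - ζ z ∈ cyl r1) (Λ : Finset ℕ)
    (G : E2 × ℝ → ℕ → E2 → ℂ) (e : E2 × ℝ → E2 → ℂ) (hG : ∀ z ∈ Z1, ∀ k ∈ Λ, Gd (G z k))
    (he : ∀ z ∈ Z1, Gd (e z)) (hdec : ∀ z ∈ Z1, ∀ ξ, tr h z g ξ = ∑ k ∈ Λ, G z k ξ + e z ξ)
    (W : ℝ≥0∞) (hW : ∀ z ∈ Z1, ∀ z' ∈ cyl r1, en (r2 ^ (-(1/2) : ℝ)) (tr h z' (e z))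
      (fun _ => Metric.closedBall 0 (3 * A * r2)) ≤ W)
    (I : E2 × ℝ → Finset ℕ) (P : E2 × ℝ → ℕ → Plate)
    (hP : ∀ z ∈ Z2, Plates A h r2 s1 s2 R (I z) (P z)) (hz : ∀ z ∈ Z2, ∀ i ∈ I z, (P z i).z = z)
    {π : ℕ}
    (hmax : ∀ z ∈ Z2, ∀ i ∈ I z, ∀ κ ∈ Λ,
      en (r2 ^ (-(1/2) : ℝ)) (tr h (z - ζ z) (G (ζ z) κ)) (P z i).S ≤
        en (r2 ^ (-(1/2) : ℝ)) (tr h (z - ζ z) (G (ζ z) π)) (P z i).S) :
    ∑ z ∈ Z2, val h g r2 s1 s2 (I z) (P z) ≤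
      2 * ((Λ.card : ℝ≥0∞) + 1) ^ 3 * (∑ z ∈ Z1, SIG A r2 s1 s2 h (G z π) r1 +
        ENNReal.ofReal ((s1 * s2 * r2 ^ 3) ^ (-(1/2) : ℝ)) *
          (ENNReal.ofReal r2 * ((Z2.card : ℝ≥0∞) * W)) ^ (3 / 2 : ℝ)) := by
  classical
  have step : ∑ z ∈ Z2, val h g r2 s1 s2 (I z) (P z) ≤
      2 * ((Λ.card : ℝ≥0∞) + 1) ^ 3 * (∑ z ∈ Z2, ∑ i ∈ I z,
        tm h (G (ζ z) π) r2 s1 s2 (shift (ζ z) (P z i)) +
      ∑ z ∈ Z2, ∑ i ∈ I z, tm h (e (ζ z)) r2 s1 s2 (shift (ζ z) (P z i))) := by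
    rw [← Finset.sum_add_distrib, Finset.mul_sum]
    refine Finset.sum_le_sum fun z hzz => ?_
    rw [val_eq, ← Finset.sum_add_distrib, Finset.mul_sum]
    refine Finset.sum_le_sum fun i hi => ?_
    have hz1 := (hζ z hzz).1
    refine tm_dom hh (fun k hk => hG _ hz1 k hk) (he _ hz1) (hdec _ hz1) (P z i) ?_
    intro κ hκ
    rw [hz z hzz i hi]
    exact hmax z hzz i hi κ hκ
  refine step.trans ?_
  gcongr
  · rw [← Finset.sum_fiberwise_of_maps_to (g := ζ) (fun z hzz => (hζ z hzz).1)]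
    refine Finset.sum_le_sum fun w hw => ?_
    have h1 : ∑ z ∈ Z2 with ζ z = w, ∑ i ∈ I z,
        tm h (G (ζ z) π) r2 s1 s2 (shift (ζ z) (P z i)) =
        ∑ j ∈ (Z2.filter fun z => ζ z = w).sigma I,
          tm h (G w π) r2 s1 s2 (shift w (P j.1 j.2)) := by
      rw [Finset.sum_sigma]
      refine Finset.sum_congr rfl fun z hzz => ?_
      rw [(Finset.mem_filter.1 hzz).2]
    rw [h1]
    refine ((plG_sigma Z2 hsep I P hP hz).shift (t := (Z2.filter fun z => ζ z = w).sigma I)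
      ?_ w (R' := r1) ?_).le_SIG _
    · intro j hj
      obtain ⟨h2, h3⟩ := Finset.mem_sigma.1 hj
      exact Finset.mem_sigma.2 ⟨(Finset.mem_filter.1 h2).1, h3⟩
    · intro j hj
      obtain ⟨h2, h3⟩ := Finset.mem_sigma.1 hj
      obtain ⟨h4, h5⟩ := Finset.mem_filter.1 h2
      have := (hζ _ h4).2
      rw [h5] at this
      rw [hz _ h4 _ h3]
      exact this
  · exact rest_sum hA hr2 hs1 hs2 Z2 I P hP hz ζ e W
      (fun z hzz => hW _ (hζ z hzz).1 _ (hζ z hzz).2)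

end Crest.Agent.R138.GR639
end

-- ▼ part R138/GenRoot3_639
section

/-!
# R138 wave side: domination and one step (helper639), part 3: rests, coefficient sums
-/

set_option autoImplicit false

open MeasureTheory FourierTransform
open scoped ContDiff ENNReal

namespace Crest.Agent.R138.GR639

open Crest.Agent.R138.Defs Crest.Agent.R138.Bil882 Crest.Agent.R138.W188
open Crest.Agent.R138.Wpk685 Crest.Agent.R138.W323
open Crest.Agent.R138.T774 (haar3 cyl_eq finrank3)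

/-- the packet energy of a rest which is tiny on the cylinder of size `8 r1`. -/
theorem exists_restW (B : ℕ → ℝ) {A : ℝ} (hA : 1 ≤ A) (k0 : ℕ) : ∃ C1 : ℝ, 0 ≤ C1 ∧
    ∀ C2 : ℝ, 0 ≤ C2 → ∀ h, ParB B h → ∀ R r1 r2 : ℝ, 1 ≤ R → R ^ (1/2 : ℝ) ≤ r2 → A * r2 ≤ r1 →
    r1 ≤ R → ∀ e0 : ℝ, 0 ≤ e0 → ∀ rest : E2 → ℂ, Gd rest → En rest ≤ C2 * e0 →
    (∀ p : E2 × ℝ, ‖p.1‖ ≤ 8 * r1 → |p.2| ≤ 8 * r1 →
      ‖ext h rest p.1 p.2‖ ≤ C2 * R ^ (-((k0 + 1 : ℕ) : ℝ)) * Real.sqrt e0) →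
    ∀ z' ∈ cyl r1, en (r2 ^ (-(1/2) : ℝ)) (tr h z' rest)
      (fun _ => Metric.closedBall 0 (3 * A * r2)) ≤
        ENNReal.ofReal (C1 * (64 * C2 ^ 2 + C2) * (R ^ (-(k0 : ℝ)) * e0)) := by
  obtain ⟨C1, hC1, Hen⟩ := exists_en_le B (4 * (k0 + 1))
  refine ⟨C1, hC1, ?_⟩
  intro C2 hC2 h hh R r1 r2 hR hr2 h21 hr1R e0 he0 rest hrest hEn hsm z' hz'
  have hR0 : 0 < R := by linarith
  have hr2' : 1 ≤ r2 := (Real.one_le_rpow hR (by norm_num)).trans hr2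
  have hr20 : 0 < r2 := by linarith
  have h21' : r2 ≤ r1 := by nlinarith
  have hr10 : 0 < r1 := by linarith
  have hhc : Continuous h := hh.1.continuous
  set ρ : ℝ := r2 ^ (-(1/2) : ℝ) with hρ
  have hρ0 : 0 < ρ := by rw [hρ]; positivity
  have hρ1 : ρ ≤ 1 := Real.rpow_le_one_of_one_le_of_nonpos hr2' (by norm_num)
  have h1 := Hen h hh ρ (3 * A * r2) hρ0 hρ1 (tr h z' rest)
    (W323.Gd.tr hhc hrest z') (fun _ => Metric.closedBall 0 (3 * A * r2))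
    (fun _ _ => Metric.isClosed_closedBall.measurableSet) (fun _ _ y hy => by simpa using hy)
  refine h1.trans ?_
  have h2 := WE_bw_le (4 * (k0 + 1)) (ρ := ρ) (a := 3 * A * r2) (d := r1)
    (β := C2 * R ^ (-((k0 + 1 : ℕ) : ℝ)) * Real.sqrt e0) hρ0.le (by positivity) hr10.le
    (by positivity) (W323.Gd.tr hhc hrest z') (fun x hx => by
      rw [fourierInv_tr]
      refine hsm (x + z'.1, z'.2) ?_ ?_
      · have h3 : ‖x + z'.1‖ ≤ ‖x‖ + ‖z'.1‖ := norm_add_le _ _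
        have h4 : ‖z'.1‖ ≤ r1 := hz'.1
        simp only
        nlinarith
      · have h4 : |z'.2| ≤ r1 := hz'.2
        simp only
        linarith)
  refine (mul_le_mul' le_rfl h2).trans ?_
  rw [← ENNReal.ofReal_mul hC1]
  refine ENNReal.ofReal_le_ofReal ?_
  rw [En_tr]
  exact rest_W (C1 := C1) (C2 := C2) (R := R) (r1 := r1) (r2 := r2) (ρ := ρ) (A := A)
    (e := e0) (e' := En rest)
    (β := C2 * R ^ (-((k0 + 1 : ℕ) : ℝ)) * Real.sqrt e0) (ε' := 0) (k0 := k0)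
    hC1 hC2 hR hA hr2 h21 hr1R hρ he0 zero_le_one rfl (by rw [Real.rpow_zero, mul_one]; exact hEn)

/-- the total contribution of the rests in one step. -/
theorem rest_total' {C2 C3 R D r2 s1 s2 q M0 e n b K : ℝ} {F k0 : ℕ} (hC2 : 0 ≤ C2) (hC3 : 0 ≤ C3)
    (hR : 1 ≤ R) (hr2 : R ^ (1/2 : ℝ) ≤ r2) (h2R : r2 ≤ R) (hSd : Sd r2 s1 s2) (he : 0 ≤ e)
    (hb : 0 ≤ b) (hn0 : 0 ≤ n) (hn : n ≤ C2 * R ^ b)
    (hF : (F : ℝ) ≤ 216 * (R / r2) ^ 3)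
    (hnd : e ≤ R ^ M0 * D) (hk0 : 10 + |q| + |M0| + |K| + 3 * b ≤ k0) :
    ENNReal.ofReal (s2 ^ (-q / 2)) * (ENNReal.ofReal (2 * (n + 1) ^ 3) *
      (ENNReal.ofReal ((s1 * s2 * r2 ^ 3) ^ (-(1/2) : ℝ)) *
        (ENNReal.ofReal r2 * ((F : ℝ≥0∞) * ENNReal.ofReal (C3 * (R ^ (-(k0 : ℝ)) * e)))) ^
          (3 / 2 : ℝ))) ≤
      ENNReal.ofReal (2 * (C2 + 1) ^ 3 * (216 * C3) ^ (3/2 : ℝ) *
        (R ^ (-K) * (R * e * Real.sqrt D))) := by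
  have hR0 : 0 < R := by linarith
  have hr2' : 1 ≤ r2 := (Real.one_le_rpow hR (by norm_num)).trans hr2
  have hr20 : 0 < r2 := by linarith
  have hs1 : 0 < s1 := (by positivity : (0:ℝ) < r2 ^ (-(1/2) : ℝ)).trans_le hSd.lo
  have hs2 : 0 < s2 := hs1.trans_le hSd.le
  have hk : (0:ℝ) ≤ k0 := Nat.cast_nonneg _
  -- everything is real
  rw [← ENNReal.ofReal_natCast, ← ENNReal.ofReal_mul (Nat.cast_nonneg _),
    ← ENNReal.ofReal_mul hr20.le, ENNReal.ofReal_rpow_of_nonneg (by positivity) (by norm_num),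
    ← ENNReal.ofReal_mul (by positivity), ← ENNReal.ofReal_mul (by positivity),
    ← ENNReal.ofReal_mul (by positivity)]
  refine ENNReal.ofReal_le_ofReal ?_
  have a1 : s2 ^ (-q / 2) ≤ R ^ (|q| / 4) := by
    rcases le_or_gt 0 q with hq | hq
    · have h1 : r2 ^ (-(1/2) : ℝ) ≤ s2 := hSd.lo.trans hSd.le
      calc s2 ^ (-q / 2) ≤ (r2 ^ (-(1/2) : ℝ)) ^ (-q / 2) :=
            Real.rpow_le_rpow_of_nonpos (by positivity) h1 (by linarith)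
        _ = r2 ^ (|q| / 4) := by
            rw [← Real.rpow_mul hr20.le, abs_of_nonneg hq]; congr 1; ring
        _ ≤ R ^ (|q| / 4) := by gcongr
    · calc s2 ^ (-q / 2) ≤ 1 := Real.rpow_le_one hs2.le hSd.hi (by linarith)
        _ ≤ R ^ (|q| / 4) := Real.one_le_rpow hR (by positivity)
  have a2 : 2 * (n + 1) ^ 3 ≤ 2 * ((C2 + 1) ^ 3 * R ^ (3 * b)) := by
    have hRb : 1 ≤ R ^ b := Real.one_le_rpow hR hb
    have h1 : n + 1 ≤ (C2 + 1) * R ^ b := by nlinarith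
    have h2 : R ^ (3 * b) = (R ^ b) ^ 3 := by
      rw [← Real.rpow_natCast (R ^ b) 3, ← Real.rpow_mul hR0.le]
      congr 1
      push_cast; ring
    rw [h2, ← mul_pow]
    gcongr
  have a3 : (s1 * s2 * r2 ^ 3) ^ (-(1/2) : ℝ) ≤ 1 := by
    refine Real.rpow_le_one_of_one_le_of_nonpos ?_ (by norm_num)
    have h1 : r2 ^ (-(1/2) : ℝ) * r2 ^ (-(1/2) : ℝ) ≤ s1 * s2 := by
      have := hSd.lo
      have := hSd.le
      gcongr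
      linarith
    have h2 : r2 ^ (-(1/2) : ℝ) * r2 ^ (-(1/2) : ℝ) = r2⁻¹ := by
      rw [← Real.rpow_add hr20, ← Real.rpow_neg_one]; norm_num
    rw [h2] at h1
    calc (1:ℝ) ≤ r2 ^ 2 := by nlinarith
      _ = r2⁻¹ * r2 ^ 3 := by field_simp
      _ ≤ s1 * s2 * r2 ^ 3 := by gcongr
  have a4 : (r2 * (F * (C3 * (R ^ (-(k0 : ℝ)) * e)))) ^ (3/2 : ℝ) ≤
      (216 * C3) ^ (3/2 : ℝ) * (R ^ ((4 - (k0:ℝ)) * (3/2)) * (e * (R ^ (M0 / 2) * Real.sqrt D))) := by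
    have h1 : r2 * (F * (C3 * (R ^ (-(k0 : ℝ)) * e))) ≤
        216 * C3 * (R ^ (4 - (k0:ℝ)) * e) := by
      have h2 : r2 * F ≤ 216 * R ^ (4:ℝ) := by
        have h3 : (F : ℝ) ≤ 216 * R ^ 3 := by
          refine hF.trans ?_
          gcongr
          exact div_le_self hR0.le hr2'
        calc r2 * F ≤ R * (216 * R ^ 3) := by gcongr
          _ = 216 * R ^ (4:ℝ) := by
              rw [show (4:ℝ) = ((4:ℕ):ℝ) by norm_num, Real.rpow_natCast]; ring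
      calc r2 * (F * (C3 * (R ^ (-(k0 : ℝ)) * e)))
          = (r2 * F) * (C3 * (R ^ (-(k0 : ℝ)) * e)) := by ring
        _ ≤ (216 * R ^ (4:ℝ)) * (C3 * (R ^ (-(k0 : ℝ)) * e)) := by gcongr
        _ = 216 * C3 * ((R ^ (4:ℝ) * R ^ (-(k0 : ℝ))) * e) := by ring
        _ = _ := by rw [← Real.rpow_add hR0]; ring_nf
    have h4 : e ^ (3/2 : ℝ) ≤ e * (R ^ (M0 / 2) * Real.sqrt D) := by
      have h5 : e ^ (3 / 2 : ℝ) = e * Real.sqrt e := by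
        rw [show (3 / 2 : ℝ) = 1 + 1 / 2 by norm_num, Real.rpow_add_of_nonneg he (by norm_num)
          (by norm_num), Real.rpow_one, Real.sqrt_eq_rpow]
      rw [h5]
      gcongr
      refine (Real.sqrt_le_sqrt hnd).trans ?_
      rw [Real.sqrt_mul (by positivity)]
      gcongr
      rw [Real.sqrt_eq_rpow, ← Real.rpow_mul hR0.le]
      apply le_of_eq; congr 1; ring
    calc (r2 * (F * (C3 * (R ^ (-(k0 : ℝ)) * e)))) ^ (3/2 : ℝ)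
        ≤ (216 * C3 * (R ^ (4 - (k0:ℝ)) * e)) ^ (3/2 : ℝ) := by gcongr
      _ = (216 * C3) ^ (3/2 : ℝ) * (R ^ ((4 - (k0:ℝ)) * (3/2)) * e ^ (3/2 : ℝ)) := by
          rw [Real.mul_rpow (by positivity) (by positivity), Real.mul_rpow (by positivity) he,
            ← Real.rpow_mul hR0.le]
      _ ≤ _ := by gcongr
  calc s2 ^ (-q / 2) * (2 * (n + 1) ^ 3 * ((s1 * s2 * r2 ^ 3) ^ (-(1/2) : ℝ) *
        (r2 * (F * (C3 * (R ^ (-(k0 : ℝ)) * e)))) ^ (3/2 : ℝ)))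
      ≤ R ^ (|q| / 4) * (2 * ((C2 + 1) ^ 3 * R ^ (3 * b)) * (1 * ((216 * C3) ^ (3/2 : ℝ) *
          (R ^ ((4 - (k0:ℝ)) * (3/2)) * (e * (R ^ (M0 / 2) * Real.sqrt D)))))) := by
        gcongr
    _ = 2 * (C2 + 1) ^ 3 * (216 * C3) ^ (3/2 : ℝ) *
          ((R ^ (|q| / 4) * R ^ (3 * b) * R ^ ((4 - (k0:ℝ)) * (3/2)) * R ^ (M0 / 2)) *
            (e * Real.sqrt D)) := by ring
    _ ≤ 2 * (C2 + 1) ^ 3 * (216 * C3) ^ (3/2 : ℝ) * (R ^ (1 - K) * (e * Real.sqrt D)) := by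
        rw [← Real.rpow_add hR0, ← Real.rpow_add hR0, ← Real.rpow_add hR0]
        gcongr
        have h1 := le_abs_self M0
        have h2 := abs_nonneg M0
        have h3 := abs_nonneg q
        have h4 := le_abs_self K
        linarith
    _ = _ := by
        rw [show 1 - K = -K + 1 by ring, Real.rpow_add hR0, Real.rpow_one]; ring

/-- **coefficient sum of the label `k`**: `∑_z r √D_z · (selected energy)`. -/
noncomputable def Sk (h : E2 → ℝ) (g : E2 → ℂ) (r : ℝ) (Z : Finset (E2 × ℝ))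
    (I : E2 × ℝ → ℕ → Finset ℕ) (P : E2 × ℝ → ℕ → ℕ → Plate) (D' : E2 × ℝ → ℕ → ℝ) (k : ℕ) :
    ℝ≥0∞ :=
  ∑ z ∈ Z, ENNReal.ofReal (r * Real.sqrt (D' z k)) *
    ∑ i ∈ I z k, en (r ^ (-(1/2) : ℝ)) (tr h z g) (P z k i).S

/-- one dense plate. -/
theorem plate_dense {q r s1 s2 D' c : ℝ} (hr : 0 < r) (hs1 : 0 < s1) (hs2 : 0 < s2)
    (hc : 0 ≤ c) {X : ℝ≥0∞}
    (hd : ENNReal.ofReal (D' * (s2 ^ q * (s1 * s2 * r ^ 2))) ≤ ENNReal.ofReal c * X) :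
    ENNReal.ofReal (r * Real.sqrt D') * X ≤
      ENNReal.ofReal (Real.sqrt c) * (ENNReal.ofReal (s2 ^ (-q / 2)) *
        (ENNReal.ofReal ((s1 * s2 * r ^ 3) ^ (-(1/2) : ℝ)) *
          (ENNReal.ofReal r * X) ^ (3 / 2 : ℝ))) := by
  set m : ℝ := s2 ^ q * (s1 * s2 * r ^ 2) with hm
  have hm0 : 0 < m := by positivity
  rcases le_or_gt D' 0 with hD | hD
  · rw [Real.sqrt_eq_zero_of_nonpos hD]; simp
  have h1 : ENNReal.ofReal D' ≤ ENNReal.ofReal (m⁻¹) * (ENNReal.ofReal c * X) := by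
    calc ENNReal.ofReal D' = ENNReal.ofReal (m⁻¹) * ENNReal.ofReal (D' * m) := by
          rw [← ENNReal.ofReal_mul (by positivity)]
          congr 1
          field_simp
      _ ≤ _ := by gcongr
  have h2 : ENNReal.ofReal (Real.sqrt D') ≤
      ENNReal.ofReal (m ^ (-(1/2) : ℝ)) * (ENNReal.ofReal (Real.sqrt c) * X ^ (1/2 : ℝ)) := by
    have h3 : ENNReal.ofReal (Real.sqrt D') = (ENNReal.ofReal D') ^ (1/2 : ℝ) := by
      rw [Real.sqrt_eq_rpow, ENNReal.ofReal_rpow_of_nonneg hD.le (by norm_num)]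
    rw [h3]
    refine (ENNReal.rpow_le_rpow h1 (by norm_num)).trans ?_
    rw [ENNReal.mul_rpow_of_nonneg _ _ (by norm_num : (0:ℝ) ≤ 1/2),
      ENNReal.mul_rpow_of_nonneg _ _ (by norm_num : (0:ℝ) ≤ 1/2),
      ENNReal.ofReal_rpow_of_nonneg (by positivity) (by norm_num),
      ENNReal.ofReal_rpow_of_nonneg hc (by norm_num), ← Real.sqrt_eq_rpow c,
      ← Real.rpow_neg_one, ← Real.rpow_mul hm0.le]
    norm_num
  have h4 : X ^ (3/2 : ℝ) = X ^ (1/2 : ℝ) * X := by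
    rw [show (3/2 : ℝ) = 1/2 + 1 by norm_num,
      ENNReal.rpow_add_of_nonneg _ _ (by norm_num) (by norm_num), ENNReal.rpow_one]
  have h5 : r * m ^ (-(1/2) : ℝ) =
      s2 ^ (-q / 2) * ((s1 * s2 * r ^ 3) ^ (-(1/2) : ℝ) * r ^ (3/2 : ℝ)) := by
    rw [hm, Real.mul_rpow (by positivity) (by positivity),
      Real.mul_rpow (by positivity) (by positivity), Real.mul_rpow (x := s1 * s2) (y := r ^ 3)
        (by positivity) (by positivity), ← Real.rpow_mul hs2.le, ← Real.rpow_natCast r 2,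
      ← Real.rpow_natCast r 3, ← Real.rpow_mul hr.le, ← Real.rpow_mul hr.le]
    have e1 : r ^ (((3:ℕ):ℝ) * -(1/2)) * r ^ (3/2 : ℝ) = 1 := by
      rw [← Real.rpow_add hr]; norm_num
    have e2 : r * r ^ (((2:ℕ):ℝ) * -(1/2)) = 1 := by
      nth_rewrite 1 [← Real.rpow_one r]
      rw [← Real.rpow_add hr]; norm_num
    have e3 : q * -(1/2) = -q / 2 := by ring
    rw [e3]
    calc r * (s2 ^ (-q / 2) * ((s1 * s2) ^ (-(1/2) : ℝ) * r ^ (((2:ℕ):ℝ) * -(1/2))))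
        = s2 ^ (-q / 2) * (s1 * s2) ^ (-(1/2) : ℝ) * (r * r ^ (((2:ℕ):ℝ) * -(1/2))) := by ring
      _ = s2 ^ (-q / 2) * (s1 * s2) ^ (-(1/2) : ℝ) *
          (r ^ (((3:ℕ):ℝ) * -(1/2)) * r ^ (3/2 : ℝ)) := by rw [e1, e2]
      _ = _ := by ring
  calc ENNReal.ofReal (r * Real.sqrt D') * X
      = ENNReal.ofReal r * ENNReal.ofReal (Real.sqrt D') * X := by
        rw [ENNReal.ofReal_mul hr.le]
    _ ≤ ENNReal.ofReal r * (ENNReal.ofReal (m ^ (-(1/2) : ℝ)) *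
          (ENNReal.ofReal (Real.sqrt c) * X ^ (1/2 : ℝ))) * X := by gcongr
    _ = ENNReal.ofReal (Real.sqrt c) * ((ENNReal.ofReal r * ENNReal.ofReal (m ^ (-(1/2) : ℝ))) *
          (X ^ (1/2 : ℝ) * X)) := by ring
    _ = ENNReal.ofReal (Real.sqrt c) * ((ENNReal.ofReal (s2 ^ (-q / 2)) *
          (ENNReal.ofReal ((s1 * s2 * r ^ 3) ^ (-(1/2) : ℝ)) * ENNReal.ofReal (r ^ (3/2 : ℝ)))) *
          X ^ (3/2 : ℝ)) := by
        rw [← h4, ← ENNReal.ofReal_mul hr.le, h5, ENNReal.ofReal_mul (by positivity),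
          ENNReal.ofReal_mul (by positivity)]
    _ = _ := by
        rw [ENNReal.mul_rpow_of_nonneg _ _ (by norm_num : (0:ℝ) ≤ 3/2),
          ENNReal.ofReal_rpow_of_nonneg hr.le (by norm_num)]
        ring

end Crest.Agent.R138.GR639
end

-- ▼ part R138/GenRoot4_639

/-!
# R138 wave side: domination and one step (helper639), part 4: ROOT and GEN over `DecOut`
-/

set_option autoImplicit false

open MeasureTheory FourierTransform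
open scoped ContDiff ENNReal

namespace Crest.Agent.R138.GR639

open Crest.Agent.R138.Defs Crest.Agent.R138.Bil882 Crest.Agent.R138.W188
open Crest.Agent.R138.Wpk685 Crest.Agent.R138.W323
open Crest.Agent.R138.T774 (haar3 cyl_eq finrank3)

/-- the two bounds of the plate functional (conclusion of `Ph_bound`). -/
def PhB (B : ℕ → ℝ) (q : ℝ) (F : ℝ → ℝ → ℝ → (E2 → ℝ) → (E2 → ℂ) → ℝ → ℝ≥0∞) (c β : ℝ) : Prop :=
  ∀ e : ℝ, 0 < e → ∀ (Na : ℕ) (M0 : ℝ), ∃ C : ℝ, 0 ≤ C ∧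
      ∀ h g R D, St B q Na M0 1 h g R D → ∀ r s1 s2, R ^ (1/2 : ℝ) ≤ r → r ≤ R ^ (1 - e) →
        Sd r s1 s2 →
        Ph q F r s1 s2 h g R ≤
          ENNReal.ofReal (C * R ^ (2 * e) * (max 1 (R / (s1 * r) ^ 2)) ^ (c / 2) * SS g R D) ∧
        Ph q F r s1 s2 h g R ≤
          ENNReal.ofReal (C * R ^ (2 * e) * (s2 ^ 2 * R) ^ (β / 2) * SS g R D)

theorem phB {B : ℕ → ℝ} {q : ℝ} {F : ℝ → ℝ → ℝ → (E2 → ℝ) → (E2 → ℂ) → ℝ → ℝ≥0∞} {c β : ℝ}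
    (hc : 0 ≤ c) (hβ : 0 ≤ β) (H : LB B q 1 c) (HK : KMw B q)
    (HT : TRIV1 B q) (HE : END B q β) (H5 : A5b B q) (H2 : A2 B q F) (H2K : A2K B q F) :
    PhB B q F c β := Ph_bound hc hβ H HK HT HE H5 H2 H2K

/-- `SS` of a piece is bounded by the coefficient sum. -/
theorem SS_le_en {q A σ Cn : ℝ} {B : ℕ → ℝ} {nb M : ℕ} {h : E2 → ℝ} {g : E2 → ℂ} {R r : ℝ}
    {z : E2 × ℝ} {cls : OrthonormalBasis (Fin 2) ℝ E2 → ℤ × ℤ → E2 → ℕ}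
    {Λ : Finset ℕ} {s : ℕ → ℝ × ℝ} {cl : ℕ → ℕ} {G : ℕ → E2 → ℂ} {D' : ℕ → ℝ} {rest : E2 → ℂ}
    {I : ℕ → Finset ℕ} {P : ℕ → ℕ → Plate} (hr : 0 ≤ r)
    (H : DecOut q A σ Cn B nb M h g R r z cls Λ s cl G D' rest I P) {k : ℕ} (hk : k ∈ Λ) :
    ENNReal.ofReal (SS (G k) r (D' k)) ≤ ENNReal.ofReal Cn *
      (ENNReal.ofReal (r * Real.sqrt (D' k)) *
        ∑ i ∈ I k, en (r ^ (-(1/2) : ℝ)) (tr h z g) (P k i).S) := by
  have h1 := H.energy k hk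
  have e1 : SS (G k) r (D' k) = (r * Real.sqrt (D' k)) * En (G k) := by unfold SS; ring
  rw [e1, ENNReal.ofReal_mul (by positivity)]
  calc ENNReal.ofReal (r * Real.sqrt (D' k)) * ENNReal.ofReal (En (G k))
      ≤ ENNReal.ofReal (r * Real.sqrt (D' k)) * (ENNReal.ofReal Cn *
        ∑ i ∈ I k, en (r ^ (-(1/2) : ℝ)) (tr h z g) (P k i).S) := by gcongr
    _ = _ := by ring

section main

variable {q A σ Cn : ℝ} {B : ℕ → ℝ} {nb M : ℕ} {h : E2 → ℝ} {g : E2 → ℂ} {R r : ℝ}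
    {cls : E2 × ℝ → OrthonormalBasis (Fin 2) ℝ E2 → ℤ × ℤ → E2 → ℕ}
    {Λ : Finset ℕ} {s : ℕ → ℝ × ℝ} {cl : ℕ → ℕ} {G : E2 × ℝ → ℕ → E2 → ℂ}
    {D' : E2 × ℝ → ℕ → ℝ} {rest : E2 × ℝ → E2 → ℂ} {I : E2 × ℝ → ℕ → Finset ℕ}
    {P : E2 × ℝ → ℕ → ℕ → Plate} {Z : Finset (E2 × ℝ)}

/-- the coefficient sum is bounded by the value of the plate systems. -/
theorem Sk_le_val (hr : 0 < r) (hCn : 0 ≤ Cn)
    (hSd : ∀ k ∈ Λ, Sd r (s k).1 (s k).2)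
    (H : ∀ z ∈ Z, DecOut q A σ Cn B nb M h g R r z (cls z) Λ s cl (G z) (D' z) (rest z) (I z)
      (P z)) {k : ℕ} (hk : k ∈ Λ) :
    Sk h g r Z I P D' k ≤ ENNReal.ofReal (Real.sqrt (Cn * nb)) *
      (ENNReal.ofReal ((s k).2 ^ (-q / 2)) *
        ∑ z ∈ Z, val h g r (s k).1 (s k).2 (I z k) (P z k)) := by
  obtain ⟨hs1, hs2⟩ := (hSd k hk).s2pos hr
  unfold Sk
  rw [Finset.mul_sum, Finset.mul_sum]
  refine Finset.sum_le_sum fun z hz => ?_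
  unfold val
  rw [Finset.mul_sum, Finset.mul_sum, Finset.mul_sum]
  refine Finset.sum_le_sum fun i hi => ?_
  rw [((H z hz).pl k hk).2 i hi]
  exact plate_dense hr hs1 hs2 (by positivity) ((H z hz).dense k hk i hi)

/-- **ROOT, coefficient form.** -/
theorem root_en (hr : 0 < r) (hCn : 0 ≤ Cn)
    (hSd : ∀ k ∈ Λ, Sd r (s k).1 (s k).2) (hsep : ∀ z ∈ Z, ∀ z' ∈ Z, Sep r z z')
    (H : ∀ z ∈ Z, DecOut q A σ Cn B nb M h g R r z (cls z) Λ s cl (G z) (D' z) (rest z) (I z)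
      (P z)) {k : ℕ} (hk : k ∈ Λ) :
    Sk h g r Z I P D' k ≤ ENNReal.ofReal (Real.sqrt (Cn * nb)) *
      Ph q (SIG A) r (s k).1 (s k).2 h g R := by
  refine (Sk_le_val hr hCn hSd H hk).trans ?_
  unfold Ph
  gcongr
  exact sum_val_le_SIG Z hsep (fun z => I z k) (fun z => P z k)
    (fun z hz => ((H z hz).pl k hk).1) (fun z hz => ((H z hz).pl k hk).2) g

end main

/-- **ROOT with the bounds of the plate functional**: thick labels gain through the first bound,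
narrow labels through the second one. -/
theorem root_bounds {B : ℕ → ℝ} {q A c β : ℝ} (PB : PhB B q (SIG A) c β) {e : ℝ} (he : 0 < e)
    (Na : ℕ) (M0 : ℝ) : ∃ C : ℝ, 0 ≤ C ∧
    ∀ (σ Cn : ℝ) (nb M : ℕ) (h : E2 → ℝ) (g : E2 → ℂ) (R D r : ℝ), St B q Na M0 1 h g R D →
      R ^ (1/2 : ℝ) ≤ r → r ≤ R ^ (1 - e) → 0 ≤ Cn →
    ∀ (Z : Finset (E2 × ℝ)) (cls : E2 × ℝ → OrthonormalBasis (Fin 2) ℝ E2 → ℤ × ℤ → E2 → ℕ)
      (Λ : Finset ℕ) (s : ℕ → ℝ × ℝ) (cl : ℕ → ℕ) (G : E2 × ℝ → ℕ → E2 → ℂ)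
      (D' : E2 × ℝ → ℕ → ℝ) (rest : E2 × ℝ → E2 → ℂ) (I : E2 × ℝ → ℕ → Finset ℕ)
      (P : E2 × ℝ → ℕ → ℕ → Plate),
      (∀ k ∈ Λ, Sd r (s k).1 (s k).2) → (∀ z ∈ Z, ∀ z' ∈ Z, Sep r z z') →
      (∀ z ∈ Z, DecOut q A σ Cn B nb M h g R r z (cls z) Λ s cl (G z) (D' z) (rest z) (I z)
        (P z)) → ∀ k ∈ Λ,
      Sk h g r Z I P D' k ≤ ENNReal.ofReal (C * Real.sqrt (Cn * nb) * R ^ (2 * e) *
        (max 1 (R / ((s k).1 * r) ^ 2)) ^ (c / 2) * SS g R D) ∧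
      Sk h g r Z I P D' k ≤ ENNReal.ofReal (C * Real.sqrt (Cn * nb) * R ^ (2 * e) *
        ((s k).2 ^ 2 * R) ^ (β / 2) * SS g R D) := by
  obtain ⟨C, hC, HP⟩ := PB e he Na M0
  refine ⟨C, hC, ?_⟩
  intro σ Cn nb M h g R D r hSt hr1 hr2 hCn Z cls Λ s cl G D' rest I P hSd hsep H k hk
  have hR0 := hSt.Rpos
  have hr0 : 0 < r := lt_of_lt_of_le (by positivity) hr1
  have h1 := root_en hr0 hCn hSd hsep H hk
  obtain ⟨h2, h3⟩ := HP h g R D hSt r (s k).1 (s k).2 hr1 hr2 (hSd k hk)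
  constructor
  · refine h1.trans ((mul_le_mul_right h2 _).trans ?_)
    rw [← ENNReal.ofReal_mul (by positivity)]
    apply ENNReal.ofReal_le_ofReal
    apply le_of_eq
    ring
  · refine h1.trans ((mul_le_mul_right h3 _).trans ?_)
    rw [← ENNReal.ofReal_mul (by positivity)]
    apply ENNReal.ofReal_le_ofReal
    apply le_of_eq
    ring

/-- data of one level, all frames of a net. -/
structure LvD (q A σ Cn : ℝ) (B : ℕ → ℝ) (nb M : ℕ) (h : E2 → ℝ) (g : E2 → ℂ) (R r : ℝ)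
    (Z : Finset (E2 × ℝ)) (cls : E2 × ℝ → OrthonormalBasis (Fin 2) ℝ E2 → ℤ × ℤ → E2 → ℕ)
    (Λ : Finset ℕ) (s : ℕ → ℝ × ℝ) (cl : ℕ → ℕ) (G : E2 × ℝ → ℕ → E2 → ℂ)
    (D' : E2 × ℝ → ℕ → ℝ) (rest : E2 × ℝ → E2 → ℂ) (I : E2 × ℝ → ℕ → Finset ℕ)
    (P : E2 × ℝ → ℕ → ℕ → Plate) : Prop where
  sd : ∀ k ∈ Λ, Sd r (s k).1 (s k).2
  mem : ∀ z ∈ Z, z ∈ cyl R
  sep : ∀ z ∈ Z, ∀ z' ∈ Z, Sep r z z'
  out : ∀ z ∈ Z, DecOut q A σ Cn B nb M h g R r z (cls z) Λ s cl (G z) (D' z) (rest z) (I z) (P z)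

/-- **GEN**: one step under domination, coefficient form. -/
theorem gen_en {B : ℕ → ℝ} {q A c β : ℝ} (hA : 1 ≤ A)
    (PB : PhB B q (SIG A) c β) {e : ℝ}
    (he : 0 < e) : ∃ C : ℝ, 0 ≤ C ∧ ∀ (M0 K b C1 : ℝ), 0 ≤ b → 0 ≤ C1 → ∃ C' : ℝ, 0 ≤ C' ∧
    ∀ (Na M : ℕ), 13 + |q| + |M0| + |K| + 4 * b ≤ M →
    ∀ (h : E2 → ℝ) (g : E2 → ℂ) (R D σ : ℝ), St B q Na M0 σ h g R D → σ ≤ 2 →
    ∀ r1 r2 : ℝ, R ^ (1/2 : ℝ) ≤ r2 → A * r2 ≤ r1 → r1 ≤ R → r2 ≤ r1 ^ (1 - e) →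
      σ + 3 * r1 ^ (-(1/2) : ℝ) ≤ 1 →
    ∀ (nb1 M1 : ℕ) (Z1 : Finset (E2 × ℝ))
      (cls1 : E2 × ℝ → OrthonormalBasis (Fin 2) ℝ E2 → ℤ × ℤ → E2 → ℕ)
      (Λ1 : Finset ℕ) (s1 : ℕ → ℝ × ℝ) (cl1 : ℕ → ℕ) (G1 : E2 × ℝ → ℕ → E2 → ℂ)
      (D1 : E2 × ℝ → ℕ → ℝ) (rest1 : E2 × ℝ → E2 → ℂ) (I1 : E2 × ℝ → ℕ → Finset ℕ)
      (P1 : E2 × ℝ → ℕ → ℕ → Plate), M ≤ M1 →
      LvD q A σ C1 B nb1 M1 h g R r1 Z1 cls1 Λ1 s1 cl1 G1 D1 rest1 I1 P1 →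
      (Λ1.card : ℝ) ≤ C1 * R ^ b → (nb1 : ℝ) ≤ R ^ b →
    ∀ (C2 : ℝ) (nb2 M2 : ℕ) (Z2 : Finset (E2 × ℝ))
      (cls2 : E2 × ℝ → OrthonormalBasis (Fin 2) ℝ E2 → ℤ × ℤ → E2 → ℕ)
      (Λ2 : Finset ℕ) (s2 : ℕ → ℝ × ℝ) (cl2 : ℕ → ℕ) (G2 : E2 × ℝ → ℕ → E2 → ℂ)
      (D2 : E2 × ℝ → ℕ → ℝ) (rest2 : E2 × ℝ → E2 → ℂ) (I2 : E2 × ℝ → ℕ → Finset ℕ)
      (P2 : E2 × ℝ → ℕ → ℕ → Plate), 0 ≤ C2 →
      LvD q A σ C2 B nb2 M2 h g R r2 Z2 cls2 Λ2 s2 cl2 G2 D2 rest2 I2 P2 →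
    ∀ (ζ : E2 × ℝ → E2 × ℝ), (∀ z ∈ Z2, ζ z ∈ Z1 ∧ z - ζ z ∈ cyl r1) →
    ∀ k ∈ Λ2, ∀ π ∈ Λ1,
      (∀ z ∈ Z2, ∀ i ∈ I2 z k, ∀ κ ∈ Λ1,
        en (r2 ^ (-(1/2) : ℝ)) (tr h (z - ζ z) (G1 (ζ z) κ)) (P2 z k i).S ≤
          en (r2 ^ (-(1/2) : ℝ)) (tr h (z - ζ z) (G1 (ζ z) π)) (P2 z k i).S) →
      Sk h g r2 Z2 I2 P2 D2 k ≤
        ENNReal.ofReal (C * Real.sqrt (C2 * nb2) * C1 * (Λ1.card + 1) ^ 3 * r1 ^ (2 * e) *
          (max 1 (r1 / ((s2 k).1 * r2) ^ 2)) ^ (c / 2)) * Sk h g r1 Z1 I1 P1 D1 π +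
        ENNReal.ofReal (C' * Real.sqrt (C2 * nb2) * (R ^ (-K) * SS g R D)) := by
  obtain ⟨C, hC, HP⟩ := PB e he 6 4
  refine ⟨2 * C, by positivity, ?_⟩
  intro M0 K b C1 hb hC1
  set k0 : ℕ := ⌈10 + |q| + |M0| + |K| + 3 * b⌉₊ with hk0
  have hk0' : 10 + |q| + |M0| + |K| + 3 * b ≤ k0 := Nat.le_ceil _
  have hk0'' : (k0 : ℝ) < 10 + |q| + |M0| + |K| + 3 * b + 1 := Nat.ceil_lt_add_one (by positivity)
  obtain ⟨CW, hCW, HW⟩ := exists_restW B hA k0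
  set C3 : ℝ := CW * (64 * C1 ^ 2 + C1) with hC3
  have hC30 : 0 ≤ C3 := by positivity
  refine ⟨2 * (C1 + 1) ^ 3 * (216 * C3) ^ (3/2 : ℝ), by positivity, ?_⟩
  intro Na M hM h g R D σ hSt hσ2 r1 r2 hr2 h21 hr1R hr21e hσ1 nb1 M1 Z1 cls1 Λ1 s1 cl1 G1 D1 rest1
    I1 P1 hMM1 H1 hΛ1 hnb1 C2 nb2 M2 Z2 cls2 Λ2 s2 cl2 G2 D2 rest2 I2 P2 hC2 H2 ζ hζ k hk π hπ hmax
  have hR : 1 ≤ R := hSt.R1
  have hR0 : 0 < R := by linarith
  have hr2' : 1 ≤ r2 := (Real.one_le_rpow hR (by norm_num)).trans hr2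
  have hr20 : 0 < r2 := by linarith
  have h21' : r2 ≤ r1 := by nlinarith
  have hr10 : 0 < r1 := by linarith
  have hr11 : 1 ≤ r1 := by linarith
  have hhc : Continuous h := hSt.par.1.continuous
  have hSd := H2.sd k hk
  have hs2 : (s2 k).2 ≤ 1 := hSd.hi
  have hs1 : (s2 k).1 ≤ 1 := hSd.le.trans hs2
  have hEn : 0 ≤ En g := integral_nonneg fun ξ => by positivity
  have hRb : 1 ≤ R ^ b := Real.one_le_rpow hR hb
  -- the rest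
  have hGd : ∀ z ∈ Z1, ∀ κ ∈ Λ1, Gd (G1 z κ) := fun z hz κ hκ =>
    W323.St.gd ((H1.out z hz).st κ hκ) (by linarith)
  have hGe : ∀ z ∈ Z1, Gd (rest1 z) := fun z hz =>
    ⟨(H1.out z hz).rmeas, (H1.out z hz).rbdd, (H1.out z hz).rsupp⟩
  set W : ℝ≥0∞ := ENNReal.ofReal (C3 * (R ^ (-(k0 : ℝ)) * En g)) with hWdef
  have hW : ∀ z ∈ Z1, ∀ z' ∈ cyl r1, en (r2 ^ (-(1/2) : ℝ)) (tr h z' (rest1 z))
      (fun _ => Metric.closedBall 0 (3 * A * r2)) ≤ W := by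
    intro z hz z' hz'
    refine HW C1 hC1 h hSt.par R r1 r2 hR hr2 h21 hr1R (En g) hEn (rest1 z) (hGe z hz)
      (H1.out z hz).ren (fun p hp1 hp2 => ((H1.out z hz).small p hp1 hp2).trans ?_) z' hz'
    have h3 : (nb1 : ℝ) * R ^ (-(M1 : ℝ)) ≤ R ^ (-((k0 + 1 : ℕ) : ℝ)) := by
      calc (nb1 : ℝ) * R ^ (-(M1 : ℝ)) ≤ R ^ b * R ^ (-(M1 : ℝ)) := by gcongr
        _ = R ^ (b + -(M1 : ℝ)) := by rw [← Real.rpow_add hR0]
        _ ≤ _ := by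
            apply Real.rpow_le_rpow_of_exponent_le hR
            have : (M : ℝ) ≤ M1 := by exact_mod_cast hMM1
            push_cast
            linarith
    calc C1 * nb1 * R ^ (-(M1 : ℝ)) * Real.sqrt (En g)
        = C1 * (nb1 * R ^ (-(M1 : ℝ))) * Real.sqrt (En g) := by ring
      _ ≤ C1 * R ^ (-((k0 + 1 : ℕ) : ℝ)) * Real.sqrt (En g) := by gcongr
  have hcore := gen_core hhc (by linarith : 0 ≤ A) hr20.le hs1 hs2 (g := g) Z1 Z2 H2.sep ζ hζ Λ1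
    G1 rest1 hGd hGe (fun z hz => (H1.out z hz).sum) W hW (fun z => I2 z k) (fun z => P2 z k)
    (fun z hz => ((H2.out z hz).pl k hk).1) (fun z hz => ((H2.out z hz).pl k hk).2) hmax
  have hval := Sk_le_val hr20 hC2 H2.sd H2.out hk
  have hcard := card_net hr20 (h21'.trans hr1R) Z2 H2.mem H2.sep
  have hrest := rest_total' (C2 := C1) (C3 := C3) (R := R) (D := D) (r2 := r2) (s1 := (s2 k).1)
    (s2 := (s2 k).2) (q := q) (M0 := M0) (e := En g) (n := Λ1.card) (b := b) (K := K)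
    (F := Z2.card) (k0 := k0) hC1 hC30 hR hr2 (h21'.trans hr1R) hSd hEn hb (Nat.cast_nonneg _)
    hΛ1 hcard hSt.nd hk0'
  have hn : ENNReal.ofReal (2 * ((Λ1.card : ℝ) + 1) ^ 3) = 2 * ((Λ1.card : ℝ≥0∞) + 1) ^ 3 := by
    rw [ENNReal.ofReal_mul (by norm_num), ENNReal.ofReal_pow (by positivity),
      ENNReal.ofReal_add (by positivity) (by norm_num), ENNReal.ofReal_natCast,
      ENNReal.ofReal_ofNat, ENNReal.ofReal_one]
  rw [hn] at hrest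
  -- the main part
  have hmain : ENNReal.ofReal ((s2 k).2 ^ (-q / 2)) * (2 * ((Λ1.card : ℝ≥0∞) + 1) ^ 3 *
      ∑ z ∈ Z1, SIG A r2 (s2 k).1 (s2 k).2 h (G1 z π) r1) ≤
      ENNReal.ofReal (2 * C * C1 * (Λ1.card + 1) ^ 3 * r1 ^ (2 * e) *
          (max 1 (r1 / ((s2 k).1 * r2) ^ 2)) ^ (c / 2)) * Sk h g r1 Z1 I1 P1 D1 π := by
    have h4 : ∀ z ∈ Z1, ENNReal.ofReal ((s2 k).2 ^ (-q / 2)) *
        SIG A r2 (s2 k).1 (s2 k).2 h (G1 z π) r1 ≤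
        ENNReal.ofReal (C * C1 * r1 ^ (2 * e) *
          (max 1 (r1 / ((s2 k).1 * r2) ^ 2)) ^ (c / 2)) *
          (ENNReal.ofReal (r1 * Real.sqrt (D1 z π)) *
            ∑ i ∈ I1 z π, en (r1 ^ (-(1/2) : ℝ)) (tr h z g) (P1 z π i).S) := by
      intro z hz
      have h5 := (HP h (G1 z π) r1 (D1 z π) (((H1.out z hz).st π hπ).mono hσ1) r2 (s2 k).1
        (s2 k).2 ((Real.rpow_le_rpow hr10.le hr1R (by norm_num)).trans hr2) hr21e hSd).1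
      have h6 := SS_le_en hr10.le (H1.out z hz) hπ
      refine h5.trans ?_
      have e1 : C * r1 ^ (2 * e) * (max 1 (r1 / ((s2 k).1 * r2) ^ 2)) ^ (c / 2) *
          SS (G1 z π) r1 (D1 z π) = (C * r1 ^ (2 * e) *
          (max 1 (r1 / ((s2 k).1 * r2) ^ 2)) ^ (c / 2)) * SS (G1 z π) r1 (D1 z π) := by ring
      have hm0 : 0 ≤ (max 1 (r1 / ((s2 k).1 * r2) ^ 2)) ^ (c / 2) := by positivity
      rw [ENNReal.ofReal_mul (by positivity)]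
      calc ENNReal.ofReal (C * r1 ^ (2 * e) * (max 1 (r1 / ((s2 k).1 * r2) ^ 2)) ^ (c / 2)) *
            ENNReal.ofReal (SS (G1 z π) r1 (D1 z π))
          ≤ ENNReal.ofReal (C * r1 ^ (2 * e) * (max 1 (r1 / ((s2 k).1 * r2) ^ 2)) ^ (c / 2)) *
            (ENNReal.ofReal C1 * (ENNReal.ofReal (r1 * Real.sqrt (D1 z π)) *
            ∑ i ∈ I1 z π, en (r1 ^ (-(1/2) : ℝ)) (tr h z g) (P1 z π i).S)) := by gcongr
        _ = _ := by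
            rw [← mul_assoc, ← ENNReal.ofReal_mul (by positivity)]
            congr 2
            ring
    calc ENNReal.ofReal ((s2 k).2 ^ (-q / 2)) * (2 * ((Λ1.card : ℝ≥0∞) + 1) ^ 3 *
          ∑ z ∈ Z1, SIG A r2 (s2 k).1 (s2 k).2 h (G1 z π) r1)
        = (2 * ((Λ1.card : ℝ≥0∞) + 1) ^ 3) * ∑ z ∈ Z1, ENNReal.ofReal ((s2 k).2 ^ (-q / 2)) *
            SIG A r2 (s2 k).1 (s2 k).2 h (G1 z π) r1 := by
          rw [← Finset.mul_sum]; ring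
      _ ≤ (2 * ((Λ1.card : ℝ≥0∞) + 1) ^ 3) * ∑ z ∈ Z1, ENNReal.ofReal (C * C1 * r1 ^ (2 * e) *
          (max 1 (r1 / ((s2 k).1 * r2) ^ 2)) ^ (c / 2)) *
          (ENNReal.ofReal (r1 * Real.sqrt (D1 z π)) *
            ∑ i ∈ I1 z π, en (r1 ^ (-(1/2) : ℝ)) (tr h z g) (P1 z π i).S) := by
          exact mul_le_mul' le_rfl (Finset.sum_le_sum fun z hz => h4 z hz)
      _ = _ := by
          have hm0 : 0 ≤ (max 1 (r1 / ((s2 k).1 * r2) ^ 2)) ^ (c / 2) := by positivity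
          rw [← Finset.mul_sum, ← hn, ← mul_assoc, ← ENNReal.ofReal_mul (by positivity)]
          unfold Sk
          congr 2
          ring
  have hs2p : 0 ≤ (s2 k).2 ^ (-q / 2) := by
    have := (hSd.s2pos hr20).2
    positivity
  calc Sk h g r2 Z2 I2 P2 D2 k
      ≤ ENNReal.ofReal (Real.sqrt (C2 * nb2)) * (ENNReal.ofReal ((s2 k).2 ^ (-q / 2)) *
        ∑ z ∈ Z2, val h g r2 (s2 k).1 (s2 k).2 (I2 z k) (P2 z k)) := hval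
    _ ≤ ENNReal.ofReal (Real.sqrt (C2 * nb2)) * (ENNReal.ofReal ((s2 k).2 ^ (-q / 2)) *
        (2 * ((Λ1.card : ℝ≥0∞) + 1) ^ 3 * (∑ z ∈ Z1, SIG A r2 (s2 k).1 (s2 k).2 h (G1 z π) r1 +
        ENNReal.ofReal (((s2 k).1 * (s2 k).2 * r2 ^ 3) ^ (-(1/2) : ℝ)) *
          (ENNReal.ofReal r2 * ((Z2.card : ℝ≥0∞) * W)) ^ (3 / 2 : ℝ)))) := by gcongr
    _ = ENNReal.ofReal (Real.sqrt (C2 * nb2)) * (ENNReal.ofReal ((s2 k).2 ^ (-q / 2)) *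
        (2 * ((Λ1.card : ℝ≥0∞) + 1) ^ 3 * ∑ z ∈ Z1, SIG A r2 (s2 k).1 (s2 k).2 h (G1 z π) r1) +
        ENNReal.ofReal ((s2 k).2 ^ (-q / 2)) * (2 * ((Λ1.card : ℝ≥0∞) + 1) ^ 3 *
          (ENNReal.ofReal (((s2 k).1 * (s2 k).2 * r2 ^ 3) ^ (-(1/2) : ℝ)) *
          (ENNReal.ofReal r2 * ((Z2.card : ℝ≥0∞) * W)) ^ (3 / 2 : ℝ)))) := by ring
    _ ≤ ENNReal.ofReal (Real.sqrt (C2 * nb2)) *
        (ENNReal.ofReal (2 * C * C1 * (Λ1.card + 1) ^ 3 * r1 ^ (2 * e) *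
          (max 1 (r1 / ((s2 k).1 * r2) ^ 2)) ^ (c / 2)) * Sk h g r1 Z1 I1 P1 D1 π +
        ENNReal.ofReal (2 * (C1 + 1) ^ 3 * (216 * C3) ^ (3/2 : ℝ) *
        (R ^ (-K) * (R * En g * Real.sqrt D)))) := by gcongr
    _ = _ := by
        rw [mul_add, ← mul_assoc, ← ENNReal.ofReal_mul (by positivity),
          ← ENNReal.ofReal_mul (by positivity)]
        unfold SS
        congr 2
        · congr 1; ring
        · ring

end Crest.Agent.R138.GR639
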