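import Crest.Agent.R138.Low1_448
import Crest.Agent.R138.WDef_188
import Crest.Agent.R138.Wpk4_685

-- ▼ part R138/Low2_448
section

/-!
# R138 / R139: leaf LOW of doc 1812 (helper448), part 2

Cells, the lattice partition in direction space, admissible bumps.
-/

set_option autoImplicit false

open MeasureTheory FourierTransform
open scoped ContDiff ENNReal

namespace Crest.Agent.R138.Low448

open Crest.Agent.R138.Defs Crest.Agent.R138.Wf448
open Crest.Agent.R138.F4x858 (memLp_of_bdd measurable_chi)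
open Crest.Agent.R138.Bn759 (th2 sq)

theorem inner_jv (b : OrthonormalBasis (Fin 2) ℝ E2) (σ : Fin 2 → ℝ) (j : ℤ × ℤ) (i : Fin 2) :
    inner ℝ (jv b σ j) (b i) = (![(j.1 : ℝ), (j.2 : ℝ)] i) * σ i := by
  fin_cases i
  · simpa using inner_jv0 b σ j
  · simpa using inner_jv1 b σ j

/-- a point of the big rectangle lies in a cell. -/
theorem exists_cell (b : OrthonormalBasis (Fin 2) ℝ E2) {σ : Fin 2 → ℝ} (hσ : ∀ i, 0 < σ i)
    {N : ℕ} {v : E2} (hv : ∀ i, |inner ℝ v (b i)| ≤ N * σ i) :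
    ∃ j ∈ sq N, ∀ i, |inner ℝ (v - jv b σ j) (b i)| ≤ σ i := by
  have h : ∀ i, ∃ k : ℤ, |(k : ℝ)| ≤ N ∧ |inner ℝ v (b i) / σ i - k| ≤ 1 := by
    intro i
    refine exists_int ?_
    rw [abs_div, abs_of_pos (hσ i), div_le_iff₀ (hσ i)]
    exact hv i
  choose k hk hk' using h
  refine ⟨(k 0, k 1), mem_sq.2 ⟨hk 0, hk 1⟩, fun i => ?_⟩
  have h1 : inner ℝ (v - jv b σ (k 0, k 1)) (b i) = (inner ℝ v (b i) / σ i - k i) * σ i := by
    rw [inner_sub_left, inner_jv, sub_mul, div_mul_cancel₀ _ (hσ i).ne']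
    congr 2
    fin_cases i <;> rfl
  rw [h1, abs_mul, abs_of_pos (hσ i)]
  exact mul_le_of_le_one_left (hσ i).le (hk' i)

/-- the weight is bounded below on its cell. -/
theorem dw_ge (n : ℕ) (b : OrthonormalBasis (Fin 2) ℝ E2) {σ : Fin 2 → ℝ} (hσ : ∀ i, 0 < σ i)
    {v : E2} (hv : ∀ i, |inner ℝ v (b i)| ≤ σ i) : (3 ^ n : ℝ)⁻¹ ≤ dw n (fr b σ) v := by
  unfold dw gw
  have h : ∀ i, (inner ℝ v (b i) / σ i) ^ 2 ≤ 1 := by
    intro i
    rw [sq_le_one_iff_abs_le_one, abs_div, abs_of_pos (hσ i), div_le_one (hσ i)]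
    exact hv i
  have h1 : 1 + ‖fr b σ v‖ ^ 2 ≤ 3 := by
    rw [norm_fr_sq]
    have := h 0; have := h 1
    linarith
  gcongr

/-- Cauchy-Schwarz for `𝓕⁻` of a finite sum. -/
theorem enorm_fourierInv_sum_sq {ι : Type*} (s : Finset ι) (f : ι → E2 → ℂ)
    (hf : ∀ i ∈ s, Integrable (f i)) (y : E2) :
    ‖𝓕⁻ (fun ξ => ∑ i ∈ s, f i ξ) y‖ₑ ^ 2 ≤ (s.card : ℝ≥0∞) * ∑ i ∈ s, ‖𝓕⁻ (f i) y‖ₑ ^ 2 := by
  have h1 : 𝓕⁻ (fun ξ => ∑ i ∈ s, f i ξ) y = ∑ i ∈ s, 𝓕⁻ (f i) y := by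
    simp only [Real.fourierInv_eq]
    rw [← integral_finsetSum]
    · refine integral_congr_ae (Filter.Eventually.of_forall fun ξ => ?_)
      simp only [Finset.smul_sum]
    · intro i hi
      exact (Real.fourierIntegral_convergent_iff' (innerSL ℝ) (-y)).2 (hf i hi) |>.congr
        (Filter.Eventually.of_forall fun ξ => by simp; rfl)
  rw [h1]
  have h2 : ‖∑ i ∈ s, 𝓕⁻ (f i) y‖ ^ 2 ≤ (s.card : ℝ) * ∑ i ∈ s, ‖𝓕⁻ (f i) y‖ ^ 2 := by
    refine (pow_le_pow_left₀ (norm_nonneg _) (norm_sum_le _ _) 2).trans ?_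
    exact sq_sum_le_card_mul_sum_sq
  have e : ∀ w : ℂ, ‖w‖ₑ ^ 2 = ENNReal.ofReal (‖w‖ ^ 2) := fun w => by
    rw [← ofReal_norm, ENNReal.ofReal_pow (norm_nonneg _)]
  simp only [e]
  rw [← ENNReal.ofReal_sum_of_nonneg (fun i _ => by positivity), ← ENNReal.ofReal_natCast,
    ← ENNReal.ofReal_mul (by positivity)]
  exact ENNReal.ofReal_le_ofReal h2

/-- the normalised bump. -/
noncomputable def bmK (K : ℝ) (y : E2) : ℂ := ((K⁻¹ * th2 0 y : ℝ) : ℂ)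

theorem adm_bmK (Na : ℕ) : ∃ K : ℝ, 0 < K ∧ Adm Na (bmK K) := by
  choose C hC0 hC using Bn759.deriv_th2_bdd
  set K : ℝ := ∑ i ∈ Finset.range (Na + 1), C i with hK
  have hK0 : 0 < K := Finset.sum_pos (fun i _ => hC0 i) ⟨0, by simp⟩
  refine ⟨K, hK0, ?_, ?_, ?_⟩
  · exact Complex.ofRealCLM.contDiff.comp (contDiff_const.mul (Bn759.contDiff_th2 0))
  · intro y hy
    have h1 : th2 0 y ≠ 0 := by
      intro h
      apply hy
      unfold bmK
      rw [h, mul_zero, Complex.ofReal_zero]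
    have h2 := Bn759.th2_ne_zero h1
    simp only [Prod.fst_zero, Prod.snd_zero, Int.cast_zero, sub_zero] at h2
    intro i
    fin_cases i
    · exact h2.1.le.trans (by norm_num)
    · exact h2.2.le.trans (by norm_num)
  · intro j hj y
    have e1 : ‖iteratedFDeriv ℝ j (bmK K) y‖ = ‖iteratedFDeriv ℝ j (fun y => K⁻¹ * th2 0 y) y‖ := by
      have h1 := Complex.ofRealLI.norm_iteratedFDeriv_comp_left
        (f := fun y => K⁻¹ * th2 0 y) (x := y) (n := j) (i := j)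
        (((contDiff_const.mul (Bn759.contDiff_th2 0)).of_le
          (by exact_mod_cast le_top)).contDiffAt) le_rfl
      rw [← h1]
      rfl
    have e2 : iteratedFDeriv ℝ j (fun y => K⁻¹ * th2 0 y) y = K⁻¹ • iteratedFDeriv ℝ j (th2 0) y := by
      have : (fun y => K⁻¹ * th2 0 y) = K⁻¹ • th2 0 := by
        funext y; simp
      rw [this, iteratedFDeriv_const_smul_apply]
      exact ((Bn759.contDiff_th2 0).of_le (by exact_mod_cast le_top)).contDiffAt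
    rw [e1, e2, norm_smul, norm_inv, Real.norm_of_nonneg hK0.le, inv_mul_le_iff₀ hK0, mul_one]
    refine (hC j 0 y).trans ?_
    exact Finset.single_le_sum (f := C) (fun i _ => (hC0 i).le) (Finset.mem_range.2 (by omega))

/-- the cut-off at the lattice point `a`. -/
theorem chi_eq (h : E2 → ℝ) (c : E2) (b : OrthonormalBasis (Fin 2) ℝ E2) {s : Fin 2 → ℝ}
    (hs : ∀ i, 0 < s i) (K : ℝ) (a : ℤ × ℤ) (ξ : E2) :
    chi h (c + jv b s a) b s (bmK K) ξ =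
      ((K⁻¹ * th2 a (WithLp.toLp 2 fun i => inner ℝ (gradient h ξ - c) (b i) / s i) : ℝ) : ℂ) := by
  unfold chi bmK
  rw [Bn759.th2_eq a]
  congr 4
  ext i
  have h1 : inner ℝ (gradient h ξ - (c + jv b s a)) (b i) / s i =
      inner ℝ (gradient h ξ - c) (b i) / s i - ![(a.1 : ℝ), (a.2 : ℝ)] i := by
    rw [← sub_sub, inner_sub_left, inner_jv, sub_div, mul_div_assoc, div_self (hs i).ne', mul_one]
  exact h1

theorem chi_support (h : E2 → ℝ) (c : E2) (b : OrthonormalBasis (Fin 2) ℝ E2) {s : Fin 2 → ℝ}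
    (hs : ∀ i, 0 < s i) {Na : ℕ} {ψ : E2 → ℂ} (hψ : Adm Na ψ) {ξ : E2}
    (hξ : chi h c b s ψ ξ ≠ 0) (i : Fin 2) : |inner ℝ (gradient h ξ - c) (b i)| ≤ 2 * s i := by
  have h1 := hψ.2.1 _ hξ i
  have h2 : |inner ℝ (gradient h ξ - c) (b i) / s i| ≤ 2 := h1
  rwa [abs_div, abs_of_pos (hs i), div_le_iff₀ (hs i)] at h2

/-- the lattice partition of unity in direction space. -/
theorem sum_chi (h : E2 → ℝ) (c : E2) (b : OrthonormalBasis (Fin 2) ℝ E2) {s : Fin 2 → ℝ}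
    (hs : ∀ i, 0 < s i) {K : ℝ} (hK : 0 < K) {N : ℕ} {ξ : E2}
    (hξ : ∀ i, 2 * |inner ℝ (gradient h ξ - c) (b i)| ≤ N * s i) :
    ∑ a ∈ sq N, (K : ℂ) * chi h (c + jv b s a) b s (bmK K) ξ = 1 := by
  set y : E2 := WithLp.toLp 2 fun i => inner ℝ (gradient h ξ - c) (b i) / s i with hy
  have hyi : ∀ i, |y i| ≤ N / 2 := by
    intro i
    have : y i = inner ℝ (gradient h ξ - c) (b i) / s i := rfl
    rw [this, abs_div, abs_of_pos (hs i), div_le_iff₀ (hs i)]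
    have := hξ i
    linarith
  have hN : ‖y‖ ≤ N := by
    have h1 : ‖y‖ ^ 2 ≤ (N : ℝ) ^ 2 := by
      rw [EuclideanSpace.norm_sq_eq, Fin.sum_univ_two, Real.norm_eq_abs, Real.norm_eq_abs]
      have h0 := pow_le_pow_left₀ (abs_nonneg _) (hyi 0) 2
      have h1 := pow_le_pow_left₀ (abs_nonneg _) (hyi 1) 2
      nlinarith [sq_nonneg (N : ℝ)]
    exact le_of_sq_le_sq h1 (by positivity)
  have h2 := Bn759.sum_th2 hN
  simp only [chi_eq h c b hs]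
  rw [← Complex.ofReal_one, ← h2, Complex.ofReal_sum]
  refine Finset.sum_congr rfl fun a _ => ?_
  rw [← Complex.ofReal_mul, mul_inv_cancel_left₀ hK.ne']

/-- translation of planks. -/
theorem lintegral_plank_add (f : E2 × ℝ → ℝ≥0∞) (c : E2) (b : OrthonormalBasis (Fin 2) ℝ E2)
    (s : Fin 2 → ℝ) (R : ℝ) (x0 : E2) (z : E2 × ℝ) :
    ∫⁻ p in plank c b s R x0 0, f (p + z) = ∫⁻ p in plank c b s R (x0 + z.1) z.2, f p := by
  have : (volume : Measure (E2 × ℝ)).IsAddRightInvariant := by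
    rw [Measure.volume_eq_prod]; infer_instance
  rw [← lintegral_indicator (measurableSet_plank _ _ _ _ _ _),
    ← lintegral_indicator (measurableSet_plank _ _ _ _ _ _),
    ← lintegral_add_right_eq_self ((plank c b s R (x0 + z.1) z.2).indicator f) z]
  refine lintegral_congr fun p => ?_
  have hiff : p ∈ plank c b s R x0 0 ↔ p + z ∈ plank c b s R (x0 + z.1) z.2 := by
    simp only [plank, Set.mem_ofPred_eq, Prod.fst_add, Prod.snd_add, sub_zero]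
    have e1 : p.2 + z.2 - z.2 = p.2 := by ring
    have e2 : p.1 + z.1 - (x0 + z.1) = p.1 - x0 := by abel
    rw [e1, e2]
  by_cases hp : p ∈ plank c b s R x0 0
  · rw [Set.indicator_of_mem hp, Set.indicator_of_mem (hiff.1 hp)]
  · rw [Set.indicator_of_notMem hp, Set.indicator_of_notMem fun h => hp (hiff.2 h)]

theorem plank_mono (c : E2) (b : OrthonormalBasis (Fin 2) ℝ E2) {s : Fin 2 → ℝ} (hs : ∀ i, 0 ≤ s i)
    {r R : ℝ} (hr : r ≤ R) (x0 : E2) (t0 : ℝ) : plank c b s r x0 t0 ⊆ plank c b s R x0 t0 := by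
  intro p hp
  refine ⟨hp.1.trans hr, fun i => (hp.2 i).trans ?_⟩
  have := hs i
  gcongr

end Crest.Agent.R138.Low448
end

-- ▼ part R138/Low3_448
section

/-!
# R138 / R139: leaf LOW of doc 1812 (helper448), part 3: the abstract inequality
-/

set_option autoImplicit false

open MeasureTheory FourierTransform
open scoped ContDiff ENNReal

namespace Crest.Agent.R138.Low448

open Crest.Agent.R138.Defs Crest.Agent.R138.Wf448
open Crest.Agent.R138.F4x858 (memLp_of_bdd measurable_chi)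
open Crest.Agent.R138.Bn759 (th2)
open Crest.Agent.R138.W188 (tr)

theorem norm_tr (h : E2 → ℝ) (z : E2 × ℝ) (g : E2 → ℂ) (ξ : E2) : ‖tr h z g ξ‖ = ‖g ξ‖ := by
  unfold tr
  rw [norm_mul, Wf448.norm_ee, mul_one]

theorem ext_tr (h : E2 → ℝ) (z : E2 × ℝ) (g : E2 → ℂ) (p : E2 × ℝ) :
    ext h (tr h z g) p.1 p.2 = ext h g (p + z).1 (p + z).2 := by
  unfold ext tr
  refine integral_congr_ae (Filter.Eventually.of_forall fun ξ => ?_)
  simp only []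
  rw [mul_assoc, ← Wf448.ee_add]
  congr 2
  rw [Prod.fst_add, Prod.snd_add, inner_add_left]
  ring

theorem measurable_tr {h : E2 → ℝ} (hh : Continuous h) (z : E2 × ℝ) {g : E2 → ℂ}
    (hg : Measurable g) : Measurable (tr h z g) := by
  unfold tr
  refine hg.mul (Continuous.measurable ?_)
  exact Wf448.contDiff_ee.continuous.comp
    ((continuous_const.inner continuous_id).add (continuous_const.mul hh))

theorem norm_le_coord (b : OrthonormalBasis (Fin 2) ℝ E2) (v : E2) {x y : ℝ}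
    (h0 : |inner ℝ v (b 0)| ≤ x) (h1 : |inner ℝ v (b 1)| ≤ y) : ‖v‖ ≤ x + y := by
  have hx : 0 ≤ x := (abs_nonneg _).trans h0
  have hy : 0 ≤ y := (abs_nonneg _).trans h1
  have h2 : ‖v‖ ^ 2 ≤ (x + y) ^ 2 := by
    rw [norm_sq_eq b v, ← sq_abs (inner ℝ v (b 0)), ← sq_abs (inner ℝ v (b 1))]
    have a0 := pow_le_pow_left₀ (abs_nonneg _) h0 2
    have a1 := pow_le_pow_left₀ (abs_nonneg _) h1 2
    nlinarith [mul_nonneg hx hy]
  exact le_of_sq_le_sq h2 (by positivity)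

/-- one cap: cells in position, lattice in direction. -/
theorem one_cap (n : ℕ) {h : E2 → ℝ} {K : ℝ} (hK : 0 < K)
    (b : OrthonormalBasis (Fin 2) ℝ E2) {s' : Fin 2 → ℝ} (hs' : ∀ i, 0 < s' i)
    {r : ℝ} (hr : 0 < r) (c x : E2) {N : ℕ} {u : E2 → ℂ}
    (hui : ∀ a, Integrable fun ξ => u ξ * chi h (c + jv b s' a) b s' (bmK K) ξ)
    (hdir : ∀ ξ, u ξ ≠ 0 → ∀ i, 2 * |inner ℝ (gradient h ξ - c) (b i)| ≤ N * s' i)
    {S : Set E2} (hS : MeasurableSet S) (J : Finset (ℤ × ℤ))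
    (hJ : ∀ y ∈ S, ∃ j ∈ J, ∀ i, |inner ℝ (y - (x + jv b (fun i => s' i * r) j)) (b i)| ≤ s' i * r) :
    ∫⁻ y in S, ‖𝓕⁻ u y‖ₑ ^ 2 ≤ ENNReal.ofReal (3 ^ n * K ^ 2) * (((Bn759.sq N).card : ℝ≥0∞) *
      ∑ j ∈ J, ∑ a ∈ Bn759.sq N, wE n (fr b fun i => s' i * r) (x + jv b (fun i => s' i * r) j)
        (fun ξ => u ξ * chi h (c + jv b s' a) b s' (bmK K) ξ)) := by
  set A := fr b fun i => s' i * r with hA
  have hσ : ∀ i, 0 < s' i * r := fun i => mul_pos (hs' i) hr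
  set v : ℤ × ℤ → E2 → ℂ := fun a ξ => u ξ * chi h (c + jv b s' a) b s' (bmK K) ξ with hv
  -- the partition
  have hpart : u = fun ξ => ∑ a ∈ Bn759.sq N, (K : ℂ) * v a ξ := by
    funext ξ
    by_cases hξ : u ξ = 0
    · simp [hv, hξ]
    · have h1 := sum_chi h c b hs' hK (hdir ξ hξ)
      calc u ξ = u ξ * 1 := (mul_one _).symm
        _ = _ := by
          rw [← h1, Finset.mul_sum]
          refine Finset.sum_congr rfl fun a _ => ?_
          rw [hv]; ring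
  have hCS : ∀ y, ‖𝓕⁻ u y‖ₑ ^ 2 ≤ ENNReal.ofReal (K ^ 2) * (((Bn759.sq N).card : ℝ≥0∞) *
      ∑ a ∈ Bn759.sq N, ‖𝓕⁻ (v a) y‖ₑ ^ 2) := by
    intro y
    have h1 := enorm_fourierInv_sum_sq (Bn759.sq N) (fun a ξ => (K : ℂ) * v a ξ)
      (fun a _ => (hui a).const_mul _) y
    rw [← hpart] at h1
    refine h1.trans (le_of_eq ?_)
    have h2 : ∀ a, 𝓕⁻ (fun ξ => (K : ℂ) * v a ξ) y = (K : ℂ) * 𝓕⁻ (v a) y := by
      intro a
      rw [Real.fourierInv_eq, Real.fourierInv_eq, ← integral_const_mul]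
      refine integral_congr_ae (Filter.Eventually.of_forall fun ξ => ?_)
      simp only [Circle.smul_def, smul_eq_mul]
      ring
    have h3 : ∀ a, ‖𝓕⁻ (fun ξ => (K : ℂ) * v a ξ) y‖ₑ ^ 2 =
        ENNReal.ofReal (K ^ 2) * ‖𝓕⁻ (v a) y‖ₑ ^ 2 := by
      intro a
      rw [h2, enorm_mul, mul_pow]
      congr 1
      rw [← ofReal_norm, Complex.norm_real, Real.norm_of_nonneg hK.le,
        ENNReal.ofReal_pow hK.le]
    simp only [h3]
    rw [← Finset.mul_sum]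
    ring
  have hmeas : ∀ a, Measurable fun y => ‖𝓕⁻ (v a) y‖ₑ ^ 2 := fun a =>
    ((fourierInv_continuous (hui a)).enorm.measurable).pow_const 2
  have hdwm : ∀ j : ℤ × ℤ, Measurable fun y : E2 =>
      ENNReal.ofReal (dw n A (y - (x + jv b (fun i => s' i * r) j))) := fun j =>
    ((continuous_dw n A).comp (continuous_id.sub continuous_const)).measurable.ennreal_ofReal
  have hterm : ∀ (j a : ℤ × ℤ), Measurable fun y : E2 =>
      ENNReal.ofReal (dw n A (y - (x + jv b (fun i => s' i * r) j))) * ‖𝓕⁻ (v a) y‖ₑ ^ 2 :=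
    fun j a => (hdwm j).mul (hmeas a)
  have hwE : ∀ (j a : ℤ × ℤ), wE n A (x + jv b (fun i => s' i * r) j) (v a) =
      ∫⁻ y, ENNReal.ofReal (dw n A (y - (x + jv b (fun i => s' i * r) j))) *
        ‖𝓕⁻ (v a) y‖ₑ ^ 2 := by
    intro j a
    unfold wE LI
    refine lintegral_congr fun y => ?_
    rw [ENNReal.ofReal_mul (dw_pos n A _).le, ENNReal.ofReal_pow (norm_nonneg _), ofReal_norm]
  calc ∫⁻ y in S, ‖𝓕⁻ u y‖ₑ ^ 2
      ≤ ∫⁻ y in S, ENNReal.ofReal (3 ^ n * K ^ 2) * (((Bn759.sq N).card : ℝ≥0∞) * ∑ j ∈ J, ∑ a ∈ Bn759.sq N,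
          ENNReal.ofReal (dw n A (y - (x + jv b (fun i => s' i * r) j))) *
            ‖𝓕⁻ (v a) y‖ₑ ^ 2) := by
        refine setLIntegral_mono' hS fun y hy => ?_
        obtain ⟨j, hj, hj'⟩ := hJ y hy
        have h1 := dw_ge n b hσ hj'
        have h2 : (1 : ℝ≥0∞) ≤ ENNReal.ofReal (3 ^ n) *
            ENNReal.ofReal (dw n A (y - (x + jv b (fun i => s' i * r) j))) := by
          rw [← ENNReal.ofReal_mul (by positivity), ← ENNReal.ofReal_one]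
          refine ENNReal.ofReal_le_ofReal ?_
          calc (1:ℝ) = 3 ^ n * (3 ^ n)⁻¹ := by
                rw [mul_inv_cancel₀ (by positivity)]
            _ ≤ _ := by gcongr
        calc ‖𝓕⁻ u y‖ₑ ^ 2 ≤ 1 * (ENNReal.ofReal (K ^ 2) * (((Bn759.sq N).card : ℝ≥0∞) *
              ∑ a ∈ Bn759.sq N, ‖𝓕⁻ (v a) y‖ₑ ^ 2)) := by rw [one_mul]; exact hCS y
          _ ≤ (ENNReal.ofReal (3 ^ n) *
            ENNReal.ofReal (dw n A (y - (x + jv b (fun i => s' i * r) j)))) *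
              (ENNReal.ofReal (K ^ 2) * (((Bn759.sq N).card : ℝ≥0∞) *
              ∑ a ∈ Bn759.sq N, ‖𝓕⁻ (v a) y‖ₑ ^ 2)) := by gcongr
          _ = ENNReal.ofReal (3 ^ n * K ^ 2) * (((Bn759.sq N).card : ℝ≥0∞) * ∑ a ∈ Bn759.sq N,
              ENNReal.ofReal (dw n A (y - (x + jv b (fun i => s' i * r) j))) *
            ‖𝓕⁻ (v a) y‖ₑ ^ 2) := by
              rw [ENNReal.ofReal_mul (by positivity), ← Finset.mul_sum]
              ring
          _ ≤ _ := by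
              gcongr
              exact Finset.single_le_sum (f := fun j => ∑ a ∈ Bn759.sq N,
                ENNReal.ofReal (dw n A (y - (x + jv b (fun i => s' i * r) j))) *
                  ‖𝓕⁻ (v a) y‖ₑ ^ 2) (fun _ _ => zero_le) hj
    _ ≤ ∫⁻ y, ENNReal.ofReal (3 ^ n * K ^ 2) * (((Bn759.sq N).card : ℝ≥0∞) * ∑ j ∈ J, ∑ a ∈ Bn759.sq N,
          ENNReal.ofReal (dw n A (y - (x + jv b (fun i => s' i * r) j))) *
            ‖𝓕⁻ (v a) y‖ₑ ^ 2) := setLIntegral_le_lintegral _ _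
    _ = _ := by
        rw [lintegral_const_mul' _ _ ENNReal.ofReal_ne_top,
          lintegral_const_mul' _ _ (ENNReal.natCast_ne_top _), lintegral_finsetSum]
        · congr 3
          funext j
          rw [lintegral_finsetSum _ fun a _ => hterm j a]
          exact Finset.sum_congr rfl fun a _ => (hwE j a).symm
        · intro j _
          exact Finset.measurable_fun_sum _ fun a _ => hterm j a

theorem norm_bmK_le {Na : ℕ} {ψ : E2 → ℂ} (hψ : Adm Na ψ) (y : E2) : ‖ψ y‖ ≤ 1 := by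
  have := hψ.2.2 0 (Nat.zero_le _) y
  rwa [norm_iteratedFDeriv_zero] at this

/-- **abstract form of LOW**. -/
theorem core (n : ℕ) (M Kc L : ℝ) (hKc : 0 < Kc) (hL : 0 < L) (Na : ℕ) :
    ∃ K C : ℝ, 0 < K ∧ Adm Na (bmK K) ∧ 0 ≤ C ∧ ∀ h : E2 → ℝ, ContDiff ℝ ∞ h →
    (∀ i, 2 ≤ i → i ≤ max n 2 → ∀ ξ, ‖iteratedFDeriv ℝ i h ξ‖ ≤ M) →
    ∀ r R : ℝ, 1 ≤ r → r ≤ R → ∀ (ι : Type) [Fintype ι] (a : ι → E2 → ℂ), Cap n Kc L r a →
    ∀ (b : OrthonormalBasis (Fin 2) ℝ E2) (s' : Fin 2 → ℝ), (∀ i, r ^ (-(1/2) : ℝ) ≤ s' i) →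
    ∀ (c x : E2) (g : E2 → ℂ), Measurable g → (∃ M' : ℝ, ∀ ξ, ‖g ξ‖ ≤ M') →
    (∃ σ : ℝ, ∀ ξ, σ < ‖ξ‖ → g ξ = 0) →
    ∀ (z : E2 × ℝ) (T : ℝ) (N0 N : ℕ) (E : ℝ≥0∞), 1 ≤ T → T ≤ N0 →
    ∀ S : ι → Set E2, (∀ m, MeasurableSet (S m)) →
    (∀ m, (S m).Nonempty → ∀ ξ, a m ξ ≠ 0 →
      ∀ i, 2 * |inner ℝ (gradient h ξ - c) (b i)| ≤ N * s' i) →
    (∀ m, ∀ y ∈ S m, ∀ i, |inner ℝ (y - x) (b i)| ≤ N * (s' i * r)) →
    (∀ m, ∀ y ∈ S m, ‖y + z.1‖ + (N0 + 1) * (s' 0 * r + s' 1 * r) ≤ 4 * R) →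
    (∀ (c' x0 : E2), ‖x0‖ ≤ 4 * R → ∫⁻ p in plank c' b s' R x0 z.2,
      ‖ext h (fun ξ => g ξ * chi h c' b s' (bmK K) ξ) p.1 p.2‖ₑ ^ 2 ≤ E) →
    ENNReal.ofReal (2 * r) * ∑ m, ∫⁻ y in S m, ‖𝓕⁻ (fun ξ => a m ξ * tr h z g ξ) y‖ₑ ^ 2 ≤
      ENNReal.ofReal C * (((Bn759.sq N).card : ℝ≥0∞) ^ 3 * (ENNReal.ofReal ((T ^ (2 * n))⁻¹) *
        (ENNReal.ofReal (2 * r) * LI (fun ξ => ‖g ξ‖ ^ 2)) + ((Bn759.sq N0).card : ℝ≥0∞) * E)) := by
  obtain ⟨K, hK, hadm⟩ := adm_bmK Na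
  obtain ⟨C, hC, hpl⟩ := plank_le n M Kc L hKc hL
  refine ⟨K, 3 ^ n * K ^ 2 * C, hK, hadm, by positivity, ?_⟩
  intro h hh hM r R hr hrR ι _ a hcap b s' hs' c x g hg ⟨Mg, hMg⟩ ⟨σ, hσ⟩ z T N0 N E hT hTN S hS
    hdir hpos hloc hbox
  have hr0 : 0 < r := by linarith
  have hs0 : ∀ i, 0 < s' i := fun i => (Real.rpow_pos_of_pos hr0 _).trans_le (hs' i)
  have hsr : ∀ i, 0 < s' i * r := fun i => mul_pos (hs0 i) hr0
  -- integrability
  set Bl : Set E2 := Metric.closedBall 0 σ with hBl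
  have hBlf : volume Bl < ⊤ := measure_closedBall_lt_top
  have hBlm : MeasurableSet Bl := Metric.isClosed_closedBall.measurableSet
  have hout : ∀ ξ, ξ ∉ Bl → g ξ = 0 := by
    intro ξ hξ
    refine hσ ξ ?_
    rw [hBl, mem_closedBall_zero_iff, not_le] at hξ
    exact hξ
  have hchim : ∀ c', Measurable (chi h c' b s' (bmK K)) := fun c' =>
    (measurable_chi hh c' b s' hadm.1.continuous).measurable
  have hchi1 : ∀ c' ξ, ‖chi h c' b s' (bmK K) ξ‖ ≤ 1 := fun c' ξ => norm_bmK_le hadm _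
  set G0 : E2 → E2 → ℂ := fun c' ξ => g ξ * chi h c' b s' (bmK K) ξ with hG0
  set G : E2 → E2 → ℂ := fun c' ξ => tr h z g ξ * chi h c' b s' (bmK K) ξ with hG
  have hGtr : ∀ c', G c' = tr h z (G0 c') := by
    intro c'; funext ξ; simp only [hG, hG0, tr]; ring
  have hGm : ∀ c', Measurable (G c') := fun c' => (measurable_tr hh.continuous z hg).mul (hchim c')
  have hG0m : ∀ c', Measurable (G0 c') := fun c' => hg.mul (hchim c')
  have hGle : ∀ c' ξ, ‖G c' ξ‖ ≤ ‖g ξ‖ := by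
    intro c' ξ
    rw [hG, norm_mul, norm_tr]
    exact mul_le_of_le_one_right (norm_nonneg _) (hchi1 c' ξ)
  have hGb : ∀ c' ξ, ‖G c' ξ‖ ≤ Mg := fun c' ξ => (hGle c' ξ).trans (hMg ξ)
  have hGout : ∀ c' ξ, ξ ∉ Bl → G c' ξ = 0 := by
    intro c' ξ hξ
    have := hGle c' ξ
    rw [hout ξ hξ, norm_zero] at this
    exact norm_le_zero_iff.1 this
  have hGi : ∀ c', Integrable (G c') := fun c' =>
    memLp_one_iff_integrable.1 (memLp_of_bdd (hGm c') (hGb c') hBlf hBlm (hGout c') 1)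
  have hG2 : ∀ c', MemLp (G c') 2 := fun c' =>
    memLp_of_bdd (hGm c') (hGb c') hBlf hBlm (hGout c') 2
  have hGs : ∀ c' ξ, G c' ξ ≠ 0 → ∀ i, |inner ℝ (gradient h ξ - c') (b i)| ≤ 2 * s' i := by
    intro c' ξ hξ i
    exact chi_support h c' b hs0 hadm (right_ne_zero_of_mul hξ) i
  have hGbd : ∀ c', Bornology.IsBounded {ξ | G c' ξ ≠ 0} := by
    intro c'
    refine Metric.isBounded_closedBall.subset (t := Bl) ?_
    intro ξ hξ
    by_contra h3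
    exact hξ (hGout c' ξ h3)
  set J : Finset (ℤ × ℤ) := (Bn759.sq N).filter fun j =>
    ‖x + jv b (fun i => s' i * r) j + z.1‖ + N0 * (s' 0 * r + s' 1 * r) ≤ 4 * R with hJ
  set u : ι → E2 → ℂ := fun m ξ => a m ξ * tr h z g ξ with hu
  have hui : ∀ m c', Integrable fun ξ => u m ξ * chi h c' b s' (bmK K) ξ := by
    intro m c'
    have h1 := Sup882.packet_integrable (Mx := ι) (hcap.smooth m) (hcap.cpt m) (hGi c')
    refine h1.congr (Filter.Eventually.of_forall fun ξ => ?_)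
    simp only [hG, hu]; ring
  -- one cap
  have h1 : ∀ m, ∫⁻ y in S m, ‖𝓕⁻ (u m) y‖ₑ ^ 2 ≤ ENNReal.ofReal (3 ^ n * K ^ 2) *
      (((Bn759.sq N).card : ℝ≥0∞) * ∑ j ∈ J, ∑ a' ∈ Bn759.sq N,
        wE n (fr b fun i => s' i * r) (x + jv b (fun i => s' i * r) j)
          (fun ξ => a m ξ * G (c + jv b s' a') ξ)) := by
    intro m
    rcases (S m).eq_empty_or_nonempty with he | hne
    · rw [he]; simp
    · have e : ∀ c', (fun ξ => a m ξ * G c' ξ) = fun ξ => u m ξ * chi h c' b s' (bmK K) ξ := by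
        intro c'; funext ξ; simp only [hG, hu]; ring
      simp only [e]
      refine one_cap n hK b hs0 hr0 c x (hui m <| c + jv b s' ·) ?_ (hS m) J ?_
      · intro ξ hξ i
        exact hdir m hne ξ (left_ne_zero_of_mul hξ) i
      · intro y hy
        obtain ⟨j, hj, hj'⟩ := exists_cell b hsr (N := N) (v := y - x) (hpos m y hy)
        refine ⟨j, ?_, fun i => ?_⟩
        · rw [hJ, Finset.mem_filter]
          refine ⟨hj, ?_⟩
          have h2 := norm_le_coord b (y - x - jv b (fun i => s' i * r) j) (hj' 0) (hj' 1)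
          have h3 : x + jv b (fun i => s' i * r) j + z.1 =
              (y + z.1) - (y - x - jv b (fun i => s' i * r) j) := by abel
          have h4 := hloc m y hy
          rw [h3]
          have h5 := norm_sub_le (y + z.1) (y - x - jv b (fun i => s' i * r) j)
          nlinarith
        · rw [← sub_sub]; exact hj' i
  -- planks
  have h2 : ∀ j ∈ J, ∀ a' : ℤ × ℤ, ENNReal.ofReal (2 * r) *
      ∑ m, wE n (fr b fun i => s' i * r) (x + jv b (fun i => s' i * r) j)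
        (fun ξ => a m ξ * G (c + jv b s' a') ξ) ≤ ENNReal.ofReal C *
          (ENNReal.ofReal ((T ^ (2 * n))⁻¹) * (ENNReal.ofReal (2 * r) * LI (fun ξ => ‖g ξ‖ ^ 2)) +
            ((Bn759.sq N0).card : ℝ≥0∞) * E) := by
    intro j hj a'
    rw [hJ, Finset.mem_filter] at hj
    set c' := c + jv b s' a' with hc'
    refine (hpl h hh hM r hr ι a hcap b s' hs' c' (G c') (hGi c') (hG2 c') (hGbd c') (hGs c')
      (x + jv b (fun i => s' i * r) j) T N0 hT hTN).trans ?_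
    gcongr ENNReal.ofReal C * (_ * (_ * ?_) + ?_)
    · refine LI_mono fun ξ => ?_
      exact pow_le_pow_left₀ (norm_nonneg _) (hGle c' ξ) 2
    · rw [← nsmul_eq_mul]
      refine Finset.sum_le_card_nsmul _ _ _ fun k hk => ?_
      have e1 : ∀ p : E2 × ℝ, ‖ext h (G c') p.1 p.2‖ₑ ^ 2 =
          (fun p : E2 × ℝ => ‖ext h (G0 c') p.1 p.2‖ₑ ^ 2) (p + z) := by
        intro p
        rw [hGtr c', ext_tr]
      simp only [e1]
      rw [lintegral_plank_add (fun p : E2 × ℝ => ‖ext h (G0 c') p.1 p.2‖ₑ ^ 2)]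
      refine (lintegral_mono_set (plank_mono _ _ (fun i => (hs0 i).le) hrR _ _)).trans ?_
      refine hbox c' _ ?_
      have hk' := mem_sq.1 hk
      have h3 := norm_jv_le b (σ := fun i => s' i * r) (fun i => (hsr i).le) hk'.1 hk'.2
      have h4 : x + jv b (fun i => s' i * r) j + jv b (fun i => s' i * r) k + z.1 =
          (x + jv b (fun i => s' i * r) j + z.1) + jv b (fun i => s' i * r) k := by abel
      rw [h4]
      exact (norm_add_le _ _).trans (by linarith [hj.2])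
  have hJc : (J.card : ℝ≥0∞) ≤ ((Bn759.sq N).card : ℝ≥0∞) := by
    exact_mod_cast Finset.card_filter_le _ _
  set X : ℝ≥0∞ := ENNReal.ofReal C *
          (ENNReal.ofReal ((T ^ (2 * n))⁻¹) * (ENNReal.ofReal (2 * r) * LI (fun ξ => ‖g ξ‖ ^ 2)) +
            ((Bn759.sq N0).card : ℝ≥0∞) * E) with hX
  calc ENNReal.ofReal (2 * r) * ∑ m, ∫⁻ y in S m, ‖𝓕⁻ (u m) y‖ₑ ^ 2
      ≤ ENNReal.ofReal (2 * r) * ∑ m, ENNReal.ofReal (3 ^ n * K ^ 2) *
      (((Bn759.sq N).card : ℝ≥0∞) * ∑ j ∈ J, ∑ a' ∈ Bn759.sq N,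
        wE n (fr b fun i => s' i * r) (x + jv b (fun i => s' i * r) j)
          (fun ξ => a m ξ * G (c + jv b s' a') ξ)) := by
        gcongr with m
        exact h1 m
    _ = ENNReal.ofReal (3 ^ n * K ^ 2) * (((Bn759.sq N).card : ℝ≥0∞) *
        ∑ j ∈ J, ∑ a' ∈ Bn759.sq N, ENNReal.ofReal (2 * r) *
          ∑ m, wE n (fr b fun i => s' i * r) (x + jv b (fun i => s' i * r) j)
            (fun ξ => a m ξ * G (c + jv b s' a') ξ)) := by
        rw [← Finset.mul_sum, ← Finset.mul_sum, Finset.sum_comm]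
        simp only [← Finset.mul_sum]
        have e : ∀ j ∈ J, ∑ m, ∑ a' ∈ Bn759.sq N,
            wE n (fr b fun i => s' i * r) (x + jv b (fun i => s' i * r) j)
              (fun ξ => a m ξ * G (c + jv b s' a') ξ) = ∑ a' ∈ Bn759.sq N, ∑ m,
            wE n (fr b fun i => s' i * r) (x + jv b (fun i => s' i * r) j)
              (fun ξ => a m ξ * G (c + jv b s' a') ξ) := fun j _ => Finset.sum_comm
        rw [Finset.sum_congr rfl e]
        ring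
    _ ≤ ENNReal.ofReal (3 ^ n * K ^ 2) * (((Bn759.sq N).card : ℝ≥0∞) *
        ∑ j ∈ J, ∑ a' ∈ Bn759.sq N, X) := by
        gcongr with j hj a' ha'
        exact h2 j hj a'
    _ = ENNReal.ofReal (3 ^ n * K ^ 2) * (((Bn759.sq N).card : ℝ≥0∞) *
        ((J.card : ℝ≥0∞) * (((Bn759.sq N).card : ℝ≥0∞) * X))) := by
        rw [Finset.sum_const, Finset.sum_const, nsmul_eq_mul, nsmul_eq_mul]
    _ ≤ ENNReal.ofReal (3 ^ n * K ^ 2) * (((Bn759.sq N).card : ℝ≥0∞) *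
        (((Bn759.sq N).card : ℝ≥0∞) * (((Bn759.sq N).card : ℝ≥0∞) * X))) := by gcongr
    _ = _ := by
        rw [hX, ENNReal.ofReal_mul (p := 3 ^ n * K ^ 2) (by positivity)]
        ring

end Crest.Agent.R138.Low448
end

-- ▼ part R138/Low4_448

/-!
# R138 / R139: leaf LOW of doc 1812 (helper448), part 4: LOW over the packets of helper685
-/

set_option autoImplicit false

open MeasureTheory FourierTransform
open scoped ContDiff ENNReal

namespace Crest.Agent.R138.Low448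

open Crest.Agent.R138.Defs Crest.Agent.R138.Wf448
open Crest.Agent.R138.W188 (tr PBox En)
open Crest.Agent.R138.Wpk685 (win cap cen caps um en pbox SV WE)

/-- 685's caps at scale `r` form a `Cap` family. -/
theorem exists_cap (n : ℕ) : ∃ Kc : ℝ, 0 < Kc ∧ ∀ r : ℝ, 1 ≤ r →
    Cap n Kc 36 r (fun m : {m // m ∈ caps (r ^ (-(1/2) : ℝ))} =>
      cap win (cen (r ^ (-(1/2) : ℝ)) m.1) (r ^ (-(1/2) : ℝ))) := by
  obtain ⟨Aw, hAw, hwin⟩ := Wpk685.exists_win Wpk685.win_contDiff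
    (fun ζ hζ => Wpk685.win_zero' (by linarith)) n
  refine ⟨Aw + 1, by positivity, ?_⟩
  intro r hr
  have hr0 : 0 < r := by linarith
  set ρ := r ^ (-(1/2) : ℝ) with hρdef
  have hρ : 0 < ρ := Real.rpow_pos_of_pos hr0 _
  have hz : ∀ ζ : E2, 71 / 50 < ‖ζ‖ → win ζ = 0 := fun ζ hζ => Wpk685.win_zero' hζ
  refine ⟨fun m => Wpk685.contDiff_cap Wpk685.win_contDiff _ _, fun m => Wpk685.hcs_cap hz _ hρ,
    fun m j hj ξ => ?_, fun ξ => ?_⟩
  · refine (Wpk685.norm_iteratedFDeriv_cap_le Wpk685.win_contDiff (cen ρ m.1) hρ j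
      (hwin.bd j hj) ξ).trans ?_
    have : 0 ≤ ρ⁻¹ ^ j := by positivity
    nlinarith
  · have h1 : Set.ncard {m : ℤ × ℤ | m ∈ caps ρ ∧ ξ ∈ tsupport (cap win (cen ρ m) ρ)} ≤ 36 := by
      refine Wpk685.card_near hρ ξ _ fun m hm => ?_
      have h2 : tsupport (cap win (cen ρ m) ρ) ⊆ Metric.closedBall (cen ρ m) (71 / 50 * ρ) := by
        refine closure_minimal (fun ζ hζ => ?_) Metric.isClosed_closedBall
        rw [mem_closedBall_iff_norm]
        by_contra h3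
        exact hζ (Wpk685.cap_supp hz (cen ρ m) hρ ζ (not_le.1 h3))
      have h3 := h2 hm.2
      rw [mem_closedBall_iff_norm] at h3
      linarith
    have h4 : Set.ncard {m : {m // m ∈ caps ρ} | ξ ∈ tsupport (cap win (cen ρ m.1) ρ)} ≤
        Set.ncard {m : ℤ × ℤ | m ∈ caps ρ ∧ ξ ∈ tsupport (cap win (cen ρ m) ρ)} := by
      rw [← Set.ncard_image_of_injective _ Subtype.val_injective]
      refine Set.ncard_le_ncard ?_ ?_
      · rintro m ⟨m', hm', rfl⟩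
        exact ⟨m'.2, hm'⟩
      · exact (caps ρ).finite_toSet.subset fun m hm => hm.1
    exact_mod_cast h4.trans h1

theorem cap_near {B : ℕ → ℝ} {h : E2 → ℝ} (hh : ParB B h) {ρ : ℝ} (hρ : 0 < ρ) (m : ℤ × ℤ) {ξ : E2}
    (hξ : cap win (cen ρ m) ρ ξ ≠ 0) :
    ‖gradient h ξ - gradient h (cen ρ m)‖ ≤ 2 * (1 + |B 2|) * ρ := by
  have h1 : ‖ξ - cen ρ m‖ ≤ 71 / 50 * ρ := by
    by_contra h3
    exact hξ (Wpk685.cap_supp (fun ζ hζ => Wpk685.win_zero' hζ) (cen ρ m) hρ ξ (not_le.1 h3))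
  have h2 := gradient_lip hh.1 (M := 1 + |B 2|) (fun ζ =>
    (ParB.bound hh 2 le_rfl ζ).trans (by linarith [le_abs_self (B 2)])) ξ (cen ρ m)
  have h3 : 0 ≤ 1 + |B 2| := by positivity
  calc _ ≤ _ := h2
    _ ≤ (1 + |B 2|) * (71 / 50 * ρ) := by gcongr
    _ ≤ _ := by nlinarith

/-- `∫|g|²`, two forms. -/
theorem LI_eq_En {g : E2 → ℂ} (hg : MemLp g 2) : LI (fun ξ => ‖g ξ‖ ^ 2) = ENNReal.ofReal (En g) := by
  unfold LI En
  rw [ofReal_integral_eq_lintegral_ofReal]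
  · exact hg.integrable_norm_pow (by norm_num)
  · exact Filter.Eventually.of_forall fun ξ => by positivity

/-- Bessel for the packets. -/
theorem bessel (B : ℕ → ℝ) : ∃ C : ℝ, 0 ≤ C ∧ ∀ h, ParB B h → ∀ ρ : ℝ, 0 < ρ → ρ ≤ 1 →
    ∀ (s : Finset (ℤ × ℤ)) (g : E2 → ℂ), Integrable g → MemLp g 2 →
    ∑ m ∈ s, ∫⁻ y, ‖um ρ g m y‖ₑ ^ 2 ≤ ENNReal.ofReal C * LI (fun ξ => ‖g ξ‖ ^ 2) := by
  obtain ⟨C, hC, h1⟩ := Wpk685.thmB B 0 1 le_rfl
  refine ⟨C, hC, ?_⟩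
  intro h hh ρ hρ hρ1 s g hg hg2
  have hSV : SV ρ 1 0 (fun _ : E2 => (1:ℝ)) := ⟨measurable_const, fun _ => one_pos, fun x y => by simp⟩
  have h2 := h1 h hh ρ 1 _ hρ hρ1 hSV s g hg hg2 0 (by simp)
  simp only [ENNReal.ofReal_one, one_mul, one_pow, mul_one] at h2
  refine h2.trans (le_of_eq ?_)
  rw [Wpk685.sl_zero]
  congr 1
  unfold WE
  simp only [ENNReal.ofReal_one, one_mul]
  rw [← planchL hg hg2, LI_sq_eq]

theorem card_sq_ennreal (N : ℕ) : ((Bn759.sq N).card : ℝ≥0∞) = ENNReal.ofReal ((2 * N + 1) ^ 2) := by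
  rw [← card_sq, ENNReal.ofReal_natCast]

/-- lower bound for the reference quantity. -/
theorem Q_ge {q : ℝ} (hq : 0 ≤ q) {r R D : ℝ} (hr : 1 ≤ r) (hrR : r ≤ R) (hD : 0 ≤ D)
    {s : Fin 2 → ℝ} (hs : ∀ i, r ^ (-(1/2) : ℝ) ≤ s i) :
    D * R ^ (2 - q / 2) ≤ D * (max (s 0) (s 1)) ^ q * (s 0 * s 1 * R ^ 3) := by
  have hr0 : 0 < r := by linarith
  have hR0 : 0 < R := by linarith
  have h0 : ∀ i, R ^ (-(1/2) : ℝ) ≤ s i := fun i =>
    (Real.rpow_le_rpow_of_nonpos hr0 hrR (by norm_num)).trans (hs i)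
  have hp : 0 < R ^ (-(1/2) : ℝ) := Real.rpow_pos_of_pos hR0 _
  have h1 : (R ^ (-(1/2) : ℝ)) ^ q ≤ (max (s 0) (s 1)) ^ q :=
    Real.rpow_le_rpow hp.le ((h0 0).trans (le_max_left _ _)) hq
  have h2 : R ^ (2 - q / 2) = (R ^ (-(1/2) : ℝ)) ^ q * (R ^ (-(1/2) : ℝ) * R ^ (-(1/2) : ℝ) * R ^ 3) := by
    rw [← Real.rpow_mul hR0.le, ← Real.rpow_natCast R 3, ← Real.rpow_add hR0, ← Real.rpow_add hR0,
      ← Real.rpow_add hR0]
    congr 1
    push_cast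
    ring
  have h3 := h0 0
  have h4 := h0 1
  calc D * R ^ (2 - q / 2) = D * (R ^ (-(1/2) : ℝ)) ^ q *
        (R ^ (-(1/2) : ℝ) * R ^ (-(1/2) : ℝ) * R ^ 3) := by rw [h2]; ring
    _ ≤ D * (max (s 0) (s 1)) ^ q * (s 0 * s 1 * R ^ 3) := by
        have h5 : 0 ≤ s 0 := hp.le.trans h3
        have h6 : 0 ≤ max (s 0) (s 1) := h5.trans (le_max_left _ _)
        gcongr

theorem en_eq (ρ : ℝ) (g : E2 → ℂ) (S : ℤ × ℤ → Set E2) :
    en ρ g S = ∑ m : {m // m ∈ caps ρ}, ∫⁻ y in S m.1,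
      ‖𝓕⁻ (fun ξ => cap win (cen ρ m.1) ρ ξ * g ξ) y‖ₑ ^ 2 := by
  unfold en um
  exact (Finset.sum_coe_sort (caps ρ) fun m => ∫⁻ y in S m,
      ‖𝓕⁻ (fun ξ => cap win (cen ρ m) ρ ξ * g ξ) y‖ₑ ^ 2).symm

theorem En_nonneg (g : E2 → ℂ) : 0 ≤ En g := integral_nonneg fun ξ => by positivity

/-- total packet energy. -/
theorem en_le (B : ℕ → ℝ) : ∃ C : ℝ, 0 ≤ C ∧ ∀ h, ParB B h → ∀ r : ℝ, 1 ≤ r →
    ∀ g : E2 → ℂ, Measurable g → (∃ M' : ℝ, ∀ ξ, ‖g ξ‖ ≤ M') → (∃ σ : ℝ, ∀ ξ, σ < ‖ξ‖ → g ξ = 0) →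
    ∀ (z : E2 × ℝ) (S : ℤ × ℤ → Set E2),
    en (r ^ (-(1/2) : ℝ)) (tr h z g) S ≤ ENNReal.ofReal (C * En g) := by
  obtain ⟨C, hC, h1⟩ := bessel B
  refine ⟨C, hC, ?_⟩
  intro h hh r hr g hg ⟨Mg, hMg⟩ ⟨σ, hσ⟩ z S
  have hr0 : 0 < r := by linarith
  have hρ : 0 < r ^ (-(1/2) : ℝ) := Real.rpow_pos_of_pos hr0 _
  have hρ1 : r ^ (-(1/2) : ℝ) ≤ 1 := Real.rpow_le_one_of_one_le_of_nonpos hr (by norm_num)
  have hm := measurable_tr hh.1.continuous z hg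
  have h2 := Wpk685.int_of_bdd (g := tr h z g) hm (M := Mg) (R := σ)
    (fun ξ => by rw [norm_tr]; exact hMg ξ)
    (fun ξ hξ => by rw [← norm_eq_zero, norm_tr, hσ ξ hξ, norm_zero])
  have h3 := h1 h hh _ hρ hρ1 (caps (r ^ (-(1/2) : ℝ))) (tr h z g) h2.1 h2.2
  have h4 : LI (fun ξ => ‖tr h z g ξ‖ ^ 2) = ENNReal.ofReal (En g) := by
    simp only [norm_tr]
    exact LI_eq_En (Wpk685.int_of_bdd hg hMg hσ).2
  rw [h4, ← ENNReal.ofReal_mul hC] at h3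
  refine le_trans ?_ h3
  unfold en
  exact Finset.sum_le_sum fun m _ => setLIntegral_le_lintegral _ _

/-- the thinning factor. -/
theorem exists_kappa {ε' R r : ℝ} (hε' : 0 < ε') (hε4 : ε' ≤ 1 / 4) (hr : 1 ≤ r) (hrR : r ≤ R)
    (hR : (2:ℝ) ^ 20 ≤ R) : ∃ κ : ℝ, 0 < κ ∧ κ * r ≤ R ^ (1 - ε') / 32 ∧
      r ^ (-(1/2) : ℝ) ≤ κ ∧ 1 ≤ 32 * R ^ ε' * κ := by
  have hr0 : 0 < r := by linarith
  have hR1 : 1 ≤ R := hr.trans hrR
  have hR0 : 0 < R := by linarith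
  have hRp : 0 < R ^ (1 - ε') := Real.rpow_pos_of_pos hR0 _
  have hT1 : 1 ≤ R ^ ε' := Real.one_le_rpow hR1 hε'.le
  have hRε : R ^ (1 - ε') * R ^ ε' = R := by
    rw [← Real.rpow_add hR0, sub_add_cancel, Real.rpow_one]
  refine ⟨min 1 (R ^ (1 - ε') / (32 * r)), lt_min one_pos (by positivity), ?_, ?_, ?_⟩
  · calc min 1 (R ^ (1 - ε') / (32 * r)) * r ≤ R ^ (1 - ε') / (32 * r) * r := by
          gcongr; exact min_le_right _ _
      _ = _ := by field_simp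
  · have h32 : (32:ℝ) ≤ R ^ (1/4 : ℝ) := by
      calc (32:ℝ) = ((2:ℝ) ^ 20) ^ (1/4 : ℝ) := by
            rw [← Real.rpow_natCast, ← Real.rpow_mul (by norm_num)]
            norm_num
        _ ≤ _ := by gcongr
    refine le_min (Real.rpow_le_one_of_one_le_of_nonpos hr (by norm_num)) ?_
    rw [le_div_iff₀ (by positivity)]
    have h1 : r ^ (-(1/2) : ℝ) * r = r ^ (1/2 : ℝ) := by
      nth_rewrite 2 [← Real.rpow_one r]
      rw [← Real.rpow_add hr0]; norm_num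
    calc r ^ (-(1/2) : ℝ) * (32 * r) = 32 * (r ^ (-(1/2) : ℝ) * r) := by ring
      _ = 32 * r ^ (1/2 : ℝ) := by rw [h1]
      _ ≤ R ^ (1/4 : ℝ) * R ^ (1/2 : ℝ) := by gcongr
      _ = R ^ (3/4 : ℝ) := by rw [← Real.rpow_add hR0]; norm_num
      _ ≤ R ^ (1 - ε') := Real.rpow_le_rpow_of_exponent_le hR1 (by linarith)
  · rcases min_choice 1 (R ^ (1 - ε') / (32 * r)) with h1 | h1
    · rw [h1]; linarith
    · rw [h1]
      have : 32 * R ^ ε' * (R ^ (1 - ε') / (32 * r)) = (R ^ (1 - ε') * R ^ ε') / r := by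
        field_simp
      rw [this, hRε, one_le_div hr0]
      exact hrR

/-- the final arithmetic. -/
theorem final_arith {C1 a T Q X N N0 E' : ℝ} (hC1 : 0 ≤ C1) (hT : 1 ≤ T)
    (hQ : 0 ≤ Q) (hN : 0 ≤ N) (hN0 : 0 ≤ N0) (hE : 0 ≤ E') (hNa : 2 * N + 1 ≤ a * T)
    (hNb : 2 * N0 + 1 ≤ 5 * T) (hX0 : 0 ≤ X) (hX : X ≤ 2 * Q) (hEQ : E' ≤ Q) :
    C1 * (((2 * N + 1) ^ 2) ^ 3 * (X + (2 * N0 + 1) ^ 2 * E')) ≤ 27 * C1 * a ^ 6 * T ^ 8 * Q := by
  have h1 : 0 ≤ 2 * N + 1 := by linarith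
  have h2 : 0 ≤ 2 * N0 + 1 := by linarith
  have h3 : 0 ≤ a * T := h1.trans hNa
  have hT0 : 0 < T := by linarith
  calc C1 * (((2 * N + 1) ^ 2) ^ 3 * (X + (2 * N0 + 1) ^ 2 * E'))
      ≤ C1 * (((a * T) ^ 2) ^ 3 * (2 * Q + (5 * T) ^ 2 * Q)) := by gcongr
    _ = C1 * (a ^ 6 * Q) * (2 * T ^ 6 + 25 * T ^ 8) := by ring
    _ ≤ C1 * (a ^ 6 * Q) * (27 * T ^ 8) := by
        have h6 : T ^ 6 ≤ T ^ 8 := pow_le_pow_right₀ hT (by norm_num)
        have h7 : 0 ≤ C1 * (a ^ 6 * Q) := by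
          have : 0 ≤ a ^ 6 := by positivity
          positivity
        exact mul_le_mul_of_nonneg_left (by linarith) h7
    _ = _ := by ring

set_option maxHeartbeats 1000000 in
/-- **LOW**, the most general form: packets of scale `r` in the frame `z`, planks of length `R` at
the base time `z.2`. -/
theorem low_at (B : ℕ → ℝ) {q : ℝ} (hq : 0 ≤ q) {A : ℝ} (hA : 0 ≤ A) {ε : ℝ} (hε : 0 < ε) (Na : ℕ)
    (M0 : ℝ) : ∃ C : ℝ, 0 ≤ C ∧ ∀ (h : E2 → ℝ) (g : E2 → ℂ) (R D : ℝ), ParB B h → Measurable g →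
    (∃ M' : ℝ, ∀ ξ, ‖g ξ‖ ≤ M') → (∃ σ : ℝ, ∀ ξ, σ < ‖ξ‖ → g ξ = 0) → 0 ≤ D →
    En g ≤ R ^ M0 * D → ∀ r : ℝ, 1 ≤ r → r ≤ R → ∀ (z : E2 × ℝ) (c : E2)
    (b : OrthonormalBasis (Fin 2) ℝ E2) (s : Fin 2 → ℝ), (∀ i, r ^ (-(1/2) : ℝ) ≤ s i ∧ s i ≤ 1) →
    ∀ (x : E2) (S : ℤ × ℤ → Set E2), (∀ m, MeasurableSet (S m)) →
    (∀ m, S m ⊆ pbox h r c b (fun k => A * s k) x m) → (∀ m, ∀ y ∈ S m, ‖y + z.1‖ ≤ 3 * R) →
    (∀ (c' : E2) (s' : Fin 2 → ℝ), (∀ i, r ^ (-(1/2) : ℝ) ≤ s' i ∧ s' i ≤ s i) → ∀ ψ, Adm Na ψ →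
      ∀ x0 : E2, ‖x0‖ ≤ 4 * R → ∫⁻ p in plank c' b s' R x0 z.2,
        ‖ext h (fun ξ => g ξ * chi h c' b s' ψ ξ) p.1 p.2‖ₑ ^ 2 ≤
          ENNReal.ofReal (D * (max (s' 0) (s' 1)) ^ q * (s' 0 * s' 1 * R ^ 3))) →
    ENNReal.ofReal r * en (r ^ (-(1/2) : ℝ)) (tr h z g) S ≤
      ENNReal.ofReal (C * R ^ ε * (D * (max (s 0) (s 1)) ^ q * (s 0 * s 1 * R ^ 3))) := by
  set ε' : ℝ := min (ε / 8) (1 / 4) with hε'def
  have hε' : 0 < ε' := lt_min (by positivity) (by norm_num)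
  have hε'4 : ε' ≤ 1 / 4 := min_le_right _ _
  have hε'8 : 8 * ε' ≤ ε := by have := min_le_left (ε / 8) (1 / 4); rw [← hε'def] at this; linarith
  clear_value ε'
  obtain ⟨n, hn⟩ := exists_nat_ge ((|M0| + q) / (2 * ε'))
  have hn' : |M0| + q ≤ 2 * n * ε' := by
    rw [div_le_iff₀ (by positivity)] at hn
    linarith
  obtain ⟨Kc, hKc, hcap⟩ := exists_cap n
  obtain ⟨K, C1, hK, hadm, hC1, hcore⟩ := core n
    (1 + ∑ k ∈ Finset.range (max n 2 + 1), |B k|) Kc 36 hKc (by norm_num) Na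
  obtain ⟨C2, hC2, hen⟩ := en_le B
  obtain ⟨AA, hAA⟩ : ∃ AA : ℝ, AA = A + 2 * (1 + |B 2|) := ⟨_, rfl⟩
  have hAA0 : 0 ≤ AA := by rw [hAA]; positivity
  have hAle : A ≤ AA := by rw [hAA]; have := abs_nonneg (B 2); linarith
  obtain ⟨a, ha⟩ : ∃ a : ℝ, a = 128 * AA + 3 := ⟨_, rfl⟩
  refine ⟨27 * C1 * a ^ 6 + C2 * ((2:ℝ) ^ 20) ^ (|M0| + q), by rw [ha]; positivity, ?_⟩
  intro h g R D hh hg hb hsup hD hnd r hr hrR z c b s hs x S hSm hSb hloc hbox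
  have hr0 : 0 < r := by linarith
  have hR : 1 ≤ R := hr.trans hrR
  have hR0 : 0 < R := by linarith
  have hρ : 0 < r ^ (-(1/2) : ℝ) := Real.rpow_pos_of_pos hr0 _
  have hs0 : ∀ i, 0 < s i := fun i => hρ.trans_le (hs i).1
  have hmax : 0 ≤ max (s 0) (s 1) := (hs0 0).le.trans (le_max_left _ _)
  have hQ0 : 0 ≤ D * (max (s 0) (s 1)) ^ q * (s 0 * s 1 * R ^ 3) := by
    have := hs0 0; have := hs0 1; positivity
  have hQge : D * R ^ (2 - q / 2) ≤ D * (max (s 0) (s 1)) ^ q * (s 0 * s 1 * R ^ 3) :=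
    Q_ge hq hr hrR hD fun i => (hs i).1
  have hE'f : ∀ s' : Fin 2 → ℝ, (∀ i, 0 ≤ s' i) → (∀ i, s' i ≤ s i) →
      0 ≤ D * (max (s' 0) (s' 1)) ^ q * (s' 0 * s' 1 * R ^ 3) ∧
      D * (max (s' 0) (s' 1)) ^ q * (s' 0 * s' 1 * R ^ 3) ≤
        D * (max (s 0) (s 1)) ^ q * (s 0 * s 1 * R ^ 3) := by
    intro s' h0 h1
    have h00 := h0 0
    have h01 := h0 1
    have h10 := h1 0
    have h11 := h1 1
    have hm' : 0 ≤ max (s' 0) (s' 1) := h00.trans (le_max_left _ _)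
    have h2 : max (s' 0) (s' 1) ≤ max (s 0) (s 1) := max_le_max h10 h11
    have h3 := (hs0 0).le
    have h4 := (hs0 1).le
    exact ⟨by positivity, by gcongr⟩
  obtain ⟨Q, hQ⟩ : ∃ Q : ℝ, Q = D * (max (s 0) (s 1)) ^ q * (s 0 * s 1 * R ^ 3) := ⟨_, rfl⟩
  rw [← hQ] at hQ0 hQge ⊢
  have hEn := En_nonneg g
  have hRε1 : 1 ≤ R ^ ε := Real.one_le_rpow hR hε.le
  rcases lt_or_ge R ((2:ℝ) ^ 20) with hsmall | hlarge
  · -- bounded range
    have h1 := hen h hh r hr g hg hb hsup z S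
    refine (mul_le_mul_right h1 (ENNReal.ofReal r)).trans ?_
    rw [← ENNReal.ofReal_mul hr0.le]
    refine ENNReal.ofReal_le_ofReal ?_
    have h2 : R * R ^ M0 ≤ ((2:ℝ) ^ 20) ^ (|M0| + q) * R ^ (2 - q / 2) := by
      calc R * R ^ M0 = R ^ (1 + M0) := by
            rw [Real.rpow_add hR0, Real.rpow_one]
        _ ≤ R ^ ((|M0| + q) + (2 - q / 2)) :=
            Real.rpow_le_rpow_of_exponent_le hR (by have := le_abs_self M0; linarith)
        _ = R ^ (|M0| + q) * R ^ (2 - q / 2) := Real.rpow_add hR0 _ _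
        _ ≤ _ := by
            gcongr
    have h3 : 0 ≤ 27 * C1 * a ^ 6 * (R ^ ε * Q) := by rw [ha]; positivity
    have h4 : 0 ≤ C2 * ((2:ℝ) ^ 20) ^ (|M0| + q) * Q := by positivity
    calc r * (C2 * En g) ≤ R * (C2 * (R ^ M0 * D)) := by gcongr
      _ = C2 * D * (R * R ^ M0) := by ring
      _ ≤ C2 * D * (((2:ℝ) ^ 20) ^ (|M0| + q) * R ^ (2 - q / 2)) := by gcongr
      _ = C2 * ((2:ℝ) ^ 20) ^ (|M0| + q) * (D * R ^ (2 - q / 2)) := by ring
      _ ≤ C2 * ((2:ℝ) ^ 20) ^ (|M0| + q) * Q := by gcongr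
      _ ≤ (C2 * ((2:ℝ) ^ 20) ^ (|M0| + q) * Q) * R ^ ε := le_mul_of_one_le_right h4 hRε1
      _ ≤ _ := by
          have e : (27 * C1 * a ^ 6 + C2 * ((2:ℝ) ^ 20) ^ (|M0| + q)) * R ^ ε * Q =
            27 * C1 * a ^ 6 * (R ^ ε * Q) + (C2 * ((2:ℝ) ^ 20) ^ (|M0| + q) * Q) * R ^ ε := by ring
          rw [e]
          linarith
  · -- large `R`
    obtain ⟨κ, hκ0, hκr, hκρ, hκ32⟩ := exists_kappa hε' hε'4 hr hrR hlarge
    have hRε : R ^ (1 - ε') * R ^ ε' = R := by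
      rw [← Real.rpow_add hR0, sub_add_cancel, Real.rpow_one]
    have hT8 : (R ^ ε') ^ 8 ≤ R ^ ε := by
      rw [← Real.rpow_natCast, ← Real.rpow_mul hR0.le]
      refine Real.rpow_le_rpow_of_exponent_le hR ?_
      push_cast
      linarith
    have htail : ((R ^ ε') ^ (2 * n))⁻¹ * (2 * r * En g) ≤ 2 * Q := by
      have h1 : ((R ^ ε') ^ (2 * n))⁻¹ = R ^ (-(2 * n * ε')) := by
        rw [← Real.rpow_natCast, ← Real.rpow_mul hR0.le, ← Real.rpow_neg hR0.le]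
        congr 1
        push_cast
        ring
      rw [h1]
      have h2 : R ^ (-(2 * n * ε')) * (R * R ^ M0) ≤ R ^ (2 - q / 2) := by
        calc R ^ (-(2 * n * ε')) * (R * R ^ M0) = R ^ (-(2 * n * ε') + (1 + M0)) := by
              rw [Real.rpow_add hR0, Real.rpow_add hR0, Real.rpow_one]
          _ ≤ _ := Real.rpow_le_rpow_of_exponent_le hR
              (by have := le_abs_self M0; linarith)
      have h3 : 0 ≤ R ^ (-(2 * n * ε')) := (Real.rpow_pos_of_pos hR0 _).le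
      calc R ^ (-(2 * n * ε')) * (2 * r * En g) ≤ R ^ (-(2 * n * ε')) * (2 * R * (R ^ M0 * D)) := by
            gcongr
        _ = 2 * D * (R ^ (-(2 * n * ε')) * (R * R ^ M0)) := by ring
        _ ≤ 2 * D * R ^ (2 - q / 2) := by gcongr
        _ = 2 * (D * R ^ (2 - q / 2)) := by ring
        _ ≤ 2 * Q := by gcongr
    obtain ⟨T, hT⟩ : ∃ T : ℝ, T = R ^ ε' := ⟨_, rfl⟩
    rw [← hT] at hκ32 hRε hT8 htail
    have hT1 : 1 ≤ T := by rw [hT]; exact Real.one_le_rpow hR hε'.le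
    have hT0 : 0 < T := by linarith
    obtain ⟨s', hs'⟩ : ∃ s' : Fin 2 → ℝ, s' = fun i => min (s i) κ := ⟨_, rfl⟩
    have hs'1 : ∀ i, r ^ (-(1/2) : ℝ) ≤ s' i := fun i => by
      rw [hs']; exact le_min (hs i).1 hκρ
    have hs'0 : ∀ i, 0 < s' i := fun i => hρ.trans_le (hs'1 i)
    have hs'2 : ∀ i, s' i ≤ s i := fun i => by rw [hs']; exact min_le_left _ _
    have hs'κ : ∀ i, s' i ≤ κ := fun i => by rw [hs']; exact min_le_right _ _
    have hs'3 : ∀ i, s i ≤ 32 * T * s' i := by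
      intro i
      rcases min_choice (s i) κ with h1 | h1
      · have h2 : s' i = s i := by rw [hs']; exact h1
        rw [h2]
        refine le_mul_of_one_le_left (hs0 i).le ?_
        linarith
      · have h2 : s' i = κ := by rw [hs']; exact h1
        rw [h2]
        exact (hs i).2.trans hκ32
    obtain ⟨N, hN⟩ : ∃ N : ℕ, N = ⌈2 * AA * (32 * T)⌉₊ := ⟨_, rfl⟩
    have hN1 : 2 * AA * (32 * T) ≤ N := by rw [hN]; exact Nat.le_ceil _
    have hN2 : (N : ℝ) ≤ 2 * AA * (32 * T) + 1 := by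
      rw [hN]; exact (Nat.ceil_lt_add_one (by positivity)).le
    obtain ⟨N0, hN0⟩ : ∃ N0 : ℕ, N0 = ⌈T⌉₊ := ⟨_, rfl⟩
    have hN01 : T ≤ N0 := by rw [hN0]; exact Nat.le_ceil _
    have hN02 : (N0 : ℝ) ≤ T + 1 := by rw [hN0]; exact (Nat.ceil_lt_add_one hT0.le).le
    have hNs : ∀ i, 2 * (AA * s i) ≤ N * s' i := by
      intro i
      calc 2 * (AA * s i) ≤ 2 * (AA * (32 * T * s' i)) := by have := hs'3 i; gcongr
        _ = 2 * AA * (32 * T) * s' i := by ring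
        _ ≤ N * s' i := by have := (hs'0 i).le; gcongr
    have hNs' : ∀ i, A * s i ≤ N * s' i := by
      intro i
      have h1 := hNs i
      have h2 : A * s i ≤ AA * s i := mul_le_mul_of_nonneg_right hAle (hs0 i).le
      have h3 : 0 ≤ AA * s i := mul_nonneg hAA0 (hs0 i).le
      linarith
    have hmain := hcore h hh.1 (ParB.bound_max hh n) r R hr hrR {m // m ∈ caps (r ^ (-(1/2) : ℝ))}
      (fun m => cap win (cen (r ^ (-(1/2) : ℝ)) m.1) (r ^ (-(1/2) : ℝ))) (hcap r hr) b s' hs'1 c x g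
      hg hb hsup z T N0 N (ENNReal.ofReal (D * (max (s' 0) (s' 1)) ^ q * (s' 0 * s' 1 * R ^ 3)))
      hT1 hN01 (fun m => S m.1) (fun m => hSm m.1) ?_ ?_ ?_ ?_
    · clear hcore hcap hen
      rw [← en_eq] at hmain
      have hE' := hE'f s' (fun i => (hs'0 i).le) hs'2
      rw [← hQ] at hE'
      have hLI : LI (fun ξ => ‖g ξ‖ ^ 2) = ENNReal.ofReal (En g) := by
        obtain ⟨Mg, hMg⟩ := hb
        obtain ⟨σ, hσ⟩ := hsup
        exact LI_eq_En (Wpk685.int_of_bdd hg hMg hσ).2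
      have hX0 : 0 ≤ (T ^ (2 * n))⁻¹ * (2 * r * En g) := by positivity
      have hNa : 2 * (N:ℝ) + 1 ≤ a * T := by
        have e : a * T = 128 * (AA * T) + 3 * T := by rw [ha]; ring
        rw [e]; linarith
      have harith := final_arith (N := N) (N0 := N0) (a := a) hC1 hT1 hQ0 (Nat.cast_nonneg _)
        (Nat.cast_nonneg _) hE'.1 hNa (by linarith) hX0 htail hE'.2
      obtain ⟨E', hE'def⟩ : ∃ E' : ℝ, E' = D * (max (s' 0) (s' 1)) ^ q * (s' 0 * s' 1 * R ^ 3) :=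
        ⟨_, rfl⟩
      rw [← hE'def] at hmain hE' harith
      have hE'0 := hE'.1
      rw [hLI, card_sq_ennreal, card_sq_ennreal, ← ENNReal.ofReal_pow (by positivity),
        ← ENNReal.ofReal_mul (by positivity), ← ENNReal.ofReal_mul (by positivity),
        ← ENNReal.ofReal_mul (by positivity), ← ENNReal.ofReal_add hX0 (by positivity),
        ← ENNReal.ofReal_mul (by positivity), ← ENNReal.ofReal_mul hC1] at hmain
      have h2r : ENNReal.ofReal r ≤ ENNReal.ofReal (2 * r) :=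
        ENNReal.ofReal_le_ofReal (by linarith)
      refine (mul_le_mul_left h2r _).trans (hmain.trans (ENNReal.ofReal_le_ofReal ?_))
      refine harith.trans ?_
      have h4 : 0 ≤ 27 * C1 * a ^ 6 := by rw [ha]; positivity
      have h5 : 0 ≤ C2 * ((2:ℝ) ^ 20) ^ (|M0| + q) * R ^ ε * Q := by positivity
      have h6 : 27 * C1 * a ^ 6 * T ^ 8 * Q ≤ 27 * C1 * a ^ 6 * R ^ ε * Q :=
        mul_le_mul_of_nonneg_right (mul_le_mul_of_nonneg_left hT8 h4) hQ0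
      have e : (27 * C1 * a ^ 6 + C2 * ((2:ℝ) ^ 20) ^ (|M0| + q)) * R ^ ε * Q =
          27 * C1 * a ^ 6 * R ^ ε * Q + C2 * ((2:ℝ) ^ 20) ^ (|M0| + q) * R ^ ε * Q := by ring
      rw [e]
      linarith
    · -- directions
      intro m hne ξ hξ i
      obtain ⟨y, hy⟩ := hne
      have h1 := (hSb m.1 hy).1 i
      have h2 := cap_near hh hρ m.1 hξ
      have h3 : |inner ℝ (gradient h ξ - gradient h (cen (r ^ (-(1/2) : ℝ)) m.1)) (b i)| ≤
          2 * (1 + |B 2|) * s i := by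
        refine (abs_real_inner_le_norm _ _).trans ?_
        rw [b.norm_eq_one, mul_one]
        refine h2.trans (mul_le_mul_of_nonneg_left (hs i).1 (by positivity))
      have e : gradient h ξ - c = (gradient h ξ - gradient h (cen (r ^ (-(1/2) : ℝ)) m.1)) +
          (gradient h (cen (r ^ (-(1/2) : ℝ)) m.1) - c) := by abel
      rw [e, inner_add_left]
      have h4 := abs_add_le (inner ℝ (gradient h ξ - gradient h (cen (r ^ (-(1/2) : ℝ)) m.1)) (b i))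
        (inner ℝ (gradient h (cen (r ^ (-(1/2) : ℝ)) m.1) - c) (b i))
      have h5 := hNs i
      have h6 : AA * s i = A * s i + 2 * (1 + |B 2|) * s i := by rw [hAA]; ring
      linarith
    · -- positions
      intro m y hy i
      have h1 := (hSb m.1 hy).2 i
      have h2 := mul_le_mul_of_nonneg_right (hNs' i) hr0.le
      calc |inner ℝ (y - x) (b i)| ≤ A * s i * r := h1
        _ ≤ (N * s' i) * r := h2
        _ = _ := by ring
    · -- base points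
      intro m y hy
      have h1 := hloc m.1 y hy
      have h2 : s' 0 * r + s' 1 * r ≤ 2 * (R ^ (1 - ε') / 32) := by
        have h3 : ∀ i, s' i * r ≤ R ^ (1 - ε') / 32 := fun i =>
          (mul_le_mul_of_nonneg_right (hs'κ i) hr0.le).trans hκr
        linarith [h3 0, h3 1]
      have h4 : ((N0:ℝ) + 1) * (s' 0 * r + s' 1 * r) ≤ R := by
        calc ((N0:ℝ) + 1) * (s' 0 * r + s' 1 * r) ≤ (3 * T) * (2 * (R ^ (1 - ε') / 32)) := by
              have h0' := mul_pos (hs'0 0) hr0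
              have h1' := mul_pos (hs'0 1) hr0
              refine mul_le_mul (by linarith) h2 (by linarith) (by linarith)
          _ = 6 / 32 * (R ^ (1 - ε') * T) := by ring
          _ = 6 / 32 * R := by rw [hRε]
          _ ≤ R := by linarith
      linarith
    · intro c' x0 hx0
      exact hbox c' s' (fun i => ⟨hs'1 i, hs'2 i⟩) (bmK K) hadm x0 hx0

/-- **LOW** (doc 1812), two-scale form over `PBox`. -/
theorem low (B : ℕ → ℝ) {q : ℝ} (hq : 0 ≤ q) {A : ℝ} (hA : 0 ≤ A) {ε : ℝ} (hε : 0 < ε) (Na : ℕ)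
    (M0 : ℝ) : ∃ C : ℝ, 0 ≤ C ∧ ∀ (h : E2 → ℝ) (g : E2 → ℂ) (R D : ℝ), ParB B h → Measurable g →
    (∃ M' : ℝ, ∀ ξ, ‖g ξ‖ ≤ M') → (∃ σ : ℝ, ∀ ξ, σ < ‖ξ‖ → g ξ = 0) → 0 ≤ D →
    PBox q Na h g R D → En g ≤ R ^ M0 * D → ∀ r : ℝ, 1 ≤ r → r ≤ R → ∀ (z : E2 × ℝ),
    |z.2| ≤ 4 * R → ∀ (c : E2)
    (b : OrthonormalBasis (Fin 2) ℝ E2) (s : Fin 2 → ℝ), (∀ i, r ^ (-(1/2) : ℝ) ≤ s i ∧ s i ≤ 1) →
    ∀ (x : E2) (S : ℤ × ℤ → Set E2), (∀ m, MeasurableSet (S m)) →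
    (∀ m, S m ⊆ pbox h r c b (fun k => A * s k) x m) → (∀ m, ∀ y ∈ S m, ‖y + z.1‖ ≤ 3 * R) →
    ENNReal.ofReal r * en (r ^ (-(1/2) : ℝ)) (tr h z g) S ≤
      ENNReal.ofReal (C * R ^ ε * (D * (max (s 0) (s 1)) ^ q * (s 0 * s 1 * R ^ 3))) := by
  obtain ⟨C, hC, h1⟩ := low_at B hq hA hε Na M0
  refine ⟨C, hC, ?_⟩
  intro h g R D hh hg hb hsup hD hbox hnd r hr hrR z hz c b s hs x S hSm hSb hloc
  refine h1 h g R D hh hg hb hsup hD hnd r hr hrR z c b s hs x S hSm hSb hloc ?_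
  intro c' s' hs' ψ hψ x0 hx0
  have hr0 : 0 < r := by linarith
  refine hbox c' b s' (fun i => ⟨?_, (hs' i).2.trans (hs i).2⟩) ψ hψ x0 z.2 hx0 hz
  exact (Real.rpow_le_rpow_of_nonpos hr0 hrR (by norm_num)).trans (hs' i).1

end Crest.Agent.R138.Low448
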