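import Crest.Agent.R138.RR5_323
import Crest.Agent.R138.Tri_323
import Crest.Agent.R138.Wpk5_685
import Crest.Agent.R138.Low4_448

-- ▼ part R138/Tv1_323
section

/-!
# R138 wave side: TRIV2 (helper323), part 1: energy count over separated frames
-/

set_option autoImplicit false

open MeasureTheory FourierTransform
open scoped ContDiff ENNReal

namespace Crest.Agent.R138.W323

open Crest.Agent.R138.Defs Crest.Agent.R138.Bil882 Crest.Agent.R138.W188
open Crest.Agent.R138.Wpk685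
open Crest.Agent.R138.Wf448 (sl)
open Crest.Agent.R138.T774 (haar3 cyl_eq finrank3)

attribute [local instance] haar3

/-- separated frames are rarely close. -/
theorem exists_count : ∃ C : ℝ, 0 ≤ C ∧ ∀ (r : ℝ), 0 < r → ∀ Fr : Finset (E2 × ℝ),
    (∀ z ∈ Fr, ∀ z' ∈ Fr, Sep r z z') → ∀ (y : E2) (τ : ℝ),
    ∑ f ∈ Fr, (if |τ - f.2| ≤ r then ENNReal.ofReal (((1 + ‖y - f.1‖ / r) ^ 4)⁻¹) else 0) ≤
      ENNReal.ofReal C := by
  obtain ⟨J, hJ, HJ, -⟩ := exists_J
  set v : ℝ≥0∞ := volume (Metric.ball (0 : E2 × ℝ) 1) with hv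
  have hvfin : v < ⊤ := measure_ball_lt_top
  have hvpos : 0 < v := Metric.measure_ball_pos _ _ one_pos
  have hvr : 0 < v.toReal := ENNReal.toReal_pos hvpos.ne' hvfin.ne
  refine ⟨512 * J / v.toReal, by positivity, fun r hr Fr hs y τ => ?_⟩
  set φ : E2 × ℝ → ℝ≥0∞ := fun p => ENNReal.ofReal (((1 + ‖p.1 - y‖ / r) ^ 4)⁻¹) *
    (Set.Icc (τ - 2 * r) (τ + 2 * r)).indicator (fun _ => 1) p.2 with hφ
  have m1 : Measurable fun x : E2 => ENNReal.ofReal (((1 + ‖x - y‖ / r) ^ 4)⁻¹) := by fun_prop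
  have m2 : Measurable fun t : ℝ => (Set.Icc (τ - 2 * r) (τ + 2 * r)).indicator
      (fun _ => (1 : ℝ≥0∞)) t := measurable_const.indicator measurableSet_Icc
  have hint : ∫⁻ p, φ p ≤ ENNReal.ofReal (J * r ^ 2) * ENNReal.ofReal (4 * r) := by
    rw [hφ, Measure.volume_eq_prod, lintegral_prod_mul m1.aemeasurable m2.aemeasurable]
    gcongr
    · exact HJ r hr y
    · rw [lintegral_indicator_const measurableSet_Icc, one_mul, Real.volume_Icc]
      apply ENNReal.ofReal_le_ofReal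
      linarith
  have hdisj : (Fr : Set (E2 × ℝ)).PairwiseDisjoint fun z => Metric.ball z (r / 2) := by
    intro z hz z' hz' hne
    refine Metric.ball_disjoint_ball ?_
    have h1 : r ≤ dist z z' := by
      rcases hs z hz z' hz' with h | h | h
      · exact absurd h hne
      · rw [Prod.dist_eq, dist_eq_norm]; exact h.trans (le_max_left _ _)
      · rw [Prod.dist_eq, Real.dist_eq]; exact h.trans (le_max_right _ _)
    linarith
  have hpt : ∀ f ∈ Fr, (if |τ - f.2| ≤ r then ENNReal.ofReal (((1 + ‖y - f.1‖ / r) ^ 4)⁻¹) else 0) *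
      (ENNReal.ofReal ((r / 2) ^ 3) * v) ≤ 16 * ∫⁻ p in Metric.ball f (r / 2), φ p := by
    intro f _
    split_ifs with hf
    · have hvol : volume (Metric.ball f (r / 2)) = ENNReal.ofReal ((r / 2) ^ 3) * v := by
        rw [Measure.addHaar_ball _ _ (by positivity), finrank3]
      rw [← hvol, ← setLIntegral_const, ← lintegral_const_mul' _ _ (by norm_num)]
      refine setLIntegral_mono' measurableSet_ball fun p hp => ?_
      rw [Metric.mem_ball, Prod.dist_eq, max_lt_iff, dist_eq_norm, Real.dist_eq] at hp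
      have h2 : p.2 ∈ Set.Icc (τ - 2 * r) (τ + 2 * r) := by
        have a1 := abs_lt.1 hp.2
        have a2 := abs_le.1 hf
        constructor <;> linarith [a1.1, a1.2, a2.1, a2.2]
      rw [hφ]
      simp only [Set.indicator_of_mem h2, mul_one]
      rw [show (16 : ℝ≥0∞) = ENNReal.ofReal 16 by norm_num, ← ENNReal.ofReal_mul (by norm_num)]
      refine ENNReal.ofReal_le_ofReal ?_
      have h3 : 1 + ‖p.1 - y‖ / r ≤ 2 * (1 + ‖y - f.1‖ / r) := by
        have h4 : ‖p.1 - y‖ ≤ ‖p.1 - f.1‖ + ‖y - f.1‖ := by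
          have : p.1 - y = (p.1 - f.1) - (y - f.1) := by abel
          rw [this]; exact norm_sub_le _ _
        have h5 : ‖p.1 - y‖ / r ≤ 1 / 2 + ‖y - f.1‖ / r := by
          rw [div_le_iff₀ hr, add_mul, div_mul_cancel₀ _ hr.ne']
          linarith [hp.1]
        have h6 : 0 ≤ ‖y - f.1‖ / r := by positivity
        linarith
      rw [inv_eq_one_div, div_le_iff₀ (by positivity), ← div_eq_mul_inv,
        div_mul_eq_mul_div, le_div_iff₀ (by positivity), one_mul]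
      calc (1 + ‖p.1 - y‖ / r) ^ 4 ≤ (2 * (1 + ‖y - f.1‖ / r)) ^ 4 := by gcongr
        _ = 16 * (1 + ‖y - f.1‖ / r) ^ 4 := by ring
    · rw [zero_mul]; exact zero_le
  have hsum := Finset.sum_le_sum hpt
  rw [← Finset.sum_mul, ← Finset.mul_sum,
    ← lintegral_biUnion_finset hdisj (fun _ _ => measurableSet_ball)] at hsum
  have hfin := hsum.trans (mul_le_mul' le_rfl (setLIntegral_le_lintegral _ _))
  have hfin' := hfin.trans (mul_le_mul' le_rfl hint)
  have hne : ENNReal.ofReal ((r / 2) ^ 3) * v ≠ 0 :=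
    mul_ne_zero (by simpa using (by positivity : 0 < (r / 2) ^ 3)) hvpos.ne'
  have hnt : ENNReal.ofReal ((r / 2) ^ 3) * v ≠ ⊤ := ENNReal.mul_ne_top ENNReal.ofReal_ne_top hvfin.ne
  rw [← ENNReal.mul_le_mul_iff_left hne hnt]
  refine hfin'.trans (le_of_eq ?_)
  rw [show v = ENNReal.ofReal v.toReal from (ENNReal.ofReal_toReal hvfin.ne).symm,
    show (16 : ℝ≥0∞) = ENNReal.ofReal 16 by norm_num,
    ENNReal.toReal_ofReal hvr.le,
    ← ENNReal.ofReal_mul (by positivity), ← ENNReal.ofReal_mul (by positivity),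
    ← ENNReal.ofReal_mul (by positivity), ← ENNReal.ofReal_mul (by positivity)]
  congr 1
  field_simp
  ring

/-- comparison of the weight of `thmB` with the spatial weight of scale `r`. -/
theorem bw_le_scale {r a A' : ℝ} (hr : 1 ≤ r) (ha : 0 ≤ a) (haA : a ≤ A' * r) (y : E2) :
    bw 4 (r ^ (-(1/2) : ℝ)) a y ≤ (1 + A') ^ 4 * ((1 + ‖y‖ / r) ^ 4)⁻¹ := by
  have hr0 : 0 < r := by linarith
  have hA' : 0 ≤ A' := by
    by_contra h
    push Not at h
    nlinarith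
  set ρ : ℝ := r ^ (-(1/2) : ℝ) with hρ
  have hρr : 1 / r ≤ ρ := by
    rw [hρ, one_div, ← Real.rpow_neg_one]
    exact Real.rpow_le_rpow_of_exponent_le hr (by norm_num)
  set b : ℝ := max 0 (‖y‖ - a) with hb
  have hb0 : 0 ≤ b := le_max_left _ _
  have h1 : 1 + ‖y‖ / r ≤ (1 + A') * (1 + ρ * b) := by
    have h2 : ‖y‖ ≤ b + A' * r := by
      have := le_max_right 0 (‖y‖ - a)
      linarith
    have h3 : ‖y‖ / r ≤ b * (1 / r) + A' := by
      rw [div_le_iff₀ hr0, add_mul]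
      have : b * (1 / r) * r = b := by field_simp
      rw [this]; exact h2
    have h4 : b * (1 / r) ≤ ρ * b := by
      rw [mul_comm]; gcongr
    have h5 : 0 ≤ A' * (ρ * b) := by
      have : 0 ≤ ρ := by rw [hρ]; positivity
      positivity
    linarith
  have hp : 0 < 1 + ρ * b := by
    have : 0 ≤ ρ := by rw [hρ]; positivity
    positivity
  unfold bw
  rw [← hb, inv_eq_one_div, div_le_iff₀ (by positivity), ← div_eq_mul_inv, div_mul_eq_mul_div,
    le_div_iff₀ (by positivity), one_mul, ← mul_pow]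
  gcongr

theorem norm_cen_le {ρ : ℝ} (hρ : 0 < ρ) (hρ1 : ρ ≤ 1) {m : ℤ × ℤ} (hm : m ∈ caps ρ) :
    ‖cen ρ m‖ ≤ 6 := by
  have hc : ∀ i : ℤ, -⌈2 / ρ⌉ - 1 ≤ i → i ≤ ⌈2 / ρ⌉ + 1 → |ρ * (i : ℝ)| ≤ 4 := by
    intro i h1 h2
    have h3 : ((⌈2 / ρ⌉ : ℤ) : ℝ) ≤ 2 / ρ + 1 := (Int.ceil_lt_add_one _).le
    have h4 : |(i : ℝ)| ≤ 2 / ρ + 2 := by
      rw [abs_le]
      have h1' : ((-⌈2 / ρ⌉ - 1 : ℤ) : ℝ) ≤ i := by exact_mod_cast h1
      have h2' : (i : ℝ) ≤ ((⌈2 / ρ⌉ + 1 : ℤ) : ℝ) := by exact_mod_cast h2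
      push_cast at h1' h2'
      constructor <;> linarith
    rw [abs_mul, abs_of_pos hρ]
    calc ρ * |(i : ℝ)| ≤ ρ * (2 / ρ + 2) := by gcongr
      _ = 2 + 2 * ρ := by field_simp
      _ ≤ 4 := by linarith
  unfold caps at hm
  obtain ⟨h0, h1⟩ := Finset.mem_product.1 hm
  rw [Finset.mem_Icc] at h0 h1
  have e0 := hc m.1 h0.1 h0.2
  have e1 := hc m.2 h1.1 h1.2
  have h2 : ‖cen ρ m‖ ^ 2 ≤ 6 ^ 2 := by
    rw [EuclideanSpace.norm_sq_eq]
    simp only [Fin.sum_univ_two, Real.norm_eq_abs, cen_zero, cen_one]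
    have a0 := abs_nonneg (ρ * (m.1 : ℝ))
    have a1 := abs_nonneg (ρ * (m.2 : ℝ))
    nlinarith
  exact le_of_sq_le_sq h2 (by norm_num)

end Crest.Agent.R138.W323
end

-- ▼ part R138/Tv2_323
section

/-!
# R138 wave side: TRIV2 (helper323), part 2: energy count of a plate system
-/

set_option autoImplicit false

open MeasureTheory FourierTransform
open scoped ContDiff ENNReal

namespace Crest.Agent.R138.W323

open Crest.Agent.R138.Defs Crest.Agent.R138.Bil882 Crest.Agent.R138.W188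
open Crest.Agent.R138.Wpk685
open Crest.Agent.R138.Wf448 (sl)
open Crest.Agent.R138.T774 (haar3 cyl_eq finrank3)

/-- energy of one frame at the time `t`, `|t| ≤ r`. -/
theorem exists_frame (B : ℕ → ℝ) (a0 : ℝ) (ha0 : 0 ≤ a0) : ∃ C : ℝ, 0 ≤ C ∧ ∀ h, ParB B h →
    fderiv ℝ h 0 = 0 → ∀ r : ℝ, 1 ≤ r → ∀ g : E2 → ℂ, Gd g → ∀ (f : E2 × ℝ) (τ : ℝ),
    |τ - f.2| ≤ r →
    en (r ^ (-(1/2) : ℝ)) (tr h f g) (fun _ => Metric.closedBall 0 (a0 * r)) ≤
      ENNReal.ofReal C * ∫⁻ y : E2, ENNReal.ofReal (((1 + ‖y - f.1‖ / r) ^ 4)⁻¹) *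
        ‖ext h g y τ‖ₑ ^ 2 := by
  obtain ⟨C, hC, H⟩ := thmB B 4 1 le_rfl
  set G : ℝ := 6 * (1 + |B 2|) with hG
  have hG0 : 0 ≤ G := by rw [hG]; positivity
  refine ⟨C * (1 + (a0 + G)) ^ 4, by positivity, fun h hh h1 r hr g hg f τ hτ => ?_⟩
  have hr0 : 0 < r := by linarith
  have hhc : Continuous h := hh.1.continuous
  set ρ : ℝ := r ^ (-(1/2) : ℝ) with hρ
  have hρ0 : 0 < ρ := by rw [hρ]; positivity
  have hρ1 : ρ ≤ 1 := Real.rpow_le_one_of_one_le_of_nonpos hr (by norm_num)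
  have hρ2 : ρ ^ 2 = r⁻¹ := by
    rw [hρ, ← Real.rpow_natCast, ← Real.rpow_mul hr0.le, ← Real.rpow_neg_one]; norm_num
  set a : ℝ := (a0 + G) * r with ha
  have ha' : 0 ≤ a := by rw [ha]; positivity
  set t : ℝ := τ - f.2 with ht
  have htρ : |t| * ρ ^ 2 ≤ 1 := by
    rw [hρ2, ← div_eq_mul_inv, div_le_one hr0]; exact hτ
  have hGd := W323.Gd.tr hhc hg f
  have h2 := H h hh ρ 1 (bw 4 ρ a) hρ0 hρ1 (bw_sv 4 hρ0.le a) (caps ρ) (tr h f g) hGd.int hGd.l2 t htρ
  rw [one_pow, mul_one] at h2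
  have h3 : en ρ (tr h f g) (fun _ => Metric.closedBall 0 (a0 * r)) ≤ ∑ m ∈ caps ρ, ∫⁻ y,
      ENNReal.ofReal (bw 4 ρ a (y - t • gradient h (cen ρ m))) * ‖um ρ (tr h f g) m y‖ₑ ^ 2 := by
    unfold en
    refine Finset.sum_le_sum fun m hm => ?_
    rw [← lintegral_indicator Metric.isClosed_closedBall.measurableSet]
    refine lintegral_mono fun y => ?_
    dsimp only
    by_cases hy : y ∈ Metric.closedBall (0 : E2) (a0 * r)
    · rw [Set.indicator_of_mem hy, bw_one 4 ρ, ENNReal.ofReal_one, one_mul]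
      have h4 : ‖gradient h (cen ρ m)‖ ≤ G := by
        refine (grad_le hh h1 _).trans ?_
        rw [hG, mul_comm]
        gcongr
        exact norm_cen_le hρ0 hρ1 hm
      have h5 : ‖t • gradient h (cen ρ m)‖ ≤ r * G := by
        rw [norm_smul, Real.norm_eq_abs]
        gcongr
      have h6 : ‖y‖ ≤ a0 * r := by simpa using hy
      calc ‖y - t • gradient h (cen ρ m)‖ ≤ ‖y‖ + ‖t • gradient h (cen ρ m)‖ := norm_sub_le _ _
        _ ≤ a := by rw [ha]; nlinarith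
    · rw [Set.indicator_of_notMem hy]
      exact zero_le
  refine h3.trans (h2.trans ?_)
  rw [ENNReal.ofReal_mul hC, mul_assoc]
  refine mul_le_mul' le_rfl ?_
  unfold WE
  have h7 : sl h (tr h f g) t = tr h (f.1, τ) g := by
    rw [sl_eq_tr, tr_add]
    congr 1
    ext
    · simp
    · simp [ht]
  rw [h7]
  have h8 : ∫⁻ x, ENNReal.ofReal (bw 4 ρ a x) * ‖𝓕⁻ (tr h (f.1, τ) g) x‖ₑ ^ 2 =
      ∫⁻ y, ENNReal.ofReal (bw 4 ρ a (y - f.1)) * ‖ext h g y τ‖ₑ ^ 2 := by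
    rw [← lintegral_add_right_eq_self (fun y => ENNReal.ofReal (bw 4 ρ a (y - f.1)) *
      ‖ext h g y τ‖ₑ ^ 2) f.1]
    refine lintegral_congr fun x => ?_
    rw [fourierInv_tr, add_sub_cancel_right]
  rw [h8, ← lintegral_const_mul' _ _ ENNReal.ofReal_ne_top]
  refine lintegral_mono fun y => ?_
  dsimp only
  rw [← mul_assoc, ← ENNReal.ofReal_mul (by positivity)]
  gcongr
  exact bw_le_scale hr ha' (le_of_eq ha) _

/-- **energy count**: the energies of separated frames add up. -/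
theorem exists_frames (B : ℕ → ℝ) (a0 : ℝ) (ha0 : 0 ≤ a0) : ∃ C : ℝ, 0 ≤ C ∧ ∀ h, ParB B h →
    fderiv ℝ h 0 = 0 → ∀ r R : ℝ, 1 ≤ r → r ≤ R → ∀ g : E2 → ℂ, Gd g → ∀ Fr : Finset (E2 × ℝ),
    (∀ z ∈ Fr, z ∈ cyl R) → (∀ z ∈ Fr, ∀ z' ∈ Fr, Sep r z z') →
    ∑ f ∈ Fr, ENNReal.ofReal r * en (r ^ (-(1/2) : ℝ)) (tr h f g)
      (fun _ => Metric.closedBall 0 (a0 * r)) ≤ ENNReal.ofReal (C * R * En g) := by
  obtain ⟨C1, hC1, H1⟩ := exists_frame B a0 ha0
  obtain ⟨C2, hC2, H2⟩ := exists_count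
  refine ⟨2 * C1 * C2, by positivity, fun h hh h1 r R hr hrR g hg Fr hFr hsep => ?_⟩
  have hr0 : 0 < r := by linarith
  have hR0 : 0 < R := by linarith
  have hhc : Continuous h := hh.1.continuous
  have hEn : 0 ≤ En g := integral_nonneg fun ξ => by positivity
  have hF : Continuous fun p : E2 × ℝ => ext h g p.1 p.2 := F4x858.continuous_ext hhc hg.int
  set w : E2 × ℝ → ℝ → E2 → ℝ≥0∞ := fun f τ y =>
    if |τ - f.2| ≤ r then ENNReal.ofReal (((1 + ‖y - f.1‖ / r) ^ 4)⁻¹) else 0 with hw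
  have hFy : ∀ τ, Measurable fun y => ‖ext h g y τ‖ₑ ^ 2 := fun τ =>
    ((hF.comp (continuous_id.prodMk continuous_const)).measurable.enorm).pow_const 2
  have hwy : ∀ f τ, Measurable (w f τ) := by
    intro f τ
    simp only [hw]
    by_cases hτ : |τ - f.2| ≤ r
    · simp only [hτ, if_true]; fun_prop
    · simp only [hτ, if_false]; exact measurable_const
  -- one frame
  have hone : ∀ f ∈ Fr, 2 * (ENNReal.ofReal r * en (r ^ (-(1/2) : ℝ)) (tr h f g)
      (fun _ => Metric.closedBall 0 (a0 * r))) ≤ ∫⁻ τ in Set.Icc (-(2 * R)) (2 * R),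
        ENNReal.ofReal C1 * ∫⁻ y, w f τ y * ‖ext h g y τ‖ₑ ^ 2 := by
    intro f hf
    have hf2 : |f.2| ≤ R := (hFr f hf).2
    set E := en (r ^ (-(1/2) : ℝ)) (tr h f g) (fun _ => Metric.closedBall 0 (a0 * r)) with hE
    have e1 : 2 * (ENNReal.ofReal r * E) = ∫⁻ τ in Set.Icc (f.2 - r) (f.2 + r), E := by
      rw [lintegral_const, Measure.restrict_apply MeasurableSet.univ, Set.univ_inter,
        Real.volume_Icc, show f.2 + r - (f.2 - r) = 2 * r by ring,
        ENNReal.ofReal_mul (by norm_num), ENNReal.ofReal_ofNat]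
      ring
    rw [e1]
    calc ∫⁻ τ in Set.Icc (f.2 - r) (f.2 + r), E
        ≤ ∫⁻ τ in Set.Icc (f.2 - r) (f.2 + r),
            ENNReal.ofReal C1 * ∫⁻ y, w f τ y * ‖ext h g y τ‖ₑ ^ 2 := by
          refine setLIntegral_mono' measurableSet_Icc fun τ hτ => ?_
          have hτ' : |τ - f.2| ≤ r := by
            rw [abs_le]; constructor <;> linarith [hτ.1, hτ.2]
          have := H1 h hh h1 r hr g hg f τ hτ'
          simp only [hw, hτ', if_true]
          exact this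
      _ ≤ _ := by
          refine lintegral_mono_set fun τ hτ => ?_
          have a1 := abs_le.1 hf2
          constructor <;> linarith [hτ.1, hτ.2, a1.1, a1.2]
  have hsum : 2 * ∑ f ∈ Fr, ENNReal.ofReal r * en (r ^ (-(1/2) : ℝ)) (tr h f g)
      (fun _ => Metric.closedBall 0 (a0 * r)) ≤ ENNReal.ofReal (4 * C1 * C2 * R * En g) := by
    rw [Finset.mul_sum]
    refine (Finset.sum_le_sum hone).trans ?_
    calc ∑ f ∈ Fr, ∫⁻ τ in Set.Icc (-(2 * R)) (2 * R),
          ENNReal.ofReal C1 * ∫⁻ y, w f τ y * ‖ext h g y τ‖ₑ ^ 2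
        ≤ ∫⁻ τ in Set.Icc (-(2 * R)) (2 * R), ∑ f ∈ Fr,
          ENNReal.ofReal C1 * ∫⁻ y, w f τ y * ‖ext h g y τ‖ₑ ^ 2 := by
          rw [lintegral_finsetSum']
          intro f _
          refine Measurable.aemeasurable ?_
          refine Measurable.const_mul ?_ _
          have hmw : Measurable fun p : ℝ × E2 => w f p.1 p.2 * ‖ext h g p.2 p.1‖ₑ ^ 2 := by
            refine Measurable.mul ?_ ?_
            · simp only [hw]
              refine Measurable.ite ?_ ?_ measurable_const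
              · exact measurableSet_le (by fun_prop) measurable_const
              · fun_prop
            · exact ((hF.comp (continuous_snd.prodMk continuous_fst)).measurable.enorm).pow_const 2
          exact Measurable.lintegral_prod_right' hmw
      _ ≤ ∫⁻ τ in Set.Icc (-(2 * R)) (2 * R),
            ENNReal.ofReal C1 * (ENNReal.ofReal C2 * ENNReal.ofReal (En g)) := by
          refine lintegral_mono fun τ => ?_
          dsimp only
          rw [← Finset.mul_sum]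
          gcongr
          have hmm : ∀ f ∈ Fr, Measurable fun y => w f τ y * ‖ext h g y τ‖ₑ ^ 2 :=
            fun f _ => (hwy f τ).mul (hFy τ)
          rw [← lintegral_finsetSum Fr hmm]
          calc ∫⁻ y, ∑ f ∈ Fr, w f τ y * ‖ext h g y τ‖ₑ ^ 2
              ≤ ∫⁻ y, ENNReal.ofReal C2 * ‖ext h g y τ‖ₑ ^ 2 := by
                refine lintegral_mono fun y => ?_
                dsimp only
                rw [← Finset.sum_mul]
                gcongr
                exact H2 r hr0 Fr hsep y τ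
            _ = ENNReal.ofReal C2 * ENNReal.ofReal (En g) := by
                rw [lintegral_const_mul _ (hFy τ), F4x858.slice hhc hg.int hg.l2 τ,
                  En_eq_lint hg]
      _ = ENNReal.ofReal (4 * C1 * C2 * R * En g) := by
          rw [lintegral_const, Measure.restrict_apply MeasurableSet.univ, Set.univ_inter,
            Real.volume_Icc, ← ENNReal.ofReal_mul hC2, ← ENNReal.ofReal_mul hC1,
            ← ENNReal.ofReal_mul (by positivity)]
          congr 1; ring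
  have h2 : (2 : ℝ≥0∞) * ∑ f ∈ Fr, ENNReal.ofReal r * en (r ^ (-(1/2) : ℝ)) (tr h f g)
      (fun _ => Metric.closedBall 0 (a0 * r)) ≤ 2 * ENNReal.ofReal (2 * C1 * C2 * R * En g) := by
    refine hsum.trans (le_of_eq ?_)
    rw [show (2 : ℝ≥0∞) = ENNReal.ofReal 2 by norm_num, ← ENNReal.ofReal_mul (by norm_num)]
    congr 1; ring
  exact (ENNReal.mul_le_mul_iff_right (by norm_num) (by norm_num)).1 h2

/-- energy count for a plate system. -/
theorem exists_plates_energy (B : ℕ → ℝ) (A : ℝ) (hA : 0 ≤ A) : ∃ C : ℝ, 0 ≤ C ∧ ∀ h, ParB B h →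
    fderiv ℝ h 0 = 0 → ∀ r R : ℝ, 1 ≤ r → r ≤ R → ∀ g : E2 → ℂ, Gd g → ∀ s1 s2 : ℝ, s1 ≤ 1 →
    s2 ≤ 1 → ∀ (I : Finset ℕ) (P : ℕ → Plate), Plates A h r s1 s2 R I P →
    ∑ i ∈ I, ENNReal.ofReal r * en (r ^ (-(1/2) : ℝ)) (tr h (P i).z g) (P i).S ≤
      ENNReal.ofReal (C * R * En g) := by
  classical
  obtain ⟨C, hC, H⟩ := exists_frames B (3 * A) (by positivity)
  refine ⟨C, hC, fun h hh h1 r R hr hrR g hg s1 s2 hs1 hs2 I P hP => ?_⟩
  have hr0 : 0 < r := by linarith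
  have h2 := H h hh h1 r R hr hrR g hg (I.image fun i => (P i).z) ?_ ?_
  · refine le_trans ?_ h2
    rw [← Finset.sum_fiberwise_of_maps_to (s := I) (t := I.image fun i => (P i).z)
      (g := fun i => (P i).z) (fun i hi => Finset.mem_image_of_mem _ hi)]
    refine Finset.sum_le_sum fun y hy => ?_
    rw [← Finset.mul_sum]
    gcongr
    have h3 : ∑ i ∈ I with (P i).z = y, en (r ^ (-(1/2) : ℝ)) (tr h (P i).z g) (P i).S =
        ∑ i ∈ I with (P i).z = y, en (r ^ (-(1/2) : ℝ)) (tr h y g) (P i).S := by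
      refine Finset.sum_congr rfl fun i hi => ?_
      rw [(Finset.mem_filter.1 hi).2]
    rw [h3]
    refine en_union _ (fun i => (P i).S) (fun _ => Metric.closedBall 0 (3 * A * r))
      (fun i hi m => ?_) (fun i hi j hj hne m => ?_) (fun i hi m y hy => ?_)
    · exact hP.meas i (Finset.mem_filter.1 hi).1 m
    · obtain ⟨hi1, hi2⟩ := Finset.mem_filter.1 hi
      obtain ⟨hj1, hj2⟩ := Finset.mem_filter.1 hj
      exact hP.disj i hi1 j hj1 hne (hi2.trans hj2.symm) m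
    · obtain ⟨hi1, hi2⟩ := Finset.mem_filter.1 hi
      rw [mem_closedBall_zero_iff]
      exact pos_le hA hr0.le hs1 hs2 (hP.x i hi1) (hP.box i hi1 m hy)
  · intro y hy
    obtain ⟨i, hi, rfl⟩ := Finset.mem_image.1 hy
    exact hP.mem i hi
  · intro y hy y' hy'
    obtain ⟨i, hi, rfl⟩ := Finset.mem_image.1 hy
    obtain ⟨j, hj, rfl⟩ := Finset.mem_image.1 hy'
    exact hP.sep i hi j hj

end Crest.Agent.R138.W323
end

-- ▼ part R138/Tv3_323

/-!
# R138 wave side: **TRIV2** (helper323), from LOW (448) and the energy count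
-/

set_option autoImplicit false

open MeasureTheory FourierTransform
open scoped ContDiff ENNReal

namespace Crest.Agent.R138.W323

open Crest.Agent.R138.Defs Crest.Agent.R138.Bil882 Crest.Agent.R138.W188
open Crest.Agent.R138.Wpk685

/-- arithmetic of **TRIV2**. -/
theorem triv2_arith {q C1 C2 R D r s1 s2 e ε : ℝ} (hC1 : 0 ≤ C1) (hC2 : 0 ≤ C2) (hr : 1 ≤ r)
    (hrR : r ≤ R) (hD : 0 ≤ D) (hs1 : 0 < s1) (hs2 : 0 < s2) (he : 0 ≤ e) (hε : 0 < ε) :
    s2 ^ (-q / 2) * ((s1 * s2 * r ^ 3) ^ (-(1/2) : ℝ) *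
      ((C1 * R ^ ε * (D * s2 ^ q * (s1 * s2 * R ^ 3))) ^ (1/2 : ℝ) * (C2 * R * e))) ≤
    (C1 ^ (1/2 : ℝ) * C2) * R ^ ε * (R / r) ^ (2 : ℝ) * (R * e * Real.sqrt D) := by
  have hr0 : 0 < r := by linarith
  have hR0 : 0 < R := by linarith
  have hR : 1 ≤ R := by linarith
  have e1 : (C1 * R ^ ε * (D * s2 ^ q * (s1 * s2 * R ^ 3))) ^ (1/2 : ℝ) =
      C1 ^ (1/2 : ℝ) * R ^ (ε / 2) * (Real.sqrt D * s2 ^ (q / 2) * ((s1 * s2) ^ (1/2 : ℝ) *
        (R ^ 3) ^ (1/2 : ℝ))) := by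
    rw [Real.mul_rpow (by positivity) (by positivity), Real.mul_rpow hC1 (by positivity),
      Real.mul_rpow (by positivity) (by positivity), Real.mul_rpow hD (by positivity),
      Real.mul_rpow (x := s1 * s2) (by positivity) (by positivity), Real.sqrt_eq_rpow,
      ← Real.rpow_mul hR0.le, ← Real.rpow_mul hs2.le]
    congr 3
    · congr 1; ring
    · congr 2; ring
  have e2 : (s1 * s2 * r ^ 3) ^ (-(1/2) : ℝ) = ((s1 * s2) ^ (1/2 : ℝ))⁻¹ * ((r ^ 3) ^ (1/2 : ℝ))⁻¹ := by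
    rw [Real.rpow_neg (by positivity), Real.mul_rpow (by positivity) (by positivity), mul_inv]
  have e3 : s2 ^ (-q / 2) * s2 ^ (q / 2) = 1 := by
    rw [← Real.rpow_add hs2]
    rw [show -q / 2 + q / 2 = 0 by ring, Real.rpow_zero]
  have e4 : ((r ^ 3) ^ (1/2 : ℝ))⁻¹ * (R ^ 3) ^ (1/2 : ℝ) ≤ (R / r) ^ (2 : ℝ) := by
    have h1 : ((r ^ 3) ^ (1/2 : ℝ))⁻¹ * (R ^ 3) ^ (1/2 : ℝ) = (R / r) ^ (3/2 : ℝ) := by
      rw [mul_comm, ← div_eq_mul_inv, ← Real.div_rpow (by positivity) (by positivity), ← div_pow,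
        ← Real.rpow_natCast, ← Real.rpow_mul (by positivity)]
      norm_num
    rw [h1]
    refine Real.rpow_le_rpow_of_exponent_le ?_ (by norm_num)
    rwa [one_le_div hr0]
  have e5 : R ^ (ε / 2) ≤ R ^ ε := Real.rpow_le_rpow_of_exponent_le hR (by linarith)
  have e6 : 0 < (s1 * s2) ^ (1/2 : ℝ) := by positivity
  calc s2 ^ (-q / 2) * ((s1 * s2 * r ^ 3) ^ (-(1/2) : ℝ) *
      ((C1 * R ^ ε * (D * s2 ^ q * (s1 * s2 * R ^ 3))) ^ (1/2 : ℝ) * (C2 * R * e)))
      = (s2 ^ (-q / 2) * s2 ^ (q / 2)) * (((s1 * s2) ^ (1/2 : ℝ))⁻¹ * (s1 * s2) ^ (1/2 : ℝ)) *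
          ((C1 ^ (1/2 : ℝ) * C2) * R ^ (ε / 2) *
            (((r ^ 3) ^ (1/2 : ℝ))⁻¹ * (R ^ 3) ^ (1/2 : ℝ)) * (R * e * Real.sqrt D)) := by
        rw [e1, e2]; ring
    _ = (C1 ^ (1/2 : ℝ) * C2) * R ^ (ε / 2) *
            (((r ^ 3) ^ (1/2 : ℝ))⁻¹ * (R ^ 3) ^ (1/2 : ℝ)) * (R * e * Real.sqrt D) := by
        rw [e3, inv_mul_cancel₀ e6.ne', one_mul, one_mul]
    _ ≤ (C1 ^ (1/2 : ℝ) * C2) * R ^ ε * (R / r) ^ (2 : ℝ) * (R * e * Real.sqrt D) := by
        gcongr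

/-- **TRIV2**. -/
theorem TRIV2_holds (B : ℕ → ℝ) {q : ℝ} (hq : 0 ≤ q) {A : ℝ} (hA : 0 ≤ A) :
    TRIV2 B q (SIG A) := by
  obtain ⟨C2, hC2, H2⟩ := exists_plates_energy B A hA
  refine ⟨max 1 (2 * A), le_max_left _ _, fun ε hε Na M0 => ?_⟩
  obtain ⟨C1, hC1, H1⟩ := Low448.low B hq hA hε Na M0
  refine ⟨C1 ^ (1/2 : ℝ) * C2, by positivity, fun h g R D r s1 s2 hSt hr1 hK hSd => ?_⟩
  have hR : 1 ≤ R := hSt.R1
  have hR0 : 0 < R := by linarith
  have hr : 1 ≤ r := (Real.one_le_rpow hR (by norm_num)).trans hr1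
  have hr0 : 0 < r := by linarith
  have hrR : r ≤ R := by
    have : 1 * r ≤ max 1 (2 * A) * r := by gcongr; exact le_max_left _ _
    linarith
  have hAr : 2 * A * r ≤ R := by
    have : 2 * A * r ≤ max 1 (2 * A) * r := by gcongr; exact le_max_right _ _
    linarith
  have hs10 : 0 < s1 := (by positivity : (0:ℝ) < r ^ (-(1/2) : ℝ)).trans_le hSd.lo
  have hs20 : 0 < s2 := hs10.trans_le hSd.le
  have hs2 : s2 ≤ 1 := hSd.hi
  have hs1 : s1 ≤ 1 := hSd.le.trans hs2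
  have hEn : 0 ≤ En g := integral_nonneg fun ξ => by positivity
  have hGd : Gd g := W323.St.gd hSt (by norm_num)
  set X : ℝ := C1 * R ^ ε * (D * s2 ^ q * (s1 * s2 * R ^ 3)) with hX
  have hX0 : 0 ≤ X := by rw [hX]; have := hSt.D0; positivity
  have hSIG : SIG A r s1 s2 h g R ≤ ENNReal.ofReal ((s1 * s2 * r ^ 3) ^ (-(1/2) : ℝ)) *
      (ENNReal.ofReal (X ^ (1/2 : ℝ)) * ENNReal.ofReal (C2 * R * En g)) := by
    unfold SIG
    refine iSup_le fun I => iSup_le fun P => iSup_le fun hP => ?_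
    unfold val
    rw [← Finset.mul_sum]
    gcongr
    refine le_trans ?_ (mul_le_mul' le_rfl (H2 h hSt.par hSt.h1 r R hr hrR g hGd s1 s2 hs1 hs2 I P hP))
    rw [Finset.mul_sum]
    refine Finset.sum_le_sum fun i hi => ?_
    rw [show (3 / 2 : ℝ) = 1 / 2 + 1 by norm_num,
      ENNReal.rpow_add_of_nonneg _ _ (by norm_num) (by norm_num), ENNReal.rpow_one,
      ← ENNReal.ofReal_rpow_of_nonneg hX0 (by norm_num)]
    gcongr
    have hz := hP.mem i hi
    have h1 := H1 h g R D hSt.par hSt.meas hSt.bdd ⟨1, hSt.supp⟩ hSt.D0 hSt.box hSt.nd r hr hrR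
      (P i).z (by have := hz.2; linarith) (P i).c (P i).b ![s1, s2] (fun k => by
        fin_cases k
        · exact ⟨hSd.lo, hs1⟩
        · exact ⟨hSd.lo.trans hSd.le, hs2⟩) (P i).x (P i).S (hP.meas i hi) (hP.box i hi)
      (fun m y hy => by
        have h2 := pos_le hA hr0.le hs1 hs2 (hP.x i hi) (hP.box i hi m hy)
        have h3 : ‖y + (P i).z.1‖ ≤ ‖y‖ + ‖(P i).z.1‖ := norm_add_le _ _
        have h4 : ‖(P i).z.1‖ ≤ R := hz.1
        nlinarith)
    refine h1.trans (le_of_eq ?_)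
    simp only [Matrix.cons_val_zero, Matrix.cons_val_one, max_eq_right hSd.le]
    rw [hX]
  calc ENNReal.ofReal (s2 ^ (-q / 2)) * SIG A r s1 s2 h g R
      ≤ ENNReal.ofReal (s2 ^ (-q / 2)) * (ENNReal.ofReal ((s1 * s2 * r ^ 3) ^ (-(1/2) : ℝ)) *
          (ENNReal.ofReal (X ^ (1/2 : ℝ)) * ENNReal.ofReal (C2 * R * En g))) := by gcongr
    _ ≤ _ := by
        rw [← ENNReal.ofReal_mul (by positivity), ← ENNReal.ofReal_mul (by positivity),
          ← ENNReal.ofReal_mul (by positivity)]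
        refine ENNReal.ofReal_le_ofReal ?_
        exact triv2_arith hC1 hC2 hr hrR hSt.D0 hs10 hs20 hEn hε

end Crest.Agent.R138.W323
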