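import Crest.Agent.R138.DecDef_774

/-!
# R138 / R139: WAVE side, interface Props, part 2 (helper188): `A3k` (= `A3` for `K0 r2 ≤ r1`) and
`W3g` (the boundary slab statement under `LB (c1+)`, request of 555 / 639).
-/

set_option autoImplicit false

open MeasureTheory FourierTransform
open scoped ContDiff ENNReal

namespace Crest.Agent.R138.W188

open Crest.Agent.R138.Defs Crest.Agent.R138.Bil882 Crest.Agent.R138.Wpk685

section leaves2

variable (B : ℕ → ℝ) (q : ℝ) (F : ℝ → ℝ → ℝ → (E2 → ℝ) → (E2 → ℂ) → ℝ → ℝ≥0∞)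




end leaves2

variable {B : ℕ → ℝ} {q : ℝ} {F : ℝ → ℝ → ℝ → (E2 → ℝ) → (E2 → ℂ) → ℝ → ℝ≥0∞}

theorem A1_of_A1n {Na0 : ℕ} (H : A1n B q F Na0) : A1 B q F := fun ε hε => ⟨Na0, H ε hε⟩




end Crest.Agent.R138.W188
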