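import Crest.Agent.R138.RR5_323
import Crest.Agent.R138.DecC_685
import Crest.Agent.R138.WDef2_188
import Crest.Agent.R138.Tv3_323
import Crest.Agent.R138.Wpk9_685

/-!
# R138 wave side (helper323): re-rooting over `DecOut` (DEC with classes)
-/

set_option autoImplicit false
set_option linter.unusedVariables false

open MeasureTheory FourierTransform
open scoped ContDiff ENNReal

namespace Crest.Agent.R138.W323

open Crest.Agent.R138.Defs Crest.Agent.R138.Bil882 Crest.Agent.R138.W188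
open Crest.Agent.R138.Wpk685
open Crest.Agent.R138.T774 (haar3 cyl_eq finrank3)

/-- the total contribution of the rest, with a power to spare. -/
theorem rest_totalK {C3 R D r2 s1 s2 q M0 e n b K : ℝ} {F k0 : ℕ} (hC3 : 0 ≤ C3)
    (hR : 1 ≤ R) (hr2 : R ^ (1/2 : ℝ) ≤ r2) (h2R : r2 ≤ R) (hSd : Sd r2 s1 s2) (he : 0 ≤ e)
    (hb : 0 ≤ b) (hK : 0 ≤ K)
    {C2 : ℝ} (hC2 : 0 ≤ C2) (hn0 : 0 ≤ n) (hn : n ≤ C2 * R ^ b) (hF : (F : ℝ) ≤ 216 * (R / r2) ^ 3)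
    (hnd : e ≤ R ^ M0 * D) (hk0 : 10 + |q| + |M0| + 2 * b + K ≤ k0) :
    ENNReal.ofReal (s2 ^ (-q / 2)) * (ENNReal.ofReal (2 * (n + 1) ^ 2) *
      (ENNReal.ofReal ((s1 * s2 * r2 ^ 3) ^ (-(1/2) : ℝ)) *
        (ENNReal.ofReal r2 * ((F : ℝ≥0∞) * ENNReal.ofReal (C3 * (R ^ (-(k0 : ℝ)) * e)))) ^
          (3 / 2 : ℝ))) ≤
      ENNReal.ofReal (2 * (C2 + 1) ^ 2 * (216 * C3) ^ (3/2 : ℝ) * R ^ (-K) *
        (R * e * Real.sqrt D)) := by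
  have hR0 : 0 < R := by linarith
  have hr2' : 1 ≤ r2 := (Real.one_le_rpow hR (by norm_num)).trans hr2
  have hr20 : 0 < r2 := by linarith
  have hs1 : 0 < s1 := (by positivity : (0:ℝ) < r2 ^ (-(1/2) : ℝ)).trans_le hSd.lo
  have hs2 : 0 < s2 := hs1.trans_le hSd.le
  have hk : (0:ℝ) ≤ k0 := Nat.cast_nonneg _
  -- everything is real
  rw [← ENNReal.ofReal_natCast, ← ENNReal.ofReal_mul (Nat.cast_nonneg _),
    ← ENNReal.ofReal_mul hr20.le, ENNReal.ofReal_rpow_of_nonneg (by positivity) (by norm_num),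
    ← ENNReal.ofReal_mul (by positivity), ← ENNReal.ofReal_mul (by positivity),
    ← ENNReal.ofReal_mul (by positivity)]
  refine ENNReal.ofReal_le_ofReal ?_
  have a1 : s2 ^ (-q / 2) ≤ R ^ (|q| / 4) := by
    rcases le_or_gt 0 q with hq | hq
    · have h1 : r2 ^ (-(1/2) : ℝ) ≤ s2 := hSd.lo.trans hSd.le
      calc s2 ^ (-q / 2) ≤ (r2 ^ (-(1/2) : ℝ)) ^ (-q / 2) :=
            Real.rpow_le_rpow_of_nonpos (by positivity) h1 (by linarith)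
        _ = r2 ^ (|q| / 4) := by
            rw [← Real.rpow_mul hr20.le, abs_of_nonneg hq]; congr 1; ring
        _ ≤ R ^ (|q| / 4) := by gcongr
    · calc s2 ^ (-q / 2) ≤ 1 := Real.rpow_le_one hs2.le hSd.hi (by linarith)
        _ ≤ R ^ (|q| / 4) := Real.one_le_rpow hR (by positivity)
  have a2 : 2 * (n + 1) ^ 2 ≤ 2 * ((C2 + 1) ^ 2 * R ^ (2 * b)) := by
    have h1 : n + 1 ≤ (C2 + 1) * R ^ b := by
      have : 1 ≤ R ^ b := Real.one_le_rpow hR hb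
      nlinarith
    have h2 : R ^ (2 * b) = (R ^ b) ^ 2 := by
      rw [← Real.rpow_natCast, ← Real.rpow_mul hR0.le]; congr 1; push_cast; ring
    rw [h2, ← mul_pow]
    gcongr
  have a3 : (s1 * s2 * r2 ^ 3) ^ (-(1/2) : ℝ) ≤ 1 := by
    refine Real.rpow_le_one_of_one_le_of_nonpos ?_ (by norm_num)
    have h1 : r2 ^ (-(1/2) : ℝ) * r2 ^ (-(1/2) : ℝ) ≤ s1 * s2 := by
      have := hSd.lo
      have := hSd.le
      gcongr
      linarith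
    have h2 : r2 ^ (-(1/2) : ℝ) * r2 ^ (-(1/2) : ℝ) = r2⁻¹ := by
      rw [← Real.rpow_add hr20, ← Real.rpow_neg_one]; norm_num
    rw [h2] at h1
    calc (1:ℝ) ≤ r2 ^ 2 := by nlinarith
      _ = r2⁻¹ * r2 ^ 3 := by field_simp
      _ ≤ s1 * s2 * r2 ^ 3 := by gcongr
  have a4 : (r2 * (F * (C3 * (R ^ (-(k0 : ℝ)) * e)))) ^ (3/2 : ℝ) ≤
      (216 * C3) ^ (3/2 : ℝ) * (R ^ ((4 - (k0:ℝ)) * (3/2)) * (e * (R ^ (M0 / 2) * Real.sqrt D))) := by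
    have h1 : r2 * (F * (C3 * (R ^ (-(k0 : ℝ)) * e))) ≤
        216 * C3 * (R ^ (4 - (k0:ℝ)) * e) := by
      have h2 : r2 * F ≤ 216 * R ^ (4:ℝ) := by
        have h3 : (F : ℝ) ≤ 216 * R ^ 3 := by
          refine hF.trans ?_
          gcongr
          exact div_le_self hR0.le hr2'
        calc r2 * F ≤ R * (216 * R ^ 3) := by gcongr
          _ = 216 * R ^ (4:ℝ) := by
              rw [show (4:ℝ) = ((4:ℕ):ℝ) by norm_num, Real.rpow_natCast]; ring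
      calc r2 * (F * (C3 * (R ^ (-(k0 : ℝ)) * e)))
          = (r2 * F) * (C3 * (R ^ (-(k0 : ℝ)) * e)) := by ring
        _ ≤ (216 * R ^ (4:ℝ)) * (C3 * (R ^ (-(k0 : ℝ)) * e)) := by gcongr
        _ = 216 * C3 * ((R ^ (4:ℝ) * R ^ (-(k0 : ℝ))) * e) := by ring
        _ = _ := by rw [← Real.rpow_add hR0]; ring_nf
    have h4 : e ^ (3/2 : ℝ) ≤ e * (R ^ (M0 / 2) * Real.sqrt D) := by
      have h5 : e ^ (3 / 2 : ℝ) = e * Real.sqrt e := by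
        rw [show (3 / 2 : ℝ) = 1 + 1 / 2 by norm_num, Real.rpow_add_of_nonneg he (by norm_num)
          (by norm_num), Real.rpow_one, Real.sqrt_eq_rpow]
      rw [h5]
      gcongr
      refine (Real.sqrt_le_sqrt hnd).trans ?_
      rw [Real.sqrt_mul (by positivity)]
      gcongr
      rw [Real.sqrt_eq_rpow, ← Real.rpow_mul hR0.le]
      apply le_of_eq; congr 1; ring
    calc (r2 * (F * (C3 * (R ^ (-(k0 : ℝ)) * e)))) ^ (3/2 : ℝ)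
        ≤ (216 * C3 * (R ^ (4 - (k0:ℝ)) * e)) ^ (3/2 : ℝ) := by gcongr
      _ = (216 * C3) ^ (3/2 : ℝ) * (R ^ ((4 - (k0:ℝ)) * (3/2)) * e ^ (3/2 : ℝ)) := by
          rw [Real.mul_rpow (by positivity) (by positivity), Real.mul_rpow (by positivity) he,
            ← Real.rpow_mul hR0.le]
      _ ≤ _ := by gcongr
  calc s2 ^ (-q / 2) * (2 * (n + 1) ^ 2 * ((s1 * s2 * r2 ^ 3) ^ (-(1/2) : ℝ) *
        (r2 * (F * (C3 * (R ^ (-(k0 : ℝ)) * e)))) ^ (3/2 : ℝ)))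
      ≤ R ^ (|q| / 4) * (2 * ((C2 + 1) ^ 2 * R ^ (2 * b)) * (1 * ((216 * C3) ^ (3/2 : ℝ) *
          (R ^ ((4 - (k0:ℝ)) * (3/2)) * (e * (R ^ (M0 / 2) * Real.sqrt D)))))) := by
        gcongr
    _ = 2 * (C2 + 1) ^ 2 * (216 * C3) ^ (3/2 : ℝ) *
          ((R ^ (|q| / 4) * R ^ (2 * b) * R ^ ((4 - (k0:ℝ)) * (3/2)) * R ^ (M0 / 2)) *
            (e * Real.sqrt D)) := by ring
    _ ≤ 2 * (C2 + 1) ^ 2 * (216 * C3) ^ (3/2 : ℝ) * (R ^ (-K + 1) * (e * Real.sqrt D)) := by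
        rw [← Real.rpow_add hR0, ← Real.rpow_add hR0, ← Real.rpow_add hR0]
        have h0 : R ^ (|q| / 4 + 2 * b + (4 - (k0:ℝ)) * (3/2) + M0 / 2) ≤ R ^ (-K + 1) := by
          refine Real.rpow_le_rpow_of_exponent_le hR ?_
          have h1 := le_abs_self M0
          have h2 := abs_nonneg M0
          have h3 := abs_nonneg q
          linarith
        gcongr
    _ = _ := by rw [Real.rpow_add hR0, Real.rpow_one]; ring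

set_option maxHeartbeats 1000000 in
/-- **RR over `DecOut`**; `M1` does not depend on the constant `Cn` of `DecOut`. -/
theorem rr_outM (B : ℕ → ℝ) (q A M0 : ℝ) (hA : 1 ≤ A) (b K : ℝ) (hb : 0 ≤ b)
    (hK : 0 ≤ K) : ∃ M1 : ℕ, ∀ Cn : ℝ, 0 ≤ Cn → ∃ C : ℝ, 0 ≤ C ∧ ∀ M : ℕ, M1 ≤ M →
    ∀ (Na : ℕ) (σ0 σ : ℝ) (h : E2 → ℝ) (g : E2 → ℂ) (R D : ℝ), St B q Na M0 σ0 h g R D →
    ∀ r1 : ℝ, r1 ≤ R → σ + 3 * r1 ^ (-(1/2) : ℝ) ≤ 2 →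
    ∀ nb : ℕ, (nb : ℝ) ≤ R ^ b →
    ∀ (Z : Finset (E2 × ℝ)) (ζ : E2 × ℝ → E2 × ℝ), (∀ z ∈ Z, z ∈ cyl R) →
    (∀ p ∈ cyl R, ζ p ∈ Z ∧ p - ζ p ∈ cyl r1) →
    ∀ (cls : E2 × ℝ → OrthonormalBasis (Fin 2) ℝ E2 → ℤ × ℤ → E2 → ℕ)
      (Λ : Finset ℕ) (s : ℕ → ℝ × ℝ) (cl : ℕ → ℕ)
      (G : E2 × ℝ → ℕ → E2 → ℂ) (D' : E2 × ℝ → ℕ → ℝ) (rest : E2 × ℝ → E2 → ℂ)
      (I : E2 × ℝ → ℕ → Finset ℕ) (P : E2 × ℝ → ℕ → ℕ → Plate),
    (Λ.card : ℝ) ≤ Cn * R ^ b →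
    (∀ z ∈ Z, DecOut q A σ Cn B nb M h g R r1 z (cls z) Λ s cl (G z) (D' z) (rest z)
      (I z) (P z)) →
    ∀ r2 s1 s2 : ℝ, R ^ (1/2 : ℝ) ≤ r2 → A * r2 ≤ r1 → Sd r2 s1 s2 →
      ENNReal.ofReal (s2 ^ (-q / 2)) * SIG A r2 s1 s2 h g R ≤
        ENNReal.ofReal (2 * ((Λ.card : ℝ) + 1) ^ 2) * (∑ z ∈ Z, ∑ k ∈ Λ,
          ENNReal.ofReal (s2 ^ (-q / 2)) * SIG A r2 s1 s2 h (G z k) r1) +
        ENNReal.ofReal (C * R ^ (-K) * SS g R D) := by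
  set k0 : ℕ := ⌈10 + |q| + |M0| + 2 * b + K⌉₊ with hk0
  have hk0' : 10 + |q| + |M0| + 2 * b + K ≤ k0 := Nat.le_ceil _
  obtain ⟨C1, hC1, Hen⟩ := exists_en_le B (4 * (k0 + 1))
  refine ⟨k0 + 1 + ⌈b⌉₊, fun Cn hCn => ?_⟩
  set C3 : ℝ := C1 * (64 * Cn ^ 2 + Cn) with hC3
  have hC3' : 0 ≤ C3 := by rw [hC3]; positivity
  refine ⟨2 * (Cn + 1) ^ 2 * (216 * C3) ^ (3/2 : ℝ), by positivity, ?_⟩
  intro M hM Na σ0 σ h g R D hSt r1 hr1R hσ nb hnb Z ζ hZ1 hζ cls Λ s cl G D' rest I P hcard HD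
    r2 s1 s2 hr2 h21 hSd
  have hR : 1 ≤ R := hSt.R1
  have hR0 : 0 < R := by linarith
  have hr2' : 1 ≤ r2 := (Real.one_le_rpow hR (by norm_num)).trans hr2
  have hr20 : 0 < r2 := by linarith
  have h21' : r2 ≤ r1 := by nlinarith
  have hr1 : R ^ (1/2 : ℝ) ≤ r1 := hr2.trans h21'
  have hr10 : 0 < r1 := by linarith
  have hhc : Continuous h := hSt.par.1.continuous
  have hs2 : s2 ≤ 1 := hSd.hi
  have hs1 : s1 ≤ 1 := hSd.le.trans hs2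
  have hEn : 0 ≤ En g := integral_nonneg fun ξ => by positivity
  have hGd : ∀ z ∈ Z, ∀ k ∈ Λ, Gd (G z k) := fun z hz k hk =>
    W323.St.gd ((HD z hz).st k hk) hσ
  have hGe : ∀ z ∈ Z, Gd (rest z) := fun z hz =>
    ⟨(HD z hz).rmeas, (HD z hz).rbdd, (HD z hz).rsupp⟩
  -- the rest
  set ρ : ℝ := r2 ^ (-(1/2) : ℝ) with hρ
  have hρ0 : 0 < ρ := by rw [hρ]; positivity
  have hρ1 : ρ ≤ 1 := Real.rpow_le_one_of_one_le_of_nonpos hr2' (by norm_num)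
  have hsmall : ∀ z ∈ Z, ∀ p : E2 × ℝ, ‖p.1‖ ≤ 8 * r1 → |p.2| ≤ 8 * r1 →
      ‖ext h (rest z) p.1 p.2‖ ≤ Cn * R ^ (-((k0 + 1 : ℕ) : ℝ)) * Real.sqrt (En g) := by
    intro z hz p h1 h2
    refine ((HD z hz).small p h1 h2).trans ?_
    have h3 : (nb : ℝ) * R ^ (-(M : ℝ)) ≤ R ^ (-((k0 + 1 : ℕ) : ℝ)) := by
      calc (nb : ℝ) * R ^ (-(M : ℝ)) ≤ R ^ b * R ^ (-(M : ℝ)) := by gcongr
        _ = R ^ (b + -(M : ℝ)) := (Real.rpow_add hR0 _ _).symm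
        _ ≤ _ := by
          refine Real.rpow_le_rpow_of_exponent_le hR ?_
          have h4 : ((k0 + 1 + ⌈b⌉₊ : ℕ) : ℝ) ≤ M := by exact_mod_cast hM
          have h5 : b ≤ ⌈b⌉₊ := Nat.le_ceil _
          push_cast at h4 ⊢
          linarith
    calc Cn * nb * R ^ (-(M : ℝ)) * Real.sqrt (En g) =
        Cn * (nb * R ^ (-(M : ℝ))) * Real.sqrt (En g) := by ring
      _ ≤ _ := by gcongr
  set W : ℝ := C3 * (R ^ (-(k0 : ℝ)) * En g) with hWdef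
  have hW : ∀ z ∈ Z, ∀ z' ∈ cyl r1, en ρ (tr h z' (rest z))
      (fun _ => Metric.closedBall 0 (3 * A * r2)) ≤ ENNReal.ofReal W := by
    intro z hz z' hz'
    have h1 := Hen h hSt.par ρ (3 * A * r2) hρ0 hρ1 (tr h z' (rest z))
      (W323.Gd.tr hhc (hGe z hz) z') (fun _ => Metric.closedBall 0 (3 * A * r2))
      (fun _ _ => Metric.isClosed_closedBall.measurableSet) (fun _ _ y hy => by simpa using hy)
    refine h1.trans ?_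
    have h2 := WE_bw_le (4 * (k0 + 1)) (ρ := ρ) (a := 3 * A * r2) (d := r1)
      (β := Cn * R ^ (-((k0 + 1 : ℕ) : ℝ)) * Real.sqrt (En g)) hρ0.le (by positivity) hr10.le
      (by positivity) (W323.Gd.tr hhc (hGe z hz) z') (fun x hx => by
        rw [fourierInv_tr]
        refine hsmall z hz (x + z'.1, z'.2) ?_ ?_
        · have h3 : ‖x + z'.1‖ ≤ ‖x‖ + ‖z'.1‖ := norm_add_le _ _
          have h4 : ‖z'.1‖ ≤ r1 := hz'.1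
          simp only
          nlinarith
        · have h4 : |z'.2| ≤ r1 := hz'.2
          simp only
          linarith)
    refine (mul_le_mul' le_rfl h2).trans ?_
    rw [← ENNReal.ofReal_mul hC1]
    refine ENNReal.ofReal_le_ofReal ?_
    rw [En_tr]
    have h5 := rest_W (C1 := C1) (C2 := Cn) (R := R) (r1 := r1) (r2 := r2) (ρ := ρ) (A := A)
      (e := En g) (e' := En (rest z))
      (β := Cn * R ^ (-((k0 + 1 : ℕ) : ℝ)) * Real.sqrt (En g)) (ε' := 0) (k0 := k0)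
      hC1 hCn hR hA hr2 h21 hr1R hρ hEn zero_le_one rfl (by
        rw [Real.rpow_zero, mul_one]; exact (HD z hz).ren)
    rw [hWdef, hC3]
    exact h5
  -- the core
  set F : ℕ := ⌊216 * (R / r2) ^ 3⌋₊ with hFdef
  have hFc : (F : ℝ) ≤ 216 * (R / r2) ^ 3 := Nat.floor_le (by positivity)
  have hcore : SIG A r2 s1 s2 h g R ≤ 2 * ((Λ.card : ℝ≥0∞) + 1) ^ 2 *
      (∑ z ∈ Z, ∑ k ∈ Λ, SIG A r2 s1 s2 h (G z k) r1 +
        ENNReal.ofReal ((s1 * s2 * r2 ^ 3) ^ (-(1/2) : ℝ)) *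
          (ENNReal.ofReal r2 * ((F : ℝ≥0∞) * ENNReal.ofReal W)) ^ (3 / 2 : ℝ)) := by
    unfold SIG
    refine iSup_le fun I => iSup_le fun P => iSup_le fun hP => ?_
    refine rr_core (Z := Z) (ζ := ζ) hhc (by linarith) hr20.le hs1 hs2 hζ
      Λ G rest hGd hGe (fun z hz => funext fun ξ => (HD z hz).sum ξ) (ENNReal.ofReal W) hW I P
      hP F (fun t ht1 ht2 => ?_)
    refine Nat.le_floor ?_
    exact card_net hr20 (h21'.trans hr1R) t ht1 ht2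
  calc ENNReal.ofReal (s2 ^ (-q / 2)) * SIG A r2 s1 s2 h g R
      ≤ ENNReal.ofReal (s2 ^ (-q / 2)) * (2 * ((Λ.card : ℝ≥0∞) + 1) ^ 2 *
        (∑ z ∈ Z, ∑ k ∈ Λ, SIG A r2 s1 s2 h (G z k) r1 +
          ENNReal.ofReal ((s1 * s2 * r2 ^ 3) ^ (-(1/2) : ℝ)) *
            (ENNReal.ofReal r2 * ((F : ℝ≥0∞) * ENNReal.ofReal W)) ^ (3 / 2 : ℝ))) := by
        gcongr
    _ = ENNReal.ofReal (2 * ((Λ.card : ℝ) + 1) ^ 2) * (∑ z ∈ Z, ∑ k ∈ Λ,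
          ENNReal.ofReal (s2 ^ (-q / 2)) * SIG A r2 s1 s2 h (G z k) r1) +
        ENNReal.ofReal (s2 ^ (-q / 2)) * (ENNReal.ofReal (2 * ((Λ.card : ℝ) + 1) ^ 2) *
          (ENNReal.ofReal ((s1 * s2 * r2 ^ 3) ^ (-(1/2) : ℝ)) *
            (ENNReal.ofReal r2 * ((F : ℝ≥0∞) * ENNReal.ofReal W)) ^ (3 / 2 : ℝ))) := by
        have e1 : (2 * ((Λ.card : ℝ≥0∞) + 1) ^ 2) = ENNReal.ofReal (2 * ((Λ.card : ℝ) + 1) ^ 2) := by
          rw [ENNReal.ofReal_mul (by norm_num), ENNReal.ofReal_pow (by positivity),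
            ENNReal.ofReal_add (Nat.cast_nonneg _) zero_le_one, ENNReal.ofReal_natCast,
            ENNReal.ofReal_one, ENNReal.ofReal_ofNat]
        rw [e1]
        simp only [← Finset.mul_sum]
        ring
    _ ≤ _ := by
        gcongr
        refine (rest_totalK (C2 := Cn) hC3' hR hr2 (h21'.trans hr1R) hSd hEn hb hK hCn
          (Nat.cast_nonneg _) hcard hFc hSt.nd hk0').trans ?_
        unfold SS
        exact le_rfl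

/-- **FIN over `DecOut`**: bounds of the last SIG by sums of `SS` of the children. -/
theorem fin_out (B : ℕ → ℝ) (q A M0 : ℝ) (hA : 1 ≤ A) (b K : ℝ) (hb : 0 ≤ b)
    (hK : 0 ≤ K) : ∃ M1 : ℕ, ∀ Cn : ℝ, 0 ≤ Cn → ∃ C : ℝ, 0 ≤ C ∧ ∀ M : ℕ, M1 ≤ M →
    ∀ (Na : ℕ) (σ0 σ : ℝ) (h : E2 → ℝ) (g : E2 → ℂ) (R D : ℝ), St B q Na M0 σ0 h g R D →
    ∀ r1 : ℝ, r1 ≤ R → σ + 3 * r1 ^ (-(1/2) : ℝ) ≤ 2 →
    ∀ nb : ℕ, (nb : ℝ) ≤ R ^ b →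
    ∀ (Z : Finset (E2 × ℝ)) (ζ : E2 × ℝ → E2 × ℝ), (∀ z ∈ Z, z ∈ cyl R) →
    (∀ p ∈ cyl R, ζ p ∈ Z ∧ p - ζ p ∈ cyl r1) →
    ∀ (cls : E2 × ℝ → OrthonormalBasis (Fin 2) ℝ E2 → ℤ × ℤ → E2 → ℕ)
      (Λ : Finset ℕ) (s : ℕ → ℝ × ℝ) (cl : ℕ → ℕ)
      (G : E2 × ℝ → ℕ → E2 → ℂ) (D' : E2 × ℝ → ℕ → ℝ) (rest : E2 × ℝ → E2 → ℂ)
      (I : E2 × ℝ → ℕ → Finset ℕ) (P : E2 × ℝ → ℕ → ℕ → Plate),
    (Λ.card : ℝ) ≤ Cn * R ^ b →
    (∀ z ∈ Z, DecOut q A σ Cn B nb M h g R r1 z (cls z) Λ s cl (G z) (D' z) (rest z)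
      (I z) (P z)) →
    ∀ r2 s1 s2 Q : ℝ, R ^ (1/2 : ℝ) ≤ r2 → A * r2 ≤ r1 → Sd r2 s1 s2 → 0 ≤ Q →
      (∀ z ∈ Z, ∀ k ∈ Λ, ENNReal.ofReal (s2 ^ (-q / 2)) * SIG A r2 s1 s2 h (G z k) r1 ≤
        ENNReal.ofReal (Q * SS (G z k) r1 (D' z k))) →
      ENNReal.ofReal (s2 ^ (-q / 2)) * SIG A r2 s1 s2 h g R ≤
        ENNReal.ofReal (2 * ((Λ.card : ℝ) + 1) ^ 2 * Q) * (∑ k ∈ Λ, ∑ z ∈ Z,
          ENNReal.ofReal (SS (G z k) r1 (D' z k))) +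
        ENNReal.ofReal (C * R ^ (-K) * SS g R D) := by
  obtain ⟨M1, H⟩ := rr_outM B q A M0 hA b K hb hK
  refine ⟨M1, fun Cn hCn => ?_⟩
  obtain ⟨C, hC, H⟩ := H Cn hCn
  refine ⟨C, hC, ?_⟩
  intro M hM Na σ0 σ h g R D hSt r1 hr1R hσ nb hnb Z ζ hZ1 hζ cls Λ s cl G D' rest I P hcard HD
    r2 s1 s2 Q hr2 h21 hSd hQ hF
  refine (H M hM Na σ0 σ h g R D hSt r1 hr1R hσ nb hnb Z ζ hZ1 hζ cls Λ s cl G D' rest I P hcard
    HD r2 s1 s2 hr2 h21 hSd).trans ?_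
  refine add_le_add ?_ le_rfl
  have e1 : ENNReal.ofReal (2 * ((Λ.card : ℝ) + 1) ^ 2 * Q) =
      ENNReal.ofReal (2 * ((Λ.card : ℝ) + 1) ^ 2) * ENNReal.ofReal Q :=
    ENNReal.ofReal_mul (by positivity)
  rw [e1, mul_assoc, Finset.sum_comm]
  refine mul_le_mul' le_rfl ?_
  rw [Finset.mul_sum]
  refine Finset.sum_le_sum fun k hk => ?_
  rw [Finset.mul_sum]
  refine Finset.sum_le_sum fun z hz => ?_
  rw [← ENNReal.ofReal_mul hQ]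
  exact hF z hz k hk







end Crest.Agent.R138.W323
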