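import Crest.Agent.R138.ExtDef_188
import Crest.Agent.R138.GenRoot4_639
import Crest.Agent.R138.Rr7_323
import Crest.Agent.R138.W10_298
import Crest.Agent.R138.WAsm1_188

-- ▼ part R138/Chn1_188
section

/-!
# R138 / R139: WAVE side, chain, part 1 (helper188): ROOT, GEN, FIN over 210's `Lev`.
-/

set_option autoImplicit false

open MeasureTheory FourierTransform
open scoped ContDiff ENNReal

namespace Crest.Agent.R138.Chn188

open Crest.Agent.R138.Defs Crest.Agent.R138.Bil882 Crest.Agent.R138.Wpk685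
  Crest.Agent.R138.W188 Crest.Agent.R138.Gl210 Crest.Agent.R138.GR639

/-- 210's level as 639's level data. -/
theorem LevOk.lvD {q A σ Cn : ℝ} {B : ℕ → ℝ} {M : ℕ} {h : E2 → ℝ} {g : E2 → ℂ} {R : ℝ} {L : Lev}
    (H : LevOk q A σ Cn B M h g R L) :
    ∃ cls, LvD q A σ Cn B L.nb M h g R L.r L.Z cls (Finset.range L.n) L.s L.cl L.G L.D L.rest
      L.I L.P := by
  classical
  refine ⟨fun z => if hz : z ∈ L.Z then (H.dec z hz).choose else fun _ _ _ => 0,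
    ⟨fun k hk => H.sd k (Finset.mem_range.1 hk), H.Zmem, H.Zsep, ?_⟩⟩
  intro z hz
  simp only [dif_pos hz]
  exact (H.dec z hz).choose_spec


theorem lbl_range {n i : ℕ} (hi : i < n) : Dom878.lbl (Finset.range n) i = i := by
  unfold Dom878.lbl
  rw [Finset.sort_range, List.getD_eq_getElem _ _ (by simpa using hi)]
  simp

/-- the parent label dominates pointwise. -/
theorem Next.domi {h : E2 → ℝ} {L L' : Lev} {aux : Aux} (H : Next h L L' aux) {z : E2 × ℝ}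
    (hz : z ∈ L'.Z) {k : ℕ} (hk : k < L'.n) {i : ℕ} (hi : i ∈ L'.I z k) (m : ℤ × ℤ) {y : E2}
    (hy : y ∈ (L'.P z k i).S m) :
    Dom878.Dom (L'.r ^ (-(1/2) : ℝ)) (L.pf h z) (Finset.range L.n) (L'.par k) m y := by
  have h1 := H.arg z hz k hk i hi m y hy
  have h2 := H.par_lt k hk
  have h3 := Dom878.argi_dom (L'.r ^ (-(1/2) : ℝ)) (L.pf h z)
    (Λ := Finset.range L.n) ⟨L'.par k, Finset.mem_range.2 h2⟩ m y
  rwa [h1, lbl_range h2] at h3

/-- **ROOT**. -/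
theorem root_lev {B : ℕ → ℝ} {q A c β : ℝ} (PB : PhB B q (SIG A) c β) {e : ℝ} (he : 0 < e)
    (Na : ℕ) (M0 : ℝ) : ∃ C : ℝ, 0 ≤ C ∧
    ∀ (Cn : ℝ) (M : ℕ) (h : E2 → ℝ) (g : E2 → ℂ) (R D : ℝ) (L : Lev),
      St B q Na M0 (1/2) h g R D → LevOk q A (1/2) Cn B M h g R L → 0 ≤ Cn →
      L.r ≤ R ^ (1 - e) → ∀ k < L.n,
      L.S h g k ≤ ENNReal.ofReal (C * Real.sqrt (Cn * L.nb) * R ^ (2 * e) *
        (max 1 (R / ((L.s k).1 * L.r) ^ 2)) ^ (c / 2) * SS g R D) ∧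
      L.S h g k ≤ ENNReal.ofReal (C * Real.sqrt (Cn * L.nb) * R ^ (2 * e) *
        ((L.s k).2 ^ 2 * R) ^ (β / 2) * SS g R D) := by
  obtain ⟨C, hC, H⟩ := root_bounds PB he Na M0
  refine ⟨C, hC, ?_⟩
  intro Cn M h g R D L hSt hL hCn hr k hk
  obtain ⟨cls, hD⟩ := LevOk.lvD hL
  exact H (1/2) Cn L.nb M h g R D L.r (hSt.mono (by norm_num)) hL.lo hr hCn L.Z cls
    (Finset.range L.n) L.s L.cl L.G L.D L.rest L.I L.P hD.sd hD.sep hD.out k
    (Finset.mem_range.2 hk)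

/-- **GEN**. -/
theorem gen_lev {B : ℕ → ℝ} {q A c β : ℝ} (hA : 1 ≤ A) (PB : PhB B q (SIG A) c β) {e : ℝ}
    (he : 0 < e) : ∃ C : ℝ, 0 ≤ C ∧ ∀ (M0 K b C1 : ℝ), 0 ≤ b → 0 ≤ C1 → ∃ C' : ℝ, 0 ≤ C' ∧
    ∀ (Na M : ℕ), 13 + |q| + |M0| + |K| + 4 * b ≤ M →
    ∀ (h : E2 → ℝ) (g : E2 → ℂ) (R D : ℝ), St B q Na M0 (1/2) h g R D →
    ∀ (L L' : Lev) (aux : Aux), LevOk q A (1/2) C1 B M h g R L → LevOk q A (1/2) C1 B M h g R L' →
      Next h L L' aux → A * L'.r ≤ L.r → L'.r ≤ L.r ^ (1 - e) → 36 ≤ L.r →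
      (L.n : ℝ) ≤ C1 * R ^ b → (L.nb : ℝ) ≤ R ^ b → ∀ k < L'.n,
      L'.S h g k ≤
        ENNReal.ofReal (C * Real.sqrt (C1 * L'.nb) * C1 * ((L.n : ℝ) + 1) ^ 3 * L.r ^ (2 * e) *
          (max 1 (L.r / ((L'.s k).1 * L'.r) ^ 2)) ^ (c / 2)) * L.S h g (L'.par k) +
        ENNReal.ofReal (C' * Real.sqrt (C1 * L'.nb) * (R ^ (-K) * SS g R D)) := by
  obtain ⟨C, hC, H⟩ := gen_en hA PB he
  refine ⟨C, hC, ?_⟩
  intro M0 K b C1 hb hC1
  obtain ⟨C', hC', H⟩ := H M0 K b C1 hb hC1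
  refine ⟨C', hC', ?_⟩
  intro Na M hM h g R D hSt L L' aux hL hL' hN hA' hr hL36 hn hnb k hk
  obtain ⟨cls, hD⟩ := LevOk.lvD hL
  obtain ⟨cls', hD'⟩ := LevOk.lvD hL'
  have hL0 : 0 < L.r := by linarith
  have hσ : (1/2 : ℝ) + 3 * L.r ^ (-(1/2) : ℝ) ≤ 1 := by
    have h1 : L.r ^ (-(1/2) : ℝ) ≤ (36:ℝ) ^ (-(1/2) : ℝ) :=
      Real.rpow_le_rpow_of_nonpos (by norm_num) hL36 (by norm_num)
    have h2 : (36:ℝ) ^ (-(1/2) : ℝ) = 1/6 := by
      rw [show (36:ℝ) = 6 ^ (2:ℝ) by norm_num, ← Real.rpow_mul (by norm_num)]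
      norm_num [Real.rpow_neg_one]
    rw [h2] at h1
    linarith
  have hcard : ((Finset.range L.n).card : ℝ) = L.n := by rw [Finset.card_range]
  have hpar := hN.par_lt k hk
  have key := H Na M hM h g R D (1/2) hSt (by norm_num) L.r L'.r hL'.lo hA' hL.hi hr hσ
    L.nb M L.Z cls (Finset.range L.n) L.s L.cl L.G L.D L.rest L.I L.P le_rfl hD
    (by rw [hcard]; exact hn) hnb C1 L'.nb M L'.Z cls' (Finset.range L'.n) L'.s L'.cl L'.G L'.D
    L'.rest L'.I L'.P hC1 hD' L.ζ (fun z hz => hL.near z (hL'.Zmem z hz)) k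
    (Finset.mem_range.2 hk) (L'.par k) (Finset.mem_range.2 hpar) ?_
  · rw [hcard] at key
    exact key
  · intro z hz i hi κ hκ
    refine en_mono_pt ?_ ?_
    · intro m
      exact (((hD'.out z hz).pl k (Finset.mem_range.2 hk)).1).meas i hi m
    · intro m _ y hy
      have h1 := Next.domi hN hz hk hi m hy κ hκ
      unfold Lev.pf at h1
      rw [enorm_le_iff_norm_le]
      exact h1

/-- **FIN**. -/
theorem fin_lev {B : ℕ → ℝ} {q A c β : ℝ} (hA : 1 ≤ A) (hc : 0 ≤ c)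
    (PB : PhB B q (SIG A) c β) {e : ℝ} (he : 0 < e) (M0 b K : ℝ) (hb : 0 ≤ b) (hK : 0 ≤ K) :
    ∃ M1 : ℕ, ∃ Cf : ℝ, 0 ≤ Cf ∧ ∀ Cn : ℝ, 0 ≤ Cn → ∃ C : ℝ, 0 ≤ C ∧ ∀ M : ℕ, M1 ≤ M →
    ∀ (Na : ℕ) (h : E2 → ℝ) (g : E2 → ℂ) (R D : ℝ), St B q Na M0 (1/2) h g R D →
    ∀ L : Lev, LevOk q A (1/2) Cn B M h g R L → 36 ≤ L.r → (L.nb : ℝ) ≤ R ^ b →
      (L.n : ℝ) ≤ Cn * R ^ b →
    ∀ r s1 s2 : ℝ, R ^ (1/2 : ℝ) ≤ r → A * r ≤ L.r → r ≤ L.r ^ (1 - e) → Sd r s1 s2 →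
      ENNReal.ofReal (s2 ^ (-q / 2)) * SIG A r s1 s2 h g R ≤
        ENNReal.ofReal (2 * ((L.n : ℝ) + 1) ^ 2 * (Cf * R ^ (2 * e) * (L.r / r) ^ (c / 2)) * Cn) *
          (∑ k ∈ Finset.range L.n, L.S h g k) +
        ENNReal.ofReal (C * R ^ (-K) * SS g R D) := by
  obtain ⟨M1, H⟩ := W323.fin_out B q A M0 hA b K hb hK
  obtain ⟨Cf, hCf, HP⟩ := PB e he 6 4
  refine ⟨M1, Cf, hCf, fun Cn hCn => ?_⟩
  obtain ⟨C, hC, H⟩ := H Cn hCn
  refine ⟨C, hC, ?_⟩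
  intro M hM Na h g R D hSt L hL hL36 hnb hn r s1 s2 hr hAr hre hSd
  obtain ⟨cls, hD⟩ := LevOk.lvD hL
  have hR : 1 ≤ R := hSt.R1
  have hR0 : 0 < R := by linarith
  have hL0 : 0 < L.r := by linarith
  have hr1 : 1 ≤ r := (Real.one_le_rpow hR (by norm_num)).trans hr
  have hr0 : 0 < r := by linarith
  have hrL : r ≤ L.r := by nlinarith
  have h1 : L.r ^ (-(1/2) : ℝ) ≤ 1/6 := by
    have h1 : L.r ^ (-(1/2) : ℝ) ≤ (36:ℝ) ^ (-(1/2) : ℝ) :=
      Real.rpow_le_rpow_of_nonpos (by norm_num) hL36 (by norm_num)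
    have h2 : (36:ℝ) ^ (-(1/2) : ℝ) = 1/6 := by
      rw [show (36:ℝ) = 6 ^ (2:ℝ) by norm_num, ← Real.rpow_mul (by norm_num)]
      norm_num [Real.rpow_neg_one]
    rwa [h2] at h1
  have hcard : ((Finset.range L.n).card : ℝ) = L.n := by rw [Finset.card_range]
  obtain ⟨hs1, hs2⟩ := hSd.s2pos hr0
  obtain ⟨hf1, -⟩ := hSd.facts hr0
  set Q : ℝ := Cf * R ^ (2 * e) * (L.r / r) ^ (c / 2) with hQ
  have hQ0 : 0 ≤ Q := by positivity
  have key := H M hM Na (1/2) (1/2) h g R D hSt L.r hL.hi (by linarith) L.nb hnb L.Z L.ζ hL.Zmem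
    hL.near cls (Finset.range L.n) L.s L.cl L.G L.D L.rest L.I L.P (by rw [hcard]; exact hn)
    hD.out r s1 s2 Q hr hAr hSd hQ0 ?_
  · rw [hcard] at key
    refine key.trans ?_
    refine add_le_add ?_ le_rfl
    have h2 : ∑ k ∈ Finset.range L.n, ∑ z ∈ L.Z, ENNReal.ofReal (SS (L.G z k) L.r (L.D z k)) ≤
        ENNReal.ofReal Cn * ∑ k ∈ Finset.range L.n, L.S h g k := by
      rw [Finset.mul_sum]
      refine Finset.sum_le_sum fun k hk => ?_
      unfold Lev.S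
      rw [Finset.mul_sum]
      refine Finset.sum_le_sum fun z hz => ?_
      exact SS_le_en hL0.le (hD.out z hz) hk
    calc ENNReal.ofReal (2 * ((L.n : ℝ) + 1) ^ 2 * Q) *
          (∑ k ∈ Finset.range L.n, ∑ z ∈ L.Z, ENNReal.ofReal (SS (L.G z k) L.r (L.D z k)))
        ≤ ENNReal.ofReal (2 * ((L.n : ℝ) + 1) ^ 2 * Q) *
          (ENNReal.ofReal Cn * ∑ k ∈ Finset.range L.n, L.S h g k) := by gcongr
      _ = ENNReal.ofReal (2 * ((L.n : ℝ) + 1) ^ 2 * Q * Cn) *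
          ∑ k ∈ Finset.range L.n, L.S h g k := by
        rw [← mul_assoc, ← ENNReal.ofReal_mul (by positivity)]
  · intro z hz k hk
    have hStk : St B q 6 4 1 h (L.G z k) L.r (L.D z k) :=
      ((hD.out z hz).st k hk).mono (by linarith)
    have hr2 : L.r ^ (1/2 : ℝ) ≤ r := (Real.rpow_le_rpow hL0.le hL.hi (by norm_num)).trans hr
    have h3 := (HP h (L.G z k) L.r (L.D z k) hStk r s1 s2 hr2 hre hSd).1
    unfold Ph at h3
    refine h3.trans (ENNReal.ofReal_le_ofReal ?_)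
    have hss := hStk.ss
    refine mul_le_mul_of_nonneg_right ?_ hss
    rw [hQ]
    have h4 : L.r ^ (2 * e) ≤ R ^ (2 * e) := Real.rpow_le_rpow hL0.le hL.hi (by positivity)
    have h5 : max 1 (L.r / (s1 * r) ^ 2) ≤ L.r / r := by
      apply max_le
      · rwa [le_div_iff₀ hr0, one_mul]
      · have : r ≤ (s1 * r) ^ 2 := by nlinarith
        gcongr
    have h6 : (max 1 (L.r / (s1 * r) ^ 2)) ^ (c / 2) ≤ (L.r / r) ^ (c / 2) :=
      Real.rpow_le_rpow (by positivity) h5 (by positivity)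
    gcongr

end Crest.Agent.R138.Chn188
namespace Crest.Agent.R138.Chn188.Lev
end Crest.Agent.R138.Chn188.Lev
end

-- ▼ part R138/W10b_298
section

/-!
# R138 / R139, WAVE side, leaf W10 (helper298), direct (non-nested) form of 878 / 639

`T` = normalising quantity of the root, `S j` (`j0 ≤ j ≤ n`) = sums of the chain of classes.
Gains are measured relative to the root.
-/

set_option autoImplicit false

namespace Crest.Agent.R138.W298

/-- additive form with gains relative to the root. -/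
theorem assembly_root_add {n j0 : ℕ} (hn : j0 + 1 ≤ n)
    {t c e γ δ κ : ℝ} (he : 0 ≤ e) (hγ : κ ≤ γ)
    (hwide : 1 / 4 + κ ≤ ((n : ℝ) - 1 - j0) * (c / 2 - δ))
    (x : ℕ → ℝ) (s : ℕ → ℝ) (gain : ℕ → Prop)
    (hroot : x j0 ≤ t + c / 2 * j0 + e)
    (hG : ∀ j, j0 ≤ j → j < n → x (j + 1) ≤ x j + c / 2 + e)
    (hgain : ∀ j, j0 ≤ j → j ≤ n → gain j → x j ≤ t + (c / 2 * j - γ) + e)
    (hs : ∀ j, j0 ≤ j → j + 1 ≤ n → 0 ≤ s j ∧ s j ≤ 1 / 2 + e)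
    (hS : ∀ j, j0 ≤ j → j + 2 ≤ n → ¬ gain j → ¬ gain (j + 1) →
      x (j + 1) ≤ x j + (δ + e) + (s j - s (j + 1)) / 2) :
    x n ≤ t + (c / 2 * n - κ) + (n + 2) * e := by
  have hn0 : (0 : ℝ) ≤ n := Nat.cast_nonneg n
  have triv : ∀ a b : ℕ, j0 ≤ a → a ≤ b → b ≤ n → x b ≤ x a + ((b : ℝ) - a) * (c / 2 + e) := by
    intro a b' h0 hab hbn
    have := tele x (c / 2 + e) a (b' - a) (fun j h1 h2 => by
      have := hG j (by omega) (by omega)
      linarith)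
    have e1 : a + (b' - a) = b' := by omega
    rw [e1, Nat.cast_sub hab] at this
    exact this
  by_cases hg : ∃ j, j0 ≤ j ∧ j ≤ n ∧ gain j
  · obtain ⟨j, hj1, hjn, hgj⟩ := hg
    have h2 := hgain j hj1 hjn hgj
    have h3 := triv j n hj1 hjn le_rfl
    have h4 : ((n : ℝ) - j) * e ≤ n * e :=
      mul_le_mul_of_nonneg_right (by linarith [Nat.cast_nonneg (α := ℝ) j]) he
    nlinarith [h2, h3, h4]
  · push Not at hg
    obtain ⟨m, hm⟩ : ∃ m, n = j0 + m + 1 := ⟨n - 1 - j0, by omega⟩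
    have h2 := tele_pot x s (δ + e) j0 m (fun j hj1 hj2 =>
        hS j hj1 (by omega) (hg j hj1 (by omega)) (hg (j + 1) (by omega) (by omega)))
    have h3 := triv (j0 + m) n (by omega) (by omega) le_rfl
    have h4 := hs j0 le_rfl (by omega)
    have h5 := hs (j0 + m) (by omega) (by omega)
    have hbm : (n : ℝ) - 1 - j0 = m := by rw [hm]; push_cast; ring
    rw [hbm] at hwide
    push_cast at h3
    have hm0 : (0 : ℝ) ≤ m := Nat.cast_nonneg m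
    have hmn : (m : ℝ) + 1 ≤ n := by rw [hm]; push_cast; linarith [Nat.cast_nonneg (α := ℝ) j0]
    have h6 : ((m : ℝ) + 1) * e ≤ n * e := mul_le_mul_of_nonneg_right hmn he
    have h7 : (n : ℝ) = j0 + m + 1 := by rw [hm]; push_cast; ring
    nlinarith [h2, h3, h4.2, h5.1, hwide, hroot, h6, h7]

/-- number of levels. -/
theorem params_root {c1 : ℝ} (hc1 : 0 < c1) (j0 : ℕ) : ∃ n0 : ℕ, ∀ n, n0 ≤ n → j0 + 1 ≤ n ∧
    ∀ c δ : ℝ, c1 ≤ c → δ ≤ c1 / 4 → (1 / 4 + 1 / 4 : ℝ) ≤ ((n : ℝ) - 1 - j0) * (c / 2 - δ) := by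
  obtain ⟨n1, hn1⟩ := exists_nat_ge (1 + j0 + 2 / c1)
  refine ⟨max n1 (j0 + 1), fun n hn => ⟨(le_max_right _ _).trans hn, fun c δ hc hδ => ?_⟩⟩
  have hn3 : (n1 : ℝ) ≤ n := by exact_mod_cast (le_max_left _ _).trans hn
  have h1 : c1 / 4 ≤ c / 2 - δ := by linarith
  have h3 : 2 / c1 * (c1 / 4) = 1 / 2 := by field_simp; norm_num
  have h4 : 0 < 2 / c1 := by positivity
  calc (1 / 4 + 1 / 4 : ℝ) = 2 / c1 * (c1 / 4) := by rw [h3]; norm_num
    _ ≤ ((n : ℝ) - 1 - j0) * (c1 / 4) := mul_le_mul_of_nonneg_right (by linarith) (by linarith)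
    _ ≤ _ := mul_le_mul_of_nonneg_left h1 (by linarith)


/-- additive form, gains relative to the root or to the parent. -/
theorem assembly_root2_add {n j0 : ℕ} (hn : j0 + 1 ≤ n)
    {t c e γ δ κ : ℝ} (he : 0 ≤ e) (hγ : κ ≤ γ)
    (hwide : 1 / 4 + κ ≤ ((n : ℝ) - 1 - j0) * (c / 2 - δ))
    (x : ℕ → ℝ) (s : ℕ → ℝ) (gain : ℕ → Prop)
    (hroot : x j0 ≤ t + c / 2 * j0 + e)
    (hG : ∀ j, j0 ≤ j → j < n → x (j + 1) ≤ x j + c / 2 + e)
    (hgain : ∀ j, j0 ≤ j → j ≤ n → gain j → x j ≤ t + (c / 2 * j - γ) + e ∨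
      ∃ i, j0 ≤ i ∧ j = i + 1 ∧ x j ≤ x i + (c / 2 - γ) + e)
    (hs : ∀ j, j0 ≤ j → j + 1 ≤ n → 0 ≤ s j ∧ s j ≤ 1 / 2 + e)
    (hS : ∀ j, j0 ≤ j → j + 2 ≤ n → ¬ gain j → ¬ gain (j + 1) →
      x (j + 1) ≤ x j + (δ + e) + (s j - s (j + 1)) / 2) :
    x n ≤ t + (c / 2 * n - κ) + (n + 2) * e := by
  have hn0 : (0 : ℝ) ≤ n := Nat.cast_nonneg n
  have triv : ∀ a b : ℕ, j0 ≤ a → a ≤ b → b ≤ n → x b ≤ x a + ((b : ℝ) - a) * (c / 2 + e) := by
    intro a b' h0 hab hbn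
    have := tele x (c / 2 + e) a (b' - a) (fun j h1 h2 => by
      have := hG j (by omega) (by omega)
      linarith)
    have e1 : a + (b' - a) = b' := by omega
    rw [e1, Nat.cast_sub hab] at this
    exact this
  by_cases hg : ∃ i, j0 ≤ i ∧ i + 1 ≤ n ∧ x (i + 1) ≤ x i + (c / 2 - γ) + e
  · obtain ⟨i, hi0, hin, hi⟩ := hg
    have h1 := triv j0 i le_rfl hi0 (by omega)
    have h2 := triv (i + 1) n (by omega) hin le_rfl
    have h3 : ((n : ℝ) - j0) * e ≤ n * e :=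
      mul_le_mul_of_nonneg_right (by linarith [Nat.cast_nonneg (α := ℝ) j0]) he
    push_cast at h2
    nlinarith [h1, h2, hi, h3, hroot]
  · refine assembly_root_add hn he hγ hwide x s gain hroot hG (fun j h1 h2 h3 => ?_) hs hS
    rcases hgain j h1 h2 h3 with h | ⟨i, hi0, rfl, hi⟩
    · exact h
    · exact absurd ⟨i, hi0, h2, hi⟩ hg

/-- **W10, direct form, multiplicative; a gain level may be a gain relative to the root (thick,
narrow) or relative to the parent (misaligned).** -/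
theorem assembly_root2 {c1 : ℝ} (hc1 : 0 < c1) (j0 : ℕ) : ∃ n0 : ℕ, ∀ n, n0 ≤ n →
    j0 + 1 ≤ n ∧
    ∀ c γ δ : ℝ, c1 ≤ c → δ ≤ c1 / 4 → ∀ X E T : ℝ, 1 < X → 1 ≤ E → 0 ≤ T →
    ∀ (S : ℕ → ℝ) (s : ℕ → ℝ) (gain : ℕ → Prop),
    (∀ j, j0 ≤ j → j ≤ n → 0 ≤ S j) →
    (S j0 ≤ E * X ^ (c / 2 * j0) * T) →
    (∀ j, j0 ≤ j → j < n → S (j + 1) ≤ E * X ^ (c / 2) * S j) →
    (∀ j, j0 ≤ j → j ≤ n → gain j → S j ≤ E * X ^ (c / 2 * j - γ) * T ∨
      ∃ i, j0 ≤ i ∧ j = i + 1 ∧ S j ≤ E * X ^ (c / 2 - γ) * S i) →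
    (∀ j, j0 ≤ j → j + 1 ≤ n → 1 ≤ s j ∧ s j ≤ E * X ^ (1 / 2 : ℝ)) →
    (∀ j, j0 ≤ j → j + 2 ≤ n → ¬ gain j → ¬ gain (j + 1) →
      S (j + 1) ≤ E * X ^ δ * (s j / s (j + 1)) ^ (1 / 2 : ℝ) * S j) →
    S n ≤ E ^ (n + 2) * X ^ (c / 2 * n - min γ (1 / 4)) * T := by
  obtain ⟨n0, hpar⟩ := params_root hc1 j0
  refine ⟨n0, fun n hn => ?_⟩
  obtain ⟨hn2, hw'⟩ := hpar n hn
  refine ⟨hn2, ?_⟩
  intro c γ δ hc hδ X E T hX hE hT0 S s gain hS0 hroot hG hgain hs hS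
  have hX0 : 0 < X := by linarith
  have hE0 : 0 < E := by linarith
  have hl : 0 < Real.log X := Real.log_pos hX
  by_cases hSn : S n = 0
  · rw [hSn]
    positivity
  have hpos : ∀ m, m + j0 ≤ n → 0 < S (n - m) := by
    intro m
    induction m with
    | zero => intro _; exact lt_of_le_of_ne (hS0 n (by omega) le_rfl) (Ne.symm hSn)
    | succ m ih =>
      intro hm
      have h1 := ih (by omega)
      refine lt_of_le_of_ne (hS0 _ (by omega) (by omega)) (fun h => ?_)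
      have h2 := hG (n - (m + 1)) (by omega) (by omega)
      rw [← h, mul_zero, show n - (m + 1) + 1 = n - m by omega] at h2
      linarith
  have hpos' : ∀ j, j0 ≤ j → j ≤ n → 0 < S j := fun j hj0 hj => by
    have := hpos (n - j) (by omega)
    rwa [show n - (n - j) = j by omega] at this
  have hT : 0 < T := by
    refine lt_of_le_of_ne hT0 (fun h => ?_)
    have h1 := hpos' j0 le_rfl (by omega)
    rw [← h, mul_zero] at hroot
    linarith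
  have he : 0 ≤ Real.log E / Real.log X := div_nonneg (Real.log_nonneg hE) hl.le
  have hw := hw' c δ hc hδ
  have key := assembly_root2_add (n := n) (j0 := j0) hn2 (t := Real.log T / Real.log X)
    (c := c) (e := Real.log E / Real.log X) (γ := γ) (δ := δ)
    (κ := min γ (1 / 4)) he (min_le_left _ _)
    (by have := min_le_right γ (1 / 4 : ℝ); linarith)
    (fun j => Real.log (S j) / Real.log X)
    (fun j => Real.log (s j) / Real.log X) gain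
    (log_step hX hE hT (hpos' j0 le_rfl (by omega)) hroot)
    (fun j hj0' hj => log_step hX hE (hpos' j hj0' hj.le) (hpos' (j + 1) (by omega) hj)
      (hG j hj0' hj))
    (fun j hj0' hj hg => by
      rcases hgain j hj0' hj hg with h | ⟨i, hi0, hji, hi⟩
      · exact Or.inl (log_step hX hE hT (hpos' j hj0' hj) h)
      · exact Or.inr ⟨i, hi0, hji,
          log_step hX hE (hpos' i hi0 (by omega)) (hpos' j hj0' hj) hi⟩)
    (fun j h1 h2 => log_pot hX hE (hs j h1 h2).1 (hs j h1 h2).2)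
    (fun j h1 h2 h3 h4 => by
      have := log_step_pot hX hE (hpos' j h1 (by omega)) (hpos' (j + 1) (by omega) (by omega))
        (lt_of_lt_of_le one_pos (hs j h1 (by omega)).1)
        (lt_of_lt_of_le one_pos (hs (j + 1) (by omega) (by omega)).1) (hS j h1 h2 h3 h4)
      linarith)
  refine exp_back hX hE hT (hpos' n (by omega) le_rfl) ?_
  push_cast
  exact key

/-- **W10, direct form with tiny terms (210's shape).** `T` = `SS` of the root, `τ` = tiny,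
`X = 1/dl`, `E` = loss, `p j ∈ [1, E X^(1/2)]`, flag `good j` = label of level `j` thin and wide.
The alternative of the step (misaligned part) is a summand. -/
theorem assembly_tiny {c1 : ℝ} (hc1 : 0 < c1) (j0 : ℕ) : ∃ n0 : ℕ, ∀ M, n0 ≤ M →
    j0 + 1 ≤ M ∧
    ∀ c γ δ : ℝ, c1 ≤ c → 0 ≤ γ → 0 ≤ δ → δ ≤ c1 / 4 → ∀ X E T τ : ℝ, 1 < X → 1 ≤ E → 0 ≤ T →
    0 ≤ τ → ∀ (S : ℕ → ℝ) (p : ℕ → ℝ) (good : ℕ → Prop),
    (∀ j, j0 ≤ j → j ≤ M → 0 ≤ S j) →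
    (S j0 ≤ E * X ^ (c / 2 * j0) * T + τ) →
    (∀ j, j0 ≤ j → j < M → S (j + 1) ≤ E * X ^ (c / 2) * S j + τ) →
    (∀ j, j0 ≤ j → j ≤ M → ¬ good j → S j ≤ E * X ^ (c / 2 * j - γ) * T + τ) →
    (∀ j, j0 ≤ j → j ≤ M → 1 ≤ p j ∧ p j ≤ E * X ^ (1 / 2 : ℝ)) →
    (∀ j, j0 ≤ j → j + 1 ≤ M → good j → good (j + 1) →
      S (j + 1) ≤ E * X ^ δ * (p j / p (j + 1)) ^ (1 / 2 : ℝ) * S j
        + E * X ^ (c / 2 - γ) * S j + τ) →
    S M ≤ (2 * E) ^ (M + 2) * X ^ (c / 2 * M - min γ (1 / 4)) *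
      (T + X ^ γ * (2 * E * X) ^ (M + 1) * τ) := by
  obtain ⟨n0, H⟩ := assembly_root2 hc1 j0
  refine ⟨n0, fun M hM => ?_⟩
  obtain ⟨hM2, H⟩ := H M hM
  refine ⟨hM2, ?_⟩
  intro c γ δ hc hγ hδ0 hδ X E T τ hX hE hT hτ S p good hS0 hroot hG hgain hp hS
  have hX0 : 0 < X := by linarith
  have hE0 : 0 < E := by linarith
  have hc0 : 0 < c := by linarith
  set W : ℝ := 2 * E * X with hW
  have hW2 : 2 ≤ W := by
    rw [hW]
    nlinarith [mul_le_mul hE hX.le (by norm_num) hE0.le]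
  have hW1 : 1 ≤ W := by linarith
  have hW0 : 0 < W := by linarith
  have hWp : ∀ m : ℕ, 1 ≤ W ^ m := fun m => one_le_pow₀ hW1
  -- the modified numbers
  set S' : ℕ → ℝ := fun j => S j + W ^ (M + 1 - j) * τ with hS'
  set T' : ℝ := T + X ^ γ * W ^ (M + 1) * τ with hT'
  have hXγ : 1 ≤ X ^ γ := Real.one_le_rpow hX.le hγ
  have hT'0 : 0 ≤ T' := by positivity
  have hpw : ∀ j, j ≤ M → W ^ (M + 1 - j) * W = W ^ (M + 1 - j + 1) := fun j _ => by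
    rw [pow_succ]
  have hsucc : ∀ j, j < M → W ^ (M + 1 - j) = W * W ^ (M + 1 - (j + 1)) := fun j hj => by
    rw [show M + 1 - j = (M + 1 - (j + 1)) + 1 by omega, pow_succ, mul_comm]
  -- tiny absorbed
  have habs : ∀ j : ℕ, τ + W ^ (M + 1 - j) * τ ≤ 2 * W ^ (M + 1 - j) * τ := by
    intro j
    have := hWp (M + 1 - j)
    nlinarith
  have h2E : 1 ≤ 2 * E := by linarith
  have hle : ∀ {a b : ℝ}, a ≤ b → 0 ≤ τ → a * τ ≤ b * τ := fun h h' =>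
    mul_le_mul_of_nonneg_right h h'
  have hXc : ∀ j : ℕ, 1 ≤ X ^ (c / 2 * (j : ℝ)) := fun j =>
    Real.one_le_rpow hX.le (by positivity)
  -- powers of `W` at level `j ≤ M` against `W ^ (M+1)`
  have hWM : ∀ j, W ^ (M + 1 - j) ≤ W ^ (M + 1) := fun j =>
    pow_le_pow_right₀ hW1 (Nat.sub_le _ _)
  have key := H c γ δ hc hδ X (2 * E) T' hX h2E hT'0 S' p
    (fun j => ¬ good j ∨ ∃ i, j0 ≤ i ∧ j = i + 1 ∧ S' j ≤ 2 * E * X ^ (c / 2 - γ) * S' i)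
    (fun j h1 h2 => by
      have := hS0 j h1 h2
      have := hWp (M + 1 - j)
      simp only [hS']
      positivity)
    (by
      have h1 : W ^ (M + 1 - j0) ≤ W ^ (M + 1) := hWM j0
      have h2 := habs j0
      have h3 : 2 * W ^ (M + 1 - j0) * τ ≤ 2 * E * X ^ (c / 2 * j0) * (X ^ γ * W ^ (M + 1) * τ) := by
        have e1 : 2 * E * X ^ (c / 2 * (j0 : ℝ)) * (X ^ γ * W ^ (M + 1) * τ) =
          (2 * (E * X ^ (c / 2 * (j0 : ℝ)) * X ^ γ) * W ^ (M + 1)) * τ := by ring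
        rw [e1]
        refine hle ?_ hτ
        have h4 : 1 ≤ E * X ^ (c / 2 * (j0 : ℝ)) * X ^ γ :=
          one_le_mul_of_one_le_of_one_le (one_le_mul_of_one_le_of_one_le hE (hXc j0)) hXγ
        have h5 : 0 ≤ W ^ (M + 1) := by positivity
        nlinarith
      have h6 : 0 ≤ E * X ^ (c / 2 * (j0 : ℝ)) * T := by positivity
      simp only [hS', hT']
      nlinarith)
    (fun j h1 h2 => by
      have h3 := hG j h1 h2
      have h4 := habs (j + 1)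
      have h5 : 2 * W ^ (M + 1 - (j + 1)) * τ ≤ 2 * E * X ^ (c / 2) * (W ^ (M + 1 - j) * τ) := by
        rw [hsucc j h2]
        have e1 : 2 * E * X ^ (c / 2) * (W * W ^ (M + 1 - (j + 1)) * τ) =
          (2 * (E * X ^ (c / 2) * W) * W ^ (M + 1 - (j + 1))) * τ := by ring
        rw [e1]
        refine hle ?_ hτ
        have h4 : 1 ≤ E * X ^ (c / 2) * W :=
          one_le_mul_of_one_le_of_one_le (one_le_mul_of_one_le_of_one_le hE
            (Real.one_le_rpow hX.le (by positivity))) hW1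
        have h5 : 0 ≤ W ^ (M + 1 - (j + 1)) := by positivity
        nlinarith
      have h6 : 0 ≤ E * X ^ (c / 2) * S j := mul_nonneg (by positivity) (hS0 j h1 h2.le)
      simp only [hS']
      nlinarith)
    (fun j h1 h2 h3 => by
      rcases h3 with h3 | h3
      · left
        have h4 := hgain j h1 h2 h3
        have h5 := habs j
        have h6 : 2 * W ^ (M + 1 - j) * τ ≤
            2 * E * X ^ (c / 2 * (j : ℝ) - γ) * (X ^ γ * W ^ (M + 1) * τ) := by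
          have e2 : X ^ (c / 2 * (j : ℝ) - γ) * X ^ γ = X ^ (c / 2 * (j : ℝ)) := by
            rw [← Real.rpow_add hX0]
            congr 1
            ring
          have e1 : 2 * E * X ^ (c / 2 * (j : ℝ) - γ) * (X ^ γ * W ^ (M + 1) * τ) =
            (2 * (E * (X ^ (c / 2 * (j : ℝ) - γ) * X ^ γ)) * W ^ (M + 1)) * τ := by ring
          rw [e1, e2]
          refine hle ?_ hτ
          have h7 : 1 ≤ E * X ^ (c / 2 * (j : ℝ)) := one_le_mul_of_one_le_of_one_le hE (hXc j)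
          have h8 : 0 ≤ W ^ (M + 1) := by positivity
          have h9 := hWM j
          nlinarith
        have h7 : 0 ≤ E * X ^ (c / 2 * (j : ℝ) - γ) * T := by positivity
        simp only [hS', hT']
        nlinarith
      · right
        exact h3)
    (fun j h1 h2 => by
      obtain ⟨h3, h4⟩ := hp j h1 (by omega)
      refine ⟨h3, h4.trans ?_⟩
      have : 0 < X ^ (1 / 2 : ℝ) := by positivity
      nlinarith)
    (fun j h1 h2 h3 h4 => by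
      simp only [not_or, not_not] at h3 h4
      have h5 := hS j h1 (by omega) h3.1 h4.1
      have h6 : ¬ S' (j + 1) ≤ 2 * E * X ^ (c / 2 - γ) * S' j := fun h =>
        h4.2 ⟨j, h1, rfl, h⟩
      push Not at h6
      have hpj := hp j h1 (by omega)
      have hpj1 := hp (j + 1) (by omega) (by omega)
      have hSj := hS0 j h1 (by omega)
      set r : ℝ := (p j / p (j + 1)) ^ (1 / 2 : ℝ) with hr
      have hr0 : 0 < r := by
        have : 0 < p j := by linarith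
        have : 0 < p (j + 1) := by linarith
        positivity
      -- `r ≥ 1 / (E X)`
      have hrlow : 1 ≤ E * X * r := by
        have h7 : 0 < p (j + 1) := by linarith
        have h8 : 1 / (E * X ^ (1 / 2 : ℝ)) ≤ p j / p (j + 1) :=
          div_le_div₀ (by linarith) hpj.1 h7 hpj1.2
        have h9 : (1 / (E * X ^ (1 / 2 : ℝ))) ^ (1 / 2 : ℝ) ≤ r :=
          Real.rpow_le_rpow (by positivity) h8 (by norm_num)
        have h10 : 1 / (E * X) ≤ (1 / (E * X ^ (1 / 2 : ℝ))) ^ (1 / 2 : ℝ) := by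
          have h11 : E * X ^ (1 / 2 : ℝ) ≤ (E * X) ^ (2 : ℝ) := by
            have h12 : X ^ (1 / 2 : ℝ) ≤ X := by
              calc X ^ (1 / 2 : ℝ) ≤ X ^ (1 : ℝ) :=
                    Real.rpow_le_rpow_of_exponent_le hX.le (by norm_num)
                _ = X := Real.rpow_one X
            have h13 : E * X ^ (1 / 2 : ℝ) ≤ E * X := mul_le_mul_of_nonneg_left h12 hE0.le
            have h14 : 1 ≤ E * X := one_le_mul_of_one_le_of_one_le hE hX.le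
            rw [Real.rpow_two]
            nlinarith
          have h15 : ((1 / (E * X)) ^ (2 : ℝ)) ^ (1 / 2 : ℝ) = 1 / (E * X) := by
            rw [← Real.rpow_mul (by positivity)]
            norm_num
          rw [← h15]
          refine Real.rpow_le_rpow (by positivity) ?_ (by norm_num)
          rw [Real.div_rpow (by norm_num) (by positivity), Real.one_rpow]
          exact one_div_le_one_div_of_le (by positivity) h11
        have h16 : 1 / (E * X) ≤ r := h10.trans h9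
        rw [div_le_iff₀ (by positivity)] at h16
        linarith
      have h7 := habs (j + 1)
      have hXδ : 1 ≤ X ^ δ := Real.one_le_rpow hX.le hδ0
      have h8 : 2 * W ^ (M + 1 - (j + 1)) * τ ≤ E * X ^ δ * r * (W ^ (M + 1 - j) * τ) := by
        rw [hsucc j (by omega)]
        have e1 : E * X ^ δ * r * (W * W ^ (M + 1 - (j + 1)) * τ) =
          (2 * (E * X ^ δ * (E * X * r)) * W ^ (M + 1 - (j + 1))) * τ := by
          rw [hW]; ring
        rw [e1]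
        refine hle ?_ hτ
        have h9 : 1 ≤ E * X ^ δ * (E * X * r) :=
          one_le_mul_of_one_le_of_one_le (one_le_mul_of_one_le_of_one_le hE hXδ) hrlow
        have h10 : 0 ≤ W ^ (M + 1 - (j + 1)) := by positivity
        nlinarith
      have h9 : S' (j + 1) ≤ E * X ^ δ * r * S' j + E * X ^ (c / 2 - γ) * S' j := by
        have h10 : 0 ≤ E * X ^ (c / 2 - γ) * (W ^ (M + 1 - j) * τ) := by positivity
        simp only [hS']
        nlinarith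
      have h11 : E * X ^ (c / 2 - γ) * S' j ≤ S' (j + 1) / 2 := by linarith
      linarith)
  have h1 : S M ≤ S' M := by
    simp only [hS']
    have := hWp (M + 1 - M)
    have : 0 ≤ W ^ (M + 1 - M) * τ := by positivity
    linarith
  exact h1.trans key

end Crest.Agent.R138.W298
end

-- ▼ part R138/Chn2_188
section

/-!
# R138 / R139: WAVE side, chain, part 2 (helper188): abstract tower of labels over 298's
`assembly_tiny` (extended non-negative reals, one chain of ancestors).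
-/

set_option autoImplicit false

open scoped ENNReal

namespace Crest.Agent.R138.Chn188

/-- chain of ancestors: `anc 0 = k`, `anc (i+1)` = parent (level `n - i - 1`) of `anc i`. -/
def anc (par : ℕ → ℕ → ℕ) (n k : ℕ) : ℕ → ℕ
  | 0 => k
  | i + 1 => par (n - i - 1) (anc par n k i)

/-- the abstract tower of labels: `M = j0 + n` levels. -/
def TowerAbs (c1 : ℝ) (j0 M : ℕ) : Prop :=
    ∀ n : ℕ, j0 + n = M →
    ∀ c γ δ : ℝ, c1 ≤ c → 0 ≤ γ → 0 ≤ δ → δ ≤ c1 / 4 → ∀ X E T τ : ℝ, 1 < X → 1 ≤ E → 0 ≤ T →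
    0 ≤ τ → ∀ (N : ℕ → ℕ) (S : ℕ → ℕ → ℝ≥0∞) (par : ℕ → ℕ → ℕ) (p : ℕ → ℕ → ℝ)
      (gd : ℕ → ℕ → Prop),
    (∀ k < N 0, S 0 k ≤ ENNReal.ofReal (E * X ^ (c / 2 * j0) * T + τ)) →
    (∀ t < n, ∀ k < N (t + 1), par t k < N t) →
    (∀ t < n, ∀ k < N (t + 1),
      S (t + 1) k ≤ ENNReal.ofReal (E * X ^ (c / 2)) * S t (par t k) + ENNReal.ofReal τ) →
    (∀ t ≤ n, ∀ k < N t, ¬ gd t k →
      S t k ≤ ENNReal.ofReal (E * X ^ (c / 2 * ((j0 + t : ℕ) : ℝ) - γ) * T + τ)) →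
    (∀ t ≤ n, ∀ k < N t, 1 ≤ p t k ∧ p t k ≤ E * X ^ (1 / 2 : ℝ)) →
    (∀ t < n, ∀ k < N (t + 1), gd (t + 1) k → gd t (par t k) →
      S (t + 1) k ≤ ENNReal.ofReal (E * X ^ δ * (p t (par t k) / p (t + 1) k) ^ (1 / 2 : ℝ)
        + E * X ^ (c / 2 - γ)) * S t (par t k) + ENNReal.ofReal τ) →
    ∀ k < N n, S n k ≤ ENNReal.ofReal ((2 * E) ^ (M + 2) * X ^ (c / 2 * M - min γ (1 / 4)) *
      (T + X ^ γ * (2 * E * X) ^ (M + 1) * τ))

/-- **abstract tower.** -/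
theorem tower_abs {c1 : ℝ} (hc1 : 0 < c1) (j0 : ℕ) : ∃ M : ℕ, j0 + 1 ≤ M ∧
    TowerAbs c1 j0 M := by
  obtain ⟨n0, H⟩ := W298.assembly_tiny hc1 j0
  obtain ⟨hM, H⟩ := H n0 le_rfl
  refine ⟨n0, hM, ?_⟩
  intro n hn c γ δ hc hγ hδ0 hδ X E T τ hX hE hT hτ N S par p gd h0 hpar hG hR hp hS k hk
  have hX0 : 0 < X := by linarith
  have hE0 : 0 < E := by linarith
  -- finiteness
  have hfin : ∀ t ≤ n, ∀ k < N t, S t k ≠ ⊤ := by
    intro t
    induction t with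
    | zero => intro _ k hk; exact ne_top_of_le_ne_top ENNReal.ofReal_ne_top (h0 k hk)
    | succ t ih =>
      intro ht k hk
      refine ne_top_of_le_ne_top ?_ (hG t (by omega) k hk)
      exact ENNReal.add_ne_top.2 ⟨ENNReal.mul_ne_top ENNReal.ofReal_ne_top
        (ih (by omega) _ (hpar t (by omega) k hk)), ENNReal.ofReal_ne_top⟩
  -- the chain of ancestors
  set kk : ℕ → ℕ := fun t => anc par n k (n - t) with hkk
  have hkn : kk n = k := by simp [hkk, anc]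
  have hks : ∀ t < n, kk t = par t (kk (t + 1)) := by
    intro t ht
    have e1 : n - t = (n - (t + 1)) + 1 := by omega
    simp only [hkk]
    rw [e1, anc]
    congr 1
    omega
  have hkN : ∀ i ≤ n, kk (n - i) < N (n - i) := by
    intro i
    induction i with
    | zero => intro _; simpa [hkn] using hk
    | succ i ih =>
      intro hi
      have e1 : n - i = (n - (i + 1)) + 1 := by omega
      have h1 := ih (by omega)
      rw [e1] at h1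
      rw [hks (n - (i + 1)) (by omega)]
      exact hpar _ (by omega) _ h1
  have hkN' : ∀ t ≤ n, kk t < N t := by
    intro t ht
    have := hkN (n - t) (by omega)
    rwa [show n - (n - t) = t by omega] at this
  -- the real numbers
  set SR : ℕ → ℝ := fun j => (S (j - j0) (kk (j - j0))).toReal with hSR
  have hreal : ∀ {x : ℝ≥0∞} {y : ℝ}, x ≤ ENNReal.ofReal y → 0 ≤ y → x.toReal ≤ y := by
    intro x y hxy hy
    calc x.toReal ≤ (ENNReal.ofReal y).toReal := ENNReal.toReal_mono ENNReal.ofReal_ne_top hxy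
      _ = y := ENNReal.toReal_ofReal hy
  have hreal2 : ∀ {x z : ℝ≥0∞} {a b : ℝ}, x ≤ ENNReal.ofReal a * z + ENNReal.ofReal b → 0 ≤ a →
      0 ≤ b → z ≠ ⊤ → x.toReal ≤ a * z.toReal + b := by
    intro x z a b hx ha hb hz
    have h1 : ENNReal.ofReal a * z + ENNReal.ofReal b ≠ ⊤ :=
      ENNReal.add_ne_top.2 ⟨ENNReal.mul_ne_top ENNReal.ofReal_ne_top hz, ENNReal.ofReal_ne_top⟩
    calc x.toReal ≤ (ENNReal.ofReal a * z + ENNReal.ofReal b).toReal := ENNReal.toReal_mono h1 hx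
      _ = a * z.toReal + b := by
        rw [ENNReal.toReal_add (ENNReal.mul_ne_top ENNReal.ofReal_ne_top hz)
          ENNReal.ofReal_ne_top, ENNReal.toReal_mul, ENNReal.toReal_ofReal ha,
          ENNReal.toReal_ofReal hb]
  have key := H c γ δ hc hγ hδ0 hδ X E T τ hX hE hT hτ SR (fun j => p (j - j0) (kk (j - j0)))
    (fun j => gd (j - j0) (kk (j - j0))) (fun j _ _ => ENNReal.toReal_nonneg) ?_ ?_ ?_ ?_ ?_
  · have e1 : n0 - j0 = n := by omega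
    have h1 : S n k ≤ ENNReal.ofReal (SR n0) := by
      simp only [hSR, e1, hkn]
      rw [ENNReal.ofReal_toReal (hfin n le_rfl k hk)]
    exact h1.trans (ENNReal.ofReal_le_ofReal key)
  · simp only [hSR, Nat.sub_self]
    exact hreal (h0 _ (hkN' 0 (by omega))) (by positivity)
  · intro j hj hjM
    obtain ⟨t, rfl⟩ := Nat.exists_eq_add_of_le hj
    have ht : t < n := by omega
    simp only [hSR, show j0 + t + 1 - j0 = t + 1 by omega, show j0 + t - j0 = t by omega]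
    rw [hks t ht]
    exact hreal2 (hG t ht _ (hkN' (t + 1) (by omega))) (by positivity) hτ
      (hfin t (by omega) _ (hpar t ht _ (hkN' (t + 1) (by omega))))
  · intro j hj hjM hng
    obtain ⟨t, rfl⟩ := Nat.exists_eq_add_of_le hj
    have ht : t ≤ n := by omega
    simp only [hSR, show j0 + t - j0 = t by omega] at hng ⊢
    exact hreal (hR t ht _ (hkN' t ht) hng) (by positivity)
  · intro j hj hjM
    obtain ⟨t, rfl⟩ := Nat.exists_eq_add_of_le hj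
    have ht : t ≤ n := by omega
    simp only [show j0 + t - j0 = t by omega]
    exact hp t ht _ (hkN' t ht)
  · intro j hj hjM hg1 hg2
    obtain ⟨t, rfl⟩ := Nat.exists_eq_add_of_le hj
    have ht : t < n := by omega
    simp only [hSR, show j0 + t + 1 - j0 = t + 1 by omega, show j0 + t - j0 = t by omega]
      at hg1 hg2 ⊢
    have hN1 := hkN' (t + 1) (by omega)
    have hN2 := hkN' t (by omega)
    rw [hks t ht] at hg1 hN2 ⊢
    have hp1 := (hp t ht.le _ hN2).1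
    have hp2 := (hp (t + 1) (by omega) _ hN1).1
    have := hreal2 (hS t ht _ hN1 hg2 hg1) (by positivity) hτ
      (hfin t (by omega) _ (hpar t ht _ hN1))
    refine this.trans (le_of_eq ?_)
    ring

end Crest.Agent.R138.Chn188
private theorem rz_1c88688ab1 : type_of% @_root_.Crest.Agent.R138.Chn188.anc.eq_def := @_root_.Crest.Agent.R138.Chn188.anc.eq_def -- L15
private theorem rz_e4618982f3 : type_of% @_root_.Crest.Agent.R138.Chn188.anc.eq_1 := @_root_.Crest.Agent.R138.Chn188.anc.eq_1 -- L15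
end

-- ▼ part R138/Chn3_188
section

/-!
# R138 / R139: WAVE side, chain, part 3 (helper188): exponents of thick / narrow labels.
-/

set_option autoImplicit false

open scoped ENNReal

namespace Crest.Agent.R138.Chn188

open Crest.Agent.R138.W188

/-- any label. -/
theorem max_le_X {X r R s1 j : ℝ} (hX : 1 ≤ X) (hr : 0 < r) (hR : R = X ^ j * r) (hj : 0 ≤ j)
    (h1 : 1 ≤ s1 ^ 2 * r) : max 1 (R / (s1 * r) ^ 2) ≤ X ^ j := by
  have hX0 : 0 < X := by linarith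
  have hXj : 0 < X ^ j := by positivity
  apply max_le
  · exact Real.one_le_rpow hX hj
  · have h2 : r ≤ (s1 * r) ^ 2 := by nlinarith
    have h3 : 0 < (s1 * r) ^ 2 := by linarith
    rw [div_le_iff₀ h3, hR]
    gcongr

/-- thick label. -/
theorem max_thick {X r R s1 j γm c : ℝ} (hX : 1 ≤ X) (hr : 0 < r) (hR : R = X ^ j * r)
    (hj : 2 * γm ≤ j) (hc : 0 ≤ c) (h1 : X ^ γm * r ^ (-(1/2) : ℝ) < s1) :
    (max 1 (R / (s1 * r) ^ 2)) ^ (c / 2) ≤ X ^ (c / 2 * j - γm * c) := by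
  have hX0 : 0 < X := by linarith
  have h0 : 0 < X ^ γm * r ^ (-(1/2) : ℝ) := by positivity
  have hs1 : 0 < s1 := h0.trans h1
  have h2 : max 1 (R / (s1 * r) ^ 2) ≤ X ^ (j - 2 * γm) := by
    apply max_le
    · exact Real.one_le_rpow hX (by linarith)
    · have h3 : X ^ (2 * γm) * r ≤ (s1 * r) ^ 2 := by
        have e1 : (X ^ γm * r ^ (-(1/2) : ℝ)) ^ 2 * r ^ 2 = X ^ (2 * γm) * r := by
          have e2 : (X ^ γm) ^ 2 = X ^ (2 * γm) := by
            rw [← Real.rpow_natCast, ← Real.rpow_mul hX0.le]; congr 1; push_cast; ring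
          have e3 : (r ^ (-(1/2) : ℝ)) ^ 2 = r⁻¹ := by
            rw [← Real.rpow_natCast, ← Real.rpow_mul hr.le, ← Real.rpow_neg_one]
            congr 1; push_cast; ring
          rw [mul_pow, e2, e3]
          field_simp
        rw [← e1, show (s1 * r) ^ 2 = s1 ^ 2 * r ^ 2 by ring]
        have h5 := h1.le
        gcongr
      have h4 : 0 < (s1 * r) ^ 2 := by positivity
      rw [div_le_iff₀ h4, hR]
      calc X ^ j * r = X ^ (j - 2 * γm) * (X ^ (2 * γm) * r) := by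
            rw [← mul_assoc, ← Real.rpow_add hX0]; ring_nf
        _ ≤ _ := by gcongr
  calc (max 1 (R / (s1 * r) ^ 2)) ^ (c / 2) ≤ (X ^ (j - 2 * γm)) ^ (c / 2) :=
        Real.rpow_le_rpow (by positivity) h2 (by positivity)
    _ = X ^ (c / 2 * j - γm * c) := by
        rw [← Real.rpow_mul hX0.le]; congr 1; ring

/-- narrow label. -/
theorem narrow_le {X r R s2 j g0 β : ℝ} (hX : 1 ≤ X) (hr : 0 < r) (hR : R = X ^ j * r)
    (hβ : 0 ≤ β) (hs : 0 ≤ s2) (h1 : s2 < X ^ g0 * r ^ (-(1/2) : ℝ)) :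
    (s2 ^ 2 * R) ^ (β / 2) ≤ X ^ ((2 * g0 + j) * (β / 2)) := by
  have hX0 : 0 < X := by linarith
  have h2 : s2 ^ 2 * R ≤ X ^ (2 * g0 + j) := by
    have e2 : (X ^ g0) ^ 2 = X ^ (2 * g0) := by
      rw [← Real.rpow_natCast, ← Real.rpow_mul hX0.le]; congr 1; push_cast; ring
    have e3 : (r ^ (-(1/2) : ℝ)) ^ 2 = r⁻¹ := by
      rw [← Real.rpow_natCast, ← Real.rpow_mul hr.le, ← Real.rpow_neg_one]
      congr 1; push_cast; ring
    calc s2 ^ 2 * R ≤ (X ^ g0 * r ^ (-(1/2) : ℝ)) ^ 2 * (X ^ j * r) := by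
          rw [hR]
          have : 0 ≤ X ^ j * r := by positivity
          gcongr
      _ = X ^ (2 * g0) * X ^ j := by
          rw [mul_pow, e2, e3]; field_simp
      _ = X ^ (2 * g0 + j) := by rw [← Real.rpow_add hX0]
  have hR0 : 0 ≤ R := by rw [hR]; positivity
  calc (s2 ^ 2 * R) ^ (β / 2) ≤ (X ^ (2 * g0 + j)) ^ (β / 2) :=
        Real.rpow_le_rpow (by positivity) h2 (by positivity)
    _ = _ := by rw [← Real.rpow_mul hX0.le]

/-- `√(C nb) ≤ C R^e`. -/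
theorem sqrt_nb {C nb R e : ℝ} (hC : 1 ≤ C) (hR : 1 ≤ R) (he : 0 ≤ e) (hnb0 : 0 ≤ nb)
    (hnb : nb ≤ C * R ^ e) : Real.sqrt (C * nb) ≤ C * R ^ e := by
  have hR0 : 0 < R := by linarith
  have h1 : 1 ≤ R ^ e := Real.one_le_rpow hR he
  rw [show C * R ^ e = Real.sqrt ((C * R ^ e) ^ 2) by
    rw [Real.sqrt_sq (by positivity)]]
  apply Real.sqrt_le_sqrt
  calc C * nb ≤ C * (C * R ^ e) := by gcongr
    _ = C * (C * R ^ e) * 1 := by ring
    _ ≤ C * (C * R ^ e) * R ^ e := by gcongr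
    _ = _ := by ring

end Crest.Agent.R138.Chn188
end

-- ▼ part R138/Chn4_188
section

/-!
# R138 / R139: WAVE side, chain, part 4 (helper188): the bound of the last level of a tower.
-/

set_option autoImplicit false

open MeasureTheory FourierTransform
open scoped ContDiff ENNReal

namespace Crest.Agent.R138.Chn188

open Crest.Agent.R138.Defs Crest.Agent.R138.Bil882 Crest.Agent.R138.Wpk685
  Crest.Agent.R138.W188 Crest.Agent.R138.Gl210 Crest.Agent.R138.GR639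

/-- ROOT with its constant. -/
def RootB (B : ℕ → ℝ) (q A c β e : ℝ) (Na : ℕ) (M0 C : ℝ) : Prop :=
    ∀ (Cn : ℝ) (M : ℕ) (h : E2 → ℝ) (g : E2 → ℂ) (R D : ℝ) (L : Lev),
      St B q Na M0 (1/2) h g R D → LevOk q A (1/2) Cn B M h g R L → 0 ≤ Cn →
      L.r ≤ R ^ (1 - e) → ∀ k < L.n,
      L.S h g k ≤ ENNReal.ofReal (C * Real.sqrt (Cn * L.nb) * R ^ (2 * e) *
        (max 1 (R / ((L.s k).1 * L.r) ^ 2)) ^ (c / 2) * SS g R D) ∧
      L.S h g k ≤ ENNReal.ofReal (C * Real.sqrt (Cn * L.nb) * R ^ (2 * e) *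
        ((L.s k).2 ^ 2 * R) ^ (β / 2) * SS g R D)

/-- GEN with its constants. -/
def GenB (B : ℕ → ℝ) (q A c e M0 K b C1 C C' : ℝ) : Prop :=
    ∀ (Na M : ℕ), 13 + |q| + |M0| + |K| + 4 * b ≤ M →
    ∀ (h : E2 → ℝ) (g : E2 → ℂ) (R D : ℝ), St B q Na M0 (1/2) h g R D →
    ∀ (L L' : Lev) (aux : Aux), LevOk q A (1/2) C1 B M h g R L → LevOk q A (1/2) C1 B M h g R L' →
      Next h L L' aux → A * L'.r ≤ L.r → L'.r ≤ L.r ^ (1 - e) → 36 ≤ L.r →
      (L.n : ℝ) ≤ C1 * R ^ b → (L.nb : ℝ) ≤ R ^ b → ∀ k < L'.n,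
      L'.S h g k ≤
        ENNReal.ofReal (C * Real.sqrt (C1 * L'.nb) * C1 * ((L.n : ℝ) + 1) ^ 3 * L.r ^ (2 * e) *
          (max 1 (L.r / ((L'.s k).1 * L'.r) ^ 2)) ^ (c / 2)) * L.S h g (L'.par k) +
        ENNReal.ofReal (C' * Real.sqrt (C1 * L'.nb) * (R ^ (-K) * SS g R D))

section geom

variable {B : ℕ → ℝ} {q A C0 g0 γm e C K : ℝ} {M j0 n : ℕ} {h : E2 → ℝ} {g : E2 → ℂ}
  {R D dl : ℝ} {L : ℕ → Lev} {p : ℕ → ℕ → ℝ} {gd : ℕ → ℕ → Prop}

theorem rad_X (HT : Tower B q A C0 g0 γm e C K M j0 n h g R D dl L p gd) (hdl : 0 < dl) {t : ℕ}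
    (ht : t ≤ n) : R = (dl⁻¹) ^ ((j0 + t : ℕ) : ℝ) * (L t).r := by
  rw [HT.rad t ht, Real.rpow_natCast, inv_pow]
  field_simp

theorem rad_succ (HT : Tower B q A C0 g0 γm e C K M j0 n h g R D dl L p gd) {t : ℕ}
    (ht : t < n) : (L (t + 1)).r = dl * (L t).r := by
  rw [HT.rad (t + 1) (by omega), HT.rad t ht.le, ← add_assoc, pow_succ]
  ring

theorem rad_36 (HT : Tower B q A C0 g0 γm e C K M j0 n h g R D dl L p gd) (hR : 1296 ≤ R) {t : ℕ}
    (ht : t ≤ n) : 36 ≤ (L t).r := by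
  refine le_trans ?_ (HT.ok t ht).lo
  calc (36:ℝ) = (1296:ℝ) ^ (1/2 : ℝ) := by
        rw [show (1296:ℝ) = 36 ^ (2:ℝ) by norm_num, ← Real.rpow_mul (by norm_num)]
        norm_num
    _ ≤ R ^ (1/2 : ℝ) := Real.rpow_le_rpow (by norm_num) hR (by norm_num)

theorem dl_le (hR : 0 < R) (hdl : 0 < dl) (h1 : R ^ e ≤ dl⁻¹) : dl ≤ R ^ (-e) := by
  rw [Real.rpow_neg hR.le]
  have h2 : 0 < R ^ e := by positivity
  rw [le_inv_comm₀ hdl h2]
  exact h1

theorem rad_e (HT : Tower B q A C0 g0 γm e C K M j0 n h g R D dl L p gd) (hR : 1 ≤ R)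
    (hdl : 0 < dl) (hdl1 : dl ≤ 1) (h1 : R ^ e ≤ dl⁻¹) (hj0 : 1 ≤ j0) {t : ℕ} (ht : t ≤ n) :
    (L t).r ≤ R ^ (1 - e) := by
  have hR0 : 0 < R := by linarith
  rw [HT.rad t ht, sub_eq_add_neg, Real.rpow_add hR0, Real.rpow_one]
  have h2 : dl ^ (j0 + t) ≤ dl := by
    calc dl ^ (j0 + t) ≤ dl ^ 1 := pow_le_pow_of_le_one hdl.le hdl1 (by omega)
      _ = dl := pow_one dl
  have h3 := h2.trans (dl_le hR0 hdl h1)
  gcongr

/-- a step with ratio `dl`. -/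
theorem step_e {r : ℝ} (hR : 1 ≤ R) (he : 0 ≤ e) (hr : 1 ≤ r) (hrR : r ≤ R) (hdl : 0 < dl)
    (h1 : R ^ e ≤ dl⁻¹) : dl * r ≤ r ^ (1 - e) := by
  have hR0 : 0 < R := by linarith
  have hr0 : 0 < r := by linarith
  rw [sub_eq_add_neg, Real.rpow_add hr0, Real.rpow_one, mul_comm]
  have h2 := dl_le hR0 hdl h1
  have h3 : R ^ (-e) ≤ r ^ (-e) := Real.rpow_le_rpow_of_nonpos hr0 hrR (by linarith)
  have := h2.trans h3
  gcongr

end geom

set_option maxHeartbeats 1000000 in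
/-- **the bound of the last level.** -/
theorem top_bound {B : ℕ → ℝ} {q A C0 g0 γm e C K c1 c β γ CR CG CG' CE Cτ M0 : ℝ}
    {M MD j0 n Na : ℕ} {h : E2 → ℝ} {g : E2 → ℂ} {R D dl : ℝ} {L : ℕ → Lev} {p : ℕ → ℕ → ℝ}
    {gd : ℕ → ℕ → Prop}
    (hTA : TowerAbs c1 j0 M) (hn : j0 + n = M) (hj0 : 1 ≤ j0)
    (hc1 : 0 < c1) (hc : c1 ≤ c) (hγ : 0 ≤ γ) (hγ1 : γ ≤ γm * c1) (hγ2 : γ ≤ c1 / 4)
    (hγm : 0 < γm) (hγm2 : γm ≤ 1/2) (hδ0 : 0 ≤ C0) (hδ : C0 * γm ≤ c1 / 4)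
    (hβ : 0 ≤ β) (hg0 : 0 ≤ g0) (hnar : g0 * β + γ ≤ (c1 - β) / 2 * j0) (hβc : β ≤ c1)
    (he : 0 < e) (hC : 1 ≤ C) (hCR : 0 ≤ CR) (hCG : 0 ≤ CG) (hCG' : 0 ≤ CG')
    (hE1 : 1 ≤ CE) (hE2 : CR * C ≤ CE) (hE3 : 8 * CG * C ^ 5 ≤ CE) (hE4 : C ≤ CE)
    (hτ1 : CG' * C ≤ Cτ) (hτ2 : C ≤ Cτ) (hK : 0 ≤ K)
    (hM : 13 + |q| + |M0| + |K| + 4 * (2 * e) ≤ MD)
    (HR : RootB B q A c β e Na M0 CR) (HG : GenB B q A c e M0 K (2 * e) C CG CG')
    (hSt : St B q Na M0 (1/2) h g R D) (hR : 1296 ≤ R) (hCRe : C ≤ R ^ e)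
    (hdl : 0 < dl) (hAdl : A * dl ≤ 1) (hdlR : R ^ e ≤ dl⁻¹)
    (HT : Tower B q A C0 g0 γm e C K MD j0 n h g R D dl L p gd) :
    ∀ k < (L n).n, (L n).S h g k ≤
      ENNReal.ofReal ((2 * (CE * R ^ (6 * e))) ^ (M + 2) *
        (dl⁻¹) ^ (c / 2 * M - min γ (1 / 4)) *
        (SS g R D + (dl⁻¹) ^ γ * (2 * (CE * R ^ (6 * e)) * dl⁻¹) ^ (M + 1) *
          (Cτ * R ^ (e - K) * SS g R D))) := by
  have hR1 : 1 ≤ R := by linarith
  have hR0 : 0 < R := by linarith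
  have hss := hSt.ss
  have hc0 : 0 ≤ c := by linarith
  have hRe1 : 1 < R ^ e := Real.one_lt_rpow (by linarith) he
  obtain ⟨X, hX⟩ : ∃ X, X = dl⁻¹ := ⟨_, rfl⟩
  have hXi : dl = X⁻¹ := by rw [hX, inv_inv]
  have hX1 : 1 < X := by rw [hX]; linarith
  have hX0 : 0 < X := by linarith
  have hXle : 1 ≤ X := hX1.le
  have hdl1 : dl ≤ 1 := by
    rw [hXi]; exact inv_le_one_of_one_le₀ hXle
  have hdlp : ∀ a : ℝ, dl ^ (-a) = X ^ a := by
    intro a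
    rw [hXi, Real.inv_rpow hX0.le, Real.rpow_neg hX0.le, inv_inv]
  rw [← hX]
  obtain ⟨T, hT⟩ : ∃ T, T = SS g R D := ⟨_, rfl⟩
  rw [← hT] at hss ⊢
  obtain ⟨E, hE⟩ : ∃ E, E = CE * R ^ (6 * e) := ⟨_, rfl⟩
  rw [← hE]
  have hR6 : 1 ≤ R ^ (6 * e) := Real.one_le_rpow hR1 (by positivity)
  have hEE : 1 ≤ E := by
    rw [hE]; calc (1:ℝ) = 1 * 1 := by ring
      _ ≤ _ := by gcongr
  have hE0 : 0 < E := by linarith
  have hCe : C * R ^ e ≤ E := by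
    rw [hE]
    have : R ^ e ≤ R ^ (6 * e) := rpow_le_rpow_of_one_le hR1 (by linarith)
    gcongr
  obtain ⟨τ, hτ⟩ : ∃ τ, τ = Cτ * R ^ (e - K) * T := ⟨_, rfl⟩
  rw [← hτ]
  have hCτ : 1 ≤ Cτ := hC.trans hτ2
  have hτ0 : 0 ≤ τ := by rw [hτ]; positivity
  -- tiny terms
  have hReK : R ^ (e - K) = R ^ e * R ^ (-K) := by
    rw [← Real.rpow_add hR0]; ring_nf
  have htiny : C * R ^ (-K) * T ≤ τ := by
    rw [hτ, hReK]
    calc C * R ^ (-K) * T = C * (1 * R ^ (-K)) * T := by ring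
      _ ≤ Cτ * (R ^ e * R ^ (-K)) * T := by gcongr
  -- number of classes
  have hnb : ∀ t ≤ n, Real.sqrt (C * (L t).nb) ≤ C * R ^ e := fun t ht =>
    sqrt_nb hC hR1 he.le (Nat.cast_nonneg _) (HT.le t ht).2
  have hloss : ∀ t ≤ n, CR * Real.sqrt (C * (L t).nb) * R ^ (2 * e) ≤ E := by
    intro t ht
    have h1 := hnb t ht
    calc CR * Real.sqrt (C * (L t).nb) * R ^ (2 * e) ≤ CR * (C * R ^ e) * R ^ (2 * e) := by gcongr
      _ = (CR * C) * R ^ (3 * e) := by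
          rw [show (3 * e) = e + 2 * e by ring, Real.rpow_add hR0]; ring
      _ ≤ CE * R ^ (6 * e) := by
          have : R ^ (3 * e) ≤ R ^ (6 * e) := rpow_le_rpow_of_one_le hR1 (by linarith)
          gcongr
      _ = E := hE.symm
  have hrpos : ∀ t ≤ n, 0 < (L t).r := fun t ht => by
    have := rad_36 HT hR ht
    linarith
  have hsd : ∀ t ≤ n, ∀ k < (L t).n, 0 < ((L t).s k).1 ∧ 0 < ((L t).s k).2 ∧
      1 ≤ ((L t).s k).1 ^ 2 * (L t).r := by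
    intro t ht k hk
    have h1 := (HT.ok t ht).sd k hk
    exact ⟨(h1.s2pos (hrpos t ht)).1, (h1.s2pos (hrpos t ht)).2, (h1.facts (hrpos t ht)).1⟩
  have hroot : ∀ t ≤ n, ∀ k < (L t).n, _ := fun t ht k hk =>
    HR C MD h g R D (L t) hSt (HT.ok t ht) (by linarith) (rad_e HT hR1 hdl hdl1 hdlR hj0 ht) k hk
  have key := hTA n hn c γ (C0 * γm) hc hγ (by positivity) hδ X E T τ hX1 hEE hss hτ0
    (fun t => (L t).n) (fun t k => (L t).S h g k) (fun t k => (L (t + 1)).par k) p gd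
    ?_ ?_ ?_ ?_ ?_ ?_
  · exact key
  · -- ROOT at the first level
    intro k hk
    have h1 := (hroot 0 (Nat.zero_le _) k hk).1
    refine h1.trans (ENNReal.ofReal_le_ofReal ?_)
    rw [← hT]
    have hRX := rad_X HT hdl (Nat.zero_le n)
    rw [← hX] at hRX
    have h2 := max_le_X hXle (hrpos 0 (Nat.zero_le _)) hRX (by positivity)
      (hsd 0 (Nat.zero_le _) k hk).2.2
    have h3 : (max 1 (R / (((L 0).s k).1 * (L 0).r) ^ 2)) ^ (c / 2) ≤ X ^ (c / 2 * j0) := by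
      calc _ ≤ (X ^ ((j0 + 0 : ℕ) : ℝ)) ^ (c / 2) :=
            Real.rpow_le_rpow (by positivity) h2 (by positivity)
        _ = X ^ (c / 2 * j0) := by
            rw [← Real.rpow_mul hX0.le]; congr 1; push_cast; ring
    have h4 := hloss 0 (Nat.zero_le _)
    have h5 : CR * Real.sqrt (C * (L 0).nb) * R ^ (2 * e) *
        (max 1 (R / (((L 0).s k).1 * (L 0).r) ^ 2)) ^ (c / 2) * T ≤ E * X ^ (c / 2 * j0) * T := by
      gcongr
    linarith
  · intro t ht k hk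
    obtain ⟨aux, h1⟩ := HT.next t ht
    exact h1.par_lt k hk
  · -- GEN
    intro t ht k hk
    obtain ⟨aux, h1⟩ := HT.next t ht
    have hr36 := rad_36 HT hR ht.le
    have hsucc := rad_succ HT ht
    have hle := HT.le t ht.le
    have hb : C * R ^ e ≤ R ^ (2 * e) := by
      rw [show 2 * e = e + e by ring, Real.rpow_add hR0]
      gcongr
    have h2 := HG Na MD hM h g R D hSt (L t) (L (t + 1)) aux (HT.ok t ht.le)
      (HT.ok (t + 1) (by omega)) h1 (by rw [hsucc]; nlinarith)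
      (by rw [hsucc]; exact step_e hR1 he.le (by linarith) (HT.ok t ht.le).hi hdl hdlR) hr36
      (by
        calc ((L t).n : ℝ) ≤ C * R ^ e := hle.1
          _ ≤ C * R ^ (2 * e) := by
              have : R ^ e ≤ R ^ (2 * e) := rpow_le_rpow_of_one_le hR1 (by linarith)
              gcongr) (hle.2.trans hb) k hk
    refine h2.trans (add_le_add ?_ ?_)
    · refine mul_le_mul_left (ENNReal.ofReal_le_ofReal ?_) _
      have h3 := hnb (t + 1) (by omega)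
      have h4 : ((L t).n : ℝ) + 1 ≤ 2 * C * R ^ e := by
        have h5 : 1 ≤ C * R ^ e := by
          calc (1:ℝ) = 1 * 1 := by ring
            _ ≤ _ := by gcongr
        have := hle.1
        linarith
      have h5 : (L t).r ^ (2 * e) ≤ R ^ (2 * e) :=
        Real.rpow_le_rpow (by linarith) (HT.ok t ht.le).hi (by positivity)
      have h6 : max 1 ((L t).r / (((L (t + 1)).s k).1 * (L (t + 1)).r) ^ 2) ≤ X := by
        have := max_le_X (j := 1) hXle (hrpos (t + 1) (by omega)) (R := (L t).r)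
          (by rw [hsucc, Real.rpow_one, hX]; field_simp) (by norm_num)
          (hsd (t + 1) (by omega) k hk).2.2
        rwa [Real.rpow_one] at this
      calc _ ≤ CG * (C * R ^ e) * C * (2 * C * R ^ e) ^ 3 * R ^ (2 * e) * X ^ (c / 2) := by
            have h7 := Real.rpow_le_rpow (by positivity) h6 (show 0 ≤ c / 2 by positivity)
            gcongr
        _ = (8 * CG * C ^ 5) * R ^ (6 * e) * X ^ (c / 2) := by
            rw [show 6 * e = e + e + e + e + 2 * e by ring]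
            rw [Real.rpow_add hR0, Real.rpow_add hR0, Real.rpow_add hR0, Real.rpow_add hR0]
            ring
        _ ≤ CE * R ^ (6 * e) * X ^ (c / 2) := by gcongr
        _ = E * X ^ (c / 2) := by rw [hE]
    · refine ENNReal.ofReal_le_ofReal ?_
      rw [← hT, hτ, hReK]
      have h3 := hnb (t + 1) (by omega)
      calc CG' * Real.sqrt (C * (L (t + 1)).nb) * (R ^ (-K) * T) ≤
            CG' * (C * R ^ e) * (R ^ (-K) * T) := by gcongr
        _ = (CG' * C) * (R ^ e * R ^ (-K)) * T := by ring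
        _ ≤ Cτ * (R ^ e * R ^ (-K)) * T := by gcongr
  · -- ROOT gains
    intro t ht k hk hng
    have hrp := hrpos t ht
    have hRX := rad_X HT hdl ht
    rw [← hX] at hRX
    obtain ⟨hs1, hs2, hs3⟩ := hsd t ht k hk
    have h4 := hloss t ht
    have hjt : (1:ℝ) ≤ ((j0 + t : ℕ) : ℝ) := by exact_mod_cast (by omega : 1 ≤ j0 + t)
    have hjj : (j0 : ℝ) ≤ ((j0 + t : ℕ) : ℝ) := by exact_mod_cast (by omega : j0 ≤ j0 + t)
    rcases HT.bad t ht k hk with h1 | h1 | h1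
    · exact absurd h1 hng
    · unfold Good at h1
      rw [not_and_or, not_le, not_le, hdlp, hdlp] at h1
      rcases h1 with h1 | h1
      · -- thick
        refine (hroot t ht k hk).1.trans (ENNReal.ofReal_le_ofReal ?_)
        rw [← hT]
        have h2 := max_thick (c := c) hXle hrp hRX (by linarith) hc0 h1
        have h3 : X ^ (c / 2 * ((j0 + t : ℕ) : ℝ) - γm * c) ≤
            X ^ (c / 2 * ((j0 + t : ℕ) : ℝ) - γ) := by
          apply rpow_le_rpow_of_one_le hXle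
          have : γm * c1 ≤ γm * c := by gcongr
          linarith
        have h5 := h2.trans h3
        have h6 : CR * Real.sqrt (C * (L t).nb) * R ^ (2 * e) *
            (max 1 (R / (((L t).s k).1 * (L t).r) ^ 2)) ^ (c / 2) * T ≤
            E * X ^ (c / 2 * ((j0 + t : ℕ) : ℝ) - γ) * T := by gcongr
        linarith
      · -- narrow
        refine (hroot t ht k hk).2.trans (ENNReal.ofReal_le_ofReal ?_)
        rw [← hT]
        have h2 := narrow_le hXle hrp hRX hβ hs2.le h1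
        have h3 : X ^ ((2 * g0 + ((j0 + t : ℕ) : ℝ)) * (β / 2)) ≤
            X ^ (c / 2 * ((j0 + t : ℕ) : ℝ) - γ) := by
          apply rpow_le_rpow_of_one_le hXle
          have h7 : (c1 - β) / 2 * j0 ≤ (c1 - β) / 2 * ((j0 + t : ℕ) : ℝ) := by
            have : 0 ≤ (c1 - β) / 2 := by linarith
            gcongr
          have h8 : c1 * ((j0 + t : ℕ) : ℝ) ≤ c * ((j0 + t : ℕ) : ℝ) := by gcongr
          nlinarith
        have h5 := h2.trans h3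
        have h6 : CR * Real.sqrt (C * (L t).nb) * R ^ (2 * e) *
            (((L t).s k).2 ^ 2 * R) ^ (β / 2) * T ≤
            E * X ^ (c / 2 * ((j0 + t : ℕ) : ℝ) - γ) * T := by gcongr
        linarith
    · refine h1.trans (ENNReal.ofReal_le_ofReal ?_)
      rw [← hT]
      have : 0 ≤ E * X ^ (c / 2 * ((j0 + t : ℕ) : ℝ) - γ) * T := by positivity
      linarith
  · intro t ht k hk
    obtain ⟨h1, h2⟩ := HT.pc t ht k hk
    refine ⟨h1, h2.trans ?_⟩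
    rw [hdlp]
    have h3 : C ≤ E := by
      calc C = C * 1 := by ring
        _ ≤ C * R ^ e := by gcongr
        _ ≤ E := hCe
    gcongr
  · -- STEP
    intro t ht k hk hg1 hg2
    refine (HT.step t ht k hk hg1 hg2).trans (add_le_add ?_ (ENNReal.ofReal_le_ofReal ?_))
    · refine mul_le_mul_left (ENNReal.ofReal_le_ofReal ?_) _
      rw [hdlp]
      have h2 : 1 ≤ X ^ (c / 2 - γ) := Real.one_le_rpow hXle (by linarith)
      obtain ⟨aux, h1⟩ := HT.next t ht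
      have hp1 := (HT.pc t ht.le _ (h1.par_lt k hk)).1
      have hp2 := (HT.pc (t + 1) (by omega) _ hk).1
      calc C * R ^ e * (X ^ (C0 * γm) * (p t ((L (t + 1)).par k) / p (t + 1) k) ^ (1 / 2 : ℝ) + 1)
          ≤ E * (X ^ (C0 * γm) * (p t ((L (t + 1)).par k) / p (t + 1) k) ^ (1 / 2 : ℝ) +
            X ^ (c / 2 - γ)) := by gcongr
        _ = _ := by ring
    · rw [← hT]
      exact htiny

end Crest.Agent.R138.Chn188
end

-- ▼ part R138/Chn5_188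
section

/-!
# R138 / R139: WAVE side, chain, part 5 (helper188): final real inequality.
-/

set_option autoImplicit false

open scoped ENNReal

namespace Crest.Agent.R138.Chn188

open Crest.Agent.R138.W188

/-- the tiny terms are absorbed. -/
theorem tiny_abs {CE Cτ R e X T γ K : ℝ} {M : ℕ} (hR : 1 ≤ R) (hX : 1 ≤ X) (hXR : X ≤ R)
    (he : 0 < e) (he1 : e ≤ 1) (hCE : 1 ≤ CE) (hCτ : 0 ≤ Cτ) (hT : 0 ≤ T) (hγ : 0 ≤ γ)
    (hγ1 : γ ≤ 1) (hK : 7 * ((M : ℝ) + 1) + 2 ≤ K) :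
    X ^ γ * (2 * (CE * R ^ (6 * e)) * X) ^ (M + 1) * (Cτ * R ^ (e - K) * T) ≤
      Cτ * (2 * CE) ^ (M + 1) * T := by
  have hR0 : 0 < R := by linarith
  have hX0 : 0 < X := by linarith
  have h1 : X ^ γ ≤ R := by
    calc X ^ γ ≤ X ^ (1:ℝ) := rpow_le_rpow_of_one_le hX hγ1
      _ = X := Real.rpow_one X
      _ ≤ R := hXR
  have h2 : (2 * (CE * R ^ (6 * e)) * X) ^ (M + 1) ≤ (2 * CE) ^ (M + 1) * R ^ (7 * ((M : ℝ) + 1)) := by
    have h3 : 2 * (CE * R ^ (6 * e)) * X ≤ (2 * CE) * R ^ (7:ℝ) := by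
      have h4 : R ^ (6 * e) * X ≤ R ^ (7:ℝ) := by
        calc R ^ (6 * e) * X ≤ R ^ (6:ℝ) * R ^ (1:ℝ) := by
              rw [Real.rpow_one R]
              have : R ^ (6 * e) ≤ R ^ (6:ℝ) := rpow_le_rpow_of_one_le hR (by linarith)
              gcongr
          _ = R ^ (7:ℝ) := by rw [← Real.rpow_add hR0]; norm_num
      calc 2 * (CE * R ^ (6 * e)) * X = (2 * CE) * (R ^ (6 * e) * X) := by ring
        _ ≤ _ := by gcongr
    calc (2 * (CE * R ^ (6 * e)) * X) ^ (M + 1) ≤ ((2 * CE) * R ^ (7:ℝ)) ^ (M + 1) := by gcongr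
      _ = (2 * CE) ^ (M + 1) * R ^ (7 * ((M : ℝ) + 1)) := by
        rw [mul_pow, ← Real.rpow_natCast (R ^ (7:ℝ)), ← Real.rpow_mul hR0.le]
        push_cast; ring_nf
  have h5 : R * R ^ (7 * ((M : ℝ) + 1)) * R ^ (e - K) ≤ 1 := by
    nth_rewrite 1 [← Real.rpow_one R]
    rw [← Real.rpow_add hR0, ← Real.rpow_add hR0]
    exact Real.rpow_le_one_of_one_le_of_nonpos hR (by linarith)
  calc X ^ γ * (2 * (CE * R ^ (6 * e)) * X) ^ (M + 1) * (Cτ * R ^ (e - K) * T)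
      ≤ R * ((2 * CE) ^ (M + 1) * R ^ (7 * ((M : ℝ) + 1))) * (Cτ * R ^ (e - K) * T) := by gcongr
    _ = (R * R ^ (7 * ((M : ℝ) + 1)) * R ^ (e - K)) * (Cτ * (2 * CE) ^ (M + 1) * T) := by ring
    _ ≤ 1 * (Cτ * (2 * CE) ^ (M + 1) * T) := by gcongr
    _ = _ := one_mul _

/-- the final real inequality. -/
theorem final_real {N C Cf CE Cτ CF R e ε X T c γ γ' K : ℝ} {M : ℕ} (hR : 1 ≤ R) (hX : 1 ≤ X)
    (hXR : X ≤ R) (he : 0 < e) (he1 : e ≤ 1) (hN : 0 ≤ N) (hNC : N ≤ C * R ^ e) (hC : 1 ≤ C)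
    (hCf : 0 ≤ Cf) (hCE : 1 ≤ CE) (hCτ : 0 ≤ Cτ) (hCF : 0 ≤ CF) (hT : 0 ≤ T) (hγ : 0 ≤ γ)
    (hγ1 : γ ≤ 1) (hK : 7 * ((M : ℝ) + 1) + 2 ≤ K) (hε : 6 * e * ((M : ℝ) + 3) ≤ ε)
    (hγ' : γ' ≤ c / 2 * ((M : ℝ) + 1)) :
    2 * (N + 1) ^ 2 * (Cf * R ^ (2 * e) * X ^ (c / 2)) * C *
        (N * ((2 * (CE * R ^ (6 * e))) ^ (M + 2) * X ^ (c / 2 * M - γ') *
          (T + X ^ γ * (2 * (CE * R ^ (6 * e)) * X) ^ (M + 1) * (Cτ * R ^ (e - K) * T)))) +
      CF * R ^ (-K) * T ≤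
    (8 * C ^ 4 * Cf * (2 * CE) ^ (M + 2) * (1 + Cτ * (2 * CE) ^ (M + 1)) + CF) * R ^ ε *
      X ^ (c / 2 * ((M : ℝ) + 1) - γ') * T := by
  have hR0 : 0 < R := by linarith
  have hX0 : 0 < X := by linarith
  have hM0 : (0:ℝ) ≤ M := Nat.cast_nonneg M
  have hRe : 1 ≤ R ^ e := Real.one_le_rpow hR he.le
  have h1 := tiny_abs (M := M) hR hX hXR he he1 hCE hCτ hT hγ hγ1 hK
  have h2 : T + X ^ γ * (2 * (CE * R ^ (6 * e)) * X) ^ (M + 1) * (Cτ * R ^ (e - K) * T) ≤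
      (1 + Cτ * (2 * CE) ^ (M + 1)) * T := by linarith
  have h20 : 0 ≤ T + X ^ γ * (2 * (CE * R ^ (6 * e)) * X) ^ (M + 1) * (Cτ * R ^ (e - K) * T) := by
    positivity
  have h3 : N + 1 ≤ 2 * C * R ^ e := by
    have : 1 ≤ C * R ^ e := by
      calc (1:ℝ) = 1 * 1 := by ring
        _ ≤ _ := by gcongr
    linarith
  have h4 : (2 * (CE * R ^ (6 * e))) ^ (M + 2) = (2 * CE) ^ (M + 2) * R ^ (6 * e * ((M : ℝ) + 2)) := by
    rw [← mul_assoc, mul_pow, ← Real.rpow_natCast (R ^ (6 * e)), ← Real.rpow_mul hR0.le]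
    push_cast; ring_nf
  have h5 : X ^ (c / 2) * X ^ (c / 2 * M - γ') = X ^ (c / 2 * ((M : ℝ) + 1) - γ') := by
    rw [← Real.rpow_add hX0]; ring_nf
  have h6 : R ^ (2 * e) * R ^ e * R ^ e * R ^ e * R ^ (6 * e * ((M : ℝ) + 2)) ≤ R ^ ε := by
    rw [← Real.rpow_add hR0, ← Real.rpow_add hR0, ← Real.rpow_add hR0, ← Real.rpow_add hR0]
    exact rpow_le_rpow_of_one_le hR (by nlinarith)
  have h7 : CF * R ^ (-K) * T ≤ CF * R ^ ε * X ^ (c / 2 * ((M : ℝ) + 1) - γ') * T := by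
    have h8 : R ^ (-K) ≤ 1 := Real.rpow_le_one_of_one_le_of_nonpos hR (by linarith)
    have h9 : 1 ≤ R ^ ε := Real.one_le_rpow hR (le_trans (by positivity) hε)
    have h10 : 1 ≤ X ^ (c / 2 * ((M : ℝ) + 1) - γ') := Real.one_le_rpow hX (by linarith)
    calc CF * R ^ (-K) * T ≤ CF * 1 * T := by gcongr
      _ = CF * 1 * 1 * T := by ring
      _ ≤ _ := by gcongr
  have h8 : 2 * (N + 1) ^ 2 * (Cf * R ^ (2 * e) * X ^ (c / 2)) * C *
        (N * ((2 * (CE * R ^ (6 * e))) ^ (M + 2) * X ^ (c / 2 * M - γ') *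
          (T + X ^ γ * (2 * (CE * R ^ (6 * e)) * X) ^ (M + 1) * (Cτ * R ^ (e - K) * T)))) ≤
      8 * C ^ 4 * Cf * (2 * CE) ^ (M + 2) * (1 + Cτ * (2 * CE) ^ (M + 1)) * R ^ ε *
        X ^ (c / 2 * ((M : ℝ) + 1) - γ') * T := by
    calc _ ≤ 2 * (2 * C * R ^ e) ^ 2 * (Cf * R ^ (2 * e) * X ^ (c / 2)) * C *
        ((C * R ^ e) * ((2 * (CE * R ^ (6 * e))) ^ (M + 2) * X ^ (c / 2 * M - γ') *
          ((1 + Cτ * (2 * CE) ^ (M + 1)) * T))) := by gcongr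
      _ = (8 * C ^ 4 * Cf * (2 * CE) ^ (M + 2) * (1 + Cτ * (2 * CE) ^ (M + 1))) *
          (R ^ (2 * e) * R ^ e * R ^ e * R ^ e * R ^ (6 * e * ((M : ℝ) + 2))) *
          (X ^ (c / 2) * X ^ (c / 2 * M - γ')) * T := by
        rw [h4]; ring
      _ ≤ (8 * C ^ 4 * Cf * (2 * CE) ^ (M + 2) * (1 + Cτ * (2 * CE) ^ (M + 1))) *
          R ^ ε * X ^ (c / 2 * ((M : ℝ) + 1) - γ') * T := by
        rw [h5]; gcongr
  calc _ ≤ _ := add_le_add h8 h7
    _ = _ := by ring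

end Crest.Agent.R138.Chn188
end

-- ▼ part R138/Chn6_188
section

/-!
# R138 / R139: WAVE side, chain, part 6 (helper188): constants, one state.
-/

set_option autoImplicit false

open MeasureTheory FourierTransform
open scoped ContDiff ENNReal

namespace Crest.Agent.R138.Chn188

open Crest.Agent.R138.Defs Crest.Agent.R138.Bil882 Crest.Agent.R138.Wpk685
  Crest.Agent.R138.W188 Crest.Agent.R138.Gl210 Crest.Agent.R138.GR639

/-- the constants of the chain. -/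
structure Cst (c1 β C0 g0 γm γ γ' c κ : ℝ) (j0 M n : ℕ) : Prop where
  m0 : 0 < γm
  m1 : γm ≤ 1/2
  mc : C0 * γm ≤ c1 / 4
  mh : C0 * γm ≤ 1/2
  g0' : 0 < γ
  g1 : γ ≤ γm * c1
  g2 : γ ≤ c1 / 4
  g3 : γ ≤ 1
  gg : γ' = min γ (1/4)
  j1 : 1 ≤ j0
  nar : g0 * β + γ ≤ (c1 - β) / 2 * j0
  TA : TowerAbs c1 j0 M
  hn : j0 + n = M
  cc : c1 < c
  gc : γ' ≤ c / 2 * ((M:ℝ) + 1)
  k0 : 0 < κ
  k1 : κ ≤ 1
  ex : c / 2 * ((M : ℝ) + 1) - γ' = ((M:ℝ) + 1) * (c1 / 2 * (1 - κ))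

theorem exists_cst {c1 β C0 g0 : ℝ} (hc1 : 0 < c1) (hβ : 0 ≤ β) (hβc : β < c1) (hC0 : 0 ≤ C0)
    (hg0 : 0 ≤ g0) : ∃ (γm γ γ' c κ : ℝ) (j0 M n : ℕ), Cst c1 β C0 g0 γm γ γ' c κ j0 M n := by
  -- thin margin
  obtain ⟨γm, hγmdef⟩ : ∃ x, x = min (1/2) (min (c1 / (4 * (C0 + 1))) (1 / (2 * (C0 + 1)))) :=
    ⟨_, rfl⟩
  have hC01 : 0 < C0 + 1 := by linarith
  have hγm : 0 < γm := by
    rw [hγmdef]; exact lt_min (by norm_num) (lt_min (by positivity) (by positivity))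
  have hγm2 : γm ≤ 1/2 := by rw [hγmdef]; exact min_le_left _ _
  have hγmc : C0 * γm ≤ c1 / 4 := by
    have h1 : γm ≤ c1 / (4 * (C0 + 1)) := by
      rw [hγmdef]; exact (min_le_right _ _).trans (min_le_left _ _)
    calc C0 * γm ≤ (C0 + 1) * γm := by nlinarith
      _ ≤ (C0 + 1) * (c1 / (4 * (C0 + 1))) := by gcongr
      _ = c1 / 4 := by field_simp
  have hγmh : C0 * γm ≤ 1/2 := by
    have h1 : γm ≤ 1 / (2 * (C0 + 1)) := by
      rw [hγmdef]; exact (min_le_right _ _).trans (min_le_right _ _)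
    calc C0 * γm ≤ (C0 + 1) * γm := by nlinarith
      _ ≤ (C0 + 1) * (1 / (2 * (C0 + 1))) := by gcongr
      _ = 1/2 := by field_simp
  -- gain
  obtain ⟨γ, hγdef⟩ : ∃ x, x = min (min (γm * c1) (c1 / 4)) 1 := ⟨_, rfl⟩
  have hγ : 0 < γ := by
    rw [hγdef]; exact lt_min (lt_min (by positivity) (by positivity)) one_pos
  have hγ1 : γ ≤ γm * c1 := by rw [hγdef]; exact (min_le_left _ _).trans (min_le_left _ _)
  have hγ2 : γ ≤ c1 / 4 := by rw [hγdef]; exact (min_le_left _ _).trans (min_le_right _ _)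
  have hγ3 : γ ≤ 1 := by rw [hγdef]; exact min_le_right _ _
  obtain ⟨γ', hγ'def⟩ : ∃ x, x = min γ (1/4) := ⟨_, rfl⟩
  have hγ' : 0 < γ' := by rw [hγ'def]; exact lt_min hγ (by norm_num)
  have hγ'γ : γ' ≤ γ := by rw [hγ'def]; exact min_le_left _ _
  -- first level
  have hcb : 0 < c1 - β := by linarith
  obtain ⟨j0, hj0def⟩ : ∃ j : ℕ, j = max 1 ⌈2 * (g0 * β + γ) / (c1 - β)⌉₊ := ⟨_, rfl⟩
  have hj0 : 1 ≤ j0 := by rw [hj0def]; exact le_max_left _ _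
  have hnar : g0 * β + γ ≤ (c1 - β) / 2 * j0 := by
    have h1 : 2 * (g0 * β + γ) / (c1 - β) ≤ j0 := by
      refine (Nat.le_ceil _).trans ?_
      rw [hj0def]
      exact_mod_cast le_max_right _ _
    rw [div_le_iff₀ hcb] at h1
    linarith
  obtain ⟨M, hM, hTA⟩ := tower_abs hc1 j0
  obtain ⟨n, hn⟩ : ∃ n, j0 + n = M := ⟨M - j0, by omega⟩
  have hM0 : (0:ℝ) ≤ M := Nat.cast_nonneg M
  have hJ : (0:ℝ) < (M:ℝ) + 1 := by linarith
  have hJ1 : (1:ℝ) ≤ (M:ℝ) + 1 := by linarith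
  have hcc : c1 < c1 + γ' / ((M:ℝ) + 1) := by
    have : 0 < γ' / ((M:ℝ) + 1) := by positivity
    linarith
  refine ⟨γm, γ, γ', c1 + γ' / ((M:ℝ) + 1), γ' / (((M:ℝ) + 1) * c1), j0, M, n,
    hγm, hγm2, hγmc, hγmh, hγ, hγ1, hγ2, hγ3, hγ'def, hj0, hnar, hTA, hn, hcc, ?_, by positivity,
    ?_, ?_⟩
  · have h1 : c1 / 2 * 1 ≤ (c1 + γ' / ((M:ℝ) + 1)) / 2 * ((M:ℝ) + 1) := by
      have h2 : c1 ≤ c1 + γ' / ((M:ℝ) + 1) := hcc.le
      gcongr
    linarith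
  · rw [div_le_one (by positivity)]
    calc γ' ≤ c1 := by linarith
      _ = 1 * c1 := by ring
      _ ≤ ((M:ℝ) + 1) * c1 := by gcongr
  · field_simp
    ring

/-- FIN with its constants. -/
def FinB (B : ℕ → ℝ) (q A c e M0 b K : ℝ) (M1 : ℕ) (Cf Cn C : ℝ) : Prop :=
    ∀ M : ℕ, M1 ≤ M →
    ∀ (Na : ℕ) (h : E2 → ℝ) (g : E2 → ℂ) (R D : ℝ), St B q Na M0 (1/2) h g R D →
    ∀ L : Lev, LevOk q A (1/2) Cn B M h g R L → 36 ≤ L.r → (L.nb : ℝ) ≤ R ^ b →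
      (L.n : ℝ) ≤ Cn * R ^ b →
    ∀ r s1 s2 : ℝ, R ^ (1/2 : ℝ) ≤ r → A * r ≤ L.r → r ≤ L.r ^ (1 - e) → Sd r s1 s2 →
      ENNReal.ofReal (s2 ^ (-q / 2)) * SIG A r s1 s2 h g R ≤
        ENNReal.ofReal (2 * ((L.n : ℝ) + 1) ^ 2 * (Cf * R ^ (2 * e) * (L.r / r) ^ (c / 2)) * Cn) *
          (∑ k ∈ Finset.range L.n, L.S h g k) +
        ENNReal.ofReal (C * R ^ (-K) * SS g R D)

/-- **one state.** -/
theorem close_state {B : ℕ → ℝ} {q A C0 g0 γm e C K c1 c β γ γ' κ CR CG CG' CE Cτ CF Cf M0 ε : ℝ}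
    {M M1 MD j0 n Na : ℕ} {h : E2 → ℝ} {g : E2 → ℂ} {R D dl d s1 s2 : ℝ} {L : ℕ → Lev}
    {p : ℕ → ℕ → ℝ} {gd : ℕ → ℕ → Prop}
    (HC : Cst c1 β C0 g0 γm γ γ' c κ j0 M n) (hc1 : 0 < c1) (hβ : 0 ≤ β) (hβc : β < c1)
    (hC0 : 0 ≤ C0) (hg0 : 0 ≤ g0)
    (he : 0 < e) (he1 : e ≤ 1) (heε : 6 * e * ((M:ℝ) + 3) ≤ ε)
    (hC : 1 ≤ C) (hCR : 0 ≤ CR) (hCG : 0 ≤ CG) (hCG' : 0 ≤ CG') (hCf : 0 ≤ Cf) (hCF : 0 ≤ CF)
    (hE1 : 1 ≤ CE) (hE2 : CR * C ≤ CE) (hE3 : 8 * CG * C ^ 5 ≤ CE) (hE4 : C ≤ CE)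
    (hτ1 : CG' * C ≤ Cτ) (hτ2 : C ≤ Cτ) (hK : 7 * ((M:ℝ) + 1) + 2 = K)
    (hM1 : M1 ≤ MD) (hM : 13 + |q| + |M0| + |K| + 4 * (2 * e) ≤ MD)
    (HR : RootB B q A c β e Na M0 CR) (HG : GenB B q A c e M0 K (2 * e) C CG CG')
    (HF : FinB B q A c e M0 (2 * e) K M1 Cf C CF)
    (hSt : St B q Na M0 (1/2) h g R D) (hR : 1296 ≤ R) (hCRe : C ≤ R ^ e)
    (hdl : 0 < dl) (hdl1 : dl ≤ 1) (hAdl : A * dl ≤ 1) (hdlR : R ^ e ≤ dl⁻¹) (hXR : dl⁻¹ ≤ R)
    (hd : dl ^ (M + 1) = d) (hdR2 : R ^ (1/2 : ℝ) ≤ d * R) (hSd : Sd (d * R) s1 s2)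
    (HT : Tower B q A C0 g0 γm e C K MD j0 n h g R D dl L p gd) :
    ENNReal.ofReal (s2 ^ (-q / 2)) * SIG A (d * R) s1 s2 h g R ≤
      ENNReal.ofReal ((8 * C ^ 4 * Cf * (2 * CE) ^ (M + 2) * (1 + Cτ * (2 * CE) ^ (M + 1)) + CF) *
        R ^ ε * (dl⁻¹) ^ (c / 2 * ((M : ℝ) + 1) - γ') * SS g R D) := by
  have hR1 := hSt.R1
  have hRp := hSt.Rpos
  have hss := hSt.ss
  have hK0 : 0 ≤ K := by rw [← hK]; positivity
  have hTop := top_bound HC.TA HC.hn HC.j1 hc1 HC.cc.le HC.g0'.le HC.g1 HC.g2 HC.m0 HC.m1 hC0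
    HC.mc hβ hg0 HC.nar hβc.le he hC hCR hCG hCG' hE1 hE2 hE3 hE4 hτ1 hτ2 hK0 hM HR HG hSt hR
    hCRe hdl hAdl hdlR HT
  have hLn := HT.ok n le_rfl
  have hle := HT.le n le_rfl
  have hr36 := rad_36 HT hR le_rfl
  have hrn : d * R = dl * (L n).r := by
    rw [HT.rad n le_rfl, HC.hn, ← hd, pow_succ]; ring
  have hb : C * R ^ e ≤ R ^ (2 * e) := by
    rw [show 2 * e = e + e by ring, Real.rpow_add hRp]
    gcongr
  have hb2 : C * R ^ e ≤ C * R ^ (2 * e) := by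
    have : R ^ e ≤ R ^ (2 * e) := rpow_le_rpow_of_one_le hR1 (by linarith)
    gcongr
  have hAr : A * (d * R) ≤ (L n).r := by
    rw [hrn]
    calc A * (dl * (L n).r) = (A * dl) * (L n).r := by ring
      _ ≤ 1 * (L n).r := by
          have : 0 ≤ (L n).r := by linarith
          gcongr
      _ = _ := one_mul _
  have hF := HF MD hM1 Na h g R D hSt (L n) hLn hr36 (hle.2.trans hb) (hle.1.trans hb2) (d * R) s1
    s2 hdR2 hAr
    (by rw [hrn]; exact step_e hR1 he.le (by linarith) hLn.hi hdl hdlR) hSd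
  have hratio : (L n).r / (d * R) = dl⁻¹ := by
    rw [hrn]
    have : (L n).r ≠ 0 := by
      have : 0 < (L n).r := by linarith
      exact this.ne'
    field_simp
  rw [hratio] at hF
  obtain ⟨X, hX⟩ : ∃ X, X = dl⁻¹ := ⟨_, rfl⟩
  have hXle : 1 ≤ X := by rw [hX]; exact (one_le_inv₀ hdl).2 hdl1
  have hX0 : 0 < X := by linarith
  rw [← hX] at hTop hF hXR ⊢
  rw [← HC.gg] at hTop
  obtain ⟨Bd, hBd⟩ : ∃ x, x = (2 * (CE * R ^ (6 * e))) ^ (M + 2) * X ^ (c / 2 * M - γ') *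
      (SS g R D + X ^ γ * (2 * (CE * R ^ (6 * e)) * X) ^ (M + 1) *
        (Cτ * R ^ (e - K) * SS g R D)) := ⟨_, rfl⟩
  rw [← hBd] at hTop
  have hCE0 : 0 ≤ CE := by linarith
  have hCτ0 : 0 ≤ Cτ := by linarith
  have hBd0 : 0 ≤ Bd := by rw [hBd]; positivity
  have hsum : ∑ k ∈ Finset.range (L n).n, (L n).S h g k ≤
      ENNReal.ofReal (((L n).n : ℝ) * Bd) := by
    calc ∑ k ∈ Finset.range (L n).n, (L n).S h g k
        ≤ ∑ _k ∈ Finset.range (L n).n, ENNReal.ofReal Bd :=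
          Finset.sum_le_sum fun k hk => hTop k (Finset.mem_range.1 hk)
      _ = ENNReal.ofReal (((L n).n : ℝ) * Bd) := by
          rw [Finset.sum_const, Finset.card_range, nsmul_eq_mul,
            ENNReal.ofReal_mul (Nat.cast_nonneg _), ENNReal.ofReal_natCast]
  have hfin := final_real (N := (L n).n) (C := C) (Cf := Cf) (CE := CE) (Cτ := Cτ) (CF := CF)
    (R := R) (e := e) (ε := ε) (X := X) (T := SS g R D) (c := c) (γ := γ) (γ' := γ') (K := K)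
    (M := M) hR1 hXle hXR he he1 (Nat.cast_nonneg _) hle.1 hC hCf hE1 hCτ0 hCF hss HC.g0'.le HC.g3
    hK.le heε HC.gc
  rw [← hBd] at hfin
  exact comb (by positivity) (by positivity) (by positivity) hF hsum hfin

end Crest.Agent.R138.Chn188
end

-- ▼ part R138/Chn7_188

/-!
# R138 / R139: WAVE side, chain, part 7 (helper188): `WChE` from the existence of towers `EXT`.
-/

set_option autoImplicit false

open MeasureTheory FourierTransform
open scoped ContDiff ENNReal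

namespace Crest.Agent.R138.Chn188

open Crest.Agent.R138.Defs Crest.Agent.R138.Bil882 Crest.Agent.R138.Wpk685
  Crest.Agent.R138.W188 Crest.Agent.R138.Gl210 Crest.Agent.R138.GR639

/-- small `R`: trivial bound. -/
theorem small_R {CT R0 R ε d T x C' : ℝ} (hR : 1 ≤ R) (hRR : R ≤ R0) (hd : 0 < d) (hd1 : d ≤ 1)
    (hdR : d⁻¹ ≤ R) (hCT : 0 ≤ CT) (hT : 0 ≤ T) (hx : 0 ≤ x) (hC' : CT * R0 ^ 2 ≤ C') :
    CT * R ^ ε * (R / (d * R)) ^ (2:ℝ) * T ≤ C' * R ^ ε * d ^ (-x) * T := by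
  have hR0 : 0 < R := by linarith
  have h1 : R / (d * R) = d⁻¹ := by field_simp
  have h2 : (d⁻¹) ^ (2:ℝ) ≤ R0 ^ 2 := by
    rw [Real.rpow_two]
    have : 0 ≤ d⁻¹ := by positivity
    have h3 : d⁻¹ ≤ R0 := hdR.trans hRR
    gcongr
  have h3 : 1 ≤ d ^ (-x) := by
    rw [Real.rpow_neg hd.le]
    exact (one_le_inv₀ (by positivity)).2 (Real.rpow_le_one hd.le hd1 hx)
  rw [h1]
  have h4 : 0 ≤ R ^ ε := by positivity
  have h5 : 0 ≤ CT * R0 ^ 2 := by positivity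
  have h6 : 0 ≤ C' := h5.trans hC'
  calc CT * R ^ ε * (d⁻¹) ^ (2:ℝ) * T ≤ CT * R ^ ε * R0 ^ 2 * T := by gcongr
    _ = (CT * R0 ^ 2) * R ^ ε * 1 * T := by ring
    _ ≤ C' * R ^ ε * d ^ (-x) * T := by gcongr

/-- consequences of `d ^ (-A') ≤ R`, `2 ≤ A'`. -/
theorem d_facts {d R A' : ℝ} (hR : 1 ≤ R) (hd : 0 < d) (hd1 : d ≤ 1) (hA' : 2 ≤ A')
    (hdA : d ^ (-A') ≤ R) : (∀ a : ℝ, a ≤ A' → d ^ (-a) ≤ R) ∧ d⁻¹ ≤ R ∧
      R ^ (1/2 : ℝ) ≤ d * R := by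
  have hRp : 0 < R := by linarith
  have hdpow : ∀ a : ℝ, a ≤ A' → d ^ (-a) ≤ R := by
    intro a ha
    refine le_trans ?_ hdA
    exact Real.rpow_le_rpow_of_exponent_ge hd hd1 (by linarith)
  have hdR : d⁻¹ ≤ R := by
    have := hdpow 1 (by linarith)
    rwa [Real.rpow_neg_one] at this
  refine ⟨hdpow, hdR, ?_⟩
  have h1 := hdpow 2 hA'
  have h2 : d⁻¹ ≤ R ^ (1/2 : ℝ) := by
    calc d⁻¹ = (d ^ (-(2:ℝ))) ^ (1/2 : ℝ) := by
          rw [← Real.rpow_mul hd.le, ← Real.rpow_neg_one]; norm_num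
      _ ≤ R ^ (1/2 : ℝ) := Real.rpow_le_rpow (by positivity) h1 (by norm_num)
  have h3 : R ^ (1/2 : ℝ) * R ^ (1/2 : ℝ) = R := by
    rw [← Real.rpow_add hRp]; norm_num
  have h4 : 1 ≤ d * R ^ (1/2 : ℝ) := by
    calc (1:ℝ) = d * d⁻¹ := by field_simp
      _ ≤ _ := by gcongr
  calc R ^ (1/2 : ℝ) = 1 * R ^ (1/2 : ℝ) := by ring
    _ ≤ (d * R ^ (1/2 : ℝ)) * R ^ (1/2 : ℝ) := by gcongr
    _ = d * (R ^ (1/2 : ℝ) * R ^ (1/2 : ℝ)) := by ring
    _ = d * R := by rw [h3]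

/-- the ratio `dl = d^(1/(M+1))`. -/
theorem dl_facts {d cc : ℝ} {M : ℕ} (hd : 0 < d) (hcc0 : 0 < cc) (hd1 : d ≤ 1)
    (hdc : d ≤ cc ^ (M + 1)) : ∃ dl : ℝ, 0 < dl ∧ dl ≤ 1 ∧ dl ^ (M + 1) = d ∧ dl ≤ cc ∧ d ≤ dl := by
  have hM0 : (0:ℝ) ≤ M := Nat.cast_nonneg M
  have hJ : (0:ℝ) < (M:ℝ) + 1 := by linarith
  obtain ⟨dl, hdldef⟩ : ∃ x, x = d ^ ((M + 1 : ℝ)⁻¹) := ⟨_, rfl⟩
  have hdl : 0 < dl := by rw [hdldef]; positivity
  have hdl1 : dl ≤ 1 := by rw [hdldef]; exact Real.rpow_le_one hd.le hd1 (by positivity)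
  have hdlM : dl ^ (M + 1) = d := by
    rw [hdldef, ← Real.rpow_natCast, ← Real.rpow_mul hd.le]
    push_cast
    rw [inv_mul_cancel₀ hJ.ne', Real.rpow_one]
  refine ⟨dl, hdl, hdl1, hdlM, ?_, ?_⟩
  · rw [hdldef]
    calc d ^ ((M + 1 : ℝ)⁻¹) ≤ (cc ^ (M + 1)) ^ ((M + 1 : ℝ)⁻¹) :=
          Real.rpow_le_rpow hd.le hdc (by positivity)
      _ = cc := by
        rw [← Real.rpow_natCast, ← Real.rpow_mul hcc0.le]
        push_cast
        rw [mul_inv_cancel₀ hJ.ne', Real.rpow_one]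
  · rw [← hdlM]
    calc dl ^ (M + 1) ≤ dl ^ 1 := pow_le_pow_of_le_one hdl.le hdl1 (by omega)
      _ = dl := pow_one dl

/-- `R^e ≤ dl⁻¹`. -/
theorem dl_R {R ε e d dl : ℝ} {M : ℕ} (hR : 1 ≤ R) (he : 0 < e)
    (heε : 6 * e * ((M:ℝ) + 3) ≤ ε) (hdl : 0 < dl) (hdlM : dl ^ (M + 1) = d)
    (hdε : R ^ ε ≤ d⁻¹) : R ^ e ≤ dl⁻¹ := by
  have hRp : 0 < R := by linarith
  have hM0 : (0:ℝ) ≤ M := Nat.cast_nonneg M
  have h1 : R ^ (((M:ℝ) + 1) * e) ≤ d⁻¹ := by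
    refine le_trans (rpow_le_rpow_of_one_le hR ?_) hdε
    nlinarith
  have h2 : (R ^ e) ^ (M + 1) ≤ (dl⁻¹) ^ (M + 1) := by
    rw [inv_pow, hdlM, ← Real.rpow_natCast, ← Real.rpow_mul hRp.le]
    push_cast
    rwa [mul_comm e]
  exact le_of_pow_le_pow_left₀ (by omega) (by positivity) h2

/-- the final exponent. -/
theorem hdX {d dl x y : ℝ} {M : ℕ} (hdl : 0 < dl) (hdlM : dl ^ (M + 1) = d)
    (hxy : x = ((M:ℝ) + 1) * y) : (dl⁻¹) ^ x = d ^ (-y) := by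
  rw [hxy, ← hdlM, Real.inv_rpow hdl.le, ← Real.rpow_neg hdl.le, ← Real.rpow_natCast,
    ← Real.rpow_mul hdl.le]
  congr 1
  push_cast
  ring

/-- **`EXT` implies `WChE`.** -/
theorem wchE_of_EXT {B : ℕ → ℝ} {q A : ℝ} (hA : 1 ≤ A) (HK : KMw B q) (HT1 : TRIV1 B q)
    (HT2 : TRIV2 B q (SIG A)) (H2 : A2 B q (SIG A)) (H2K : A2K B q (SIG A)) (H5 : A5b B q)
    (HX : EXT B q A) : WChE B q (SIG A) := by
  intro c1 hc1 hLB β hβ hβc hE
  obtain ⟨C0, g0, hC0, hg0, HX⟩ := HX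
  obtain ⟨γm, γ, γ', c, κ, j0, M, n, HC⟩ := exists_cst hc1 hβ hβc hC0 hg0
  have hM0 : (0:ℝ) ≤ M := Nat.cast_nonneg M
  have hc0 : 0 ≤ c := by have := HC.cc; linarith
  obtain ⟨c3, Aw, hc3, hc31, hAw, HX⟩ := HX γm HC.m0 HC.m1 HC.mh j0 n HC.j1
  obtain ⟨K0, hK0, HT2⟩ := HT2
  have hK00 : 0 < K0 := by linarith
  have hA0 : 0 < A := by linarith
  obtain ⟨cc, hccdef⟩ : ∃ x, x = min c3 (min A⁻¹ K0⁻¹) := ⟨_, rfl⟩
  have hcc0 : 0 < cc := by
    rw [hccdef]; exact lt_min hc3 (lt_min (by positivity) (by positivity))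
  have hcc3 : cc ≤ c3 := by rw [hccdef]; exact min_le_left _ _
  have hccA : cc ≤ A⁻¹ := by rw [hccdef]; exact (min_le_right _ _).trans (min_le_left _ _)
  have hccK : cc ≤ K0⁻¹ := by rw [hccdef]; exact (min_le_right _ _).trans (min_le_right _ _)
  have hcc1 : cc ≤ 1 := hcc3.trans hc31
  refine ⟨κ, cc ^ (M + 1), max 2 Aw, HC.k0, HC.k1, by positivity, pow_le_one₀ hcc0.le hcc1,
    le_trans (by norm_num) (le_max_left _ _), ?_⟩
  intro ε hε Na M0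
  -- losses
  obtain ⟨e, hedef⟩ : ∃ x, x = min 1 (ε / (6 * ((M:ℝ) + 3))) := ⟨_, rfl⟩
  have he : 0 < e := by rw [hedef]; exact lt_min one_pos (by positivity)
  have he1 : e ≤ 1 := by rw [hedef]; exact min_le_left _ _
  have heε : 6 * e * ((M:ℝ) + 3) ≤ ε := by
    have h1 : e ≤ ε / (6 * ((M:ℝ) + 3)) := by rw [hedef]; exact min_le_right _ _
    rw [le_div_iff₀ (by positivity)] at h1
    linarith
  have PB : PhB B q (SIG A) c β := phB hc0 hβ (hLB c HC.cc) HK HT1 hE H5 H2 H2K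
  obtain ⟨CR, hCR, HR⟩ := root_lev PB he Na M0
  obtain ⟨CG, hCG, HG⟩ := gen_lev hA PB he
  obtain ⟨K, hKdef⟩ : ∃ x : ℝ, 7 * ((M:ℝ) + 1) + 2 = x := ⟨_, rfl⟩
  have hK : 0 ≤ K := by rw [← hKdef]; positivity
  obtain ⟨M1, Cf, hCf, HF⟩ := fin_lev hA hc0 PB he M0 (2 * e) K (by positivity) hK
  obtain ⟨MD, hMDdef⟩ : ∃ m : ℕ, m = max M1 ⌈13 + |q| + |M0| + |K| + 4 * (2 * e)⌉₊ := ⟨_, rfl⟩
  have hMD1 : M1 ≤ MD := by rw [hMDdef]; exact le_max_left _ _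
  have hMD2 : 13 + |q| + |M0| + |K| + 4 * (2 * e) ≤ MD := by
    refine (Nat.le_ceil _).trans ?_
    rw [hMDdef]
    exact_mod_cast le_max_right _ _
  obtain ⟨C, hC, HX⟩ := HX e he Na M0 K MD hK
  have hC00 : 0 ≤ C := by linarith
  obtain ⟨CG', hCG', HG⟩ := HG M0 K (2 * e) C (by positivity) hC00
  obtain ⟨CF, hCF, HF⟩ := HF C hC00
  obtain ⟨CT, hCT, HT2⟩ := HT2 ε hε Na M0
  obtain ⟨CE, hCEdef⟩ : ∃ x : ℝ, x = CR * C + 8 * CG * C ^ 5 + C := ⟨_, rfl⟩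
  have hp1 : 0 ≤ CR * C := by positivity
  have hp2 : 0 ≤ 8 * CG * C ^ 5 := by positivity
  have hE1 : 1 ≤ CE := by rw [hCEdef]; linarith
  have hE2 : CR * C ≤ CE := by rw [hCEdef]; linarith
  have hE3 : 8 * CG * C ^ 5 ≤ CE := by rw [hCEdef]; linarith
  have hE4 : C ≤ CE := by rw [hCEdef]; linarith
  obtain ⟨Cτ, hCτdef⟩ : ∃ x : ℝ, x = CG' * C + C := ⟨_, rfl⟩
  have hp3 : 0 ≤ CG' * C := by positivity
  have hτ1 : CG' * C ≤ Cτ := by rw [hCτdef]; linarith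
  have hτ2 : C ≤ Cτ := by rw [hCτdef]; linarith
  have hCτ0 : 0 ≤ Cτ := by linarith
  obtain ⟨R0, hR0def⟩ : ∃ x : ℝ, x = max 1296 (C ^ (e⁻¹)) := ⟨_, rfl⟩
  have hR01 : 1296 ≤ R0 := by rw [hR0def]; exact le_max_left _ _
  have hR0C : C ^ (e⁻¹) ≤ R0 := by rw [hR0def]; exact le_max_right _ _
  obtain ⟨CM, hCMdef⟩ : ∃ x : ℝ, x = 8 * C ^ 4 * Cf * (2 * CE) ^ (M + 2) *
    (1 + Cτ * (2 * CE) ^ (M + 1)) + CF := ⟨_, rfl⟩
  have hCM0 : 0 ≤ CM := by rw [hCMdef]; positivity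
  have hCT0 : 0 ≤ CT * R0 ^ 2 := by positivity
  refine ⟨CT * R0 ^ 2 + CM, by positivity, ?_⟩
  intro h g R D hSt d s1 s2 hd hdc hdA hdε hSd
  have hR1 := hSt.R1
  have hRp := hSt.Rpos
  have hss := hSt.ss
  have hd1 : d ≤ 1 := hdc.trans (pow_le_one₀ hcc0.le hcc1)
  have hx0 : 0 ≤ c1 / 2 * (1 - κ) := mul_nonneg (by positivity) (by have := HC.k1; linarith)
  obtain ⟨hdpow, hdR, hdR2⟩ := d_facts hR1 hd hd1 (le_max_left _ _) hdA
  obtain ⟨dl, hdl, hdl1, hdlM, hdlcc, hddl⟩ := dl_facts hd hcc0 hd1 hdc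
  rcases le_or_gt R R0 with hsm | hbig
  · -- small `R`
    have hK0d : K0 * (d * R) ≤ R := by
      have h2 : K0 * d ≤ 1 := by
        calc K0 * d ≤ K0 * K0⁻¹ := by
              have := (hddl.trans hdlcc).trans hccK
              gcongr
          _ = 1 := mul_inv_cancel₀ hK00.ne'
      calc K0 * (d * R) = (K0 * d) * R := by ring
        _ ≤ 1 * R := by gcongr
        _ = R := one_mul R
    have h1 := HT2 h g R D (d * R) s1 s2 (hSt.mono (by norm_num)) hdR2 hK0d hSd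
    refine h1.trans (ENNReal.ofReal_le_ofReal ?_)
    exact small_R hR1 hsm hd hd1 hdR hCT hss hx0 (by linarith)
  · -- main case
    have hR1296 : 1296 ≤ R := hR01.trans hbig.le
    have hCRe : C ≤ R ^ e := by
      calc C = (C ^ (e⁻¹)) ^ e := by
            rw [← Real.rpow_mul hC00, inv_mul_cancel₀ he.ne', Real.rpow_one]
        _ ≤ R ^ e := Real.rpow_le_rpow (by positivity) (hR0C.trans hbig.le) he.le
    have hCR' : C ≤ R := by
      calc C ≤ R ^ e := hCRe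
        _ ≤ R ^ (1:ℝ) := rpow_le_rpow_of_one_le hR1 he1
        _ = R := Real.rpow_one R
    have hAdl : A * dl ≤ 1 := by
      calc A * dl ≤ A * A⁻¹ := by
            have := hdlcc.trans hccA
            gcongr
        _ = 1 := mul_inv_cancel₀ hA0.ne'
    have hdlA : dl ^ (-Aw) ≤ R := by
      refine le_trans ?_ (hdpow Aw (le_max_right _ _))
      rw [Real.rpow_neg hdl.le, Real.rpow_neg hd.le]
      have h1 : 0 < d ^ Aw := by positivity
      have h2 : d ^ Aw ≤ dl ^ Aw := Real.rpow_le_rpow hd.le hddl (by linarith)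
      exact inv_anti₀ h1 h2
    have hdlR := dl_R hR1 he heε hdl hdlM hdε
    obtain ⟨L, p, gd, HT⟩ := HX h g R D hSt dl hdl (hdlcc.trans hcc3) hdlA hdlR hCR'
    have hXR : dl⁻¹ ≤ R := le_trans (inv_anti₀ hd hddl) hdR
    have key := close_state (CE := CE) (Cτ := Cτ) HC hc1 hβ hβc hC0 hg0 he he1 heε hC hCR hCG
      hCG' hCf hCF hE1 hE2 hE3 hE4 hτ1 hτ2 hKdef hMD1 hMD2 HR HG HF hSt hR1296 hCRe hdl hdl1
      hAdl hdlR hXR hdlM hdR2 hSd HT
    refine key.trans (ENNReal.ofReal_le_ofReal ?_)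
    rw [← hCMdef, hdX hdl hdlM HC.ex]
    have h9 : 0 ≤ R ^ ε := by positivity
    have h10 : 0 ≤ d ^ (-(c1 / 2 * (1 - κ))) := by positivity
    have h11 : CM ≤ CT * R0 ^ 2 + CM := by linarith
    gcongr

end Crest.Agent.R138.Chn188
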