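import Crest.Agent.R138.Gl_210
import Crest.Agent.R138.Chi_101
import Crest.Agent.R138.GenRoot5_639
import Crest.Agent.R138.PDef_654
import Crest.Agent.R138.Ad2_480
import Crest.Agent.R138.Acl2_101
import Crest.Agent.R138.ExtDef_188
import Crest.Agent.R138.Wpk13_685

-- ▼ part R138/Stp1_210
section

/-!
# R138 / R139: WAVE side (helper210): the class functional of the slab chain

`AF Ma n K0 CE` : the auxiliary class of a phase point of the next level = the class `clsR`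
(dyadic index of the density, dyadic index of the coherence count) relative to the parent selection
which dominates there.
-/

set_option autoImplicit false

open MeasureTheory FourierTransform
open scoped ENNReal

namespace Crest.Agent.R138.Stp210

open Crest.Agent.R138.Defs Crest.Agent.R138.Bil882 Crest.Agent.R138.Wpk685 Crest.Agent.R138.W188
open Crest.Agent.R138.Gl210 Crest.Agent.R138.P654 Crest.Agent.R138.Ad480 Crest.Agent.R138.Chi101

/-- number of dyadic classes of the density. -/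
noncomputable def nAR (Ma : ℕ) (R : ℝ) : ℕ := Ma * ⌈Real.logb 2 R⌉₊

/-- number of auxiliary classes. -/
noncomputable def naR (Ma : ℕ) (R : ℝ) : ℕ := 8 * ((nAR Ma R + 1) * (Nat.log 2 ⌊R⌋₊ + 1))

/-- the parent label which dominates. -/
noncomputable def kap (h : E2 → ℝ) (L : Lev) (r' : ℝ) (z : E2 × ℝ) (m : ℤ × ℤ) (y : E2) : ℕ :=
  Dom878.argi (r' ^ (-(1/2) : ℝ)) (L.pf h z) (Finset.range L.n) m y

/-- the parent selection. -/
def uL (L : Lev) (w : E2 × ℝ) (κ : ℕ) : ℤ × ℤ → Set E2 := uS (L.I w κ) (L.P w κ)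

open Classical in
/-- **the class functional**. -/
noncomputable def AF (Ma n : ℕ) (K0 CE : ℝ) : AuxF := fun h g R dl L r' z b m y =>
  if z ∈ cyl R then
    clsR (nAR Ma R) (CE * En g) K0 n h (an L.r) (an r') (an (dl * r')) (tr h (L.ζ z) g)
      (uL L (L.ζ z) (kap h L r' z m y)) (z - L.ζ z) b m y
  else 0

/-! ### bounds -/

theorem naR_pos (Ma : ℕ) (R : ℝ) : 1 ≤ naR Ma R := by
  unfold naR
  have : 0 < (nAR Ma R + 1) * (Nat.log 2 ⌊R⌋₊ + 1) := by positivity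
  omega

theorem naR_le (Ma : ℕ) (hMa : 1 ≤ Ma) {η : ℝ} (hη : 0 < η) :
    ∃ C : ℝ, ∀ R, 1 ≤ R → (naR Ma R : ℝ) ≤ C * R ^ η := by
  obtain ⟨C, hC, H⟩ := Acl101.nb_bound hη Ma
  refine ⟨8 * C, fun R hR => ?_⟩
  have h1 : ((⌊R⌋₊ : ℕ) : ℝ) ≤ R ^ Ma := by
    refine (Nat.floor_le (by linarith)).trans ?_
    calc R = R ^ 1 := (pow_one R).symm
      _ ≤ R ^ Ma := pow_le_pow_right₀ hR hMa
  have h2 := H R ⌊R⌋₊ hR h1
  unfold naR nAR
  push_cast at h2 ⊢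
  linarith

theorem log_caps {R r' : ℝ} (hr : 1 ≤ r') (hrR : r' ≤ R) :
    Nat.log 2 (caps (an r')).card + 1 ≤ 8 * (Nat.log 2 ⌊R⌋₊ + 1) := by
  have hr0 : 0 < r' := by linarith
  have h0 : 0 < an r' := Real.rpow_pos_of_pos hr0 _
  have h1 : an r' ≤ 1 := Real.rpow_le_one_of_one_le_of_nonpos hr (by norm_num)
  have h2 := Acl101.card_caps h0 h1
  have h3 : ((an r')⁻¹) ^ 2 = r' := by
    unfold an
    rw [← Real.rpow_neg hr0.le, neg_neg, ← Real.rpow_natCast, ← Real.rpow_mul hr0.le]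
    norm_num
  rw [h3] at h2
  set l := Nat.log 2 ⌊R⌋₊ with hl
  have h4 : (⌊R⌋₊ : ℕ) < 2 ^ (l + 1) := Nat.lt_pow_succ_log_self (by norm_num) _
  have h5 : R < 2 ^ (l + 1) := by
    have := Nat.lt_floor_add_one R
    have h6 : ((⌊R⌋₊ : ℕ) : ℝ) + 1 ≤ 2 ^ (l + 1) := by exact_mod_cast h4
    linarith
  have h6 : (caps (an r')).card < 2 ^ (l + 8) := by
    have : ((caps (an r')).card : ℝ) < 2 ^ (l + 8) := by
      calc ((caps (an r')).card : ℝ) ≤ 81 * r' := h2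
        _ ≤ 81 * R := by gcongr
        _ < 128 * 2 ^ (l + 1) := by
            have : (0:ℝ) < 2 ^ (l + 1) := by positivity
            linarith
        _ = 2 ^ (l + 8) := by rw [show l + 8 = (l + 1) + 7 by ring, pow_add]; norm_num; ring
    exact_mod_cast this
  have h7 : Nat.log 2 (caps (an r')).card < l + 8 := by
    rcases Nat.eq_zero_or_pos (caps (an r')).card with h | h
    · rw [h]; simp
    · exact (Nat.log_lt_iff_lt_pow (by norm_num) h.ne').2 h6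
  omega

theorem AF_lt (Ma n : ℕ) (K0 CE : ℝ) (h : E2 → ℝ) (g : E2 → ℂ) (R dl : ℝ) (L : Lev) {r' : ℝ}
    (hr : 1 ≤ r') (hrR : r' ≤ R) (z : E2 × ℝ) (b : OrthonormalBasis (Fin 2) ℝ E2) (m : ℤ × ℤ)
    (y : E2) : AF Ma n K0 CE h g R dl L r' z b m y < naR Ma R := by
  classical
  unfold AF
  split_ifs with hz
  · refine (clsR_lt _ _ _ _).trans_le ?_
    unfold naR
    calc (nAR Ma R + 1) * (Nat.log 2 (caps (an r')).card + 1)
        ≤ (nAR Ma R + 1) * (8 * (Nat.log 2 ⌊R⌋₊ + 1)) :=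
          Nat.mul_le_mul_left _ (log_caps hr hrR)
      _ = _ := by ring
  · exact naR_pos Ma R

/-! ### measurability -/

theorem measurable_sel_nat {X : Type*} [MeasurableSpace X] {κ : X → ℕ} (hκ : Measurable κ)
    {F : ℕ → X → ℕ} (hF : ∀ k, Measurable (F k)) : Measurable fun x => F (κ x) x := by
  have h1 : Measurable fun p : ℕ × X => F p.1 p.2 :=
    measurable_from_prod_countable_right (fun k => hF k)
  exact h1.comp (hκ.prodMk measurable_id)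

theorem AF_meas (Ma n : ℕ) (K0 CE : ℝ) {B : ℕ → ℝ} {q A Cn : ℝ} {Na M : ℕ} {M0 : ℝ} {h : E2 → ℝ}
    {g : E2 → ℂ} {R D dl : ℝ} (hSt : St B q Na M0 (1/2) h g R D) {L : Lev}
    (hL : LevOk q A (1/2) Cn B M h g R L) (r' : ℝ) (z : E2 × ℝ)
    (b : OrthonormalBasis (Fin 2) ℝ E2) (m : ℤ × ℤ) :
    Measurable (AF Ma n K0 CE h g R dl L r' z b m) := by
  classical
  by_cases hz : z ∈ cyl R
  · have e : AF Ma n K0 CE h g R dl L r' z b m = fun y =>
        clsR (nAR Ma R) (CE * En g) K0 n h (an L.r) (an r') (an (dl * r')) (tr h (L.ζ z) g)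
          (uL L (L.ζ z) (kap h L r' z m y)) (z - L.ζ z) b m y := by
      funext y
      unfold AF
      rw [if_pos hz]
    rw [e]
    have hhc : Continuous h := hSt.par.1.continuous
    have hg : Integrable (tr h (L.ζ z) g) :=
      (W323.Gd.tr hhc (W323.St.gd hSt (by norm_num)) _).int
    have hLr : 0 < L.r := lt_of_lt_of_le (by have := hSt.Rpos; positivity) hL.lo
    refine measurable_sel_nat (κ := kap h L r' z m)
      (F := fun k y => clsR (nAR Ma R) (CE * En g) K0 n h (an L.r) (an r') (an (dl * r'))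
        (tr h (L.ζ z) g) (uL L (L.ζ z) k) (z - L.ζ z) b m y) ?_ (fun k => ?_)
    · refine Dom878.measurable_argi (fun k hk => ?_) m
      obtain ⟨cls, hd⟩ := hL.dec (L.ζ z) (hL.near z hz).1
      have h1 := (hd.st k hk)
      obtain ⟨X, hX⟩ := h1.bdd
      exact Loc878.tr_int hhc (int_of_bdd h1.meas hX h1.supp).1 _
    · exact measurable_clsR (Real.rpow_pos_of_pos hLr _).le hg _ _ _
  · have e : AF Ma n K0 CE h g R dl L r' z b m = fun _ => 0 := by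
      funext y
      unfold AF
      rw [if_neg hz]
    rw [e]
    exact measurable_const

end Crest.Agent.R138.Stp210
end

-- ▼ part R138/StepSk1_639
section

/-!
# R138 wave side: the slab step for coefficient sums (helper639), part 1: local hypotheses from the
level data
-/

set_option autoImplicit false

open MeasureTheory FourierTransform
open scoped ContDiff ENNReal

namespace Crest.Agent.R138.GR639

open Crest.Agent.R138.Defs Crest.Agent.R138.Bil882 Crest.Agent.R138.W188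
open Crest.Agent.R138.Wpk685 Crest.Agent.R138.W323 Crest.Agent.R138.P654 Crest.Agent.R138.Ad480

theorem lint_biUnion_le (I : Finset ℕ) (S : ℕ → Set E2) (f : E2 → ℝ≥0∞) :
    ∫⁻ x in ⋃ i ∈ I, S i, f x ≤ ∑ i ∈ I, ∫⁻ x in S i, f x := by
  classical
  induction I using Finset.induction_on with
  | empty => simp
  | insert i s hi ih =>
    rw [Finset.set_biUnion_insert, Finset.sum_insert hi]
    exact (lintegral_union_le _ _ _).trans (add_le_add le_rfl ih)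

/-- the packet energy of the union of the selections. -/
theorem en_uS_le (ρ : ℝ) (g : E2 → ℂ) (I : Finset ℕ) (P : ℕ → Plate) :
    en ρ g (uS I P) ≤ ∑ i ∈ I, en ρ g (P i).S := by
  unfold en
  rw [Finset.sum_comm]
  refine Finset.sum_le_sum fun m _ => ?_
  exact lint_biUnion_le I (fun i => (P i).S m) _

/-- the parent class of one label in one frame. -/
theorem par_of {q A σ Cn : ℝ} {B : ℕ → ℝ} {nb M : ℕ} {h : E2 → ℝ} {g : E2 → ℂ} {R r : ℝ}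
    {w : E2 × ℝ} {cls : OrthonormalBasis (Fin 2) ℝ E2 → ℤ × ℤ → E2 → ℕ}
    {Λ : Finset ℕ} {s : ℕ → ℝ × ℝ} {cl : ℕ → ℕ} {G : ℕ → E2 → ℂ} {D' : ℕ → ℝ} {rest : E2 → ℂ}
    {I : ℕ → Finset ℕ} {P : ℕ → ℕ → Plate} {Na : ℕ} {M0 D : ℝ} (hSt : St B q Na M0 σ h g R D)
    (hσ : σ ≤ 1)
    (H : DecOut q A σ Cn B nb M h g R r w cls Λ s cl G D' rest I P) {π : ℕ} (hπ : π ∈ Λ)
    (hSd : Sd r (s π).1 (s π).2) :
    Par q A (1 / max 1 (Cn * nb)) h (tr h w g) r (s π).1 (s π).2 (D' π) (I π) (P π) := by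
  have hhc : Continuous h := hSt.par.1.continuous
  have hgd : Gd (tr h w g) := W323.Gd.tr hhc (W323.St.gd hSt (by linarith)) w
  obtain ⟨hpl, hz⟩ := H.pl π hπ
  refine ⟨hgd.int, hgd.l2, fun ξ hξ => ?_, (H.st π hπ).D0, hSd, hpl.meas, H.cp π hπ, H.bd π hπ,
    fun i hi j hj hij m => hpl.disj i hi j hj hij ((hz i hi).trans (hz j hj).symm) m, hpl.box,
    H.dens π hπ, fun i hi => ?_⟩
  · have h1 : ‖tr h w g ξ‖ = ‖g ξ‖ := norm_tr h w g ξ
    rw [hSt.supp ξ (lt_of_le_of_lt hσ hξ), norm_zero] at h1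
    exact norm_eq_zero.1 h1
  · have h1 := H.dense π hπ i hi
    have hm : 0 < max 1 (Cn * nb) := lt_max_of_lt_left one_pos
    have e1 : 1 / max 1 (Cn * nb) * D' π * ((s π).2 ^ q * ((s π).1 * (s π).2 * r ^ 2)) =
        1 / max 1 (Cn * nb) * (D' π * ((s π).2 ^ q * ((s π).1 * (s π).2 * r ^ 2))) := by ring
    rw [e1, ENNReal.ofReal_mul (by positivity)]
    refine (mul_le_mul_right h1 _).trans ?_
    rw [← mul_assoc, ← ENNReal.ofReal_mul (by positivity)]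
    refine (mul_le_mul_left (ENNReal.ofReal_le_one.2 ?_) _).trans (one_mul _).le
    rw [one_div, inv_mul_le_iff₀ hm, mul_one]
    exact le_max_right _ _

/-- **class data** of the plates of one label at level `dl * r1`, relative to the selections
`uS (I1 w) (P1 w)` of the parent label in the parent frames `w = ζ z`: density in `[a, 8a]`,
coherence count at least `p` (with `K0`) and at most `pp` (with `K`). -/
structure ClsOk (n : ℕ) (K0 K p pp : ℝ) (h : E2 → ℝ) (g : E2 → ℂ) (dl r1 : ℝ)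
    (ζ : E2 × ℝ → E2 × ℝ) (I1 : E2 × ℝ → Finset ℕ) (P1 : E2 × ℝ → ℕ → Plate)
    (Z2 : Finset (E2 × ℝ)) (I2 : E2 × ℝ → Finset ℕ) (P2 : E2 × ℝ → ℕ → Plate) : Prop where
  cls : ∃ a : ℝ, 0 ≤ a ∧ ∀ z ∈ Z2, ∀ i ∈ I2 z, ∀ m, ∀ y ∈ (P2 z i).S m,
    ENNReal.ofReal a ≤ Ad n h (an r1) (an (dl * r1)) (tr h (ζ z) g)
      (uS (I1 (ζ z)) (P1 (ζ z))) m (z - ζ z) y ∧
    Ad n h (an r1) (an (dl * r1)) (tr h (ζ z) g)
      (uS (I1 (ζ z)) (P1 (ζ z))) m (z - ζ z) y ≤ ENNReal.ofReal (8 * a) ∧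
    p ≤ (pot n h (an r1) (an (dl * r1)) (an (dl * (dl * r1))) K0 (tr h (ζ z) g)
      (uS (I1 (ζ z)) (P1 (ζ z))) (P2 z i).b (z - ζ z) m y : ℝ) ∧
    (pot n h (an r1) (an (dl * r1)) (an (dl * (dl * r1))) K (tr h (ζ z) g)
      (uS (I1 (ζ z)) (P1 (ζ z))) (P2 z i).b (z - ζ z) m y : ℝ) ≤ pp

/-- the coherence bound of a level from its class data (relative to the previous level). -/
theorem coh_of {B : ℕ → ℝ} (hC : COHu B) : ∃ d0 : ℝ, 0 < d0 ∧ d0 ≤ 1 ∧ ∀ n : ℕ, ∃ K1 : ℝ, 1 ≤ K1 ∧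
    ∀ K : ℝ, K1 ≤ K → ∀ (K0 p pp : ℝ) (h : E2 → ℝ) (g : E2 → ℂ) (dl r0 Y : ℝ),
    ParB B h → fderiv ℝ h 0 = 0 → 1 ≤ dl * r0 → 0 < dl → dl ≤ d0 → 1 ≤ Y →
    Y ≤ dl ^ (-(1/4) : ℝ) → 1 ≤ pp → ∀ (ζ : E2 × ℝ → E2 × ℝ) (I0 : E2 × ℝ → Finset ℕ)
    (P0 : E2 × ℝ → ℕ → Plate) (Z1 : Finset (E2 × ℝ)) (I1 : E2 × ℝ → Finset ℕ)
    (P1 : E2 × ℝ → ℕ → Plate),
    ClsOk n K0 K p pp h g dl r0 ζ I0 P0 Z1 I1 P1 →
    (∀ z ∈ Z1, ∀ i ∈ I0 (ζ z), ∀ m, MeasurableSet ((P0 (ζ z) i).S m)) →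
    (∀ z ∈ Z1, z - ζ z ∈ cyl r0) →
    ∀ z ∈ Z1, Coh h (an (dl * r0)) (an (dl * (dl * r0))) (dl ^ (1/2 : ℝ)) Y (2 * (dl * r0)) (I1 z)
      (P1 z) pp := by
  obtain ⟨d0, hd0, hd01, H⟩ := hC
  refine ⟨d0, hd0, hd01, fun n => ?_⟩
  obtain ⟨K1, hK1, H⟩ := H n
  refine ⟨K1, hK1, ?_⟩
  intro K hK K0 p pp h g dl r0 Y hh h1 hr0 hdl hdl0 hY hY2 hpp ζ I0 P0 Z1 I1 P1 hcls hmeas hζ z hz
  obtain ⟨a, ha, hcls⟩ := hcls.cls
  refine H K hK h hh h1 r0 dl Y a pp (tr h (ζ z) g) (uS (I0 (ζ z)) (P0 (ζ z))) (z - ζ z) (I1 z)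
    (P1 z) hr0 hdl hdl0 hY hY2 (hζ z hz).2 ha hpp (fun m => ?_) (fun i hi m y hy => ?_)
  · unfold uS
    exact Finset.measurableSet_biUnion _ fun i hi => hmeas z hz i hi m
  · obtain ⟨h2, h3, -, h4⟩ := hcls z hz i hi m y hy
    exact ⟨h2, h3, h4⟩

/-- the total tail of one slab step. -/
theorem tail_total {C1 CM R D r1 e n b K M0 Y e1 x : ℝ} {F MM : ℕ} (hC1 : 0 ≤ C1) (hCM : 0 ≤ CM)
    (hR : 1 ≤ R) (hr1 : 1 ≤ r1) (h1R : r1 ≤ R) (he : 0 ≤ e)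
    (hb : 0 ≤ b) (hn0 : 0 ≤ n) (hn : n ≤ C1 * R ^ b) (hx : 0 ≤ x) (hY : R ^ e1 ≤ Y)
    (hF : (F : ℝ) ≤ 216 * (R / r1) ^ 3)
    (hnd : e ≤ R ^ M0 * D) (hMM : 24 + |M0| + |K| + 3 * b ≤ e1 * MM) :
    ENNReal.ofReal (2 * x * (n + 1) ^ 3) * ((F : ℝ≥0∞) *
      (ENNReal.ofReal (CM * r1 ^ (20 : ℕ) * (Y ^ MM)⁻¹) * (ENNReal.ofReal e) ^ (3/2 : ℝ))) ≤
      ENNReal.ofReal (432 * (C1 + 1) ^ 3 * CM * x * (R ^ (-K) * (R * e * Real.sqrt D))) := by
  have hR0 : 0 < R := by linarith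
  have hRe1 : 0 < R ^ e1 := by positivity
  have hY0 : 0 < Y := by linarith
  rw [ENNReal.ofReal_rpow_of_nonneg he (by norm_num), ← ENNReal.ofReal_mul (by positivity),
    ← ENNReal.ofReal_natCast, ← ENNReal.ofReal_mul (Nat.cast_nonneg _),
    ← ENNReal.ofReal_mul (by positivity)]
  refine ENNReal.ofReal_le_ofReal ?_
  have a2 : (n + 1) ^ 3 ≤ (C1 + 1) ^ 3 * R ^ (3 * b) := by
    have hRb : 1 ≤ R ^ b := Real.one_le_rpow hR hb
    have h1 : n + 1 ≤ (C1 + 1) * R ^ b := by nlinarith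
    have h2 : R ^ (3 * b) = (R ^ b) ^ 3 := by
      rw [← Real.rpow_natCast (R ^ b) 3, ← Real.rpow_mul hR0.le]
      congr 1
      push_cast; ring
    rw [h2, ← mul_pow]
    gcongr
  have a3 : (F : ℝ) ≤ 216 * R ^ (3 : ℝ) := by
    rw [show (3:ℝ) = ((3:ℕ):ℝ) by norm_num, Real.rpow_natCast]
    refine hF.trans ?_
    gcongr
    exact div_le_self hR0.le hr1
  have a4 : r1 ^ (20 : ℕ) ≤ R ^ (20 : ℝ) := by
    rw [show (20:ℝ) = ((20:ℕ):ℝ) by norm_num, Real.rpow_natCast]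
    gcongr
  have a5 : (Y ^ MM)⁻¹ ≤ R ^ (-(e1 * MM)) := by
    calc (Y ^ MM)⁻¹ ≤ ((R ^ e1) ^ MM)⁻¹ := by gcongr
      _ = R ^ (-(e1 * MM)) := by
        rw [← Real.rpow_natCast, ← Real.rpow_mul hR0.le, ← Real.rpow_neg hR0.le]
  have a6 : e ^ (3/2 : ℝ) ≤ e * (R ^ (M0 / 2) * Real.sqrt D) := by
    have h5 : e ^ (3 / 2 : ℝ) = e * Real.sqrt e := by
      rw [show (3 / 2 : ℝ) = 1 + 1 / 2 by norm_num, Real.rpow_add_of_nonneg he (by norm_num)
        (by norm_num), Real.rpow_one, Real.sqrt_eq_rpow]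
    rw [h5]
    gcongr
    refine (Real.sqrt_le_sqrt hnd).trans ?_
    rw [Real.sqrt_mul (by positivity)]
    gcongr
    rw [Real.sqrt_eq_rpow, ← Real.rpow_mul hR0.le]
    apply le_of_eq; congr 1; ring
  calc 2 * x * (n + 1) ^ 3 * (F * (CM * r1 ^ (20 : ℕ) * (Y ^ MM)⁻¹ * e ^ (3/2 : ℝ)))
      ≤ 2 * x * ((C1 + 1) ^ 3 * R ^ (3 * b)) * ((216 * R ^ (3 : ℝ)) * (CM * R ^ (20 : ℝ) *
          R ^ (-(e1 * MM)) * (e * (R ^ (M0 / 2) * Real.sqrt D)))) := by gcongr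
    _ = 432 * (C1 + 1) ^ 3 * CM * x * ((R ^ (3 * b) * R ^ (3 : ℝ) * R ^ (20 : ℝ) *
          R ^ (-(e1 * MM)) * R ^ (M0 / 2)) * (e * Real.sqrt D)) := by ring
    _ ≤ 432 * (C1 + 1) ^ 3 * CM * x * (R ^ (1 - K) * (e * Real.sqrt D)) := by
        rw [← Real.rpow_add hR0, ← Real.rpow_add hR0, ← Real.rpow_add hR0, ← Real.rpow_add hR0]
        gcongr
        have h1 := le_abs_self M0
        have h2 := abs_nonneg M0
        have h4 := le_abs_self K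
        linarith
    _ = _ := by
        rw [show 1 - K = -K + 1 by ring, Real.rpow_add hR0, Real.rpow_one]; ring

end Crest.Agent.R138.GR639
end

-- ▼ part R138/StepSk2_639
section

/-!
# R138 wave side: the slab step for coefficient sums (helper639), part 2
-/

set_option autoImplicit false

open MeasureTheory FourierTransform
open scoped ContDiff ENNReal

namespace Crest.Agent.R138.GR639

open Crest.Agent.R138.Defs Crest.Agent.R138.Bil882 Crest.Agent.R138.W188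
open Crest.Agent.R138.Wpk685 Crest.Agent.R138.W323 Crest.Agent.R138.P654 Crest.Agent.R138.Ad480

set_option maxHeartbeats 1000000 in
/-- **the slab step for coefficient sums.** -/
theorem step_sk {B : ℕ → ℝ} {q : ℝ} (hST : STEP B q) {A : ℝ} (hA : 1 ≤ A) :
    ∃ d0 G : ℝ, 0 < d0 ∧ d0 ≤ 1 ∧ 1 ≤ G ∧ ∀ ε : ℝ, 0 < ε → ∃ n0 : ℕ, ∀ n : ℕ, n0 ≤ n →
    ∀ K0 : ℝ, 1 ≤ K0 → ∃ G' : ℝ, 0 ≤ G' ∧
    ∀ (M0 K b e1 : ℝ), 0 ≤ b → 0 < e1 → ∃ CQ : ℝ, 0 ≤ CQ ∧ ∀ C1 : ℝ, 0 ≤ C1 → ∃ C' : ℝ, 0 ≤ C' ∧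
    ∀ (Na M : ℕ), 13 + |q| + |M0| + |K| + 4 * b ≤ M →
    ∀ (h : E2 → ℝ) (g : E2 → ℂ) (R D σ : ℝ), St B q Na M0 σ h g R D → σ ≤ 1 →
    ∀ r1 dl Y Gm : ℝ, R ^ (1/2 : ℝ) ≤ dl * r1 → A * (dl * r1) ≤ r1 → r1 ≤ R → 1 ≤ r1 →
      σ + 3 * r1 ^ (-(1/2) : ℝ) ≤ 2 → 0 < dl → dl ≤ d0 → dl ^ (-G) ≤ r1 → 1 ≤ Gm →
      R ^ e1 ≤ Y → Y ≤ dl ^ (-(1/4) : ℝ) →
    ∀ (nb1 M1 : ℕ) (Z1 : Finset (E2 × ℝ))
      (cls1 : E2 × ℝ → OrthonormalBasis (Fin 2) ℝ E2 → ℤ × ℤ → E2 → ℕ)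
      (Λ1 : Finset ℕ) (s1 : ℕ → ℝ × ℝ) (cl1 : ℕ → ℕ) (G1 : E2 × ℝ → ℕ → E2 → ℂ)
      (D1 : E2 × ℝ → ℕ → ℝ) (rest1 : E2 × ℝ → E2 → ℂ) (I1 : E2 × ℝ → ℕ → Finset ℕ)
      (P1 : E2 × ℝ → ℕ → ℕ → Plate), M ≤ M1 →
      LvD q A σ C1 B nb1 M1 h g R r1 Z1 cls1 Λ1 s1 cl1 G1 D1 rest1 I1 P1 →
      (Λ1.card : ℝ) ≤ C1 * R ^ b → (nb1 : ℝ) ≤ R ^ b →
    ∀ (C2 : ℝ) (nb2 M2 : ℕ) (Z2 : Finset (E2 × ℝ))
      (cls2 : E2 × ℝ → OrthonormalBasis (Fin 2) ℝ E2 → ℤ × ℤ → E2 → ℕ)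
      (Λ2 : Finset ℕ) (s2 : ℕ → ℝ × ℝ) (cl2 : ℕ → ℕ) (G2 : E2 × ℝ → ℕ → E2 → ℂ)
      (D2 : E2 × ℝ → ℕ → ℝ) (rest2 : E2 × ℝ → E2 → ℂ) (I2 : E2 × ℝ → ℕ → Finset ℕ)
      (P2 : E2 × ℝ → ℕ → ℕ → Plate), 0 ≤ C2 →
      LvD q A σ C2 B nb2 M2 h g R (dl * r1) Z2 cls2 Λ2 s2 cl2 G2 D2 rest2 I2 P2 →
    ∀ (ζ : E2 × ℝ → E2 × ℝ), (∀ z ∈ Z2, ζ z ∈ Z1 ∧ z - ζ z ∈ cyl r1) →
    ∀ k ∈ Λ2, ∀ π ∈ Λ1,
      (∀ z ∈ Z2, ∀ i ∈ I2 z k, ∀ κ ∈ Λ1,
        en ((dl * r1) ^ (-(1/2) : ℝ)) (tr h (z - ζ z) (G1 (ζ z) κ)) (P2 z k i).S ≤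
          en ((dl * r1) ^ (-(1/2) : ℝ)) (tr h (z - ζ z) (G1 (ζ z) π)) (P2 z k i).S) →
    ∀ (p pp Kx ppx : ℝ), 1 ≤ p → 1 ≤ pp →
      (∀ w ∈ Z1, Coh h (an r1) (an (dl * r1)) (dl ^ (1/2 : ℝ)) Y (2 * r1) (I1 w π) (P1 w π) pp) →
      ClsOk n K0 Kx p ppx h g dl r1 ζ (fun w => I1 w π) (fun w => P1 w π) Z2 (fun z => I2 z k)
        (fun z => P2 z k) →
      (s1 π).1 ≤ Gm * an r1 → (s2 k).1 ≤ Gm * an (dl * r1) →
      dl ^ (-G) * an r1 ≤ (s1 π).2 → dl ^ (-G) * an (dl * r1) ≤ (s2 k).2 →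
      Sk h g (dl * r1) Z2 I2 P2 D2 k ≤
        ENNReal.ofReal (2 * Real.sqrt (C2 * nb2) * (Λ1.card + 1) ^ 3) *
          (ENNReal.ofReal (CQ * r1 ^ ε * (Y * max 1 (C1 * nb1)) ^ G' * Gm ^ G *
            ((pp / p) ^ (1/2 : ℝ) + dl ^ (1/2 : ℝ))) * Sk h g r1 Z1 I1 P1 D1 π) +
        ENNReal.ofReal (C' * Real.sqrt (C2 * nb2) * (R ^ (-K) * SS g R D)) := by
  obtain ⟨d0, G, hd0, hd01, hG, H⟩ := hST A hA
  refine ⟨d0, G, hd0, hd01, hG, ?_⟩
  intro ε hε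
  obtain ⟨n0, H⟩ := H ε hε
  refine ⟨n0, ?_⟩
  intro n hn K0 hK0
  obtain ⟨G', hG', H⟩ := H n hn K0 hK0
  refine ⟨G', hG', ?_⟩
  intro M0 K b e1 hb he1
  set MM : ℕ := ⌈(24 + |M0| + |K| + 3 * b) / e1⌉₊ with hMMdef
  have hMM : 24 + |M0| + |K| + 3 * b ≤ e1 * MM := by
    have h1 : (24 + |M0| + |K| + 3 * b) / e1 ≤ MM := Nat.le_ceil _
    rw [div_le_iff₀ he1] at h1
    rw [mul_comm e1]
    exact h1
  obtain ⟨CQ, hCQ, H⟩ := H MM
  refine ⟨CQ, hCQ, ?_⟩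
  intro C1 hC1
  obtain ⟨CS, hCS, hstep⟩ := step_en B q hA M0 K b C1 hb hC1
  refine ⟨CS + 432 * (C1 + 1) ^ 3 * CQ, by positivity, ?_⟩
  intro Na M hM h g R D σ hSt hσ r1 dl Y Gm hr2 h21 hr1R hr11 hσ2 hdl hdl0 hdlG hGm hRY hYdl nb1 M1
    Z1 cls1 Λ1 s1 cl1 G1 D1 rest1 I1 P1 hMM1 H1 hΛ1 hnb1 C2 nb2 M2 Z2 cls2 Λ2 s2 cl2 G2 D2 rest2 I2
    P2 hC2 H2 ζ hζ k hk π hπ hmax p pp Kx ppx hp hpp hCoh hCls hth1 hth2 hw1 hw2
  have hR : 1 ≤ R := hSt.R1
  have hR0 : 0 < R := by linarith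
  have hr10 : 0 < r1 := by linarith
  have hY1 : 1 ≤ Y := (Real.one_le_rpow hR he1.le).trans hRY
  have hY0 : 0 < Y := by linarith
  have hEn : 0 ≤ En g := integral_nonneg fun ξ => by positivity
  obtain ⟨a, ha, hcl⟩ := hCls.cls
  set mx : ℝ := max 1 (C1 * nb1) with hmx
  have hmx1 : 1 ≤ mx := le_max_left _ _
  have hmx0 : 0 < mx := by linarith
  set Q : ℝ≥0∞ := ENNReal.ofReal (CQ * r1 ^ ε * (Y * mx) ^ G' * Gm ^ G *
            ((pp / p) ^ (1/2 : ℝ) + dl ^ (1/2 : ℝ))) with hQ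
  set T : ℝ≥0∞ := ENNReal.ofReal (CQ * r1 ^ (20 : ℕ) * (Y ^ MM)⁻¹) *
    (ENNReal.ofReal (En g)) ^ (3/2 : ℝ) with hT
  have hmain := hstep Na M hM h g R D σ hSt r1 (dl * r1) hr2 h21 hr1R hσ2 nb1 M1 Z1 cls1 Λ1 s1 cl1
    G1 D1 rest1 I1 P1 hMM1 H1 hΛ1 hnb1 C2 nb2 M2 Z2 cls2 Λ2 s2 cl2 G2 D2 rest2 I2 P2 hC2 H2 ζ hζ k
    hk π hπ hmax Q T (by
      intro w hw I' P' hPl hP'
      have hpar := par_of hSt hσ (H1.out w hw) hπ (H1.sd π hπ)
      have hctx : Ctx B q A d0 G (1 / mx) h (tr h w g) r1 dl Y Gm (s1 π).1 (s1 π).2 (s2 k).1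
          (s2 k).2 (D1 w π) (I1 w π) (P1 w π) I' P' := by
        refine ⟨hSt.par, hSt.h1, hpar, by positivity, ?_, hdl, hdl0, hdlG, hGm, hY1, hYdl,
          H2.sd k hk, hPl, ?_, hth1, hth2⟩
        · rw [div_le_one hmx0]; exact hmx1
        · intro j hj m hm
          obtain ⟨z, hz, hzw, i, hi, hPe⟩ := hP' j hj
          rw [hPe]
          have h1 := (H2.out z hz).cp k hk m hm
          unfold uS at h1
          simp only [Set.iUnion_eq_empty] at h1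
          exact h1 i hi
      have hchi : Chi n K0 h (tr h w g) dl r1 a p (uS (I1 w π) (P1 w π)) I' P' := by
        have key : ∀ j ∈ I', ∀ m, ∀ y ∈ (P' j).S m,
            ENNReal.ofReal a ≤ Ad n h (an r1) (an (dl * r1)) (tr h w g) (uS (I1 w π) (P1 w π)) m
              (P' j).z y ∧
            Ad n h (an r1) (an (dl * r1)) (tr h w g) (uS (I1 w π) (P1 w π)) m (P' j).z y ≤
              ENNReal.ofReal (8 * a) ∧
            p ≤ (pot n h (an r1) (an (dl * r1)) (an (dl * (dl * r1))) K0 (tr h w g)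
              (uS (I1 w π) (P1 w π)) (P' j).b (P' j).z m y : ℝ) := by
          intro j hj m y hy
          obtain ⟨z, hz, hzw, i, hi, hPe⟩ := hP' j hj
          rw [hPe] at hy ⊢
          have h1 := hcl z hz i hi m y hy
          simp only [hzw] at h1
          have hzz : (shift w (P2 z k i)).z = z - w := by
            show (P2 z k i).z - w = z - w
            rw [((H2.out z hz).pl k hk).2 i hi]
          rw [hzz]
          exact ⟨h1.1, h1.2.1, h1.2.2.1⟩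
        exact ⟨fun j hj m y hy => (key j hj m y hy).1, fun j hj m y hy => (key j hj m y hy).2.1,
          fun j hj m y hy => (key j hj m y hy).2.2⟩
      have h1 := H (1 / mx) h (tr h w g) r1 dl Y Gm (s1 π).1 (s1 π).2 (s2 k).1 (s2 k).2 (D1 w π) a p
        pp (I1 w π) (P1 w π) I' P' hctx hw1 hw2 (hCoh w hw) hpp ha hp hchi
      have e1 : G1 w π = sel (an r1) (tr h w g) (uS (I1 w π) (P1 w π)) := (H1.out w hw).eq π hπ
      rw [← e1] at h1
      refine h1.trans ?_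
      have e2 : Y / (1 / mx) = Y * mx := by rw [div_div_eq_mul_div, div_one]
      have e3 : En (tr h w g) = En g := En_tr h w g
      unfold Tl SCo
      rw [e2, e3]
      refine add_le_add (mul_le_mul' le_rfl (mul_le_mul' le_rfl ?_)) le_rfl
      exact en_uS_le _ _ _ _)
  refine hmain.trans ?_
  have hcard := card_net hr10 hr1R Z1 H1.mem H1.sep
  have htail := tail_total (C1 := C1) (CM := CQ) (R := R) (D := D) (r1 := r1) (e := En g)
    (n := Λ1.card) (b := b) (K := K) (M0 := M0) (Y := Y) (e1 := e1) (x := Real.sqrt (C2 * nb2))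
    (F := Z1.card) (MM := MM) hC1 hCQ hR hr11 hr1R hEn hb (Nat.cast_nonneg _) hΛ1
    (Real.sqrt_nonneg _) hRY hcard hSt.nd hMM
  rw [mul_add, add_assoc]
  refine add_le_add le_rfl ?_
  have hSS : 0 ≤ SS g R D := by
    unfold SS; positivity
  have e4 : ENNReal.ofReal (432 * (C1 + 1) ^ 3 * CQ * Real.sqrt (C2 * nb2) *
      (R ^ (-K) * (R * En g * Real.sqrt D))) = ENNReal.ofReal (432 * (C1 + 1) ^ 3 * CQ *
        Real.sqrt (C2 * nb2) * (R ^ (-K) * SS g R D)) := rfl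
  rw [e4] at htail
  refine (add_le_add htail le_rfl).trans ?_
  rw [← ENNReal.ofReal_add (by positivity) (by positivity)]
  refine ENNReal.ofReal_le_ofReal (le_of_eq ?_)
  ring

end Crest.Agent.R138.GR639
end

-- ▼ part R138/Tiny_480
section

/-!
# R138 wave side: labels with tiny parent density (helper480)

`val_tiny` : a plate system of level `r2` on whose points the density `Ad` of the parent selection is
at most `a` has `val ≤ C r1^6 a^{3/2}`.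
`tiny_lv` : a label `k` of level `r2` on whose points the density of the dominating parent class `π`
is at most `C R^(-K0) En g` has tiny `Sk`.
-/

set_option autoImplicit false

open MeasureTheory FourierTransform
open scoped ContDiff ENNReal

namespace Crest.Agent.R138.Tiny480

open Crest.Agent.R138.Defs Crest.Agent.R138.Bil882 Crest.Agent.R138.W188
open Crest.Agent.R138.Wpk685 Crest.Agent.R138.W323 Crest.Agent.R138.GR639
open Crest.Agent.R138.Ad480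

theorem val_tiny (B : ℕ → ℝ) (n : ℕ) {A : ℝ} (hA : 1 ≤ A) : ∃ C : ℝ, 0 ≤ C ∧
    ∀ (h : E2 → ℝ), ParB B h → ∀ r1 r2 s1 s2 : ℝ, 1 ≤ r2 → r2 ≤ r1 → r1 ≤ r2 ^ 2 → Sd r2 s1 s2 →
    ∀ f : E2 → ℂ, Integrable f → ∀ S : ℤ × ℤ → Set E2, Bs (r1 ^ (-(1/2) : ℝ)) S →
    ∀ (I : Finset ℕ) (P : ℕ → Plate), Plates A h r2 s1 s2 r1 I P → ∀ a : ℝ≥0∞,
    (∀ j ∈ I, ∀ m ∈ caps (r2 ^ (-(1/2) : ℝ)), ∀ y ∈ (P j).S m,
      Ad n h (r1 ^ (-(1/2) : ℝ)) (r2 ^ (-(1/2) : ℝ)) f S m (P j).z y ≤ a) →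
    val h (sel (r1 ^ (-(1/2) : ℝ)) f S) r2 s1 s2 I P ≤
      ENNReal.ofReal (C * r1 ^ 6) * a ^ (3 / 2 : ℝ) := by
  classical
  obtain ⟨C1, hC1, h1⟩ := tiny B n 1 le_rfl
  set C2 : ℝ := 216 * (C1 * (3 * A) ^ 2 * 81) with hC2
  have hC20 : 0 ≤ C2 := by positivity
  refine ⟨C2 ^ (3 / 2 : ℝ), by positivity, ?_⟩
  intro h hh r1 r2 s1 s2 hr2 h21 h12 hSd f hf S hS I P hP a ha
  have hr20 : 0 < r2 := by linarith
  have hr10 : 0 < r1 := by linarith
  have hr1 : 1 ≤ r1 := hr2.trans h21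
  set ρ1 : ℝ := r1 ^ (-(1/2) : ℝ) with hρ1
  set ρ2 : ℝ := r2 ^ (-(1/2) : ℝ) with hρ2
  have hρ10 : 0 < ρ1 := Real.rpow_pos_of_pos hr10 _
  have hρ20 : 0 < ρ2 := Real.rpow_pos_of_pos hr20 _
  have hρ11 : ρ1 ≤ 1 := Real.rpow_le_one_of_one_le_of_nonpos hr1 (by norm_num)
  have hρ21 : ρ2 ≤ 1 := Real.rpow_le_one_of_one_le_of_nonpos hr2 (by norm_num)
  have hρ12 : ρ1 ≤ ρ2 := Real.rpow_le_rpow_of_nonpos hr20 h21 (by norm_num)
  have hρ1sq : ρ1 ^ 2 = r1⁻¹ := by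
    rw [hρ1, ← Real.rpow_natCast, ← Real.rpow_mul hr10.le]; norm_num
    rw [Real.rpow_neg_one]
  have hρ2sq : (ρ2⁻¹) ^ 2 = r2 := by
    rw [hρ2, ← Real.rpow_neg hr20.le, ← Real.rpow_natCast, ← Real.rpow_mul hr20.le]; norm_num
  have hinv1 : 1 / ρ1 ≤ 3 * A * r2 := by
    rw [one_div, hρ1, ← Real.rpow_neg hr10.le, neg_neg, ← Real.sqrt_eq_rpow]
    have : Real.sqrt r1 ≤ r2 := by
      rw [Real.sqrt_le_left hr20.le]; exact h12
    nlinarith
  have hs1 : s1 ≤ 1 := hSd.le.trans hSd.hi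
  have hs2 : s2 ≤ 1 := hSd.hi
  -- the prefactor
  have hpre : (s1 * s2 * r2 ^ 3) ^ (-(1/2) : ℝ) ≤ 1 := by
    apply Real.rpow_le_one_of_one_le_of_nonpos _ (by norm_num)
    have h3 : ρ2 * ρ2 ≤ s1 * s2 :=
      mul_le_mul hSd.lo (hSd.lo.trans hSd.le) hρ20.le (hρ20.le.trans hSd.lo)
    have h4 : ρ2 * ρ2 = r2⁻¹ := by
      rw [hρ2, ← Real.rpow_add hr20]; norm_num
      rw [Real.rpow_neg_one]
    calc (1:ℝ) ≤ r2 ^ 2 := one_le_pow₀ hr2
      _ = r2⁻¹ * r2 ^ 3 := by field_simp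
      _ ≤ s1 * s2 * r2 ^ 3 := by rw [← h4]; gcongr
  -- the energies
  set Z : Finset (E2 × ℝ) := I.image (fun j => (P j).z) with hZ
  have hZmem : ∀ z ∈ Z, z ∈ cyl r1 := by
    intro z hz
    obtain ⟨j, hj, rfl⟩ := Finset.mem_image.1 hz
    exact hP.mem j hj
  have hZsep : ∀ z ∈ Z, ∀ z' ∈ Z, Sep r2 z z' := by
    intro z hz z' hz'
    obtain ⟨j, hj, rfl⟩ := Finset.mem_image.1 hz
    obtain ⟨j', hj', rfl⟩ := Finset.mem_image.1 hz'
    exact hP.sep j hj j' hj'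
  have hcard := card_net hr20 h21 Z hZmem hZsep
  have hcaps := Crest.Agent.R138.Acl101.card_caps hρ20 hρ21
  rw [hρ2sq] at hcaps
  set E0 : ℝ≥0∞ := ENNReal.ofReal (C1 * (3 * A * r2) ^ 2 * (caps ρ2).card) * a with hE0
  have hz1 : ∀ z ∈ Z, ∑ j ∈ I with (P j).z = z,
      en ρ2 (tr h (P j).z (sel ρ1 f S)) (P j).S ≤ E0 := by
    intro z hz
    have e1 : ∑ j ∈ I with (P j).z = z, en ρ2 (tr h (P j).z (sel ρ1 f S)) (P j).S =
        ∑ j ∈ I with (P j).z = z, en ρ2 (tr h z (sel ρ1 f S)) (P j).S := by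
      refine Finset.sum_congr rfl fun j hj => ?_
      rw [(Finset.mem_filter.1 hj).2]
    rw [e1]
    set T : ℤ × ℤ → Set E2 := fun m => ⋃ j ∈ I.filter (fun j => (P j).z = z), (P j).S m with hT
    refine (en_union (I.filter (fun j => (P j).z = z)) (fun j => (P j).S) T
      (fun j hj m => hP.meas j (Finset.mem_filter.1 hj).1 m)
      (fun i hi j hj hne m => hP.disj i (Finset.mem_filter.1 hi).1 j (Finset.mem_filter.1 hj).1 hne
        ((Finset.mem_filter.1 hi).2.trans (Finset.mem_filter.1 hj).2.symm) m)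
      (fun j hj m => Set.subset_biUnion_of_mem
        (u := fun j => (P j).S m) (show j ∈ I.filter (fun j => (P j).z = z) from hj))).trans ?_
    have hzc := hZmem z hz
    refine h1 h hh ρ1 ρ2 hρ10 hρ12 hρ11 f hf S hS z ?_ T (fun m _ => ?_) 0 (3 * A * r2) hinv1
      (fun m _ => ?_) a (fun m hm y hy => ?_)
    · rw [hρ1sq]
      have h5 : |z.2| ≤ r1 := hzc.2
      calc |z.2| * r1⁻¹ ≤ r1 * r1⁻¹ := by gcongr
        _ = 1 := mul_inv_cancel₀ hr10.ne'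
    · exact Finset.measurableSet_biUnion _ fun j hj => hP.meas j (Finset.mem_filter.1 hj).1 m
    · refine Set.iUnion₂_subset fun j hj y hy => ?_
      rw [mem_closedBall_zero_iff]
      exact pos_le (by linarith) hr20.le hs1 hs2 (hP.x j (Finset.mem_filter.1 hj).1)
        (hP.box j (Finset.mem_filter.1 hj).1 m hy)
    · obtain ⟨j, hj, hyj⟩ := Set.mem_iUnion₂.1 hy
      have h6 := ha j (Finset.mem_filter.1 hj).1 m hm y hyj
      rwa [(Finset.mem_filter.1 hj).2] at h6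
  have hz2 : ∑ j ∈ I, en ρ2 (tr h (P j).z (sel ρ1 f S)) (P j).S ≤ (Z.card : ℝ≥0∞) * E0 := by
    rw [← Finset.sum_fiberwise_of_maps_to (g := fun j => (P j).z)
      (fun j hj => Finset.mem_image_of_mem (fun j => (P j).z) hj)]
    refine (Finset.sum_le_sum hz1).trans_eq ?_
    rw [Finset.sum_const, nsmul_eq_mul]
  have hin : ENNReal.ofReal r2 * ((Z.card : ℝ≥0∞) * E0) ≤ ENNReal.ofReal (C2 * r1 ^ 4) * a := by
    rw [hE0, ← ENNReal.ofReal_natCast, ← mul_assoc (ENNReal.ofReal (Z.card : ℝ)),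
      ← ENNReal.ofReal_mul (by positivity), ← mul_assoc, ← ENNReal.ofReal_mul (by positivity)]
    refine mul_le_mul' (ENNReal.ofReal_le_ofReal ?_) le_rfl
    calc r2 * ((Z.card : ℝ) * (C1 * (3 * A * r2) ^ 2 * (caps ρ2).card))
        ≤ r2 * ((216 * (r1 / r2) ^ 3) * (C1 * (3 * A * r2) ^ 2 * (81 * r2))) := by gcongr
      _ = C2 * (r1 ^ 3 * r2) := by rw [hC2]; field_simp
      _ ≤ C2 * (r1 ^ 3 * r1) := by gcongr
      _ = _ := by ring
  calc val h (sel ρ1 f S) r2 s1 s2 I P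
      = ∑ j ∈ I, ENNReal.ofReal ((s1 * s2 * r2 ^ 3) ^ (-(1/2) : ℝ)) *
        (ENNReal.ofReal r2 * en ρ2 (tr h (P j).z (sel ρ1 f S)) (P j).S) ^ (3 / 2 : ℝ) := rfl
    _ ≤ ∑ j ∈ I, (ENNReal.ofReal r2 * en ρ2 (tr h (P j).z (sel ρ1 f S)) (P j).S) ^ (3 / 2 : ℝ) := by
        refine Finset.sum_le_sum fun j _ => ?_
        refine (mul_le_mul' (ENNReal.ofReal_le_ofReal hpre) le_rfl).trans_eq ?_
        rw [ENNReal.ofReal_one, one_mul]
    _ ≤ (∑ j ∈ I, ENNReal.ofReal r2 * en ρ2 (tr h (P j).z (sel ρ1 f S)) (P j).S) ^ (3 / 2 : ℝ) :=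
        sum_rpow_le I _ (by norm_num)
    _ ≤ (ENNReal.ofReal (C2 * r1 ^ 4) * a) ^ (3 / 2 : ℝ) := by
        rw [← Finset.mul_sum]
        refine ENNReal.rpow_le_rpow ?_ (by norm_num)
        exact (mul_le_mul' le_rfl hz2).trans hin
    _ = _ := by
        rw [ENNReal.mul_rpow_of_nonneg _ _ (by norm_num),
          ENNReal.ofReal_rpow_of_nonneg (by positivity) (by norm_num),
          Real.mul_rpow hC20 (by positivity), ← Real.rpow_natCast, ← Real.rpow_mul hr10.le]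
        norm_num

/-- **TINY**: a label on whose points the parent density is tiny. -/
theorem tiny_lv (B : ℕ → ℝ) (q : ℝ) {A : ℝ} (hA : 1 ≤ A) (n : ℕ) :
    ∀ (M0 K b C1 CT : ℝ), 0 ≤ b → 0 ≤ C1 → 0 ≤ CT → ∃ C' : ℝ, 0 ≤ C' ∧
    ∀ (Na M : ℕ), 13 + |q| + |M0| + |K| + 4 * b ≤ M →
    ∀ (h : E2 → ℝ) (g : E2 → ℂ) (R D σ : ℝ), St B q Na M0 σ h g R D →
    ∀ r1 r2 : ℝ, R ^ (1/2 : ℝ) ≤ r2 → A * r2 ≤ r1 → r1 ≤ R → σ + 3 * r1 ^ (-(1/2) : ℝ) ≤ 2 →
    ∀ (nb1 M1 : ℕ) (Z1 : Finset (E2 × ℝ))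
      (cls1 : E2 × ℝ → OrthonormalBasis (Fin 2) ℝ E2 → ℤ × ℤ → E2 → ℕ)
      (Λ1 : Finset ℕ) (s1 : ℕ → ℝ × ℝ) (cl1 : ℕ → ℕ) (G1 : E2 × ℝ → ℕ → E2 → ℂ)
      (D1 : E2 × ℝ → ℕ → ℝ) (rest1 : E2 × ℝ → E2 → ℂ) (I1 : E2 × ℝ → ℕ → Finset ℕ)
      (P1 : E2 × ℝ → ℕ → ℕ → Plate), M ≤ M1 →
      LvD q A σ C1 B nb1 M1 h g R r1 Z1 cls1 Λ1 s1 cl1 G1 D1 rest1 I1 P1 →
      (Λ1.card : ℝ) ≤ C1 * R ^ b → (nb1 : ℝ) ≤ R ^ b →
    ∀ (C2 : ℝ) (nb2 M2 : ℕ) (Z2 : Finset (E2 × ℝ))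
      (cls2 : E2 × ℝ → OrthonormalBasis (Fin 2) ℝ E2 → ℤ × ℤ → E2 → ℕ)
      (Λ2 : Finset ℕ) (s2 : ℕ → ℝ × ℝ) (cl2 : ℕ → ℕ) (G2 : E2 × ℝ → ℕ → E2 → ℂ)
      (D2 : E2 × ℝ → ℕ → ℝ) (rest2 : E2 × ℝ → E2 → ℂ) (I2 : E2 × ℝ → ℕ → Finset ℕ)
      (P2 : E2 × ℝ → ℕ → ℕ → Plate), 0 ≤ C2 →
      LvD q A σ C2 B nb2 M2 h g R r2 Z2 cls2 Λ2 s2 cl2 G2 D2 rest2 I2 P2 →
    ∀ (ζ : E2 × ℝ → E2 × ℝ), (∀ z ∈ Z2, ζ z ∈ Z1 ∧ z - ζ z ∈ cyl r1) →
    ∀ k ∈ Λ2, ∀ π ∈ Λ1,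
      (∀ z ∈ Z2, ∀ i ∈ I2 z k, ∀ κ ∈ Λ1,
        en (r2 ^ (-(1/2) : ℝ)) (tr h (z - ζ z) (G1 (ζ z) κ)) (P2 z k i).S ≤
          en (r2 ^ (-(1/2) : ℝ)) (tr h (z - ζ z) (G1 (ζ z) π)) (P2 z k i).S) →
      (∀ z ∈ Z2, ∀ i ∈ I2 z k, ∀ m ∈ caps (r2 ^ (-(1/2) : ℝ)), ∀ y ∈ (P2 z k i).S m,
        Ad n h (r1 ^ (-(1/2) : ℝ)) (r2 ^ (-(1/2) : ℝ)) (tr h (ζ z) g) (uS (I1 (ζ z) π) (P1 (ζ z) π))
          m (z - ζ z) y ≤ ENNReal.ofReal (CT * R ^ (-(6 + |q| + |M0| + |K|)) * En g)) →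
      Sk h g r2 Z2 I2 P2 D2 k ≤
        ENNReal.ofReal (C' * Real.sqrt (C2 * nb2) * (Λ1.card + 1) ^ 3 * (R ^ (-K) * SS g R D)) := by
  intro M0 K b C1 CT hb hC1 hCT
  obtain ⟨C3, hC3, H3⟩ := step_en B q hA M0 K b C1 hb hC1
  obtain ⟨C4, hC4, H4⟩ := val_tiny B n hA
  refine ⟨432 * (C4 * CT ^ (3 / 2 : ℝ)) + C3, by positivity, ?_⟩
  intro Na M hM h g R D σ hSt r1 r2 hr2 h21 hr1R hσ1 nb1 M1 Z1 cls1 Λ1 s1 cl1 G1 D1 rest1
    I1 P1 hMM1 H1 hΛ1 hnb1 C2 nb2 M2 Z2 cls2 Λ2 s2 cl2 G2 D2 rest2 I2 P2 hC2 H2 ζ hζ k hk π hπ hmax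
    htiny
  have hR : 1 ≤ R := hSt.R1
  have hR0 : 0 < R := by linarith
  have hr2' : 1 ≤ r2 := (Real.one_le_rpow hR (by norm_num)).trans hr2
  have hr20 : 0 < r2 := by linarith
  have h21' : r2 ≤ r1 := by nlinarith
  have hr10 : 0 < r1 := by linarith
  have hhc : Continuous h := hSt.par.1.continuous
  have hSd := H2.sd k hk
  have hEn : 0 ≤ En g := integral_nonneg fun ξ => by positivity
  have hD := hSt.D0
  have hR12 : r1 ≤ r2 ^ 2 := by
    refine hr1R.trans ?_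
    calc R = (R ^ (1/2 : ℝ)) ^ 2 := by
          rw [← Real.rpow_natCast, ← Real.rpow_mul hR0.le]; norm_num
      _ ≤ r2 ^ 2 := by gcongr
  have hs2p : 0 < (s2 k).2 := (hSd.s2pos hr20).2
  set K0 : ℝ := 6 + |q| + |M0| + |K| with hK0
  set a : ℝ≥0∞ := ENNReal.ofReal (CT * R ^ (-K0) * En g) with ha
  -- power of `s2`
  have hu : (s2 k).2 ^ (-q / 2) ≤ R ^ |q| := by
    have h1 : r2 ^ (-(1/2) : ℝ) ≤ (s2 k).2 := hSd.lo.trans hSd.le
    rcases le_total 0 q with hq | hq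
    · calc (s2 k).2 ^ (-q / 2) ≤ (r2 ^ (-(1/2) : ℝ)) ^ (-q / 2) :=
            Real.rpow_le_rpow_of_nonpos (Real.rpow_pos_of_pos hr20 _) h1 (by linarith)
        _ = r2 ^ (q / 4) := by rw [← Real.rpow_mul hr20.le]; congr 1; ring
        _ ≤ R ^ (q / 4) := Real.rpow_le_rpow hr20.le (h21'.trans hr1R) (by linarith)
        _ ≤ R ^ |q| := Real.rpow_le_rpow_of_exponent_le hR (by rw [abs_of_nonneg hq]; linarith)
    · calc (s2 k).2 ^ (-q / 2) ≤ 1 := Real.rpow_le_one hs2p.le hSd.hi (by linarith)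
        _ ≤ R ^ |q| := Real.one_le_rpow hR (abs_nonneg q)
  -- the local bound
  set T : ℝ := C4 * CT ^ (3 / 2 : ℝ) * (R ^ (-(K + 3)) * SS g R D) with hT
  have hSS : 0 ≤ SS g R D := by
    unfold SS; positivity
  have hEn32 : En g ^ (3 / 2 : ℝ) ≤ R ^ (|M0| / 2) * (En g * Real.sqrt D) := by
    have h1 : En g ^ (3 / 2 : ℝ) = En g * Real.sqrt (En g) := by
      rw [show (3 / 2 : ℝ) = 1 + 1 / 2 by norm_num, Real.rpow_add_of_nonneg hEn (by norm_num)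
        (by norm_num), Real.rpow_one, Real.sqrt_eq_rpow]
    have h2 : Real.sqrt (En g) ≤ R ^ (|M0| / 2) * Real.sqrt D := by
      calc Real.sqrt (En g) ≤ Real.sqrt (R ^ |M0| * D) := by
            apply Real.sqrt_le_sqrt
            refine hSt.nd.trans ?_
            gcongr
            exact le_abs_self M0
        _ = R ^ (|M0| / 2) * Real.sqrt D := by
            rw [Real.sqrt_mul (by positivity), Real.sqrt_eq_rpow (R ^ |M0|), ← Real.rpow_mul hR0.le]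
            congr 2
            ring
    rw [h1]
    calc En g * Real.sqrt (En g) ≤ En g * (R ^ (|M0| / 2) * Real.sqrt D) := by gcongr
      _ = _ := by ring
  have hloc : ∀ w ∈ Z1, ∀ (I' : Finset ℕ) (P' : ℕ → Plate),
        Plates A h r2 (s2 k).1 (s2 k).2 r1 I' P' →
        (∀ j ∈ I', ∃ z ∈ Z2, ζ z = w ∧ ∃ i ∈ I2 z k, P' j = shift w (P2 z k i)) →
        ENNReal.ofReal ((s2 k).2 ^ (-q / 2)) * val h (G1 w π) r2 (s2 k).1 (s2 k).2 I' P' ≤
          0 * (ENNReal.ofReal (r1 * Real.sqrt (D1 w π)) *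
            ∑ i ∈ I1 w π, en (r1 ^ (-(1/2) : ℝ)) (tr h w g) (P1 w π i).S) +
          ENNReal.ofReal T := by
    intro w hw I' P' hP' hsh
    have Hw := H1.out w hw
    have hBs : Bs (r1 ^ (-(1/2) : ℝ)) (uS (I1 w π) (P1 w π)) := by
      refine ⟨fun m _ => ?_, fun m _ => ?_⟩
      · unfold uS
        exact Finset.measurableSet_biUnion _ fun i hi => (Hw.pl π hπ).1.meas i hi m
      · exact Metric.isBounded_closedBall.subset (Hw.bd π hπ m)
    have hf : Integrable (tr h w g) := (W323.Gd.tr hhc (W323.St.gd hSt (by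
      have : 0 ≤ 3 * r1 ^ (-(1/2) : ℝ) := by positivity
      linarith)) w).int
    have h1 := H4 h hSt.par r1 r2 (s2 k).1 (s2 k).2 hr2' h21' hR12 hSd (tr h w g) hf
      (uS (I1 w π) (P1 w π)) hBs I' P' hP' a (fun j hj m hm y hy => by
        obtain ⟨z, hz, hzw, i, hi, hj'⟩ := hsh j hj
        have h2 := htiny z hz i hi m hm y (by rw [hj'] at hy; exact hy)
        rw [hzw] at h2
        have h3 : (P' j).z = z - w := by
          rw [hj']
          unfold shift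
          rw [((H2.out z hz).pl k hk).2 i hi]
        rw [h3]
        exact h2)
    rw [Hw.eq π hπ, zero_mul, zero_add]
    refine (mul_le_mul' (ENNReal.ofReal_le_ofReal hu) h1).trans ?_
    rw [ha, ENNReal.ofReal_rpow_of_nonneg (by positivity) (by norm_num),
      ← ENNReal.ofReal_mul (by positivity), ← ENNReal.ofReal_mul (by positivity)]
    apply ENNReal.ofReal_le_ofReal
    rw [Real.mul_rpow (by positivity) hEn, Real.mul_rpow hCT (by positivity), ← Real.rpow_mul hR0.le]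
    have h5 : r1 ^ 6 ≤ R ^ (6:ℝ) := by
      calc r1 ^ 6 ≤ R ^ 6 := by gcongr
        _ = R ^ (6:ℝ) := by rw [← Real.rpow_natCast]; norm_num
    calc R ^ |q| * (C4 * r1 ^ 6 * (CT ^ (3/2 : ℝ) * R ^ (-K0 * (3/2)) * En g ^ (3/2 : ℝ)))
        ≤ R ^ |q| * (C4 * R ^ (6:ℝ) * (CT ^ (3/2 : ℝ) * R ^ (-K0 * (3/2)) *
          (R ^ (|M0| / 2) * (En g * Real.sqrt D)))) := by gcongr
      _ = C4 * CT ^ (3/2 : ℝ) * ((R ^ |q| * R ^ (6:ℝ) * R ^ (-K0 * (3/2)) * R ^ (|M0| / 2)) *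
          (En g * Real.sqrt D)) := by ring
      _ = C4 * CT ^ (3/2 : ℝ) * (R ^ (|q| + 6 + -K0 * (3/2) + |M0| / 2) *
          (En g * Real.sqrt D)) := by
          rw [← Real.rpow_add hR0, ← Real.rpow_add hR0, ← Real.rpow_add hR0]
      _ ≤ C4 * CT ^ (3/2 : ℝ) * (R ^ (-(K + 3)) * (En g * Real.sqrt D)) := by
          gcongr
          rw [hK0]
          have := abs_nonneg q
          have := abs_nonneg M0
          have := le_abs_self K
          have := abs_nonneg K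
          linarith
      _ ≤ T := by
          rw [hT]
          unfold SS
          have : En g * Real.sqrt D ≤ R * En g * Real.sqrt D := by
            rw [mul_assoc]
            exact le_mul_of_one_le_left (by positivity) hR
          gcongr
  have h6 := H3 Na M hM h g R D σ hSt r1 r2 hr2 h21 hr1R hσ1 nb1 M1 Z1 cls1 Λ1 s1 cl1 G1 D1 rest1
    I1 P1 hMM1 H1 hΛ1 hnb1 C2 nb2 M2 Z2 cls2 Λ2 s2 cl2 G2 D2 rest2 I2 P2 hC2 H2 ζ hζ k hk π hπ hmax
    0 (ENNReal.ofReal T) hloc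
  refine h6.trans ?_
  have hZ1 := card_net hr10 hr1R Z1 H1.mem H1.sep
  rw [zero_mul, zero_add, ← ENNReal.ofReal_natCast Z1.card, ← ENNReal.ofReal_mul (by positivity),
    ← ENNReal.ofReal_mul (by positivity), ← ENNReal.ofReal_add (by positivity) (by positivity)]
  apply ENNReal.ofReal_le_ofReal
  have h7 : (Z1.card : ℝ) * T ≤ 216 * (C4 * CT ^ (3 / 2 : ℝ) * (R ^ (-K) * SS g R D)) := by
    calc (Z1.card : ℝ) * T ≤ (216 * (R / r1) ^ 3) * T := by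
          have : 0 ≤ T := by positivity
          gcongr
      _ ≤ (216 * R ^ (3:ℝ)) * T := by
          have : 0 ≤ T := by positivity
          have h8 : R / r1 ≤ R := div_le_self hR0.le (hr2'.trans h21')
          have h9 : (R / r1) ^ 3 ≤ R ^ (3:ℝ) := by
            calc (R / r1) ^ 3 ≤ R ^ 3 := by gcongr
              _ = R ^ (3:ℝ) := by rw [← Real.rpow_natCast]; norm_num
          gcongr
      _ = 216 * (C4 * CT ^ (3 / 2 : ℝ) * ((R ^ (3:ℝ) * R ^ (-(K + 3))) * SS g R D)) := by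
          rw [hT]; ring
      _ = _ := by
          rw [← Real.rpow_add hR0]
          congr 4
          ring
  have h10 : (1:ℝ) ≤ ((Λ1.card : ℝ) + 1) ^ 3 := one_le_pow₀ (by
    have : (0:ℝ) ≤ Λ1.card := Nat.cast_nonneg _
    linarith)
  have h11 : 0 ≤ R ^ (-K) * SS g R D := by positivity
  calc 2 * Real.sqrt (C2 * nb2) * ((Λ1.card : ℝ) + 1) ^ 3 * ((Z1.card : ℝ) * T) +
        C3 * Real.sqrt (C2 * nb2) * (R ^ (-K) * SS g R D)
      ≤ 2 * Real.sqrt (C2 * nb2) * ((Λ1.card : ℝ) + 1) ^ 3 *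
          (216 * (C4 * CT ^ (3 / 2 : ℝ) * (R ^ (-K) * SS g R D))) +
        C3 * Real.sqrt (C2 * nb2) * (((Λ1.card : ℝ) + 1) ^ 3 * (R ^ (-K) * SS g R D)) := by
        refine add_le_add (mul_le_mul_of_nonneg_left h7 (by positivity))
          (mul_le_mul_of_nonneg_left ?_ (by positivity))
        exact le_mul_of_one_le_left h11 h10
    _ = _ := by ring

/-- the clipped dyadic class gives the hypothesis of `tiny_lv`. -/
theorem div_pow_le {CT E R K0 : ℝ} {nA : ℕ} (hR : 1 ≤ R) (hCE : 0 ≤ CT * E)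
    (hnA : K0 * Real.logb 2 R ≤ nA) :
    ENNReal.ofReal (CT * E) / 2 ^ nA ≤ ENNReal.ofReal (CT * R ^ (-K0) * E) := by
  have hR0 : 0 < R := by linarith
  have h1 : (2 : ℝ≥0∞) ^ nA = ENNReal.ofReal (2 ^ nA) := by
    rw [ENNReal.ofReal_pow (by norm_num)]; norm_num
  rw [h1, ← ENNReal.ofReal_div_of_pos (by positivity)]
  apply ENNReal.ofReal_le_ofReal
  have h2 : R ^ K0 ≤ 2 ^ nA := by
    calc R ^ K0 = (2 ^ (Real.logb 2 R)) ^ K0 := by
          rw [Real.rpow_logb (by norm_num) (by norm_num) hR0]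
      _ = 2 ^ (Real.logb 2 R * K0) := by rw [← Real.rpow_mul (by norm_num)]
      _ ≤ 2 ^ (nA : ℝ) := Real.rpow_le_rpow_of_exponent_le (by norm_num) (by linarith)
      _ = 2 ^ nA := by rw [Real.rpow_natCast]
  have h3 : 0 < R ^ K0 := Real.rpow_pos_of_pos hR0 _
  calc CT * E / 2 ^ nA ≤ CT * E / R ^ K0 := by gcongr
    _ = CT * R ^ (-K0) * E := by rw [Real.rpow_neg hR0.le]; field_simp

end Crest.Agent.R138.Tiny480
end

-- ▼ part R138/Stp2_210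
section

/-!
# R138 / R139: WAVE side (helper210): STEPP from P654.STEP
-/

set_option autoImplicit false

open MeasureTheory FourierTransform
open scoped ENNReal

namespace Crest.Agent.R138.Stp210

open Crest.Agent.R138.Defs Crest.Agent.R138.Bil882 Crest.Agent.R138.Wpk685 Crest.Agent.R138.W188
open Crest.Agent.R138.Gl210 Crest.Agent.R138.P654 Crest.Agent.R138.Ad480 Crest.Agent.R138.Chi101

/-- the level as 639's `LvD`. -/
theorem lvd {q A σ Cn : ℝ} {B : ℕ → ℝ} {M : ℕ} {h : E2 → ℝ} {g : E2 → ℂ} {R : ℝ} {L : Lev}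
    (H : LevOk q A σ Cn B M h g R L) : ∃ cls, GR639.LvD q A σ Cn B L.nb M h g R L.r L.Z cls
      (Finset.range L.n) L.s L.cl L.G L.D L.rest L.I L.P := by
  classical
  choose! cls hcls using H.dec
  exact ⟨cls, fun k hk => H.sd k (Finset.mem_range.1 hk), H.Zmem, H.Zsep, hcls⟩

theorem lbl_range {n i : ℕ} (hi : i < n) : Dom878.lbl (Finset.range n) i = i := by
  unfold Dom878.lbl
  rw [Finset.sort_range, List.getD_eq_getElem _ _ (by simpa using hi), List.getElem_range]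

/-- the parent label dominates, in energy form. -/
theorem hmax_of {h : E2 → ℝ} {L L' : Lev} {aux : Aux} (HN : Next h L L' aux) {z : E2 × ℝ}
    (hz : z ∈ L'.Z) {k : ℕ} (hk : k < L'.n) {i : ℕ} (hi : i ∈ L'.I z k)
    (hmeas : ∀ m, MeasurableSet ((L'.P z k i).S m)) {κ : ℕ} (hκ : κ ∈ Finset.range L.n) :
    en (L'.r ^ (-(1/2) : ℝ)) (tr h (z - L.ζ z) (L.G (L.ζ z) κ)) (L'.P z k i).S ≤
      en (L'.r ^ (-(1/2) : ℝ)) (tr h (z - L.ζ z) (L.G (L.ζ z) (L'.par k))) (L'.P z k i).S := by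
  refine GR639.en_mono_pt hmeas fun m _ y hy => ?_
  have e := HN.arg z hz k hk i hi m y hy
  have hd := Dom878.argi_dom (L'.r ^ (-(1/2) : ℝ)) (L.pf h z) (Λ := Finset.range L.n)
    ⟨κ, hκ⟩ m y
  rw [e, lbl_range (HN.par_lt k hk)] at hd
  have h1 := hd κ hκ
  rw [← ofReal_norm, ← ofReal_norm]
  exact ENNReal.ofReal_le_ofReal h1

/-- the class of a point of the plates of the next level. -/
theorem pts {Ma n : ℕ} {K0 CE : ℝ} (hCE : ∀ (n : ℕ) (h : E2 → ℝ) (ρ ρ' : ℝ) (g : E2 → ℂ)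
      (S : ℤ × ℤ → Set E2), 0 < ρ → ρ ≤ 1 → Integrable g → MemLp g 2 →
      ∀ (m' : ℤ × ℤ) (z : E2 × ℝ) (y : E2), Ad n h ρ ρ' g S m' z y ≤ ENNReal.ofReal (CE * En g))
    {B : ℕ → ℝ} {q A Cn : ℝ} {Na M : ℕ} {M0 : ℝ} {h : E2 → ℝ} {g : E2 → ℂ} {R D dl : ℝ}
    (hSt : St B q Na M0 (1/2) h g R D) {L L' : Lev}
    (hL : LevOk q A (1/2) Cn B M h g R L) (hL' : LevOk q A (1/2) Cn B M h g R L')
    (HN : Next h L L' (AF Ma n K0 CE h g R dl L L'.r)) {z : E2 × ℝ}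
    (hz : z ∈ L'.Z) {k : ℕ} (hk : k < L'.n) {i : ℕ} (hi : i ∈ L'.I z k) {m : ℤ × ℤ} {y : E2}
    (hy : y ∈ (L'.P z k i).S m) :
    clsR (nAR Ma R) (CE * En g) K0 n h (an L.r) (an L'.r) (an (dl * L'.r)) (tr h (L.ζ z) g)
        (uS (L.I (L.ζ z) (L'.par k)) (L.P (L.ζ z) (L'.par k))) (z - L.ζ z) (L'.P z k i).b m y =
      L'.ac k ∧
    Ad n h (an L.r) (an L'.r) (tr h (L.ζ z) g)
        (uS (L.I (L.ζ z) (L'.par k)) (L.P (L.ζ z) (L'.par k))) m (z - L.ζ z) y ≤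
      ENNReal.ofReal (CE * En g) ∧
    m ∈ caps (an L'.r) := by
  classical
  have hR := hSt.R1
  have hhc : Continuous h := hSt.par.1.continuous
  have hgd := W323.Gd.tr hhc (W323.St.gd hSt (by norm_num)) (L.ζ z)
  have hLr1 : 1 ≤ L.r := (Real.one_le_rpow hR (by norm_num)).trans hL.lo
  have hLr : 0 < L.r := by linarith
  refine ⟨?_, ?_, ?_⟩
  · have h1 := HN.aux z hz k hk i hi m y hy
    have h2 := HN.arg z hz k hk i hi m y hy
    unfold AF at h1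
    rw [if_pos (hL'.Zmem z hz)] at h1
    unfold kap uL at h1
    rwa [h2] at h1
  · have h1 := hCE n h (an L.r) (an L'.r) (tr h (L.ζ z) g)
      (uS (L.I (L.ζ z) (L'.par k)) (L.P (L.ζ z) (L'.par k))) (Real.rpow_pos_of_pos hLr _)
      (Real.rpow_le_one_of_one_le_of_nonpos hLr1 (by norm_num)) hgd.int hgd.l2 m (z - L.ζ z) y
    rwa [W323.En_tr] at h1
  · obtain ⟨cls, hd⟩ := hL'.dec z hz
    by_contra hcon
    have h1 := hd.cp k (Finset.mem_range.2 hk) m hcon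
    unfold uS at h1
    simp only [Set.iUnion_eq_empty] at h1
    rw [h1 i hi] at hy
    exact hy

theorem sig_le {r : ℝ} (hr : 4 ≤ r) : (1/2 : ℝ) + 3 * r ^ (-(1/2) : ℝ) ≤ 2 := by
  have h1 : r ^ (-(1/2) : ℝ) ≤ 1 / 2 := by
    calc r ^ (-(1/2) : ℝ) ≤ (4:ℝ) ^ (-(1/2) : ℝ) :=
          Real.rpow_le_rpow_of_nonpos (by norm_num) hr (by norm_num)
      _ = 1 / 2 := by
          rw [show (4:ℝ) = 2 ^ (2:ℝ) by norm_num, ← Real.rpow_mul (by norm_num)]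
          norm_num
  linarith

theorem emp_of_uS {I : Finset ℕ} {P : ℕ → Plate} {m : ℤ × ℤ} (h : uS I P m = ∅) {i : ℕ}
    (hi : i ∈ I) : (P i).S m = ∅ := by
  unfold uS at h
  simp only [Set.iUnion_eq_empty] at h
  exact h i hi

theorem coh_empty {h : E2 → ℝ} {θ θ' δ Y T : ℝ} {I1 : Finset ℕ} {P1 : ℕ → Plate} {pp : ℝ}
    (hpp : 0 ≤ pp) (he : ∀ i ∈ I1, ∀ m, (P1 i).S m = ∅) : Coh h θ θ' δ Y T I1 P1 pp := by
  intro b c z x hz Mf hMf
  rcases Mf.eq_empty_or_nonempty with rfl | ⟨m, hm⟩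
  · simpa using hpp
  · obtain ⟨-, -, y, hy, -⟩ := hMf m hm
    obtain ⟨i, hi, -, hyS⟩ := hy
    rw [he i hi m] at hyS
    exact absurd hyS (Set.notMem_empty y)

theorem four_le {dl r : ℝ} (h4 : 4 * dl ≤ 1) (hr : 0 < r) (h1 : 1 ≤ dl * r) : 4 ≤ r := by
  calc (4:ℝ) ≤ 4 * (dl * r) := by linarith
    _ = (4 * dl) * r := by ring
    _ ≤ 1 * r := mul_le_mul_of_nonneg_right h4 hr.le
    _ = r := one_mul _

theorem A_le {A dl r : ℝ} (h4 : A * dl ≤ 1) (hr : 0 < r) : A * (dl * r) ≤ r := by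
  calc A * (dl * r) = (A * dl) * r := by ring
    _ ≤ 1 * r := mul_le_mul_of_nonneg_right h4 hr.le
    _ = r := one_mul _

theorem Y_le {R dl ε e1 : ℝ} (hR : 1 ≤ R) (hdl : 0 < dl) (hdlR : dl ≤ R ^ (-ε)) (he : e1 ≤ ε / 4) :
    R ^ e1 ≤ dl ^ (-(1/4) : ℝ) := by
  have hR0 : 0 < R := by linarith
  calc R ^ e1 ≤ R ^ (ε / 4) := Real.rpow_le_rpow_of_exponent_le hR he
    _ = (R ^ (-ε)) ^ (-(1/4) : ℝ) := by rw [← Real.rpow_mul hR0.le]; congr 1; ring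
    _ ≤ dl ^ (-(1/4) : ℝ) := Real.rpow_le_rpow_of_nonpos hdl hdlR (by norm_num)

theorem two_eight {a : ℝ} (ha : 0 ≤ a) : 2 * a ≤ 8 * a := by linarith

/-- the constants of the tiny term. -/
theorem tiny_real {Cn ν nb C' C X G' : ℝ} (hCn : 1 ≤ Cn) (hν : 1 ≤ ν) (_hnb : nb ≤ ν) (hC' : 0 ≤ C')
    (hX : 0 ≤ X) (hC : C' * Cn ≤ C) (hsq : Real.sqrt (Cn * nb) ≤ Cn * ν) :
    C' * Real.sqrt (Cn * nb) * X ≤ C * ν ^ (⌈G'⌉₊ + 4) * X := by
  have hνp : 0 < ν := by linarith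
  have c3 : ν ^ 1 ≤ ν ^ (⌈G'⌉₊ + 4) := pow_le_pow_right₀ hν (by omega)
  rw [pow_one] at c3
  have hC0 : 0 ≤ C := le_trans (by positivity) hC
  calc C' * Real.sqrt (Cn * nb) * X
      ≤ C' * (Cn * ν) * X := by gcongr
    _ = (C' * Cn) * ν * X := by ring
    _ ≤ C * ν ^ (⌈G'⌉₊ + 4) * X := by gcongr

theorem tiny_real2 {Cn ν nb C' C X G' n1 : ℝ} (hCn : 1 ≤ Cn) (hν : 1 ≤ ν) (hn0 : 0 ≤ n1)
    (hn1 : n1 ≤ ν) (hC' : 0 ≤ C') (hX : 0 ≤ X) (hC : 8 * C' * Cn ≤ C)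
    (hsq : Real.sqrt (Cn * nb) ≤ Cn * ν) :
    C' * Real.sqrt (Cn * nb) * (n1 + 1) ^ 3 * X ≤ C * ν ^ (⌈G'⌉₊ + 4) * X := by
  have hνp : 0 < ν := by linarith
  have c2 : (n1 + 1) ^ 3 ≤ 8 * ν ^ 3 := by
    calc (n1 + 1) ^ 3 ≤ (2 * ν) ^ 3 := by gcongr; linarith
      _ = _ := by ring
  have c3 : ν ^ 4 ≤ ν ^ (⌈G'⌉₊ + 4) := pow_le_pow_right₀ hν (by omega)
  have hC0 : 0 ≤ C := le_trans (by positivity) hC
  calc C' * Real.sqrt (Cn * nb) * (n1 + 1) ^ 3 * X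
      ≤ C' * (Cn * ν) * (8 * ν ^ 3) * X := by gcongr
    _ = (8 * C' * Cn) * ν ^ 4 * X := by ring
    _ ≤ C * ν ^ (⌈G'⌉₊ + 4) * X := by gcongr

/-- the constants of the step. -/
theorem step_real {Cn ν nb1 nb2 n1 R r1 CQ G G' e1 ε dl δ p pv1 pv2 : ℝ} (hCn : 1 ≤ Cn)
    (hν : 1 ≤ ν) (hnb1 : nb1 ≤ ν) (hnb2 : nb2 ≤ ν) (hn10 : 0 ≤ n1)
    (hn1 : n1 ≤ ν) (hR : 1 ≤ R) (hr10 : 0 < r1) (hr1 : r1 ≤ R) (hCQ : 0 ≤ CQ) (hG' : 0 ≤ G')
    (he1 : e1 * G' ≤ ε / 2) (hε : 0 < ε) (hdl : 0 < dl) (hpv1 : 0 < pv1) (hpv2 : 0 < pv2)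
    (hp : pv2 ≤ p) :
    2 * Real.sqrt (Cn * nb2) * (n1 + 1) ^ 3 * (CQ * r1 ^ (ε / 2) *
      (R ^ e1 * max 1 (Cn * nb1)) ^ G' * (dl ^ (-δ)) ^ G *
        ((2 * pv1 / p) ^ (1/2 : ℝ) + dl ^ (1/2 : ℝ))) ≤
      32 * Cn * CQ * Cn ^ G' * ν ^ (⌈G'⌉₊ + 4) * R ^ ε * dl ^ (-(G * δ)) *
        ((pv1 / pv2) ^ (1/2 : ℝ) + dl ^ (1/2 : ℝ)) := by
  have hR0 : 0 < R := by linarith
  have hCn0 : 0 < Cn := by linarith
  have hν0 : 0 < ν := by linarith
  have hp0 : 0 < p := by linarith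
  have a1 : Real.sqrt (Cn * nb2) ≤ Cn * ν := by
    have h1 : 1 ≤ Cn * ν := one_le_mul_of_one_le_of_one_le hCn hν
    calc Real.sqrt (Cn * nb2) ≤ Real.sqrt (Cn * ν) := by gcongr
      _ ≤ Cn * ν := by
          rw [Real.sqrt_le_left (by linarith)]
          nlinarith
  have a2 : (n1 + 1) ^ 3 ≤ 8 * ν ^ 3 := by
    calc (n1 + 1) ^ 3 ≤ (2 * ν) ^ 3 := by gcongr; linarith
      _ = _ := by ring
  have a3 : r1 ^ (ε / 2) ≤ R ^ (ε / 2) := by gcongr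
  have a4 : (R ^ e1 * max 1 (Cn * nb1)) ^ G' ≤ R ^ (ε / 2) * (Cn ^ G' * ν ^ ⌈G'⌉₊) := by
    have h1 : max 1 (Cn * nb1) ≤ Cn * ν := by
      refine max_le (one_le_mul_of_one_le_of_one_le hCn hν) ?_
      gcongr
    have h2 : (0:ℝ) < max 1 (Cn * nb1) := lt_max_of_lt_left one_pos
    rw [Real.mul_rpow (by positivity) h2.le, ← Real.rpow_mul hR0.le]
    have h3 : R ^ (e1 * G') ≤ R ^ (ε / 2) := Real.rpow_le_rpow_of_exponent_le hR he1
    have h4 : max 1 (Cn * nb1) ^ G' ≤ Cn ^ G' * ν ^ ⌈G'⌉₊ := by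
      calc max 1 (Cn * nb1) ^ G' ≤ (Cn * ν) ^ G' := by gcongr
        _ = Cn ^ G' * ν ^ G' := Real.mul_rpow hCn0.le hν0.le
        _ ≤ _ := by
            rw [← Real.rpow_natCast ν]
            gcongr
            exact Nat.le_ceil _
    gcongr
  have a5 : (dl ^ (-δ)) ^ G = dl ^ (-(G * δ)) := by
    rw [← Real.rpow_mul hdl.le]; congr 1; ring
  have a6 : (2 * pv1 / p) ^ (1/2 : ℝ) + dl ^ (1/2 : ℝ) ≤
      2 * ((pv1 / pv2) ^ (1/2 : ℝ) + dl ^ (1/2 : ℝ)) := by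
    have h1 : (2 * pv1 / p) ^ (1/2 : ℝ) ≤ 2 * (pv1 / pv2) ^ (1/2 : ℝ) := by
      have h2 : 2 * pv1 / p ≤ 4 * (pv1 / pv2) := by
        have h3 : pv1 / p ≤ pv1 / pv2 := by gcongr
        have h4 : 0 < pv1 / pv2 := by positivity
        rw [mul_div_assoc]; linarith
      calc (2 * pv1 / p) ^ (1/2 : ℝ) ≤ (4 * (pv1 / pv2)) ^ (1/2 : ℝ) := by gcongr
        _ = 2 * (pv1 / pv2) ^ (1/2 : ℝ) := by
            rw [Real.mul_rpow (by norm_num) (by positivity)]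
            congr 1
            rw [show (4:ℝ) = 2 ^ (2:ℝ) by norm_num, ← Real.rpow_mul (by norm_num)]
            norm_num
    have h5 : 0 ≤ dl ^ (1/2 : ℝ) := by positivity
    linarith
  have a7 : R ^ ε = R ^ (ε / 2) * R ^ (ε / 2) := by
    rw [← Real.rpow_add hR0]; congr 1; ring
  rw [a5]
  have hX : 0 ≤ (2 * pv1 / p) ^ (1/2 : ℝ) + dl ^ (1/2 : ℝ) := by positivity
  calc 2 * Real.sqrt (Cn * nb2) * (n1 + 1) ^ 3 * (CQ * r1 ^ (ε / 2) *
      (R ^ e1 * max 1 (Cn * nb1)) ^ G' * dl ^ (-(G * δ)) *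
        ((2 * pv1 / p) ^ (1/2 : ℝ) + dl ^ (1/2 : ℝ)))
      ≤ 2 * (Cn * ν) * (8 * ν ^ 3) * (CQ * R ^ (ε / 2) *
      (R ^ (ε / 2) * (Cn ^ G' * ν ^ ⌈G'⌉₊)) * dl ^ (-(G * δ)) *
        (2 * ((pv1 / pv2) ^ (1/2 : ℝ) + dl ^ (1/2 : ℝ)))) := by gcongr
    _ = _ := by
        rw [a7, pow_add]; ring

theorem sqrt_le' {Cn ν nb : ℝ} (hCn : 1 ≤ Cn) (hν : 1 ≤ ν) (hnb : nb ≤ ν) :
    Real.sqrt (Cn * nb) ≤ Cn * ν := by
  have hCn0 : 0 < Cn := by linarith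
  have h1 : 1 ≤ Cn * ν := one_le_mul_of_one_le_of_one_le hCn hν
  calc Real.sqrt (Cn * nb) ≤ Real.sqrt (Cn * ν) := by gcongr
    _ ≤ Cn * ν := by
        rw [Real.sqrt_le_left (by linarith)]
        nlinarith

set_option maxHeartbeats 2000000 in
/-- **the slab step** STEPP, from the local step P654.STEP. -/
theorem stepp {B : ℕ → ℝ} {q A : ℝ} (hA : 1 ≤ A) (HS : STEP B q) : STEPP B q A := by
  classical
  obtain ⟨d0, G, hd0, hd01, hG, HS⟩ := GR639.step_sk HS hA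
  obtain ⟨CE, hCE, HE⟩ := Acl101.Ad_le_En
  refine ⟨G, hG, ?_⟩
  intro ε hε Na M0 T
  obtain ⟨n, HS⟩ := HS (ε / 2) (half_pos hε)
  obtain ⟨Kc, hKc, HC⟩ := Chi101.coh_of B n
  obtain ⟨G', hG', HS⟩ := HS n le_rfl Kc hKc
  obtain ⟨e1, he1⟩ : ∃ e1 : ℝ, e1 = min (ε / 4) (ε / (2 * (G' + 1))) := ⟨_, rfl⟩
  have he10 : 0 < e1 := by rw [he1]; positivity
  have he14 : e1 ≤ ε / 4 := by rw [he1]; exact min_le_left _ _
  have he1G : e1 * G' ≤ ε / 2 := by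
    have h1 : e1 ≤ ε / (2 * (G' + 1)) := by rw [he1]; exact min_le_right _ _
    rw [le_div_iff₀ (by positivity)] at h1
    linarith
  obtain ⟨CQ, hCQ, HS⟩ := HS M0 T 1 e1 zero_le_one he10
  obtain ⟨Ma, hMa⟩ : ∃ Ma : ℕ, Ma = ⌈6 + |q| + |M0| + |T|⌉₊ := ⟨_, rfl⟩
  have hMa' : 6 + |q| + |M0| + |T| ≤ Ma := by rw [hMa]; exact Nat.le_ceil _
  have hMa1 : 1 ≤ Ma := by
    have h1 : (1:ℝ) ≤ Ma := by
      have := abs_nonneg q
      have := abs_nonneg M0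
      have := abs_nonneg T
      linarith
    exact_mod_cast h1
  refine ⟨⌈G'⌉₊ + 4, naR Ma, AF Ma n Kc CE, fun R dl a => pv (nAR Ma R) dl a,
    fun R a => ¬ a % (nAR Ma R + 1) < nAR Ma R, CP, by unfold CP; norm_num, naR_pos Ma,
    fun η hη => naR_le Ma hMa1 hη, fun R dl a hdl hdl1 => ⟨pv_ge hdl hdl1 a, pv_le dl a⟩, ?_, ?_⟩
  · intro h g R D Cn M hSt L dl r' hL hdl hdl1 hr hrL
    have hr1 : 1 ≤ r' := (Real.one_le_rpow hSt.R1 (by norm_num)).trans hr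
    exact ⟨fun z b m y => AF_lt Ma n Kc CE h g R dl L hr1 (hrL.trans hL.hi) z b m y,
      fun z b m => AF_meas Ma n Kc CE hSt hL r' z b m⟩
  refine ⟨⌈13 + |q| + |M0| + |T| + 4 * 1⌉₊, fun M hM Cn hCn => ?_⟩
  have hM' : 13 + |q| + |M0| + |T| + 4 * 1 ≤ (M : ℝ) := by
    refine (Nat.le_ceil _).trans ?_
    exact_mod_cast hM
  have hCn0 : 0 ≤ Cn := by linarith
  obtain ⟨C', hC', HS⟩ := HS Cn hCn0
  obtain ⟨CT, hCT, HT⟩ := Tiny480.tiny_lv B q hA n M0 T 1 Cn CE zero_le_one hCn0 hCE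
  set C : ℝ := 1 + d0⁻¹ + A + 4 + 32 * Cn * CQ * Cn ^ G' + C' * Cn + 8 * CT * Cn with hC
  have b1 : 0 < d0⁻¹ := by positivity
  have b2 : 0 ≤ 32 * Cn * CQ * Cn ^ G' := by positivity
  have b3 : 0 ≤ C' * Cn := by positivity
  have b4 : 0 ≤ 8 * CT * Cn := by positivity
  have hC1 : 1 ≤ C := by rw [hC]; linarith
  have hCd : d0⁻¹ ≤ C := by rw [hC]; linarith
  have hCA : A ≤ C := by rw [hC]; linarith
  have hC4 : 4 ≤ C := by rw [hC]; linarith
  have hCm : 32 * Cn * CQ * Cn ^ G' ≤ C := by rw [hC]; linarith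
  have hCr : C' * Cn ≤ C := by rw [hC]; linarith
  have hCt : 8 * CT * Cn ≤ C := by rw [hC]; linarith
  clear_value C
  refine ⟨C, hC1, ?_, ?_⟩
  · -- tiny labels
    intro h g R D hSt dl hdl hdl1 L L' hL hL' HN h36 hAr ν hν hνR hLe hLe' k hk htn
    obtain ⟨cls1, H1⟩ := lvd hL
    obtain ⟨cls2, H2⟩ := lvd hL'
    have hR : 1 ≤ R := hSt.R1
    have hR0 : 0 < R := by linarith
    have hEn : 0 ≤ En g := integral_nonneg fun ξ => by positivity
    have hSS : 0 ≤ SS g R D := hSt.ss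
    have hσ : (1/2 : ℝ) + 3 * L.r ^ (-(1/2) : ℝ) ≤ 2 := sig_le (le_trans (by norm_num) h36)
    have key := HT Na M hM' h g R D (1/2) hSt L.r L'.r hL'.lo hAr hL.hi hσ L.nb M L.Z cls1
      (Finset.range L.n) L.s L.cl L.G L.D L.rest L.I L.P le_rfl H1
      (by rw [Finset.card_range, Real.rpow_one]; exact (hLe.1.trans hνR).trans (le_mul_of_one_le_left hR0.le hCn))
      (by rw [Real.rpow_one]; exact hLe.2.trans hνR) Cn L'.nb M L'.Z cls2 (Finset.range L'.n) L'.s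
      L'.cl L'.G L'.D L'.rest L'.I L'.P hCn0 H2 L.ζ
      (fun z hz => hL.near z (hL'.Zmem z hz)) k (Finset.mem_range.2 hk) (L'.par k)
      (Finset.mem_range.2 (HN.par_lt k hk))
      (fun z hz i hi κ hκ => hmax_of HN hz hk hi
        (fun m => ((H2.out z hz).pl k (Finset.mem_range.2 hk)).1.meas i hi m) hκ)
      (fun z hz i hi m hm y hy => by
        obtain ⟨p1, p2, p3⟩ := pts HE hSt hL hL' HN hz hk hi hy
        refine (cls_tiny (mul_nonneg hCE hEn) p1 htn p2).trans ?_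
        have h1 := Tiny480.div_pow_le (CT := CE) (E := En g) (R := R)
          (K0 := 6 + |q| + |M0| + |T|) (nA := nAR Ma R) hR (mul_nonneg hCE hEn) (by
            unfold nAR
            push_cast
            have h2 : Real.logb 2 R ≤ ⌈Real.logb 2 R⌉₊ := Nat.le_ceil _
            have h3 : 0 ≤ Real.logb 2 R := Real.logb_nonneg (by norm_num) hR
            gcongr)
        refine le_trans ?_ h1
        rw [ENNReal.ofReal_div_of_pos (by positivity), ENNReal.ofReal_pow (by norm_num),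
          ENNReal.ofReal_ofNat])
    refine key.trans (ENNReal.ofReal_le_ofReal ?_)
    have c0 := tiny_real2 (G' := G') hCn hν (Nat.cast_nonneg L.n) hLe.1 hCT
      (mul_nonneg (Real.rpow_nonneg hR0.le (-T)) hSS) hCt (sqrt_le' hCn hν hLe'.2)
    rw [Finset.card_range]
    refine c0.trans (le_of_eq ?_)
    ring
  · -- the step
    intro h g R D hSt dl hdl hCdl hdlR L0 L1 L2 hL0 hL1 hL2 HN1 HN2 hr1 hr2 hdG ν hν hνR hLe0 hLe1
      hLe2 k hk hnt2 hnt1 δ hδ hg2 hg1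
    rw [not_not] at hnt1 hnt2
    obtain ⟨cls1, H1⟩ := lvd hL1
    obtain ⟨cls2, H2⟩ := lvd hL2
    have hR : 1 ≤ R := hSt.R1
    have hR0 : 0 < R := by linarith
    have hEn : 0 ≤ En g := integral_nonneg fun ξ => by positivity
    have hSS : 0 ≤ SS g R D := hSt.ss
    have hπ := HN2.par_lt k hk
    have hdli : C ≤ dl⁻¹ := by
      rw [← one_div, le_div_iff₀ hdl]; exact hCdl
    have hdl1 : dl ≤ 1 := (le_mul_of_one_le_left hdl.le hC1).trans hCdl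
    have hdld0 : dl ≤ d0 := by
      have := hCd.trans hdli
      rwa [inv_le_inv₀ hd0 hdl] at this
    have hdlA : A * dl ≤ 1 := (mul_le_mul_of_nonneg_right hCA hdl.le).trans hCdl
    have hdl4 : 4 * dl ≤ 1 := (mul_le_mul_of_nonneg_right hC4 hdl.le).trans hCdl
    have hr0p : 0 < L0.r := lt_of_lt_of_le (by positivity) hL0.lo
    have hr1p : 0 < L1.r := lt_of_lt_of_le (by positivity) hL1.lo
    have hr2p : 0 < L2.r := lt_of_lt_of_le (by positivity) hL2.lo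
    have hr11 : 1 ≤ L1.r := (Real.one_le_rpow hR (by norm_num)).trans hL1.lo
    have hr21 : 1 ≤ L2.r := (Real.one_le_rpow hR (by norm_num)).trans hL2.lo
    have hr14 : 4 ≤ L1.r := four_le hdl4 hr1p (by rw [← hr2]; exact hr21)
    have hAdr : A * (dl * L1.r) ≤ L1.r := A_le hdlA hr1p
    have hσ : (1/2 : ℝ) + 3 * L1.r ^ (-(1/2) : ℝ) ≤ 2 := sig_le hr14
    have hdG1 : dl ^ (-G) ≤ L1.r := by
      refine hdG.trans ?_
      rw [hr2]
      exact mul_le_of_le_one_left hr1p.le hdl1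
    have hGm : 1 ≤ dl ^ (-δ) := Real.one_le_rpow_of_pos_of_le_one_of_nonpos hdl hdl1 (by linarith)
    have hY : R ^ e1 ≤ dl ^ (-(1/4) : ℝ) := Y_le hR hdl hdlR he14
    have hY1 : 1 ≤ R ^ e1 := Real.one_le_rpow hR he10.le
    set nA := nAR Ma R with hnA
    set c1 := L1.ac (L2.par k) with hc1
    set c2 := L2.ac k with hc2
    have hpv1 : 1 ≤ pv nA dl c1 := pv_ge hdl hdl1 c1
    have hpv2 : 1 ≤ pv nA dl c2 := pv_ge hdl hdl1 c2
    have hpv2p : pv nA dl c2 ≤ p0 nA c2 := min_le_left _ _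
    have hpp0 : 0 ≤ 2 * pv nA dl c1 := mul_nonneg zero_le_two (zero_le_one.trans hpv1)
    have hpp1 : 1 ≤ 2 * pv nA dl c1 := hpv1.trans (le_mul_of_one_le_left
      (zero_le_one.trans hpv1) one_le_two)
    -- coherence of the parent class
    have hCoh : ∀ w ∈ L1.Z, Coh h (an L1.r) (an (dl * L1.r)) (dl ^ (1/2 : ℝ)) (R ^ e1) (2 * L1.r)
        (L1.I w (L2.par k)) (L1.P w (L2.par k)) (2 * pv nA dl c1) := by
      intro w hw
      have hpt : ∀ i ∈ L1.I w (L2.par k), ∀ m, ∀ y ∈ (L1.P w (L2.par k) i).S m, _ :=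
        fun i hi m y hy => pts HE hSt hL0 hL1 HN1 hw hπ hi hy
      by_cases hbig : p0 nA c1 ≤ CP * dl ^ (-(1/2) : ℝ)
      · rw [pv_eq hbig]
        have hζ := hL0.near w (hL1.Zmem w hw)
        have h1 := HC Kc le_rfl h hSt.par hSt.h1 L0.r dl (R ^ e1) (CE * En g) nA c1
          (tr h (L0.ζ w) g) (uS (L0.I (L0.ζ w) (L1.par (L2.par k)))
            (L0.P (L0.ζ w) (L1.par (L2.par k)))) (w - L0.ζ w) (L1.I w (L2.par k))
          (L1.P w (L2.par k)) (by rw [← hr1]; exact hr11) hdl hdl1 hY1 hY hζ.2.2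
          (mul_nonneg hCE hEn) hnt1 (fun m => by
            obtain ⟨cls0, hd0'⟩ := hL0.dec (L0.ζ w) hζ.1
            unfold uS
            exact Finset.measurableSet_biUnion _ fun i hi =>
              (hd0'.pl _ (Finset.mem_range.2 (HN1.par_lt _ hπ))).1.meas i hi m)
          (fun i hi m hm => by
            rw [← hr1] at hm
            exact emp_of_uS ((H1.out w hw).cp _ (Finset.mem_range.2 hπ) m hm) hi)
          (fun i hi m y hy => by
            rw [← hr1]; exact (hpt i hi m y hy).2.1)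
          (fun i hi m y hy => by
            rw [← hr1]; exact (hpt i hi m y hy).1)
        rwa [← hr1] at h1
      · -- the class is empty
        have hemp : ∀ i ∈ L1.I w (L2.par k), ∀ m, (L1.P w (L2.par k) i).S m = ∅ := by
          intro i hi m
          by_contra hne
          obtain ⟨y, hy⟩ := Set.nonempty_iff_ne_empty.2 hne
          obtain ⟨p1, p2, p3⟩ := hpt i hi m y hy
          exact hbig (p0_le hr1p hdl hdl1 (mul_nonneg hCE hEn) hKc p1 hnt1 p2 p3)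
        exact coh_empty hpp0 hemp
    -- the class of the children
    have hCls : GR639.ClsOk n Kc Kc (p0 nA c2) (2 * p0 nA c2) h g dl L1.r L1.ζ
        (fun w => L1.I w (L2.par k)) (fun w => L1.P w (L2.par k)) L2.Z (fun z => L2.I z k)
        (fun z => L2.P z k) := by
      refine ⟨A0 nA (CE * En g) c2, A0_nonneg (mul_nonneg hCE hEn) c2, ?_⟩
      intro z hz i hi m y hy
      obtain ⟨p1, p2, p3⟩ := pts HE hSt hL1 hL2 HN2 hz hk hi hy
      obtain ⟨a1, a2, a3, a4⟩ := cls_point (Real.rpow_pos_of_pos hr2p _).le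
        (Real.rpow_pos_of_pos (mul_pos hdl hr2p) _).le (mul_nonneg hCE hEn) hKc p1 hnt2 p2 p3
      rw [hr2] at a1 a2 a3 a4
      exact ⟨a1, a2.trans (ENNReal.ofReal_le_ofReal
        (two_eight (A0_nonneg (nA := nA) (mul_nonneg hCE hEn) c2))), a3, a4.le⟩
    have key := HS Na M hM' h g R D (1/2) hSt (by norm_num) L1.r dl (R ^ e1) (dl ^ (-δ))
      (by rw [← hr2]; exact hL2.lo) hAdr hL1.hi hr11 hσ hdl hdld0 hdG1 hGm le_rfl hY
      L1.nb M L1.Z cls1 (Finset.range L1.n) L1.s L1.cl L1.G L1.D L1.rest L1.I L1.P le_rfl H1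
      (by rw [Finset.card_range, Real.rpow_one]; exact (hLe1.1.trans hνR).trans (le_mul_of_one_le_left hR0.le hCn))
      (by rw [Real.rpow_one]; exact hLe1.2.trans hνR) Cn L2.nb M L2.Z cls2 (Finset.range L2.n)
      L2.s L2.cl L2.G L2.D L2.rest L2.I L2.P hCn0 (by rw [← hr2]; exact H2) L1.ζ
      (fun z hz => hL1.near z (hL2.Zmem z hz)) k (Finset.mem_range.2 hk) (L2.par k)
      (Finset.mem_range.2 hπ)
      (fun z hz i hi κ hκ => by
        rw [← hr2]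
        exact hmax_of HN2 hz hk hi
          (fun m => ((H2.out z hz).pl k (Finset.mem_range.2 hk)).1.meas i hi m) hκ)
      (p0 nA c2) (2 * pv nA dl c1) Kc (2 * p0 nA c2) (p0_ge c2) hpp1 hCoh hCls
      hg1.1 (by rw [← hr2]; exact hg2.1) hg1.2 (by rw [← hr2]; exact hg2.2)
    rw [← hr2] at key
    refine key.trans ?_
    rw [← mul_assoc, ← ENNReal.ofReal_mul (by positivity)]
    have hreal := step_real (Cn := Cn) (ν := ν) (nb1 := L1.nb) (nb2 := L2.nb)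
      (n1 := (Finset.range L1.n).card) (R := R) (r1 := L1.r) (CQ := CQ) (G := G) (G' := G')
      (e1 := e1) (ε := ε) (dl := dl) (δ := δ) (p := p0 nA c2) (pv1 := pv nA dl c1)
      (pv2 := pv nA dl c2) hCn hν hLe1.2 hLe2.2 (Nat.cast_nonneg _)
      (by rw [Finset.card_range]; exact hLe1.1) hR hr1p hL1.hi hCQ hG' he1G hε hdl
      (zero_lt_one.trans_le hpv1) (zero_lt_one.trans_le hpv2) hpv2p
    refine add_le_add (mul_le_mul' (ENNReal.ofReal_le_ofReal (hreal.trans ?_)) le_rfl)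
      (ENNReal.ofReal_le_ofReal ?_)
    · have hνp : 0 < ν := by linarith
      have : 0 ≤ (pv nA dl c1 / pv nA dl c2) ^ (1/2 : ℝ) + dl ^ (1/2 : ℝ) := by positivity
      gcongr
    · have c0 := tiny_real (G' := G') hCn hν hLe2.2 hC'
        (mul_nonneg (Real.rpow_nonneg hR0.le (-T)) hSS) hCr (sqrt_le' hCn hν hLe2.2)
      refine c0.trans (le_of_eq ?_)
      ring

end Crest.Agent.R138.Stp210
end

-- ▼ part R138/ExtB_628
section

/-!
# R138 / R139: WAVE side (helper628): `EX1P ∧ EXP ∧ STEPP ⟹ EXT`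

Recursion along the tower of levels `r_s = R dl^(j0 - 1 + s)`, `s = 0, .., n + 1` (the level `s = 0`
is the grandparent which the slab step needs); the tower is the part `s ≥ 1`.
-/

set_option autoImplicit false

open MeasureTheory FourierTransform
open scoped ContDiff ENNReal

namespace Crest.Agent.R138.ExtB628

open Crest.Agent.R138.Defs Crest.Agent.R138.Bil882 Crest.Agent.R138.Wpk685
  Crest.Agent.R138.W188 Crest.Agent.R138.Gl210 Crest.Agent.R138.Chn188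

/-- `DecOut` is monotone in the constant and antitone in the order of the tail. -/
theorem DecOut.mono {q A σ Cn Cn' : ℝ} {B : ℕ → ℝ} {nb M M' : ℕ} {h : E2 → ℝ} {g : E2 → ℂ}
    {R r : ℝ} {z : E2 × ℝ} {cls : OrthonormalBasis (Fin 2) ℝ E2 → ℤ × ℤ → E2 → ℕ}
    {Λ : Finset ℕ} {s : ℕ → ℝ × ℝ} {cl : ℕ → ℕ} {G : ℕ → E2 → ℂ} {D' : ℕ → ℝ} {rest : E2 → ℂ}
    {I : ℕ → Finset ℕ} {P : ℕ → ℕ → Plate} (hR : 1 ≤ R) (hC : 0 ≤ Cn) (hCC : Cn ≤ Cn') (hM : M' ≤ M)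
    (H : DecOut q A σ Cn B nb M h g R r z cls Λ s cl G D' rest I P) :
    DecOut q A σ Cn' B nb M' h g R r z cls Λ s cl G D' rest I P := by
  have hnb : (0 : ℝ) ≤ nb := Nat.cast_nonneg nb
  have h1 : Cn * nb ≤ Cn' * nb := mul_le_mul_of_nonneg_right hCC hnb
  refine
    { sum := H.sum
      eq := H.eq
      st := H.st
      sub := H.sub
      dens := H.dens
      bd := H.bd
      cp := H.cp
      disj := H.disj
      pl := H.pl
      cls := H.cls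
      dense := fun k hk i hi => (H.dense k hk i hi).trans (mul_le_mul_left (ENNReal.ofReal_le_ofReal h1) _)
      energy := fun k hk => (H.energy k hk).trans
        (mul_le_mul_left (ENNReal.ofReal_le_ofReal hCC) _)
      ss := fun k hk => (H.ss k hk).trans (mul_le_mul_left (ENNReal.ofReal_le_ofReal h1) _)
      rmeas := H.rmeas
      rbdd := H.rbdd
      rsupp := H.rsupp
      ren := H.ren.trans (mul_le_mul_of_nonneg_right hCC (En_nonneg g))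
      small := fun p hp1 hp2 => (H.small p hp1 hp2).trans ?_ }
  have h2 : R ^ (-(M : ℝ)) ≤ R ^ (-(M' : ℝ)) := by
    refine Real.rpow_le_rpow_of_exponent_le hR ?_
    have : (M' : ℝ) ≤ M := by exact_mod_cast hM
    linarith
  have h3 : 0 ≤ R ^ (-(M : ℝ)) := Real.rpow_nonneg (by linarith) _
  have h4 : Cn * nb * R ^ (-(M : ℝ)) ≤ Cn' * nb * R ^ (-(M' : ℝ)) :=
    mul_le_mul h1 h2 h3 ((mul_nonneg hC hnb).trans h1)
  exact mul_le_mul_of_nonneg_right h4 (Real.sqrt_nonneg _)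

theorem LevOk.mono {q A σ Cn Cn' : ℝ} {B : ℕ → ℝ} {M M' : ℕ} {h : E2 → ℝ} {g : E2 → ℂ}
    {R : ℝ} {L : Lev} (hR : 1 ≤ R) (hC : 0 ≤ Cn) (hCC : Cn ≤ Cn') (hM : M' ≤ M)
    (H : LevOk q A σ Cn B M h g R L) : LevOk q A σ Cn' B M' h g R L :=
  { H with
    dec := fun z hz => by
      obtain ⟨cls, hcls⟩ := H.dec z hz
      exact ⟨cls, DecOut.mono hR hC hCC hM hcls⟩ }

/-- **(B)** existence of the tower. -/
theorem ext_of {B : ℕ → ℝ} {q A : ℝ} (H1 : EX1P B q A) (H2 : EXP B q A) (H3 : STEPP B q A) :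
    EXT B q A := by
  obtain ⟨Cw, hCw, H3⟩ := H3
  refine ⟨Cw, Cw, by linarith, by linarith, fun γm hγ hγ2 hγ3 j0 n hj0 => ?_⟩
  have hA36 : (0 : ℝ) < max 36 A := lt_of_lt_of_le (by norm_num) (le_max_left _ _)
  refine ⟨1 / max 36 A, 2 * (j0 + n) + Cw, by positivity, ?_, ?_, ?_⟩
  · rw [div_le_one hA36]
    exact le_trans (by norm_num) (le_max_left _ _)
  · have : (0 : ℝ) ≤ j0 := Nat.cast_nonneg _
    have : (0 : ℝ) ≤ n := Nat.cast_nonneg _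
    linarith
  intro ε hε Na M0 K M hK
  set ε' : ℝ := min ε 1 with hε'
  have hε'0 : 0 < ε' := lt_min hε one_pos
  have hε'1 : ε' ≤ ε := min_le_left _ _
  have hε'2 : ε' ≤ 1 := min_le_right _ _
  obtain ⟨K0, na, 𝒜, pv, tn, Cp, hCp, hna1, hna2, hpv, h𝒜, M1, H3⟩ :=
    H3 (ε' / 2) (by positivity) Na M0 (K + 1)
  set η : ℝ := ε' / (4 * (n + 2) * (K0 + 1)) with hη
  have hη0 : 0 < η := by positivity
  obtain ⟨Ca, hCa⟩ := hna2 η hη0
  obtain ⟨Cn1, hCn1, H1⟩ := H1 η hη0 Na M0 (max M M1)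
  obtain ⟨Cn2, hCn2, H2⟩ := H2 η hη0 Na M0 (max M M1)
  set Cn : ℝ := max Cn1 Cn2 with hCn
  have hCn' : 1 ≤ Cn := hCn1.trans (le_max_left _ _)
  obtain ⟨Cs, hCs, H3⟩ := H3 (max M M1) (le_max_right _ _) Cn hCn'
  set Ca' : ℝ := max Ca 1 with hCa'
  have hCa'1 : 1 ≤ Ca' := le_max_right _ _
  set Cν : ℝ := (Cn * Ca') ^ (n + 2) with hCν
  have hCCa : 1 ≤ Cn * Ca' := one_le_mul_of_one_le_of_one_le hCn' hCa'1
  have hCν1 : 1 ≤ Cν := one_le_pow₀ hCCa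
  have hCνK : 1 ≤ Cν ^ K0 := one_le_pow₀ hCν1
  set C : ℝ := max (max (max Cn (Cν ^ 2)) (max Cp (Cs * Cν ^ K0))) (Cs ^ (1 / ε)) with hC
  have hC1 : Cn ≤ C := ((le_max_left _ _).trans (le_max_left _ _)).trans (le_max_left _ _)
  have hC2' : Cν ^ 2 ≤ C := ((le_max_right _ _).trans (le_max_left _ _)).trans (le_max_left _ _)
  have hC2 : Cν ≤ C := le_trans (by nlinarith) hC2'
  have hC3 : Cp ≤ C := ((le_max_left _ _).trans (le_max_right _ _)).trans (le_max_left _ _)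
  have hC4 : Cs * Cν ^ K0 ≤ C :=
    ((le_max_right _ _).trans (le_max_right _ _)).trans (le_max_left _ _)
  have hC5 : Cs ^ (1 / ε) ≤ C := le_max_right _ _
  have hC0 : 1 ≤ C := hCn'.trans hC1
  refine ⟨C, hC0, ?_⟩
  intro h g R D hSt dl hdl hdlc hdlR hRε hCR
  have hR1 : 1 ≤ R := hSt.R1
  have hR0 : 0 < R := by linarith
  have hdl1 : dl ≤ 1 := hdlc.trans (by
    rw [div_le_one hA36]
    exact le_trans (by norm_num) (le_max_left _ _))
  have hdl36 : dl ≤ 1 / 36 := hdlc.trans (one_div_le_one_div_of_le (by norm_num) (le_max_left _ _))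
  have hdlA : A * dl ≤ 1 := by
    rcases le_or_gt A 0 with hA | hA
    · have := mul_nonpos_of_nonpos_of_nonneg hA hdl.le
      linarith
    · calc A * dl ≤ A * (1 / max 36 A) := mul_le_mul_of_nonneg_left hdlc hA.le
        _ ≤ A * (1 / A) := mul_le_mul_of_nonneg_left
            (one_div_le_one_div_of_le hA (le_max_right _ _)) hA.le
        _ = 1 := by field_simp
  -- the radii
  have hn0 : (0 : ℝ) ≤ n := Nat.cast_nonneg _
  have hj00 : (0 : ℝ) ≤ j0 := Nat.cast_nonneg _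
  set N : ℕ := j0 + n with hN
  have hNr : (N : ℝ) = j0 + n := by rw [hN]; push_cast; ring
  have hN0 : (0 : ℝ) ≤ N := Nat.cast_nonneg _
  have hdlN : dl ^ (-(Cw + 2 * N)) ≤ R := by
    rw [hNr]
    have : (2 * ((j0 : ℝ) + n) + Cw) = Cw + 2 * (j0 + n) := by ring
    rwa [this] at hdlR
  have hrad : ∀ s : ℕ, s ≤ N → dl ^ (-Cw) ≤ R * dl ^ s ∧ R ^ (1/2 : ℝ) ≤ R * dl ^ s := by
    intro s hs
    have hsN : (s : ℝ) ≤ N := by exact_mod_cast hs
    have e1 : dl ^ s = dl ^ (s : ℝ) := (Real.rpow_natCast dl s).symm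
    constructor
    · calc dl ^ (-Cw) = dl ^ (-(Cw + s)) * dl ^ (s : ℝ) := by
            rw [← Real.rpow_add hdl]; congr 1; ring
        _ ≤ R * dl ^ (s : ℝ) := by
            refine mul_le_mul_of_nonneg_right ?_ (Real.rpow_nonneg hdl.le _)
            refine le_trans ?_ hdlN
            exact Real.rpow_le_rpow_of_exponent_ge hdl hdl1 (by linarith)
        _ = R * dl ^ s := by rw [e1]
    · have h1 : dl ^ (-(s : ℝ)) ≤ R ^ (1/2 : ℝ) := by
        have h2 : dl ^ (-(2 * s : ℝ)) ≤ R := by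
          refine le_trans ?_ hdlN
          exact Real.rpow_le_rpow_of_exponent_ge hdl hdl1 (by linarith)
        have h3 : dl ^ (-(s : ℝ)) = (dl ^ (-(2 * s : ℝ))) ^ (1/2 : ℝ) := by
          rw [← Real.rpow_mul hdl.le]; congr 1; ring
        rw [h3]
        exact Real.rpow_le_rpow (Real.rpow_nonneg hdl.le _) h2 (by norm_num)
      calc R ^ (1/2 : ℝ) = R ^ (1/2 : ℝ) * (dl ^ (-(s : ℝ)) * dl ^ (s : ℝ)) := by
            rw [← Real.rpow_add hdl]; simp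
        _ ≤ R ^ (1/2 : ℝ) * (R ^ (1/2 : ℝ) * dl ^ (s : ℝ)) := by
            refine mul_le_mul_of_nonneg_left ?_ (Real.rpow_nonneg hR0.le _)
            exact mul_le_mul_of_nonneg_right h1 (Real.rpow_nonneg hdl.le _)
        _ = R * dl ^ s := by
            rw [← mul_assoc, ← Real.rpow_add hR0, e1]; norm_num
  have hrad36 : ∀ s : ℕ, s ≤ N → 36 ≤ R * dl ^ s := by
    intro s hs
    refine le_trans ?_ (hrad s hs).1
    calc (36 : ℝ) ≤ dl⁻¹ := by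
          rw [le_inv_comm₀ (by norm_num) hdl]
          simpa using hdl36
      _ = dl ^ (-1 : ℝ) := (Real.rpow_neg_one dl).symm
      _ ≤ dl ^ (-Cw) := Real.rpow_le_rpow_of_exponent_ge hdl hdl1 (by linarith)
  -- the recursion
  set X : ℝ := Cn * R ^ η * (Ca' * R ^ η) with hX
  have hRη : 1 ≤ R ^ η := Real.one_le_rpow hR1 hη0.le
  have hX2 : 1 ≤ Ca' * R ^ η := one_le_mul_of_one_le_of_one_le hCa'1 hRη
  have hX3 : 1 ≤ Cn * R ^ η := one_le_mul_of_one_le_of_one_le hCn' hRη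
  have hX1 : 1 ≤ X := one_le_mul_of_one_le_of_one_le hX3 hX2
  set rr : ℕ → ℝ := fun s => R * dl ^ (j0 - 1 + s) with hrr
  set P : ℕ → Lev → Prop := fun s L => s ≤ n + 1 → L.r = rr s ∧
    LevOk q A (1/2) Cn B (max M M1) h g R L ∧ (L.n : ℝ) ≤ X ^ (s + 1) ∧ (L.nb : ℝ) ≤ X ^ (s + 1)
    with hP
  set Q : ℕ → Lev → Lev → Prop := fun s L L' => s + 1 ≤ n + 1 →
    Next h L L' (𝒜 h g R dl L L'.r) with hQ
  have hrr1 : ∀ s, s ≤ n + 1 → R ^ (1/2 : ℝ) ≤ rr s ∧ 36 ≤ rr s ∧ dl ^ (-Cw) ≤ rr s := by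
    intro s hs
    have : j0 - 1 + s ≤ N := by omega
    exact ⟨(hrad _ this).2, hrad36 _ this, (hrad _ this).1⟩
  have hrr2 : ∀ s, rr (s + 1) = dl * rr s := by
    intro s
    simp only [hrr]
    rw [show j0 - 1 + (s + 1) = (j0 - 1 + s) + 1 by omega, pow_succ]
    ring
  have hrr3 : ∀ s, rr s ≤ R := fun s => by
    simp only [hrr]
    exact mul_le_of_le_one_right hR0.le (pow_le_one₀ hdl.le hdl1)
  have hrr0 : ∀ s, 0 < rr s := fun s => by simp only [hrr]; positivity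
  have hbase : ∃ L0, P 0 L0 := by
    obtain ⟨L0, h1, h2, h3, h4⟩ := H1 h g R D hSt (rr 0) (hrr1 0 (by omega)).1 (hrr3 0)
    refine ⟨L0, fun _ => ⟨h1, LevOk.mono hR1 (by linarith) (le_max_left _ _) le_rfl h2, ?_, ?_⟩⟩
    · rw [zero_add, pow_one]
      calc (L0.n : ℝ) ≤ Cn1 * R ^ η := h4
        _ ≤ Cn * R ^ η := mul_le_mul_of_nonneg_right (le_max_left _ _) (by linarith)
        _ = Cn * R ^ η * 1 := (mul_one _).symm
        _ ≤ X := mul_le_mul_of_nonneg_left hX2 (by linarith)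
    · rw [h3, zero_add, pow_one]
      exact_mod_cast hX1
  obtain ⟨L0, hL0⟩ := hbase
  have : Nonempty Lev := ⟨L0⟩
  have hstep : ∀ s L, P s L → ∃ L', P (s + 1) L' ∧ Q s L L' := by
    intro s L hL
    by_cases hs : s + 1 ≤ n + 1
    · obtain ⟨hr, hok, hln, hlnb⟩ := hL (by omega)
      have hr' : rr (s + 1) ≤ L.r := by
        rw [hr, hrr2]
        exact mul_le_of_le_one_left (hrr0 s).le hdl1
      have ha := h𝒜 h g R D Cn (max M M1) hSt L dl (rr (s + 1)) hok hdl hdl1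
        (hrr1 (s + 1) hs).1 hr'
      obtain ⟨L', h1, h2, h3, h4, h5, h6⟩ := H2 h g R D hSt L Cn hok
        (by rw [hr]; exact (hrr1 s (by omega)).2.1) (rr (s + 1)) (hrr1 (s + 1) hs).1 hr' (na R)
        (𝒜 h g R dl L (rr (s + 1))) (hna1 R) ha.1 ha.2
      have hnb : (L'.nb : ℝ) ≤ X ^ (s + 1) * (Ca' * R ^ η) := by
        rw [h4]
        push_cast
        refine mul_le_mul hln ?_ (Nat.cast_nonneg _) (by positivity)
        exact (hCa R hR1).trans (mul_le_mul_of_nonneg_right (le_max_left _ _) (by linarith))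
      have hXs : 0 ≤ X ^ (s + 1) := by positivity
      refine ⟨L', fun _ => ⟨h1, LevOk.mono hR1 (by linarith) (le_max_right _ _) le_rfl h2, ?_, ?_⟩,
        fun _ => ?_⟩
      · calc (L'.n : ℝ) ≤ Cn2 * R ^ η * L'.nb := h6
          _ ≤ Cn * R ^ η * (X ^ (s + 1) * (Ca' * R ^ η)) := by
              refine mul_le_mul ?_ hnb (Nat.cast_nonneg _) (by linarith)
              exact mul_le_mul_of_nonneg_right (le_max_right _ _) (by linarith)
          _ = X ^ (s + 1 + 1) := by rw [pow_succ X (s + 1), hX]; ring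
      · calc (L'.nb : ℝ) ≤ X ^ (s + 1) * (Ca' * R ^ η) := hnb
          _ = X ^ (s + 1) * (1 * (Ca' * R ^ η)) := by ring
          _ ≤ X ^ (s + 1) * X := by
              refine mul_le_mul_of_nonneg_left ?_ hXs
              exact mul_le_mul_of_nonneg_right hX3 (by linarith)
          _ = X ^ (s + 1 + 1) := (pow_succ X (s + 1)).symm
      · rw [h1]; exact h3
    · exact ⟨L, fun h => absurd h hs, fun h => absurd h hs⟩
  choose! nx hnx using hstep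
  set Lv : ℕ → Lev := fun s => Nat.rec L0 (fun s L => nx s L) s with hLv
  have hPv : ∀ s, P s (Lv s) := by
    intro s
    induction s with
    | zero => exact hL0
    | succ s ih => exact (hnx s _ ih).1
  have hQv : ∀ s, Q s (Lv s) (Lv (s + 1)) := fun s => (hnx s _ (hPv s)).2
  -- bounds
  set ν : ℝ := X ^ (n + 2) with hν
  have hν1 : 1 ≤ ν := one_le_pow₀ hX1
  have hle : ∀ s, s ≤ n + 1 → (Lv s).Le ν := by
    intro s hs
    obtain ⟨-, -, h1, h2⟩ := hPv s hs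
    have h3 : X ^ (s + 1) ≤ ν := pow_le_pow_right₀ hX1 (by omega)
    exact ⟨h1.trans h3, h2.trans h3⟩
  have hνe : ν = Cν * R ^ (2 * (n + 2) * η) := by
    rw [hν, hX, hCν]
    have e1 : Cn * R ^ η * (Ca' * R ^ η) = (Cn * Ca') * R ^ (2 * η) := by
      rw [two_mul, Real.rpow_add hR0]; ring
    rw [e1, mul_pow, ← Real.rpow_natCast (R ^ (2 * η)) (n + 2), ← Real.rpow_mul hR0.le]
    congr 2
    push_cast
    ring
  have hηe : 2 * (n + 2) * η = ε' / (2 * (K0 + 1)) := by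
    rw [hη]
    have : (n : ℝ) + 2 ≠ 0 := by positivity
    have : (K0 : ℝ) + 1 ≠ 0 := by positivity
    field_simp
    ring
  have hK00 : (0 : ℝ) ≤ K0 := Nat.cast_nonneg _
  have hη2 : 2 * (n + 2) * η ≤ ε' / 2 := by
    rw [hηe]
    exact div_le_div_of_nonneg_left hε'0.le (by norm_num) (by linarith)
  have hη3 : 2 * (n + 2) * η * K0 ≤ ε' / 2 := by
    rw [hηe, div_mul_eq_mul_div, div_le_div_iff₀ (by positivity) (by norm_num)]
    nlinarith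
  have hνle : ν ≤ C * R ^ ε := by
    rw [hνe]
    refine mul_le_mul hC2 ?_ (Real.rpow_nonneg hR0.le _) (by linarith)
    exact Real.rpow_le_rpow_of_exponent_le hR1 (by linarith)
  have hνR : ν ≤ R := by
    have h1 : Cν ≤ R ^ (1/2 : ℝ) := by
      have h2 : Cν = (Cν ^ 2) ^ (1/2 : ℝ) := by
        rw [← Real.rpow_natCast Cν 2, ← Real.rpow_mul (by linarith)]
        norm_num
      rw [h2]
      exact Real.rpow_le_rpow (by positivity) (hC2'.trans hCR) (by norm_num)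
    have h3 : R ^ (2 * (n + 2) * η) ≤ R ^ (1/2 : ℝ) :=
      Real.rpow_le_rpow_of_exponent_le hR1 (by linarith)
    calc ν = Cν * R ^ (2 * (n + 2) * η) := hνe
      _ ≤ R ^ (1/2 : ℝ) * R ^ (1/2 : ℝ) :=
          mul_le_mul h1 h3 (Real.rpow_nonneg hR0.le _) (Real.rpow_nonneg hR0.le _)
      _ = R := by rw [← Real.rpow_add hR0]; norm_num
  have hνK : ν ^ K0 = Cν ^ K0 * R ^ (2 * (n + 2) * η * K0) := by
    rw [hνe, mul_pow, ← Real.rpow_natCast (R ^ (2 * (n + 2) * η)) K0, ← Real.rpow_mul hR0.le]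
  -- the loss of the step
  have hloss : Cs * ν ^ K0 * R ^ (ε' / 2) ≤ C * R ^ ε := by
    rw [hνK]
    calc Cs * (Cν ^ K0 * R ^ (2 * (n + 2) * η * K0)) * R ^ (ε' / 2)
        = (Cs * Cν ^ K0) * R ^ (2 * (n + 2) * η * K0 + ε' / 2) := by
          rw [Real.rpow_add hR0]; ring
      _ ≤ C * R ^ ε := by
          refine mul_le_mul hC4 ?_ (Real.rpow_nonneg hR0.le _) (by linarith)
          exact Real.rpow_le_rpow_of_exponent_le hR1 (by linarith)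
  have hSS : 0 ≤ SS g R D := by
    unfold SS
    have := En_nonneg g
    positivity
  have htiny : Cs * ν ^ K0 * R ^ (-(K + 1)) * SS g R D ≤ C * R ^ (-K) * SS g R D := by
    refine mul_le_mul_of_nonneg_right ?_ hSS
    rw [hνK]
    calc Cs * (Cν ^ K0 * R ^ (2 * (n + 2) * η * K0)) * R ^ (-(K + 1))
        = (Cs * Cν ^ K0) * R ^ (2 * (n + 2) * η * K0 + -(K + 1)) := by
          rw [Real.rpow_add hR0]; ring
      _ ≤ C * R ^ (-K) := by
          refine mul_le_mul hC4 ?_ (Real.rpow_nonneg hR0.le _) (by linarith)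
          exact Real.rpow_le_rpow_of_exponent_le hR1 (by linarith)
  -- `Cs * dl ≤ 1`
  have hRdl : R ^ ε * dl ≤ 1 := by
    calc R ^ ε * dl ≤ dl⁻¹ * dl := mul_le_mul_of_nonneg_right hRε hdl.le
      _ = 1 := inv_mul_cancel₀ hdl.ne'
  have hCsdl : Cs * dl ≤ 1 := by
    refine le_trans (mul_le_mul_of_nonneg_right ?_ hdl.le) hRdl
    calc Cs = (Cs ^ (1 / ε)) ^ ε := by
          rw [← Real.rpow_mul (by linarith)]
          rw [one_div_mul_cancel hε.ne', Real.rpow_one]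
      _ ≤ R ^ ε := Real.rpow_le_rpow (Real.rpow_nonneg (by linarith) _) (hC5.trans hCR) hε.le
  have hdlR' : dl ≤ R ^ (-(ε' / 2)) := by
    have h1 : dl ≤ R ^ (-ε) := by
      rw [Real.rpow_neg hR0.le, le_inv_comm₀ hdl (Real.rpow_pos_of_pos hR0 _)]
      exact hRε
    exact h1.trans (Real.rpow_le_rpow_of_exponent_le hR1 (by linarith))
  obtain ⟨Ht, Hs⟩ := H3
  refine ⟨fun t => Lv (t + 1), fun t k => pv R dl ((Lv (t + 1)).ac k),
    fun t k => ¬ tn R ((Lv (t + 1)).ac k) ∧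
      Good dl γm Cw (Lv (t + 1)).r ((Lv (t + 1)).s k).1 ((Lv (t + 1)).s k).2, ?_⟩
  refine
    { rad := ?_
      ok := ?_
      le := ?_
      next := ?_
      pc := ?_
      bad := ?_
      step := ?_ }
  · intro t ht
    rw [(hPv (t + 1) (by omega)).1]
    simp only [hrr]
    rw [show j0 - 1 + (t + 1) = j0 + t by omega]
  · intro t ht
    exact LevOk.mono hR1 (by linarith) hC1 (le_max_left _ _) (hPv (t + 1) (by omega)).2.1
  · intro t ht
    have := hle (t + 1) (by omega)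
    exact ⟨this.1.trans hνle, this.2.trans hνle⟩
  · intro t ht
    exact ⟨_, hQv (t + 1) (by omega)⟩
  · intro t ht k hk
    obtain ⟨h1, h2⟩ := hpv R dl ((Lv (t + 1)).ac k) hdl hdl1
    exact ⟨h1, h2.trans (mul_le_mul_of_nonneg_right hC3 (Real.rpow_nonneg hdl.le _))⟩
  · intro t ht k hk
    by_cases hg : Good dl γm Cw (Lv (t + 1)).r ((Lv (t + 1)).s k).1 ((Lv (t + 1)).s k).2
    · by_cases htn : tn R ((Lv (t + 1)).ac k)
      · right; right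
        obtain ⟨hr, hok, -⟩ := hPv (t + 1) (by omega)
        obtain ⟨hr', hok', -⟩ := hPv t (by omega)
        refine (Ht h g R D hSt dl hdl hdl1 (Lv t) (Lv (t + 1)) hok' hok (hQv t (by omega)) ?_ ?_ ν
          hν1 hνR (hle t (by omega)) (hle (t + 1) (by omega)) k hk htn).trans
          (ENNReal.ofReal_le_ofReal htiny)
        · rw [hr']; exact (hrr1 t (by omega)).2.1
        · rw [hr, hr', hrr2, ← mul_assoc]
          exact mul_le_of_le_one_left (hrr0 t).le hdlA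
      · exact Or.inl ⟨htn, hg⟩
    · exact Or.inr (Or.inl hg)
  · intro t ht k hk hg hg'
    obtain ⟨hr2, hok2, -⟩ := hPv (t + 2) (by omega)
    obtain ⟨hr1, hok1, -⟩ := hPv (t + 1) (by omega)
    obtain ⟨hr0, hok0, -⟩ := hPv t (by omega)
    have key := Hs h g R D hSt dl hdl hCsdl hdlR' (Lv t) (Lv (t + 1)) (Lv (t + 2)) hok0 hok1 hok2
      (hQv t (by omega)) (hQv (t + 1) (by omega)) (by rw [hr1, hr0, hrr2]) (by rw [hr2, hr1, hrr2])
      (by rw [hr2]; exact (hrr1 (t + 2) (by omega)).2.2) ν hν1 hνR (hle t (by omega))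
      (hle (t + 1) (by omega)) (hle (t + 2) (by omega)) k hk hg.1 hg'.1 γm hγ.le hg.2 hg'.2
    refine key.trans (add_le_add (mul_le_mul_left (ENNReal.ofReal_le_ofReal ?_) _)
      (ENNReal.ofReal_le_ofReal htiny))
    set p0 : ℝ := pv R dl ((Lv (t + 1)).ac ((Lv (t + 2)).par k)) with hp0
    set p1 : ℝ := pv R dl ((Lv (t + 2)).ac k) with hp1
    have hq0 : 0 < p0 := lt_of_lt_of_le one_pos (hpv R dl _ hdl hdl1).1
    have hq1 : 0 < p1 := lt_of_lt_of_le one_pos (hpv R dl _ hdl hdl1).1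
    have hd1 : dl ^ (-(Cw * γm)) * dl ^ (1/2 : ℝ) ≤ 1 := by
      rw [← Real.rpow_add hdl]
      exact Real.rpow_le_one hdl.le hdl1 (by linarith)
    have hd2 : 0 ≤ dl ^ (-(Cw * γm)) := Real.rpow_nonneg hdl.le _
    have hpp : 0 ≤ (p0 / p1) ^ (1/2 : ℝ) := Real.rpow_nonneg (by positivity) _
    calc Cs * ν ^ K0 * R ^ (ε' / 2) * dl ^ (-(Cw * γm)) * ((p0 / p1) ^ (1/2 : ℝ) + dl ^ (1/2 : ℝ))
        = (Cs * ν ^ K0 * R ^ (ε' / 2)) * (dl ^ (-(Cw * γm)) * (p0 / p1) ^ (1/2 : ℝ) +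
            dl ^ (-(Cw * γm)) * dl ^ (1/2 : ℝ)) := by ring
      _ ≤ (C * R ^ ε) * (dl ^ (-(Cw * γm)) * (p0 / p1) ^ (1/2 : ℝ) + 1) := by
          refine mul_le_mul hloss (by linarith) ?_ (by positivity)
          exact add_nonneg (mul_nonneg hd2 hpp) (mul_nonneg hd2 (Real.rpow_nonneg hdl.le _))

end Crest.Agent.R138.ExtB628
end

-- ▼ part R138/Wpk14_685
section

/-!
# R138 / R139: selectable wave packets, part 14 (helper685): the decomposition DECc holds.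
-/

set_option autoImplicit false
set_option linter.unusedSectionVars false
set_option linter.unusedVariables false

open MeasureTheory FourierTransform
open scoped ContDiff ENNReal

namespace Crest.Agent.R138.Wpk685

open Crest.Agent.R138.Defs Crest.Agent.R138.W188

theorem small_caseM {B : ℕ → ℝ} {q : ℝ} {A : ℝ} {Na : ℕ} {M0 : ℝ} {M : ℕ} {C5 : ℝ} (hC5 : 0 ≤ C5)
    (H5 : ∀ (h : E2 → ℝ) (F : E2 → ℂ), MemLp F 2 → (∀ ξ, 2 < ‖ξ‖ → F ξ = 0) →
      ∀ (x : E2) (t : ℝ), ‖ext h F x t‖ ≤ C5 * Real.sqrt (En F))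
    {C ε : ℝ} (hε : 0 < ε) (hC1 : 1 ≤ C) (hC2 : C5 * 1296 ^ M ≤ C) {R r : ℝ} (hR : 1 ≤ R)
    (hRr : R ^ (1/2 : ℝ) ≤ r) (hr36 : r < 36) {nb : ℕ} (hnb : 1 ≤ nb) :
    ∃ (Λ : Finset ℕ) (s : ℕ → ℝ × ℝ) (cl : ℕ → ℕ), (Λ.card : ℝ) ≤ C * R ^ ε * nb ∧
    (∀ k ∈ Λ, Sd r (s k).1 (s k).2) ∧ (∀ k ∈ Λ, cl k < nb) ∧
    ∀ σ h g D, σ ≤ 3/2 → St B q Na M0 σ h g R D → ∀ z ∈ cyl R,
      ∀ cls : OrthonormalBasis (Fin 2) ℝ E2 → ℤ × ℤ → E2 → ℕ,
        (∀ b m, Measurable (cls b m)) → (∀ b m y, cls b m y < nb) →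
        ∃ (G : ℕ → E2 → ℂ) (D' : ℕ → ℝ) (rest : E2 → ℂ) (I : ℕ → Finset ℕ) (P : ℕ → ℕ → Plate),
          DecOut q A σ C B nb M h g R r z cls Λ s cl G D' rest I P := by
  have hR0 : 0 < R := by linarith
  have hRe : 1 ≤ R ^ ε := Real.one_le_rpow hR hε.le
  have hC0 : 0 ≤ C := by linarith
  have hR1296 : R < 1296 := by
    have h1 : R = (R ^ (1/2 : ℝ)) ^ 2 := by
      rw [← Real.rpow_natCast, ← Real.rpow_mul hR0.le]; norm_num
    rw [h1]
    have h2 : 0 ≤ R ^ (1/2 : ℝ) := by positivity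
    nlinarith
  have hnb' : (1:ℝ) ≤ nb := by exact_mod_cast hnb
  refine ⟨∅, fun _ => (1, 1), fun _ => 0, by simp; positivity, by simp, by simp, ?_⟩
  intro σ h g D hσ hSt z hz cls _ _
  have hhc : Continuous h := hSt.par.1.continuous
  have htm : Measurable (tr h z g) := by
    unfold tr
    exact hSt.meas.mul (phase_cont hhc z.1 z.2).measurable
  obtain ⟨L, hL⟩ := hSt.bdd
  have htb : ∀ ξ, ‖tr h z g ξ‖ ≤ L := fun ξ => by rw [norm_tr']; exact hL ξ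
  have hts : ∀ ξ, 2 < ‖ξ‖ → tr h z g ξ = 0 := fun ξ hξ => by
    unfold tr; rw [hSt.supp ξ (by linarith), zero_mul]
  refine ⟨fun _ _ => 0, fun _ => 0, tr h z g, fun _ => ∅, fun _ _ =>
    ⟨0, 0, EuclideanSpace.basisFun (Fin 2) ℝ, 0, fun _ => ∅⟩, ?_⟩
  refine { sum := by simp, eq := by simp, st := by simp, sub := by simp, dens := by simp,
           bd := by simp, cp := by simp, disj := by simp, pl := by simp, cls := by simp,
           dense := by simp, energy := by simp, ss := by simp, rmeas := htm, rbdd := ⟨L, htb⟩,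
           rsupp := hts, ren := ?_, small := ?_ }
  · rw [En_tr']
    have := En_nn g
    nlinarith
  · intro p _ _
    refine (H5 h _ (int_of_bdd htm htb hts).2 hts p.1 p.2).trans ?_
    rw [En_tr']
    have h1 : C5 ≤ C * R ^ (-(M : ℝ)) := by
      rw [Real.rpow_neg hR0.le, Real.rpow_natCast, ← div_eq_mul_inv, le_div_iff₀ (by positivity)]
      refine le_trans ?_ hC2
      gcongr
    have h2 : C * R ^ (-(M : ℝ)) ≤ C * nb * R ^ (-(M : ℝ)) := by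
      have h3 : 0 ≤ R ^ (-(M : ℝ)) := by positivity
      have h4 : C ≤ C * nb := le_mul_of_one_le_right hC0 hnb'
      gcongr
    have h5 := h1.trans h2
    gcongr

set_option maxHeartbeats 2000000 in
theorem big_caseM {B : ℕ → ℝ} {q : ℝ} (hq : 0 ≤ q) {A : ℝ} {Na : ℕ} {M0 : ℝ} {M : ℕ}
    {C1 C2 C3 C4 C5 C6 : ℝ}
    (hC1 : 0 ≤ C1) (hC2 : 0 ≤ C2) (hC3 : 0 ≤ C3) (hC4 : 0 ≤ C4) (hC5 : 0 ≤ C5) (hC6 : 0 ≤ C6)
    (H1 : ∀ h, ParB B h → ∀ r : ℝ, 1 ≤ r → ∀ g : E2 → ℂ, Integrable g →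
      (∀ ξ, 2 < ‖ξ‖ → g ξ = 0) →
      ∀ S : ℤ × ℤ → Set E2, Bs (r ^ (-(1/2) : ℝ)) S → ∀ Δ : ℝ, 0 ≤ Δ → Dens q h r g S Δ →
      W188.PBox q 6 h (sel (r ^ (-(1/2) : ℝ)) g S) r (C1 * Δ))
    (H2 : ∀ ρ : ℝ, 0 < ρ → ρ ≤ 1 → ∀ g : E2 → ℂ, Integrable g → ∀ S : ℤ × ℤ → Set E2, Bs ρ S →
      ∫⁻ ξ, ‖sel ρ g S ξ‖ₑ ^ 2 ≤ ENNReal.ofReal C2 * en ρ g S)
    (H3 : ∀ ρ : ℝ, 0 < ρ → ρ ≤ 1 → ∀ g : E2 → ℂ,
      Integrable g → MemLp g 2 → ∀ S : ℤ × ℤ → Set E2,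
      en ρ g S ≤ ENNReal.ofReal C3 * ∫⁻ ξ, ‖g ξ‖ₑ ^ 2)
    (H4 : ∀ h, ParB B h → fderiv ℝ h 0 = 0 → ∀ r : ℝ, 1 ≤ r → ∀ g : E2 → ℂ, Integrable g →
      MemLp g 2 → (∀ ξ, 2 < ‖ξ‖ → g ξ = 0) → ∀ S : ℤ × ℤ → Set E2, Bs (r ^ (-(1/2) : ℝ)) S →
      (∀ m ∈ caps (r ^ (-(1/2) : ℝ)),
        Metric.closedBall 0 ((1 + 8 + 4 * 8 * (1 + |B 2|)) * r) ⊆ S m) →
      ∀ (x : E2) (t : ℝ), ‖x‖ ≤ 8 * r → |t| ≤ 8 * r →
      ‖ext h g x t - ext h (sel (r ^ (-(1/2) : ℝ)) g S) x t‖ₑ ^ 2 ≤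
        ENNReal.ofReal (C4 * (r ^ (2 * (2 * M)))⁻¹) * ∫⁻ ξ, ‖g ξ‖ₑ ^ 2)
    (H5 : ∀ (h : E2 → ℝ) (F : E2 → ℂ), MemLp F 2 → (∀ ξ, 2 < ‖ξ‖ → F ξ = 0) →
      ∀ (x : E2) (t : ℝ), ‖ext h F x t‖ ≤ C5 * Real.sqrt (En F))
    {ε : ℝ} (hε : 0 < ε)
    (H6 : ∀ R : ℝ, 1 ≤ R → ((Lam ⌈Real.logb 2 R⌉₊
      ((2 * M + ⌈q / 2⌉₊ + 2) * ⌈Real.logb 2 R⌉₊)).card : ℝ) ≤ C6 * R ^ ε)
    {K N7 Cp : ℝ} (hK : K = 1 + 8 + 4 * 8 * (1 + |B 2|))
    (hN7 : N7 = NB (B 2) K) (hCp : Cp = (C1 + 1) * 2 ^ (q + 2) + C2 * N7)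
    (hA : K + 3 ≤ A)
    {C : ℝ} (hCC6 : C6 ≤ C) (hCC1 : 2 * Cp ≤ C) (hCCe : C2 ≤ C)
    (hCC2 : C2 * Real.sqrt Cp * Real.sqrt 2 ≤ C)
    (hCC3 : 2 + 2 * (C2 * C3) ≤ C)
    (hCC4 : Real.sqrt C4 + C5 * Real.sqrt (C2 * (N7 * C3)) ≤ C)
    {R r : ℝ} (hR : 1 ≤ R) (hRr : R ^ (1/2 : ℝ) ≤ r) (hrR : r ≤ R) (hr36 : 36 ≤ r)
    {nb : ℕ} (hnb : 1 ≤ nb) :
    ∃ (Λ : Finset ℕ) (s : ℕ → ℝ × ℝ) (cl : ℕ → ℕ), (Λ.card : ℝ) ≤ C * R ^ ε * nb ∧
    (∀ k ∈ Λ, Sd r (s k).1 (s k).2) ∧ (∀ k ∈ Λ, cl k < nb) ∧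
    ∀ σ h g D, σ ≤ 3/2 → St B q Na M0 σ h g R D → ∀ z ∈ cyl R,
      ∀ cls : OrthonormalBasis (Fin 2) ℝ E2 → ℤ × ℤ → E2 → ℕ,
        (∀ b m, Measurable (cls b m)) → (∀ b m y, cls b m y < nb) →
        ∃ (G : ℕ → E2 → ℂ) (D' : ℕ → ℝ) (rest : E2 → ℂ) (I : ℕ → Finset ℕ) (P : ℕ → ℕ → Plate),
          DecOut q A σ C B nb M h g R r z cls Λ s cl G D' rest I P := by
  classical
  have hR0 : 0 < R := by linarith
  have hr1 : 1 ≤ r := by linarith
  have hr0 : 0 < r := by linarith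
  have hRe : 1 ≤ R ^ ε := Real.one_le_rpow hR hε.le
  have hC0 : 0 ≤ C := hC6.trans hCC6
  have hB2 : 0 ≤ |B 2| := abs_nonneg _
  have hK1 : 1 ≤ K := by rw [hK]; linarith
  have hK0 : 0 ≤ K := by linarith
  have hN70 : 0 ≤ N7 := by rw [hN7]; positivity
  have hCp0 : 0 ≤ Cp := by rw [hCp]; positivity
  have hnb' : (1:ℝ) ≤ nb := by exact_mod_cast hnb
  have hnb0 : (0:ℝ) < nb := by linarith
  have hsnb : Real.sqrt nb ≤ nb := by
    rw [Real.sqrt_le_left hnb0.le]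
    exact le_self_pow₀ hnb' two_ne_zero
  obtain ⟨hρ, hρ1, hρ2⟩ := rp_facts hr1
  have hρ6 : r ^ (-(1/2) : ℝ) ≤ 1 / 6 := by
    refine le_of_sq_le_sq ?_ (by norm_num)
    rw [hρ2]
    rw [inv_eq_one_div, div_le_iff₀ hr0]
    linarith
  obtain ⟨ρ, hρe⟩ : ∃ ρ : ℝ, ρ = r ^ (-(1/2) : ℝ) := ⟨_, rfl⟩
  rw [← hρe] at hρ hρ1 hρ2 hρ6
  set n : ℕ := ⌈Real.logb 2 R⌉₊ with hn
  have hRn : R ≤ 2 ^ n := two_pow_logb hR
  have hnρ : 1 ≤ 2 ^ n * ρ := by
    have h1 : 1 ≤ r * ρ := by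
      refine le_of_sq_le_sq ?_ (by positivity)
      rw [mul_pow, hρ2]
      have : r ^ 2 * r⁻¹ = r := by field_simp
      rw [this]; linarith
    calc (1:ℝ) ≤ r * ρ := h1
      _ ≤ 2 ^ n * ρ := by
        have := hrR.trans hRn
        gcongr
  set T : ℕ := 2 * M + ⌈q / 2⌉₊ + 2 with hT
  set J : ℕ := T * n with hJ
  have hJR : R ^ T ≤ 2 ^ J := by
    rw [hJ, mul_comm, pow_mul]
    gcongr
  refine ⟨LamC n J nb, fun k => (sg ρ (la0 (k1 k)), sg ρ (la1 (k1 k))), k2, ?_, ?_, ?_, ?_⟩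
  · have h1 : ((LamC n J nb).card : ℝ) ≤ ((Lam n J).card : ℝ) * nb := by
      exact_mod_cast card_LamC n J nb
    refine h1.trans ?_
    have h2 := H6 R hR
    gcongr
    exact h2.trans (by gcongr)
  · intro k hk
    rw [mem_LamC, mem_Lam] at hk
    refine ⟨?_, sg_mono hρ hk.1.1, sg_le_one _ _⟩
    rw [← hρe]
    exact sg_ge hρ hρ1 _
  · intro k hk
    exact (mem_LamC.1 hk).2
  intro σ h g D hσ hSt z hz cls hcm hcb
  have hhc : Continuous h := hSt.par.1.continuous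
  obtain ⟨g', hg'⟩ : ∃ g', g' = tr h z g := ⟨_, rfl⟩
  have htm : Measurable g' := by
    rw [hg']
    unfold tr
    exact hSt.meas.mul (phase_cont hhc z.1 z.2).measurable
  obtain ⟨L, hL⟩ := hSt.bdd
  have htb : ∀ ξ, ‖g' ξ‖ ≤ L := fun ξ => by rw [hg', norm_tr']; exact hL ξ
  have hts' : ∀ ξ, σ < ‖ξ‖ → g' ξ = 0 := fun ξ hξ => by
    rw [hg']; unfold tr; rw [hSt.supp ξ hξ, zero_mul]
  have hts : ∀ ξ, 2 < ‖ξ‖ → g' ξ = 0 := fun ξ hξ => hts' ξ (by linarith)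
  have hEn : En g' = En g := by rw [hg', En_tr']
  obtain ⟨hgi, hg2⟩ := int_of_bdd htm htb hts
  -- phase space
  set X0 : Set Ph := {w | w.1 ∈ caps ρ ∧ ‖w.2‖ ≤ K * r} with hX0
  have hX0m : MeasurableSet X0 := by
    refine meas_of_sli fun m => ?_
    by_cases hm : m ∈ caps ρ
    · have : sli X0 m = Metric.closedBall 0 (K * r) := by
        ext y
        rw [mem_sli, hX0, Metric.mem_closedBall, dist_zero_right]
        exact and_iff_right hm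
      rw [this]
      exact Metric.isClosed_closedBall.measurableSet
    · have : sli X0 m = ∅ := by
        ext y
        rw [mem_sli, hX0]
        simp [hm]
      rw [this]
      exact MeasurableSet.empty
  obtain ⟨E0, hE0⟩ : ∃ E0 : ℝ, E0 = C3 * En g' := ⟨_, rfl⟩
  have hE00 : 0 ≤ E0 := by rw [hE0]; exact mul_nonneg hC3 (En_nn g')
  have hmu0 : mu ρ g' X0 ≤ ENNReal.ofReal E0 := by
    rw [mu_apply _ _ hX0m, hE0, ENNReal.ofReal_mul hC3, ← lintEn hg2]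
    exact H3 ρ hρ hρ1 g' hgi hg2 _
  obtain ⟨X, nn, P, κ, Ac, hXz, hXm, hAc, hdis, hXs, hDD⟩ :
      ∃ (X : ℕ → Set Ph) (nn : ℕ → ℕ) (P : ℕ → ℕ → Tst) (κ : ℕ → ℕ → ℕ) (A : ℕ → ℕ → Set Ph),
      X 0 = X0 ∧ (∀ j, MeasurableSet (X j)) ∧
      (∀ j, ∀ i < nn j, MeasurableSet (A j i) ∧ A j i ⊆ X j ∧ (P j i).a 0 ≤ (P j i).a 1 ∧
        (P j i).a 1 ≤ n ∧ κ j i < nb ∧ A j i ⊆ TT h r cls (P j i, κ j i) ∧
        ENNReal.ofReal (E0 * r ^ (q / 2) / 2 ^ (j + 1) * cst q ρ r (P j i).a) <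
          mu ρ g' (A j i)) ∧
      (∀ j, ∀ i < nn j, ∀ i' < nn j, i ≠ i' → Disjoint (A j i) (A j i')) ∧
      (∀ j, ∀ x, x ∈ X (j + 1) ↔ x ∈ X j ∧ ∀ i < nn j, x ∉ A j i) ∧
      ∀ j, ∀ p : Tst, p.a 0 ≤ p.a 1 → p.a 1 ≤ n → ∀ β < nb,
        mu ρ g' (X j ∩ TT h r cls (p, β)) ≤
          ENNReal.ofReal (E0 * r ^ (q / 2) / 2 ^ j * cst q ρ r p.a) := by
    have h0 := greedyM hq hr1 (h := h) (g := g') n nb hcm hX0m hE00 (by rw [← hρe]; exact hmu0)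
    rw [← hρe] at h0
    exact h0
  set Δ0 : ℝ := E0 * r ^ (q / 2) with hΔ0
  have hrq : 0 < r ^ (q / 2) := Real.rpow_pos_of_pos hr0 _
  have hΔ00 : 0 ≤ Δ0 := mul_nonneg hE00 hrq.le
  have hΔj : ∀ j : ℕ, 0 ≤ Δ0 / 2 ^ j := fun j => by positivity
  have hAX : ∀ j, ∀ i < nn j, Ac j i ⊆ X j := fun j i hi => (hAc j i hi).2.1
  have hAm : ∀ j, ∀ i < nn j, MeasurableSet (Ac j i) := fun j i hi => (hAc j i hi).1
  have hXX0 : ∀ j, X j ⊆ X0 := fun j => by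
    rw [← hXz]; exact X_antiM hXs (Nat.zero_le j)
  have hDE : ∀ j, DE q h r g' n (sli (X j)) (nb * (Δ0 / 2 ^ j)) := fun j =>
    de_of hq hr1 hcb (hXm j) (hΔj j) (by rw [← hρe]; exact hDD j)
  -- bounded selections
  have hBs' : ∀ S : ℤ × ℤ → Set E2, (∀ m ∈ caps ρ, MeasurableSet (S m)) →
      (∀ m ∈ caps ρ, S m ⊆ sli X0 m) → Bs ρ S := fun S h1 h2 =>
    ⟨h1, fun m hm => (Metric.isBounded_closedBall (x := (0:E2)) (r := K * r)).subset fun y hy => by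
      rw [Metric.mem_closedBall, dist_zero_right]
      exact (h2 m hm hy).2⟩
  have hBs : ∀ U : Set Ph, MeasurableSet U → U ⊆ X0 → Bs ρ (sli U) := fun U h1 h2 =>
    hBs' _ (fun m _ => sli_meas h1 m) (fun m _ y hy => h2 hy)
  set Y : Set Ph := X 0 \ X J with hY
  have hYm : MeasurableSet Y := (hXm 0).diff (hXm J)
  have hYX : Y ⊆ X0 := fun w hw => by rw [← hXz]; exact hw.1
  -- energies
  have hselEn : ∀ S : ℤ × ℤ → Set E2, Bs ρ S →
      ENNReal.ofReal (En (sel ρ g' S)) ≤ ENNReal.ofReal C2 * en ρ g' S := by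
    intro S hS
    rw [← lintEn (sel_int hρ hgi hS).2]
    exact H2 ρ hρ hρ1 g' hgi _ hS
  have hselEn' : ∀ S : ℤ × ℤ → Set E2, Bs ρ S → En (sel ρ g' S) ≤ C2 * C3 * En g' := by
    intro S hS
    have h1 := hselEn S hS
    have h2 := H3 ρ hρ hρ1 g' hgi hg2 S
    rw [lintEn hg2] at h2
    have h3 : ENNReal.ofReal (En (sel ρ g' S)) ≤ ENNReal.ofReal (C2 * C3 * En g') := by
      rw [mul_assoc, ENNReal.ofReal_mul hC2, ENNReal.ofReal_mul hC3]
      exact h1.trans (by gcongr)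
    rwa [ENNReal.ofReal_le_ofReal_iff (mul_nonneg (mul_nonneg hC2 hC3) (En_nn g'))] at h3
  have hselD : ∀ (S : ℤ × ℤ → Set E2) (j : ℕ), Bs ρ S → (∀ m ∈ caps ρ, S m ⊆ sli (X j) m) →
      En (sel ρ g' S) ≤ C2 * (N7 * (nb * (Δ0 / 2 ^ j) * r ^ 2)) := by
    intro S j hS hSj
    have h1 := hselEn S hS
    have h2 : en ρ g' S ≤ ENNReal.ofReal (N7 * (nb * (Δ0 / 2 ^ j) * r ^ 2)) := by
      rw [hρe, hN7]
      refine tot_leM B hSt.par hSt.h1 hr1 (n := n) (by rw [← hρe]; exact hnρ) hK1 ?_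
        (mul_nonneg hnb0.le (hΔj j)) (q := q) ?_
      · intro m hm y hy
        rw [← hρe] at hm
        exact (hXX0 j (hSj m hm hy)).2
      · exact (hDE j).mono (by rw [← hρe]; exact hSj)
    have h3 : ENNReal.ofReal (En (sel ρ g' S)) ≤
        ENNReal.ofReal (C2 * (N7 * (nb * (Δ0 / 2 ^ j) * r ^ 2))) := by
      rw [ENNReal.ofReal_mul hC2]
      exact h1.trans (by gcongr)
    have := hΔj j
    rwa [ENNReal.ofReal_le_ofReal_iff (by positivity)] at h3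
  have hsupp : ∀ (S : ℤ × ℤ → Set E2) (ξ : E2), σ + 3 * ρ < ‖ξ‖ → sel ρ g' S ξ = 0 := by
    intro S ξ hξ
    exact sel_supp hρ hts' ξ hξ
  -- the selections of a label
  obtain ⟨Pl, hPl⟩ : ∃ Pl : ℕ → ℕ → Plate, Pl = fun k i =>
    ⟨z, (P (lj (k1 k)) i).c, (P (lj (k1 k)) i).b, (P (lj (k1 k)) i).y, sli (Ac (lj (k1 k)) i)⟩ :=
    ⟨_, rfl⟩
  have hPS : ∀ k i, (Pl k i).S = sli (Ac (lj (k1 k)) i) := fun k i => by rw [hPl]
  set I : ℕ → Finset ℕ := fun k => IIM nn P κ k with hI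
  have hU : ∀ k, uS (I k) (Pl k) = sli (XM nn P κ Ac k) := by
    intro k
    funext m
    ext y
    unfold uS
    simp only [Set.mem_iUnion, exists_prop, hPS, mem_sli]
    exact mem_XM.symm
  have hXMm : ∀ k, MeasurableSet (XM nn P κ Ac k) := fun k =>
    Finset.measurableSet_biUnion _ fun i hi => hAm _ i (mem_IIM.1 hi).1
  have hXMs : ∀ k, XM nn P κ Ac k ⊆ X (lj (k1 k)) := fun k => XM_sub hAX k
  have hXM0 : ∀ k, XM nn P κ Ac k ⊆ X0 := fun k => (hXMs k).trans (hXX0 _)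
  have hBsk : ∀ k, Bs ρ (uS (I k) (Pl k)) := fun k => by
    rw [hU]; exact hBs _ (hXMm k) (hXM0 k)
  have hSub : ∀ k, ∀ S' : ℤ × ℤ → Set E2, (∀ m, MeasurableSet (S' m)) →
      (∀ m, S' m ⊆ uS (I k) (Pl k) m) → Bs ρ S' ∧ DE q h r g' n S' (nb * (Δ0 / 2 ^ (lj (k1 k)))) := by
    intro k S' h1 h2
    have h3 : ∀ m, S' m ⊆ sli (XM nn P κ Ac k) m := fun m => by rw [← hU]; exact h2 m
    exact ⟨hBs' S' (fun m _ => h1 m) (fun m _ y hy => hXM0 k (h3 m hy)),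
      (hDE _).mono fun m _ y hy => hXMs k (h3 m hy)⟩
  have hUm : ∀ k m, MeasurableSet (uS (I k) (Pl k) m) := fun k m => by
    rw [hU]; exact sli_meas (hXMm k) m
  -- density bounds
  obtain ⟨Dk, hDk⟩ : ∃ Dk : ℕ → ℝ, Dk = fun k => Cp * (nb * (Δ0 / 2 ^ lj (k1 k))) := ⟨_, rfl⟩
  have hDk0 : ∀ k, 0 ≤ Dk k := fun k => by
    rw [hDk]; exact mul_nonneg hCp0 (mul_nonneg hnb0.le (hΔj _))
  have hsubDens : ∀ k, ∀ S' : ℤ × ℤ → Set E2, (∀ m, MeasurableSet (S' m)) →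
      (∀ m, S' m ⊆ uS (I k) (Pl k) m) →
      Dens q h r g' S' (2 ^ (q + 2) * (nb * (Δ0 / 2 ^ lj (k1 k)))) := by
    intro k S' h1 h2
    exact dens_of_de hq hr1 (n := n) (by rw [← hρe]; exact hnρ) (mul_nonneg hnb0.le (hΔj _))
      (hSub k S' h1 h2).2
  have hsubPB : ∀ k, ∀ S' : ℤ × ℤ → Set E2, (∀ m, MeasurableSet (S' m)) →
      (∀ m, S' m ⊆ uS (I k) (Pl k) m) → PBox q 6 h (sel ρ g' S') r (Dk k) := by
    intro k S' h1 h2
    have h3 := H1 h hSt.par r hr1 g' hgi hts S' (by rw [← hρe]; exact (hSub k S' h1 h2).1)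
      (2 ^ (q + 2) * (nb * (Δ0 / 2 ^ lj (k1 k))))
      (by have := hΔj (lj (k1 k)); positivity) (hsubDens k S' h1 h2)
    rw [← hρe] at h3
    refine PBox_mono hr1 h3 ?_
    have h4 : 0 ≤ nb * (Δ0 / 2 ^ lj (k1 k)) := mul_nonneg hnb0.le (hΔj _)
    have h5 : C1 * 2 ^ (q + 2) ≤ Cp := by
      rw [hCp]
      have h7 : (0:ℝ) ≤ 2 ^ (q + 2) := by positivity
      have h6 : 0 ≤ C2 * N7 := mul_nonneg hC2 hN70
      have h8 : C1 * 2 ^ (q + 2) ≤ (C1 + 1) * 2 ^ (q + 2) :=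
        mul_le_mul_of_nonneg_right (le_add_of_nonneg_right zero_le_one) h7
      exact h8.trans (le_add_of_nonneg_right h6)
    rw [hDk]
    calc C1 * (2 ^ (q + 2) * (nb * (Δ0 / 2 ^ lj (k1 k)))) =
          (C1 * 2 ^ (q + 2)) * (nb * (Δ0 / 2 ^ lj (k1 k))) := by ring
      _ ≤ Cp * (nb * (Δ0 / 2 ^ lj (k1 k))) := by gcongr
  -- decompositions
  have hsum1 : ∀ ξ, sel ρ g' (sli Y) ξ = ∑ k ∈ LamC n J nb, sel ρ g' (uS (I k) (Pl k)) ξ := by
    intro ξ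
    refine sel_sumM hgi (LamC n J nb) (fun k => uS (I k) (Pl k)) (sli Y) (fun k _ => hBsk k)
      ?_ ?_ ξ
    · intro k _ k' _ hne m _
      simp only [hU]
      have := XM_disj (P := P) (κ := κ) hAX hdis hXs hne
      rw [Set.disjoint_left] at this ⊢
      exact fun y hy hy' => this hy hy'
    · intro m _ y
      simp only [hU, mem_sli]
      exact XM_union hAX hXs (fun j i hi => ⟨(hAc j i hi).2.2.1, (hAc j i hi).2.2.2.1,
        (hAc j i hi).2.2.2.2.1⟩) (m, y)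
  have hsubJ : X J ⊆ X 0 := X_antiM hXs (Nat.zero_le J)
  have hsum2 : ∀ ξ, sel ρ g' (sli X0) ξ = sel ρ g' (sli Y) ξ + sel ρ g' (sli (X J)) ξ := by
    intro ξ
    have h1 := sel_sumM (ρ := ρ) hgi (Finset.univ : Finset Bool)
      (fun b => if b then sli Y else sli (X J)) (sli X0) ?_ ?_ ?_ ξ
    · rw [Fintype.sum_bool] at h1
      simpa using h1
    · intro b _
      cases b
      · simpa using hBs (X J) (hXm J) (hXX0 J)
      · simpa using hBs Y hYm hYX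
    · intro b _ b' _ hne m _
      have hd : Disjoint (sli Y m) (sli (X J) m) := Set.disjoint_left.2 fun y hy hy' => hy.2 hy'
      cases b <;> cases b' <;> simp at hne ⊢
      · exact hd.symm
      · exact hd
    · intro m _ y
      constructor
      · intro hx
        by_cases h2 : (m, y) ∈ X J
        · refine ⟨false, Finset.mem_univ _, ?_⟩
          simp only [Bool.false_eq_true, if_false]
          exact h2
        · refine ⟨true, Finset.mem_univ _, ?_⟩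
          simp only [if_true]
          exact ⟨by rw [hXz]; exact hx, h2⟩
      · rintro ⟨b, _, hb⟩
        cases b
        · simp only [Bool.false_eq_true, if_false] at hb
          exact hXX0 J hb
        · simp only [if_true] at hb
          exact hYX hb
  obtain ⟨LY, hLY⟩ := sel_bdd hρ hgi (hBs Y hYm hYX)
  have hmem : ∀ k, ∀ i ∈ I k, i < nn (lj (k1 k)) ∧ (P (lj (k1 k)) i).a 0 = la0 (k1 k) ∧
      (P (lj (k1 k)) i).a 1 = la1 (k1 k) ∧ κ (lj (k1 k)) i = k2 k := fun k i hi => mem_IIM.1 hi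
  have hDkn : ∀ k, ∀ i ∈ I k, ENNReal.ofReal (Δ0 / 2 ^ lj (k1 k) / 2 *
      ((sg ρ (la1 (k1 k))) ^ q * (sg ρ (la0 (k1 k)) * sg ρ (la1 (k1 k)) * r ^ 2))) ≤
      en ρ g' (Pl k i).S := by
    intro k i hi
    obtain ⟨hi1, hi2, hi3, hi4⟩ := hmem k i hi
    have h1 := (hAc _ i hi1).2.2.2.2.2.2
    rw [hPS, ← mu_apply _ _ (hAm _ i hi1)]
    refine le_trans (le_of_eq ?_) h1.le
    unfold cst
    rw [hi2, hi3, pow_succ]
    congr 2
    ring
  have hs1 : ∀ k, 0 < sg ρ (la0 (k1 k)) := fun k => hρ.trans_le (sg_ge hρ hρ1 _)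
  have hs2 : ∀ k, 0 < sg ρ (la1 (k1 k)) := fun k => hρ.trans_le (sg_ge hρ hρ1 _)
  have hensum : ∀ k, en ρ g' (uS (I k) (Pl k)) = ∑ i ∈ I k, en ρ g' (Pl k i).S := by
    intro k
    refine en_biUnion (I k) (fun i => (Pl k i).S) ?_ ?_
    · intro i hi m _
      rw [hPS]
      exact sli_meas (hAm _ i (hmem k i hi).1) m
    · intro i hi j hj hij m _
      rw [hPS, hPS]
      have := hdis _ i (hmem k i hi).1 j (hmem k j hj).1 hij
      rw [Set.disjoint_left] at this ⊢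
      exact fun y hy hy' => this hy hy'
  refine ⟨fun k => sel ρ g' (uS (I k) (Pl k)), Dk, fun ξ => g' ξ - sel ρ g' (sli Y) ξ, I, Pl, ?_⟩
  refine { sum := ?_, eq := ?_, st := ?_, sub := ?_, dens := ?_, bd := ?_, cp := ?_, disj := ?_,
           pl := ?_, cls := ?_, dense := ?_, energy := ?_, ss := ?_, rmeas := ?_, rbdd := ?_,
           rsupp := ?_, ren := ?_, small := ?_ }
  · intro ξ
    rw [← hg', ← hsum1]
    ring
  · intro k _
    rw [← hρe, ← hg']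
  · -- states
    intro k hk
    obtain ⟨Lk, hLk⟩ := sel_bdd hρ hgi (hBsk k)
    refine ⟨hSt.par, hSt.h0, hSt.h1, (sel_cont hgi (hBsk k)).measurable, ⟨Lk, hLk⟩, ?_, hr1,
      hDk0 k, hsubPB k _ (hUm k) (fun m => Set.Subset.refl _), ?_⟩
    · rw [← hρe]; exact hsupp _
    · refine (hselD _ (lj (k1 k)) (hBsk k) (fun m _ => by
        rw [hU]; exact fun y hy => hXMs k hy)).trans ?_
      have h3 := hΔj (lj (k1 k))
      have h4 : r ^ (4 : ℝ) = r ^ 4 := by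
        rw [← Real.rpow_natCast]; norm_num
      rw [h4, hDk]
      have h5 : r ^ 2 ≤ r ^ 4 := pow_le_pow_right₀ hr1 (by norm_num)
      have h6 : C2 * N7 ≤ Cp := by
        rw [hCp]
        have : 0 ≤ (C1 + 1) * 2 ^ (q + 2) := by positivity
        linarith
      calc C2 * (N7 * (nb * (Δ0 / 2 ^ lj (k1 k)) * r ^ 2)) =
            r ^ 2 * ((C2 * N7) * (nb * (Δ0 / 2 ^ lj (k1 k)))) := by ring
        _ ≤ r ^ 4 * (Cp * (nb * (Δ0 / 2 ^ lj (k1 k)))) := by gcongr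
  · intro k hk S' h1 h2
    rw [← hρe, ← hg']
    exact hsubPB k S' h1 h2
  · -- densities
    intro k hk c b s y0 hs
    rw [← hg']
    refine (hsubDens k _ (hUm k) (fun m => Set.Subset.refl _) c b s y0 hs).trans
      (ENNReal.ofReal_le_ofReal ?_)
    have h3 := hΔj (lj (k1 k))
    have h0 : 0 < s 0 := (by rw [← hρe]; exact hρ : 0 < r ^ (-(1/2) : ℝ)).trans_le (hs 0).1
    have h1 : 0 < s 1 := (by rw [← hρe]; exact hρ : 0 < r ^ (-(1/2) : ℝ)).trans_le (hs 1).1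
    have h2 : 0 < max (s 0) (s 1) := lt_max_of_lt_left h0
    have h5 : 2 ^ (q + 2) ≤ Cp := by
      rw [hCp]
      have h7 : (0:ℝ) ≤ 2 ^ (q + 2) := by positivity
      have h6 : 0 ≤ C2 * N7 := mul_nonneg hC2 hN70
      have h8 : (2:ℝ) ^ (q + 2) ≤ (C1 + 1) * 2 ^ (q + 2) :=
        le_mul_of_one_le_left h7 (le_add_of_nonneg_left hC1)
      exact h8.trans (le_add_of_nonneg_right h6)
    rw [hDk]
    simp only
    gcongr
  · intro k hk m y hy
    rw [hU] at hy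
    rw [Metric.mem_closedBall, dist_zero_right]
    refine ((hXM0 k hy).2).trans ?_
    have : K ≤ A := by linarith
    gcongr
  · intro k hk m hm
    rw [← hρe] at hm
    rw [Set.eq_empty_iff_forall_notMem]
    intro y hy
    rw [hU] at hy
    exact hm (hXM0 k hy).1
  · intro k _ k' _ hne m
    rw [hU, hU]
    have := XM_disj (P := P) (κ := κ) hAX hdis hXs hne
    rw [Set.disjoint_left] at this ⊢
    exact fun y hy hy' => this hy hy'
  · -- plates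
    intro k hk
    refine ⟨⟨fun i _ => by rw [hPl]; exact hz, fun i _ j _ => Or.inl (by rw [hPl]), ?_,
      fun i hi m => ?_, ?_, ?_⟩, fun i _ => by rw [hPl]⟩
    · intro i hi
      obtain ⟨hi1, hi2, hi3, hi4⟩ := hmem k i hi
      obtain ⟨h1, h2, h3, h4, h5, h6, h7⟩ := hAc _ i hi1
      have hne : (Ac (lj (k1 k)) i).Nonempty := by
        by_contra hne
        rw [Set.not_nonempty_iff_eq_empty] at hne
        rw [hne, measure_empty] at h7
        exact not_lt_zero h7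
      obtain ⟨w, hw⟩ := hne
      have h8 := (h6 hw).1.2
      have h9 := (hXX0 _ (h2 hw)).2
      have hx : (Pl k i).x = (P (lj (k1 k)) i).y := by rw [hPl]
      rw [hx]
      have h10 : ‖w.2 - (P (lj (k1 k)) i).y‖ ≤ 2 * (1 * r) := by
        refine norm_le_of_inner (P (lj (k1 k)) i).b fun i' => (h8 i').trans ?_
        simp only
        have := sg_le_one (r ^ (-(1/2) : ℝ)) ((P (lj (k1 k)) i).a i')
        gcongr
      have h11 : ‖(P (lj (k1 k)) i).y‖ ≤ ‖w.2‖ + ‖w.2 - (P (lj (k1 k)) i).y‖ := by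
        calc ‖(P (lj (k1 k)) i).y‖ = ‖w.2 - (w.2 - (P (lj (k1 k)) i).y)‖ := by congr 1; abel
          _ ≤ _ := norm_sub_le _ _
      have h12 : (K + 2) * r ≤ A * r := mul_le_mul_of_nonneg_right (by linarith) hr0.le
      linarith
    · rw [hPS]
      exact sli_meas (hAm _ i (hmem k i hi).1) m
    · intro i hi m y hy
      obtain ⟨hi1, hi2, hi3, hi4⟩ := hmem k i hi
      rw [hPS] at hy
      have h6 := ((hAc _ i hi1).2.2.2.2.2.1 hy).1
      obtain ⟨h7, h8⟩ := h6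
      simp only at h7 h8
      rw [← hρe] at h7 h8
      have e0 : ∀ i' : Fin 2, ![sg ρ (la0 (k1 k)), sg ρ (la1 (k1 k))] i' =
          sg ρ ((P (lj (k1 k)) i).a i') := by
        intro i'
        fin_cases i'
        · show sg ρ (la0 (k1 k)) = sg ρ ((P (lj (k1 k)) i).a 0)
          rw [hi2]
        · show sg ρ (la1 (k1 k)) = sg ρ ((P (lj (k1 k)) i).a 1)
          rw [hi3]
      have e1 : ∀ i' : Fin 2, sg ρ ((P (lj (k1 k)) i).a i') ≤
          A * ![sg ρ (la0 (k1 k)), sg ρ (la1 (k1 k))] i' := by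
        intro i'
        rw [e0]
        exact le_mul_of_one_le_left (hρ.trans_le (sg_ge hρ hρ1 _)).le (by linarith)
      have hc' : (Pl k i).c = (P (lj (k1 k)) i).c := by rw [hPl]
      have hb' : (Pl k i).b = (P (lj (k1 k)) i).b := by rw [hPl]
      have hx' : (Pl k i).x = (P (lj (k1 k)) i).y := by rw [hPl]
      rw [hc', hb', hx']
      refine ⟨fun i' => ?_, fun i' => ?_⟩
      · rw [← hρe]
        exact (h7 i').trans (e1 i')
      · refine (h8 i').trans ?_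
        have := e1 i'
        gcongr
    · intro i hi j hj hij _ m
      rw [hPS, hPS]
      have := hdis _ i (hmem k i hi).1 j (hmem k j hj).1 hij
      rw [Set.disjoint_left] at this ⊢
      exact fun y hy hy' => this hy hy'
  · -- classes
    intro k hk i hi m y hy
    obtain ⟨hi1, hi2, hi3, hi4⟩ := hmem k i hi
    rw [hPS] at hy
    have h6 := ((hAc _ i hi1).2.2.2.2.2.1 hy).2
    have hb' : (Pl k i).b = (P (lj (k1 k)) i).b := by rw [hPl]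
    rw [hb', ← hi4]
    exact h6
  · -- dense
    intro k hk i hi
    rw [← hρe, ← hg']
    simp only
    have h1 := hDkn k i hi
    have h3 := hΔj (lj (k1 k))
    have e1 := hs1 k
    have e2 := hs2 k
    rw [hDk]
    simp only
    calc ENNReal.ofReal (Cp * (nb * (Δ0 / 2 ^ lj (k1 k))) *
          ((sg ρ (la1 (k1 k))) ^ q * (sg ρ (la0 (k1 k)) * sg ρ (la1 (k1 k)) * r ^ 2))) =
        ENNReal.ofReal (2 * Cp * nb) * ENNReal.ofReal (Δ0 / 2 ^ lj (k1 k) / 2 *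
          ((sg ρ (la1 (k1 k))) ^ q * (sg ρ (la0 (k1 k)) * sg ρ (la1 (k1 k)) * r ^ 2))) := by
          rw [← ENNReal.ofReal_mul (by positivity)]
          congr 1
          ring
      _ ≤ _ := by
          refine mul_le_mul' (ENNReal.ofReal_le_ofReal ?_) h1
          gcongr
  · -- energy
    intro k hk
    rw [← hρe, ← hg', ← hensum]
    exact (hselEn _ (hBsk k)).trans (mul_le_mul' (ENNReal.ofReal_le_ofReal hCCe) le_rfl)
  · -- D6
    intro k hk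
    have h1 := hselEn _ (hBsk k)
    rw [hensum] at h1
    have hcase : ∀ i ∈ I k, ENNReal.ofReal (Real.sqrt (Δ0 / 2 ^ lj (k1 k)) * r) *
        en ρ g' (Pl k i).S ≤ ENNReal.ofReal (Real.sqrt 2) *
        (ENNReal.ofReal ((sg ρ (la1 (k1 k))) ^ (-q / 2)) *
          (ENNReal.ofReal ((sg ρ (la0 (k1 k)) * sg ρ (la1 (k1 k)) * r ^ 3) ^ (-(1/2) : ℝ)) *
          (ENNReal.ofReal r * en ρ g' (Pl k i).S) ^ (3 / 2 : ℝ))) := by
      intro i hi
      refine d6_enn (hs1 k) (hs2 k) hr0 (hΔj _) ?_ (hDkn k i hi)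
      refine ne_of_lt ((H3 ρ hρ hρ1 g' hgi hg2 _).trans_lt ?_)
      rw [lintEn hg2]
      exact ENNReal.mul_lt_top ENNReal.ofReal_lt_top ENNReal.ofReal_lt_top
    have h7 : SS (sel ρ g' (uS (I k) (Pl k))) r (Dk k) =
        Real.sqrt Cp * Real.sqrt nb * ((Real.sqrt (Δ0 / 2 ^ lj (k1 k)) * r) *
          En (sel ρ g' (uS (I k) (Pl k)))) := by
      unfold SS
      rw [hDk]
      simp only
      rw [Real.sqrt_mul hCp0, Real.sqrt_mul hnb0.le]
      ring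
    have hval : val h g r (sg ρ (la0 (k1 k))) (sg ρ (la1 (k1 k))) (I k) (Pl k) =
        ∑ i ∈ I k, (ENNReal.ofReal ((sg ρ (la0 (k1 k)) * sg ρ (la1 (k1 k)) * r ^ 3) ^
          (-(1/2) : ℝ)) * (ENNReal.ofReal r * en ρ g' (Pl k i).S) ^ (3 / 2 : ℝ)) := by
      unfold val
      refine Finset.sum_congr rfl fun i hi => ?_
      have hz' : (Pl k i).z = z := by rw [hPl]
      rw [hz', ← hg', ← hρe]
    simp only
    rw [hval, h7, ENNReal.ofReal_mul (by positivity : 0 ≤ Real.sqrt Cp * Real.sqrt nb),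
      ENNReal.ofReal_mul (by positivity : 0 ≤ Real.sqrt (Δ0 / 2 ^ lj (k1 k)) * r)]
    calc ENNReal.ofReal (Real.sqrt Cp * Real.sqrt nb) *
          (ENNReal.ofReal (Real.sqrt (Δ0 / 2 ^ lj (k1 k)) * r) *
          ENNReal.ofReal (En (sel ρ g' (uS (I k) (Pl k))))) ≤
        ENNReal.ofReal (Real.sqrt Cp * Real.sqrt nb) *
          (ENNReal.ofReal (Real.sqrt (Δ0 / 2 ^ lj (k1 k)) * r) *
          (ENNReal.ofReal C2 * ∑ i ∈ I k, en ρ g' (Pl k i).S)) := by gcongr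
      _ = ENNReal.ofReal C2 * ENNReal.ofReal (Real.sqrt Cp * Real.sqrt nb) * (∑ i ∈ I k,
          ENNReal.ofReal (Real.sqrt (Δ0 / 2 ^ lj (k1 k)) * r) * en ρ g' (Pl k i).S) := by
          rw [← Finset.mul_sum]; ring
      _ ≤ ENNReal.ofReal C2 * ENNReal.ofReal (Real.sqrt Cp * Real.sqrt nb) * (∑ i ∈ I k,
          ENNReal.ofReal (Real.sqrt 2) * (ENNReal.ofReal ((sg ρ (la1 (k1 k))) ^ (-q / 2)) *
          (ENNReal.ofReal ((sg ρ (la0 (k1 k)) * sg ρ (la1 (k1 k)) * r ^ 3) ^ (-(1/2) : ℝ)) *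
          (ENNReal.ofReal r * en ρ g' (Pl k i).S) ^ (3 / 2 : ℝ)))) := by
          exact mul_le_mul' le_rfl (Finset.sum_le_sum fun i hi => hcase i hi)
      _ = ENNReal.ofReal (C2 * (Real.sqrt Cp * Real.sqrt nb) * Real.sqrt 2) *
          (ENNReal.ofReal ((sg ρ (la1 (k1 k))) ^ (-q / 2)) * ∑ i ∈ I k,
          (ENNReal.ofReal ((sg ρ (la0 (k1 k)) * sg ρ (la1 (k1 k)) * r ^ 3) ^ (-(1/2) : ℝ)) *
          (ENNReal.ofReal r * en ρ g' (Pl k i).S) ^ (3 / 2 : ℝ))) := by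
          have hCs : ENNReal.ofReal (C2 * (Real.sqrt Cp * Real.sqrt nb) * Real.sqrt 2) =
              ENNReal.ofReal C2 * ENNReal.ofReal (Real.sqrt Cp * Real.sqrt nb) *
                ENNReal.ofReal (Real.sqrt 2) := by
            rw [← ENNReal.ofReal_mul hC2, ← ENNReal.ofReal_mul (mul_nonneg hC2
              (mul_nonneg (Real.sqrt_nonneg _) (Real.sqrt_nonneg _)))]
          rw [← Finset.mul_sum, ← Finset.mul_sum, hCs]
          ring
      _ ≤ _ := by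
          refine mul_le_mul' (ENNReal.ofReal_le_ofReal ?_) le_rfl
          calc C2 * (Real.sqrt Cp * Real.sqrt nb) * Real.sqrt 2 =
                C2 * Real.sqrt Cp * Real.sqrt 2 * Real.sqrt nb := by ring
            _ ≤ C * nb := by gcongr
  · exact htm.sub (sel_cont hgi (hBs Y hYm hYX)).measurable
  · exact ⟨L + LY, fun ξ => (norm_sub_le _ _).trans (add_le_add (htb ξ) (hLY ξ))⟩
  · intro ξ hξ
    rw [hts ξ hξ, hsupp _ ξ (by linarith), sub_zero]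
  · refine (En_sub_le hg2 (sel_int hρ hgi (hBs Y hYm hYX)).2).trans ?_
    have h1 := hselEn' _ (hBs Y hYm hYX)
    rw [hEn] at h1 ⊢
    have h2 := En_nn g
    calc 2 * En g + 2 * En (sel ρ g' (sli Y)) ≤ 2 * En g + 2 * (C2 * C3 * En g) := by gcongr
      _ = (2 + 2 * (C2 * C3)) * En g := by ring
      _ ≤ C * En g := by gcongr
  · -- the rest is small
    intro p hp1 hp2
    have h1 : (fun ξ => g' ξ - sel ρ g' (sli Y) ξ) =
        fun ξ => g' ξ - sel ρ g' (sli X0) ξ + sel ρ g' (sli (X J)) ξ := by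
      funext ξ
      rw [hsum2 ξ]
      ring
    have hBJ := hBs (X J) (hXm J) (hXX0 J)
    have hB0 := hBs X0 hX0m (Set.Subset.refl _)
    rw [h1, ext_lin hhc hgi (sel_int hρ hgi hB0).1 (sel_int hρ hgi hBJ).1]
    have hRM : 0 < R ^ (-(M : ℝ)) := Real.rpow_pos_of_pos hR0 _
    have e0 : R ^ (-(M : ℝ)) = (R ^ M)⁻¹ := by
      rw [Real.rpow_neg hR0.le, Real.rpow_natCast]
    -- first part
    have h2 := H4 h hSt.par hSt.h1 r hr1 g' hgi hg2 hts (sli X0) (by rw [← hρe]; exact hB0) (by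
      intro m hm y hy
      rw [← hρe] at hm
      rw [Metric.mem_closedBall, dist_zero_right, ← hK] at hy
      exact ⟨hm, hy⟩) p.1 p.2 hp1 hp2
    rw [← hρe, lintEn hg2, hEn, ← ENNReal.ofReal_mul (by positivity)] at h2
    have h3 := norm_le_of_enorm_sq (mul_nonneg (by positivity) (En_nn g)) h2
    have hrM : R ^ M ≤ r ^ (2 * M) := by
      have h4 : R ≤ r ^ 2 := by
        calc R = (R ^ (1/2 : ℝ)) ^ 2 := by
              rw [← Real.rpow_natCast, ← Real.rpow_mul hR0.le]; norm_num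
          _ ≤ r ^ 2 := by gcongr
      rw [pow_mul]
      gcongr
    have h4 : ‖ext h g' p.1 p.2 - ext h (sel ρ g' (sli X0)) p.1 p.2‖ ≤
        Real.sqrt C4 * R ^ (-(M : ℝ)) * Real.sqrt (En g) := by
      refine h3.trans ?_
      have e1 : C4 * (r ^ (2 * (2 * M)))⁻¹ * En g = C4 * (((r ^ (2 * M))⁻¹) ^ 2 * En g) := by
        rw [mul_comm 2 (2 * M), pow_mul, inv_pow]; ring
      rw [e1, Real.sqrt_mul hC4, Real.sqrt_mul (by positivity), Real.sqrt_sq (by positivity),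
        ← mul_assoc, e0]
      gcongr
    -- second part
    have h5 := H5 h (sel ρ g' (sli (X J))) (sel_int hρ hgi hBJ).2
      (fun ξ hξ => hsupp _ ξ (by linarith)) p.1 p.2
    have h6 := hselD (sli (X J)) J hBJ (fun m _ => Set.Subset.refl _)
    have h7 : C2 * (N7 * (nb * (Δ0 / 2 ^ J) * r ^ 2)) ≤
        nb ^ 2 * (C2 * (N7 * C3) * (((R ^ M)⁻¹) ^ 2 * En g)) := by
      have e2 : r ^ (q / 2) ≤ R ^ ⌈q / 2⌉₊ := by
        calc r ^ (q / 2) ≤ R ^ (q / 2) := Real.rpow_le_rpow hr0.le hrR (by positivity)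
          _ ≤ R ^ ((⌈q / 2⌉₊ : ℕ) : ℝ) := Real.rpow_le_rpow_of_exponent_le hR (Nat.le_ceil _)
          _ = _ := Real.rpow_natCast _ _
      have e3 : r ^ 2 ≤ R ^ 2 := by gcongr
      have e4 : r ^ (q / 2) * r ^ 2 / 2 ^ J ≤ ((R ^ M)⁻¹) ^ 2 := by
        rw [inv_pow, div_le_iff₀ (by positivity), ← div_eq_inv_mul, le_div_iff₀ (by positivity)]
        calc r ^ (q / 2) * r ^ 2 * (R ^ M) ^ 2 ≤ R ^ ⌈q / 2⌉₊ * R ^ 2 * (R ^ M) ^ 2 := by gcongr
          _ = R ^ T := by rw [hT]; ring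
          _ ≤ 2 ^ J := hJR
      have h8 := En_nn g
      have h9 : (nb:ℝ) ≤ nb ^ 2 := le_self_pow₀ hnb' two_ne_zero
      rw [hΔ0, hE0, hEn]
      calc C2 * (N7 * (nb * (C3 * En g * r ^ (q / 2) / 2 ^ J) * r ^ 2)) =
          nb * (C2 * (N7 * C3) * (r ^ (q / 2) * r ^ 2 / 2 ^ J * En g)) := by ring
        _ ≤ _ := by gcongr
    have h8 : ‖ext h (sel ρ g' (sli (X J))) p.1 p.2‖ ≤
        C5 * Real.sqrt (C2 * (N7 * C3)) * (nb * (R ^ (-(M : ℝ)) * Real.sqrt (En g))) := by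
      refine h5.trans ?_
      have h9 : Real.sqrt (En (sel ρ g' (sli (X J)))) ≤
          Real.sqrt (C2 * (N7 * C3)) * (nb * (R ^ (-(M : ℝ)) * Real.sqrt (En g))) := by
        refine (Real.sqrt_le_sqrt (h6.trans h7)).trans (le_of_eq ?_)
        rw [Real.sqrt_mul (by positivity : (0:ℝ) ≤ nb ^ 2), Real.sqrt_sq hnb0.le,
          Real.sqrt_mul (by positivity : 0 ≤ C2 * (N7 * C3)),
          Real.sqrt_mul (by positivity : 0 ≤ ((R ^ M)⁻¹) ^ 2), Real.sqrt_sq (by positivity), e0]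
        ring
      calc C5 * Real.sqrt (En (sel ρ g' (sli (X J)))) ≤
          C5 * (Real.sqrt (C2 * (N7 * C3)) * (nb * (R ^ (-(M : ℝ)) * Real.sqrt (En g)))) := by
            gcongr
        _ = _ := by ring
    have h10 : Real.sqrt C4 * R ^ (-(M : ℝ)) * Real.sqrt (En g) ≤
        Real.sqrt C4 * (nb * (R ^ (-(M : ℝ)) * Real.sqrt (En g))) := by
      have h11 : 0 ≤ R ^ (-(M : ℝ)) * Real.sqrt (En g) := by positivity
      have h12 : R ^ (-(M : ℝ)) * Real.sqrt (En g) ≤ nb * (R ^ (-(M : ℝ)) * Real.sqrt (En g)) :=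
        le_mul_of_one_le_left h11 hnb'
      rw [mul_assoc]
      gcongr
    calc ‖ext h g' p.1 p.2 - ext h (sel ρ g' (sli X0)) p.1 p.2 +
          ext h (sel ρ g' (sli (X J))) p.1 p.2‖ ≤
        Real.sqrt C4 * (nb * (R ^ (-(M : ℝ)) * Real.sqrt (En g))) +
          C5 * Real.sqrt (C2 * (N7 * C3)) * (nb * (R ^ (-(M : ℝ)) * Real.sqrt (En g))) :=
          (norm_add_le _ _).trans (add_le_add (h4.trans h10) h8)
      _ = (Real.sqrt C4 + C5 * Real.sqrt (C2 * (N7 * C3))) * nb * R ^ (-(M : ℝ)) *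
          Real.sqrt (En g) := by ring
      _ ≤ _ := by gcongr

/-- **DECc holds**. -/
theorem decc_holds (B : ℕ → ℝ) {q : ℝ} (hq : 0 ≤ q) :
    ∃ A0 : ℝ, ∀ A, A0 ≤ A → W188.DECc B q A := by
  obtain ⟨C1, hC1, H1⟩ := pbox_sel B q
  obtain ⟨C2, hC2, H2⟩ := sel_energy
  obtain ⟨C3, hC3, H3⟩ := en_le
  obtain ⟨C5, hC5, H5⟩ := sup_ext
  set K : ℝ := 1 + 8 + 4 * 8 * (1 + |B 2|) with hK
  refine ⟨K + 3, fun A hA ε hε Na M0 M => ?_⟩
  obtain ⟨C4, hC4, H4⟩ := rest_small B 8 (by norm_num) (2 * M)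
  set N7 : ℝ := ((NB (B 2) K : ℕ) : ℝ) with hN7
  have hN70 : 0 ≤ N7 := by rw [hN7]; positivity
  set Cp : ℝ := (C1 + 1) * 2 ^ (q + 2) + C2 * N7 with hCp
  have hCp0 : 0 ≤ Cp := by rw [hCp]; positivity
  obtain ⟨C6, hC6, H6⟩ := card_bound hε (2 * M + ⌈q / 2⌉₊ + 2)
  have t1 : 0 ≤ C2 * Real.sqrt Cp * Real.sqrt 2 := by positivity
  have t2 : 0 ≤ 2 + 2 * (C2 * C3) := by positivity
  have t3 : 0 ≤ Real.sqrt C4 + C5 * Real.sqrt (C2 * (N7 * C3)) := by positivity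
  have t4 : 0 ≤ C5 * 1296 ^ M := by positivity
  refine ⟨C6 + 2 * Cp + C2 + C2 * Real.sqrt Cp * Real.sqrt 2 + (2 + 2 * (C2 * C3)) +
    (Real.sqrt C4 + C5 * Real.sqrt (C2 * (N7 * C3))) + (1 + C5 * 1296 ^ M), by positivity, ?_⟩
  intro R r hR hRr hrR nb hnb
  by_cases hr36 : r < 36
  · exact small_caseM hC5 H5 hε (by linarith) (by linarith) hR hRr hr36 hnb
  · push Not at hr36
    exact big_caseM hq hC1 hC2 hC3 hC4 hC5 hC6 H1 H2 H3 H4 H5 hε H6 hK hN7 hCp hA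
      (by linarith) (by linarith) (by linarith) (by linarith) (by linarith) (by linarith)
      hR hRr hrR hr36 hnb

end Crest.Agent.R138.Wpk685
end

-- ▼ part R138/Ex_685

/-!
# R138 / R139: WAVE side, existence of the levels of the class chain (helper685): EX1P, EXP of
Gl_210 from DECc.
-/

set_option autoImplicit false
set_option linter.unusedSectionVars false
set_option linter.unusedVariables false

open MeasureTheory FourierTransform
open scoped ContDiff ENNReal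

namespace Crest.Agent.R138.Ex685

open Crest.Agent.R138.Defs Crest.Agent.R138.Bil882 Crest.Agent.R138.W188
open Crest.Agent.R138.Wpk685 Crest.Agent.R138.Gl210 Crest.Agent.R138.Dom878

/-! ### renumbering of the labels -/

theorem lbl_inj {Λ : Finset ℕ} {i j : ℕ} (hi : i < Λ.card) (hj : j < Λ.card)
    (h : lbl Λ i = lbl Λ j) : i = j := by
  unfold lbl at h
  have h1 : i < (Λ.sort (· ≤ ·)).length := by rwa [Finset.length_sort]
  have h2 : j < (Λ.sort (· ≤ ·)).length := by rwa [Finset.length_sort]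
  rw [List.getD_eq_getElem _ _ h1, List.getD_eq_getElem _ _ h2] at h
  exact (List.Nodup.getElem_inj_iff (Finset.sort_nodup Λ (· ≤ ·))).1 h

theorem sum_lbl {Λ : Finset ℕ} {α : Type*} [AddCommMonoid α] (f : ℕ → α) :
    ∑ i ∈ Finset.range Λ.card, f (lbl Λ i) = ∑ k ∈ Λ, f k := by
  have h1 : Λ = (Finset.range Λ.card).image (lbl Λ) := by
    ext k
    rw [Finset.mem_image]
    constructor
    · intro hk
      obtain ⟨i, hi, h⟩ := lbl_surj hk
      exact ⟨i, Finset.mem_range.2 hi, h⟩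
    · rintro ⟨i, hi, rfl⟩
      exact lbl_mem (Finset.mem_range.1 hi)
  conv_rhs => rw [h1]
  rw [Finset.sum_image]
  intro i hi j hj h
  exact lbl_inj (Finset.mem_range.1 hi) (Finset.mem_range.1 hj) h

/-- extension by a dummy value. -/
noncomputable def ex {α : Type*} (Λ : Finset ℕ) (f : ℕ → α) (d : α) (i : ℕ) : α :=
  open Classical in if i < Λ.card then f (lbl Λ i) else d

theorem ex_lt {α : Type*} {Λ : Finset ℕ} {f : ℕ → α} {d : α} {i : ℕ} (hi : i < Λ.card) :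
    ex Λ f d i = f (lbl Λ i) := by
  unfold ex
  rw [if_pos hi]

theorem ex_ge {α : Type*} {Λ : Finset ℕ} {f : ℕ → α} {d : α} {i : ℕ} (hi : ¬ i < Λ.card) :
    ex Λ f d i = d := by
  unfold ex
  rw [if_neg hi]

/-- the dummy plate. -/
noncomputable def p0 : Plate := ⟨0, 0, EuclideanSpace.basisFun (Fin 2) ℝ, 0, fun _ => ∅⟩

theorem sel_empty {ρ : ℝ} {g : E2 → ℂ} {S : ℤ × ℤ → Set E2} (hS : ∀ m, S m = ∅) :
    sel ρ g S = fun _ => 0 := by
  funext ξ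
  unfold sel
  refine Finset.sum_eq_zero fun m _ => ?_
  unfold piece
  rw [hS m, Set.indicator_empty, fourier_eq_int]
  simp

theorem en_empty {ρ : ℝ} {g : E2 → ℂ} {S : ℤ × ℤ → Set E2} (hS : ∀ m, S m = ∅) :
    en ρ g S = 0 := by
  unfold en
  refine Finset.sum_eq_zero fun m _ => ?_
  rw [hS m]
  simp

theorem PBox_zero {q : ℝ} {Na : ℕ} {h : E2 → ℝ} {R D : ℝ} :
    PBox q Na h (fun _ => 0) R D := by
  intro c b s hs ψ hψ x0 t0 hx ht
  have : ∀ p : E2 × ℝ, ‖ext h (fun ξ => (0:ℂ) * chi h c b s ψ ξ) p.1 p.2‖ₑ ^ 2 = 0 := by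
    intro p
    unfold Defs.ext
    simp
  simp only [this, lintegral_zero]
  exact zero_le

theorem decOut_mono {q A σ C Cn : ℝ} {B : ℕ → ℝ} {nb M : ℕ} {h : E2 → ℝ} {g : E2 → ℂ} {R r : ℝ}
    {z : E2 × ℝ} {cls : OrthonormalBasis (Fin 2) ℝ E2 → ℤ × ℤ → E2 → ℕ}
    {Λ : Finset ℕ} {s : ℕ → ℝ × ℝ} {cl : ℕ → ℕ}
    {G : ℕ → E2 → ℂ} {D' : ℕ → ℝ} {rest : E2 → ℂ} {I : ℕ → Finset ℕ} {P : ℕ → ℕ → Plate}
    (hR : 1 ≤ R) (hC : C ≤ Cn)
    (H : DecOut q A σ C B nb M h g R r z cls Λ s cl G D' rest I P) :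
    DecOut q A σ Cn B nb M h g R r z cls Λ s cl G D' rest I P := by
  have hnb : (0:ℝ) ≤ nb := Nat.cast_nonneg _
  have hRM : 0 ≤ R ^ (-(M : ℝ)) := Real.rpow_nonneg (by linarith) _
  refine { sum := H.sum, eq := H.eq, st := H.st, sub := H.sub, dens := H.dens, bd := H.bd,
           cp := H.cp, disj := H.disj, pl := H.pl, cls := H.cls, dense := ?_, energy := ?_,
           ss := ?_, rmeas := H.rmeas, rbdd := H.rbdd, rsupp := H.rsupp, ren := ?_, small := ?_ }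
  · intro k hk i hi
    refine (H.dense k hk i hi).trans (mul_le_mul' (ENNReal.ofReal_le_ofReal ?_) le_rfl)
    gcongr
  · intro k hk
    exact (H.energy k hk).trans (mul_le_mul' (ENNReal.ofReal_le_ofReal hC) le_rfl)
  · intro k hk
    refine (H.ss k hk).trans (mul_le_mul' (ENNReal.ofReal_le_ofReal ?_) le_rfl)
    gcongr
  · exact H.ren.trans (mul_le_mul_of_nonneg_right hC (En_nn g))
  · intro p h1 h2
    refine (H.small p h1 h2).trans ?_
    gcongr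

/-- renumbered output, labels `0, .., #Λ` (the last one is a dummy label). -/
theorem decOut_renum {q A σ C : ℝ} {B : ℕ → ℝ} {nb M : ℕ} {h : E2 → ℝ} {g : E2 → ℂ} {R r : ℝ}
    {z : E2 × ℝ} {cls : OrthonormalBasis (Fin 2) ℝ E2 → ℤ × ℤ → E2 → ℕ}
    {Λ : Finset ℕ} {s : ℕ → ℝ × ℝ} {cl : ℕ → ℕ}
    {G : ℕ → E2 → ℂ} {D' : ℕ → ℝ} {rest : E2 → ℂ} {I : ℕ → Finset ℕ} {P : ℕ → ℕ → Plate}
    (hr : 1 ≤ r) (hpar : ParB B h) (h0 : h 0 = 0) (h1 : fderiv ℝ h 0 = 0)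
    (H : DecOut q A σ C B nb M h g R r z cls Λ s cl G D' rest I P) :
    DecOut q A σ C B nb M h g R r z cls (Finset.range (Λ.card + 1)) (ex Λ s (1, 1)) (ex Λ cl 0)
      (ex Λ G (fun _ => 0)) (ex Λ D' 0) rest (ex Λ I ∅) (ex Λ P (fun _ => p0)) := by
  have hU0 : ∀ m, uS (∅ : Finset ℕ) (fun _ => p0) m = ∅ := fun m => by simp [uS]
  have key : ∀ k ∈ Finset.range (Λ.card + 1), ¬ k < Λ.card → k = Λ.card := fun k hk h2 => by
    have := Finset.mem_range.1 hk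
    omega
  refine { sum := ?_, eq := ?_, st := ?_, sub := ?_, dens := ?_, bd := ?_,
           cp := ?_, disj := ?_, pl := ?_, cls := ?_, dense := ?_, energy := ?_,
           ss := ?_, rmeas := H.rmeas, rbdd := H.rbdd, rsupp := H.rsupp, ren := H.ren,
           small := H.small }
  · intro ξ
    rw [H.sum ξ, Finset.sum_range_succ, ex_ge (lt_irrefl _), add_zero, ← sum_lbl]
    congr 1
    refine Finset.sum_congr rfl fun i hi => ?_
    rw [ex_lt (Finset.mem_range.1 hi)]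
  · intro k hk
    by_cases hc : k < Λ.card
    · simp only [ex_lt hc]
      exact H.eq _ (lbl_mem hc)
    · simp only [ex_ge hc]
      exact (sel_empty hU0).symm
  · intro k hk
    by_cases hc : k < Λ.card
    · simp only [ex_lt hc]
      exact H.st _ (lbl_mem hc)
    · simp only [ex_ge hc]
      refine ⟨hpar, h0, h1, measurable_const, ⟨0, by simp⟩, fun _ _ => rfl, hr, le_rfl,
        PBox_zero, ?_⟩
      simp [En]
  · intro k hk S' hS' hS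
    by_cases hc : k < Λ.card
    · simp only [ex_lt hc] at hS ⊢
      exact H.sub _ (lbl_mem hc) S' hS' hS
    · simp only [ex_ge hc] at hS ⊢
      have h2 : ∀ m, S' m = ∅ := fun m => Set.eq_empty_of_subset_empty ((hS m).trans (hU0 m).le)
      rw [sel_empty h2]
      exact PBox_zero
  · intro k hk
    by_cases hc : k < Λ.card
    · simp only [ex_lt hc]
      exact H.dens _ (lbl_mem hc)
    · simp only [ex_ge hc]
      intro c b s y0 hs
      rw [en_empty]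
      · exact zero_le
      · intro m
        rw [hU0, Set.empty_inter]
  · intro k hk m
    by_cases hc : k < Λ.card
    · simp only [ex_lt hc]
      exact H.bd _ (lbl_mem hc) m
    · simp only [ex_ge hc]
      rw [hU0]
      exact Set.empty_subset _
  · intro k hk m hm
    by_cases hc : k < Λ.card
    · simp only [ex_lt hc]
      exact H.cp _ (lbl_mem hc) m hm
    · simp only [ex_ge hc]
      exact hU0 m
  · intro k hk k' hk' hne m
    by_cases hc : k < Λ.card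
    · by_cases hc' : k' < Λ.card
      · simp only [ex_lt hc, ex_lt hc']
        exact H.disj _ (lbl_mem hc) _ (lbl_mem hc') (fun h2 => hne (lbl_inj hc hc' h2)) m
      · simp only [ex_ge hc']
        rw [hU0]
        exact Set.disjoint_empty _
    · simp only [ex_ge hc]
      rw [hU0]
      exact Set.empty_disjoint _
  · intro k hk
    by_cases hc : k < Λ.card
    · simp only [ex_lt hc]
      exact H.pl _ (lbl_mem hc)
    · simp only [ex_ge hc]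
      exact ⟨⟨by simp, by simp, by simp, by simp, by simp, by simp⟩, by simp⟩
  · intro k hk
    by_cases hc : k < Λ.card
    · simp only [ex_lt hc]
      exact H.cls _ (lbl_mem hc)
    · simp only [ex_ge hc]
      simp
  · intro k hk
    by_cases hc : k < Λ.card
    · simp only [ex_lt hc]
      exact H.dense _ (lbl_mem hc)
    · simp only [ex_ge hc]
      simp
  · intro k hk
    by_cases hc : k < Λ.card
    · simp only [ex_lt hc]
      exact H.energy _ (lbl_mem hc)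
    · simp only [ex_ge hc]
      simp [En]
  · intro k hk
    by_cases hc : k < Λ.card
    · simp only [ex_lt hc]
      exact H.ss _ (lbl_mem hc)
    · simp only [ex_ge hc]
      simp [SS, En]

/-- **DECc with labels `0, .., n-1`.** -/
theorem decr {B : ℕ → ℝ} {q A : ℝ} (hD : DECc B q A) :
    ∀ ε : ℝ, 0 < ε → ∀ (Na : ℕ) (M0 : ℝ) (M : ℕ), ∃ C : ℝ, 1 ≤ C ∧ ∀ R r : ℝ, 1 ≤ R →
    R ^ (1/2 : ℝ) ≤ r → r ≤ R → ∀ nb : ℕ, 1 ≤ nb →
    ∃ (n : ℕ) (s : ℕ → ℝ × ℝ) (cl : ℕ → ℕ), 1 ≤ n ∧ (n : ℝ) ≤ C * R ^ ε * nb ∧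
      (∀ k < n, Sd r (s k).1 (s k).2) ∧ (∀ k, cl k < nb) ∧
      ∀ σ h g D, σ ≤ 3/2 → St B q Na M0 σ h g R D → ∀ z ∈ cyl R,
        ∀ cls : OrthonormalBasis (Fin 2) ℝ E2 → ℤ × ℤ → E2 → ℕ,
          (∀ b m, Measurable (cls b m)) → (∀ b m y, cls b m y < nb) →
          ∃ (G : ℕ → E2 → ℂ) (D' : ℕ → ℝ) (rest : E2 → ℂ) (I : ℕ → Finset ℕ)
            (P : ℕ → ℕ → Plate),
            DecOut q A σ C B nb M h g R r z cls (Finset.range n) s cl G D' rest I P := by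
  intro ε hε Na M0 M
  obtain ⟨C, hC, H⟩ := hD ε hε Na M0 M
  refine ⟨C + 1, by linarith, ?_⟩
  intro R r hR hRr hrR nb hnb
  obtain ⟨Λ, s, cl, hcard, hSd, hcl, H2⟩ := H R r hR hRr hrR nb hnb
  have hR0 : 0 < R := by linarith
  have hr1 : 1 ≤ r := le_trans (Real.one_le_rpow hR (by norm_num)) hRr
  have hRe : 1 ≤ R ^ ε := Real.one_le_rpow hR hε.le
  have hnb' : (1:ℝ) ≤ nb := by exact_mod_cast hnb
  refine ⟨Λ.card + 1, ex Λ s (1, 1), ex Λ cl 0, by omega, ?_, ?_, ?_, ?_⟩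
  · push_cast
    have h1 : 1 ≤ R ^ ε * nb := by nlinarith
    calc (Λ.card : ℝ) + 1 ≤ C * R ^ ε * nb + R ^ ε * nb := by linarith
      _ = _ := by ring
  · intro k hk
    by_cases hc : k < Λ.card
    · rw [ex_lt hc]
      exact hSd _ (lbl_mem hc)
    · rw [ex_ge hc]
      exact ⟨Real.rpow_le_one_of_one_le_of_nonpos hr1 (by norm_num), le_rfl, le_rfl⟩
  · intro k
    by_cases hc : k < Λ.card
    · rw [ex_lt hc]
      exact hcl _ (lbl_mem hc)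
    · rw [ex_ge hc]
      omega
  · intro σ h g D hσ hSt z hz cls hm hb
    obtain ⟨G, D', rest, I, P, H3⟩ := H2 σ h g D hσ hSt z hz cls hm hb
    exact ⟨_, _, _, _, _, decOut_mono hR (by linarith)
      (decOut_renum hr1 hSt.par hSt.h0 hSt.h1 H3)⟩

instance : Nonempty Plate := ⟨p0⟩

/-- **existence of a level** with a given family of class functions. -/
theorem lev_exists {B : ℕ → ℝ} {q A : ℝ} (hD : DECc B q A) :
    ∀ ε : ℝ, 0 < ε → ∀ (Na : ℕ) (M0 : ℝ) (M : ℕ), ∃ C : ℝ, 1 ≤ C ∧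
    ∀ h g R D, St B q Na M0 (1/2) h g R D → ∀ r' : ℝ, R ^ (1/2 : ℝ) ≤ r' → r' ≤ R →
    ∀ nb : ℕ, 1 ≤ nb → ∀ cls : E2 × ℝ → OrthonormalBasis (Fin 2) ℝ E2 → ℤ × ℤ → E2 → ℕ,
      (∀ z ∈ cyl R, ∀ b m, Measurable (cls z b m)) → (∀ z b m y, cls z b m y < nb) →
      ∀ nn : ℕ, ∃ L' : Lev, L'.r = r' ∧ LevOk q A (1/2) C B M h g R L' ∧ L'.nb = nb ∧
        (L'.n : ℝ) ≤ C * R ^ ε * nb ∧ (∀ k, L'.cl k < nb) ∧
        (∀ k, L'.par k = L'.cl k % nn) ∧ (∀ k, L'.ac k = L'.cl k / nn) ∧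
        ∀ z ∈ L'.Z, ∀ k < L'.n, ∀ i ∈ L'.I z k, ∀ m, ∀ y ∈ (L'.P z k i).S m,
          cls z (L'.P z k i).b m y = L'.cl k := by
  classical
  intro ε hε Na M0 M
  obtain ⟨C, hC, H⟩ := decr hD ε hε Na M0 M
  refine ⟨C, hC, ?_⟩
  intro h g R D hSt r' hRr hrR nb hnb cls hm hb nn
  have hR := hSt.R1
  have hr1 : 1 ≤ r' := le_trans (Real.one_le_rpow hR (by norm_num)) hRr
  have hr0 : 0 < r' := by linarith
  obtain ⟨n, s, cl, hn1, hn, hSd, hcl, H2⟩ := H R r' hR hRr hrR nb hnb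
  obtain ⟨Z, hZ1, hZ2, hZ3, -⟩ := W323.exists_net hr0 hrR
  have H3 : ∀ z, z ∈ Z → ∃ (G : ℕ → E2 → ℂ) (D' : ℕ → ℝ) (rest : E2 → ℂ) (I : ℕ → Finset ℕ)
            (P : ℕ → ℕ → Plate),
            DecOut q A (1/2) C B nb M h g R r' z (cls z) (Finset.range n) s cl G D' rest I P :=
    fun z hz => H2 (1/2) h g D (by norm_num) hSt z (hZ1 z hz) (cls z) (hm z (hZ1 z hz)) (hb z)
  choose! G D' rest I P H4 using H3
  have H5 : ∀ p, p ∈ cyl R → ∃ z, z ∈ Z ∧ p - z ∈ cyl r' := fun p hp => by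
    obtain ⟨z, hz, h1⟩ := hZ3 p hp
    exact ⟨z, hz, h1⟩
  choose! ζ hζ using H5
  refine ⟨⟨r', n, nb, s, cl, fun k => cl k % nn, fun k => cl k / nn, Z, ζ, G, D', rest, I, P⟩,
    rfl, ?_, rfl, hn, hcl, fun _ => rfl, fun _ => rfl, ?_⟩
  · exact { lo := hRr, hi := hrR, n1 := hn1, nb1 := hnb, Zmem := hZ1, Zsep := hZ2, near := hζ,
            sd := hSd, dec := fun z hz => ⟨cls z, H4 z hz⟩ }
  · intro z hz k hk i hi m y hy
    exact (H4 z hz).cls k (Finset.mem_range.2 hk) i hi m y hy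

/-- **EX1P holds**. -/
theorem ex1p {B : ℕ → ℝ} {q A : ℝ} (hD : DECc B q A) : EX1P B q A := by
  intro ε hε Na M0 M
  obtain ⟨C, hC, H⟩ := lev_exists hD ε hε Na M0 M
  refine ⟨C, hC, ?_⟩
  intro h g R D hSt r' hRr hrR
  obtain ⟨L', h1, h2, h3, h4, _⟩ := H h g R D hSt r' hRr hrR 1 le_rfl (fun _ _ _ _ => 0)
    (fun _ _ _ _ => measurable_const) (fun _ _ _ _ => by simp) 1
  refine ⟨L', h1, h2, h3, ?_⟩
  simpa using h4

/-- **EXP holds**. -/
theorem exp_holds {B : ℕ → ℝ} {q A : ℝ} (hD : DECc B q A) : EXP B q A := by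
  intro ε hε Na M0 M
  obtain ⟨C, hC, H⟩ := lev_exists hD ε hε Na M0 M
  refine ⟨C, hC, ?_⟩
  intro h g R D hSt L Cn' hL h36 r' hRr hrR na aux hna hax hmx
  have hR := hSt.R1
  have hLn : 0 < L.n := hL.n1
  set ρ' : ℝ := r' ^ (-(1/2) : ℝ) with hρ'
  set ar : E2 × ℝ → ℤ × ℤ → E2 → ℕ := fun z m y =>
    argi ρ' (L.pf h z) (Finset.range L.n) m y with har
  have harlt : ∀ z m y, ar z m y < L.n := fun z m y =>
    argi_lt _ _ hLn (by rw [Finset.card_range]) m y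
  have hpf : ∀ z ∈ cyl R, ∀ κ ∈ Finset.range L.n, Integrable (L.pf h z κ) := by
    intro z hz κ hκ
    obtain ⟨cls, hdec⟩ := hL.dec _ (hL.near z hz).1
    have h1 := hdec.st κ hκ
    have h2 : Gd (L.G (L.ζ z) κ) := by
      refine ⟨h1.meas, h1.bdd, fun ξ hξ => h1.supp ξ ?_⟩
      have h3 : L.r ^ (-(1/2) : ℝ) ≤ 1 :=
        Real.rpow_le_one_of_one_le_of_nonpos (by linarith) (by norm_num)
      have h4 : L.r ^ (-(1/2) : ℝ) ≤ 1 / 6 := by
        refine le_of_sq_le_sq ?_ (by norm_num)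
        rw [(rp_facts (by linarith : (1:ℝ) ≤ L.r)).2.2, inv_eq_one_div, div_le_iff₀ (by linarith)]
        linarith
      linarith
    exact (W323.Gd.tr h1.par.1.continuous h2 _).int
  obtain ⟨L', h1, h2, h3, h4, h5, h6, h7, h8⟩ := H h g R D hSt r' hRr (hrR.trans hL.hi)
    (L.n * na) (Nat.mul_pos hLn hna) (fun z b m y => ar z m y + L.n * aux z b m y)
    (fun z hz b m => by
      refine Measurable.add ?_ ((hmx z b m).const_mul _)
      exact measurable_argi (hpf z hz) m)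
    (fun z b m y => by
      have e1 := harlt z m y
      have e2 := hax z b m y
      have e3 : L.n * (aux z b m y + 1) ≤ L.n * na := Nat.mul_le_mul_left _ e2
      rw [Nat.mul_add, Nat.mul_one] at e3
      omega) L.n
  refine ⟨L', h1, h2, ⟨?_, ?_, ?_⟩, h3, ?_, ?_⟩
  · intro k hk
    rw [h6]
    exact Nat.mod_lt _ hLn
  · intro z hz k hk i hi m y hy
    have e1 := h8 z hz k hk i hi m y hy
    rw [h6, ← e1, h1]
    rw [Nat.add_mul_mod_self_left, Nat.mod_eq_of_lt (harlt z m y)]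
  · intro z hz k hk i hi m y hy
    have e1 := h8 z hz k hk i hi m y hy
    rw [h7, ← e1]
    rw [Nat.add_mul_div_left _ _ hLn, Nat.div_eq_of_lt (harlt z m y), Nat.zero_add]
  · intro k
    rw [h7]
    exact Nat.div_lt_of_lt_mul (h5 k)
  · rw [h3]
    exact h4

end Crest.Agent.R138.Ex685
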