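import Mathlib
import Crest.Agent.R138.Tub2_70
import Crest.Agent.R138.Wf2_448
import Crest.Agent.R138.Wpk1_685

-- ▼ part R138/Tub4_70
section

/-! Dictionary waves -> weighted tubes, part 4: isotropic caps of size `l ≥ R^{-1/2}`, multipliers
for weights at scale `w = l R`. -/

set_option autoImplicit false

open MeasureTheory FourierTransform
open scoped ENNReal ContDiff

namespace Crest.Agent.R138.Tub70

open Crest.Agent.R138.Defs (ParB ee ext)
open Crest.Agent.R138.Wpk685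
open Crest.Agent.R138.Wf448 (Nn wE dw decayL LI adj)

/-- derivatives of the profile for large times. -/
theorem norm_iteratedFDeriv_prof_le' (B : ℕ → ℝ) (N : ℕ) {a : E2 → ℂ} (ha : ContDiff ℝ ∞ a)
    (has : ∀ ζ, 3 < ‖ζ‖ → a ζ = 0) : ∃ C : ℝ, 0 ≤ C ∧ ∀ h, ParB B h → ∀ (ξ0 : E2) (l s L : ℝ),
      0 < l → l ≤ 1 → 1 ≤ L → |s| ≤ L → ∀ j ≤ N, ∀ ζ,
        ‖iteratedFDeriv ℝ j (prof a h ξ0 l s) ζ‖ ≤ C * L ^ j := by
  have hts : tsupport a ⊆ Metric.closedBall 0 3 := by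
    apply closure_minimal _ Metric.isClosed_closedBall
    intro x hx
    by_contra hx'
    apply hx
    exact has x (by simpa using hx')
  have hcs : HasCompactSupport a :=
    HasCompactSupport.of_support_subset_isCompact (isCompact_closedBall (0 : E2) 3)
      ((subset_tsupport a).trans hts)
  have hbd : ∀ j : ℕ, ∃ C : ℝ, ∀ ζ, ‖iteratedFDeriv ℝ j a ζ‖ ≤ C := by
    intro j
    have hc : Continuous (iteratedFDeriv ℝ j a) := ha.continuous_iteratedFDeriv (mod_cast le_top)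
    obtain ⟨C, hC⟩ := (hcs.iteratedFDeriv j).exists_bound_of_continuous hc
    exact ⟨C, hC⟩
  choose Ca hCa using hbd
  have hCa0 : ∀ j, 0 ≤ Ca j := fun j => (norm_nonneg _).trans (hCa j 0)
  set D : ℝ := 1 + 3 * ∑ k ∈ Finset.range (N + 3), (1 + |B k|) with hD
  have hDsum : ∀ k < N + 3, 3 * (1 + |B k|) ≤ D - 1 := by
    intro k hk
    have : 1 + |B k| ≤ ∑ k ∈ Finset.range (N + 3), (1 + |B k|) :=
      Finset.single_le_sum (f := fun k => 1 + |B k|) (fun i _ => by positivity)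
        (Finset.mem_range.2 hk)
    rw [hD]; linarith
  have hD1 : 1 ≤ D := by
    have := hDsum 0 (by omega)
    have h2 : 0 ≤ |B 0| := abs_nonneg _
    linarith
  set E : ℝ := (2 * Real.pi) ^ N with hE
  have hpi : 1 ≤ 2 * Real.pi := by linarith [Real.pi_gt_three]
  have hE1 : 1 ≤ E := one_le_pow₀ hpi
  refine ⟨∑ j ∈ Finset.range (N + 1), ∑ i ∈ Finset.range (j + 1),
    (j.choose i : ℝ) * Ca i * ((j - i).factorial * E * D ^ (j - i)), ?_, ?_⟩
  · apply Finset.sum_nonneg; intro j _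
    apply Finset.sum_nonneg; intro i _
    have := hCa0 i
    positivity
  intro h hh ξ0 l s L hl hl1 hL hs j hj ζ
  have hL0 : 0 < L := by linarith
  have hr : ContDiff ℝ ∞ (fun ζ => L * rph h ξ0 l ζ) :=
    contDiff_const.mul (contDiff_rph hh.1 ξ0 l)
  have he : ContDiff ℝ ∞ (fun u => ee ((s / L) * u)) :=
    contDiff_ee.comp (contDiff_const.mul contDiff_id)
  have hee : (fun ζ => ee (s * rph h ξ0 l ζ)) = (fun u => ee ((s / L) * u)) ∘
      (fun ζ => L * rph h ξ0 l ζ) := by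
    funext ζ
    simp only [Function.comp]
    congr 1
    field_simp
  have hnorm : ∀ m, ∀ ζ, ‖iteratedFDeriv ℝ m (fun ζ => L * rph h ξ0 l ζ) ζ‖ =
      L * ‖iteratedFDeriv ℝ m (rph h ξ0 l) ζ‖ := by
    intro m ζ
    have e : (fun ζ => L * rph h ξ0 l ζ) = L • rph h ξ0 l := by
      funext ζ; simp
    rw [e, iteratedFDeriv_const_smul_apply, norm_smul, Real.norm_eq_abs, abs_of_pos hL0]
    exact ((contDiff_rph hh.1 ξ0 l).of_le (mod_cast le_top)).contDiffAt
  -- derivatives of the exponential on the ball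
  have hexp : ∀ i ≤ N, ‖ζ‖ ≤ 3 → ‖iteratedFDeriv ℝ i (fun ζ => ee (s * rph h ξ0 l ζ)) ζ‖ ≤
      i.factorial * E * (L * D) ^ i := by
    intro i hi hζ
    rw [hee]
    have := norm_iteratedFDeriv_comp_le (g := fun u => ee ((s / L) * u))
      (f := fun ζ => L * rph h ξ0 l ζ) (n := i)
      (N := ∞) he hr (mod_cast le_top) ζ (C := E) (D := L * D) ?_ ?_
    · exact this
    · intro m hm
      rw [norm_iteratedFDeriv_ee_mul]
      have hs1 : |s / L| ≤ 1 := by
        rw [abs_div, abs_of_pos hL0, div_le_one hL0]; exact hs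
      calc (2 * Real.pi * |s / L|) ^ m ≤ (2 * Real.pi * 1) ^ m := by gcongr
        _ = (2 * Real.pi) ^ m := by ring
        _ ≤ (2 * Real.pi) ^ N := pow_le_pow_right₀ hpi (hm.trans hi)
    · intro m hm1 hm
      have hLD : 1 ≤ L * D := one_le_mul_of_one_le_of_one_le hL hD1
      rw [hnorm]
      rcases Nat.lt_or_ge m 2 with h2 | h2
      · obtain rfl : m = 1 := by omega
        have h3 := norm_fderiv_rph_le hh ξ0 hl hl1 ζ
        rw [← norm_iteratedFDeriv_zero (𝕜 := ℝ) (f := fderiv ℝ (rph h ξ0 l)),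
          norm_iteratedFDeriv_fderiv] at h3
        have h4 := hDsum 2 (by omega)
        have h5 : B 2 ≤ |B 2| := le_abs_self _
        have h6 : 0 ≤ 1 + B 2 := (norm_nonneg _).trans (norm_phase_le hh 2 le_rfl 0)
        calc _ ≤ L * ((1 + B 2) * ‖ζ‖) := by gcongr
          _ ≤ L * ((1 + B 2) * 3) := by gcongr
          _ ≤ (L * D) ^ 1 := by
            rw [pow_one]
            gcongr
            linarith
      · have h3 := norm_iteratedFDeriv_rph_le hh ξ0 hl hl1 m h2 ζ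
        have h4 := hDsum m (by omega)
        have h5 : B m ≤ |B m| := le_abs_self _
        have h6 : 0 ≤ |B m| := abs_nonneg _
        calc _ ≤ L * (1 + B m) := by gcongr
          _ ≤ L * D := by gcongr; linarith
          _ ≤ (L * D) ^ m := le_self_pow₀ hLD (by omega)
  by_cases hζ : ‖ζ‖ ≤ 3
  · have hcd : ContDiff ℝ ∞ (fun ζ => ee (s * rph h ξ0 l ζ)) :=
      contDiff_ee.comp (contDiff_const.mul (contDiff_rph hh.1 ξ0 l))
    have h1 := norm_iteratedFDeriv_mul_le (𝕜 := ℝ) (N := ∞) ha hcd ζ (n := j)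
      (mod_cast le_top)
    have h2 : ‖iteratedFDeriv ℝ j (prof a h ξ0 l s) ζ‖ ≤ ∑ i ∈ Finset.range (j + 1),
        (j.choose i : ℝ) * Ca i * ((j - i).factorial * E * D ^ (j - i)) * L ^ j := by
      refine h1.trans (Finset.sum_le_sum fun i hi => ?_)
      have hi' := Finset.mem_range.1 hi
      have h3 := hexp (j - i) (by omega) hζ
      have h4 := hCa i ζ
      have h5 : 0 ≤ Ca i := hCa0 i
      have h7 : (j - i).factorial * E * (L * D) ^ (j - i) ≤
          (j - i).factorial * E * D ^ (j - i) * L ^ j := by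
        rw [mul_pow]
        have : L ^ (j - i) ≤ L ^ j := pow_le_pow_right₀ hL (by omega)
        calc _ = (j - i).factorial * E * D ^ (j - i) * L ^ (j - i) := by ring
          _ ≤ _ := by gcongr
      calc (j.choose i : ℝ) * ‖iteratedFDeriv ℝ i a ζ‖ *
            ‖iteratedFDeriv ℝ (j - i) (fun ζ => ee (s * rph h ξ0 l ζ)) ζ‖
          ≤ (j.choose i : ℝ) * Ca i * ((j - i).factorial * E * D ^ (j - i) * L ^ j) := by
            gcongr
            exact h3.trans h7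
        _ = _ := by ring
    refine h2.trans ?_
    rw [← Finset.sum_mul]
    gcongr
    exact Finset.single_le_sum (f := fun j => ∑ i ∈ Finset.range (j + 1),
        (j.choose i : ℝ) * Ca i * ((j - i).factorial * E * D ^ (j - i)))
      (fun j _ => Finset.sum_nonneg fun i _ => by have := hCa0 i; positivity)
      (Finset.mem_range.2 (Nat.lt_succ_of_le hj))
  · have hz : iteratedFDeriv ℝ j (prof a h ξ0 l s) ζ = 0 := by
      have h1 : ζ ∉ tsupport (prof a h ξ0 l s) := by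
        intro hmem
        have hsub : tsupport (prof a h ξ0 l s) ⊆ tsupport a := by
          apply closure_mono
          intro x hx hx'
          apply hx
          simp [prof, hx']
        exact hζ (by simpa using hts (hsub hmem))
      have h2 : ζ ∉ Function.support (iteratedFDeriv ℝ j (prof a h ξ0 l s)) := fun h =>
        h1 (support_iteratedFDeriv_subset j h)
      simpa using h2
    rw [hz, norm_zero]
    refine mul_nonneg ?_ (by positivity)
    apply Finset.sum_nonneg; intro j _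
    apply Finset.sum_nonneg; intro i _
    have := hCa0 i
    positivity

end Crest.Agent.R138.Tub70
end

-- ▼ part R138/Tub5_70
section

/-! Dictionary waves -> weighted tubes, part 5: transport, orthogonality and Bessel inequality for
isotropic caps. -/

set_option autoImplicit false

open MeasureTheory FourierTransform
open scoped ENNReal ContDiff

namespace Crest.Agent.R138.Tub70

open Crest.Agent.R138.Defs (ParB ee ext)
open Crest.Agent.R138.Wpk685
open Crest.Agent.R138.Wf448 (Nn wE dw decayL LI adj)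

/-- the multiplier of a cap of size `l` around `ξ0`. -/
noncomputable def capm (a : E2 → ℂ) (h : E2 → ℝ) (ξ0 : E2) (l s : ℝ) (ξ : E2) : ℂ :=
  prof a h ξ0 l s (l⁻¹ • (ξ - ξ0))

/-- the map `x ↦ x / w`. -/
noncomputable def sc (w : ℝ) : E2 →L[ℝ] E2 := w⁻¹ • ContinuousLinearMap.id ℝ E2

theorem norm_adj_sc_le {w : ℝ} (hw : 0 < w) : ‖adj (sc w)‖ ≤ w⁻¹ := by
  rw [adj, LinearIsometryEquiv.norm_map]
  unfold sc
  rw [norm_smul, norm_inv, Real.norm_eq_abs, abs_of_pos hw]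
  have := ContinuousLinearMap.norm_id_le (𝕜 := ℝ) (E := E2)
  have h0 : 0 < w⁻¹ := by positivity
  nlinarith

theorem dw_eq_pw {w : ℝ} (hw : 0 < w) (n : ℕ) (c x : E2) : dw n (sc w) (x - c) = pw w n c x := by
  unfold dw Crest.Agent.R138.Wf448.gw pw sc
  simp only [smul_apply, ContinuousLinearMap.id_apply, norm_smul, norm_inv,
    Real.norm_eq_abs, abs_of_pos hw]
  rw [inv_mul_eq_div]

theorem wE_eq {w : ℝ} (hw : 0 < w) (n : ℕ) (c : E2) (G : E2 → ℂ) :
    wE n (sc w) c G = En w n (𝓕⁻ G) c := by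
  unfold wE LI En
  apply lintegral_congr
  intro x
  show ENNReal.ofReal (dw n (sc w) (x - c) * ‖𝓕⁻ G x‖ ^ 2) = _
  rw [dw_eq_pw hw, ENNReal.ofReal_mul (pw_pos w n c x).le, mul_comm]
  congr 1
  rw [ENNReal.ofReal_pow (norm_nonneg _), ofReal_norm]

theorem contDiff_capm {a : E2 → ℂ} (ha : ContDiff ℝ ∞ a) {h : E2 → ℝ} (hh : ContDiff ℝ ∞ h)
    (ξ0 : E2) (l s : ℝ) : ContDiff ℝ ∞ (capm a h ξ0 l s) :=
  (contDiff_prof ha hh ξ0 l s).comp ((contDiff_id.sub contDiff_const).const_smul l⁻¹)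

theorem capm_eq_zero {a : E2 → ℂ} (has : ∀ ζ, 3 < ‖ζ‖ → a ζ = 0) (h : E2 → ℝ) (ξ0 : E2) {l : ℝ}
    (hl : 0 < l) (s : ℝ) {ξ : E2} (hξ : 3 * l < ‖ξ - ξ0‖) : capm a h ξ0 l s ξ = 0 := by
  unfold capm prof
  rw [has, zero_mul]
  rw [norm_smul, norm_inv, Real.norm_eq_abs, abs_of_pos hl, inv_mul_eq_div, lt_div_iff₀ hl]
  exact hξ

theorem temperate_capm {a : E2 → ℂ} (ha : ContDiff ℝ ∞ a) (has : ∀ ζ, 3 < ‖ζ‖ → a ζ = 0)
    {h : E2 → ℝ} (hh : ContDiff ℝ ∞ h) (ξ0 : E2) {l : ℝ} (hl : 0 < l) (s : ℝ) :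
    (capm a h ξ0 l s).HasTemperateGrowth := by
  have hc : HasCompactSupport (capm a h ξ0 l s) := by
    apply HasCompactSupport.of_support_subset_isCompact (isCompact_closedBall ξ0 (3 * l))
    intro x hx
    by_contra hx'
    apply hx
    apply capm_eq_zero has h ξ0 hl s
    simpa [dist_eq_norm] using hx'
  have := (hc.toSchwartzMap (contDiff_capm ha hh ξ0 l s)).hasTemperateGrowth
  exact this

/-- the scaled derivatives of the multipliers. -/
theorem Nn_capm_le (B : ℕ → ℝ) (N : ℕ) {a : E2 → ℂ} (ha : ContDiff ℝ ∞ a)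
    (has : ∀ ζ, 3 < ‖ζ‖ → a ζ = 0) : ∃ C : ℝ, 0 ≤ C ∧ ∀ h, ParB B h → ∀ (ξ0 : E2) (l s w : ℝ),
      0 < l → l ≤ 1 → 0 < w → 1 ≤ w * l → |s| ≤ 4 * (w * l) → ∀ j ≤ N, ∀ ξ,
        Nn (sc w) j (capm a h ξ0 l s) ξ ≤ C ∧ (3 * l < ‖ξ - ξ0‖ → Nn (sc w) j (capm a h ξ0 l s) ξ = 0) := by
  obtain ⟨C, hC, H⟩ := norm_iteratedFDeriv_prof_le' B N ha has
  refine ⟨C * 4 ^ N, by positivity, ?_⟩
  intro h hh ξ0 l s w hl hl1 hw hwl hs j hj ξ
  have hcd := contDiff_prof ha hh.1 ξ0 l s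
  have key : ‖iteratedFDeriv ℝ j (capm a h ξ0 l s) ξ‖ =
      l⁻¹ ^ j * ‖iteratedFDeriv ℝ j (prof a h ξ0 l s) (l⁻¹ • (ξ - ξ0))‖ := by
    have e2 := iteratedFDeriv_comp_sub (𝕜 := ℝ) (f := fun z => prof a h ξ0 l s (l⁻¹ • z)) j ξ0 ξ
    have e3 := iteratedFDeriv_comp_const_smul (𝕜 := ℝ) (i := j) l⁻¹
      (hcd.of_le (mod_cast le_top) : ContDiff ℝ j (prof a h ξ0 l s))
    have e1 : iteratedFDeriv ℝ j (capm a h ξ0 l s) ξ =
        l⁻¹ ^ j • iteratedFDeriv ℝ j (prof a h ξ0 l s) (l⁻¹ • (ξ - ξ0)) := by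
      have e4 : capm a h ξ0 l s = fun z => prof a h ξ0 l s (l⁻¹ • (z - ξ0)) := rfl
      rw [e4, e2, e3]
    rw [e1, norm_smul, norm_pow, norm_inv, Real.norm_eq_abs, abs_of_pos hl]
  constructor
  · unfold Nn
    have h1 := (iteratedFDeriv ℝ j (capm a h ξ0 l s) ξ).norm_compContinuousLinearMap_le
      (fun _ => adj (sc w))
    refine h1.trans ?_
    rw [Finset.prod_const, Finset.card_univ, Fintype.card_fin, key]
    have h2 := H h hh ξ0 l s (4 * (w * l)) hl hl1 (by linarith) hs j hj (l⁻¹ • (ξ - ξ0))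
    calc l⁻¹ ^ j * ‖iteratedFDeriv ℝ j (prof a h ξ0 l s) (l⁻¹ • (ξ - ξ0))‖ * ‖adj (sc w)‖ ^ j
        ≤ l⁻¹ ^ j * (C * (4 * (w * l)) ^ j) * w⁻¹ ^ j := by
          gcongr
          exact norm_adj_sc_le hw
      _ = C * 4 ^ j := by
          rw [mul_pow, mul_pow, inv_pow, inv_pow]
          field_simp
      _ ≤ C * 4 ^ N := by
          gcongr
          norm_num
  · intro hξ
    have hz : iteratedFDeriv ℝ j (capm a h ξ0 l s) ξ = 0 := by
      have h1 : ξ ∉ tsupport (capm a h ξ0 l s) := by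
        intro hmem
        have hsub : tsupport (capm a h ξ0 l s) ⊆ Metric.closedBall ξ0 (3 * l) := by
          apply closure_minimal _ Metric.isClosed_closedBall
          intro x hx
          by_contra hx'
          apply hx
          apply capm_eq_zero has h ξ0 hl s
          simpa [dist_eq_norm] using hx'
        have := hsub hmem
        rw [mem_closedBall_iff_norm] at this
        linarith
      have h2 : ξ ∉ Function.support (iteratedFDeriv ℝ j (capm a h ξ0 l s)) := fun h' =>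
        h1 (support_iteratedFDeriv_subset j h')
      simpa using h2
    unfold Nn
    rw [hz]
    have : ((0 : ContinuousMultilinearMap ℝ (fun _ : Fin j => E2) ℂ).compContinuousLinearMap
        fun _ => adj (sc w)) = 0 := by ext; simp
    rw [this, norm_zero]

end Crest.Agent.R138.Tub70
end

-- ▼ part R138/Tub6_70
section

/-! Dictionary waves -> weighted tubes, part 6: the three facts on isotropic caps. -/

set_option autoImplicit false

open MeasureTheory FourierTransform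
open scoped ENNReal ContDiff

namespace Crest.Agent.R138.Tub70

open Crest.Agent.R138.Defs (ParB ee ext)
open Crest.Agent.R138.Wpk685
open Crest.Agent.R138.Wf448 (Nn wE dw decayL LI adj)

/-- bounded measurable functions supported in the unit ball. -/
structure Gd (g : E2 → ℂ) : Prop where
  meas : Measurable g
  bdd : ∃ M : ℝ, ∀ ξ, ‖g ξ‖ ≤ M
  supp : ∀ ξ, 1 < ‖ξ‖ → g ξ = 0

theorem Gd.eq_indicator {g : E2 → ℂ} (hg : Gd g) :
    g = (Metric.closedBall (0 : E2) 1).indicator g := by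
  funext ξ
  by_cases h : ξ ∈ Metric.closedBall (0 : E2) 1
  · rw [Set.indicator_of_mem h]
  · rw [Set.indicator_of_notMem h, hg.supp]
    simpa using h

theorem Gd.memLp {g : E2 → ℂ} (hg : Gd g) (p : ℝ≥0∞) : MemLp g p := by
  obtain ⟨M, hM⟩ := hg.bdd
  rw [hg.eq_indicator, memLp_indicator_iff_restrict Metric.isClosed_closedBall.measurableSet]
  have : IsFiniteMeasure ((volume : Measure E2).restrict (Metric.closedBall 0 1)) := by
    constructor
    rw [Measure.restrict_apply_univ]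
    exact (isCompact_closedBall (0 : E2) 1).measure_lt_top
  exact MemLp.of_bound hg.meas.aestronglyMeasurable M (Filter.Eventually.of_forall hM)

theorem Gd.integrable {g : E2 → ℂ} (hg : Gd g) : Integrable g :=
  memLp_one_iff_integrable.mp (hg.memLp 1)

theorem Gd.mul {g m : E2 → ℂ} (hg : Gd g) (hm : Measurable m) {M : ℝ} (hM : ∀ ξ, ‖m ξ‖ ≤ M) :
    Gd (fun ξ => m ξ * g ξ) := by
  obtain ⟨M', hM'⟩ := hg.bdd
  refine ⟨hm.mul hg.meas, ⟨M * M', fun ξ => ?_⟩, fun ξ hξ => by simp [hg.supp ξ hξ]⟩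
  rw [norm_mul]
  have h0 := norm_nonneg (m ξ)
  have h1 := norm_nonneg (g ξ)
  have h2 := hM ξ
  have h3 := hM' ξ
  gcongr
  linarith

theorem Gd.mul' {g m : E2 → ℂ} (hg : Gd g) (hm : Measurable m) {M : ℝ} (hM : ∀ ξ, ‖m ξ‖ ≤ M) :
    Gd (fun ξ => g ξ * m ξ) := by
  have := hg.mul hm hM
  simpa only [mul_comm] using this

theorem Gd.ee {g : E2 → ℂ} (hg : Gd g) {h : E2 → ℝ} (hh : Continuous h) (t : ℝ) :
    Gd (fun ξ => g ξ * ee (t * h ξ)) :=
  hg.mul' (continuous_ee.comp (continuous_const.mul hh)).measurable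
    (fun _ => (norm_ee _).le)

theorem ext_eq (h : E2 → ℝ) (g : E2 → ℂ) (x : E2) (t : ℝ) :
    ext h g x t = 𝓕⁻ (fun ξ => g ξ * ee (t * h ξ)) x := by
  rw [fourierInv_eq_int]
  unfold ext
  congr 1
  funext ξ
  rw [ee_add]
  ring

theorem phase_eq (h : E2 → ℝ) (ξ0 : E2) {l : ℝ} (hl : l ≠ 0) (ξ : E2) :
    h ξ = h ξ0 + inner ℝ (gradient h ξ0) (ξ - ξ0) + l ^ 2 * rph h ξ0 l (l⁻¹ • (ξ - ξ0)) := by
  unfold rph
  rw [mul_inv_cancel_left₀ (pow_ne_zero 2 hl), smul_smul, mul_inv_cancel₀ hl, one_smul,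
    inner_smul_right, mul_inv_cancel_left₀ hl]
  have : ξ0 + (ξ - ξ0) = ξ := by abel
  rw [this]
  ring

/-- transport of a cap. -/
theorem ext_transport (h : E2 → ℝ) (ξ0 : E2) {l : ℝ} (hl : l ≠ 0) {a b : E2 → ℂ}
    (hab : ∀ ζ, a ζ ≠ 0 → b ζ = 1) (g : E2 → ℂ) (t t' : ℝ) (y : E2) :
    ‖ext h (fun ξ => capm a h ξ0 l 0 ξ * g ξ) y t'‖ =
      ‖𝓕⁻ (fun ξ => capm b h ξ0 l ((t' - t) * l ^ 2) ξ *
        (capm a h ξ0 l 0 ξ * g ξ * ee (t * h ξ))) (y + (t' - t) • gradient h ξ0)‖ := by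
  have key : ext h (fun ξ => capm a h ξ0 l 0 ξ * g ξ) y t' =
      ee ((t' - t) * (h ξ0 - inner ℝ (gradient h ξ0) ξ0)) *
      𝓕⁻ (fun ξ => capm b h ξ0 l ((t' - t) * l ^ 2) ξ *
        (capm a h ξ0 l 0 ξ * g ξ * ee (t * h ξ))) (y + (t' - t) • gradient h ξ0) := by
    rw [fourierInv_eq_int]
    unfold ext
    rw [← integral_const_mul]
    congr 1
    funext ξ
    by_cases ha : a (l⁻¹ • (ξ - ξ0)) = 0
    · have h0 : capm a h ξ0 l 0 ξ = 0 := by simp [capm, prof, ha]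
      have h1 : ∀ z1 z2 z3 z4 : ℂ, capm a h ξ0 l 0 ξ * z1 * z2 =
          z3 * (z4 * (capm a h ξ0 l 0 ξ * g ξ * ee (t * h ξ)) * ee (inner ℝ
            (y + (t' - t) • gradient h ξ0) ξ)) := by
        intro z1 z2 z3 z4
        rw [h0]; simp
      exact h1 _ _ _ _
    · have hb := hab _ ha
      have e1 : capm b h ξ0 l ((t' - t) * l ^ 2) ξ =
          ee ((t' - t) * l ^ 2 * rph h ξ0 l (l⁻¹ • (ξ - ξ0))) := by
        simp [capm, prof, hb]
      rw [e1]
      have e2 : inner ℝ y ξ + t' * h ξ =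
          ((t' - t) * (h ξ0 - inner ℝ (gradient h ξ0) ξ0)) +
          (((t' - t) * l ^ 2 * rph h ξ0 l (l⁻¹ • (ξ - ξ0))) +
            (t * h ξ + inner ℝ (y + (t' - t) • gradient h ξ0) ξ)) := by
        have e3 := phase_eq h ξ0 hl ξ
        have e4 : t' * h ξ = t * h ξ + (t' - t) * h ξ := by ring
        rw [e4]
        nth_rewrite 2 [e3]
        rw [inner_add_left, inner_smul_left, inner_sub_right]
        simp only [conj_trivial]
        ring
      rw [e2, ee_add, ee_add, ee_add]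
      ring
  rw [key, norm_mul, norm_ee, one_mul]

theorem En_translate {w : ℝ} (n : ℕ) (f : E2 → ℂ) (v x : E2) :
    En w n (fun y => f (y + v)) x = En w n f (x + v) := by
  unfold En
  have := lintegral_add_right_eq_self (μ := (volume : Measure E2))
    (fun y => ‖f y‖ₑ ^ 2 * ENNReal.ofReal (pw w n (x + v) y)) v
  rw [← this]
  apply lintegral_congr
  intro y
  rw [pw_add]

theorem En_congr {w : ℝ} (n : ℕ) {f f' : E2 → ℂ} (h : ∀ y, ‖f y‖ = ‖f' y‖) (x : E2) :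
    En w n f x = En w n f' x := by
  unfold En
  apply lintegral_congr
  intro y
  have : ‖f y‖ₑ = ‖f' y‖ₑ := by
    rw [← ofReal_norm, ← ofReal_norm, h]
  rw [this]

theorem norm_capm_le {a : E2 → ℂ} {A : ℝ} (hA : ∀ ζ, ‖a ζ‖ ≤ A) (h : E2 → ℝ) (ξ0 : E2) (l s : ℝ)
    (ξ : E2) : ‖capm a h ξ0 l s ξ‖ ≤ A := by
  unfold capm prof
  rw [norm_mul, norm_ee, mul_one]
  exact hA _

/-- **transport** (W4 for isotropic caps). -/
theorem transp_cap (B : ℕ → ℝ) (n : ℕ) {a b : E2 → ℂ} (ha : ContDiff ℝ ∞ a) (hb : ContDiff ℝ ∞ b)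
    {A : ℝ} (haA : ∀ ζ, ‖a ζ‖ ≤ A)
    (hbs : ∀ ζ, 3 < ‖ζ‖ → b ζ = 0) (hab : ∀ ζ, a ζ ≠ 0 → b ζ = 1) : ∃ C : ℝ, 0 ≤ C ∧
    ∀ h, ParB B h → ∀ g, Gd g → ∀ (ξ0 : E2) (l w : ℝ), 0 < l → l ≤ 1 → 0 < w → 1 ≤ w * l →
      ∀ t t' : ℝ, |t' - t| * l ≤ 4 * w → ∀ x : E2,
        En w n (fun y => ext h (fun ξ => capm a h ξ0 l 0 ξ * g ξ) y t') x ≤
          ENNReal.ofReal C * En w n (fun y => ext h (fun ξ => capm a h ξ0 l 0 ξ * g ξ) y t)
            (x + (t' - t) • gradient h ξ0) := by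
  obtain ⟨C1, hC1, H1⟩ := decayL (V := E2) (W := E2) n
  obtain ⟨C2, hC2, H2⟩ := Nn_capm_le B n hb hbs
  refine ⟨C1 * (C2 + 1) ^ 2, by positivity, ?_⟩
  intro h hh g hg ξ0 l w hl hl1 hw hwl t t' htt x
  have hcont : Continuous (capm a h ξ0 l 0) := (contDiff_capm ha hh.1 ξ0 l 0).continuous
  have hG : Gd (fun ξ => capm a h ξ0 l 0 ξ * g ξ) :=
    hg.mul hcont.measurable (norm_capm_le haA h ξ0 l 0)
  have hF : Gd (fun ξ => capm a h ξ0 l 0 ξ * g ξ * ee (t * h ξ)) := hG.ee hh.1.continuous t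
  rw [En_congr n (ext_transport h ξ0 hl.ne' hab g t t') x,
    En_translate n (fun y => 𝓕⁻ (fun ξ => capm b h ξ0 l ((t' - t) * l ^ 2) ξ *
        (capm a h ξ0 l 0 ξ * g ξ * ee (t * h ξ))) y)]
  have key := H1 (sc w) (x + (t' - t) • gradient h ξ0) (Fin 1) (Fin 1)
    (fun _ _ => capm b h ξ0 l ((t' - t) * l ^ 2))
    (fun _ ξ => capm a h ξ0 l 0 ξ * g ξ * ee (t * h ξ)) (C2 + 1) (by positivity)
    (fun _ _ => temperate_capm hb hbs hh.1 ξ0 hl _)
    (fun _ => hF.integrable) (fun _ => hF.memLp 2) ?_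
  · simp only [Finset.univ_unique, Finset.sum_singleton, wE_eq hw] at key
    refine key.trans (le_of_eq ?_)
    congr 1
    apply En_congr
    intro y
    rw [ext_eq]
  · intro j hj ξ
    simp only [Finset.univ_unique, Finset.sum_singleton]
    have hs : |(t' - t) * l ^ 2| ≤ 4 * (w * l) := by
      rw [abs_mul, abs_of_pos (by positivity : (0:ℝ) < l ^ 2)]
      nlinarith
    have := (H2 h hh ξ0 l _ w hl hl1 hw hwl hs j hj ξ).1
    have h0 : 0 ≤ Nn (sc w) j (capm b h ξ0 l ((t' - t) * l ^ 2)) ξ := norm_nonneg _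
    gcongr
    linarith


/-- the overlap of the caps. -/
def Overlap {ι : Type} [Fintype ι] (ξ0 : ι → E2) (l M : ℝ) : Prop :=
  ∀ (ξ : E2) [DecidablePred fun i => ‖ξ - ξ0 i‖ ≤ 3 * l],
    ∑ i, (if ‖ξ - ξ0 i‖ ≤ 3 * l then (1 : ℝ) else 0) ≤ M

theorem Overlap.nonneg {ι : Type} [Fintype ι] {ξ0 : ι → E2} {l M : ℝ} (h : Overlap ξ0 l M) :
    0 ≤ M := by
  classical
  refine le_trans ?_ (h 0)
  exact Finset.sum_nonneg fun i _ => by split_ifs <;> norm_num

theorem sum_Nn_sq_le {ι : Type} [Fintype ι] {ξ0 : ι → E2} {l M C : ℝ} (hM : Overlap ξ0 l M)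
    {N : ι → ℝ} (ξ : E2) (hN0 : ∀ i, 0 ≤ N i) (hN : ∀ i, N i ≤ C)
    (hz : ∀ i, 3 * l < ‖ξ - ξ0 i‖ → N i = 0) (hC : 0 ≤ C) :
    ∑ i, N i ^ 2 ≤ ((C + 1) * Real.sqrt (M + 1)) ^ 2 := by
  classical
  have h1 : ∀ i, N i ^ 2 ≤ (C + 1) ^ 2 * (if ‖ξ - ξ0 i‖ ≤ 3 * l then (1 : ℝ) else 0) := by
    intro i
    split_ifs with h
    · rw [mul_one]
      have := hN0 i
      have := hN i
      gcongr
      linarith
    · rw [hz i (not_le.mp h)]; simp
  refine (Finset.sum_le_sum fun i _ => h1 i).trans ?_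
  rw [← Finset.mul_sum, mul_pow, Real.sq_sqrt (by linarith [hM.nonneg])]
  have := hM ξ
  gcongr
  linarith

/-- **local orthogonality** of isotropic caps. -/
theorem ortho_caps (B : ℕ → ℝ) (n : ℕ) {a b : E2 → ℂ} (ha : ContDiff ℝ ∞ a) (hb : ContDiff ℝ ∞ b)
    {A : ℝ} (haA : ∀ ζ, ‖a ζ‖ ≤ A)
    (hbs : ∀ ζ, 3 < ‖ζ‖ → b ζ = 0) (hab : ∀ ζ, a ζ ≠ 0 → b ζ = 1) : ∃ C : ℝ, 0 ≤ C ∧
    ∀ h, ParB B h → ∀ (ι : Type) [Fintype ι] (ξ0 : ι → E2) (g : ι → E2 → ℂ), (∀ i, Gd (g i)) →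
      ∀ (l w M : ℝ), 0 < l → l ≤ 1 → 0 < w → 1 ≤ w * l → Overlap ξ0 l M → ∀ (t : ℝ) (x : E2),
        En w n (fun y => ∑ i, ext h (fun ξ => capm a h (ξ0 i) l 0 ξ * g i ξ) y t) x ≤
          ENNReal.ofReal (C * (M + 1)) *
            ∑ i, En w n (fun y => ext h (fun ξ => capm a h (ξ0 i) l 0 ξ * g i ξ) y t) x := by
  obtain ⟨C1, hC1, H1⟩ := decayL (V := E2) (W := E2) n
  obtain ⟨C2, hC2, H2⟩ := Nn_capm_le B n hb hbs
  refine ⟨C1 * (C2 + 1) ^ 2, by positivity, ?_⟩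
  intro h hh ι _ ξ0 g hg l w M hl hl1 hw hwl hM t x
  have hM0 := hM.nonneg
  have hF : ∀ i, Gd (fun ξ => capm a h (ξ0 i) l 0 ξ * g i ξ * ee (t * h ξ)) := fun i =>
    ((hg i).mul (contDiff_capm ha hh.1 (ξ0 i) l 0).continuous.measurable
      (norm_capm_le haA h (ξ0 i) l 0)).ee hh.1.continuous t
  have key := H1 (sc w) x ι (Fin 1)
    (fun _ i => capm b h (ξ0 i) l 0)
    (fun i ξ => capm a h (ξ0 i) l 0 ξ * g i ξ * ee (t * h ξ)) ((C2 + 1) * Real.sqrt (M + 1))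
    (by positivity)
    (fun _ i => temperate_capm hb hbs hh.1 (ξ0 i) hl _)
    (fun i => (hF i).integrable) (fun i => (hF i).memLp 2) ?_
  · simp only [Finset.univ_unique, Finset.sum_singleton, wE_eq hw] at key
    have e1 : En w n (fun y => ∑ i, ext h (fun ξ => capm a h (ξ0 i) l 0 ξ * g i ξ) y t) x =
        En w n (𝓕⁻ fun ξ => ∑ i, capm b h (ξ0 i) l 0 ξ *
          (capm a h (ξ0 i) l 0 ξ * g i ξ * ee (t * h ξ))) x := by
      apply En_congr
      intro y
      congr 1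
      rw [fourierInv_eq_int]
      simp only [Finset.sum_mul]
      rw [integral_finsetSum]
      · apply Finset.sum_congr rfl
        intro i _
        rw [ext_eq, fourierInv_eq_int]
        congr 1
        funext ξ
        by_cases ha0 : a (l⁻¹ • (ξ - ξ0 i)) = 0
        · have h0 : capm a h (ξ0 i) l 0 ξ = 0 := by simp [capm, prof, ha0]
          have h1 : ∀ z1 z2 z3 : ℂ, capm a h (ξ0 i) l 0 ξ * z1 * z2 * z3 =
              capm b h (ξ0 i) l 0 ξ * (capm a h (ξ0 i) l 0 ξ * z1 * z2) * z3 := by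
            intro z1 z2 z3
            rw [h0]; simp
          exact h1 _ _ _
        · have h0 : capm b h (ξ0 i) l 0 ξ = 1 := by
            simp [capm, prof, hab _ ha0, ee_zero]
          have h1 : ∀ z1 z2 z3 : ℂ, capm a h (ξ0 i) l 0 ξ * z1 * z2 * z3 =
              capm b h (ξ0 i) l 0 ξ * (capm a h (ξ0 i) l 0 ξ * z1 * z2) * z3 := by
            intro z1 z2 z3
            rw [h0]; simp
          exact h1 _ _ _
      · intro i _
        obtain ⟨Cb, hCb⟩ : ∃ Cb : ℝ, ∀ ξ, ‖capm b h (ξ0 i) l 0 ξ‖ ≤ Cb := by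
          refine ⟨C2, fun ξ => ?_⟩
          have := (H2 h hh (ξ0 i) l 0 w hl hl1 hw hwl (by simp; positivity) 0 (Nat.zero_le _) ξ).1
          rwa [Crest.Agent.R138.Wf448.Nn_zero] at this
        have hG := (hF i).mul (contDiff_capm hb hh.1 (ξ0 i) l 0).continuous.measurable hCb
        exact (hG.mul' (m := fun ξ => ee (inner ℝ y ξ))
          (continuous_ee.comp (continuous_const.inner continuous_id)).measurable
          (fun _ => (norm_ee _).le)).integrable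
    rw [e1]
    refine key.trans (le_of_eq ?_)
    congr 1
    · rw [mul_pow, Real.sq_sqrt (by linarith)]
      congr 1; ring
    · apply Finset.sum_congr rfl
      intro i _
      apply En_congr
      intro y
      rw [ext_eq]
  · intro j hj ξ
    simp only [Finset.univ_unique, Finset.sum_singleton]
    exact sum_Nn_sq_le hM ξ (fun i => norm_nonneg _)
      (fun i => (H2 h hh (ξ0 i) l 0 w hl hl1 hw hwl (by simp; positivity) j hj ξ).1)
      (fun i => (H2 h hh (ξ0 i) l 0 w hl hl1 hw hwl (by simp; positivity) j hj ξ).2) hC2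

/-- **Bessel inequality** for isotropic caps. -/
theorem bessel_caps (B : ℕ → ℝ) (n : ℕ) {a : E2 → ℂ} (ha : ContDiff ℝ ∞ a)
    (has : ∀ ζ, 3 < ‖ζ‖ → a ζ = 0) : ∃ C : ℝ, 0 ≤ C ∧
    ∀ h, ParB B h → ∀ (ι : Type) [Fintype ι] (ξ0 : ι → E2) (g : E2 → ℂ), Gd g →
      ∀ (l w M : ℝ), 0 < l → l ≤ 1 → 0 < w → 1 ≤ w * l → Overlap ξ0 l M → ∀ (t : ℝ) (x : E2),
        ∑ i, En w n (fun y => ext h (fun ξ => capm a h (ξ0 i) l 0 ξ * g ξ) y t) x ≤
          ENNReal.ofReal (C * (M + 1)) * En w n (fun y => ext h g y t) x := by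
  obtain ⟨C1, hC1, H1⟩ := decayL (V := E2) (W := E2) n
  obtain ⟨C2, hC2, H2⟩ := Nn_capm_le B n ha has
  refine ⟨C1 * (C2 + 1) ^ 2, by positivity, ?_⟩
  intro h hh ι _ ξ0 g hg l w M hl hl1 hw hwl hM t x
  have hM0 := hM.nonneg
  have hF : Gd (fun ξ => g ξ * ee (t * h ξ)) := hg.ee hh.1.continuous t
  have key := H1 (sc w) x (Fin 1) ι
    (fun i _ => capm a h (ξ0 i) l 0)
    (fun _ ξ => g ξ * ee (t * h ξ)) ((C2 + 1) * Real.sqrt (M + 1))
    (by positivity)
    (fun i _ => temperate_capm ha has hh.1 (ξ0 i) hl _)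
    (fun i => hF.integrable) (fun i => hF.memLp 2) ?_
  · simp only [Finset.univ_unique, Finset.sum_singleton, wE_eq hw] at key
    have e1 : ∀ i, En w n (fun y => ext h (fun ξ => capm a h (ξ0 i) l 0 ξ * g ξ) y t) x =
        En w n (𝓕⁻ fun ξ => capm a h (ξ0 i) l 0 ξ * (g ξ * ee (t * h ξ))) x := by
      intro i
      apply En_congr
      intro y
      rw [ext_eq]
      simp only [mul_assoc]
    simp only [e1]
    refine key.trans (le_of_eq ?_)
    congr 1
    · rw [mul_pow, Real.sq_sqrt (by linarith)]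
      congr 1; ring
    · apply En_congr
      intro y
      rw [ext_eq]
  · intro j hj ξ
    simp only [Finset.univ_unique, Finset.sum_singleton]
    exact sum_Nn_sq_le hM ξ (fun i => norm_nonneg _)
      (fun i => (H2 h hh (ξ0 i) l 0 w hl hl1 hw hwl (by simp; positivity) j hj ξ).1)
      (fun i => (H2 h hh (ξ0 i) l 0 w hl hl1 hw hwl (by simp; positivity) j hj ξ).2) hC2

end Crest.Agent.R138.Tub70
end

-- ▼ part R138/Tub7_70

/-! Dictionary waves -> weighted tubes, part 7: the lattice partition of unity and the pieces. -/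

set_option autoImplicit false

open MeasureTheory FourierTransform
open scoped ENNReal ContDiff

namespace Crest.Agent.R138.Tub70

open Crest.Agent.R138.Defs (ParB ee ext)
open Crest.Agent.R138.Wpk685

/-- the one-dimensional profile. -/
noncomputable def ph (t : ℝ) : ℝ := Real.smoothTransition (t + 1) - Real.smoothTransition t

theorem ph_nonneg (t : ℝ) : 0 ≤ ph t := by
  unfold ph
  rcases le_total t 0 with h | h
  · rw [Real.smoothTransition.zero_of_nonpos h, sub_zero]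
    exact Real.smoothTransition.nonneg _
  · rw [Real.smoothTransition.one_of_one_le (by linarith)]
    linarith [Real.smoothTransition.le_one t]

theorem ph_le_one (t : ℝ) : ph t ≤ 1 := by
  unfold ph
  linarith [Real.smoothTransition.le_one (t + 1), Real.smoothTransition.nonneg t]

theorem ph_zero {t : ℝ} (h : 1 ≤ |t|) : ph t = 0 := by
  unfold ph
  rcases le_abs'.mp h with h | h
  · rw [Real.smoothTransition.zero_of_nonpos (by linarith),
      Real.smoothTransition.zero_of_nonpos (by linarith), sub_zero]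
  · rw [Real.smoothTransition.one_of_one_le (by linarith),
      Real.smoothTransition.one_of_one_le (by linarith), sub_self]

theorem contDiff_ph : ContDiff ℝ ∞ ph := by
  unfold ph
  exact (Real.smoothTransition.contDiff.comp (contDiff_id.add contDiff_const)).sub
    Real.smoothTransition.contDiff

theorem sum_ph (M : ℕ) {t : ℝ} (ht : |t| ≤ M) :
    ∑ k ∈ Finset.Icc (-(M : ℤ)) M, ph (t - k) = 1 := by
  have key : ∀ m : ℕ, ∑ k ∈ Finset.Ico (-(M : ℤ)) (-(M : ℤ) + m), ph (t - k) =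
      Real.smoothTransition (t + M + 1) - Real.smoothTransition (t + M + 1 - m) := by
    intro m
    induction m with
    | zero => simp
    | succ m ih =>
      have e : Finset.Ico (-(M : ℤ)) (-(M : ℤ) + (m + 1 : ℕ)) =
          insert (-(M : ℤ) + m) (Finset.Ico (-(M : ℤ)) (-(M : ℤ) + m)) := by
        ext x
        simp only [Finset.mem_Ico, Finset.mem_insert]
        push_cast
        omega
      rw [e, Finset.sum_insert (by simp), ih]
      unfold ph
      push_cast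
      have e1 : t - (-(M : ℝ) + m) + 1 = t + M + 1 - m := by ring
      have e2 : t - (-(M : ℝ) + m) = t + M + 1 - (m + 1) := by ring
      rw [e1, e2]
      ring
  have e : Finset.Icc (-(M : ℤ)) M = Finset.Ico (-(M : ℤ)) (-(M : ℤ) + (2 * M + 1 : ℕ)) := by
    ext x
    simp only [Finset.mem_Icc, Finset.mem_Ico]
    push_cast
    omega
  rw [e, key]
  have h := abs_le.mp ht
  rw [Real.smoothTransition.one_of_one_le (by linarith),
    Real.smoothTransition.zero_of_nonpos (by push_cast; linarith), sub_zero]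

/-- the two-dimensional profile. -/
noncomputable def aa (ζ : E2) : ℂ := ((ph (ζ 0) * ph (ζ 1) : ℝ) : ℂ)

theorem contDiff_aa : ContDiff ℝ ∞ aa := by
  unfold aa
  have h : ∀ i : Fin 2, ContDiff ℝ ∞ (fun ζ : E2 => ζ i) := fun i =>
    (EuclideanSpace.proj (𝕜 := ℝ) i).contDiff
  exact Complex.ofRealCLM.contDiff.comp ((contDiff_ph.comp (h 0)).mul (contDiff_ph.comp (h 1)))

theorem norm_aa_le (ζ : E2) : ‖aa ζ‖ ≤ 1 := by
  unfold aa
  rw [Complex.norm_real, Real.norm_eq_abs,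
    abs_of_nonneg (mul_nonneg (ph_nonneg _) (ph_nonneg _))]
  exact mul_le_one₀ (ph_le_one _) (ph_nonneg _) (ph_le_one _)

theorem aa_zero {ζ : E2} (h : 3/2 < ‖ζ‖) : aa ζ = 0 := by
  unfold aa
  have : 1 ≤ |ζ 0| ∨ 1 ≤ |ζ 1| := by
    by_contra hc
    push Not at hc
    have h1 : ‖ζ‖ ^ 2 = ζ 0 ^ 2 + ζ 1 ^ 2 := by
      rw [EuclideanSpace.norm_sq_eq]
      simp [Fin.sum_univ_two, sq_abs]
    have h2 : ζ 0 ^ 2 < 1 := by rw [← sq_abs]; nlinarith [abs_nonneg (ζ 0)]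
    have h3 : ζ 1 ^ 2 < 1 := by rw [← sq_abs]; nlinarith [abs_nonneg (ζ 1)]
    nlinarith
  rcases this with h | h
  · simp [ph_zero h]
  · simp [ph_zero h]

/-- the set of the lattice points. -/
noncomputable def Sl (M : ℕ) : Finset (ℤ × ℤ) :=
  Finset.Icc (-(M : ℤ)) M ×ˢ Finset.Icc (-(M : ℤ)) M

theorem sum_aa (M : ℕ) {ζ : E2} (h0 : |ζ 0| ≤ M) (h1 : |ζ 1| ≤ M) :
    ∑ k ∈ Sl M, aa (ζ - Lat 1 k) = 1 := by
  unfold Sl aa
  rw [← Complex.ofReal_sum, Finset.sum_product]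
  have : ∀ x ∈ Finset.Icc (-(M : ℤ)) M, ∑ y ∈ Finset.Icc (-(M : ℤ)) M,
      ph ((ζ - Lat 1 (x, y)) 0) * ph ((ζ - Lat 1 (x, y)) 1) = ph (ζ 0 - x) := by
    intro x _
    simp only [PiLp.sub_apply, Lat_zero_coord, Lat_one_coord, one_mul]
    rw [← Finset.mul_sum, sum_ph M h1, mul_one]
  rw [Finset.sum_congr rfl this, sum_ph M h0]
  simp

/-- the fat profile. -/
noncomputable def bb : E2 → ℂ := fun ζ =>
  (((⟨3/2, 3, by norm_num, by norm_num⟩ : ContDiffBump (0 : E2)) ζ : ℝ) : ℂ)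

theorem contDiff_bb : ContDiff ℝ ∞ bb := by
  unfold bb
  exact Complex.ofRealCLM.contDiff.comp (ContDiffBump.contDiff _)

theorem bb_one {ζ : E2} (h : ‖ζ‖ ≤ 3/2) : bb ζ = 1 := by
  unfold bb
  rw [ContDiffBump.one_of_mem_closedBall]
  · simp
  · simpa using h

theorem bb_zero (ζ : E2) (h : 3 < ‖ζ‖) : bb ζ = 0 := by
  unfold bb
  rw [ContDiffBump.zero_of_le_dist]
  · simp
  · simpa using h.le

theorem bb_of_aa (ζ : E2) (h : aa ζ ≠ 0) : bb ζ = 1 := by
  apply bb_one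
  by_contra hc
  exact h (aa_zero (not_le.mp hc))

theorem aa_zero3 (ζ : E2) (h : 3 < ‖ζ‖) : aa ζ = 0 := aa_zero (by linarith)

/-- the number of caps. -/
noncomputable def Ml (l : ℝ) : ℕ := ⌈l⁻¹⌉₊

theorem norm_Lat_le {l : ℝ} (hl : 0 < l) (hl1 : l ≤ 1) {k : ℤ × ℤ} (hk : k ∈ Sl (Ml l)) :
    ‖Lat l k‖ ≤ 3 := by
  have hM : (Ml l : ℝ) ≤ l⁻¹ + 1 := (Nat.ceil_lt_add_one (by positivity)).le
  have hlM : l * (Ml l : ℝ) ≤ 2 := by
    calc l * (Ml l : ℝ) ≤ l * (l⁻¹ + 1) := by gcongr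
      _ = 1 + l := by field_simp
      _ ≤ 2 := by linarith
  unfold Sl at hk
  rw [Finset.mem_product, Finset.mem_Icc, Finset.mem_Icc] at hk
  obtain ⟨⟨h1, h2⟩, h3, h4⟩ := hk
  have g1 : |(k.1 : ℝ)| ≤ Ml l := abs_le.mpr ⟨by exact_mod_cast h1, by exact_mod_cast h2⟩
  have g2 : |(k.2 : ℝ)| ≤ Ml l := abs_le.mpr ⟨by exact_mod_cast h3, by exact_mod_cast h4⟩
  have h5 : ‖Lat l k‖ ^ 2 = (l * k.1) ^ 2 + (l * k.2) ^ 2 := by
    rw [EuclideanSpace.norm_sq_eq]
    simp [Fin.sum_univ_two, sq_abs]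
  have h6 : |l * k.1| ≤ 2 := by
    rw [abs_mul, abs_of_pos hl]
    exact (mul_le_mul_of_nonneg_left g1 hl.le).trans hlM
  have h7 : |l * k.2| ≤ 2 := by
    rw [abs_mul, abs_of_pos hl]
    exact (mul_le_mul_of_nonneg_left g2 hl.le).trans hlM
  have h8 : (l * k.1) ^ 2 ≤ 4 := by rw [← sq_abs]; nlinarith [abs_nonneg (l * (k.1 : ℝ))]
  have h9 : (l * k.2) ^ 2 ≤ 4 := by rw [← sq_abs]; nlinarith [abs_nonneg (l * (k.2 : ℝ))]
  nlinarith [norm_nonneg (Lat l k)]

/-- the cap function. -/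
noncomputable def cp (l : ℝ) (k : ℤ × ℤ) (ξ : E2) : ℂ := aa (l⁻¹ • (ξ - Lat l k))

theorem capm_aa (h : E2 → ℝ) (l : ℝ) (k : ℤ × ℤ) (ξ : E2) :
    capm aa h (Lat l k) l 0 ξ = cp l k ξ := by
  unfold capm prof cp
  rw [zero_mul, ee_zero, mul_one]

theorem Lat_smul (r w : ℝ) (k : ℤ × ℤ) : r • Lat w k = Lat (r * w) k := by
  ext i; fin_cases i <;> simp [Lat, mul_assoc]

theorem sum_cp {l : ℝ} (hl : 0 < l) {ξ : E2} (hξ : ‖ξ‖ ≤ 1) : ∑ k ∈ Sl (Ml l), cp l k ξ = 1 := by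
  have hc : ∀ i : Fin 2, |ξ i| ≤ 1 := by
    intro i
    have := PiLp.norm_apply_le ξ i
    rw [Real.norm_eq_abs] at this
    linarith
  have hM : l⁻¹ ≤ (Ml l : ℝ) := Nat.le_ceil _
  have hc' : ∀ i : Fin 2, |(l⁻¹ • ξ) i| ≤ (Ml l : ℝ) := by
    intro i
    simp only [PiLp.smul_apply, smul_eq_mul]
    rw [abs_mul, abs_of_pos (by positivity : (0:ℝ) < l⁻¹)]
    have h1 : 0 < l⁻¹ := by positivity
    have := hc i
    nlinarith [abs_nonneg (ξ i)]
  rw [← sum_aa (Ml l) (ζ := l⁻¹ • ξ) (hc' 0) (hc' 1)]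
  apply Finset.sum_congr rfl
  intro k _
  unfold cp
  rw [smul_sub, Lat_smul, inv_mul_cancel₀ hl.ne']

/-- the overlap constant. -/
noncomputable def OV : ℝ := 400 * LS.toReal

theorem OV_nonneg : 0 ≤ OV := by unfold OV; positivity

theorem sum_near_le {l : ℝ} (hl : 0 < l) (S : Finset (ℤ × ℤ)) (ξ : E2)
    [DecidablePred fun k : ℤ × ℤ => ‖ξ - Lat l k‖ ≤ 3 * l] :
    ∑ k ∈ S, (if ‖ξ - Lat l k‖ ≤ 3 * l then (1 : ℝ) else 0) ≤ OV := by
  have h1 : ∀ k ∈ S, (if ‖ξ - Lat l k‖ ≤ 3 * l then (1 : ℝ) else 0) ≤ 100 * pw l 2 (Lat l k) ξ := by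
    intro k _
    split_ifs with h
    · unfold pw
      have h2 : ‖ξ - Lat l k‖ / l ≤ 3 := by rw [div_le_iff₀ hl]; exact h
      have h3 : (‖ξ - Lat l k‖ / l) ^ 2 ≤ 9 := by
        have : 0 ≤ ‖ξ - Lat l k‖ / l := by positivity
        nlinarith
      have h4 : (1 + (‖ξ - Lat l k‖ / l) ^ 2) ^ 2 ≤ 100 := by
        have : 0 ≤ (‖ξ - Lat l k‖ / l) ^ 2 := by positivity
        nlinarith
      rw [le_mul_inv_iff₀ (by positivity)]
      linarith
    · have := pw_pos l 2 (Lat l k) ξ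
      positivity
  refine (Finset.sum_le_sum h1).trans ?_
  rw [← Finset.mul_sum]
  have h2 : ∑ k ∈ S, pw l 2 (Lat l k) ξ ≤ 4 * LS.toReal := by
    have h3 : ∑ k ∈ S, ENNReal.ofReal (pw l 2 (Lat l k) ξ) ≤ 4 * LS :=
      (ENNReal.sum_le_tsum S).trans (tsum_pw_le hl le_rfl ξ)
    rw [← ENNReal.ofReal_sum_of_nonneg (fun k _ => (pw_pos _ _ _ _).le)] at h3
    have h4 : ENNReal.ofReal (∑ k ∈ S, pw l 2 (Lat l k) ξ) ≤ ENNReal.ofReal (4 * LS.toReal) := by
      refine h3.trans (le_of_eq ?_)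
      rw [ENNReal.ofReal_mul (by norm_num), ENNReal.ofReal_toReal LS_ne_top]
      norm_num
    exact (ENNReal.ofReal_le_ofReal_iff (by positivity)).mp h4
  unfold OV
  linarith

theorem overlap_lat {l : ℝ} (hl : 0 < l) (S : Finset (ℤ × ℤ)) :
    Overlap (ι := {k // k ∈ S}) (fun k => Lat l k.1) l OV := by
  intro ξ _
  have : DecidablePred fun k : ℤ × ℤ => ‖ξ - Lat l k‖ ≤ 3 * l := Classical.decPred _
  have h := sum_near_le hl S ξ
  refine le_trans (le_of_eq ?_) h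
  rw [← Finset.sum_coe_sort S]
  apply Finset.sum_congr rfl
  intro k _
  by_cases hk : ‖ξ - Lat l k.1‖ ≤ 3 * l
  · rw [if_pos hk, if_pos hk]
  · rw [if_neg hk, if_neg hk]

end Crest.Agent.R138.Tub70
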