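import Mathlib
import Crest.Agent.R138.Tub7_70
import Crest.Agent.R138.Fq2_665
import Crest.Agent.R138.Loc_665
import Crest.Agent.R138.Tub3_70

-- ▼ part R138/Tub8_70
section

/-! Dictionary waves -> weighted tubes, part 8: the pieces of a wave. -/

set_option autoImplicit false

open MeasureTheory FourierTransform
open scoped ENNReal ContDiff

namespace Crest.Agent.R138.Tub70

open Crest.Agent.R138.Defs (ParB ee ext plank)
open Crest.Agent.R138.Wpk685

/-- the piece of the wave carried by the cap `k`. -/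
noncomputable def pc (h : E2 → ℝ) (g : E2 → ℂ) (l : ℝ) (k : ℤ × ℤ) (x : E2) (t : ℝ) : ℂ :=
  ext h (fun ξ => cp l k ξ * g ξ) x t

theorem pc_eq (h : E2 → ℝ) (g : E2 → ℂ) (l : ℝ) (k : ℤ × ℤ) (x : E2) (t : ℝ) :
    pc h g l k x t = ext h (fun ξ => capm aa h (Lat l k) l 0 ξ * g ξ) x t := by
  unfold pc
  simp only [capm_aa]

theorem transp_lat (B : ℕ → ℝ) (n : ℕ) : ∃ C : ℝ, 0 ≤ C ∧ ∀ h, ParB B h → ∀ g, Gd g →
    ∀ w R : ℝ, 0 < w → w ≤ R → R ≤ w ^ 2 → ∀ S : Finset (ℤ × ℤ),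
      Transp w R n (ENNReal.ofReal C) S (pc h g (w / R)) (fun k => gradient h (Lat (w / R) k)) := by
  obtain ⟨C, hC, H⟩ := transp_cap B n contDiff_aa contDiff_bb norm_aa_le bb_zero bb_of_aa
  refine ⟨C, hC, ?_⟩
  intro h hh g hg w R hw hwR hRw S k _ t t' ht ht' x
  have hR : 0 < R := hw.trans_le hwR
  have h1 : 1 ≤ w * (w / R) := by
    rw [← mul_div_assoc, le_div_iff₀ hR, one_mul, ← sq]; exact hRw
  have h2 : |t' - t| * (w / R) ≤ 4 * w := by
    have h3 : |t' - t| ≤ 4 * R := by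
      have := abs_sub t' t
      linarith
    calc |t' - t| * (w / R) ≤ 4 * R * (w / R) := by gcongr
      _ = 4 * w := by field_simp
  have := H h hh g hg (Lat (w / R) k) (w / R) w (by positivity) ((div_le_one hR).mpr hwR) hw h1
    t t' h2 x
  simp only [pc_eq]
  exact this

theorem continuous_cp (l : ℝ) (k : ℤ × ℤ) : Continuous (cp l k) := by
  have h1 : Continuous fun ξ : E2 => l⁻¹ • (ξ - Lat l k) := by fun_prop
  exact contDiff_aa.continuous.comp h1

theorem norm_cp_le (l : ℝ) (k : ℤ × ℤ) (ξ : E2) : ‖cp l k ξ‖ ≤ 1 := norm_aa_le _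

theorem Gd.cp {g : E2 → ℂ} (hg : Gd g) (l : ℝ) (k : ℤ × ℤ) : Gd (fun ξ => Tub70.cp l k ξ * g ξ) :=
  hg.mul (continuous_cp l k).measurable (norm_cp_le l k)

theorem Gd.int_ee {g : E2 → ℂ} (hg : Gd g) {h : E2 → ℝ} (hh : Continuous h) (x : E2) (t : ℝ) :
    Integrable (fun ξ => g ξ * Defs.ee (inner ℝ x ξ + t * h ξ)) := by
  have hc : Continuous fun ξ : E2 => (inner ℝ x ξ + t * h ξ : ℝ) := by fun_prop
  have hm : Measurable fun ξ : E2 => Defs.ee (inner ℝ x ξ + t * h ξ) :=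
    (continuous_ee.comp hc).measurable
  exact (hg.mul' hm (M := 1) (fun _ => (norm_ee _).le)).integrable

theorem sum_pc {h : E2 → ℝ} (hh : Continuous h) {g : E2 → ℂ} (hg : Gd g) {l : ℝ} (hl : 0 < l)
    (x : E2) (t : ℝ) : ∑ k ∈ Sl (Ml l), pc h g l k x t = ext h g x t := by
  unfold pc ext
  rw [← integral_finsetSum]
  · apply integral_congr_ae
    apply Filter.Eventually.of_forall
    intro ξ
    simp only
    by_cases hξ : ‖ξ‖ ≤ 1
    · rw [← Finset.sum_mul, ← Finset.sum_mul, sum_cp hl hξ, one_mul]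
    · rw [hg.supp ξ (not_le.mp hξ)]
      simp
  · intro k _
    exact (hg.cp l k).int_ee hh x t

theorem ortho_lat (B : ℕ → ℝ) (n : ℕ) : ∃ C : ℝ, 0 ≤ C ∧ ∀ h, ParB B h → ∀ g, Gd g →
    ∀ w R : ℝ, 0 < w → w ≤ R → R ≤ w ^ 2 →
      Ortho w R n (ENNReal.ofReal C) (Sl (Ml (w / R))) (pc h g (w / R)) (ext h g) := by
  obtain ⟨C, hC, H⟩ := ortho_caps B n contDiff_aa contDiff_bb norm_aa_le bb_zero bb_of_aa
  have hO := OV_nonneg
  refine ⟨C * (OV + 1), by positivity, ?_⟩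
  intro h hh g hg w R hw hwR hRw t ht x
  have hR : 0 < R := hw.trans_le hwR
  have hl : 0 < w / R := by positivity
  have h1 : 1 ≤ w * (w / R) := by
    rw [← mul_div_assoc, le_div_iff₀ hR, one_mul, ← sq]; exact hRw
  have := H h hh {k // k ∈ Sl (Ml (w / R))} (fun k => Lat (w / R) k.1) (fun _ => g) (fun _ => hg)
    (w / R) w OV hl ((div_le_one hR).mpr hwR) hw h1 (overlap_lat hl _) t x
  simp only [← pc_eq] at this
  have e1 : ∀ y, ∑ k : {k // k ∈ Sl (Ml (w / R))}, pc h g (w / R) k.1 y t = ext h g y t := by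
    intro y
    rw [Finset.sum_coe_sort (Sl (Ml (w / R))) (fun k => pc h g (w / R) k y t)]
    exact sum_pc hh.1.continuous hg hl y t
  simp only [e1] at this
  rw [Finset.sum_coe_sort (Sl (Ml (w / R))) (fun k => En w n (fun y => pc h g (w / R) k y t) x)]
    at this
  exact this

theorem bessel_lat (B : ℕ → ℝ) (n : ℕ) : ∃ C : ℝ, 0 ≤ C ∧ ∀ h, ParB B h →
    ∀ w R : ℝ, 0 < w → w ≤ R → R ≤ w ^ 2 → ∀ (S : Finset (ℤ × ℤ)) (g G : E2 → ℂ), Gd G →
      (∀ k ∈ S, ∀ ξ, cp (w / R) k ξ * g ξ = cp (w / R) k ξ * G ξ) →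
      Bessel w R n (ENNReal.ofReal C) S (pc h g (w / R)) (ext h G) := by
  obtain ⟨C, hC, H⟩ := bessel_caps B n contDiff_aa aa_zero3
  have hO := OV_nonneg
  refine ⟨C * (OV + 1), by positivity, ?_⟩
  intro h hh w R hw hwR hRw S g G hG hgG t ht x
  have hR : 0 < R := hw.trans_le hwR
  have hl : 0 < w / R := by positivity
  have h1 : 1 ≤ w * (w / R) := by
    rw [← mul_div_assoc, le_div_iff₀ hR, one_mul, ← sq]; exact hRw
  have := H h hh {k // k ∈ S} (fun k => Lat (w / R) k.1) G hG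
    (w / R) w OV hl ((div_le_one hR).mpr hwR) hw h1 (overlap_lat hl _) t x
  simp only [← pc_eq] at this
  rw [Finset.sum_coe_sort S (fun k => En w n (fun y => pc h G (w / R) k y t) x)] at this
  refine le_trans (le_of_eq ?_) this
  apply Finset.sum_congr rfl
  intro k hk
  congr 1
  funext y
  unfold pc
  congr 1
  funext ξ
  exact hgG k hk ξ

/-- Plancherel at a fixed time. -/
theorem planch_ext {h : E2 → ℝ} (hh : Continuous h) {g : E2 → ℂ} (hg : Gd g) (t : ℝ) :
    ∫⁻ x, ‖ext h g x t‖ₑ ^ 2 = ∫⁻ ξ, ‖g ξ‖ₑ ^ 2 := by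
  have hG := hg.ee hh t
  have e : ∀ x, ext h g x t = 𝓕⁻ (fun ξ => g ξ * ee (t * h ξ)) x := fun x => ext_eq h g x t
  simp only [e]
  rw [Fq665.plancherel_inv hG.integrable (hG.memLp 2)]
  apply lintegral_congr
  intro ξ
  congr 1
  rw [enorm_mul]
  have : ‖ee (t * h ξ)‖ₑ = 1 := by
    rw [← ofReal_norm, norm_ee]; simp
  rw [this, mul_one]

theorem continuous_ext {h : E2 → ℝ} (hh : Continuous h) {g : E2 → ℂ} (hg : Gd g) :
    Continuous fun p : E2 × ℝ => ext h g p.1 p.2 := by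
  unfold ext
  apply continuous_of_dominated (bound := fun ξ => ‖g ξ‖)
  · intro p
    exact (hg.int_ee hh p.1 p.2).aestronglyMeasurable
  · intro p
    apply Filter.Eventually.of_forall
    intro ξ
    rw [norm_mul, norm_ee, mul_one]
  · exact hg.integrable.norm
  · apply Filter.Eventually.of_forall
    intro ξ
    apply continuous_const.mul
    apply continuous_ee.comp
    exact (continuous_fst.inner continuous_const).add (continuous_snd.mul continuous_const)

/-- the energies of the pieces. -/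
theorem sum_energy_le {h : E2 → ℝ} (hh : Continuous h) {g : E2 → ℂ} (hg : Gd g) {l : ℝ}
    (hl : 0 < l) (S : Finset (ℤ × ℤ)) (t : ℝ) :
    ∑ k ∈ S, ∫⁻ x, ‖pc h g l k x t‖ₑ ^ 2 ≤ ENNReal.ofReal OV * ∫⁻ ξ, ‖g ξ‖ₑ ^ 2 := by
  unfold pc
  have e : ∀ k, ∫⁻ x, ‖ext h (fun ξ => cp l k ξ * g ξ) x t‖ₑ ^ 2 =
      ∫⁻ ξ, ‖cp l k ξ * g ξ‖ₑ ^ 2 := fun k => planch_ext hh (hg.cp l k) t
  simp only [e]
  rw [← lintegral_finsetSum _ (fun k _ => ((hg.cp l k).meas.enorm.pow_const 2)),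
    ← lintegral_const_mul' _ _ ENNReal.ofReal_ne_top]
  apply lintegral_mono
  intro ξ
  simp only [enorm_mul, mul_pow]
  rw [← Finset.sum_mul]
  gcongr
  have : DecidablePred fun k : ℤ × ℤ => ‖ξ - Lat l k‖ ≤ 3 * l := Classical.decPred _
  calc ∑ k ∈ S, ‖cp l k ξ‖ₑ ^ 2
      ≤ ∑ k ∈ S, ENNReal.ofReal (if ‖ξ - Lat l k‖ ≤ 3 * l then (1 : ℝ) else 0) := by
        apply Finset.sum_le_sum
        intro k _
        split_ifs with hk
        · rw [← ofReal_norm, ← ENNReal.ofReal_pow (norm_nonneg _)]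
          apply ENNReal.ofReal_le_ofReal
          have h1 : ‖cp l k ξ‖ ≤ 1 := norm_aa_le _
          nlinarith [norm_nonneg (cp l k ξ)]
        · have h1 : cp l k ξ = 0 := by
            apply aa_zero3
            rw [norm_smul, norm_inv, Real.norm_eq_abs, abs_of_pos hl, inv_mul_eq_div,
              lt_div_iff₀ hl]
            exact not_le.mp hk
          rw [h1]; simp
    _ = ENNReal.ofReal (∑ k ∈ S, (if ‖ξ - Lat l k‖ ≤ 3 * l then (1 : ℝ) else 0)) := by
        rw [ENNReal.ofReal_sum_of_nonneg]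
        intro k _
        split_ifs <;> norm_num
    _ ≤ _ := ENNReal.ofReal_le_ofReal (sum_near_le hl S ξ)

/-- (b): the total weight. -/
theorem sum_wgt_le {h : E2 → ℝ} (hh : Continuous h) {g : E2 → ℂ} (hg : Gd g) {w l : ℝ}
    (hw : 0 < w) (hl : 0 < l) {n : ℕ} (hn : 2 ≤ n) (S Y : Finset (ℤ × ℤ)) :
    ∑ k ∈ S, ∑ y ∈ Y, wgt w n (pc h g l) k y ≤
      4 * LS * (ENNReal.ofReal OV * ∫⁻ ξ, ‖g ξ‖ₑ ^ 2) := by
  calc ∑ k ∈ S, ∑ y ∈ Y, wgt w n (pc h g l) k y
      ≤ ∑ k ∈ S, 4 * LS * ∫⁻ x, ‖pc h g l k x 0‖ₑ ^ 2 := by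
        apply Finset.sum_le_sum
        intro k _
        unfold wgt En
        have hm : Measurable fun x : E2 => ‖pc h g l k x 0‖ₑ ^ 2 := by
          have : Measurable fun x : E2 => pc h g l k x 0 :=
            ((continuous_ext hh (hg.cp l k)).comp (Continuous.prodMk_left 0)).measurable
          exact this.enorm.pow_const 2
        have e1 : ∑ y ∈ Y, ∫⁻ x, ‖pc h g l k x 0‖ₑ ^ 2 * ENNReal.ofReal (pw w n (Lat w y) x) =
            ∫⁻ x, ∑ y ∈ Y, ‖pc h g l k x 0‖ₑ ^ 2 * ENNReal.ofReal (pw w n (Lat w y) x) := by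
          rw [lintegral_finsetSum]
          intro y _
          exact hm.mul (continuous_pw w n _).measurable.ennreal_ofReal
        refine (le_of_eq e1).trans ?_
        rw [← lintegral_const_mul _ hm]
        apply lintegral_mono
        intro x
        simp only
        rw [← Finset.mul_sum, mul_comm]
        gcongr
        exact (ENNReal.sum_le_tsum Y).trans (tsum_pw_le hw hn x)
    _ = 4 * LS * ∑ k ∈ S, ∫⁻ x, ‖pc h g l k x 0‖ₑ ^ 2 := by rw [Finset.mul_sum]
    _ ≤ _ := by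
        gcongr
        exact sum_energy_le hh hg hl S 0

end Crest.Agent.R138.Tub70
end

-- ▼ part R138/Tub9_70
section

/-! Dictionary waves -> weighted tubes, part 9: the box bound gives the density of the tubes. -/

set_option autoImplicit false

open MeasureTheory FourierTransform
open scoped ENNReal ContDiff

namespace Crest.Agent.R138.Tub70

open Crest.Agent.R138.Defs (ParB ee ext plank Adm chi BoxBoundL)
open Crest.Agent.R138.Wpk685

theorem ParB.B2_nonneg {B : ℕ → ℝ} {h : E2 → ℝ} (hh : ParB B h) : 0 ≤ B 2 :=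
  (norm_nonneg _).trans (hh.2 2 le_rfl 0)

/-- the gradient is Lipschitz. -/
theorem gradient_lip2 {B : ℕ → ℝ} {h : E2 → ℝ} (hh : ParB B h) (x y : E2) :
    ‖gradient h x - gradient h y‖ ≤ (1 + B 2) * ‖x - y‖ := by
  have hf : Differentiable ℝ (fderiv ℝ h) :=
    (hh.1.fderiv_right (m := (⊤ : ℕ∞)) (by exact_mod_cast le_rfl)).differentiable (by simp)
  have h1 : ∀ z, ‖fderiv ℝ (fderiv ℝ h) z‖ ≤ 1 + B 2 := by
    intro z
    have := norm_phase_le hh 2 le_rfl z
    rw [← norm_iteratedFDeriv_fderiv, norm_iteratedFDeriv_one] at this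
    exact this
  have h2 := Convex.norm_image_sub_le_of_norm_fderiv_le (f := fderiv ℝ h) (C := 1 + B 2)
    (s := Set.univ) (fun z _ => hf z) (fun z _ => h1 z) convex_univ (Set.mem_univ y) (Set.mem_univ x)
  have h3 : gradient h x - gradient h y =
      (InnerProductSpace.toDual ℝ E2).symm (fderiv ℝ h x - fderiv ℝ h y) := by
    simp [gradient, map_sub]
  rw [h3, LinearIsometryEquiv.norm_map]
  exact h2

theorem continuous_gradient {h : E2 → ℝ} (hh : ContDiff ℝ ∞ h) : Continuous (gradient h) := by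
  unfold gradient
  exact (LinearIsometryEquiv.continuous _).comp (hh.continuous_fderiv (by simp))

/-! ### the bump -/

/-- the plateau function: `1` on `|t| ≤ 3/2`, `0` for `|t| ≥ 2`. -/
noncomputable def bp (t : ℝ) : ℝ :=
  Real.smoothTransition (2 * (t + 2)) * Real.smoothTransition (2 * (2 - t))

theorem bp_one {t : ℝ} (h : |t| ≤ 3/2) : bp t = 1 := by
  have := abs_le.mp h
  unfold bp
  rw [Real.smoothTransition.one_of_one_le (by linarith),
    Real.smoothTransition.one_of_one_le (by linarith), mul_one]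

theorem bp_zero {t : ℝ} (h : 2 < |t|) : bp t = 0 := by
  unfold bp
  rcases lt_abs.mp h with h | h
  · rw [Real.smoothTransition.zero_of_nonpos (x := 2 * (2 - t)) (by linarith), mul_zero]
  · rw [Real.smoothTransition.zero_of_nonpos (x := 2 * (t + 2)) (by linarith), zero_mul]

theorem bp_nonneg (t : ℝ) : 0 ≤ bp t :=
  mul_nonneg (Real.smoothTransition.nonneg _) (Real.smoothTransition.nonneg _)

theorem bp_le_one (t : ℝ) : bp t ≤ 1 :=
  mul_le_one₀ (Real.smoothTransition.le_one _) (Real.smoothTransition.nonneg _)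
    (Real.smoothTransition.le_one _)

theorem contDiff_bp : ContDiff ℝ ∞ bp := by
  unfold bp
  have h1 : ContDiff ℝ ∞ fun t : ℝ => 2 * (t + 2) := by fun_prop
  have h2 : ContDiff ℝ ∞ fun t : ℝ => 2 * (2 - t) := by fun_prop
  exact (Real.smoothTransition.contDiff.comp h1).mul (Real.smoothTransition.contDiff.comp h2)

theorem exists_adm (N : ℕ) : ∃ κ : ℝ, 0 < κ ∧ ∃ ψ : E2 → ℂ, Adm N ψ ∧
    (∀ y, (∀ i, |y i| ≤ 3/2) → ψ y = κ) ∧ (∀ y, ‖ψ y‖ ≤ κ) := by
  set f : E2 → ℂ := fun y => ((bp (y 0) * bp (y 1) : ℝ) : ℂ) with hf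
  have hc : ∀ i : Fin 2, ContDiff ℝ ∞ (fun ζ : E2 => ζ i) := fun i =>
    (EuclideanSpace.proj (𝕜 := ℝ) i).contDiff
  have hfs : ContDiff ℝ ∞ f :=
    Complex.ofRealCLM.contDiff.comp ((contDiff_bp.comp (hc 0)).mul (contDiff_bp.comp (hc 1)))
  have hf2 : ∀ y, f y ≠ 0 → ∀ i, |y i| ≤ 2 := by
    intro y hy i
    by_contra hcon
    apply hy
    rw [hf]
    have h0 : bp (y i) = 0 := bp_zero (not_le.mp hcon)
    have h1 : bp (y 0) * bp (y 1) = 0 := by
      fin_cases i
      · exact mul_eq_zero_of_left h0 _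
      · exact mul_eq_zero_of_right _ h0
    simp only [h1, Complex.ofReal_zero]
  have hf1 : ∀ y, ‖f y‖ ≤ 1 := by
    intro y
    rw [hf, Complex.norm_real, Real.norm_eq_abs, abs_of_nonneg (mul_nonneg (bp_nonneg _) (bp_nonneg _))]
    exact mul_le_one₀ (bp_le_one _) (bp_nonneg _) (bp_le_one _)
  have hcs : HasCompactSupport f := by
    apply HasCompactSupport.of_support_subset_isCompact (isCompact_closedBall (0 : E2) 4)
    intro y hy
    have h0 := hf2 y hy 0
    have h1 := hf2 y hy 1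
    have h2 : ‖y‖ ^ 2 = y 0 ^ 2 + y 1 ^ 2 := by
      rw [EuclideanSpace.norm_sq_eq]
      simp [Fin.sum_univ_two, sq_abs]
    have h3 : y 0 ^ 2 ≤ 4 := by rw [← sq_abs]; nlinarith [abs_nonneg (y 0)]
    have h4 : y 1 ^ 2 ≤ 4 := by rw [← sq_abs]; nlinarith [abs_nonneg (y 1)]
    rw [mem_closedBall_zero_iff]
    nlinarith [norm_nonneg y]
  have hbd : ∀ j : ℕ, ∃ C : ℝ, ∀ ζ, ‖iteratedFDeriv ℝ j f ζ‖ ≤ C := by
    intro j
    have hc : Continuous (iteratedFDeriv ℝ j f) := hfs.continuous_iteratedFDeriv (mod_cast le_top)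
    exact (hcs.iteratedFDeriv j).exists_bound_of_continuous hc
  choose C hC using hbd
  have hC0 : ∀ j, 0 ≤ C j := fun j => (norm_nonneg _).trans (hC j 0)
  set A : ℝ := 1 + ∑ j ∈ Finset.range (N + 1), C j with hA
  have hA1 : 1 ≤ A := by
    have : 0 ≤ ∑ j ∈ Finset.range (N + 1), C j := Finset.sum_nonneg fun j _ => hC0 j
    linarith
  have hCA : ∀ j ≤ N, C j ≤ A := by
    intro j hj
    have : C j ≤ ∑ j ∈ Finset.range (N + 1), C j :=
      Finset.single_le_sum (f := C) (fun i _ => hC0 i) (Finset.mem_range.2 (by omega))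
    linarith
  refine ⟨A⁻¹, by positivity, fun y => (A⁻¹ : ℝ) • f y, ⟨hfs.const_smul _, ?_, ?_⟩, ?_, ?_⟩
  · intro y hy
    apply hf2
    intro h0
    apply hy
    simp [h0]
  · intro j hj y
    have e : (fun y => (A⁻¹ : ℝ) • f y) = (A⁻¹ : ℝ) • f := rfl
    rw [e, iteratedFDeriv_const_smul_apply, norm_smul, norm_inv, Real.norm_eq_abs,
      abs_of_pos (by linarith), inv_mul_le_iff₀ (by linarith), mul_one]
    · exact (hC j y).trans (hCA j hj)
    · exact (hfs.of_le (mod_cast le_top)).contDiffAt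
  · intro y hy
    simp only [hf, bp_one (hy 0), bp_one (hy 1)]
    simp
  · intro y
    rw [norm_smul, norm_inv, Real.norm_eq_abs, abs_of_pos (by linarith)]
    have := hf1 y
    have h0 : 0 < A⁻¹ := by positivity
    nlinarith

/-! ### covering a plank by smaller planks -/

theorem exists_shift {u S : ℝ} (hu : |u| ≤ 2 * S) : ∃ i : Fin 3, |u - ![-1, 0, 1] i * S| ≤ S := by
  have := abs_le.mp hu
  rcases le_total u (-S) with h | h
  · refine ⟨0, ?_⟩
    simp only [Matrix.cons_val_zero]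
    rw [abs_le]; constructor <;> linarith
  · rcases le_total u S with h' | h'
    · refine ⟨1, ?_⟩
      simp only [Matrix.cons_val_one, Matrix.cons_val_zero]
      rw [abs_le]; constructor <;> linarith
    · refine ⟨2, ?_⟩
      simp only [Matrix.cons_val]
      rw [abs_le]; constructor <;> linarith

/-- the shifted base points. -/
noncomputable def shf (b : OrthonormalBasis (Fin 2) ℝ E2) (s : Fin 2 → ℝ) (R : ℝ) (z : E2)
    (i : Fin 3 × Fin 3) : E2 :=
  z + (((![-1, 0, 1] : Fin 3 → ℝ) i.1 * (s 0 * R)) • b 0 + ((![-1, 0, 1] : Fin 3 → ℝ) i.2 * (s 1 * R)) • b 1)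

theorem norm_shf_le (b : OrthonormalBasis (Fin 2) ℝ E2) {s : Fin 2 → ℝ} (hs : ∀ i, 0 ≤ s i ∧ s i ≤ 1)
    {R : ℝ} (hR : 0 ≤ R) (z : E2) (i : Fin 3 × Fin 3) : ‖shf b s R z i‖ ≤ ‖z‖ + 2 * R := by
  have he : ∀ i : Fin 3, |(![-1, 0, 1] : Fin 3 → ℝ) i| ≤ 1 := by
    intro i; fin_cases i <;> simp
  have h1 : ∀ (i : Fin 3) (j : Fin 2), ‖((![-1, 0, 1] : Fin 3 → ℝ) i * (s j * R)) • b j‖ ≤ R := by
    intro i j
    rw [norm_smul, b.norm_eq_one, mul_one, Real.norm_eq_abs, abs_mul,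
      abs_of_nonneg (mul_nonneg (hs j).1 hR)]
    calc _ ≤ 1 * (1 * R) := by
          have := he i
          have h2 := (hs j).2
          have h3 := (hs j).1
          gcongr
      _ = R := by ring
  unfold shf
  calc _ ≤ ‖z‖ + ‖_ + _‖ := norm_add_le _ _
    _ ≤ ‖z‖ + (R + R) := by
        gcongr
        exact (norm_add_le _ _).trans (add_le_add (h1 i.1 0) (h1 i.2 1))
    _ = _ := by ring

theorem plank_cover {c : E2} (b : OrthonormalBasis (Fin 2) ℝ E2) {s s' : Fin 2 → ℝ} {R : ℝ}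
    (hR : 0 ≤ R) (hs : ∀ i, s' i ≤ 2 * s i) (z : E2) (t0 : ℝ) (f : E2 × ℝ → ℝ≥0∞) :
    ∫⁻ p in plank c b s' R z t0, f p ≤
      ∑ i : Fin 3 × Fin 3, ∫⁻ p in plank c b s R (shf b s R z i) t0, f p := by
  have hsub : plank c b s' R z t0 ⊆ ⋃ i : Fin 3 × Fin 3, plank c b s R (shf b s R z i) t0 := by
    intro p hp
    obtain ⟨hp1, hp2⟩ := hp
    have h0 : |inner ℝ (p.1 - z + (p.2 - t0) • c) (b 0)| ≤ 2 * (s 0 * R) :=
      (hp2 0).trans (by have := hs 0; nlinarith)
    have h1 : |inner ℝ (p.1 - z + (p.2 - t0) • c) (b 1)| ≤ 2 * (s 1 * R) :=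
      (hp2 1).trans (by have := hs 1; nlinarith)
    obtain ⟨i0, hi0⟩ := exists_shift h0
    obtain ⟨i1, hi1⟩ := exists_shift h1
    rw [Set.mem_iUnion]
    refine ⟨(i0, i1), hp1, ?_⟩
    have hb00 : inner ℝ (b 0) (b 0) = (1 : ℝ) := by simp
    have hb11 : inner ℝ (b 1) (b 1) = (1 : ℝ) := by simp
    have hb01 : inner ℝ (b 0) (b 1) = (0 : ℝ) := b.orthonormal.2 (by decide)
    have hb10 : inner ℝ (b 1) (b 0) = (0 : ℝ) := b.orthonormal.2 (by decide)
    have e : p.1 - shf b s R z (i0, i1) + (p.2 - t0) • c = (p.1 - z + (p.2 - t0) • c) -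
        (((![-1, 0, 1] : Fin 3 → ℝ) i0 * (s 0 * R)) • b 0 +
          ((![-1, 0, 1] : Fin 3 → ℝ) i1 * (s 1 * R)) • b 1) := by
      unfold shf; abel
    intro j
    rw [e, inner_sub_left]
    have e2 : inner ℝ (((![-1, 0, 1] : Fin 3 → ℝ) i0 * (s 0 * R)) • b 0 +
          ((![-1, 0, 1] : Fin 3 → ℝ) i1 * (s 1 * R)) • b 1) (b j) =
          ((![-1, 0, 1] : Fin 3 → ℝ) i0 * (s 0 * R)) * inner ℝ (b 0) (b j) +
          ((![-1, 0, 1] : Fin 3 → ℝ) i1 * (s 1 * R)) * inner ℝ (b 1) (b j) := by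
      rw [inner_add_left, inner_smul_left, inner_smul_left]
      simp only [conj_trivial]
    rw [e2]
    fin_cases j
    · simp only [Fin.zero_eta]
      rw [hb00, hb10, mul_one, mul_zero, add_zero]
      exact hi0
    · simp only [Fin.mk_one]
      rw [hb01, hb11, mul_one, mul_zero]
      simp only [zero_add]
      exact hi1
  calc _ ≤ ∫⁻ p in ⋃ i : Fin 3 × Fin 3, plank c b s R (shf b s R z i) t0, f p :=
        lintegral_mono_set hsub
    _ ≤ ∑' i : Fin 3 × Fin 3, ∫⁻ p in plank c b s R (shf b s R z i) t0, f p :=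
        lintegral_iUnion_le _ _
    _ = _ := tsum_fintype _

/-- the trivial bound. -/
theorem plank_trivial {h : E2 → ℝ} (hh : Continuous h) {G : E2 → ℂ} (hG : Gd G) {R : ℝ}
    (c0 : E2) (b : OrthonormalBasis (Fin 2) ℝ E2) (s : Fin 2 → ℝ) (z : E2) :
    ∫⁻ p in plank c0 b s R z 0, ‖ext h G p.1 p.2‖ₑ ^ 2 ≤
      ENNReal.ofReal (2 * R) * ∫⁻ ξ, ‖G ξ‖ₑ ^ 2 := by
  classical
  have hf : Measurable fun p : E2 × ℝ => ‖ext h G p.1 p.2‖ₑ ^ 2 :=
    (continuous_ext hh hG).measurable.enorm.pow_const 2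
  have h1 := lintegral_plank (R := R) (c0 := c0) b s z 0 hf
  rw [add_zero] at h1
  rw [← h1]
  calc _ ≤ ∫⁻ _ in Set.Icc (-R) R, ∫⁻ ξ, ‖G ξ‖ₑ ^ 2 := by
        apply lintegral_mono
        intro t
        simp only
        rw [← planch_ext hh hG t]
        apply lintegral_mono
        intro x
        simp only
        split_ifs
        · exact le_rfl
        · exact bot_le
    _ = _ := by
        rw [setLIntegral_const, Real.volume_Icc, mul_comm]
        congr 2; ring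

end Crest.Agent.R138.Tub70
end

-- ▼ part R138/TubA_70
section

/-! Dictionary waves -> weighted tubes, part 10: (c), the density of the tubes in a plank. -/

set_option autoImplicit false

open MeasureTheory FourierTransform
open scoped ENNReal ContDiff

namespace Crest.Agent.R138.Tub70

open Crest.Agent.R138.Defs (ParB ee ext plank Adm chi BoxBoundL)
open Crest.Agent.R138.Wpk685

theorem norm_le_of_inner {b : OrthonormalBasis (Fin 2) ℝ E2} {z : E2} {r : ℝ} (hr : 0 ≤ r)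
    (h : ∀ j, |inner ℝ z (b j)| ≤ r) : ‖z‖ ≤ 2 * r := by
  have h1 := b.sum_sq_inner_left z
  rw [Fin.sum_univ_two] at h1
  have h2 : ∀ j, inner ℝ z (b j) ^ 2 ≤ r ^ 2 := fun j => by
    rw [← sq_abs]
    have := h j
    have h0 := abs_nonneg (inner ℝ z (b j))
    gcongr
  have h3 := h2 0
  have h4 := h2 1
  nlinarith [norm_nonneg z]

/-- the energy of the localised wave on a plank. -/
theorem plank_loc {N : ℕ} {h : E2 → ℝ} {g : E2 → ℂ} {L0 R D : ℝ} (hR : 0 < R)
    (hbox : BoxBoundL L0 N h g R D) {κ : ℝ} (hκ : 0 < κ) {ψ : E2 → ℂ} (hψ : Adm N ψ)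
    (c0 : E2) (b : OrthonormalBasis (Fin 2) ℝ E2) {s s' : Fin 2 → ℝ}
    (hs : ∀ i, R ^ (-(1/2) : ℝ) ≤ s i ∧ s i ≤ 1) (hs' : ∀ i, s' i ≤ 2 * s i)
    {z : E2} (hz : ‖z‖ + 2 * R ≤ L0 * R) (hL0 : 0 ≤ L0) :
    ∫⁻ p in plank c0 b s' R z 0,
      ‖ext h (fun ξ => (κ⁻¹ : ℂ) * (g ξ * chi h c0 b s ψ ξ)) p.1 p.2‖ₑ ^ 2 ≤
        ENNReal.ofReal (9 * (κ⁻¹) ^ 2 * (D * (s 0 * s 1 * R ^ 3))) := by
  have e1 : ∀ x t, ext h (fun ξ => (κ⁻¹ : ℂ) * (g ξ * chi h c0 b s ψ ξ)) x t =
      (κ⁻¹ : ℂ) * ext h (fun ξ => g ξ * chi h c0 b s ψ ξ) x t := by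
    intro x t
    unfold ext
    rw [← integral_const_mul]
    congr 1
    funext ξ
    ring
  have e2 : ∀ p : E2 × ℝ, ‖ext h (fun ξ => (κ⁻¹ : ℂ) * (g ξ * chi h c0 b s ψ ξ)) p.1 p.2‖ₑ ^ 2 =
      ENNReal.ofReal ((κ⁻¹) ^ 2) * ‖ext h (fun ξ => g ξ * chi h c0 b s ψ ξ) p.1 p.2‖ₑ ^ 2 := by
    intro p
    rw [e1, enorm_mul, mul_pow]
    congr 1
    rw [← ofReal_norm, ← ENNReal.ofReal_pow (norm_nonneg _)]
    congr 2
    rw [norm_inv, Complex.norm_real, Real.norm_eq_abs, abs_of_pos hκ]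
  simp only [e2]
  rw [lintegral_const_mul' _ _ ENNReal.ofReal_ne_top]
  have hs0 : ∀ i, 0 ≤ s i ∧ s i ≤ 1 := fun i =>
    ⟨(Real.rpow_nonneg hR.le _).trans (hs i).1, (hs i).2⟩
  calc _ ≤ ENNReal.ofReal ((κ⁻¹) ^ 2) * ∑ i : Fin 3 × Fin 3,
        ∫⁻ p in plank c0 b s R (shf b s R z i) 0,
          ‖ext h (fun ξ => g ξ * chi h c0 b s ψ ξ) p.1 p.2‖ₑ ^ 2 := by
        gcongr
        exact plank_cover b hR.le hs' z 0 _
    _ ≤ ENNReal.ofReal ((κ⁻¹) ^ 2) * ∑ i : Fin 3 × Fin 3,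
          ENNReal.ofReal (D * (s 0 * s 1 * R ^ 3)) := by
        gcongr with i _
        apply hbox c0 b s hs ψ hψ
        · exact (norm_shf_le b hs0 hR.le z i).trans hz
        · rw [abs_zero]; positivity
    _ = _ := by
        rw [Finset.sum_const, Finset.card_univ, Fintype.card_prod, Fintype.card_fin, nsmul_eq_mul]
        rw [ENNReal.ofReal_mul (by positivity : (0:ℝ) ≤ 9 * (κ⁻¹) ^ 2),
          ENNReal.ofReal_mul (by norm_num : (0:ℝ) ≤ 9)]
        push_cast
        norm_num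
        ring

/-- the lattice sum splits into near and far translates. -/
theorem tsum_split {w R : ℝ} (hw : 0 < w) (hR : 0 < R) {n : ℕ} (hn : 2 ≤ n)
    {I : ℤ × ℤ → ℝ≥0∞} {A A' : ℝ≥0∞} (h1 : ∀ v, ‖Lat w v‖ ≤ R → I v ≤ A) (h2 : ∀ v, I v ≤ A') :
    ∑' v : ℤ × ℤ, ENNReal.ofReal (pw w n (Lat w v) 0) * I v ≤
      4 * LS * (A + ENNReal.ofReal ((w / R) ^ (2 * (n - 2))) * A') := by
  classical
  calc ∑' v : ℤ × ℤ, ENNReal.ofReal (pw w n (Lat w v) 0) * I v
      ≤ ∑' v : ℤ × ℤ, (ENNReal.ofReal (pw w n (Lat w v) 0) * A +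
          (if R ≤ ‖Lat w v‖ then ENNReal.ofReal (pw w n (Lat w v) 0) else 0) * A') := by
        apply ENNReal.tsum_le_tsum
        intro v
        split_ifs with h
        · rw [← mul_add]
          gcongr
          exact (h2 v).trans le_add_self
        · rw [zero_mul, add_zero]
          gcongr
          exact h1 v (not_le.mp h).le
    _ = (∑' v : ℤ × ℤ, ENNReal.ofReal (pw w n (Lat w v) 0)) * A +
          (∑' v : ℤ × ℤ, (if R ≤ ‖Lat w v‖ then ENNReal.ofReal (pw w n (Lat w v) 0) else 0)) * A' := by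
        rw [ENNReal.tsum_add, ENNReal.tsum_mul_right, ENNReal.tsum_mul_right]
    _ ≤ 4 * LS * A + ENNReal.ofReal ((w / R) ^ (2 * (n - 2))) * (4 * LS) * A' := by
        gcongr
        · exact tsum_pw_le hw hn 0
        · exact tsum_pw_tail hw hR hn
    _ = _ := by ring

theorem cp_ne_zero {l : ℝ} (hl : 0 < l) {k : ℤ × ℤ} {ξ : E2} (h : cp l k ξ ≠ 0) :
    ‖ξ - Lat l k‖ ≤ 3/2 * l := by
  by_contra hc
  apply h
  apply aa_zero
  rw [norm_smul, norm_inv, Real.norm_eq_abs, abs_of_pos hl, inv_mul_eq_div, lt_div_iff₀ hl]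
  exact not_le.mp hc

/-- (c): **density of the tubes in a plank**. -/
theorem tubes_plank (B : ℕ → ℝ) {n : ℕ} (hn : 2 ≤ n) (N : ℕ) {V1 : ℝ} (hV1 : 0 ≤ V1) :
    ∃ C : ℝ, 0 ≤ C ∧ ∀ h, ParB B h → ∀ g, Gd g → ∀ w R : ℝ, 0 < w → R ≤ w ^ 2 →
      3 * (1 + B 2) * w ≤ R → 1 ≤ R → ∀ D : ℝ, 0 ≤ D → BoxBoundL (V1 + 5) N h g R D →
      ∀ (b : OrthonormalBasis (Fin 2) ℝ E2) (s : Fin 2 → ℝ) (x0 c0 : E2),
        (∀ j, w / R ≤ s j ∧ s j ≤ 1) → ∀ P : Finset ((ℤ × ℤ) × (ℤ × ℤ)),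
          (∀ p ∈ P, ‖Lat w p.2‖ ≤ V1 * R) →
          (∀ p ∈ P, ∀ t : ℝ, |t| ≤ R → sl c0 b (fun i => s i * R) x0 t
            (Lat w p.2 - t • gradient h (Lat (w / R) p.1))) →
          ∑ p ∈ P, wgt w n (pc h g (w / R)) p.1 p.2 ≤
            ENNReal.ofReal C * (ENNReal.ofReal (D * (s 0 * s 1 * R ^ 2)) +
              ENNReal.ofReal ((w / R) ^ (2 * (n - 2))) * ∫⁻ ξ, ‖g ξ‖ₑ ^ 2) := by
  obtain ⟨CT, hCT, HT⟩ := transp_lat B n
  obtain ⟨CB, hCB, HB⟩ := bessel_lat B n
  obtain ⟨κ, hκ, ψ, hψ, hψ1, hψ2⟩ := exists_adm N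
  set lam : ℝ := 2 + |B 2| with hlam
  have hlam0 : 0 < lam := by positivity
  set C1 : ℝ := 9 * (κ⁻¹) ^ 2 * lam ^ 2 + 1 with hC1
  refine ⟨CT * (4 ^ n * (CB * (4 ^ n * (4 * LS.toReal * C1)))), by positivity, ?_⟩
  intro h hh g hg w R hw hRw hwR hR1 D hD hbox b s x0 c0 hs P hPy hP
  classical
  have hR : 0 < R := by linarith
  have hB2 : 0 ≤ B 2 := ParB.B2_nonneg hh
  have hlamB : lam = 2 + B 2 := by rw [hlam, abs_of_nonneg hB2]
  have hwR1 : w ≤ R := by nlinarith
  have hl : 0 < w / R := by positivity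
  rcases P.eq_empty_or_nonempty with hPe | ⟨p0, hp0⟩
  · rw [hPe]; simp
  -- the base point
  have hx0 : ‖x0‖ ≤ (V1 + 2) * R := by
    have h1 : ∀ j, |inner ℝ (Lat w p0.2 - x0) (b j)| ≤ R := by
      intro j
      have h2 := hP p0 hp0 0 (by simpa using hR.le) j
      simp only [zero_smul, sub_zero, add_zero] at h2
      have h3 := (hs j).2
      nlinarith
    have h2 := norm_le_of_inner hR.le h1
    have h3 := hPy p0 hp0
    calc ‖x0‖ = ‖Lat w p0.2 - (Lat w p0.2 - x0)‖ := by congr 1; abel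
      _ ≤ ‖Lat w p0.2‖ + ‖Lat w p0.2 - x0‖ := norm_sub_le _ _
      _ ≤ (V1 + 2) * R := by linarith
  -- velocities
  have hvel : ∀ p ∈ P, ∀ j, |inner ℝ (gradient h (Lat (w / R) p.1) - c0) (b j)| ≤ s j := by
    intro p hp j
    have h1 := hP p hp R (by rw [abs_of_pos hR]) j
    have h2 := hP p hp (-R) (by rw [abs_neg, abs_of_pos hR]) j
    set c := gradient h (Lat (w / R) p.1) with hc
    have e : inner ℝ (c - c0) (b j) * (2 * R) =
        inner ℝ (Lat w p.2 - (-R) • c - x0 + (-R) • c0) (b j) -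
        inner ℝ (Lat w p.2 - R • c - x0 + R • c0) (b j) := by
      rw [← inner_sub_left]
      have : Lat w p.2 - (-R) • c - x0 + (-R) • c0 - (Lat w p.2 - R • c - x0 + R • c0) =
          (2 * R) • (c - c0) := by
        rw [smul_sub, neg_smul, neg_smul, two_mul, add_smul, add_smul]
        abel
      rw [this, inner_smul_left]
      simp only [conj_trivial]
      ring
    have h3 : |inner ℝ (c - c0) (b j) * (2 * R)| ≤ 2 * (s j * R) := by
      rw [e]
      have := abs_sub (inner ℝ (Lat w p.2 - (-R) • c - x0 + (-R) • c0) (b j))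
        (inner ℝ (Lat w p.2 - R • c - x0 + R • c0) (b j))
      simp only at h1 h2
      linarith
    rw [abs_mul, abs_of_pos (by positivity : (0:ℝ) < 2 * R)] at h3
    have h4 : |inner ℝ (c - c0) (b j)| * (2 * R) ≤ s j * (2 * R) := by linarith
    exact le_of_mul_le_mul_right h4 (by positivity)
  -- the enlarged widths
  set s2 : Fin 2 → ℝ := fun j => min (lam * s j) 1 with hs2
  have hsj0 : ∀ j, 0 < s j := fun j => hl.trans_le (hs j).1
  have hs2R : ∀ i, R ^ (-(1/2) : ℝ) ≤ s2 i ∧ s2 i ≤ 1 := by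
    intro i
    refine ⟨le_min ?_ ?_, min_le_right _ _⟩
    · have h1 : R ^ (-(1/2) : ℝ) ≤ w / R := by
        rw [le_div_iff₀ hR]
        have h2 : R ^ (-(1/2) : ℝ) * R = Real.sqrt R := by
          rw [Real.sqrt_eq_rpow]
          nth_rewrite 2 [← Real.rpow_one R]
          rw [← Real.rpow_add hR]
          norm_num
        rw [h2]
        exact (Real.sqrt_le_sqrt hRw).trans (by rw [Real.sqrt_sq hw.le])
      have h2 := (hs i).1
      have h3 := hsj0 i
      have h4 : s i ≤ lam * s i := by nlinarith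
      linarith
    · exact Real.rpow_le_one_of_one_le_of_nonpos hR1 (by norm_num)
  have hs2le : ∀ j, s2 j ≤ lam * s j := fun j => min_le_left _ _
  have hs20 : ∀ j, 0 < s2 j := fun j => lt_min (mul_pos hlam0 (hsj0 j)) one_pos
  have hl3 : 3 * (1 + B 2) * (w / R) ≤ 1 := by
    rw [← mul_div_assoc, div_le_one hR]; exact hwR
  set s1 : Fin 2 → ℝ := fun j => s j + 2 * (w / R) with hs1
  have hs12 : ∀ j, s1 j ≤ 2 * s2 j := by
    intro j
    have h1 := (hs j).1
    have h2 := (hs j).2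
    rcases le_total (lam * s j) 1 with h3 | h3
    · rw [hs2]
      simp only [min_eq_left h3, hs1]
      rw [hlamB]
      nlinarith [hsj0 j, mul_nonneg hB2 (hsj0 j).le]
    · rw [hs2]
      simp only [min_eq_right h3, hs1]
      nlinarith [mul_nonneg hB2 hl.le]
  -- the localised function
  set χ : E2 → ℂ := chi h c0 b s2 ψ with hχ
  set G : E2 → ℂ := fun ξ => (κ⁻¹ : ℂ) * (g ξ * χ ξ) with hG
  have hχc : Continuous χ := by
    rw [hχ]
    unfold chi
    apply hψ.1.continuous.comp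
    apply (PiLp.continuous_toLp 2 _).comp
    apply continuous_pi
    intro i
    exact (((continuous_gradient hh.1).sub continuous_const).inner continuous_const).div_const _
  have hχn : ∀ ξ, ‖χ ξ‖ ≤ κ := fun ξ => hψ2 _
  have hGG : ∀ ξ, G ξ = g ξ * ((κ⁻¹ : ℂ) * χ ξ) := fun ξ => by rw [hG]; ring
  have hmn : ∀ ξ, ‖(κ⁻¹ : ℂ) * χ ξ‖ ≤ 1 := by
    intro ξ
    rw [norm_mul, norm_inv, Complex.norm_real, Real.norm_eq_abs, abs_of_pos hκ,
      inv_mul_le_iff₀ hκ, mul_one]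
    exact hχn ξ
  have hGgd : Gd G := by
    have := hg.mul' (m := fun ξ => (κ⁻¹ : ℂ) * χ ξ) (continuous_const.mul hχc).measurable
      (M := 1) hmn
    have e : G = fun ξ => g ξ * ((κ⁻¹ : ℂ) * χ ξ) := funext hGG
    rw [e]; exact this
  -- on the caps of P
  have hcap : ∀ k ∈ P.image Prod.fst, ∀ ξ, cp (w / R) k ξ * g ξ = cp (w / R) k ξ * G ξ := by
    intro k hk ξ
    rw [Finset.mem_image] at hk
    obtain ⟨p, hp, rfl⟩ := hk
    by_cases hcpz : cp (w / R) p.1 ξ = 0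
    · rw [hcpz]; simp
    · have h1 := cp_ne_zero hl hcpz
      have h2 : χ ξ = κ := by
        rw [hχ]
        unfold chi
        apply hψ1
        intro i
        show |inner ℝ (gradient h ξ - c0) (b i) / s2 i| ≤ 3/2
        rw [abs_div, abs_of_pos (hs20 i), div_le_iff₀ (hs20 i)]
        have h3 : |inner ℝ (gradient h ξ - gradient h (Lat (w / R) p.1)) (b i)| ≤
            (1 + B 2) * (3/2 * (w / R)) := by
          calc _ ≤ ‖gradient h ξ - gradient h (Lat (w / R) p.1)‖ * ‖b i‖ :=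
                abs_real_inner_le_norm _ _
            _ ≤ _ := by
                rw [b.norm_eq_one, mul_one]
                refine (gradient_lip2 hh _ _).trans ?_
                gcongr
        have h4 := hvel p hp i
        have h5 : |inner ℝ (gradient h ξ - c0) (b i)| ≤ (1 + B 2) * (3/2 * (w / R)) + s i := by
          have e : gradient h ξ - c0 = (gradient h ξ - gradient h (Lat (w / R) p.1)) +
              (gradient h (Lat (w / R) p.1) - c0) := by abel
          rw [e, inner_add_left]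
          exact (abs_add_le _ _).trans (add_le_add h3 h4)
        refine h5.trans ?_
        have h6 := (hs i).1
        have h7 := (hs i).2
        rcases le_total (lam * s i) 1 with h8 | h8
        · rw [hs2]
          simp only [min_eq_left h8]
          rw [hlamB]
          nlinarith [mul_nonneg hB2 (sub_nonneg.mpr h6)]
        · rw [hs2]
          simp only [min_eq_right h8]
          nlinarith
      rw [hGG, h2]
      have hκc : (κ : ℂ) ≠ 0 := by exact_mod_cast hκ.ne'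
      rw [inv_mul_cancel₀ hκc, mul_one]
  -- the main inequality
  have hmain := plank_sum_le (w := w) (R := R) hw hR (n := n) (C := ENNReal.ofReal CT)
    (C' := ENNReal.ofReal CB) ENNReal.ofReal_ne_top ENNReal.ofReal_ne_top
    (S := P.image Prod.fst) (u := pc h g (w / R)) (c := fun k => gradient h (Lat (w / R) k))
    (U := ext h G) (HT h hh g hg w R hw hwR1 hRw _) (c0 := c0) b (s := s) (s' := s1)
    (fun i => by rw [hs1]; simp only; rw [add_mul]; field_simp; exact le_rfl) (x0 := x0) P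
    (continuous_ext hh.1.continuous hGgd).measurable
    (fun p hp => Finset.mem_image_of_mem _ hp) hP (HB h hh w R hw hwR1 hRw _ g G hGgd hcap)
  have hI1 : ∀ v : ℤ × ℤ, ‖Lat w v‖ ≤ R →
      ∫⁻ p in plank c0 b s1 R (x0 + Lat w v) 0, ‖ext h G p.1 p.2‖ₑ ^ 2 ≤
        ENNReal.ofReal (2 * R) * ENNReal.ofReal (C1 * (D * (s 0 * s 1 * R ^ 2))) := by
    intro v hv
    have h1 : ‖x0 + Lat w v‖ + 2 * R ≤ (V1 + 5) * R := by
      have := norm_add_le x0 (Lat w v)
      linarith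
    refine (plank_loc hR hbox hκ hψ c0 b hs2R hs12 h1 (by linarith)).trans ?_
    rw [← ENNReal.ofReal_mul (by positivity)]
    apply ENNReal.ofReal_le_ofReal
    have h2 : s2 0 * s2 1 ≤ lam ^ 2 * (s 0 * s 1) := by
      calc s2 0 * s2 1 ≤ (lam * s 0) * (lam * s 1) :=
            mul_le_mul (hs2le 0) (hs2le 1) (hs20 1).le (mul_pos hlam0 (hsj0 0)).le
        _ = _ := by ring
    calc 9 * κ⁻¹ ^ 2 * (D * (s2 0 * s2 1 * R ^ 3))
        ≤ 9 * κ⁻¹ ^ 2 * (D * (lam ^ 2 * (s 0 * s 1) * R ^ 3)) := by gcongr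
      _ = (9 * κ⁻¹ ^ 2 * lam ^ 2) * (D * (s 0 * s 1 * R ^ 3)) := by ring
      _ ≤ (2 * C1) * (D * (s 0 * s 1 * R ^ 3)) := by
          have h3 : 0 ≤ D * (s 0 * s 1 * R ^ 3) := by
            have := hsj0 0
            have := hsj0 1
            positivity
          apply mul_le_mul_of_nonneg_right _ h3
          rw [hC1]
          nlinarith [sq_nonneg (κ⁻¹ * lam)]
      _ = _ := by ring
  have hI2 : ∀ v : ℤ × ℤ,
      ∫⁻ p in plank c0 b s1 R (x0 + Lat w v) 0, ‖ext h G p.1 p.2‖ₑ ^ 2 ≤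
        ENNReal.ofReal (2 * R) * ∫⁻ ξ, ‖g ξ‖ₑ ^ 2 := by
    intro v
    refine (plank_trivial hh.1.continuous hGgd c0 b s1 _).trans ?_
    gcongr with ξ
    rw [hGG, enorm_mul]
    have : ‖(κ⁻¹ : ℂ) * χ ξ‖ₑ ≤ 1 := by
      rw [← ofReal_norm, ENNReal.ofReal_le_one]
      exact hmn ξ
    calc _ ≤ ‖g ξ‖ₑ * 1 := by gcongr
      _ = _ := mul_one _
  have hsplit := tsum_split hw hR hn hI1 hI2
  have hfin : ENNReal.ofReal (2 * R) * ∑ p ∈ P, wgt w n (pc h g (w / R)) p.1 p.2 ≤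
      ENNReal.ofReal (2 * R) * (ENNReal.ofReal CT * (4 ^ n * (ENNReal.ofReal CB * (4 ^ n *
        (4 * LS * (ENNReal.ofReal (C1 * (D * (s 0 * s 1 * R ^ 2))) +
          ENNReal.ofReal ((w / R) ^ (2 * (n - 2))) * ∫⁻ ξ, ‖g ξ‖ₑ ^ 2)))))) := by
    refine hmain.trans ?_
    calc _ ≤ ENNReal.ofReal CT * (4 ^ n * (ENNReal.ofReal CB * (4 ^ n *
          (4 * LS * (ENNReal.ofReal (2 * R) * ENNReal.ofReal (C1 * (D * (s 0 * s 1 * R ^ 2))) +
          ENNReal.ofReal ((w / R) ^ (2 * (n - 2))) *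
            (ENNReal.ofReal (2 * R) * ∫⁻ ξ, ‖g ξ‖ₑ ^ 2)))))) := by
          gcongr
      _ = _ := by ring
  have h2R : ENNReal.ofReal (2 * R) ≠ 0 := by
    rw [ne_eq, ENNReal.ofReal_eq_zero, not_le]; positivity
  have hfin2 := (ENNReal.mul_le_mul_iff_right h2R ENNReal.ofReal_ne_top).mp hfin
  refine hfin2.trans ?_
  have hC1p : 1 ≤ C1 := by
    rw [hC1]
    have : 0 ≤ 9 * κ⁻¹ ^ 2 * lam ^ 2 := by positivity
    linarith
  have hLS : LS = ENNReal.ofReal LS.toReal := (ENNReal.ofReal_toReal LS_ne_top).symm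
  have h4n : (4 : ℝ≥0∞) ^ n = ENNReal.ofReal (4 ^ n) := by
    rw [ENNReal.ofReal_pow (by norm_num)]; norm_num
  have hlast : ENNReal.ofReal (C1 * (D * (s 0 * s 1 * R ^ 2))) +
      ENNReal.ofReal ((w / R) ^ (2 * (n - 2))) * ∫⁻ ξ, ‖g ξ‖ₑ ^ 2 ≤
      ENNReal.ofReal C1 * (ENNReal.ofReal (D * (s 0 * s 1 * R ^ 2)) +
          ENNReal.ofReal ((w / R) ^ (2 * (n - 2))) * ∫⁻ ξ, ‖g ξ‖ₑ ^ 2) := by
    rw [mul_add]
    apply add_le_add
    · rw [ENNReal.ofReal_mul (by linarith)]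
    · have h1 : (1 : ℝ≥0∞) ≤ ENNReal.ofReal C1 := by rw [ENNReal.one_le_ofReal]; exact hC1p
      exact le_mul_of_one_le_left' h1
  calc _ ≤ ENNReal.ofReal CT * (4 ^ n * (ENNReal.ofReal CB * (4 ^ n *
        (4 * LS * (ENNReal.ofReal C1 * (ENNReal.ofReal (D * (s 0 * s 1 * R ^ 2)) +
          ENNReal.ofReal ((w / R) ^ (2 * (n - 2))) * ∫⁻ ξ, ‖g ξ‖ₑ ^ 2)))))) := by
        gcongr
    _ = _ := by
        rw [ENNReal.ofReal_mul hCT, ENNReal.ofReal_mul (by positivity : (0:ℝ) ≤ 4 ^ n),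
          ENNReal.ofReal_mul hCB, ENNReal.ofReal_mul (by positivity : (0:ℝ) ≤ 4 ^ n),
          ENNReal.ofReal_mul (by positivity : (0:ℝ) ≤ 4 * LS.toReal),
          ENNReal.ofReal_mul (by norm_num : (0:ℝ) ≤ 4), ← hLS, ← h4n]
        have : ENNReal.ofReal 4 = 4 := by norm_num
        rw [this]
        ring

end Crest.Agent.R138.Tub70
end

-- ▼ part R138/TubB_70
section

/-! Dictionary waves -> weighted tubes, part 11: **wave_KM** (W7'): the averages of a wave at
scale `w ≥ R^{1/2}` are controlled by Kakeya. -/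

set_option autoImplicit false

open MeasureTheory FourierTransform
open scoped ENNReal ContDiff

namespace Crest.Agent.R138.Tub70

open Crest.Agent.R138.Defs (ParB ee ext plank Adm chi BoxBoundL)
open Crest.Agent.R138.Wpk685

theorem Gd.lint_sq {g : E2 → ℂ} (hg : Gd g) :
    ∫⁻ ξ, ‖g ξ‖ₑ ^ 2 = ENNReal.ofReal (∫ ξ, ‖g ξ‖ ^ 2) := by
  rw [ofReal_integral_eq_lintegral_ofReal]
  · apply lintegral_congr
    intro ξ
    rw [ENNReal.ofReal_pow (norm_nonneg _), ofReal_norm]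
  · exact (hg.memLp 2).integrable_norm_pow (by norm_num)
  · exact Filter.Eventually.of_forall fun _ => by positivity

theorem Transp.mono {w R : ℝ} {n : ℕ} {C C' : ℝ≥0∞} (hC : C ≤ C') {κ : Type*} {S : Finset κ}
    {u : κ → E2 → ℝ → ℂ} {c : κ → E2} (h : Transp w R n C S u c) : Transp w R n C' S u c := by
  intro k hk t t' ht ht' x
  exact (h k hk t t' ht ht' x).trans (by gcongr)

theorem Ortho.mono {w R : ℝ} {n : ℕ} {C C' : ℝ≥0∞} (hC : C ≤ C') {κ : Type*} {S : Finset κ}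
    {u : κ → E2 → ℝ → ℂ} {U : E2 → ℝ → ℂ} (h : Ortho w R n C S u U) : Ortho w R n C' S u U := by
  intro t ht x
  exact (h t ht x).trans (by gcongr)

/-- the averages of the wave at scale `w`. -/
noncomputable def Av (w : ℝ) (n : ℕ) (U : E2 → ℝ → ℂ) (x : E2) (t : ℝ) : ℝ≥0∞ :=
  ⨆ t' : {t' : ℝ // |t' - t| ≤ w}, ENNReal.ofReal ((w ^ 2)⁻¹) * En w n (fun y => U y t'.1) x

/-- the lattice points of the ball of radius `r`. -/
noncomputable def Yr (w r : ℝ) : Finset (ℤ × ℤ) := by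
  classical exact (Sl ⌈r / w⌉₊).filter (fun y => ‖Lat w y‖ ≤ r)

theorem mem_Yr {w r : ℝ} (hw : 0 < w) {y : ℤ × ℤ} : y ∈ Yr w r ↔ ‖Lat w y‖ ≤ r := by
  classical
  unfold Yr
  rw [Finset.mem_filter]
  refine ⟨fun h => h.2, fun h => ⟨?_, h⟩⟩
  unfold Sl
  rw [Finset.mem_product, Finset.mem_Icc, Finset.mem_Icc]
  have hc : ∀ i : Fin 2, |(Lat w y) i| ≤ r := by
    intro i
    have := PiLp.norm_apply_le (Lat w y) i
    rw [Real.norm_eq_abs] at this
    linarith
  have h0 := hc 0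
  have h1 := hc 1
  rw [Lat_zero_coord, abs_mul, abs_of_pos hw] at h0
  rw [Lat_one_coord, abs_mul, abs_of_pos hw] at h1
  have hM : r / w ≤ (⌈r / w⌉₊ : ℝ) := Nat.le_ceil _
  have h0' : |(y.1 : ℝ)| ≤ (⌈r / w⌉₊ : ℝ) := by
    refine le_trans ?_ hM
    rw [le_div_iff₀ hw]; linarith
  have h1' : |(y.2 : ℝ)| ≤ (⌈r / w⌉₊ : ℝ) := by
    refine le_trans ?_ hM
    rw [le_div_iff₀ hw]; linarith
  have a0 := abs_le.mp h0'
  have a1 := abs_le.mp h1'
  refine ⟨⟨?_, ?_⟩, ?_, ?_⟩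
  · exact_mod_cast a0.1
  · exact_mod_cast a0.2
  · exact_mod_cast a1.1
  · exact_mod_cast a1.2

/-- the wave is dominated by its tubes. -/
theorem Av_le_tubes (B : ℕ → ℝ) (n : ℕ) {V : ℝ} (hV : 0 ≤ V) : ∃ A : ℝ, 0 < A ∧ ∀ h, ParB B h →
    (∀ ξ, ‖ξ‖ ≤ 3 → ‖gradient h ξ‖ ≤ V) → ∀ g, Gd g → ∀ w R : ℝ, 0 < w → w ≤ R → R ≤ w ^ 2 →
      ∀ (x : E2) (t : ℝ), ‖x‖ ≤ R → |t| ≤ R → Av w n (ext h g) x t ≤
        ENNReal.ofReal (A * (w ^ 2)⁻¹) * ∑ p ∈ Sl (Ml (w / R)) ×ˢ Yr w ((V + 2) * R),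
          (open Classical in if ‖x - Lat w p.2 + t • gradient h (Lat (w / R) p.1)‖ ≤ w then
            wgt w n (pc h g (w / R)) p.1 p.2 else 0) := by
  classical
  obtain ⟨CT, hCT, HT⟩ := transp_lat B n
  obtain ⟨CO, hCO, HO⟩ := ortho_lat B n
  set C0 : ℝ := CT + CO + 1 with hC0
  have hC0p : 0 < C0 := by positivity
  refine ⟨C0 * (C0 * (2 * (1 + (V + 1) ^ 2)) ^ n), by positivity, ?_⟩
  intro h hh hVh g hg w R hw hwR hRw x t hx ht
  have hR : 0 < R := hw.trans_le hwR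
  have hl : 0 < w / R := by positivity
  have hl1 : w / R ≤ 1 := (div_le_one hR).mpr hwR
  have hT := (HT h hh g hg w R hw hwR hRw (Sl (Ml (w / R)))).mono
    (ENNReal.ofReal_le_ofReal (by linarith : CT ≤ C0))
  have hO := (HO h hh g hg w R hw hwR hRw).mono
    (ENNReal.ofReal_le_ofReal (by linarith : CO ≤ C0))
  have hc : ∀ k ∈ Sl (Ml (w / R)), ‖gradient h (Lat (w / R) k)‖ ≤ V := fun k hk =>
    hVh _ (norm_Lat_le hl hl1 hk)
  have hsum : ∑ k ∈ Sl (Ml (w / R)), wgt w n (pc h g (w / R)) k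
      (nr w (x + t • gradient h (Lat (w / R) k))) ≤
      ∑ p ∈ Sl (Ml (w / R)) ×ˢ Yr w ((V + 2) * R),
          (if ‖x - Lat w p.2 + t • gradient h (Lat (w / R) p.1)‖ ≤ w then
            wgt w n (pc h g (w / R)) p.1 p.2 else 0) := by
    rw [Finset.sum_product]
    apply Finset.sum_le_sum
    intro k hk
    have h1 := norm_sub_nr hw (x + t • gradient h (Lat (w / R) k))
    have hmem : nr w (x + t • gradient h (Lat (w / R) k)) ∈ Yr w ((V + 2) * R) := by
      rw [mem_Yr hw]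
      have h2 : ‖x + t • gradient h (Lat (w / R) k)‖ ≤ R + R * V := by
        refine (norm_add_le _ _).trans ?_
        rw [norm_smul, Real.norm_eq_abs]
        have := hc k hk
        gcongr
      have h3 : Lat w (nr w (x + t • gradient h (Lat (w / R) k))) =
          (x + t • gradient h (Lat (w / R) k)) - (x + t • gradient h (Lat (w / R) k) -
            Lat w (nr w (x + t • gradient h (Lat (w / R) k)))) := by abel
      rw [h3]
      refine (norm_sub_le _ _).trans ?_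
      linarith
    have h4 : ‖x - Lat w (nr w (x + t • gradient h (Lat (w / R) k))) +
        t • gradient h (Lat (w / R) k)‖ ≤ w := by
      convert h1 using 2
      abel
    calc _ = (if ‖x - Lat w (nr w (x + t • gradient h (Lat (w / R) k))) +
        t • gradient h (Lat (w / R) k)‖ ≤ w then
            wgt w n (pc h g (w / R)) k (nr w (x + t • gradient h (Lat (w / R) k))) else 0) := by
          rw [if_pos h4]
      _ ≤ _ := Finset.single_le_sum (f := fun y => if ‖x - Lat w y +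
        t • gradient h (Lat (w / R) k)‖ ≤ w then
            wgt w n (pc h g (w / R)) k y else 0) (fun _ _ => bot_le) hmem
  unfold Av
  apply iSup_le
  rintro ⟨t', ht'⟩
  have key := point_le hw hwR hT hO hc ht ht' x
  calc _ ≤ ENNReal.ofReal ((w ^ 2)⁻¹) * (ENNReal.ofReal C0 * (ENNReal.ofReal C0 *
        (ENNReal.ofReal ((2 * (1 + (V + 1) ^ 2)) ^ n) *
        ∑ p ∈ Sl (Ml (w / R)) ×ˢ Yr w ((V + 2) * R),
          (if ‖x - Lat w p.2 + t • gradient h (Lat (w / R) p.1)‖ ≤ w then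
            wgt w n (pc h g (w / R)) p.1 p.2 else 0)))) := by
        gcongr
        refine key.trans ?_
        gcongr
    _ = _ := by
        rw [ENNReal.ofReal_mul (by positivity), ENNReal.ofReal_mul hC0p.le,
          ENNReal.ofReal_mul hC0p.le]
        ring

theorem wgt_ne_top {h : E2 → ℝ} (hh : Continuous h) {g : E2 → ℂ} (hg : Gd g) {w l : ℝ}
    (hw : 0 < w) (hl : 0 < l) {n : ℕ} (hn : 2 ≤ n) (k y : ℤ × ℤ) :
    wgt w n (pc h g l) k y ≠ ⊤ := by
  have h1 := sum_wgt_le hh hg hw hl hn {k} {y}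
  simp only [Finset.sum_singleton] at h1
  refine ne_top_of_le_ne_top ?_ h1
  rw [hg.lint_sq]
  exact ENNReal.mul_ne_top (ENNReal.mul_ne_top (by norm_num) LS_ne_top)
    (ENNReal.mul_ne_top ENNReal.ofReal_ne_top ENNReal.ofReal_ne_top)

theorem Av_le_trivial {h : E2 → ℝ} (hh : Continuous h) {g : E2 → ℂ} (hg : Gd g) {w : ℝ}
    (hw : 1 ≤ w) (n : ℕ) (x : E2) (t : ℝ) :
    Av w n (ext h g) x t ≤ ENNReal.ofReal (∫ ξ, ‖g ξ‖ ^ 2) := by
  unfold Av
  apply iSup_le
  rintro ⟨t', ht'⟩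
  simp only
  have h1 : En w n (fun y => ext h g y t') x ≤ ENNReal.ofReal (∫ ξ, ‖g ξ‖ ^ 2) := by
    rw [← hg.lint_sq, ← planch_ext hh hg t']
    unfold En
    apply lintegral_mono
    intro y
    simp only
    have : ENNReal.ofReal (pw w n x y) ≤ 1 := by
      rw [ENNReal.ofReal_le_one]; exact pw_le_one _ _ _ _
    calc _ ≤ ‖ext h g y t'‖ₑ ^ 2 * 1 := by gcongr
      _ = _ := mul_one _
  calc _ ≤ 1 * ENNReal.ofReal (∫ ξ, ‖g ξ‖ ^ 2) := by
        gcongr
        rw [ENNReal.ofReal_le_one]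
        apply inv_le_one_of_one_le₀
        exact one_le_pow₀ hw
    _ = _ := one_mul _

end Crest.Agent.R138.Tub70
end

-- ▼ part R138/TubC_70

/-! Dictionary waves -> weighted tubes, part 12: assembly. -/

set_option autoImplicit false

open MeasureTheory FourierTransform
open scoped ENNReal ContDiff

namespace Crest.Agent.R138.Tub70

open Crest.Agent.R138.Defs (ParB ee ext plank Adm chi BoxBoundL)
open Crest.Agent.R138.Wpk685

theorem volume_ball_le {R : ℝ} (hR : 0 ≤ R) :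
    (volume : Measure E2) {x : E2 | ‖x‖ ≤ R} ≤ ENNReal.ofReal (4 * R ^ 2) := by
  have e : {x : E2 | ‖x‖ ≤ R} = Metric.closedBall 0 R := by ext; simp
  rw [e, EuclideanSpace.volume_closedBall_fin_two _ _ ]
  rw [← ENNReal.ofReal_pow hR, ← ENNReal.ofReal_mul (by positivity)]
  apply ENNReal.ofReal_le_ofReal
  nlinarith [Real.pi_lt_four, sq_nonneg R]

/-- the trivial bound for small `R`. -/
theorem wave_trivial {h : E2 → ℝ} (hh : Continuous h) {g : E2 → ℂ} (hg : Gd g) {w R K D R0 : ℝ}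
    (hw : 1 ≤ w) (hR : 1 ≤ R) (hK : 0 ≤ K) (hD : 0 ≤ D) (hR0 : R ≤ R0) (n : ℕ) :
    ∫⁻ t in Set.Icc (-R) R, ∫⁻ x in {x : E2 | ‖x‖ ≤ R}, Av w n (ext h g) x t ^ (3/2 : ℝ) ≤
      ENNReal.ofReal (8 * R0 ^ (2 + K / 2) * (R * ∫ ξ, ‖g ξ‖ ^ 2) *
        Real.sqrt (D + R ^ (-K) * ∫ ξ, ‖g ξ‖ ^ 2)) := by
  set E : ℝ := ∫ ξ, ‖g ξ‖ ^ 2 with hE
  have hE0 : 0 ≤ E := integral_nonneg fun _ => by positivity
  have hR' : 0 < R := by linarith
  calc ∫⁻ t in Set.Icc (-R) R, ∫⁻ x in {x : E2 | ‖x‖ ≤ R}, Av w n (ext h g) x t ^ (3/2 : ℝ)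
      ≤ ∫⁻ _ in Set.Icc (-R) R, ∫⁻ _ in {x : E2 | ‖x‖ ≤ R}, ENNReal.ofReal E ^ (3/2 : ℝ) := by
        apply lintegral_mono
        intro t
        apply lintegral_mono
        intro x
        simp only
        gcongr
        exact Av_le_trivial hh hg hw n x t
    _ = ENNReal.ofReal E ^ (3/2 : ℝ) * (volume : Measure E2) {x : E2 | ‖x‖ ≤ R} *
          ENNReal.ofReal (2 * R) := by
        rw [setLIntegral_const, setLIntegral_const, Real.volume_Icc]
        congr 2; ring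
    _ ≤ ENNReal.ofReal (E ^ (3/2 : ℝ)) * ENNReal.ofReal (4 * R ^ 2) * ENNReal.ofReal (2 * R) := by
        rw [ENNReal.ofReal_rpow_of_nonneg hE0 (by norm_num)]
        gcongr
        exact volume_ball_le hR'.le
    _ = ENNReal.ofReal (E ^ (3/2 : ℝ) * (4 * R ^ 2) * (2 * R)) := by
        rw [← ENNReal.ofReal_mul (by positivity), ← ENNReal.ofReal_mul (by positivity)]
    _ ≤ _ := by
        apply ENNReal.ofReal_le_ofReal
        have h1 : E ^ (3/2 : ℝ) = E * Real.sqrt E := by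
          rw [Real.sqrt_eq_rpow]
          rcases hE0.eq_or_lt with h0 | h0
          · rw [← h0, Real.zero_rpow (by norm_num), zero_mul]
          · nth_rewrite 2 [← Real.rpow_one E]
            rw [← Real.rpow_add h0]
            norm_num
        have h2 : Real.sqrt E ≤ R ^ (K / 2) * Real.sqrt (D + R ^ (-K) * E) := by
          have h3 : R ^ (K / 2) = Real.sqrt (R ^ K) := by
            rw [Real.sqrt_eq_rpow, ← Real.rpow_mul hR'.le]
            congr 1; ring
          rw [h3, ← Real.sqrt_mul (by positivity)]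
          apply Real.sqrt_le_sqrt
          have h4 : R ^ K * (R ^ (-K) * E) = E := by
            rw [← mul_assoc, ← Real.rpow_add hR']
            simp
          rw [mul_add, h4]
          have : 0 ≤ R ^ K * D := by positivity
          linarith
        have h5 : R ^ 2 * R ^ (K / 2) ≤ R0 ^ (2 + K / 2) := by
          have : R ^ 2 * R ^ (K / 2) = R ^ (2 + K / 2) := by
            rw [Real.rpow_add hR']
            norm_num
          rw [this]
          apply Real.rpow_le_rpow hR'.le hR0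
          positivity
        rw [h1]
        have h6 : 0 ≤ Real.sqrt (D + R ^ (-K) * E) := Real.sqrt_nonneg _
        calc E * Real.sqrt E * (4 * R ^ 2) * (2 * R)
            ≤ E * (R ^ (K / 2) * Real.sqrt (D + R ^ (-K) * E)) * (4 * R ^ 2) * (2 * R) := by
              gcongr
          _ = 8 * (R ^ 2 * R ^ (K / 2)) * (R * E) * Real.sqrt (D + R ^ (-K) * E) := by ring
          _ ≤ _ := by gcongr

set_option maxHeartbeats 1600000 in
/-- **W7'**: the averages of a wave at scale `R^{1/2} ≤ w ≤ R^{1-ε}` are controlled by Kakeya. -/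
theorem wave_KM {V : ℝ} (hV : 0 ≤ V) (hKM : KM32 (V + 2)) (B : ℕ → ℝ) {ε : ℝ} (hε : 0 < ε)
    {K : ℝ} (hK : 0 ≤ K) {n : ℕ} (hn : 2 ≤ n) (hnK : K ≤ 2 * ε * ((n : ℝ) - 2)) (N : ℕ) :
    ∃ C : ℝ, 0 ≤ C ∧ ∀ h, ParB B h → (∀ ξ, ‖ξ‖ ≤ 3 → ‖gradient h ξ‖ ≤ V) →
      ∀ g : E2 → ℂ, Measurable g → (∃ M : ℝ, ∀ ξ, ‖g ξ‖ ≤ M) → (∀ ξ, 1 < ‖ξ‖ → g ξ = 0) →
      ∀ w R : ℝ, 1 ≤ R → 0 < w → R ≤ w ^ 2 → w ≤ R ^ (1 - ε) →
      ∀ D : ℝ, 0 ≤ D → BoxBoundL (V + 7) N h g R D →
        ∫⁻ t in Set.Icc (-R) R, ∫⁻ x in {x : E2 | ‖x‖ ≤ R}, Av w n (ext h g) x t ^ (3/2 : ℝ) ≤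
          ENNReal.ofReal (C * R ^ ε * (R * ∫ ξ, ‖g ξ‖ ^ 2) *
            Real.sqrt (D + R ^ (-K) * ∫ ξ, ‖g ξ‖ ^ 2)) := by
  classical
  obtain ⟨A, hA, HA⟩ := Av_le_tubes B n hV
  obtain ⟨CP, hCP, HP⟩ := tubes_plank B hn N (V1 := V + 2) (by linarith)
  obtain ⟨CK, hCK, HK⟩ := tubes_KM hKM (2 * ε) (by positivity)
  set m : ℝ := 3 * (1 + |B 2|) with hm
  have hm1 : 1 ≤ m := by have := abs_nonneg (B 2); rw [hm]; linarith
  set R0 : ℝ := m ^ (1 / ε) with hR0
  have hR0p : 0 ≤ R0 := by positivity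
  set LL : ℝ := 4 * LS.toReal * OV with hLL
  have hLL0 : 0 ≤ LL := by have := OV_nonneg; positivity
  refine ⟨8 * R0 ^ (2 + K / 2) + CK * Real.sqrt (A * CP) * (A * LL), by positivity, ?_⟩
  intro h hh hVh g hgm hgb hgs w R hR hw hRw hwR D hD hbox
  have hg : Gd g := ⟨hgm, hgb, hgs⟩
  set E : ℝ := ∫ ξ, ‖g ξ‖ ^ 2 with hE
  have hE0 : 0 ≤ E := integral_nonneg fun _ => by positivity
  have hR' : 0 < R := by linarith
  have hw1 : 1 ≤ w := by nlinarith
  have hB2 : 0 ≤ B 2 := ParB.B2_nonneg hh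
  have hmB : m = 3 * (1 + B 2) := by rw [hm, abs_of_nonneg hB2]
  have hRe : 1 ≤ R ^ ε := Real.one_le_rpow hR hε.le
  have hX0 : 0 ≤ Real.sqrt (D + R ^ (-K) * E) := Real.sqrt_nonneg _
  by_cases hcase : R ≤ R0
  · refine (wave_trivial hh.1.continuous hg hw1 hR hK hD hcase n).trans ?_
    apply ENNReal.ofReal_le_ofReal
    have h1 : 8 * R0 ^ (2 + K / 2) ≤
        (8 * R0 ^ (2 + K / 2) + CK * Real.sqrt (A * CP) * (A * LL)) * R ^ ε := by
      have h2 : 0 ≤ CK * Real.sqrt (A * CP) * (A * LL) := by positivity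
      have h3 : 0 ≤ 8 * R0 ^ (2 + K / 2) := by positivity
      nlinarith
    gcongr
  · push Not at hcase
    -- `m w ≤ R`
    have hmw : m * w ≤ R := by
      have h1 : m ≤ R ^ ε := by
        have h2 : m = R0 ^ ε := by
          rw [hR0, ← Real.rpow_mul (by linarith)]
          rw [one_div_mul_cancel hε.ne', Real.rpow_one]
        rw [h2]
        exact Real.rpow_le_rpow hR0p hcase.le hε.le
      calc m * w ≤ R ^ ε * R ^ (1 - ε) := by gcongr
        _ = R := by rw [← Real.rpow_add hR']; simp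
    have hwR1 : w ≤ R := by nlinarith
    have hl : 0 < w / R := by positivity
    have hl1 : w / R ≤ 1 := (div_le_one hR').mpr hwR1
    have hwRle : w / R ≤ R ^ (-ε) := by
      rw [div_le_iff₀ hR']
      calc w ≤ R ^ (1 - ε) := hwR
        _ = R ^ (-ε) * R := by
            nth_rewrite 3 [← Real.rpow_one R]
            rw [← Real.rpow_add hR']
            congr 1; ring
    have htail : (w / R) ^ (2 * (n - 2)) ≤ R ^ (-K) := by
      calc (w / R) ^ (2 * (n - 2)) ≤ (R ^ (-ε)) ^ (2 * (n - 2)) := by gcongr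
        _ = R ^ (-ε * ((2 * (n - 2) : ℕ) : ℝ)) := by
            rw [Real.rpow_mul hR'.le, Real.rpow_natCast]
        _ ≤ R ^ (-K) := by
            apply Real.rpow_le_rpow_of_exponent_le hR
            push_cast [Nat.cast_sub hn]
            linarith
    set S := Sl (Ml (w / R)) with hS
    set Y := Yr w ((V + 2) * R) with hY
    set T := S ×ˢ Y with hT
    set u := pc h g (w / R) with hu
    have hc : ∀ k ∈ S, ‖gradient h (Lat (w / R) k)‖ ≤ V := fun k hk =>
      hVh _ (norm_Lat_le hl hl1 hk)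
    have hfin : ∀ p : (ℤ × ℤ) × (ℤ × ℤ), wgt w n u p.1 p.2 ≠ ⊤ := fun p =>
      wgt_ne_top hh.1.continuous hg hw hl hn _ _
    set a : {p // p ∈ T} → ℝ := fun p => A * (w ^ 2)⁻¹ * (wgt w n u p.1.1 p.1.2).toReal with ha
    have ha0 : ∀ i, 0 ≤ a i := fun i => by rw [ha]; positivity
    have haw : ∀ i, a i * w ^ 2 = A * (wgt w n u i.1.1 i.1.2).toReal := fun i => by
      rw [ha]; field_simp
    set Δ : ℝ := (A * CP) * (D + R ^ (-K) * E) with hΔ
    have hΔ0 : 0 ≤ Δ := by positivity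
    have hplank : ∀ (b : OrthonormalBasis (Fin 2) ℝ E2) (s : Fin 2 → ℝ) (x0 c0 : E2),
        (∀ j, w / R ≤ s j ∧ s j ≤ 1) →
          ∑ i : {p // p ∈ T}, (if ∀ t : ℝ, |t| ≤ R → sl c0 b (fun i => s i * R) x0 t
            (Lat w i.1.2 - t • gradient h (Lat (w / R) i.1.1)) then
            a i * w ^ 2 else 0) ≤ Δ * (s 0 * s 1 * R ^ 2) := by
        intro b s x0 c0 hs
        set Pr : (ℤ × ℤ) × (ℤ × ℤ) → Prop := fun p => ∀ t : ℝ, |t| ≤ R →
          sl c0 b (fun i => s i * R) x0 t (Lat w p.2 - t • gradient h (Lat (w / R) p.1)) with hPr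
        have e1 : ∑ i : {p // p ∈ T}, (if ∀ t : ℝ, |t| ≤ R →
            sl c0 b (fun i => s i * R) x0 t
              (Lat w i.1.2 - t • gradient h (Lat (w / R) i.1.1)) then a i * w ^ 2 else 0) =
            ∑ p ∈ T.filter Pr, A * (wgt w n u p.1 p.2).toReal := by
          rw [Finset.sum_filter, ← Finset.sum_coe_sort T]
          apply Finset.sum_congr rfl
          intro i _
          rw [haw]
        rw [e1, ← Finset.mul_sum, ← ENNReal.toReal_sum (fun p _ => hfin p)]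
        have h1 := HP h hh g hg w R hw hRw (by rw [← hmB]; exact hmw) hR D hD
          (by have e : V + 2 + 5 = V + 7 := by ring
              rw [e]; exact hbox) b s x0 c0 hs (T.filter Pr)
          (fun p hp => by
            have := (Finset.mem_product.mp (Finset.mem_filter.mp hp).1).2
            rw [hY, mem_Yr hw] at this
            exact this)
          (fun p hp => (Finset.mem_filter.mp hp).2)
        have hs01 : 1 ≤ s 0 * s 1 * R ^ 2 := by
          have h2 := (hs 0).1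
          have h3 := (hs 1).1
          have h2' := hl.trans_le h2
          calc 1 ≤ w ^ 2 := one_le_pow₀ hw1
            _ = (w / R) * (w / R) * R ^ 2 := by field_simp
            _ ≤ s 0 * s 1 * R ^ 2 := by gcongr
        have h2 : ∑ p ∈ T.filter Pr, wgt w n u p.1 p.2 ≤
            ENNReal.ofReal (CP * ((D + R ^ (-K) * E) * (s 0 * s 1 * R ^ 2))) := by
          refine h1.trans ?_
          rw [hg.lint_sq, ← ENNReal.ofReal_mul (by positivity), ← ENNReal.ofReal_add _ _,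
            ← ENNReal.ofReal_mul hCP]
          · apply ENNReal.ofReal_le_ofReal
            have h3 : (w / R) ^ (2 * (n - 2)) * E ≤ R ^ (-K) * E * (s 0 * s 1 * R ^ 2) := by
              calc (w / R) ^ (2 * (n - 2)) * E ≤ R ^ (-K) * E := by gcongr
                _ = R ^ (-K) * E * 1 := by ring
                _ ≤ _ := by gcongr
            gcongr
            rw [add_mul]
            gcongr
          · have := hl.trans_le (hs 0).1
            have := hl.trans_le (hs 1).1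
            positivity
          · positivity
        have h4 : 0 ≤ CP * ((D + R ^ (-K) * E) * (s 0 * s 1 * R ^ 2)) := by
          have : 0 ≤ s 0 * s 1 * R ^ 2 := by linarith
          positivity
        calc A * (∑ p ∈ T.filter Pr, wgt w n u p.1 p.2).toReal
            ≤ A * (CP * ((D + R ^ (-K) * E) * (s 0 * s 1 * R ^ 2))) := by
              gcongr
              exact ENNReal.toReal_le_of_le_ofReal h4 h2
          _ = _ := by rw [hΔ]; ring
    have hdom : ∀ (x : E2) (t : ℝ), ‖x‖ ≤ R → |t| ≤ R → Av w n (ext h g) x t ≤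
        ∑ i : {p // p ∈ T}, (if ‖x - Lat w i.1.2 + t • gradient h (Lat (w / R) i.1.1)‖ ≤ w then
          ENNReal.ofReal (a i) else 0) := by
        intro x t hx ht
        refine (HA h hh hVh g hg w R hw hwR1 hRw x t hx ht).trans (le_of_eq ?_)
        rw [Finset.mul_sum, ← Finset.sum_coe_sort (S ×ˢ Y)]
        apply Finset.sum_congr rfl
        intro i _
        split_ifs
        · rw [ha]
          simp only
          have e3 : ENNReal.ofReal (A * (w ^ 2)⁻¹ * (wgt w n u i.1.1 i.1.2).toReal) =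
              ENNReal.ofReal (A * (w ^ 2)⁻¹) * wgt w n u i.1.1 i.1.2 := by
            rw [ENNReal.ofReal_mul (by positivity), ENNReal.ofReal_toReal (hfin i.1)]
          exact e3.symm
        · rw [mul_zero]
    have key := HK w R hw hwR1 {p // p ∈ T} (fun p => Lat w p.1.2)
      (fun p => gradient h (Lat (w / R) p.1.1)) a ha0
      (fun p => by
        have := (Finset.mem_product.mp p.2).2
        rw [hY, mem_Yr hw] at this
        exact this)
      (fun p => (hc _ (Finset.mem_product.mp p.2).1).trans (by linarith)) Δ hΔ0 hplank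
      (fun x t => Av w n (ext h g) x t) hdom
    refine key.trans ?_
    apply ENNReal.ofReal_le_ofReal
    -- the total weight
    have hW : ∑ i, a i * w ^ 2 ≤ A * (LL * E) := by
      have e1 : ∑ i, a i * w ^ 2 = A * (∑ p ∈ T, wgt w n u p.1 p.2).toReal := by
        rw [ENNReal.toReal_sum (fun p _ => hfin p), Finset.mul_sum,
          ← Finset.sum_coe_sort T (fun p => A * (wgt w n u p.1 p.2).toReal)]
        apply Finset.sum_congr rfl
        intro i _
        rw [haw]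
      rw [e1]
      gcongr
      apply ENNReal.toReal_le_of_le_ofReal (by positivity)
      have h1 := sum_wgt_le hh.1.continuous hg hw hl hn S Y
      rw [← Finset.sum_product' S Y (fun k y => wgt w n (pc h g (w / R)) k y)] at h1
      refine h1.trans (le_of_eq ?_)
      rw [hg.lint_sq, hLL, ENNReal.ofReal_mul (by have := OV_nonneg; positivity),
        ENNReal.ofReal_mul (by positivity), ENNReal.ofReal_mul (by norm_num),
        ENNReal.ofReal_toReal LS_ne_top]
      norm_num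
      ring
    have hpow : (w / R) ^ (-(2 * ε)) ≤ R ^ ε := by
      have h1 : R ^ (-(1/2) : ℝ) ≤ w / R := by
        rw [le_div_iff₀ hR']
        have h2 : R ^ (-(1/2) : ℝ) * R = Real.sqrt R := by
          rw [Real.sqrt_eq_rpow]
          nth_rewrite 2 [← Real.rpow_one R]
          rw [← Real.rpow_add hR']
          norm_num
        rw [h2]
        exact (Real.sqrt_le_sqrt hRw).trans (by rw [Real.sqrt_sq hw.le])
      calc (w / R) ^ (-(2 * ε)) ≤ (R ^ (-(1/2) : ℝ)) ^ (-(2 * ε)) := by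
            apply Real.rpow_le_rpow_of_nonpos (by positivity) h1 (by linarith)
        _ = R ^ ε := by
            rw [← Real.rpow_mul hR'.le]
            congr 1; ring
    have hsq : Real.sqrt Δ = Real.sqrt (A * CP) * Real.sqrt (D + R ^ (-K) * E) := by
      rw [hΔ, Real.sqrt_mul (by positivity)]
    rw [hsq]
    have hW0 : 0 ≤ ∑ i, a i * w ^ 2 := Finset.sum_nonneg fun i _ => by
      have := ha0 i; positivity
    calc CK * (w / R) ^ (-(2 * ε)) * (Real.sqrt (A * CP) * Real.sqrt (D + R ^ (-K) * E)) *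
          (R * ∑ i, a i * w ^ 2)
        ≤ CK * R ^ ε * (Real.sqrt (A * CP) * Real.sqrt (D + R ^ (-K) * E)) *
          (R * (A * (LL * E))) := by gcongr
      _ = (CK * Real.sqrt (A * CP) * (A * LL)) * R ^ ε * (R * E) *
          Real.sqrt (D + R ^ (-K) * E) := by ring
      _ ≤ _ := by
          have h8 : 0 ≤ 8 * R0 ^ (2 + K / 2) := by positivity
          have h9 : CK * Real.sqrt (A * CP) * (A * LL) ≤
            8 * R0 ^ (2 + K / 2) + CK * Real.sqrt (A * CP) * (A * LL) := by linarith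
          gcongr

end Crest.Agent.R138.Tub70
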