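import Crest.Agent.R138.WAsm2_188
import Crest.Agent.R138.WDef2_188

/-!
# R138 / R139: WAVE assembly, part 3 (helper188): the improvement step and `LB` for all `c > 0`.
-/

set_option autoImplicit false

open MeasureTheory FourierTransform
open scoped ContDiff ENNReal

namespace Crest.Agent.R138.W188

open Crest.Agent.R138.Defs Crest.Agent.R138.Bil882 Crest.Agent.R138.Wpk685

variable {B : ℕ → ℝ} {q : ℝ} {F : ℝ → ℝ → ℝ → (E2 → ℝ) → (E2 → ℂ) → ℝ → ℝ≥0∞}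






/-- trivial case `X ≤ L`. -/
theorem small_case {CR e ε η c1 R X S L K : ℝ} (hR : 1 ≤ R) (hX1 : 1 ≤ X)
    (hη1 : η ≤ 1) (hCR : 0 ≤ CR) (hS : 0 ≤ S) (hs : X ≤ L) (hL : CR * R ^ e * L ≤ K * R ^ ε) :
    CR * R ^ e * X ^ ((c1 + η) / 2) * S ≤ K * R ^ ε * X ^ ((c1 - η) / 2) * S := by
  have hXp : 0 < X := by linarith
  have hR0 : 0 < R := by linarith
  have hXsplit : X ^ ((c1 + η) / 2) = X ^ η * X ^ ((c1 - η) / 2) := by
    rw [← Real.rpow_add hXp]; congr 1; ring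
  have h1 : X ^ η ≤ L := by
    calc X ^ η ≤ X ^ (1:ℝ) := rpow_le_rpow_of_one_le hX1 hη1
      _ = X := Real.rpow_one X
      _ ≤ L := hs
  calc CR * R ^ e * X ^ ((c1 + η) / 2) * S
      = (CR * R ^ e * X ^ η) * X ^ ((c1 - η) / 2) * S := by rw [hXsplit]; ring
    _ ≤ (CR * R ^ e * L) * X ^ ((c1 - η) / 2) * S := by gcongr
    _ ≤ (K * R ^ ε) * X ^ ((c1 - η) / 2) * S := by gcongr



end Crest.Agent.R138.W188
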