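import Crest.Agent.R138.A1_774
import Crest.Agent.R138.Wf5_448
import Crest.Agent.R138.Tri_323
import Crest.Agent.R138.WDef_188
import Mathlib
import Crest.Agent.R138.TubC_70
import Crest.Agent.R138.T12_774
import Crest.Agent.R138.WAsm3_188
import Crest.Agent.R138.Sup5_882
import Crest.Agent.R138.ZmDef_858

-- ▼ part R138/A5a_774
section

/-!
# R138 / R139, WAVE side: A5a (cubes are bounded by local averages at scale one) (helper774)
-/

set_option autoImplicit false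

open MeasureTheory FourierTransform
open scoped ENNReal ContDiff

namespace Crest.Agent.R138.T774

open Crest.Agent.R138.Defs Crest.Agent.R138.Bil882 Crest.Agent.R138.W188 Crest.Agent.R138.Wf448

theorem slice_le (B : ℕ → ℝ) (n : ℕ) : ∃ C : ℝ, 0 ≤ C ∧ ∀ h : E2 → ℝ, ParB B h →
    fderiv ℝ h 0 = 0 → ∀ g : E2 → ℂ, Measurable g → (∃ M : ℝ, ∀ ξ, ‖g ξ‖ ≤ M) →
    (∀ ξ, 1 < ‖ξ‖ → g ξ = 0) → ∀ (x : E2) (t τ : ℝ), |τ| ≤ 1 →
    ‖ext h g x t‖ₑ ^ 2 ≤ ENNReal.ofReal C * wE n (ContinuousLinearMap.id ℝ E2) x (sl h g (t + τ)) := by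
  obtain ⟨C1, hC1, h1⟩ := loc_const E2 n
  set M : ℝ := 1 + ∑ k ∈ Finset.range (max n 2 + 1), |B k| with hM
  have hM0 : 1 ≤ M := by
    have : 0 ≤ ∑ k ∈ Finset.range (max n 2 + 1), |B k| := Finset.sum_nonneg fun _ _ => abs_nonneg _
    linarith
  obtain ⟨C2, hC2, h2⟩ := transport (V := E2) (W := E2) n M
  set l : ℝ := M⁻¹ with hl
  have hl0 : 0 < l := by positivity
  have hl1 : l ≤ 1 := inv_le_one_of_one_le₀ hM0
  set a : ℝ := adet ((ContinuousLinearEquiv.refl ℝ E2 : E2 ≃L[ℝ] E2) : E2 →L[ℝ] E2) with ha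
  have ha0 : 0 ≤ a := (adet_pos _).le
  refine ⟨C1 * a * (C2 * (l⁻¹) ^ (2 * n)), by positivity, ?_⟩
  intro h hh hd0 g hgm hgb hgs x t τ hτ
  have hg1 : Integrable g := memLp_one_iff_integrable.1 (integ hgm hgb hgs 1)
  have hg2 : MemLp g 2 := integ hgm hgb hgs 2
  have hid : ((ContinuousLinearEquiv.refl ℝ E2 : E2 ≃L[ℝ] E2) : E2 →L[ℝ] E2) =
      ContinuousLinearMap.id ℝ E2 := rfl
  have e1 := h1 (ContinuousLinearEquiv.refl ℝ E2) 0 (sl h g t) (integrable_sl hh.1.continuous hg1 t)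
    (by
      intro ξ hξ
      refine ⟨ξ, ?_, ?_⟩
      · by_contra hc
        push Not at hc
        exact hξ (by simp [sl, hgs ξ hc])
      · rw [hid]
        have : ContinuousLinearMap.adjoint (ContinuousLinearMap.id ℝ E2) = ContinuousLinearMap.id ℝ E2 := by
          exact ContinuousLinearMap.adjoint_id
        rw [zero_add]
        exact (congrFun (congrArg DFunLike.coe this) ξ).symm) x
  rw [← ext_eq] at e1
  rw [← ha, hid] at e1
  -- move the time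
  have hgrad0 : gradient h 0 = 0 := by
    unfold gradient
    rw [hd0, map_zero]
  have e2 := h2 (l • ContinuousLinearMap.id ℝ E2) h hh.1 (ParB.bound_max hh n) 1 le_rfl
    (by
      rw [Real.one_rpow, norm_smul, Real.norm_eq_abs, abs_of_pos hl0]
      calc l * ‖ContinuousLinearMap.id ℝ E2‖ ≤ 1 * 1 :=
            mul_le_mul hl1 ContinuousLinearMap.norm_id_le (norm_nonneg _) zero_le_one
        _ = 1 := one_mul 1)
    0 (Metric.closedBall 0 1) Metric.isBounded_closedBall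
    (by
      intro ξ hξ
      have hξ' : ‖ξ‖ ≤ 1 := by simpa using hξ
      have g1 := gradient_lip hh.1 (fun ξ => ParB.bound_max hh n 2 le_rfl (le_max_right _ _) ξ) ξ 0
      rw [hgrad0, sub_zero, sub_zero] at g1
      rw [sub_zero, smul_apply, norm_smul, Real.norm_eq_abs, abs_of_pos hl0,
        ContinuousLinearMap.id_apply, div_one]
      calc l * ‖gradient h ξ‖ ≤ l * (M * ‖ξ‖) := by gcongr
        _ ≤ l * (M * 1) := by gcongr
        _ = 1 := by rw [hl, mul_one]; exact inv_mul_cancel₀ (by positivity))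
    g hg1 hg2
    (by
      intro ξ hξ
      by_contra hc
      simp only [Metric.mem_closedBall, dist_zero_right, not_le] at hc
      exact hξ (hgs ξ hc)) x (t + τ) (-τ) (by rwa [abs_neg])
  rw [smul_zero, sub_zero, add_neg_cancel_right] at e2
  have e3 : wE n (ContinuousLinearMap.id ℝ E2) x (sl h g t) ≤
      wE n (l • ContinuousLinearMap.id ℝ E2) x (sl h g t) := by
    refine wE_mono fun y => ?_
    rw [smul_apply, norm_smul, Real.norm_eq_abs, abs_of_pos hl0]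
    exact mul_le_of_le_one_left (norm_nonneg _) hl1
  have e4 := wE_smul_le (n := n) (A := ContinuousLinearMap.id ℝ E2) hl0 hl1 x (sl h g (t + τ))
  calc ‖ext h g x t‖ₑ ^ 2 ≤ ENNReal.ofReal (C1 * a) * wE n (ContinuousLinearMap.id ℝ E2) x (sl h g t) := e1
    _ ≤ ENNReal.ofReal (C1 * a) * (ENNReal.ofReal C2 * (ENNReal.ofReal ((l⁻¹) ^ (2 * n)) *
        wE n (ContinuousLinearMap.id ℝ E2) x (sl h g (t + τ)))) := by
        gcongr
        exact e3.trans (e2.trans (mul_le_mul_right e4 _))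
    _ = _ := by
        rw [ENNReal.ofReal_mul (p := C1 * a) (by positivity), ENNReal.ofReal_mul (p := C2) hC2]
        ring

theorem dw_le_wt (N : ℕ) (x y : E2) (t s : ℝ) (hs : |s - t| ≤ 1) :
    dw N (ContinuousLinearMap.id ℝ E2) (y - x) ≤ 3 ^ N * wt N 1 x t (y, s) := by
  unfold dw gw wt
  simp only [ContinuousLinearMap.id_apply, div_one]
  rw [← inv_pow, ← inv_pow, ← mul_pow]
  refine pow_le_pow_left₀ (by positivity) ?_ N
  rw [inv_eq_one_div, ← div_eq_mul_inv, div_le_div_iff₀ (by positivity) (by positivity)]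
  nlinarith [sq_nonneg (‖y - x‖ - 1), norm_nonneg (y - x)]

/-- pointwise form: the function is bounded by its local average at scale one. -/
theorem ext_sq_le (B : ℕ → ℝ) (N : ℕ) : ∃ C : ℝ, 0 ≤ C ∧ ∀ h : E2 → ℝ, ParB B h →
    fderiv ℝ h 0 = 0 → ∀ g : E2 → ℂ, Measurable g → (∃ M : ℝ, ∀ ξ, ‖g ξ‖ ≤ M) →
    (∀ ξ, 1 < ‖ξ‖ → g ξ = 0) → ∀ (x : E2) (t : ℝ),
    ‖ext h g x t‖ₑ ^ 2 ≤ ENNReal.ofReal C *
      ∫⁻ p : E2 × ℝ, ‖ext h g p.1 p.2‖ₑ ^ 2 * ENNReal.ofReal (wt N 1 x t p) := by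
  obtain ⟨C, hC, H⟩ := slice_le B N
  refine ⟨C * 3 ^ N, by positivity, ?_⟩
  intro h hh hd0 g hgm hgb hgs x t
  have hg1 : Integrable g := memLp_one_iff_integrable.1 (integ hgm hgb hgs 1)
  have hmeas : Measurable fun p : E2 × ℝ => ‖ext h g p.1 p.2‖ₑ ^ 2 * ENNReal.ofReal (wt N 1 x t p) :=
    ((F4x858.continuous_ext hh.1.continuous hg1).measurable.enorm.pow_const 2).mul
      (measurable_wt N 1 x t).ennreal_ofReal
  have h1 : ∀ s ∈ Set.Icc t (t + 1), ‖ext h g x t‖ₑ ^ 2 ≤ ENNReal.ofReal (C * 3 ^ N) *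
      ∫⁻ y, ‖ext h g y s‖ₑ ^ 2 * ENNReal.ofReal (wt N 1 x t (y, s)) := by
    intro s hs
    have hs' : |s - t| ≤ 1 := by
      rw [abs_le]; constructor <;> linarith [hs.1, hs.2]
    have h2 := H h hh hd0 g hgm hgb hgs x t (s - t) hs'
    rw [add_sub_cancel, wE_sl] at h2
    refine h2.trans ?_
    rw [ENNReal.ofReal_mul hC, mul_assoc]
    refine mul_le_mul_right ?_ _
    unfold LI
    rw [← lintegral_const_mul' _ _ ENNReal.ofReal_ne_top]
    refine lintegral_mono fun y => ?_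
    have h3 := dw_le_wt N x y t s hs'
    calc ENNReal.ofReal (dw N (ContinuousLinearMap.id ℝ E2) (y - x) * ‖ext h g y s‖ ^ 2)
        ≤ ENNReal.ofReal ((3 ^ N * wt N 1 x t (y, s)) * ‖ext h g y s‖ ^ 2) := by
          apply ENNReal.ofReal_le_ofReal; gcongr
      _ = _ := by
          have h4 := (wt_pos N one_pos x t (y, s)).le
          rw [ENNReal.ofReal_mul (by positivity), ENNReal.ofReal_mul (by positivity),
            ENNReal.ofReal_pow (norm_nonneg _), ofReal_norm]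
          ring
  calc ‖ext h g x t‖ₑ ^ 2 = ∫⁻ _ in Set.Icc t (t + 1), ‖ext h g x t‖ₑ ^ 2 := by
        rw [setLIntegral_const, Real.volume_Icc]; simp
    _ ≤ ∫⁻ s in Set.Icc t (t + 1), ENNReal.ofReal (C * 3 ^ N) *
          ∫⁻ y, ‖ext h g y s‖ₑ ^ 2 * ENNReal.ofReal (wt N 1 x t (y, s)) :=
        setLIntegral_mono' measurableSet_Icc h1
    _ ≤ ∫⁻ s, ENNReal.ofReal (C * 3 ^ N) *
          ∫⁻ y, ‖ext h g y s‖ₑ ^ 2 * ENNReal.ofReal (wt N 1 x t (y, s)) :=
        setLIntegral_le_lintegral _ _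
    _ = ENNReal.ofReal (C * 3 ^ N) * ∫⁻ s, ∫⁻ y, ‖ext h g y s‖ₑ ^ 2 *
          ENNReal.ofReal (wt N 1 x t (y, s)) := lintegral_const_mul' _ _ ENNReal.ofReal_ne_top
    _ = _ := by
        congr 1
        rw [Measure.volume_eq_prod, lintegral_prod_symm _ hmeas.aemeasurable]

theorem A5a_holds (B : ℕ → ℝ) (q : ℝ) : A5a B q := by
  intro Na M0 N
  obtain ⟨C, hC, H⟩ := ext_sq_le B N
  refine ⟨C ^ (3 / 2 : ℝ), by positivity, ?_⟩
  intro h g R D hSt
  unfold CC NN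
  rw [← lintegral_const_mul' _ _ ENNReal.ofReal_ne_top]
  refine lintegral_mono fun p => ?_
  have h1 := H h hSt.par hSt.h1 g hSt.meas hSt.bdd hSt.supp p.1 p.2
  have h2 : ‖ext h g p.1 p.2‖ₑ ^ 3 = (‖ext h g p.1 p.2‖ₑ ^ 2) ^ (3 / 2 : ℝ) := by
    rw [← ENNReal.rpow_natCast, ← ENNReal.rpow_natCast, ← ENNReal.rpow_mul]
    norm_num
  beta_reduce
  rw [h2]
  refine (ENNReal.rpow_le_rpow h1 (by norm_num)).trans ?_
  rw [ENNReal.mul_rpow_of_nonneg _ _ (by norm_num), ENNReal.ofReal_rpow_of_nonneg hC (by norm_num)]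
  simp

end Crest.Agent.R138.T774
end

-- ▼ part R138/Tr1_323
section

/-!
# R138 wave side: **TRIV1** (helper323), the literal Prop of `WDef_188`
-/

set_option autoImplicit false

open MeasureTheory FourierTransform
open scoped ContDiff ENNReal

namespace Crest.Agent.R138.W323

open Crest.Agent.R138.Defs Crest.Agent.R138.Bil882 Crest.Agent.R138.W188

theorem En_nonneg (g : E2 → ℂ) : 0 ≤ En g := integral_nonneg fun _ => by positivity

theorem SS_nonneg {g : E2 → ℂ} {R D : ℝ} (hR : 0 ≤ R) : 0 ≤ SS g R D := by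
  unfold SS; have := En_nonneg g; positivity

theorem hfin_ball : volume (Metric.closedBall (0 : E2) 1) < ⊤ :=
  lt_of_le_of_lt volume_ball_le (by norm_num)

theorem integrable_sq {g : E2 → ℂ} (hg : Measurable g) (hb : ∃ M : ℝ, ∀ ξ, ‖g ξ‖ ≤ M)
    (hs : ∀ ξ, 1 < ‖ξ‖ → g ξ = 0) : Integrable fun ξ => ‖g ξ‖ ^ 2 := by
  obtain ⟨M, hM⟩ := hb
  have hs' : ∀ ξ, ξ ∉ Metric.closedBall (0 : E2) 1 → g ξ = 0 := fun ξ hξ =>
    hs ξ (by simpa using hξ)
  have := F4x858.memLp_of_bdd hg hM hfin_ball Metric.isClosed_closedBall.measurableSet hs' 2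
  exact this.norm.integrable_sq

theorem lint_sq {g : E2 → ℂ} (hg : Measurable g) (hb : ∃ M : ℝ, ∀ ξ, ‖g ξ‖ ≤ M)
    (hs : ∀ ξ, 1 < ‖ξ‖ → g ξ = 0) : ∫⁻ ξ, ‖g ξ‖ₑ ^ 2 = ENNReal.ofReal (En g) := by
  unfold En
  rw [ofReal_integral_eq_lintegral_ofReal (integrable_sq hg hb hs)
    (Filter.Eventually.of_forall fun _ => by positivity)]
  refine lintegral_congr fun ξ => ?_
  rw [ENNReal.ofReal_pow (norm_nonneg _), ofReal_norm]

theorem NN_eq (N : ℕ) (h : E2 → ℝ) (g : E2 → ℂ) (w R : ℝ) :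
    NN N h g w R = ∫⁻ z in cyl R, av N h g w z ^ (3 / 2 : ℝ) := by
  unfold NN av
  simp only [inv_pow]

/-- general form: any exponent in the non-degeneracy hypothesis. -/
theorem exists_triv1' : ∃ C : ℝ, 0 < C ∧ ∀ (N : ℕ) (_ : 8 ≤ N) (h : E2 → ℝ)
    (_ : Continuous h) (g : E2 → ℂ)
    (_ : Measurable g) (_ : ∃ M : ℝ, ∀ ξ, ‖g ξ‖ ≤ M) (_ : ∀ ξ, 1 < ‖ξ‖ → g ξ = 0) (w R D K : ℝ)
    (_ : 0 < w) (_ : 0 ≤ R) (_ : 0 ≤ K) (_ : 0 ≤ D) (_ : En g ≤ K ^ 2 * D),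
    NN N h g w R ≤ ENNReal.ofReal (C * K * SS g R D) := by
  obtain ⟨C, hC, H⟩ := exists_triv1
  refine ⟨C, hC, fun N hN h hh g hg hb hs w R D K hw hR hK hD hnd => ?_⟩
  rw [NN_eq]
  refine (H N hN h hh g hg hb hs w R hw hR).trans ?_
  rw [lint_sq hg hb hs]
  have hE := En_nonneg g
  rw [ENNReal.ofReal_rpow_of_nonneg hE (by norm_num), ← ENNReal.ofReal_mul (by positivity)]
  refine ENNReal.ofReal_le_ofReal ?_
  have h1 : En g ^ (3 / 2 : ℝ) = En g * Real.sqrt (En g) := by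
    rw [show (3 / 2 : ℝ) = 1 + 1 / 2 by norm_num, Real.rpow_add_of_nonneg hE (by norm_num)
      (by norm_num), Real.rpow_one, Real.sqrt_eq_rpow]
  have h2 : Real.sqrt (En g) ≤ K * Real.sqrt D := by
    refine (Real.sqrt_le_sqrt hnd).trans ?_
    rw [Real.sqrt_mul (by positivity), Real.sqrt_sq hK]
  rw [h1]
  unfold SS
  calc C * R * (En g * Real.sqrt (En g)) ≤ C * R * (En g * (K * Real.sqrt D)) := by gcongr
    _ = C * K * (R * En g * Real.sqrt D) := by ring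

/-- **TRIV1**. -/
theorem TRIV1_holds (B : ℕ → ℝ) (q : ℝ) : TRIV1 B q := by
  obtain ⟨C, hC, H⟩ := exists_triv1'
  intro Na M0
  refine ⟨8, C, hC.le, fun h g R D w hst hw => ?_⟩
  have hR : 0 < R := lt_of_lt_of_le (by norm_num) hst.R1
  refine H 8 le_rfl h hst.par.1.continuous g hst.meas hst.bdd hst.supp w R D (R ^ (M0 / 2))
    (by linarith) hR.le (by positivity) hst.D0 ?_
  rw [← Real.rpow_natCast, ← Real.rpow_mul hR.le]
  refine hst.nd.trans (le_of_eq ?_)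
  congr 2
  push_cast; ring

end Crest.Agent.R138.W323
end

-- ▼ part R138/TubD_70
section

/-! KMw (WDef_188) from `KM32`, part 1: localisation, slices against space-time averages. -/

set_option autoImplicit false

open MeasureTheory FourierTransform
open scoped ENNReal ContDiff

namespace Crest.Agent.R138.Tub70

open Crest.Agent.R138.Defs (ParB ee ext plank Adm chi BoxBoundL cyl)
open Crest.Agent.R138.Wpk685
open Crest.Agent.R138.W188 (St KMw NN SS PBox tr)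
open Crest.Agent.R138.Bil882 (wt wt_pos measurable_wt)

attribute [local instance] Crest.Agent.R138.T774.haar3

/-- slice average. -/
noncomputable def sa (w : ℝ) (n : ℕ) (U : E2 → ℝ → ℂ) (p : E2 × ℝ) : ℝ≥0∞ :=
  ENNReal.ofReal ((w ^ 2)⁻¹) * En w n (fun y => U y p.2) p.1

theorem sa_le_Av {w : ℝ} (hw : 0 ≤ w) (n : ℕ) (U : E2 → ℝ → ℂ) (x : E2) (t : ℝ) :
    sa w n U (x, t) ≤ Av w n U x t := by
  unfold sa Av
  exact le_iSup_of_le (⟨t, by simpa using hw⟩ : {t' : ℝ // |t' - t| ≤ w}) le_rfl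

theorem measurable_sa {U : E2 → ℝ → ℂ} (hU : Measurable fun p : E2 × ℝ => U p.1 p.2) (w : ℝ)
    (n : ℕ) : Measurable (sa w n U) := by
  unfold sa En
  refine Measurable.const_mul ?_ _
  apply Measurable.lintegral_prod_right' (f := fun q : (E2 × ℝ) × E2 =>
    ‖U q.2 q.1.2‖ₑ ^ 2 * ENNReal.ofReal (pw w n q.1.1 q.2))
  refine Measurable.mul ?_ (Measurable.ennreal_ofReal ?_)
  · have h1 : Measurable fun q : (E2 × ℝ) × E2 => (q.2, q.1.2) := by fun_prop
    exact (hU.comp h1).enorm.pow_const 2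
  · unfold pw
    fun_prop

theorem ext_tr (h : E2 → ℝ) (z : E2 × ℝ) (g : E2 → ℂ) (x : E2) (t : ℝ) :
    ext h (tr h z g) x t = ext h g (x + z.1) (t + z.2) := by
  unfold ext tr
  congr 1
  funext ξ
  rw [mul_assoc, ← ee_add]
  congr 2
  rw [inner_add_left]
  ring

theorem tr_mul (h : E2 → ℝ) (z : E2 × ℝ) (g χ : E2 → ℂ) :
    (fun ξ => tr h z g ξ * χ ξ) = tr h z (fun ξ => g ξ * χ ξ) := by
  funext ξ
  unfold tr
  ring

theorem sa_tr (h : E2 → ℝ) (z : E2 × ℝ) (g : E2 → ℂ) (w : ℝ) (n : ℕ) (p : E2 × ℝ) :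
    sa w n (ext h (tr h z g)) p = sa w n (ext h g) (p + z) := by
  unfold sa
  congr 1
  have e : (fun y => ext h (tr h z g) y p.2) =
      fun y => (fun y' => ext h g y' (p.2 + z.2)) (y + z.1) := by
    funext y
    rw [ext_tr]
  rw [e, En_translate n (fun y' => ext h g y' (p.2 + z.2)) z.1 p.1]
  rfl

theorem Gd.tr {g : E2 → ℂ} (hg : Gd g) {h : E2 → ℝ} (hh : Continuous h) (z : E2 × ℝ) :
    Gd (W188.tr h z g) := by
  have hc : Continuous fun ξ : E2 => (inner ℝ z.1 ξ + z.2 * h ξ : ℝ) := by fun_prop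
  have hm : Measurable fun ξ : E2 => Defs.ee (inner ℝ z.1 ξ + z.2 * h ξ) :=
    (continuous_ee.comp hc).measurable
  exact hg.mul' hm (M := 1) (fun _ => (norm_ee _).le)

theorem En_tr (h : E2 → ℝ) (z : E2 × ℝ) (g : E2 → ℂ) :
    ∫ ξ, ‖W188.tr h z g ξ‖ ^ 2 = ∫ ξ, ‖g ξ‖ ^ 2 := by
  congr 1
  funext ξ
  unfold W188.tr
  rw [norm_mul, norm_ee, mul_one]

theorem cyl_eq_prod (R : ℝ) : cyl R = {x : E2 | ‖x‖ ≤ R} ×ˢ Set.Icc (-R) R := by
  ext p
  simp only [cyl, Set.mem_ofPred_eq, Set.mem_prod, Set.mem_Icc, abs_le]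

theorem lintegral_cyl {f : E2 × ℝ → ℝ≥0∞} (hf : Measurable f) (R : ℝ) :
    ∫⁻ p in cyl R, f p = ∫⁻ t in Set.Icc (-R) R, ∫⁻ x in {x : E2 | ‖x‖ ≤ R}, f (x, t) := by
  rw [cyl_eq_prod, Measure.volume_eq_prod, ← Measure.prod_restrict, lintegral_prod_symm]
  exact hf.aemeasurable

theorem plank_shift {c : E2} (b : OrthonormalBasis (Fin 2) ℝ E2) (s : Fin 2 → ℝ) (R : ℝ) (x0 : E2)
    (t0 : ℝ) (z : E2 × ℝ) (f : E2 × ℝ → ℝ≥0∞) (_ : Measurable f) :
    ∫⁻ p in plank c b s R x0 t0, f (p + z) = ∫⁻ p in plank c b s R (x0 + z.1) (t0 + z.2), f p := by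
  have hcl : ∀ (x0 : E2) (t0 : ℝ), MeasurableSet (plank c b s R x0 t0) := by
    intro x0 t0
    apply IsClosed.measurableSet
    have : plank c b s R x0 t0 = {p : E2 × ℝ | |p.2 - t0| ≤ R} ∩
        ⋂ i, {p : E2 × ℝ | |inner ℝ (p.1 - x0 + (p.2 - t0) • c) (b i)| ≤ s i * R} := by
      ext p; simp [plank]
    rw [this]
    apply IsClosed.inter
    · exact isClosed_le (by fun_prop) continuous_const
    · apply isClosed_iInter
      intro i
      exact isClosed_le (by fun_prop) continuous_const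
  rw [← lintegral_indicator (hcl _ _), ← lintegral_indicator (hcl _ _)]
  rw [← lintegral_add_right_eq_self ((plank c b s R (x0 + z.1) (t0 + z.2)).indicator f) z]
  apply lintegral_congr
  intro p
  by_cases hp : p ∈ plank c b s R x0 t0
  · have hp' : p + z ∈ plank c b s R (x0 + z.1) (t0 + z.2) := by
      refine ⟨?_, fun i => ?_⟩
      · have := hp.1
        simp only [Prod.snd_add, add_sub_add_right_eq_sub]; exact this
      · have := hp.2 i
        simp only [Prod.fst_add, Prod.snd_add, add_sub_add_right_eq_sub]; exact this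
    rw [Set.indicator_of_mem hp, Set.indicator_of_mem hp']
  · have hp' : p + z ∉ plank c b s R (x0 + z.1) (t0 + z.2) := by
      intro hq
      apply hp
      refine ⟨?_, fun i => ?_⟩
      · have := hq.1
        simp only [Prod.snd_add, add_sub_add_right_eq_sub] at this; exact this
      · have := hq.2 i
        simp only [Prod.fst_add, Prod.snd_add, add_sub_add_right_eq_sub] at this; exact this
    rw [Set.indicator_of_notMem hp, Set.indicator_of_notMem hp']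

/-- the box bound passes to a smaller scale (with a constant). -/
theorem box_local {q : ℝ} (hq : 0 ≤ q) {Na : ℕ} {h : E2 → ℝ} (hh : Continuous h) {g : E2 → ℂ}
    (hg : Gd g) {R D L L0 r : ℝ} (hgrad : Continuous (gradient h)) (hD : 0 ≤ D)
    (hbox : PBox q Na h g R D) (hr : 1 ≤ r) (hL : 1 ≤ L) (hRL : R = L * r) (hL0 : L0 ≤ L)
    {z : E2 × ℝ} (hz : z ∈ cyl (3 * R)) :
    BoxBoundL L0 Na h (W188.tr h z g) r (L ^ 3 * D) := by
  intro c b s hs ψ hψ x0 t0 hx0 ht0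
  have hr0 : 0 < r := by linarith
  have hR : r ≤ R := by rw [hRL]; nlinarith
  have hR0 : 0 < R := by linarith
  obtain ⟨hz1, hz2⟩ := hz
  have hs0 : ∀ i, 0 < s i := fun i => (Real.rpow_pos_of_pos hr0 _).trans_le (hs i).1
  have hL0R : L0 * r ≤ R := by rw [hRL]; gcongr
  have hχc : Continuous (chi h c b s ψ) := by
    unfold chi
    apply hψ.1.continuous.comp
    apply (PiLp.continuous_toLp 2 _).comp
    apply continuous_pi
    intro i
    exact ((hgrad.sub continuous_const).inner continuous_const).div_const _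
  have hχb : ∀ ξ, ‖chi h c b s ψ ξ‖ ≤ 1 := by
    intro ξ
    have := hψ.2.2 0 (Nat.zero_le _) (WithLp.toLp 2 fun i => inner ℝ (gradient h ξ - c) (b i) / s i)
    rw [norm_iteratedFDeriv_zero] at this
    exact this
  have hgχ : Gd (fun ξ => g ξ * chi h c b s ψ ξ) := hg.mul' hχc.measurable hχb
  have e1 : (fun ξ => W188.tr h z g ξ * chi h c b s ψ ξ) =
      W188.tr h z (fun ξ => g ξ * chi h c b s ψ ξ) := tr_mul _ _ _ _
  rw [e1]
  have hm : Measurable fun p : E2 × ℝ => ‖ext h (fun ξ => g ξ * chi h c b s ψ ξ) p.1 p.2‖ₑ ^ 2 :=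
    (continuous_ext hh hgχ).measurable.enorm.pow_const 2
  calc ∫⁻ p in plank c b s r x0 t0,
        ‖ext h (W188.tr h z (fun ξ => g ξ * chi h c b s ψ ξ)) p.1 p.2‖ₑ ^ 2
      = ∫⁻ p in plank c b s r x0 t0,
        (fun p : E2 × ℝ => ‖ext h (fun ξ => g ξ * chi h c b s ψ ξ) p.1 p.2‖ₑ ^ 2) (p + z) := by
        apply lintegral_congr
        intro p
        rw [ext_tr]
        rfl
    _ = ∫⁻ p in plank c b s r (x0 + z.1) (t0 + z.2),
        ‖ext h (fun ξ => g ξ * chi h c b s ψ ξ) p.1 p.2‖ₑ ^ 2 := plank_shift b s r x0 t0 z _ hm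
    _ ≤ ∫⁻ p in plank c b s R (x0 + z.1) (t0 + z.2),
        ‖ext h (fun ξ => g ξ * chi h c b s ψ ξ) p.1 p.2‖ₑ ^ 2 := by
        apply lintegral_mono_set
        rintro p ⟨hp1, hp2⟩
        refine ⟨hp1.trans hR, fun i => (hp2 i).trans ?_⟩
        have := hs0 i
        gcongr
    _ ≤ ENNReal.ofReal (D * (max (s 0) (s 1)) ^ q * (s 0 * s 1 * R ^ 3)) := by
        apply hbox c b s _ ψ hψ
        · calc ‖x0 + z.1‖ ≤ ‖x0‖ + ‖z.1‖ := norm_add_le _ _
            _ ≤ 4 * R := by linarith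
        · calc |t0 + z.2| ≤ |t0| + |z.2| := abs_add_le _ _
            _ ≤ 4 * R := by linarith
        · intro i
          refine ⟨le_trans ?_ (hs i).1, (hs i).2⟩
          exact Real.rpow_le_rpow_of_nonpos hr0 hR (by norm_num)
    _ ≤ ENNReal.ofReal (L ^ 3 * D * (s 0 * s 1 * r ^ 3)) := by
        apply ENNReal.ofReal_le_ofReal
        have h1 : (max (s 0) (s 1)) ^ q ≤ 1 :=
          Real.rpow_le_one ((hs0 0).le.trans (le_max_left _ _)) (max_le (hs 0).2 (hs 1).2) hq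
        have h2 : 0 ≤ s 0 * s 1 * R ^ 3 := by
          have := hs0 0
          have := hs0 1
          positivity
        calc D * (max (s 0) (s 1)) ^ q * (s 0 * s 1 * R ^ 3)
            ≤ D * 1 * (s 0 * s 1 * R ^ 3) := by gcongr
          _ = _ := by rw [hRL]; ring

/-- velocities of normalised phases. -/
theorem gradient_le {B : ℕ → ℝ} {h : E2 → ℝ} (hh : ParB B h) (h1 : fderiv ℝ h 0 = 0) (ξ : E2)
    (hξ : ‖ξ‖ ≤ 3) : ‖gradient h ξ‖ ≤ 3 * (1 + |B 2|) := by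
  have h0 : gradient h 0 = 0 := by
    unfold gradient; rw [h1, map_zero]
  have h2 := gradient_lip2 hh ξ 0
  rw [h0, sub_zero, sub_zero] at h2
  have h3 : 0 ≤ B 2 := ParB.B2_nonneg hh
  rw [abs_of_nonneg h3]
  nlinarith [norm_nonneg ξ]

end Crest.Agent.R138.Tub70
end

-- ▼ part R138/WFin1_188
section

/-!
# R138 / R139: WAVE side, final part 1 (helper188): the degenerate case (energy much larger than the
density) and `EBn` from `LB`.
-/

set_option autoImplicit false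

open MeasureTheory FourierTransform
open scoped ContDiff ENNReal

namespace Crest.Agent.R138.W188

open Crest.Agent.R138.Defs Crest.Agent.R138.Bil882 Crest.Agent.R138.Wpk685

/-- the signs. -/
noncomputable def sgb (e : Bool) : ℝ := if e then 1 else -1

theorem exists_sgb {R t : ℝ} (ht : |t| ≤ 2 * R) : ∃ e : Bool, |t - sgb e * R| ≤ R := by
  rcases le_total 0 t with h | h
  · refine ⟨true, ?_⟩
    rw [abs_of_nonneg h] at ht
    simp only [sgb, if_true, one_mul]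
    rw [abs_le]; constructor <;> linarith
  · refine ⟨false, ?_⟩
    rw [abs_of_nonpos h] at ht
    simp only [sgb, if_false, Bool.false_eq_true]
    rw [abs_le]; constructor <;> linarith

/-- base points. -/
noncomputable def bpt (R : ℝ) (e : Bool × Bool) : E2 := WithLp.toLp 2 ![sgb e.1 * R, sgb e.2 * R]

theorem norm_bpt {R : ℝ} (hR : 0 ≤ R) (e : Bool × Bool) : ‖bpt R e‖ ≤ 2 * R := by
  have h1 : ∀ e : Bool, sgb e ^ 2 = 1 := by
    intro e; cases e <;> simp [sgb]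
  have h2 : ‖bpt R e‖ ^ 2 = 2 * R ^ 2 := by
    rw [EuclideanSpace.norm_sq_eq]
    simp only [bpt, Fin.sum_univ_two, Real.norm_eq_abs, sq_abs]
    simp only [Matrix.cons_val_zero, Matrix.cons_val_one, mul_pow, h1]
    ring
  nlinarith [norm_nonneg (bpt R e)]

/-- energy of the full wave on the cylinder of size `2R`. -/
theorem cyl_two (N : ℕ) : ∃ C : ℝ, 0 ≤ C ∧ ∀ (B : ℕ → ℝ) (h : E2 → ℝ), ParB B h → B 2 ≤ 1/2 →
    fderiv ℝ h 0 = 0 → ∀ (g : E2 → ℂ) (R D : ℝ), (∀ ξ, 1 < ‖ξ‖ → g ξ = 0) → 1 ≤ R → 0 ≤ D →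
    BoxBoundL 4 N h g R D →
    ∫⁻ p in cyl (2 * R), ‖ext h g p.1 p.2‖ₑ ^ 2 ≤ ENNReal.ofReal (C * (D * R ^ 3)) := by
  obtain ⟨κ, hκ, ψ, hψ, hψ1, -⟩ := Tub70.exists_adm N
  refine ⟨8 * κ⁻¹ ^ 2, by positivity, ?_⟩
  intro B h hh hB h1 g R D hs hR hD hbox
  have hR0 : 0 < R := by linarith
  set b : OrthonormalBasis (Fin 2) ℝ E2 := EuclideanSpace.basisFun (Fin 2) ℝ with hb
  have hgrad : ∀ ξ : E2, ‖ξ‖ ≤ 1 → ‖gradient h ξ‖ ≤ 3/2 := by
    intro ξ hξ
    have h0 : gradient h 0 = 0 := by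
      unfold gradient; rw [h1, map_zero]
    have h2 := Tub70.gradient_lip2 hh ξ 0
    rw [h0, sub_zero, sub_zero] at h2
    nlinarith [norm_nonneg ξ]
  have hchi : ∀ ξ, g ξ * chi h 0 b (fun _ => 1) ψ ξ = (κ : ℂ) * g ξ := by
    intro ξ
    rcases le_or_gt ‖ξ‖ 1 with hξ | hξ
    · have : chi h 0 b (fun _ => 1) ψ ξ = κ := by
        unfold chi
        apply hψ1
        intro i
        simp only [sub_zero, div_one]
        calc |inner ℝ (gradient h ξ) (b i)| ≤ ‖gradient h ξ‖ * ‖b i‖ := abs_real_inner_le_norm _ _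
          _ = ‖gradient h ξ‖ := by rw [b.norm_eq_one, mul_one]
          _ ≤ 3/2 := hgrad ξ hξ
      rw [this, mul_comm]
    · rw [hs ξ hξ]; simp
  have hfull : ∀ (x0 : E2) (t0 : ℝ), ‖x0‖ ≤ 4 * R → |t0| ≤ 4 * R →
      ∫⁻ p in plank 0 b (fun _ => 1) R x0 t0, ‖ext h g p.1 p.2‖ₑ ^ 2 ≤
        ENNReal.ofReal (κ⁻¹ ^ 2 * (D * R ^ 3)) := by
    intro x0 t0 hx ht
    have h2 := hbox 0 b (fun _ => 1) (fun _ => ⟨by
      apply Real.rpow_le_one_of_one_le_of_nonpos hR (by norm_num), le_rfl⟩) ψ hψ x0 t0 hx ht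
    simp only [hchi] at h2
    have e1 : ∀ p : E2 × ℝ, ‖ext h g p.1 p.2‖ₑ ^ 2 = ENNReal.ofReal (κ⁻¹ ^ 2) *
        ‖ext h (fun ξ => (κ : ℂ) * g ξ) p.1 p.2‖ₑ ^ 2 := by
      intro p
      have e2 : ext h (fun ξ => (κ : ℂ) * g ξ) p.1 p.2 = κ * ext h g p.1 p.2 := by
        unfold ext
        rw [← integral_const_mul]
        congr 1
        funext ξ
        ring
      rw [e2, enorm_mul, mul_pow, ← mul_assoc]
      have e3 : ENNReal.ofReal (κ⁻¹ ^ 2) * ‖(κ : ℂ)‖ₑ ^ 2 = 1 := by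
        rw [← ofReal_norm, ← ENNReal.ofReal_pow (norm_nonneg _), ← ENNReal.ofReal_mul (by positivity),
          Complex.norm_real, Real.norm_eq_abs, abs_of_pos hκ]
        rw [← mul_pow, inv_mul_cancel₀ hκ.ne', one_pow, ENNReal.ofReal_one]
      rw [e3, one_mul]
    simp only [e1]
    rw [lintegral_const_mul' _ _ ENNReal.ofReal_ne_top]
    refine (mul_le_mul_right h2 _).trans ?_
    rw [← ENNReal.ofReal_mul (by positivity)]
    apply ENNReal.ofReal_le_ofReal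
    apply le_of_eq
    ring
  have hcov : cyl (2 * R) ⊆ ⋃ e : (Bool × Bool) × Bool,
      plank 0 b (fun _ => 1) R (bpt R e.1) (sgb e.2 * R) := by
    rintro p ⟨hp1, hp2⟩
    have hc : ∀ i, |p.1 i| ≤ 2 * R := fun i => by
      have := (EuclideanSpace.norm_eq p.1 ▸ PiLp.norm_apply_le p.1 i)
      exact (PiLp.norm_apply_le p.1 i).trans hp1
    obtain ⟨e0, he0⟩ := exists_sgb (hc 0)
    obtain ⟨e1, he1⟩ := exists_sgb (hc 1)
    obtain ⟨e2, he2⟩ := exists_sgb hp2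
    refine Set.mem_iUnion.2 ⟨((e0, e1), e2), he2, ?_⟩
    intro i
    rw [smul_zero, add_zero, one_mul]
    have e3 : inner ℝ (p.1 - bpt R (e0, e1)) (b i) = (p.1 - bpt R (e0, e1)) i := by
      rw [real_inner_comm, hb, EuclideanSpace.basisFun_apply, EuclideanSpace.inner_single_left]
      simp
    rw [e3]
    fin_cases i
    · simpa [bpt] using he0
    · simpa [bpt] using he1
  calc ∫⁻ p in cyl (2 * R), ‖ext h g p.1 p.2‖ₑ ^ 2
      ≤ ∫⁻ p in ⋃ e : (Bool × Bool) × Bool,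
          plank 0 b (fun _ => 1) R (bpt R e.1) (sgb e.2 * R), ‖ext h g p.1 p.2‖ₑ ^ 2 :=
        lintegral_mono_set hcov
    _ ≤ ∑' e : (Bool × Bool) × Bool, ∫⁻ p in
          plank 0 b (fun _ => 1) R (bpt R e.1) (sgb e.2 * R), ‖ext h g p.1 p.2‖ₑ ^ 2 :=
        lintegral_iUnion_le _ _
    _ = ∑ e : (Bool × Bool) × Bool, ∫⁻ p in
          plank 0 b (fun _ => 1) R (bpt R e.1) (sgb e.2 * R), ‖ext h g p.1 p.2‖ₑ ^ 2 :=
        tsum_fintype _
    _ ≤ ∑ e : (Bool × Bool) × Bool, ENNReal.ofReal (κ⁻¹ ^ 2 * (D * R ^ 3)) := by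
        apply Finset.sum_le_sum
        intro e _
        apply hfull
        · exact (norm_bpt hR0.le _).trans (by linarith)
        · have : |sgb e.2| = 1 := by cases e.2 <;> simp [sgb]
          rw [abs_mul, this, one_mul, abs_of_pos hR0]; linarith
    _ = ENNReal.ofReal (8 * κ⁻¹ ^ 2 * (D * R ^ 3)) := by
        rw [Finset.sum_const]
        have : (Finset.univ : Finset ((Bool × Bool) × Bool)).card = 8 := rfl
        rw [this, nsmul_eq_mul, mul_assoc, ENNReal.ofReal_mul (p := 8) (by norm_num)]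
        simp

/-- pointwise bound of the wave on `cyl R` by the density and a small multiple of the energy. -/
theorem sup_le (B : ℕ → ℝ) (hB : B 2 ≤ 1/2) (N : ℕ) : ∃ C : ℝ, 0 ≤ C ∧ ∀ (h : E2 → ℝ), ParB B h →
    fderiv ℝ h 0 = 0 → ∀ (g : E2 → ℂ) (R D : ℝ), Measurable g → (∃ M : ℝ, ∀ ξ, ‖g ξ‖ ≤ M) →
    (∀ ξ, 1 < ‖ξ‖ → g ξ = 0) → 1 ≤ R → 0 ≤ D → BoxBoundL 4 N h g R D → ∀ z ∈ cyl R,
      ‖ext h g z.1 z.2‖ₑ ^ 2 ≤ ENNReal.ofReal (C * (D * R ^ 3 + (R ^ 4)⁻¹ * En g)) := by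
  obtain ⟨C1, hC1, H1⟩ := T774.ext_sq_le B 12
  obtain ⟨C2, hC2, H2⟩ := cyl_two N
  obtain ⟨C3, hC3, H3⟩ := W323.exists_lint_wt
  refine ⟨C1 * (C2 + 4 * C3), by positivity, ?_⟩
  intro h hh h1 g R D hgm hgb hs hR hD hbox z hz
  have hR0 : 0 < R := by linarith
  have hE : ∫⁻ ξ, ‖g ξ‖ₑ ^ 2 = ENNReal.ofReal (En g) := by
    have hm2 : MemLp g 2 := T774.integ hgm hgb hs 2
    unfold En
    rw [ofReal_integral_eq_lintegral_ofReal (hm2.integrable_norm_pow (by norm_num))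
      (Filter.Eventually.of_forall fun ξ => by positivity)]
    refine lintegral_congr fun ξ => ?_
    rw [← ofReal_norm, ENNReal.ofReal_pow (norm_nonneg _)]
  have hg1 : Integrable g := memLp_one_iff_integrable.1 (T774.integ hgm hgb hs 1)
  have hF : Continuous fun p : E2 × ℝ => ext h g p.1 p.2 := F4x858.continuous_ext hh.1.continuous hg1
  have hmc : MeasurableSet (cyl (2 * R)) := T774.measurableSet_cyl _
  -- split of the weighted integral
  have hpt : ∀ p : E2 × ℝ, ‖ext h g p.1 p.2‖ₑ ^ 2 * ENNReal.ofReal (wt 12 1 z.1 z.2 p) ≤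
      (cyl (2 * R)).indicator (fun p => ‖ext h g p.1 p.2‖ₑ ^ 2) p +
        (ENNReal.ofReal ((R ^ 4)⁻¹) * (4 * ENNReal.ofReal (En g))) *
          ENNReal.ofReal (wt 8 1 z.1 z.2 p) := by
    intro p
    by_cases hp : p ∈ cyl (2 * R)
    · rw [Set.indicator_of_mem hp]
      refine le_trans ?_ le_self_add
      have hw1 : ENNReal.ofReal (wt 12 1 z.1 z.2 p) ≤ 1 := by
        rw [← ENNReal.ofReal_one]
        apply ENNReal.ofReal_le_ofReal
        unfold wt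
        apply inv_le_one_of_one_le₀
        apply one_le_pow₀
        have : 0 ≤ (‖p.1 - z.1‖ + |p.2 - z.2|) / 1 := by positivity
        linarith
      calc _ ≤ ‖ext h g p.1 p.2‖ₑ ^ 2 * 1 := by gcongr
        _ = _ := mul_one _
    · rw [Set.indicator_of_notMem hp, zero_add]
      have hd : R ≤ ‖p.1 - z.1‖ + |p.2 - z.2| := by
        by_contra hc
        push Not at hc
        apply hp
        obtain ⟨hz1, hz2⟩ := hz
        constructor
        · have := norm_sub_norm_le p.1 z.1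
          have h0 := abs_nonneg (p.2 - z.2)
          linarith
        · have := abs_sub_abs_le_abs_sub p.2 z.2
          have h0 := norm_nonneg (p.1 - z.1)
          linarith
      have hw : wt 12 1 z.1 z.2 p ≤ (R ^ 4)⁻¹ * wt 8 1 z.1 z.2 p := by
        unfold wt
        rw [← mul_inv, div_one]
        apply inv_anti₀ (by positivity)
        set a := ‖p.1 - z.1‖ + |p.2 - z.2| with ha
        calc R ^ 4 * (1 + a) ^ 8 ≤ (1 + a) ^ 4 * (1 + a) ^ 8 := by gcongr; linarith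
          _ = (1 + a) ^ 12 := by ring
      have h4 : ‖ext h g p.1 p.2‖ₑ ^ 2 ≤ 4 * ENNReal.ofReal (En g) := by
        rw [← hE]; exact W323.enorm_ext_sq_le hgm hs _ _
      calc ‖ext h g p.1 p.2‖ₑ ^ 2 * ENNReal.ofReal (wt 12 1 z.1 z.2 p)
          ≤ (4 * ENNReal.ofReal (En g)) * ENNReal.ofReal ((R ^ 4)⁻¹ * wt 8 1 z.1 z.2 p) := by
            gcongr
        _ = _ := by
            rw [ENNReal.ofReal_mul (by positivity)]; ring
  have hmw : Measurable fun p : E2 × ℝ => ENNReal.ofReal (wt 8 1 z.1 z.2 p) :=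
    (measurable_wt 8 1 z.1 z.2).ennreal_ofReal
  have hEn := En_nonneg g
  calc ‖ext h g z.1 z.2‖ₑ ^ 2 ≤ ENNReal.ofReal C1 *
        ∫⁻ p : E2 × ℝ, ‖ext h g p.1 p.2‖ₑ ^ 2 * ENNReal.ofReal (wt 12 1 z.1 z.2 p) :=
        H1 h hh h1 g hgm hgb hs z.1 z.2
    _ ≤ ENNReal.ofReal C1 * ∫⁻ p : E2 × ℝ,
        ((cyl (2 * R)).indicator (fun p => ‖ext h g p.1 p.2‖ₑ ^ 2) p +
        (ENNReal.ofReal ((R ^ 4)⁻¹) * (4 * ENNReal.ofReal (En g))) *
          ENNReal.ofReal (wt 8 1 z.1 z.2 p)) := by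
        gcongr with p
        exact hpt p
    _ = ENNReal.ofReal C1 * ((∫⁻ p in cyl (2 * R), ‖ext h g p.1 p.2‖ₑ ^ 2) +
        (ENNReal.ofReal ((R ^ 4)⁻¹) * (4 * ENNReal.ofReal (En g))) *
          ∫⁻ p : E2 × ℝ, ENNReal.ofReal (wt 8 1 z.1 z.2 p)) := by
        rw [lintegral_add_right _ (hmw.const_mul _), lintegral_indicator hmc,
          lintegral_const_mul _ hmw]
    _ ≤ ENNReal.ofReal C1 * (ENNReal.ofReal (C2 * (D * R ^ 3)) +
        (ENNReal.ofReal ((R ^ 4)⁻¹) * (4 * ENNReal.ofReal (En g))) *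
          ENNReal.ofReal (C3 * 1 ^ 3)) := by
        gcongr
        · exact H2 B h hh hB h1 g R D hs hR hD hbox
        · exact H3 8 le_rfl 1 one_pos z
    _ = ENNReal.ofReal (C1 * (C2 * (D * R ^ 3) + (R ^ 4)⁻¹ * (4 * En g) * C3)) := by
        have e4 : (4 : ℝ≥0∞) * ENNReal.ofReal (En g) = ENNReal.ofReal (4 * En g) := by
          rw [ENNReal.ofReal_mul (by norm_num)]; norm_num
        rw [e4, ← ENNReal.ofReal_mul (by positivity), one_pow, mul_one,
          ← ENNReal.ofReal_mul (by positivity), ← ENNReal.ofReal_add (by positivity) (by positivity),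
          ← ENNReal.ofReal_mul hC1]
    _ ≤ _ := by
        apply ENNReal.ofReal_le_ofReal
        have h5 : 0 ≤ D * R ^ 3 := by positivity
        have h6 : 0 ≤ (R ^ 4)⁻¹ * En g := by positivity
        have h7 : (R ^ 4)⁻¹ * (4 * En g) * C3 = 4 * C3 * ((R ^ 4)⁻¹ * En g) := by ring
        rw [h7, mul_assoc]
        set a := D * R ^ 3
        set b := (R ^ 4)⁻¹ * En g
        have h8 : C2 * a + 4 * C3 * b ≤ (C2 + 4 * C3) * (a + b) := by
          have h9 : 0 ≤ C2 * b := by positivity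
          have h10 : 0 ≤ 4 * C3 * a := by positivity
          nlinarith
        have h11 := mul_le_mul_of_nonneg_left h8 hC1
        linarith

/-- the degenerate case: the energy is much larger than the density. -/
theorem degen (B : ℕ → ℝ) (hB : B 2 ≤ 1/2) (N : ℕ) : ∃ C : ℝ, 0 ≤ C ∧ ∀ (h : E2 → ℝ), ParB B h →
    fderiv ℝ h 0 = 0 → ∀ (g : E2 → ℂ) (R D : ℝ), Measurable g → (∃ M : ℝ, ∀ ξ, ‖g ξ‖ ≤ M) →
    (∀ ξ, 1 < ‖ξ‖ → g ξ = 0) → 1 ≤ R → 0 ≤ D → BoxBoundL 4 N h g R D → R ^ 6 * D ≤ En g →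
      CC h g R ≤ ENNReal.ofReal (C * SS g R D) := by
  obtain ⟨C1, hC1, H1⟩ := sup_le B hB N
  obtain ⟨C2, hC2, H2⟩ := cyl_two N
  refine ⟨(2 * C1) ^ (1/2 : ℝ) * (2 * C2) ^ (1/2 : ℝ), by positivity, ?_⟩
  intro h hh h1 g R D hgm hgb hs hR hD hbox hbig
  have hR0 : 0 < R := by linarith
  have hEn := En_nonneg g
  have hE : ∫⁻ ξ, ‖g ξ‖ₑ ^ 2 = ENNReal.ofReal (En g) := by
    have hm2 : MemLp g 2 := T774.integ hgm hgb hs 2
    unfold En
    rw [ofReal_integral_eq_lintegral_ofReal (hm2.integrable_norm_pow (by norm_num))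
      (Filter.Eventually.of_forall fun ξ => by positivity)]
    refine lintegral_congr fun ξ => ?_
    rw [← ofReal_norm, ENNReal.ofReal_pow (norm_nonneg _)]
  have hg1 : Integrable g := memLp_one_iff_integrable.1 (T774.integ hgm hgb hs 1)
  have hF : Continuous fun p : E2 × ℝ => ext h g p.1 p.2 := F4x858.continuous_ext hh.1.continuous hg1
  have hslice : ∀ t, ∫⁻ x, ‖ext h g x t‖ₑ ^ 2 = ∫⁻ ξ, ‖g ξ‖ₑ ^ 2 :=
    F4x858.slice hh.1.continuous hg1 (T774.integ hgm hgb hs 2)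
  -- the two bounds of the quadratic integral
  have hI1 : ∫⁻ p in cyl R, ‖ext h g p.1 p.2‖ₑ ^ 2 ≤ ENNReal.ofReal (C2 * (D * R ^ 3)) := by
    refine (lintegral_mono_set ?_).trans (H2 B h hh hB h1 g R D hs hR hD hbox)
    rintro p ⟨hp1, hp2⟩
    exact ⟨by linarith, by linarith⟩
  have hI2 : ∫⁻ p in cyl R, ‖ext h g p.1 p.2‖ₑ ^ 2 ≤ ENNReal.ofReal (2 * R * En g) := by
    rw [Tub70.lintegral_cyl (hF.measurable.enorm.pow_const 2)]
    calc ∫⁻ t in Set.Icc (-R) R, ∫⁻ x in {x : E2 | ‖x‖ ≤ R}, ‖ext h g x t‖ₑ ^ 2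
        ≤ ∫⁻ t in Set.Icc (-R) R, ENNReal.ofReal (En g) := by
          apply lintegral_mono
          intro t
          rw [← hE, ← hslice t]
          exact setLIntegral_le_lintegral _ _
      _ = ENNReal.ofReal (2 * R * En g) := by
          rw [setLIntegral_const, Real.volume_Icc, mul_comm, ← ENNReal.ofReal_mul (by linarith)]
          congr 1
          ring
  set S : ℝ := 2 * C1 * ((R ^ 2)⁻¹ * En g) with hS
  have hsup : ∀ z ∈ cyl R, ‖ext h g z.1 z.2‖ₑ ≤ ENNReal.ofReal S ^ (1/2 : ℝ) := by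
    intro z hz
    have h2 := H1 h hh h1 g R D hgm hgb hs hR hD hbox z hz
    have h3 : C1 * (D * R ^ 3 + (R ^ 4)⁻¹ * En g) ≤ S := by
      have h4 : D * R ^ 3 ≤ (R ^ 2)⁻¹ * En g := by
        rw [le_inv_mul_iff₀ (by positivity)]
        calc R ^ 2 * (D * R ^ 3) = R ^ 5 * D := by ring
          _ ≤ R ^ 6 * D := by gcongr; norm_num
          _ ≤ En g := hbig
      have h5 : (R ^ 4)⁻¹ * En g ≤ (R ^ 2)⁻¹ * En g := by
        gcongr
        norm_num
      rw [hS]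
      nlinarith
    calc ‖ext h g z.1 z.2‖ₑ = (‖ext h g z.1 z.2‖ₑ ^ 2) ^ (1/2 : ℝ) := by
          rw [← ENNReal.rpow_natCast, ← ENNReal.rpow_mul]; norm_num
      _ ≤ ENNReal.ofReal S ^ (1/2 : ℝ) := by
          apply ENNReal.rpow_le_rpow _ (by norm_num)
          exact h2.trans (ENNReal.ofReal_le_ofReal h3)
  have hS0 : 0 ≤ S := by positivity
  have hI : ∫⁻ p in cyl R, ‖ext h g p.1 p.2‖ₑ ^ 2 ≤
      ENNReal.ofReal ((2 * C2) ^ (1/2 : ℝ) * (R ^ 2 * (En g ^ (1/2 : ℝ) * Real.sqrt D))) := by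
    set I : ℝ≥0∞ := ∫⁻ p in cyl R, ‖ext h g p.1 p.2‖ₑ ^ 2 with hIdef
    calc I = I ^ (1/2 : ℝ) * I ^ (1/2 : ℝ) := by
          rw [← ENNReal.rpow_add_of_nonneg _ _ (by norm_num) (by norm_num)]; norm_num
      _ ≤ ENNReal.ofReal (C2 * (D * R ^ 3)) ^ (1/2 : ℝ) * ENNReal.ofReal (2 * R * En g) ^ (1/2 : ℝ) := by
          gcongr
      _ = ENNReal.ofReal ((C2 * (D * R ^ 3)) ^ (1/2 : ℝ) * (2 * R * En g) ^ (1/2 : ℝ)) := by
          rw [ENNReal.ofReal_rpow_of_nonneg (by positivity) (by norm_num),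
            ENNReal.ofReal_rpow_of_nonneg (by positivity) (by norm_num),
            ← ENNReal.ofReal_mul (by positivity)]
      _ = _ := by
          congr 1
          rw [← Real.mul_rpow (by positivity) (by positivity), Real.sqrt_eq_rpow]
          have : C2 * (D * R ^ 3) * (2 * R * En g) = (2 * C2) * ((R ^ 2) ^ 2 * (En g * D)) := by ring
          rw [this, Real.mul_rpow (x := 2 * C2) (by positivity) (by positivity),
            Real.mul_rpow (x := (R ^ 2) ^ 2) (by positivity) (by positivity), Real.mul_rpow hEn hD,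
            ← Real.rpow_natCast (R ^ 2) 2, ← Real.rpow_mul (by positivity)]
          norm_num
  unfold CC
  calc ∫⁻ p in cyl R, ‖ext h g p.1 p.2‖ₑ ^ 3
      ≤ ∫⁻ p in cyl R, ENNReal.ofReal S ^ (1/2 : ℝ) * ‖ext h g p.1 p.2‖ₑ ^ 2 := by
        apply setLIntegral_mono' (T774.measurableSet_cyl R)
        intro p hp
        calc ‖ext h g p.1 p.2‖ₑ ^ 3 = ‖ext h g p.1 p.2‖ₑ * ‖ext h g p.1 p.2‖ₑ ^ 2 := by ring
          _ ≤ _ := by gcongr; exact hsup p hp
    _ = ENNReal.ofReal S ^ (1/2 : ℝ) * ∫⁻ p in cyl R, ‖ext h g p.1 p.2‖ₑ ^ 2 := by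
        rw [lintegral_const_mul']
        exact ENNReal.rpow_ne_top_of_nonneg (by norm_num) ENNReal.ofReal_ne_top
    _ ≤ ENNReal.ofReal S ^ (1/2 : ℝ) *
        ENNReal.ofReal ((2 * C2) ^ (1/2 : ℝ) * (R ^ 2 * (En g ^ (1/2 : ℝ) * Real.sqrt D))) := by
        gcongr
    _ = ENNReal.ofReal (S ^ (1/2 : ℝ) *
        ((2 * C2) ^ (1/2 : ℝ) * (R ^ 2 * (En g ^ (1/2 : ℝ) * Real.sqrt D)))) := by
        rw [ENNReal.ofReal_rpow_of_nonneg hS0 (by norm_num), ← ENNReal.ofReal_mul (by positivity)]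
    _ = _ := by
        congr 1
        rw [hS, Real.mul_rpow (by positivity) (by positivity), Real.mul_rpow (by positivity) hEn,
          Real.inv_rpow (by positivity), ← Real.rpow_natCast R 2, ← Real.rpow_mul hR0.le]
        unfold SS
        have e5 : En g ^ (1/2 : ℝ) * En g ^ (1/2 : ℝ) = En g := by
          rw [← Real.sqrt_eq_rpow]; exact Real.mul_self_sqrt hEn
        have e6 : R ^ (((2:ℕ):ℝ) * (1/2)) = R := by norm_num
        rw [e6]
        have e7 : R ^ ((2:ℕ):ℝ) = R * R := by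
          rw [Real.rpow_natCast]; ring
        rw [e7]
        calc (2 * C1) ^ (1/2 : ℝ) * (R⁻¹ * En g ^ (1/2 : ℝ)) *
            ((2 * C2) ^ (1/2 : ℝ) * (R * R * (En g ^ (1/2 : ℝ) * Real.sqrt D)))
            = (2 * C1) ^ (1/2 : ℝ) * (2 * C2) ^ (1/2 : ℝ) * ((R⁻¹ * R) * R *
              (En g ^ (1/2 : ℝ) * En g ^ (1/2 : ℝ)) * Real.sqrt D) := by ring
          _ = _ := by rw [e5, inv_mul_cancel₀ hR0.ne', one_mul]

theorem PBox_of_BoxBoundL {N : ℕ} {h : E2 → ℝ} {g : E2 → ℂ} {R D q : ℝ} (hq : 0 ≤ q) (hR : 1 ≤ R)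
    (hD : 0 ≤ D) (hbox : BoxBoundL 4 N h g R D) : PBox q N h g R (D * R ^ (q / 2)) := by
  intro c b s hs ψ hψ x0 t0 hx ht
  refine (hbox c b s hs ψ hψ x0 t0 hx ht).trans (ENNReal.ofReal_le_ofReal ?_)
  have hR0 : 0 < R := by linarith
  have hs0 : ∀ i, 0 < s i := fun i => lt_of_lt_of_le (by positivity) (hs i).1
  have h0 := hs0 0
  have h1 := hs0 1
  have h2 : R ^ (-(q / 2)) ≤ (max (s 0) (s 1)) ^ q := by
    calc R ^ (-(q / 2)) = (R ^ (-(1/2) : ℝ)) ^ q := by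
          rw [← Real.rpow_mul hR0.le]; congr 1; ring
      _ ≤ (max (s 0) (s 1)) ^ q :=
          Real.rpow_le_rpow (by positivity) ((hs 0).1.trans (le_max_left _ _)) hq
  have h3 : 1 ≤ R ^ (q / 2) * (max (s 0) (s 1)) ^ q := by
    calc (1:ℝ) = R ^ (q / 2) * R ^ (-(q / 2)) := by rw [← Real.rpow_add hR0]; simp
      _ ≤ _ := by gcongr
  calc D * (s 0 * s 1 * R ^ 3) = D * 1 * (s 0 * s 1 * R ^ 3) := by ring
    _ ≤ D * (R ^ (q / 2) * (max (s 0) (s 1)) ^ q) * (s 0 * s 1 * R ^ 3) := by gcongr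
    _ = _ := by ring

/-- **`EBn` from `LB`.** -/
theorem EBn_of_LB {c0 : ℝ} (hc0 : 0 < c0) (K0 : ℕ)
    (H : ∀ B : ℕ → ℝ, (∀ k, 0 ≤ B k) → (∀ k, 2 ≤ k → k ≤ K0 → B k ≤ c0) → B 2 ≤ 1/10 →
      ∀ q : ℝ, 0 < q → q ≤ 1 → ∀ c : ℝ, 0 < c → LB B q 1 c) : EBn := by
  refine ⟨min c0 (1/10), lt_min hc0 (by norm_num), max K0 2, 4, ?_⟩
  intro B0 hB0 ε hε N
  set B : ℕ → ℝ := fun k => max (B0 k) 0 with hB
  have hBk : ∀ k, 2 ≤ k → k ≤ K0 → B k ≤ c0 := fun k hk hk' =>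
    max_le ((hB0 k hk (hk'.trans (le_max_left _ _))).trans (min_le_left _ _)) hc0.le
  have hB2 : B 2 ≤ 1/10 :=
    max_le ((hB0 2 le_rfl (le_max_right _ _)).trans (min_le_right _ _)) (by norm_num)
  set q : ℝ := min 1 ε with hq
  have hq0 : 0 < q := lt_min one_pos hε
  have hqε : q ≤ ε := min_le_right _ _
  have hLB := H B (fun k => le_max_right _ _) hBk hB2 q hq0 (min_le_left _ _) (ε / 2) (by positivity)
  obtain ⟨C1, hC1, HE⟩ := END_of_LB hLB (T774.A5a_holds B q) (ε / 4) (by positivity) N 6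
  obtain ⟨C2, hC2, HD⟩ := degen B (by linarith) N
  refine ⟨C1 + C2, by positivity, ?_⟩
  intro h hh0 h00 h10 R D hR hD g hgm hgb hgs hbox
  have hR0 : 0 < R := by linarith
  have hh : ParB B h := ⟨hh0.1, fun k hk ξ => (hh0.2 k hk ξ).trans (le_max_left _ _)⟩
  have hss : 0 ≤ SS g R D := SS_nonneg g hR0.le D
  have hRε : 1 ≤ R ^ ε := Real.one_le_rpow hR hε.le
  have hgoal : ∀ X : ℝ, X ≤ (C1 + C2) * R ^ ε * SS g R D →
      CC h g R ≤ ENNReal.ofReal X →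
      ∫⁻ p in cyl R, ‖ext h g p.1 p.2‖ₑ ^ 3 ≤
          ENNReal.ofReal ((C1 + C2) * R ^ ε * (R * ∫ ξ, ‖g ξ‖ ^ 2) * Real.sqrt D) := by
    intro X hX hCC
    refine hCC.trans (ENNReal.ofReal_le_ofReal (hX.trans (le_of_eq ?_)))
    unfold SS En
    ring
  rcases le_or_gt (En g) (R ^ (6:ℝ) * (D * R ^ (q / 2))) with hnd | hnd
  · have hSt : St B q N 6 1 h g R (D * R ^ (q / 2)) :=
      ⟨hh, h00, h10, hgm, hgb, hgs, hR, by positivity, PBox_of_BoxBoundL hq0.le hR hD hbox, hnd⟩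
    refine hgoal _ ?_ (HE h g R _ hSt)
    have e1 : SS g R (D * R ^ (q / 2)) = SS g R D * R ^ (q / 4) := by
      unfold SS
      rw [Real.sqrt_mul hD]
      have : Real.sqrt (R ^ (q / 2)) = R ^ (q / 4) := by
        rw [Real.sqrt_eq_rpow, ← Real.rpow_mul hR0.le]; congr 1; ring
      rw [this]; ring
    rw [e1]
    calc C1 * R ^ (ε / 2 / 2 + ε / 4) * (SS g R D * R ^ (q / 4))
        = C1 * (R ^ (ε / 2 / 2 + ε / 4) * R ^ (q / 4)) * SS g R D := by ring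
      _ ≤ (C1 + C2) * R ^ ε * SS g R D := by
          have h1 : R ^ (ε / 2 / 2 + ε / 4) * R ^ (q / 4) ≤ R ^ ε := by
            rw [← Real.rpow_add hR0]
            exact rpow_le_rpow_of_one_le hR (by linarith)
          gcongr
          linarith
  · refine hgoal _ ?_ (HD h hh h10 g R D hgm hgb hgs hR hD hbox ?_)
    · calc C2 * SS g R D = C2 * 1 * SS g R D := by ring
        _ ≤ (C1 + C2) * R ^ ε * SS g R D := by gcongr; linarith
    · have h1 : 1 ≤ R ^ (q / 2) := Real.one_le_rpow hR (by positivity)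
      calc R ^ 6 * D = R ^ (6:ℝ) * (D * 1) := by
            rw [mul_one]; congr 1; norm_cast
        _ ≤ R ^ (6:ℝ) * (D * R ^ (q / 2)) := by gcongr
        _ ≤ En g := hnd.le

end Crest.Agent.R138.W188
end

-- ▼ part R138/TubE_70
section

/-! KMw (WDef_188) from `KM32`, part 2: covering and averaging in time. -/

set_option autoImplicit false

open MeasureTheory FourierTransform
open scoped ENNReal ContDiff

namespace Crest.Agent.R138.Tub70

open Crest.Agent.R138.Defs (ParB ee ext plank Adm chi BoxBoundL cyl)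
open Crest.Agent.R138.Wpk685
open Crest.Agent.R138.W188 (St KMw NN SS PBox tr)
open Crest.Agent.R138.Bil882 (wt wt_pos measurable_wt)

attribute [local instance] Crest.Agent.R138.T774.haar3

/-- centres of the small cylinders. -/
noncomputable def zc (r : ℝ) (i : (ℤ × ℤ) × ℤ) : E2 × ℝ := (Lat r i.1, r * i.2)

/-- the set of the centres. -/
noncomputable def Ic (r R : ℝ) (M : ℕ) : Finset ((ℤ × ℤ) × ℤ) := by
  classical exact (Sl M ×ˢ Finset.Icc (-(M : ℤ)) M).filter (fun i => zc r i ∈ cyl (3 * R))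

theorem card_Ic_le (r R : ℝ) (M : ℕ) : ((Ic r R M).card : ℝ) ≤ (2 * M + 1) ^ 3 := by
  classical
  have h1 : (Ic r R M).card ≤ (Sl M ×ˢ Finset.Icc (-(M : ℤ)) M).card := by
    unfold Ic
    exact Finset.card_filter_le _ _
  have h2 : (Finset.Icc (-(M : ℤ)) M).card = 2 * M + 1 := by
    rw [Int.card_Icc]; omega
  have h3 : (Sl M ×ˢ Finset.Icc (-(M : ℤ)) M).card = (2 * M + 1) ^ 3 := by
    unfold Sl
    rw [Finset.card_product, Finset.card_product, h2]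
    ring
  rw [h3] at h1
  exact_mod_cast h1

theorem mem_Ic {r R : ℝ} {M : ℕ} {i : (ℤ × ℤ) × ℤ} (h : i ∈ Ic r R M) : zc r i ∈ cyl (3 * R) := by
  classical
  unfold Ic at h
  exact (Finset.mem_filter.mp h).2

theorem exists_cell {r R : ℝ} (hr : 0 < r) (hrR : r ≤ R) {M : ℕ} (hM : 3 * (R / r) ≤ M)
    {p : E2 × ℝ} (hp : p ∈ cyl (2 * R)) : ∃ i ∈ Ic r R M, p - zc r i ∈ cyl r := by
  classical
  obtain ⟨hp1, hp2⟩ := hp
  have hRr : 1 ≤ R / r := (one_le_div hr).mpr hrR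
  have hround : ∀ t : ℝ, |t| ≤ 2 * R → |((round (t / r) : ℤ) : ℝ)| ≤ M ∧
      |t - r * (round (t / r) : ℤ)| ≤ r / 2 := by
    intro t ht
    have h1 := abs_sub_round (t / r)
    have h2 : |t / r| ≤ 2 * (R / r) := by
      rw [abs_div, abs_of_pos hr, ← mul_div_assoc]
      gcongr
    constructor
    · have h3 : |((round (t / r) : ℤ) : ℝ)| ≤ |t / r| + |t / r - (round (t / r) : ℤ)| := by
        have e : ((round (t / r) : ℤ) : ℝ) = t / r - (t / r - (round (t / r) : ℤ)) := by ring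
        nth_rewrite 1 [e]
        exact abs_sub _ _
      linarith
    · have e : t - r * (round (t / r) : ℤ) = r * (t / r - (round (t / r) : ℤ)) := by
        field_simp
      rw [e, abs_mul, abs_of_pos hr]
      nlinarith
  have hc : ∀ i : Fin 2, |p.1 i| ≤ 2 * R := by
    intro i
    have := PiLp.norm_apply_le p.1 i
    rw [Real.norm_eq_abs] at this
    linarith
  have h0 := hround _ (hc 0)
  have h1 := hround _ (hc 1)
  have h2 := hround _ hp2
  have hnr := norm_sub_nr hr p.1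
  refine ⟨(nr r p.1, round (p.2 / r)), ?_, ?_⟩
  · unfold Ic
    rw [Finset.mem_filter]
    refine ⟨?_, ?_⟩
    · unfold Sl nr
      rw [Finset.mem_product, Finset.mem_product, Finset.mem_Icc, Finset.mem_Icc, Finset.mem_Icc]
      have a0 := abs_le.mp h0.1
      have a1 := abs_le.mp h1.1
      have a2 := abs_le.mp h2.1
      refine ⟨⟨⟨?_, ?_⟩, ?_, ?_⟩, ?_, ?_⟩
      · exact_mod_cast a0.1
      · exact_mod_cast a0.2
      · exact_mod_cast a1.1
      · exact_mod_cast a1.2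
      · exact_mod_cast a2.1
      · exact_mod_cast a2.2
    · refine ⟨?_, ?_⟩
      · show ‖Lat r (nr r p.1)‖ ≤ 3 * R
        have e : Lat r (nr r p.1) = p.1 - (p.1 - Lat r (nr r p.1)) := by abel
        rw [e]
        refine (norm_sub_le _ _).trans ?_
        linarith
      · show |r * ((round (p.2 / r) : ℤ) : ℝ)| ≤ 3 * R
        have e : r * ((round (p.2 / r) : ℤ) : ℝ) =
          p.2 - (p.2 - r * ((round (p.2 / r) : ℤ) : ℝ)) := by ring
        rw [e]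
        refine (abs_sub _ _).trans ?_
        linarith [h2.2]
  · refine ⟨?_, ?_⟩
    · exact hnr
    · show |p.2 - r * ((round (p.2 / r) : ℤ) : ℝ)| ≤ r
      linarith [h2.2]

theorem measurableSet_cyl (R : ℝ) : MeasurableSet (cyl R) := T774.measurableSet_cyl R

theorem cover_cyl {r R : ℝ} (hr : 0 < r) (hrR : r ≤ R) {M : ℕ} (hM : 3 * (R / r) ≤ M)
    (f : E2 × ℝ → ℝ≥0∞) :
    ∫⁻ p in cyl (2 * R), f p ≤ ∑ i ∈ Ic r R M, ∫⁻ p in cyl r, f (p + zc r i) := by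
  have e : ∀ i, ∫⁻ p in cyl r, f (p + zc r i) = ∫⁻ p in {p | p - zc r i ∈ cyl r}, f p := by
    intro i
    have hms : MeasurableSet {p : E2 × ℝ | p - zc r i ∈ cyl r} :=
      (measurable_id.sub_const (zc r i)) (measurableSet_cyl r)
    rw [← lintegral_indicator (measurableSet_cyl r), ← lintegral_indicator hms,
      ← lintegral_add_right_eq_self ({p : E2 × ℝ | p - zc r i ∈ cyl r}.indicator f) (zc r i)]
    apply lintegral_congr
    intro p
    by_cases hp : p ∈ cyl r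
    · have hp' : p + zc r i ∈ {p : E2 × ℝ | p - zc r i ∈ cyl r} := by
        simpa using hp
      rw [Set.indicator_of_mem hp, Set.indicator_of_mem hp']
    · have hp' : p + zc r i ∉ {p : E2 × ℝ | p - zc r i ∈ cyl r} := by
        simpa using hp
      rw [Set.indicator_of_notMem hp, Set.indicator_of_notMem hp']
  simp only [e]
  have hsub : cyl (2 * R) ⊆ ⋃ i : {i // i ∈ Ic r R M}, {p | p - zc r i.1 ∈ cyl r} := by
    intro p hp
    obtain ⟨i, hi, hpi⟩ := exists_cell hr hrR hM hp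
    rw [Set.mem_iUnion]
    exact ⟨⟨i, hi⟩, hpi⟩
  calc ∫⁻ p in cyl (2 * R), f p
      ≤ ∫⁻ p in ⋃ i : {i // i ∈ Ic r R M}, {p | p - zc r i.1 ∈ cyl r}, f p :=
        lintegral_mono_set hsub
    _ ≤ ∑' i : {i // i ∈ Ic r R M}, ∫⁻ p in {p | p - zc r i.1 ∈ cyl r}, f p :=
        lintegral_iUnion_le _ _
    _ = ∑ i ∈ Ic r R M, ∫⁻ p in {p | p - zc r i ∈ cyl r}, f p := by
        rw [tsum_fintype, Finset.sum_coe_sort (Ic r R M)
          (fun i => ∫⁻ p in {p | p - zc r i ∈ cyl r}, f p)]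

/-! ### averaging in time -/

/-- Jensen for a weight. -/
theorem jensen32 {μ : Measure ℝ} {k f : ℝ → ℝ≥0∞} (hk : AEMeasurable k μ) (hf : AEMeasurable f μ) :
    (∫⁻ τ, k τ * f τ ∂μ) ^ (3/2 : ℝ) ≤ (∫⁻ τ, k τ ∂μ) ^ (1/2 : ℝ) *
      ∫⁻ τ, k τ * f τ ^ (3/2 : ℝ) ∂μ := by
  have h1 := ENNReal.lintegral_mul_norm_pow_le (μ := μ) (f := k)
    (g := fun τ => k τ * f τ ^ (3/2 : ℝ)) hk (hk.mul (hf.pow_const _)) (p := 1/3) (q := 2/3)
    (by norm_num) (by norm_num) (by norm_num)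
  have e1 : ∀ τ, k τ ^ (1/3 : ℝ) * (k τ * f τ ^ (3/2 : ℝ)) ^ (2/3 : ℝ) = k τ * f τ := by
    intro τ
    rw [ENNReal.mul_rpow_of_nonneg _ _ (by norm_num), ← mul_assoc,
      ← ENNReal.rpow_add_of_nonneg _ _ (by norm_num) (by norm_num), ← ENNReal.rpow_mul]
    norm_num
  simp only [e1] at h1
  calc (∫⁻ τ, k τ * f τ ∂μ) ^ (3/2 : ℝ)
      ≤ ((∫⁻ τ, k τ ∂μ) ^ (1/3 : ℝ) * (∫⁻ τ, k τ * f τ ^ (3/2 : ℝ) ∂μ) ^ (2/3 : ℝ)) ^ (3/2 : ℝ) := by
        gcongr
    _ = _ := by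
        rw [ENNReal.mul_rpow_of_nonneg _ _ (by norm_num), ← ENNReal.rpow_mul, ← ENNReal.rpow_mul]
        norm_num

/-- time averages over `|τ| ≤ R`. -/
theorem time_avg {R : ℝ} {k : ℝ → ℝ≥0∞} (hk : Measurable k) {A : ℝ≥0∞}
    (hA : ∫⁻ τ, k τ ≤ A) {f : E2 × ℝ → ℝ≥0∞} (hf : Measurable f) :
    ∫⁻ z in cyl R, (∫⁻ τ in Set.Icc (-R) R, k τ * f (z.1, z.2 + τ)) ^ (3/2 : ℝ) ≤
      A ^ (3/2 : ℝ) * ∫⁻ z in cyl (2 * R), f z ^ (3/2 : ℝ) := by
  have hshift : Measurable fun q : (E2 × ℝ) × ℝ => f (q.1.1, q.1.2 + q.2) :=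
    hf.comp (by fun_prop)
  calc ∫⁻ z in cyl R, (∫⁻ τ in Set.Icc (-R) R, k τ * f (z.1, z.2 + τ)) ^ (3/2 : ℝ)
      ≤ ∫⁻ z in cyl R, A ^ (1/2 : ℝ) *
          ∫⁻ τ in Set.Icc (-R) R, k τ * f (z.1, z.2 + τ) ^ (3/2 : ℝ) := by
        apply lintegral_mono
        intro z
        simp only
        have hfz : Measurable fun τ : ℝ => f (z.1, z.2 + τ) := hf.comp (by fun_prop)
        refine (jensen32 hk.aemeasurable hfz.aemeasurable).trans ?_
        refine mul_le_mul' ?_ le_rfl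
        gcongr
        exact (setLIntegral_le_lintegral _ _).trans hA
    _ = A ^ (1/2 : ℝ) * ∫⁻ τ in Set.Icc (-R) R, k τ *
          ∫⁻ z in cyl R, f (z.1, z.2 + τ) ^ (3/2 : ℝ) := by
        rw [lintegral_const_mul]
        · congr 1
          rw [lintegral_lintegral_swap]
          · apply lintegral_congr
            intro τ
            rw [lintegral_const_mul]
            exact (hf.comp (by fun_prop : Measurable fun z : E2 × ℝ => (z.1, z.2 + τ))).pow_const _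
          · apply Measurable.aemeasurable
            exact (hk.comp measurable_snd).mul (hshift.pow_const _)
        · apply Measurable.lintegral_prod_right'
            (f := fun q : (E2 × ℝ) × ℝ => k q.2 * f (q.1.1, q.1.2 + q.2) ^ (3/2 : ℝ))
          exact (hk.comp measurable_snd).mul (hshift.pow_const _)
    _ ≤ A ^ (1/2 : ℝ) * ∫⁻ τ in Set.Icc (-R) R, k τ *
          ∫⁻ z in cyl (2 * R), f z ^ (3/2 : ℝ) := by
        refine mul_le_mul' le_rfl ?_
        apply setLIntegral_mono' measurableSet_Icc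
        intro τ hτ
        refine mul_le_mul' le_rfl ?_
        have e : ∀ z : E2 × ℝ, (z.1, z.2 + τ) = z + (0, τ) := by
          intro z; ext <;> simp
        simp only [e]
        rw [← lintegral_indicator (measurableSet_cyl R), ← lintegral_indicator (measurableSet_cyl _),
          ← lintegral_add_right_eq_self ((cyl (2 * R)).indicator fun z => f z ^ (3/2 : ℝ))
            ((0, τ) : E2 × ℝ)]
        apply lintegral_mono
        intro z
        by_cases hz : z ∈ cyl R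
        · have hz' : z + (0, τ) ∈ cyl (2 * R) := by
            obtain ⟨h1, h2⟩ := hz
            have h3 := abs_le.mpr hτ
            have hR0 : 0 ≤ R := (norm_nonneg _).trans h1
            refine ⟨?_, ?_⟩
            · simp only [Prod.fst_add, add_zero]; linarith
            · simp only [Prod.snd_add]
              exact (abs_add_le _ _).trans (by linarith)
          simp only
          rw [Set.indicator_of_mem hz, Set.indicator_of_mem hz']
        · simp only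
          rw [Set.indicator_of_notMem hz]
          exact bot_le
    _ = A ^ (1/2 : ℝ) * ((∫⁻ τ in Set.Icc (-R) R, k τ) * ∫⁻ z in cyl (2 * R), f z ^ (3/2 : ℝ)) := by
        rw [lintegral_mul_const _ hk]
    _ ≤ A ^ (1/2 : ℝ) * (A * ∫⁻ z in cyl (2 * R), f z ^ (3/2 : ℝ)) := by
        gcongr
        exact (setLIntegral_le_lintegral _ _).trans hA
    _ = _ := by
        rw [← mul_assoc]
        congr 1
        nth_rewrite 2 [← ENNReal.rpow_one A]
        rw [← ENNReal.rpow_add_of_nonneg _ _ (by norm_num) (by norm_num)]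
        norm_num

end Crest.Agent.R138.Tub70
end

-- ▼ part R138/TubF_70
section

/-! KMw (WDef_188) from `KM32`, part 3: assembly. -/

set_option autoImplicit false

open MeasureTheory FourierTransform
open scoped ENNReal ContDiff

namespace Crest.Agent.R138.Tub70

open Crest.Agent.R138.Defs (ParB ee ext plank Adm chi BoxBoundL cyl)
open Crest.Agent.R138.Wpk685
open Crest.Agent.R138.W188 (St KMw NN SS PBox tr)
open Crest.Agent.R138.Bil882 (wt wt_pos measurable_wt)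

attribute [local instance] Crest.Agent.R138.T774.haar3

theorem wt_le_pw (n : ℕ) {w : ℝ} (hw : 0 < w) (x0 : E2) (t0 : ℝ) (p : E2 × ℝ) :
    wt (4 * n) w x0 t0 p ≤ pw w n x0 p.1 * ((1 + |p.2 - t0| / w) ^ (2 * n))⁻¹ := by
  unfold wt pw
  rw [← mul_inv]
  refine inv_anti₀ (by positivity) ?_
  rw [add_div]
  set a := ‖p.1 - x0‖ / w
  set b := |p.2 - t0| / w
  have ha : 0 ≤ a := by positivity
  have hb : 0 ≤ b := by positivity
  calc (1 + a ^ 2) ^ n * (1 + b) ^ (2 * n) ≤ ((1 + a) ^ 2) ^ n * (1 + b) ^ (2 * n) := by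
        gcongr; nlinarith
    _ = ((1 + a) * (1 + b)) ^ (2 * n) := by rw [← pow_mul, mul_pow]
    _ ≤ ((1 + (a + b)) ^ 2) ^ (2 * n) := by gcongr; nlinarith [mul_nonneg ha hb]
    _ = (1 + (a + b)) ^ (4 * n) := by rw [← pow_mul]; congr 1; ring

/-- the kernel in time. -/
noncomputable def kk (w : ℝ) (n : ℕ) (τ : ℝ) : ℝ≥0∞ :=
  ENNReal.ofReal (w⁻¹ * ((1 + |τ| / w) ^ (2 * n))⁻¹)

theorem measurable_kk (w : ℝ) (n : ℕ) : Measurable (kk w n) := by
  unfold kk; fun_prop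

theorem avg_le {w : ℝ} (hw : 0 < w) (n : ℕ) {U : E2 → ℝ → ℂ}
    (hU : Measurable fun p : E2 × ℝ => U p.1 p.2) (z : E2 × ℝ) :
    ENNReal.ofReal ((w ^ 3)⁻¹) *
      ∫⁻ p : E2 × ℝ, ‖U p.1 p.2‖ₑ ^ 2 * ENNReal.ofReal (wt (4 * n) w z.1 z.2 p) ≤
      ∫⁻ τ, kk w n τ * sa w n U (z.1, z.2 + τ) := by
  set b : ℝ → ℝ := fun t => ((1 + |t - z.2| / w) ^ (2 * n))⁻¹ with hb
  have hb0 : ∀ t, 0 ≤ b t := fun t => by rw [hb]; positivity
  have hm : Measurable fun p : E2 × ℝ => ‖U p.1 p.2‖ₑ ^ 2 * ENNReal.ofReal (pw w n z.1 p.1) *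
      ENNReal.ofReal (b p.2) := by
    refine Measurable.mul (Measurable.mul (hU.enorm.pow_const 2) ?_) ?_
    · unfold pw; fun_prop
    · rw [hb]; fun_prop
  calc _ ≤ ENNReal.ofReal ((w ^ 3)⁻¹) *
        ∫⁻ p : E2 × ℝ, ‖U p.1 p.2‖ₑ ^ 2 * ENNReal.ofReal (pw w n z.1 p.1) *
          ENNReal.ofReal (b p.2) := by
        refine mul_le_mul' le_rfl (lintegral_mono fun p => ?_)
        simp only
        rw [mul_assoc]
        refine mul_le_mul' le_rfl ?_
        rw [← ENNReal.ofReal_mul (pw_pos _ _ _ _).le]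
        exact ENNReal.ofReal_le_ofReal (wt_le_pw n hw _ _ _)
    _ = ENNReal.ofReal ((w ^ 3)⁻¹) * ∫⁻ t : ℝ, ∫⁻ y : E2, ‖U y t‖ₑ ^ 2 *
          ENNReal.ofReal (pw w n z.1 y) * ENNReal.ofReal (b t) := by
        rw [Measure.volume_eq_prod, lintegral_prod_symm _ hm.aemeasurable]
    _ = ENNReal.ofReal ((w ^ 3)⁻¹) * ∫⁻ t : ℝ, En w n (fun y => U y t) z.1 *
          ENNReal.ofReal (b t) := by
        congr 1
        apply lintegral_congr
        intro t
        rw [lintegral_mul_const' _ _ ENNReal.ofReal_ne_top]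
        rfl
    _ = ∫⁻ t : ℝ, ENNReal.ofReal ((w ^ 3)⁻¹) * (En w n (fun y => U y t) z.1 *
          ENNReal.ofReal (b t)) := by
        rw [lintegral_const_mul' _ _ ENNReal.ofReal_ne_top]
    _ = ∫⁻ τ : ℝ, ENNReal.ofReal ((w ^ 3)⁻¹) * (En w n (fun y => U y (z.2 + τ)) z.1 *
          ENNReal.ofReal (b (z.2 + τ))) := by
        rw [lintegral_add_left_eq_self (fun t => ENNReal.ofReal ((w ^ 3)⁻¹) *
          (En w n (fun y => U y t) z.1 * ENNReal.ofReal (b t))) z.2]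
    _ = _ := by
        apply lintegral_congr
        intro τ
        unfold kk sa
        simp only
        have e : b (z.2 + τ) = ((1 + |τ| / w) ^ (2 * n))⁻¹ := by
          rw [hb]; simp
        rw [e, ENNReal.ofReal_mul (by positivity)]
        have e3 : ENNReal.ofReal ((w ^ 3)⁻¹) = ENNReal.ofReal w⁻¹ * ENNReal.ofReal ((w ^ 2)⁻¹) := by
          rw [← ENNReal.ofReal_mul (by positivity)]
          congr 1
          field_simp
        rw [e3]
        ring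

theorem kk_le {w : ℝ} (hw : 0 < w) {n : ℕ} (hn : 2 ≤ n) (τ : ℝ) :
    kk w n τ ≤ ENNReal.ofReal w⁻¹ * ENNReal.ofReal (((1 + |τ - 0| / w) ^ 4)⁻¹) := by
  unfold kk
  rw [ENNReal.ofReal_mul (by positivity), sub_zero]
  gcongr
  · have : 0 ≤ |τ| / w := by positivity
    linarith
  · omega

theorem kk_tail {w R : ℝ} (hw : 0 < w) (hR : 0 < R) {n : ℕ} (hn : 2 ≤ n) {τ : ℝ} (hτ : R < |τ|) :
    kk w n τ ≤ ENNReal.ofReal ((w / R) ^ (2 * n - 4)) *
      (ENNReal.ofReal w⁻¹ * ENNReal.ofReal (((1 + |τ - 0| / w) ^ 4)⁻¹)) := by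
  unfold kk
  rw [sub_zero, ← ENNReal.ofReal_mul (by positivity), ← ENNReal.ofReal_mul (by positivity)]
  apply ENNReal.ofReal_le_ofReal
  have h1 : R / w ≤ 1 + |τ| / w := by
    have : R / w ≤ |τ| / w := by gcongr
    linarith
  have h2 : ((1 + |τ| / w) ^ (2 * n - 4))⁻¹ ≤ (w / R) ^ (2 * n - 4) := by
    rw [← inv_pow]
    apply pow_le_pow_left₀ (by positivity)
    rw [inv_le_comm₀ (by positivity) (by positivity), inv_div]
    exact h1
  have h3 : ((1 + |τ| / w) ^ (2 * n))⁻¹ = ((1 + |τ| / w) ^ (2 * n - 4))⁻¹ * ((1 + |τ| / w) ^ 4)⁻¹ := by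
    rw [← mul_inv, ← pow_add]
    congr 2
    omega
  rw [h3]
  calc w⁻¹ * (((1 + |τ| / w) ^ (2 * n - 4))⁻¹ * ((1 + |τ| / w) ^ 4)⁻¹)
      = ((1 + |τ| / w) ^ (2 * n - 4))⁻¹ * (w⁻¹ * ((1 + |τ| / w) ^ 4)⁻¹) := by ring
    _ ≤ _ := by gcongr

/-- local estimate. -/
theorem local_est (B : ℕ → ℝ) {q : ℝ} (hq : 0 ≤ q) (hKM : KM32 (3 * (1 + |B 2|) + 2))
    {ε : ℝ} (hε : 0 < ε) {M1 : ℝ} (hM1 : 0 ≤ M1) {n : ℕ} (hn : 2 ≤ n)
    (hnε : M1 ≤ ε * ((n : ℝ) - 2)) (Na : ℕ) {L : ℝ} (hL : 1 ≤ L) (hLV : 3 * (1 + |B 2|) + 7 ≤ L) :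
    ∃ C : ℝ, 0 ≤ C ∧ ∀ h g R D w r, ParB B h → fderiv ℝ h 0 = 0 → Gd g → 0 ≤ D →
      PBox q Na h g R D → ∫ ξ, ‖g ξ‖ ^ 2 ≤ R ^ M1 * D → 1 ≤ r → R = L * r → 0 < w → r ≤ w ^ 2 →
      w ≤ r ^ (1 - ε / 2) → ∀ z ∈ cyl (3 * R),
        ∫⁻ p in cyl r, sa w n (ext h g) (p + z) ^ (3/2 : ℝ) ≤
          ENNReal.ofReal (C * R ^ ε * (R * (∫ ξ, ‖g ξ‖ ^ 2) * Real.sqrt D)) := by
  obtain ⟨C1, hC1, H1⟩ := wave_KM (V := 3 * (1 + |B 2|)) (by positivity) hKM B (ε := ε / 2)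
    (by positivity) hM1 hn (by linarith) Na
  refine ⟨C1 * Real.sqrt (L ^ 3 + L ^ M1), by positivity, ?_⟩
  intro h g R D w r hh h1 hg hD hbox hnd hr hRL hw hrw hwr z hz
  set E : ℝ := ∫ ξ, ‖g ξ‖ ^ 2 with hE
  have hE0 : 0 ≤ E := integral_nonneg fun _ => by positivity
  have hr0 : 0 < r := by linarith
  have hrR : r ≤ R := by rw [hRL]; nlinarith
  have hR1 : 1 ≤ R := hr.trans hrR
  have hgz := hg.tr hh.1.continuous z
  have hEz : ∫ ξ, ‖tr h z g ξ‖ ^ 2 = E := En_tr h z g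
  have hb := box_local hq hh.1.continuous hg (continuous_gradient hh.1) hD hbox hr hL hRL hLV hz
  have hU := continuous_ext hh.1.continuous hgz
  have key := H1 h hh (gradient_le hh h1) (tr h z g) hgz.meas hgz.bdd hgz.supp w r hr hw hrw hwr
    (L ^ 3 * D) (by positivity) hb
  rw [hEz] at key
  calc ∫⁻ p in cyl r, sa w n (ext h g) (p + z) ^ (3/2 : ℝ)
      = ∫⁻ p in cyl r, sa w n (ext h (tr h z g)) p ^ (3/2 : ℝ) := by
        simp only [sa_tr]
    _ = ∫⁻ t in Set.Icc (-r) r, ∫⁻ x in {x : E2 | ‖x‖ ≤ r},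
          sa w n (ext h (tr h z g)) (x, t) ^ (3/2 : ℝ) :=
        lintegral_cyl ((measurable_sa hU.measurable w n).pow_const _) r
    _ ≤ ∫⁻ t in Set.Icc (-r) r, ∫⁻ x in {x : E2 | ‖x‖ ≤ r},
          Av w n (ext h (tr h z g)) x t ^ (3/2 : ℝ) := by
        gcongr with t x
        exact sa_le_Av hw.le n _ x t
    _ ≤ _ := key
    _ ≤ _ := by
        apply ENNReal.ofReal_le_ofReal
        have h2 : L ^ 3 * D + r ^ (-M1) * E ≤ (L ^ 3 + L ^ M1) * D := by
          have h3 : r ^ (-M1) * E ≤ L ^ M1 * D := by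
            calc r ^ (-M1) * E ≤ r ^ (-M1) * (R ^ M1 * D) := by gcongr
              _ = L ^ M1 * D := by
                rw [hRL, Real.mul_rpow (by linarith) hr0.le, Real.rpow_neg hr0.le]
                have : r ^ M1 ≠ 0 := (Real.rpow_pos_of_pos hr0 _).ne'
                field_simp
          linarith
        have h4 : Real.sqrt (L ^ 3 * D + r ^ (-M1) * E) ≤
            Real.sqrt (L ^ 3 + L ^ M1) * Real.sqrt D := by
          rw [← Real.sqrt_mul (by positivity)]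
          exact Real.sqrt_le_sqrt h2
        have h5 : r ^ (ε / 2) ≤ R ^ ε := by
          calc r ^ (ε / 2) ≤ R ^ (ε / 2) := Real.rpow_le_rpow hr0.le hrR (by positivity)
            _ ≤ R ^ ε := Real.rpow_le_rpow_of_exponent_le hR1 (by linarith)
        calc C1 * r ^ (ε / 2) * (r * E) * Real.sqrt (L ^ 3 * D + r ^ (-M1) * E)
            ≤ C1 * R ^ ε * (R * E) * (Real.sqrt (L ^ 3 + L ^ M1) * Real.sqrt D) := by gcongr
          _ = _ := by ring

end Crest.Agent.R138.Tub70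
end

-- ▼ part R138/TubG_70
section

/-! **KMw** (WDef_188) from `KM32`. -/

set_option autoImplicit false

open MeasureTheory FourierTransform
open scoped ENNReal ContDiff

namespace Crest.Agent.R138.Tub70

open Crest.Agent.R138.Defs (ParB ee ext plank Adm chi BoxBoundL cyl)
open Crest.Agent.R138.Wpk685
open Crest.Agent.R138.W188 (St KMw NN SS PBox tr)
open Crest.Agent.R138.Bil882 (wt wt_pos measurable_wt)

attribute [local instance] Crest.Agent.R138.T774.haar3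

/-- the part near in time. -/
theorem near_est {B : ℕ → ℝ} {q : ℝ} (hq : 0 ≤ q) (hKM : KM32 (3 * (1 + |B 2|) + 2))
    {ε : ℝ} (hε : 0 < ε) {M1 : ℝ} (hM1 : 0 ≤ M1) {n : ℕ} (hn : 2 ≤ n)
    (hnε : M1 ≤ ε * ((n : ℝ) - 2)) (Na : ℕ) {L : ℝ} (hL : 1 ≤ L) (hLV : 3 * (1 + |B 2|) + 7 ≤ L) :
    ∃ C : ℝ, 0 ≤ C ∧ ∀ h g R D w, ParB B h → fderiv ℝ h 0 = 0 → Gd g → 0 ≤ D →
      PBox q Na h g R D → ∫ ξ, ‖g ξ‖ ^ 2 ≤ R ^ M1 * D → L ≤ R → 0 < w → R ≤ w ^ 2 →
      w ≤ (R / L) ^ (1 - ε / 2) →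
        ∫⁻ z in cyl R, (∫⁻ τ in Set.Icc (-R) R, kk w n τ * sa w n (ext h g) (z.1, z.2 + τ)) ^
          (3/2 : ℝ) ≤ ENNReal.ofReal (C * R ^ ε * (R * (∫ ξ, ‖g ξ‖ ^ 2) * Real.sqrt D)) := by
  obtain ⟨C1, hC1, H1⟩ := local_est B hq hKM hε hM1 hn hnε Na hL hLV
  obtain ⟨CJ, hCJ, -, HJ⟩ := W323.exists_J
  set M : ℕ := ⌈3 * L⌉₊ with hM
  refine ⟨CJ ^ (3/2 : ℝ) * ((2 * M + 1) ^ 3 * C1), by positivity, ?_⟩
  intro h g R D w hh h1 hg hD hbox hnd hLR hw hRw hwr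
  set E : ℝ := ∫ ξ, ‖g ξ‖ ^ 2 with hE
  have hE0 : 0 ≤ E := integral_nonneg fun _ => by positivity
  have hL0 : 0 < L := by linarith
  have hR0 : 0 < R := by linarith
  have hr1 : 1 ≤ R / L := (one_le_div hL0).mpr hLR
  have hrR : R / L ≤ R := div_le_self hR0.le hL
  have hRL : R = L * (R / L) := by field_simp
  have hm : Measurable (sa w n (ext h g)) :=
    measurable_sa (continuous_ext hh.1.continuous hg).measurable w n
  have hkk : ∫⁻ τ, kk w n τ ≤ ENNReal.ofReal CJ := by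
    calc ∫⁻ τ, kk w n τ ≤ ∫⁻ τ, ENNReal.ofReal w⁻¹ * ENNReal.ofReal (((1 + |τ - 0| / w) ^ 4)⁻¹) :=
          lintegral_mono fun τ => kk_le hw hn τ
      _ = ENNReal.ofReal w⁻¹ * ∫⁻ τ, ENNReal.ofReal (((1 + |τ - 0| / w) ^ 4)⁻¹) := by
          rw [lintegral_const_mul' _ _ ENNReal.ofReal_ne_top]
      _ ≤ ENNReal.ofReal w⁻¹ * ENNReal.ofReal (CJ * w) := by
          gcongr
          exact HJ w hw 0
      _ = ENNReal.ofReal CJ := by
          rw [← ENNReal.ofReal_mul (by positivity)]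
          congr 1
          field_simp
  have hX0 : 0 ≤ C1 * R ^ ε * (R * E * Real.sqrt D) := by positivity
  refine (time_avg (measurable_kk w n) hkk hm).trans ?_
  have hMM : 3 * (R / (R / L)) ≤ M := by
    have : R / (R / L) = L := by field_simp
    rw [this]
    exact Nat.le_ceil _
  calc ENNReal.ofReal CJ ^ (3/2 : ℝ) * ∫⁻ z in cyl (2 * R), sa w n (ext h g) z ^ (3/2 : ℝ)
      ≤ ENNReal.ofReal CJ ^ (3/2 : ℝ) * ∑ i ∈ Ic (R / L) R M,
          ∫⁻ p in cyl (R / L), sa w n (ext h g) (p + zc (R / L) i) ^ (3/2 : ℝ) := by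
        gcongr
        exact cover_cyl (by linarith) hrR hMM (fun z => sa w n (ext h g) z ^ (3/2 : ℝ))
    _ ≤ ENNReal.ofReal CJ ^ (3/2 : ℝ) * ∑ i ∈ Ic (R / L) R M,
          ENNReal.ofReal (C1 * R ^ ε * (R * E * Real.sqrt D)) := by
        gcongr with i hi
        exact H1 h g R D w (R / L) hh h1 hg hD hbox hnd hr1 hRL hw (hrR.trans hRw) hwr _ (mem_Ic hi)
    _ = ENNReal.ofReal (CJ ^ (3/2 : ℝ) * ((Ic (R / L) R M).card *
          (C1 * R ^ ε * (R * E * Real.sqrt D)))) := by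
        rw [Finset.sum_const, nsmul_eq_mul, ENNReal.ofReal_rpow_of_nonneg hCJ.le (by norm_num),
          ENNReal.ofReal_mul (p := CJ ^ (3/2 : ℝ)) (by positivity),
          ENNReal.ofReal_mul (p := ((Ic (R / L) R M).card : ℝ)) (Nat.cast_nonneg _),
          ENNReal.ofReal_natCast]
    _ ≤ _ := by
        apply ENNReal.ofReal_le_ofReal
        calc CJ ^ (3/2 : ℝ) * ((Ic (R / L) R M).card * (C1 * R ^ ε * (R * E * Real.sqrt D)))
            ≤ CJ ^ (3/2 : ℝ) * ((2 * M + 1) ^ 3 * (C1 * R ^ ε * (R * E * Real.sqrt D))) := by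
              gcongr
              exact card_Ic_le _ _ _
          _ = _ := by ring

/-- the part far in time. -/
theorem far_est : ∃ C : ℝ, 0 ≤ C ∧ ∀ (n : ℕ), 2 ≤ n → ∀ (h : E2 → ℝ) (g : E2 → ℂ) (R D w M1 ε : ℝ),
    Continuous h → Gd g → 0 ≤ D → 0 ≤ M1 → 0 < ε → M1 + 1 ≤ ε * ((n : ℝ) - 2) →
      ∫ ξ, ‖g ξ‖ ^ 2 ≤ R ^ M1 * D → 1 ≤ R → 1 ≤ w → w ≤ R ^ (1 - ε) →
        ∫⁻ z in cyl R, (∫⁻ τ in (Set.Icc (-R) R)ᶜ, kk w n τ * sa w n (ext h g) (z.1, z.2 + τ)) ^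
          (3/2 : ℝ) ≤ ENNReal.ofReal (C * (R * (∫ ξ, ‖g ξ‖ ^ 2) * Real.sqrt D)) := by
  obtain ⟨CJ, hCJ, -, HJ⟩ := W323.exists_J
  obtain ⟨Cv, hCv, Hv⟩ := T774.volume_cyl
  refine ⟨Cv * CJ ^ (3/2 : ℝ), by positivity, ?_⟩
  intro n hn h g R D w M1 ε hh hg hD hM1 hε hnε hnd hR1 hw1 hwR
  set E : ℝ := ∫ ξ, ‖g ξ‖ ^ 2 with hE
  have hE0 : 0 ≤ E := integral_nonneg fun _ => by positivity
  have hR0 : 0 < R := by linarith
  have hw : 0 < w := by linarith
  set τ0 : ℝ := (w / R) ^ (2 * n - 4) with hτ0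
  have hτ00 : 0 ≤ τ0 := by positivity
  have hpt : ∀ z : E2 × ℝ, ∫⁻ τ in (Set.Icc (-R) R)ᶜ, kk w n τ * sa w n (ext h g) (z.1, z.2 + τ) ≤
      ENNReal.ofReal (τ0 * CJ * E) := by
    intro z
    calc ∫⁻ τ in (Set.Icc (-R) R)ᶜ, kk w n τ * sa w n (ext h g) (z.1, z.2 + τ)
        ≤ ∫⁻ τ in (Set.Icc (-R) R)ᶜ, (ENNReal.ofReal τ0 *
            (ENNReal.ofReal w⁻¹ * ENNReal.ofReal (((1 + |τ - 0| / w) ^ 4)⁻¹))) *
              ENNReal.ofReal E := by
          apply setLIntegral_mono' measurableSet_Icc.compl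
          intro τ hτ
          have hτR : R < |τ| := by
            by_contra hcon
            exact hτ (abs_le.mp (not_lt.mp hcon))
          gcongr
          · exact kk_tail hw hR0 hn hτR
          · exact (sa_le_Av hw.le n _ _ _).trans (Av_le_trivial hh hg hw1 n _ _)
      _ ≤ ∫⁻ τ, (ENNReal.ofReal τ0 *
            (ENNReal.ofReal w⁻¹ * ENNReal.ofReal (((1 + |τ - 0| / w) ^ 4)⁻¹))) *
              ENNReal.ofReal E := setLIntegral_le_lintegral _ _
      _ = (ENNReal.ofReal τ0 * (ENNReal.ofReal w⁻¹ *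
            ∫⁻ τ, ENNReal.ofReal (((1 + |τ - 0| / w) ^ 4)⁻¹))) * ENNReal.ofReal E := by
          rw [lintegral_mul_const' _ _ ENNReal.ofReal_ne_top,
            lintegral_const_mul' _ _ ENNReal.ofReal_ne_top,
            lintegral_const_mul' _ _ ENNReal.ofReal_ne_top]
      _ ≤ (ENNReal.ofReal τ0 * (ENNReal.ofReal w⁻¹ * ENNReal.ofReal (CJ * w))) *
            ENNReal.ofReal E := by
          gcongr
          exact HJ w hw 0
      _ = _ := by
          rw [← ENNReal.ofReal_mul (by positivity), ← ENNReal.ofReal_mul (by positivity),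
            ← ENNReal.ofReal_mul (by positivity)]
          congr 1
          field_simp
  calc ∫⁻ z in cyl R, (∫⁻ τ in (Set.Icc (-R) R)ᶜ, kk w n τ *
          sa w n (ext h g) (z.1, z.2 + τ)) ^ (3/2 : ℝ)
      ≤ ∫⁻ _ in cyl R, ENNReal.ofReal (τ0 * CJ * E) ^ (3/2 : ℝ) := by
        apply lintegral_mono
        intro z
        simp only
        gcongr
        exact hpt z
    _ = ENNReal.ofReal (τ0 * CJ * E) ^ (3/2 : ℝ) * volume (cyl R) := by
        rw [setLIntegral_const]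
    _ ≤ ENNReal.ofReal (τ0 * CJ * E) ^ (3/2 : ℝ) * ENNReal.ofReal (Cv * R ^ 3) := by
        gcongr
        exact Hv R hR0.le
    _ = ENNReal.ofReal ((τ0 * CJ * E) ^ (3/2 : ℝ) * (Cv * R ^ 3)) := by
        rw [ENNReal.ofReal_rpow_of_nonneg (by positivity) (by norm_num),
          ← ENNReal.ofReal_mul (by positivity)]
    _ ≤ _ := by
        apply ENNReal.ofReal_le_ofReal
        have hE32 : E ^ (3/2 : ℝ) = E * Real.sqrt E := by
          rw [show (3 / 2 : ℝ) = 1 + 1 / 2 by norm_num, Real.rpow_add_of_nonneg hE0 (by norm_num)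
            (by norm_num), Real.rpow_one, Real.sqrt_eq_rpow]
        have hsE : Real.sqrt E ≤ R ^ (M1 / 2) * Real.sqrt D := by
          have h3 : R ^ (M1 / 2) = Real.sqrt (R ^ M1) := by
            rw [Real.sqrt_eq_rpow, ← Real.rpow_mul hR0.le]
            congr 1; ring
          rw [h3, ← Real.sqrt_mul (by positivity)]
          exact Real.sqrt_le_sqrt hnd
        have hwRle : w / R ≤ R ^ (-ε) := by
          rw [div_le_iff₀ hR0]
          calc w ≤ R ^ (1 - ε) := hwR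
            _ = R ^ (-ε) * R := by
                nth_rewrite 3 [← Real.rpow_one R]
                rw [← Real.rpow_add hR0]
                congr 1; ring
        have hτle : τ0 ≤ R ^ (-(2 * (M1 + 1))) := by
          calc τ0 ≤ (R ^ (-ε)) ^ (2 * n - 4) := by rw [hτ0]; gcongr
            _ = R ^ (-ε * ((2 * n - 4 : ℕ) : ℝ)) := by
                rw [Real.rpow_mul hR0.le, Real.rpow_natCast]
            _ ≤ _ := by
                apply Real.rpow_le_rpow_of_exponent_le hR1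
                have : ((2 * n - 4 : ℕ) : ℝ) = 2 * ((n : ℝ) - 2) := by
                  rw [Nat.cast_sub (by omega)]
                  push_cast; ring
                rw [this]
                linarith
        have hτ32 : τ0 ^ (3/2 : ℝ) ≤ R ^ (-(3 * (M1 + 1))) := by
          calc τ0 ^ (3/2 : ℝ) ≤ (R ^ (-(2 * (M1 + 1)))) ^ (3/2 : ℝ) := by gcongr
            _ = _ := by
                rw [← Real.rpow_mul hR0.le]
                congr 1; ring
        have hpow : R ^ (-(3 * (M1 + 1))) * R ^ (M1 / 2) * R ^ 3 ≤ R := by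
          calc R ^ (-(3 * (M1 + 1))) * R ^ (M1 / 2) * R ^ 3
              = R ^ (-(3 * (M1 + 1)) + M1 / 2 + 3) := by
                rw [Real.rpow_add hR0, Real.rpow_add hR0]
                norm_num
            _ ≤ R ^ (1 : ℝ) := by
                apply Real.rpow_le_rpow_of_exponent_le hR1
                linarith
            _ = R := Real.rpow_one R
        calc (τ0 * CJ * E) ^ (3/2 : ℝ) * (Cv * R ^ 3)
            = τ0 ^ (3/2 : ℝ) * CJ ^ (3/2 : ℝ) * (E * Real.sqrt E) * (Cv * R ^ 3) := by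
              rw [Real.mul_rpow (by positivity) hE0, Real.mul_rpow hτ00 hCJ.le, hE32]
          _ ≤ R ^ (-(3 * (M1 + 1))) * CJ ^ (3/2 : ℝ) * (E * (R ^ (M1 / 2) * Real.sqrt D)) *
                (Cv * R ^ 3) := by gcongr
          _ = (Cv * CJ ^ (3/2 : ℝ) * (E * Real.sqrt D)) *
                (R ^ (-(3 * (M1 + 1))) * R ^ (M1 / 2) * R ^ 3) := by ring
          _ ≤ (Cv * CJ ^ (3/2 : ℝ) * (E * Real.sqrt D)) * R := by gcongr
          _ = _ := by ring

/-- **KMw** (WDef_188) from `KM32`. -/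
theorem KMw_of_KM32 (B : ℕ → ℝ) {q : ℝ} (hq : 0 ≤ q) (hKM : KM32 (3 * (1 + |B 2|) + 2)) :
    KMw B q := by
  intro ε hε Na M0
  set L : ℝ := 3 * (1 + |B 2|) + 7 with hLdef
  have hL : 1 ≤ L := by have := abs_nonneg (B 2); rw [hLdef]; linarith
  have hL0 : 0 < L := by linarith
  set M1 : ℝ := max M0 0 with hM1def
  have hM1 : 0 ≤ M1 := le_max_right _ _
  set n : ℕ := 2 + ⌈(M1 + 1) / ε⌉₊ with hndef
  have hn : 2 ≤ n := by omega
  have hnε : M1 + 1 ≤ ε * ((n : ℝ) - 2) := by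
    have h1 : (M1 + 1) / ε ≤ (⌈(M1 + 1) / ε⌉₊ : ℝ) := Nat.le_ceil _
    have h2 : (n : ℝ) - 2 = (⌈(M1 + 1) / ε⌉₊ : ℝ) := by rw [hndef]; push_cast; ring
    rw [h2]
    rw [div_le_iff₀ hε] at h1
    linarith
  obtain ⟨C1, hC1, H1⟩ := near_est (B := B) hq hKM hε hM1 hn (by linarith) Na hL le_rfl
  obtain ⟨C2, hC2, H2⟩ := far_est
  obtain ⟨Ct, hCt, Ht⟩ := W323.exists_triv1'
  set R0 : ℝ := L * L ^ (2 / ε) with hR0def
  have hR0p : 0 ≤ R0 := by positivity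
  refine ⟨4 * n, Ct * R0 ^ (M1 / 2) + (2 : ℝ) ^ (1/2 : ℝ) * (C1 + C2), by positivity, ?_⟩
  intro h g R D w hst hw1 hw2
  have hR1 := hst.R1
  have hR : 0 < R := by linarith
  have hg : Gd g := ⟨hst.meas, hst.bdd, hst.supp⟩
  set E : ℝ := ∫ ξ, ‖g ξ‖ ^ 2 with hE
  have hE0 : 0 ≤ E := integral_nonneg fun _ => by positivity
  have hD := hst.D0
  have hnd : E ≤ R ^ M1 * D := by
    refine hst.nd.trans ?_
    gcongr
    exact le_max_left _ _
  have hRhalf : 1 ≤ R ^ (1/2 : ℝ) := Real.one_le_rpow hR1 (by norm_num)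
  have hw11 : 1 ≤ w := hRhalf.trans hw1
  have hw0 : 0 < w := by linarith
  have hRw : R ≤ w ^ 2 := by
    calc R = (R ^ (1/2 : ℝ)) ^ 2 := by
          rw [← Real.rpow_natCast, ← Real.rpow_mul hR.le]; norm_num
      _ ≤ w ^ 2 := by gcongr
  have hRε : 1 ≤ R ^ ε := Real.one_le_rpow hR1 hε.le
  have hSS : SS g R D = R * E * Real.sqrt D := rfl
  have hSS0 : 0 ≤ R * E * Real.sqrt D := by positivity
  by_cases hcase : R ≤ R0
  · have hndK : W188.En g ≤ (R0 ^ (M1 / 2)) ^ 2 * D := by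
      have e : (R0 ^ (M1 / 2)) ^ 2 = R0 ^ M1 := by
        rw [← Real.rpow_natCast, ← Real.rpow_mul hR0p]
        congr 1; push_cast; ring
      rw [e]
      refine hnd.trans ?_
      gcongr
    refine (Ht (4 * n) (by omega) h hst.par.1.continuous g hst.meas hst.bdd hst.supp w R D
      (R0 ^ (M1 / 2)) hw0 hR.le (by positivity) hD hndK).trans ?_
    apply ENNReal.ofReal_le_ofReal
    rw [hSS]
    have h1 : Ct * R0 ^ (M1 / 2) ≤
        (Ct * R0 ^ (M1 / 2) + (2 : ℝ) ^ (1/2 : ℝ) * (C1 + C2)) * R ^ ε := by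
      have h2 : 0 ≤ (2 : ℝ) ^ (1/2 : ℝ) * (C1 + C2) := by positivity
      have h3 : 0 ≤ Ct * R0 ^ (M1 / 2) := by positivity
      nlinarith
    gcongr
  · push Not at hcase
    have hLe1 : 1 ≤ L ^ (2 / ε) := Real.one_le_rpow hL (by positivity)
    have hLR : L ≤ R := by
      have : L ≤ R0 := by rw [hR0def]; nlinarith
      linarith
    have hwr : w ≤ (R / L) ^ (1 - ε / 2) := by
      have hr0 : 0 < R / L := by positivity
      have h1 : L ^ (2 / ε) ≤ R / L := by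
        rw [le_div_iff₀ hL0]
        rw [hR0def] at hcase
        linarith
      have h2 : L ≤ (R / L) ^ (ε / 2) := by
        calc L = (L ^ (2 / ε)) ^ (ε / 2) := by
              rw [← Real.rpow_mul hL0.le]
              have : 2 / ε * (ε / 2) = 1 := by field_simp
              rw [this, Real.rpow_one]
          _ ≤ _ := by gcongr
      calc w ≤ R ^ (1 - ε) := hw2
        _ = (L * (R / L)) ^ (1 - ε) := by congr 1; field_simp
        _ = L ^ (1 - ε) * (R / L) ^ (1 - ε) := Real.mul_rpow hL0.le hr0.le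
        _ ≤ L ^ (1 : ℝ) * (R / L) ^ (1 - ε) := by
            gcongr
            linarith
        _ = L * (R / L) ^ (1 - ε) := by rw [Real.rpow_one]
        _ ≤ (R / L) ^ (ε / 2) * (R / L) ^ (1 - ε) := by gcongr
        _ = _ := by
            rw [← Real.rpow_add hr0]
            congr 1; ring
    have hm : Measurable (sa w n (ext h g)) :=
      measurable_sa (continuous_ext hst.par.1.continuous hg).measurable w n
    unfold NN
    have hpt : ∀ z : E2 × ℝ, (ENNReal.ofReal ((w ^ 3)⁻¹) * ∫⁻ p : E2 × ℝ,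
        ‖ext h g p.1 p.2‖ₑ ^ 2 * ENNReal.ofReal (wt (4 * n) w z.1 z.2 p)) ^ (3 / 2 : ℝ) ≤
        (2 : ℝ≥0∞) ^ ((3/2 : ℝ) - 1) *
        ((∫⁻ τ in Set.Icc (-R) R, kk w n τ * sa w n (ext h g) (z.1, z.2 + τ)) ^ (3/2 : ℝ) +
        (∫⁻ τ in (Set.Icc (-R) R)ᶜ, kk w n τ * sa w n (ext h g) (z.1, z.2 + τ)) ^ (3/2 : ℝ)) := by
      intro z
      refine le_trans ?_ (ENNReal.rpow_add_le_mul_rpow_add_rpow _ _ (by norm_num))
      gcongr
      rw [lintegral_add_compl _ measurableSet_Icc]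
      exact avg_le hw0 n (continuous_ext hst.par.1.continuous hg).measurable z
    have hmX : ∀ S : Set ℝ, Measurable fun z : E2 × ℝ =>
        (∫⁻ τ in S, kk w n τ * sa w n (ext h g) (z.1, z.2 + τ)) ^ (3/2 : ℝ) := by
      intro S
      refine Measurable.pow_const ?_ _
      apply Measurable.lintegral_prod_right'
        (f := fun q : (E2 × ℝ) × ℝ => kk w n q.2 * sa w n (ext h g) (q.1.1, q.1.2 + q.2))
      exact ((measurable_kk w n).comp measurable_snd).mul (hm.comp (by fun_prop))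
    calc _ ≤ ∫⁻ z in cyl R, (2 : ℝ≥0∞) ^ ((3/2 : ℝ) - 1) *
        ((∫⁻ τ in Set.Icc (-R) R, kk w n τ * sa w n (ext h g) (z.1, z.2 + τ)) ^ (3/2 : ℝ) +
        (∫⁻ τ in (Set.Icc (-R) R)ᶜ, kk w n τ * sa w n (ext h g) (z.1, z.2 + τ)) ^ (3/2 : ℝ)) :=
          lintegral_mono hpt
      _ = (2 : ℝ≥0∞) ^ ((3/2 : ℝ) - 1) * ((∫⁻ z in cyl R,
        (∫⁻ τ in Set.Icc (-R) R, kk w n τ * sa w n (ext h g) (z.1, z.2 + τ)) ^ (3/2 : ℝ)) +
        ∫⁻ z in cyl R,
        (∫⁻ τ in (Set.Icc (-R) R)ᶜ, kk w n τ * sa w n (ext h g) (z.1, z.2 + τ)) ^ (3/2 : ℝ)) := by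
          rw [lintegral_const_mul' _ _ (ENNReal.rpow_ne_top_of_nonneg (by norm_num) (by norm_num)),
            lintegral_add_left (hmX (Set.Icc (-R) R))]
      _ ≤ (2 : ℝ≥0∞) ^ ((3/2 : ℝ) - 1) * (ENNReal.ofReal (C1 * R ^ ε * (R * E * Real.sqrt D)) +
            ENNReal.ofReal (C2 * (R * E * Real.sqrt D))) := by
          refine mul_le_mul' le_rfl (add_le_add ?_ ?_)
          · exact H1 h g R D w hst.par hst.h1 hg hD hst.box hnd hLR hw0 hRw hwr
          · exact H2 n hn h g R D w M1 ε hst.par.1.continuous hg hD hM1 hε hnε hnd hR1 hw11 hw2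
      _ = ENNReal.ofReal ((2 : ℝ) ^ ((3/2 : ℝ) - 1) * (C1 * R ^ ε * (R * E * Real.sqrt D) +
            C2 * (R * E * Real.sqrt D))) := by
          rw [← ENNReal.ofReal_add (by positivity) (by positivity),
            ENNReal.ofReal_mul (by positivity),
            ← ENNReal.ofReal_rpow_of_pos (by norm_num : (0:ℝ) < 2)]
          norm_num
      _ ≤ _ := by
          apply ENNReal.ofReal_le_ofReal
          rw [hSS]
          have h1 : C2 * (R * E * Real.sqrt D) ≤ C2 * R ^ ε * (R * E * Real.sqrt D) := by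
            have : C2 ≤ C2 * R ^ ε := by nlinarith
            gcongr
          have h2 : (2 : ℝ) ^ ((3/2 : ℝ) - 1) = (2 : ℝ) ^ (1/2 : ℝ) := by norm_num
          rw [h2]
          calc (2 : ℝ) ^ (1/2 : ℝ) * (C1 * R ^ ε * (R * E * Real.sqrt D) +
                C2 * (R * E * Real.sqrt D))
              ≤ (2 : ℝ) ^ (1/2 : ℝ) * (C1 * R ^ ε * (R * E * Real.sqrt D) +
                C2 * R ^ ε * (R * E * Real.sqrt D)) := by gcongr
            _ = ((2 : ℝ) ^ (1/2 : ℝ) * (C1 + C2)) * R ^ ε * (R * E * Real.sqrt D) := by ring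
            _ ≤ _ := by
              have h3 : 0 ≤ Ct * R0 ^ (M1 / 2) := by positivity
              have h4 : (2 : ℝ) ^ (1/2 : ℝ) * (C1 + C2) ≤
                Ct * R0 ^ (M1 / 2) + (2 : ℝ) ^ (1/2 : ℝ) * (C1 + C2) := by linarith
              gcongr

end Crest.Agent.R138.Tub70
end

-- ▼ part R138/A1b_774
section

/-!
# R138 / R139, WAVE side: A1 from DEC (helper774)
-/

set_option autoImplicit false
set_option linter.unusedVariables false

open MeasureTheory FourierTransform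
open scoped ENNReal ContDiff

namespace Crest.Agent.R138.T774

open Crest.Agent.R138.Defs Crest.Agent.R138.Bil882 Crest.Agent.R138.W188

attribute [local instance] haar3

theorem Sd_one {r : ℝ} (hr : 1 ≤ r) : Sd r 1 1 :=
  ⟨Real.rpow_le_one_of_one_le_of_nonpos hr (by norm_num), le_rfl, le_rfl⟩

/-- the numerical part of the error term. -/
theorem err_le {C1 C2 C3 R r w e D ε' n z B S M0 : ℝ} {K : ℕ} (hC1 : 0 ≤ C1) (hC2 : 0 ≤ C2)
    (hR : 1 ≤ R) (hr1 : R ^ (1/2 : ℝ) ≤ r) (hw : 0 < w) (hwr : w ≤ r ^ (1/2 : ℝ))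
    (he : 0 ≤ e) (hD0 : 0 ≤ D) (hD : e ≤ R ^ M0 * D) (hε1 : ε' ≤ 1) (hn0 : 0 ≤ n)
    (hn : n ≤ C2 * R ^ ε') (hz0 : 0 ≤ z) (hz : z ≤ 216 * (R / r) ^ 3)
    (hB : B = C2 * R ^ (-(K:ℝ)) * Real.sqrt e)
    (hS : S ^ 2 ≤ C3 ^ 2 * (C2 * R ^ ε' * e)) (hK5 : 5 ≤ K) (hKM : M0 + 5 ≤ K) {N : ℕ}
    (hN : 4 * K + 4 ≤ N) :
    (n + 1) ^ 2 * (z * (C1 * r ^ 3 * (B ^ 2 + S ^ 2 * (w / r) ^ (N - 4)) ^ (3 / 2 : ℝ))) ≤
      ((C2 + 1) ^ 2 * 216 * C1 * (C2 ^ 2 + C3 ^ 2 * C2) ^ (3 / 2 : ℝ)) *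
        (R * e * Real.sqrt D) := by
  have hR0 : 0 < R := by linarith
  have hr : 1 ≤ r := (Real.one_le_rpow hR (by norm_num)).trans hr1
  have hr0 : 0 < r := by linarith
  have hK5' : (5:ℝ) ≤ K := by exact_mod_cast hK5
  have h1 : w / r ≤ R ^ (-(1/4) : ℝ) := by
    have h2 : w / r ≤ r ^ (-(1/2) : ℝ) := by
      rw [div_le_iff₀ hr0]
      refine hwr.trans_eq ?_
      nth_rw 3 [← Real.rpow_one r]
      rw [← Real.rpow_add hr0]
      norm_num
    refine h2.trans ?_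
    have h3 : (R ^ (1/2 : ℝ)) ^ (-(1/2) : ℝ) = R ^ (-(1/4) : ℝ) := by
      rw [← Real.rpow_mul hR0.le]; norm_num
    rw [← h3]
    exact Real.rpow_le_rpow_of_nonpos (by positivity) hr1 (by norm_num)
  have h4 : (w / r) ^ (N - 4) ≤ R ^ (-(K:ℝ)) := by
    calc (w / r) ^ (N - 4) ≤ (R ^ (-(1/4) : ℝ)) ^ (N - 4) := by gcongr
      _ ≤ (R ^ (-(1/4) : ℝ)) ^ (4 * K) := by
          refine pow_le_pow_of_le_one (by positivity) ?_ (by omega)
          exact Real.rpow_le_one_of_one_le_of_nonpos hR (by norm_num)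
      _ = R ^ (-(K:ℝ)) := by
          rw [← Real.rpow_natCast, ← Real.rpow_mul hR0.le]
          congr 1
          push_cast
          ring
  have h5 : B ^ 2 + S ^ 2 * (w / r) ^ (N - 4) ≤
      (C2 ^ 2 + C3 ^ 2 * C2) * (R ^ (1 - (K:ℝ)) * e) := by
    have h6 : B ^ 2 ≤ C2 ^ 2 * (R ^ (1 - (K:ℝ)) * e) := by
      rw [hB, mul_pow, mul_pow, Real.sq_sqrt he, ← Real.rpow_natCast (R ^ (-(K:ℝ))) 2,
        ← Real.rpow_mul hR0.le]
      have : R ^ (-(K:ℝ) * ((2:ℕ):ℝ)) ≤ R ^ (1 - (K:ℝ)) :=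
        Real.rpow_le_rpow_of_exponent_le hR (by push_cast; linarith)
      calc C2 ^ 2 * R ^ (-(K:ℝ) * ((2:ℕ):ℝ)) * e ≤ C2 ^ 2 * R ^ (1 - (K:ℝ)) * e := by gcongr
        _ = _ := by ring
    have h7 : S ^ 2 * (w / r) ^ (N - 4) ≤ C3 ^ 2 * C2 * (R ^ (1 - (K:ℝ)) * e) := by
      calc S ^ 2 * (w / r) ^ (N - 4) ≤ (C3 ^ 2 * (C2 * R ^ ε' * e)) * R ^ (-(K:ℝ)) := by
            gcongr
        _ = C3 ^ 2 * C2 * ((R ^ ε' * R ^ (-(K:ℝ))) * e) := by ring
        _ ≤ C3 ^ 2 * C2 * (R ^ (1 - (K:ℝ)) * e) := by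
            gcongr
            rw [← Real.rpow_add hR0]
            exact Real.rpow_le_rpow_of_exponent_le hR (by linarith)
    have h8 := add_mul (C2 ^ 2) (C3 ^ 2 * C2) (R ^ (1 - (K:ℝ)) * e)
    linarith
  have h8 : (B ^ 2 + S ^ 2 * (w / r) ^ (N - 4)) ^ (3 / 2 : ℝ) ≤
      (C2 ^ 2 + C3 ^ 2 * C2) ^ (3 / 2 : ℝ) *
        (R ^ ((1 - (K:ℝ)) * (3/2)) * (e * (R ^ (M0 / 2) * Real.sqrt D))) := by
    calc (B ^ 2 + S ^ 2 * (w / r) ^ (N - 4)) ^ (3 / 2 : ℝ)
        ≤ ((C2 ^ 2 + C3 ^ 2 * C2) * (R ^ (1 - (K:ℝ)) * e)) ^ (3 / 2 : ℝ) := by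
          gcongr
      _ = (C2 ^ 2 + C3 ^ 2 * C2) ^ (3 / 2 : ℝ) * (R ^ ((1 - (K:ℝ)) * (3/2)) * e ^ (3 / 2 : ℝ)) := by
          rw [Real.mul_rpow (by positivity) (by positivity), Real.mul_rpow (by positivity) he,
            ← Real.rpow_mul hR0.le]
      _ ≤ _ := by
          gcongr
          have h9 : e ^ (3 / 2 : ℝ) = e * Real.sqrt e := by
            rcases he.eq_or_lt with h0 | h0
            · rw [← h0]; norm_num
            · rw [Real.sqrt_eq_rpow]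
              nth_rw 2 [← Real.rpow_one e]
              rw [← Real.rpow_add h0]; norm_num
          rw [h9]
          gcongr
          have h10 : R ^ (M0 / 2) = Real.sqrt (R ^ M0) := by
            rw [Real.sqrt_eq_rpow, ← Real.rpow_mul hR0.le]; congr 1; ring
          rw [h10, ← Real.sqrt_mul (by positivity)]
          exact Real.sqrt_le_sqrt hD
  have h10 : (n + 1) ^ 2 ≤ (C2 + 1) ^ 2 * R ^ 2 := by
    have h11 : n + 1 ≤ (C2 + 1) * R := by
      have : R ^ ε' ≤ R := by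
        calc R ^ ε' ≤ R ^ (1:ℝ) := Real.rpow_le_rpow_of_exponent_le hR hε1
          _ = R := Real.rpow_one R
      nlinarith
    calc (n + 1) ^ 2 ≤ ((C2 + 1) * R) ^ 2 := by gcongr
      _ = _ := by ring
  have h12 : z * (C1 * r ^ 3 * (B ^ 2 + S ^ 2 * (w / r) ^ (N - 4)) ^ (3 / 2 : ℝ)) ≤
      216 * C1 * R ^ 3 * ((C2 ^ 2 + C3 ^ 2 * C2) ^ (3 / 2 : ℝ) *
        (R ^ ((1 - (K:ℝ)) * (3/2)) * (e * (R ^ (M0 / 2) * Real.sqrt D)))) := by
    calc z * (C1 * r ^ 3 * (B ^ 2 + S ^ 2 * (w / r) ^ (N - 4)) ^ (3 / 2 : ℝ))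
        ≤ (216 * (R / r) ^ 3) * (C1 * r ^ 3 * ((C2 ^ 2 + C3 ^ 2 * C2) ^ (3 / 2 : ℝ) *
          (R ^ ((1 - (K:ℝ)) * (3/2)) * (e * (R ^ (M0 / 2) * Real.sqrt D))))) := by gcongr
      _ = _ := by
          field_simp
  have h13 : R ^ 5 * (R ^ ((1 - (K:ℝ)) * (3/2)) * R ^ (M0 / 2)) ≤ R := by
    rw [← Real.rpow_add hR0, ← Real.rpow_natCast, ← Real.rpow_add hR0]
    nth_rw 2 [← Real.rpow_one R]
    refine Real.rpow_le_rpow_of_exponent_le hR ?_
    push_cast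
    rcases le_or_gt M0 0 with h0 | h0 <;> linarith
  calc _ ≤ ((C2 + 1) ^ 2 * R ^ 2) * (216 * C1 * R ^ 3 * ((C2 ^ 2 + C3 ^ 2 * C2) ^ (3 / 2 : ℝ) *
        (R ^ ((1 - (K:ℝ)) * (3/2)) * (e * (R ^ (M0 / 2) * Real.sqrt D))))) := by gcongr
    _ = ((C2 + 1) ^ 2 * 216 * C1 * (C2 ^ 2 + C3 ^ 2 * C2) ^ (3 / 2 : ℝ)) *
        ((R ^ 5 * (R ^ ((1 - (K:ℝ)) * (3/2)) * R ^ (M0 / 2))) * e * Real.sqrt D) := by ring
    _ ≤ _ := by gcongr

/-- **A1** from **DEC**. -/
theorem A1_of_DEC {B : ℕ → ℝ} {q : ℝ} {A : ℝ} {Na0 : ℕ}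
    (H : DEC B q A Na0) : A1n B q (SIG A) Na0 := by
  intro ε hε Na M0
  set K : ℕ := ⌈M0⌉₊ + 5 with hK
  set ε' : ℝ := min ε 1 / 4 with hε'
  have hε'0 : 0 < ε' := by rw [hε']; have := lt_min hε one_pos; positivity
  have hε'1 : ε' ≤ 1 := by
    rw [hε']; have := min_le_right ε 1; linarith
  have hε'4 : 4 * ε' ≤ ε := by
    rw [hε']; have := min_le_left ε 1; linarith
  have hKM : M0 + 5 ≤ K := by
    rw [hK]; push_cast
    have := Nat.le_ceil M0
    linarith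
  obtain ⟨C2, hC2, HD⟩ := H ε' hε'0 Na M0 K
  obtain ⟨C3, hC3, hext⟩ := ext_le
  refine ⟨4 * K + 4, fun N hN => ?_⟩
  obtain ⟨C1, hC1, HT⟩ := T12_abs (N := N) (by omega)
  refine ⟨max ((C2 + 1) ^ 4) ((C2 + 1) ^ 2 * 216 * C1 * (C2 ^ 2 + C3 ^ 2 * C2) ^ (3 / 2 : ℝ)),
    le_max_of_le_left (by positivity), ?_⟩
  set C : ℝ := max ((C2 + 1) ^ 4)
    ((C2 + 1) ^ 2 * 216 * C1 * (C2 ^ 2 + C3 ^ 2 * C2) ^ (3 / 2 : ℝ)) with hCdef
  intro h g R D hSt r w hr1 hrR hw1 hwr Q hQ hNN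
  have hR : 1 ≤ R := hSt.R1
  have hR0 : 0 < R := by linarith
  have hr : 1 ≤ r := (Real.one_le_rpow hR (by norm_num)).trans hr1
  have hr0 : 0 < r := by linarith
  have hw0 : 0 < w := by linarith
  have hhc : Continuous h := hSt.par.1.continuous
  obtain ⟨Λ, s, hcard, hSd, HD⟩ := HD R r hR hr1 hrR
  obtain ⟨Z, hZ1, hZ2, hZ3, hZ4⟩ := exists_net hr0 hrR
  have : Inhabited Plate := ⟨⟨0, 0, EuclideanSpace.basisFun (Fin 2) ℝ, 0, fun _ => ∅⟩⟩
  have HD' := fun z : E2 × ℝ => fun hz : z ∈ cyl R => HD h g D hSt z hz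
  choose! G D' rest I P hdec hSt' hPl hSS hrm hrb hrs hrE hrt using HD'
  have hiG : ∀ z ∈ Z, ∀ k ∈ Λ, Integrable (G z k) := fun z hz k hk => by
    have := hSt' z (hZ1 z hz) k hk
    exact memLp_one_iff_integrable.1 (integ this.meas this.bdd this.supp 1)
  have hir : ∀ z ∈ Z, Integrable (rest z) := fun z hz =>
    memLp_one_iff_integrable.1 (integ (hrm z (hZ1 z hz)) (hrb z (hZ1 z hz)) (hrs z (hZ1 z hz)) 1)
  have hEn : 0 ≤ En g := integral_nonneg fun ξ => by positivity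
  have hEnr : ∀ z, 0 ≤ En (rest z) := fun z => integral_nonneg fun ξ => by positivity
  -- T12
  have hT := HT w r R (C2 * R ^ (-(K:ℝ)) * Real.sqrt (En g))
    (C3 * Real.sqrt (C2 * R ^ ε' * En g)) hw0 hr0 (by positivity) (by positivity) Z hZ3
    {k // k ∈ Λ} (fun p => ext h g p.1 p.2) (fun z k p => ext h (G z k) p.1 p.2)
    (fun z p => ext h (rest z) p.1 p.2)
    (fun z hz k => (F4x858.continuous_ext hhc (hiG z hz k k.2)).measurable)
    (fun z hz => (F4x858.continuous_ext hhc (hir z hz)).measurable)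
    (fun z hz p => by
      have h1 := ext_tr h z g p.1 p.2
      have h2 : tr h z g = fun ξ => ∑ k ∈ Λ, G z k ξ + rest z ξ := by
        funext ξ; exact hdec z (hZ1 z hz) ξ
      rw [h2, ext_dec hhc Λ (hiG z hz) (hir z hz)] at h1
      simp only [Prod.fst_add, Prod.snd_add]
      rw [← h1, Finset.sum_coe_sort Λ (fun k => ext h (G z k) p.1 p.2)])
    (fun z hz p hp1 hp2 => by
      exact hrt z (hZ1 z hz) p hp1 hp2)
    (fun z hz p => by
      refine (hext h (rest z) (hrm z (hZ1 z hz)) (hrb z (hZ1 z hz)) (hrs z (hZ1 z hz)) p.1 p.2).trans ?_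
      gcongr
      exact hrE z (hZ1 z hz))
  have eNN : ∀ f : E2 → ℂ, ∀ ρ : ℝ, NN N h f w ρ =
      ∫⁻ z in cyl ρ, AA N w (fun p => ext h f p.1 p.2) z ^ (3 / 2 : ℝ) := fun f ρ => rfl
  rw [← eNN] at hT
  simp only [← eNN] at hT
  -- the maximal label
  have hmain : ∃ s1 s2, Sd r s1 s2 ∧ ∑ z ∈ Z, ∑ k : {k // k ∈ Λ}, NN N h (G z k) w r ≤
      ENNReal.ofReal ((C2 * R ^ ε') * (C2 * R ^ ε') * Q) *
        (ENNReal.ofReal (s2 ^ (-q / 2)) * SIG A r s1 s2 h g R) := by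
    rcases Λ.eq_empty_or_nonempty with hΛ | hΛ
    · subst hΛ
      refine ⟨1, 1, Sd_one hr, ?_⟩
      simp
    · obtain ⟨k0, hk0, hmax⟩ := Finset.exists_max_image Λ (fun k =>
        ENNReal.ofReal ((s k).2 ^ (-q / 2)) * SIG A r (s k).1 (s k).2 h g R) hΛ
      refine ⟨(s k0).1, (s k0).2, hSd k0 hk0, ?_⟩
      have h1 : ∀ z ∈ Z, ∀ k ∈ Λ, NN N h (G z k) w r ≤ ENNReal.ofReal Q *
          (ENNReal.ofReal (C2 * R ^ ε') * (ENNReal.ofReal ((s k).2 ^ (-q / 2)) *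
            val h g r (s k).1 (s k).2 (I z k) (P z k))) := by
        intro z hz k hk
        refine (hNN _ _ (hSt' z (hZ1 z hz) k hk)).trans ?_
        rw [ENNReal.ofReal_mul (by linarith)]
        gcongr
        exact hSS z (hZ1 z hz) k hk
      calc ∑ z ∈ Z, ∑ k : {k // k ∈ Λ}, NN N h (G z k) w r
          = ∑ z ∈ Z, ∑ k ∈ Λ, NN N h (G z k) w r := by
            refine Finset.sum_congr rfl fun z _ => ?_
            exact Finset.sum_coe_sort Λ (fun k => NN N h (G z k) w r)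
        _ ≤ ∑ z ∈ Z, ∑ k ∈ Λ, ENNReal.ofReal Q *
          (ENNReal.ofReal (C2 * R ^ ε') * (ENNReal.ofReal ((s k).2 ^ (-q / 2)) *
            val h g r (s k).1 (s k).2 (I z k) (P z k))) :=
            Finset.sum_le_sum fun z hz => Finset.sum_le_sum fun k hk => h1 z hz k hk
        _ = ∑ k ∈ Λ, ENNReal.ofReal Q * (ENNReal.ofReal (C2 * R ^ ε') *
            (ENNReal.ofReal ((s k).2 ^ (-q / 2)) *
            ∑ z ∈ Z, val h g r (s k).1 (s k).2 (I z k) (P z k))) := by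
            rw [Finset.sum_comm]
            refine Finset.sum_congr rfl fun k _ => ?_
            rw [Finset.mul_sum, Finset.mul_sum, Finset.mul_sum]
        _ ≤ ∑ k ∈ Λ, ENNReal.ofReal Q * (ENNReal.ofReal (C2 * R ^ ε') *
            (ENNReal.ofReal ((s k0).2 ^ (-q / 2)) * SIG A r (s k0).1 (s k0).2 h g R)) := by
            refine Finset.sum_le_sum fun k hk => ?_
            refine mul_le_mul_right (mul_le_mul_right (le_trans (mul_le_mul_right ?_ _)
              (hmax k hk)) _) _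
            exact sum_val_le_SIG A h g r (s k).1 (s k).2 R Z hZ1 hZ2 (fun z => I z k)
              (fun z => P z k) (fun z hz => hPl z (hZ1 z hz) k hk)
        _ = (Λ.card : ℝ≥0∞) * (ENNReal.ofReal Q * (ENNReal.ofReal (C2 * R ^ ε') *
            (ENNReal.ofReal ((s k0).2 ^ (-q / 2)) * SIG A r (s k0).1 (s k0).2 h g R))) := by
            rw [Finset.sum_const, nsmul_eq_mul]
        _ ≤ ENNReal.ofReal (C2 * R ^ ε') * (ENNReal.ofReal Q * (ENNReal.ofReal (C2 * R ^ ε') *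
            (ENNReal.ofReal ((s k0).2 ^ (-q / 2)) * SIG A r (s k0).1 (s k0).2 h g R))) := by
            gcongr
            rw [← ENNReal.ofReal_natCast]
            exact ENNReal.ofReal_le_ofReal hcard
        _ = _ := by
            have e1 : ENNReal.ofReal ((C2 * R ^ ε') * (C2 * R ^ ε') * Q) =
                ENNReal.ofReal (C2 * R ^ ε') * ENNReal.ofReal (C2 * R ^ ε') * ENNReal.ofReal Q := by
              rw [ENNReal.ofReal_mul (p := (C2 * R ^ ε') * (C2 * R ^ ε')) (by positivity),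
                ENNReal.ofReal_mul (p := C2 * R ^ ε') (q := C2 * R ^ ε') (by positivity)]
            rw [e1]
            ring
  obtain ⟨s1, s2, hsd, hmain⟩ := hmain
  refine ⟨s1, s2, hsd, hT.trans ?_⟩
  have ecard : ((Fintype.card {k // k ∈ Λ} : ℕ) : ℝ≥0∞) + 1 = ENNReal.ofReal ((Λ.card : ℝ) + 1) := by
    rw [Fintype.card_coe, ENNReal.ofReal_add (by positivity) zero_le_one, ENNReal.ofReal_natCast,
      ENNReal.ofReal_one]
  rw [ecard]
  gcongr ?_ + ?_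
  · calc ENNReal.ofReal ((Λ.card : ℝ) + 1) ^ 2 * ∑ z ∈ Z, ∑ k : {k // k ∈ Λ}, NN N h (G z k) w r
        ≤ ENNReal.ofReal ((Λ.card : ℝ) + 1) ^ 2 * (ENNReal.ofReal ((C2 * R ^ ε') * (C2 * R ^ ε') * Q) *
          (ENNReal.ofReal (s2 ^ (-q / 2)) * SIG A r s1 s2 h g R)) := by gcongr
      _ = ENNReal.ofReal (((Λ.card : ℝ) + 1) ^ 2 * ((C2 * R ^ ε') * (C2 * R ^ ε') * Q)) *
          (ENNReal.ofReal (s2 ^ (-q / 2)) * SIG A r s1 s2 h g R) := by
          rw [← mul_assoc, ← ENNReal.ofReal_pow (by positivity), ← ENNReal.ofReal_mul (by positivity)]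
      _ ≤ _ := by
          refine mul_le_mul_left (ENNReal.ofReal_le_ofReal ?_) _
          have hRe : 1 ≤ R ^ ε' := Real.one_le_rpow hR hε'0.le
          have h1 : (Λ.card : ℝ) + 1 ≤ (C2 + 1) * R ^ ε' := by nlinarith
          have h2 : C2 * R ^ ε' ≤ (C2 + 1) * R ^ ε' := by gcongr; linarith
          have h3 : (R ^ ε') ^ 4 ≤ R ^ ε := by
            rw [← Real.rpow_natCast, ← Real.rpow_mul hR0.le]
            exact Real.rpow_le_rpow_of_exponent_le hR (by push_cast; linarith)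
          calc ((Λ.card : ℝ) + 1) ^ 2 * ((C2 * R ^ ε') * (C2 * R ^ ε') * Q)
              ≤ ((C2 + 1) * R ^ ε') ^ 2 * (((C2 + 1) * R ^ ε') * ((C2 + 1) * R ^ ε') * Q) := by
                gcongr
            _ = (C2 + 1) ^ 4 * (R ^ ε') ^ 4 * Q := by ring
            _ ≤ C * R ^ ε * Q := by
                gcongr
                exact le_max_left _ _
  · have hD0 := hSt.D0
    have h1 := err_le (C3 := C3) (n := (Λ.card : ℝ)) (z := (Z.card : ℝ)) hC1 hC2 hR hr1 hw0 hwr hEn hD0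
      hSt.nd hε'1 (by positivity) hcard (by positivity) hZ4 rfl
      (S := C3 * Real.sqrt (C2 * R ^ ε' * En g))
      (by rw [mul_pow, Real.sq_sqrt (by positivity)]) (by omega) hKM hN
    calc _ = ENNReal.ofReal (((Λ.card : ℝ) + 1) ^ 2 * ((Z.card : ℝ) * (C1 * r ^ 3 *
          ((C2 * R ^ (-(K:ℝ)) * Real.sqrt (En g)) ^ 2 +
          (C3 * Real.sqrt (C2 * R ^ ε' * En g)) ^ 2 * (w / r) ^ (N - 4)) ^ (3 / 2 : ℝ)))) := by
          rw [← ENNReal.ofReal_pow (by positivity), ← ENNReal.ofReal_natCast,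
            ← ENNReal.ofReal_mul (by positivity), ← ENNReal.ofReal_mul (by positivity)]
      _ ≤ ENNReal.ofReal (C * SS g R D) := by
          apply ENNReal.ofReal_le_ofReal
          refine h1.trans ?_
          unfold SS
          gcongr
          exact le_max_right _ _

end Crest.Agent.R138.T774
end

-- ▼ part R138/Hf1_774
section

/-!
# R138 / R139, WAVE side: tools for HALF and A5b (helper774): change of scale of the averages,
finite sums, the decomposition into finitely many pieces of small support.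
-/

set_option autoImplicit false

open MeasureTheory FourierTransform
open scoped ENNReal ContDiff

namespace Crest.Agent.R138.T774

open Crest.Agent.R138.Defs Crest.Agent.R138.Bil882 Crest.Agent.R138.W188 Crest.Agent.R138.Zm858
open Crest.Agent.R138.Sup882 (capf capf_sum capf_supp_ball contDiff_capf norm_capf_le pboxLe_piece
  En_mul_le grad_norm_le)
open Crest.Agent.R138.Wpk685 (caps)

theorem AA_scale (N : ℕ) {K w w1 : ℝ} (hK : 1 ≤ K) (hw : 0 < w) (hw1 : 0 < w1) (h1 : w ≤ K * w1)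
    (h2 : w1 ≤ K * w) (F : E2 × ℝ → ℂ) (z : E2 × ℝ) :
    AA N w F z ≤ ENNReal.ofReal (K ^ (N + 3)) * AA N w1 F z := by
  have hK0 : 0 < K := by linarith
  unfold AA
  have e1 : ENNReal.ofReal (K ^ (N + 3)) = ENNReal.ofReal (K ^ 3) * ENNReal.ofReal (K ^ N) := by
    rw [← ENNReal.ofReal_mul (by positivity)]; congr 1; ring
  have e2 : (w ^ 3)⁻¹ ≤ K ^ 3 * (w1 ^ 3)⁻¹ := by
    rw [inv_le_comm₀ (by positivity) (by positivity), mul_inv, inv_inv, ← inv_pow, ← mul_pow]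
    refine pow_le_pow_left₀ (by positivity) ?_ 3
    rw [inv_mul_le_iff₀ hK0]; exact h2
  have e3 : ∀ p : E2 × ℝ, wt N w z.1 z.2 p ≤ K ^ N * wt N w1 z.1 z.2 p := by
    intro p
    unfold wt
    rw [← inv_pow, ← inv_pow, ← mul_pow]
    refine pow_le_pow_left₀ (by positivity) ?_ N
    set a : ℝ := ‖p.1 - z.1‖ + |p.2 - z.2| with ha
    have ha0 : 0 ≤ a := by positivity
    rw [inv_le_comm₀ (by positivity) (by positivity), mul_inv, inv_inv, inv_mul_le_iff₀ hK0]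
    have h3 : a / w1 ≤ K * (a / w) := by
      rw [← mul_div_assoc, div_le_div_iff₀ hw1 hw]
      calc a * w ≤ a * (K * w1) := by gcongr
        _ = K * a * w1 := by ring
    nlinarith
  calc ENNReal.ofReal ((w ^ 3)⁻¹) * ∫⁻ p : E2 × ℝ, ‖F p‖ₑ ^ 2 * ENNReal.ofReal (wt N w z.1 z.2 p)
      ≤ ENNReal.ofReal (K ^ 3 * (w1 ^ 3)⁻¹) * ∫⁻ p : E2 × ℝ, ENNReal.ofReal (K ^ N) *
        (‖F p‖ₑ ^ 2 * ENNReal.ofReal (wt N w1 z.1 z.2 p)) := by
        refine mul_le_mul (ENNReal.ofReal_le_ofReal e2) (lintegral_mono fun p => ?_) (by simp)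
          (by simp)
        calc ‖F p‖ₑ ^ 2 * ENNReal.ofReal (wt N w z.1 z.2 p)
            ≤ ‖F p‖ₑ ^ 2 * ENNReal.ofReal (K ^ N * wt N w1 z.1 z.2 p) := by
              gcongr; exact e3 p
          _ = _ := by rw [ENNReal.ofReal_mul (by positivity)]; ring
    _ = _ := by
        rw [lintegral_const_mul' _ _ ENNReal.ofReal_ne_top, ENNReal.ofReal_mul (by positivity), e1]
        ring

theorem NN_scale (N : ℕ) {K w w1 : ℝ} (hK : 1 ≤ K) (hw : 0 < w) (hw1 : 0 < w1) (h1 : w ≤ K * w1)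
    (h2 : w1 ≤ K * w) (h : E2 → ℝ) (g : E2 → ℂ) (R : ℝ) :
    NN N h g w R ≤ ENNReal.ofReal ((K ^ (N + 3)) ^ (3 / 2 : ℝ)) * NN N h g w1 R := by
  have hK0 : 0 < K := by linarith
  unfold NN
  rw [← lintegral_const_mul' _ _ ENNReal.ofReal_ne_top]
  refine lintegral_mono fun z => ?_
  have h3 := AA_scale N hK hw hw1 h1 h2 (fun p => ext h g p.1 p.2) z
  unfold AA at h3
  refine (ENNReal.rpow_le_rpow h3 (by norm_num)).trans (le_of_eq ?_)
  rw [ENNReal.mul_rpow_of_nonneg _ _ (by norm_num), ENNReal.ofReal_rpow_of_nonneg (by positivity)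
    (by norm_num)]

theorem NN_mono {N : ℕ} {h : E2 → ℝ} {g : E2 → ℂ} {w R R' : ℝ} (hR : R ≤ R') :
    NN N h g w R ≤ NN N h g w R' := by
  unfold NN
  refine lintegral_mono_set fun p hp => ?_
  exact ⟨hp.1.trans hR, hp.2.trans hR⟩


section sums

variable {ι : Type*}

theorem enorm_sum_pow (s : Finset ι) (a : ι → ℂ) (n : ℕ) (hn : 1 ≤ n) :
    ‖∑ k ∈ s, a k‖ₑ ^ n ≤ (s.card : ℝ≥0∞) ^ (n - 1) * ∑ k ∈ s, ‖a k‖ₑ ^ n := by
  have h1 := ENNReal.rpow_sum_le_const_mul_sum_rpow s (fun k => ‖a k‖ₑ) (p := n)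
    (by exact_mod_cast hn)
  have h2 : ((n : ℝ) - 1) = ((n - 1 : ℕ) : ℝ) := by push_cast [hn]; ring
  rw [h2] at h1
  simp only [ENNReal.rpow_natCast] at h1
  refine le_trans ?_ h1
  gcongr
  exact enorm_sum_le _ _

theorem AA_sum (N : ℕ) (w : ℝ) (s : Finset ι) (F : ι → E2 × ℝ → ℂ)
    (hF : ∀ k ∈ s, Measurable (F k)) (z : E2 × ℝ) :
    AA N w (fun p => ∑ k ∈ s, F k p) z ≤ (s.card : ℝ≥0∞) * ∑ k ∈ s, AA N w (F k) z := by
  unfold AA
  rw [← Finset.mul_sum, ← lintegral_finsetSum' s fun k hk => ?_, mul_left_comm]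
  · refine mul_le_mul_right ?_ _
    rw [← lintegral_const_mul' _ _ (ENNReal.natCast_ne_top _)]
    refine lintegral_mono fun p => ?_
    rw [← Finset.sum_mul, ← mul_assoc]
    refine mul_le_mul_left ?_ _
    have := enorm_sum_pow s (fun k => F k p) 2 (by norm_num)
    simpa using this
  · exact (((hF k hk).enorm.pow_const 2).mul (measurable_wt N w z.1 z.2).ennreal_ofReal).aemeasurable

theorem ext_sum {h : E2 → ℝ} (hh : Continuous h) (s : Finset ι) {G : ι → E2 → ℂ}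
    (hG : ∀ k ∈ s, Integrable (G k)) (x : E2) (t : ℝ) :
    ext h (fun ξ => ∑ k ∈ s, G k ξ) x t = ∑ k ∈ s, ext h (G k) x t := by
  have hc : Continuous fun ξ : E2 => ee (inner ℝ x ξ + t * h ξ) :=
    F4x858.continuous_ee.comp ((continuous_const.inner continuous_id).add (continuous_const.mul hh))
  have hi : ∀ {f : E2 → ℂ}, Integrable f → Integrable fun ξ => f ξ * ee (inner ℝ x ξ + t * h ξ) := by
    intro f hf
    refine hf.mul_bdd (c := 1) hc.aestronglyMeasurable (Filter.Eventually.of_forall fun ξ => ?_)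
    rw [Ker858.norm_ee]
  unfold ext
  simp_rw [Finset.sum_mul]
  rw [integral_finsetSum _ fun k hk => hi (hG k hk)]

theorem NN_sum (N : ℕ) (w R : ℝ) {h : E2 → ℝ} (hh : Continuous h) (s : Finset ι) {G : ι → E2 → ℂ}
    (hG : ∀ k ∈ s, Integrable (G k)) :
    NN N h (fun ξ => ∑ k ∈ s, G k ξ) w R ≤ (s.card : ℝ≥0∞) ^ 2 * ∑ k ∈ s, NN N h (G k) w R := by
  have hmeas : ∀ k ∈ s, Measurable fun p : E2 × ℝ => ext h (G k) p.1 p.2 := fun k hk =>
    (F4x858.continuous_ext hh (hG k hk)).measurable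
  have e1 : ∀ g : E2 → ℂ, NN N h g w R =
      ∫⁻ z in cyl R, AA N w (fun p => ext h g p.1 p.2) z ^ (3 / 2 : ℝ) := fun g => rfl
  simp only [e1]
  rw [← lintegral_finsetSum' s fun k hk =>
    ((measurable_AA N w (hmeas k hk)).pow_const _).aemeasurable,
    ← lintegral_const_mul' _ _ (by simp)]
  refine lintegral_mono fun z => ?_
  have h1 := AA_sum N w s (fun k p => ext h (G k) p.1 p.2) hmeas z
  simp_rw [ext_sum hh s hG]
  refine (ENNReal.rpow_le_rpow h1 (by norm_num)).trans ?_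
  rw [ENNReal.mul_rpow_of_nonneg _ _ (by norm_num)]
  have h2 := ENNReal.rpow_sum_le_const_mul_sum_rpow s
    (fun k => AA N w (fun p => ext h (G k) p.1 p.2) z) (p := 3 / 2) (by norm_num)
  rcases Nat.eq_zero_or_pos s.card with h0 | h0
  · rw [h0]; simp
  have hc1 : (1 : ℝ≥0∞) ≤ (s.card : ℝ≥0∞) := by exact_mod_cast h0
  calc (s.card : ℝ≥0∞) ^ (3 / 2 : ℝ) * (∑ k ∈ s, AA N w (fun p => ext h (G k) p.1 p.2) z) ^ (3 / 2 : ℝ)
      ≤ (s.card : ℝ≥0∞) ^ (3 / 2 : ℝ) * ((s.card : ℝ≥0∞) ^ (3 / 2 - 1 : ℝ) *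
        ∑ k ∈ s, AA N w (fun p => ext h (G k) p.1 p.2) z ^ (3 / 2 : ℝ)) := by gcongr
    _ = _ := by
        rw [← mul_assoc]
        congr 1
        rw [← ENNReal.rpow_add_of_nonneg _ _ (by norm_num) (by norm_num), ← ENNReal.rpow_natCast]
        norm_num

theorem CC_sum (R : ℝ) {h : E2 → ℝ} (hh : Continuous h) (s : Finset ι) {G : ι → E2 → ℂ}
    (hG : ∀ k ∈ s, Integrable (G k)) :
    CC h (fun ξ => ∑ k ∈ s, G k ξ) R ≤ (s.card : ℝ≥0∞) ^ 2 * ∑ k ∈ s, CC h (G k) R := by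
  have hmeas : ∀ k ∈ s, Measurable fun p : E2 × ℝ => ext h (G k) p.1 p.2 := fun k hk =>
    (F4x858.continuous_ext hh (hG k hk)).measurable
  unfold CC
  rw [← lintegral_finsetSum' s fun k hk => ((hmeas k hk).enorm.pow_const 3).aemeasurable,
    ← lintegral_const_mul' _ _ (by simp)]
  refine lintegral_mono fun p => ?_
  simp_rw [ext_sum hh s hG]
  have := enorm_sum_pow s (fun k => ext h (G k) p.1 p.2) 3 (by norm_num)
  simpa using this

end sums

/-- **pieces**: every state is a sum of `n` zoom inputs with `l = 1`. -/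
theorem pieces {B : ℕ → ℝ} (hB : B 2 ≤ 1 / 10) (Na : ℕ) : ∃ C0 : ℝ, 1 ≤ C0 ∧
    ∀ q M0 h g R D, St B q Na M0 1 h g R D →
    (g = fun ξ => ∑ k ∈ caps (1 / 24), g ξ * capf h (1 / 24) k ξ) ∧
    ∀ k, (∃ ξ0, ZIn B q Na M0 1 ξ0 h (fun ξ => g ξ * capf h (1 / 24) k ξ) R (C0 * D)) ∧
      Integrable (fun ξ => g ξ * capf h (1 / 24) k ξ) ∧
      En (fun ξ => g ξ * capf h (1 / 24) k ξ) ≤ En g := by
  obtain ⟨C0, hC0, h0⟩ := pboxLe_piece Na 24 (by norm_num)
  refine ⟨C0, hC0, ?_⟩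
  intro q M0 h g R D hSt
  have hh := hSt.par.1
  have hn := Bn759.nearId hB hSt.par
  have hg1 : Integrable g := memLp_one_iff_integrable.1 (integ hSt.meas hSt.bdd hSt.supp 1)
  have hg2 : MemLp g 2 := integ hSt.meas hSt.bdd hSt.supp 2
  have hR1 := hSt.R1
  have hR0 : 0 < R := by linarith
  have hD0 := hSt.D0
  have hEn0 : 0 ≤ En g := integral_nonneg fun ξ => by positivity
  constructor
  · funext ξ
    by_cases hξ : g ξ = 0
    · simp [hξ]
    · have h1 : ‖ξ‖ ≤ 1 := by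
        by_contra hc
        exact hξ (hSt.supp ξ (not_le.1 hc))
      have h2 : ‖gradient h ξ‖ ≤ 2 := by
        have := grad_norm_le hn hSt.h1 ξ
        linarith
      rw [← Finset.mul_sum, capf_sum h (by norm_num) h2, mul_one]
  · intro k
    have hEn := En_mul_le hg2 (fun ξ => norm_capf_le h (1 / 24) k ξ)
    refine ⟨?_, ?_, hEn⟩
    · -- the centre
      have hcen : ∃ ξ0 : E2, ∀ ξ, (1 / 4 : ℝ) < ‖ξ - ξ0‖ → g ξ * capf h (1 / 24) k ξ = 0 := by
        by_cases hex : ∃ ξ0, capf h (1 / 24) k ξ0 ≠ 0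
        · obtain ⟨ξ0, hξ0⟩ := hex
          refine ⟨ξ0, fun ξ hξ => ?_⟩
          by_contra hc
          have h1 := capf_supp_ball hn (by norm_num) (right_ne_zero_of_mul hc) hξ0
          linarith
        · push Not at hex
          exact ⟨0, fun ξ _ => by rw [hex ξ, mul_zero]⟩
      obtain ⟨ξ0, hξ0⟩ := hcen
      refine ⟨ξ0, hSt.par, hSt.h0, hSt.h1, ?_, ?_, ?_, ?_, one_pos, le_rfl, hR1, by positivity, ?_, ?_⟩
      · exact hSt.meas.mul (contDiff_capf hh (1 / 24) k).continuous.measurable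
      · obtain ⟨M, hM⟩ := hSt.bdd
        refine ⟨M, fun ξ => ?_⟩
        rw [norm_mul]
        exact (mul_le_of_le_one_right (norm_nonneg _) (norm_capf_le h _ k ξ)).trans (hM ξ)
      · intro ξ hξ
        rw [hSt.supp ξ hξ, zero_mul]
      · intro ξ hξ
        exact hξ0 ξ hξ
      · have h1 := h0 q h g R D (1 / 24) hSt.box hR0 (by norm_num) (by norm_num) (by
          rw [mul_one_div_cancel (by norm_num)]
          exact Real.rpow_le_one_of_one_le_of_nonpos hR1 (by norm_num)) k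
        rwa [mul_one_div_cancel (by norm_num)] at h1
      · have h1 := hSt.nd
        have h2 : 0 ≤ R ^ M0 := (Real.rpow_pos_of_pos hR0 _).le
        calc En (fun ξ => g ξ * capf h (1 / 24) k ξ) ≤ En g := hEn
          _ ≤ R ^ M0 * D := h1
          _ ≤ R ^ M0 * (C0 * D) := by
            gcongr
            exact le_mul_of_one_le_left hD0 hC0
    · refine hg1.mul_bdd (c := 1) (contDiff_capf hh (1 / 24) k).continuous.aestronglyMeasurable
        (Filter.Eventually.of_forall fun ξ => norm_capf_le h _ k ξ)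

theorem SS_piece {g g' : E2 → ℂ} {R D C0 : ℝ} (hR : 0 ≤ R) (hE : En g' ≤ En g) (hD : 0 ≤ D)
    (hC0 : 1 ≤ C0) : SS g' R (C0 * D) ≤ C0 * SS g R D := by
  have hE0 : 0 ≤ En g' := integral_nonneg fun ξ => by positivity
  have hE1 : 0 ≤ En g := hE0.trans hE
  unfold SS
  rw [Real.sqrt_mul (by linarith)]
  have h1 : Real.sqrt C0 ≤ C0 := by
    rw [Real.sqrt_le_left (by linarith)]; nlinarith
  calc R * En g' * (Real.sqrt C0 * Real.sqrt D) ≤ R * En g * (C0 * Real.sqrt D) := by gcongr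
    _ = C0 * (R * En g * Real.sqrt D) := by ring

end Crest.Agent.R138.T774
end

-- ▼ part R138/Hf2_774
section

/-!
# R138 / R139, WAVE side: HALF from ZoomNN, A5b from ZoomCC, A1 from A1n (helper774)
-/

set_option autoImplicit false

open MeasureTheory FourierTransform
open scoped ENNReal ContDiff

namespace Crest.Agent.R138.T774

open Crest.Agent.R138.Defs Crest.Agent.R138.Bil882 Crest.Agent.R138.W188 Crest.Agent.R138.Zm858
open Crest.Agent.R138.Sup882 (capf)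
open Crest.Agent.R138.Wpk685 (caps)

attribute [local instance] haar3

theorem A1_of_A1n {B : ℕ → ℝ} {q : ℝ}
    {F : ℝ → ℝ → ℝ → (E2 → ℝ) → (E2 → ℂ) → ℝ → ℝ≥0∞} {Na0 : ℕ} (H : A1n B q F Na0) :
    A1 B q F := fun ε hε => ⟨Na0, H ε hε⟩

theorem En_nn (g : E2 → ℂ) : 0 ≤ En g := integral_nonneg fun ξ => by positivity

theorem SS_nn {g : E2 → ℂ} {R D : ℝ} (hR : 0 ≤ R) : 0 ≤ SS g R D := by
  unfold SS
  have := En_nn g
  positivity

/-- **HALF** from the zoom. -/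
theorem HALF_of_Zoom {B : ℕ → ℝ} {q : ℝ} (hB : B 2 ≤ 1 / 10) (hZ : ZoomNN B q) : HALF B q := by
  intro c hc hLB ε hε Na M0
  obtain ⟨θ, hθ, hθ1, hZ⟩ := hZ
  obtain ⟨ε', hε', hε'1, hε'2⟩ : ∃ ε' : ℝ, 0 < ε' ∧ ε' ≤ 1 ∧ 2 * ε' ≤ ε :=
    ⟨min (ε / 2) 1, by positivity, min_le_right _ _, by
      have := min_le_left (ε / 2) 1; linarith⟩
  obtain ⟨Na', M0', hZ⟩ := hZ ε' hε' Na M0
  obtain ⟨N, C1, hC1, h1⟩ := hLB ε' hε' Na' M0'
  obtain ⟨N1, C2, hC2, h2⟩ := hZ N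
  obtain ⟨C0, hC0, hp⟩ := pieces hB Na
  set K : ℝ := θ⁻¹ with hK
  have hK1 : 1 ≤ K := (one_le_inv₀ hθ).2 hθ1
  have hK0 : 0 < K := by linarith
  set Kc : ℝ := (K ^ (N + 3)) ^ (3 / 2 : ℝ) with hKc
  have hKc0 : 0 ≤ Kc := by positivity
  obtain ⟨n, hn⟩ : ∃ n : ℕ, n = (caps (1 / 24)).card := ⟨_, rfl⟩
  set T : ℝ := 1 + Kc * C1 * K ^ (c / 2) with hT
  have hT1 : 1 ≤ T := by
    have : 0 ≤ Kc * C1 * K ^ (c / 2) := by positivity
    linarith
  refine ⟨N1, n ^ 3 * (C2 * T * C0), by positivity, ?_⟩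
  intro h g R D w hSt hw1 hwR
  have hR1 := hSt.R1
  have hR0 : 0 < R := by linarith
  have hw0 : 0 < w := by linarith
  obtain ⟨hg, hpc⟩ := hp q M0 h g R D hSt
  have hRe : 1 ≤ R ^ ε' := Real.one_le_rpow hR1 hε'.le
  have hw2 : w ^ 2 ≤ R := by
    calc w ^ 2 ≤ (R ^ (1 / 2 : ℝ)) ^ 2 := by gcongr
      _ = R := by rw [← Real.rpow_natCast, ← Real.rpow_mul hR0.le]; norm_num
  have hX : 1 ≤ R / w ^ 2 := by rw [le_div_iff₀ (by positivity)]; linarith
  have hXc : 1 ≤ (R / w ^ 2) ^ (c / 2) := Real.one_le_rpow hX (by linarith)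
  set Q : ℝ := T * R ^ ε' * (R / w ^ 2) ^ (c / 2) with hQ
  have hQ1 : 1 ≤ Q := one_le_mul_of_one_le_of_one_le (one_le_mul_of_one_le_of_one_le hT1 hRe) hXc
  -- the hypothesis of the zoom
  have hhyp : ∀ h' g' D', St B q Na' M0' (1 / 2) h' g' (θ * (1 ^ 2 * R)) D' →
      NN N h' g' (1 * w) (θ * (1 ^ 2 * R)) ≤ ENNReal.ofReal (Q * SS g' (θ * (1 ^ 2 * R)) D') := by
    intro h' g' D' hSt'
    rw [one_pow, one_mul] at hSt' ⊢
    rw [one_mul]
    have hR'1 := hSt'.R1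
    have hR'0 : 0 < θ * R := by linarith
    set w1 : ℝ := max 1 (θ * w) with hw1d
    have hw11 : 1 ≤ w1 := le_max_left _ _
    have hw10 : 0 < w1 := by linarith
    have hw1w : w1 ≤ w := max_le hw1 (mul_le_of_le_one_left hw0.le hθ1)
    have hww1 : w ≤ K * w1 := by
      rw [hK, le_inv_mul_iff₀ hθ]
      exact le_max_right _ _
    have hw1R : w1 ≤ (θ * R) ^ (1 / 2 : ℝ) := by
      refine max_le (Real.one_le_rpow hR'1 (by norm_num)) ?_
      rw [Real.mul_rpow hθ.le hR0.le]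
      have : θ ≤ θ ^ (1 / 2 : ℝ) := by
        nth_rw 1 [← Real.rpow_one θ]
        exact Real.rpow_le_rpow_of_exponent_ge hθ hθ1 (by norm_num)
      gcongr
    have e1 := NN_scale N hK1 hw0 hw10 hww1 (by nlinarith) h' g' (θ * R)
    have e2 := h1 h' g' (θ * R) D' w1 hSt' hw11 hw1R
    refine e1.trans ((mul_le_mul_right e2 _).trans ?_)
    rw [← hKc, ← ENNReal.ofReal_mul hKc0]
    apply ENNReal.ofReal_le_ofReal
    have hSS := SS_nn (g := g') (D := D') hR'0.le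
    have e3 : (θ * R / w1 ^ 2) ^ (c / 2) ≤ K ^ (c / 2) * (R / w ^ 2) ^ (c / 2) := by
      rw [← Real.mul_rpow hK0.le (by positivity)]
      refine Real.rpow_le_rpow (by positivity) ?_ (by linarith)
      rw [← mul_div_assoc, div_le_div_iff₀ (by positivity) (by positivity)]
      have h3 : θ * w ≤ w1 := le_max_right _ _
      have h4 : θ ^ 2 * w ^ 2 ≤ w1 ^ 2 := by
        rw [← mul_pow]; gcongr
      calc θ * R * w ^ 2 = K * R * (θ ^ 2 * w ^ 2) := by rw [hK]; field_simp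
        _ ≤ K * R * w1 ^ 2 := by gcongr
    have e4 : (θ * R) ^ ε' ≤ R ^ ε' := by
      refine Real.rpow_le_rpow hR'0.le ?_ hε'.le
      exact mul_le_of_le_one_left hR0.le hθ1
    calc Kc * (C1 * (θ * R) ^ ε' * (θ * R / w1 ^ 2) ^ (c / 2) * SS g' (θ * R) D')
        ≤ Kc * (C1 * R ^ ε' * (K ^ (c / 2) * (R / w ^ 2) ^ (c / 2)) * SS g' (θ * R) D') := by gcongr
      _ = (Kc * C1 * K ^ (c / 2)) * (R ^ ε' * (R / w ^ 2) ^ (c / 2) * SS g' (θ * R) D') := by ring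
      _ ≤ T * (R ^ ε' * (R / w ^ 2) ^ (c / 2) * SS g' (θ * R) D') := by
          gcongr
          rw [hT]; linarith
      _ = Q * SS g' (θ * R) D' := by rw [hQ]; ring
  -- the pieces
  have hpiece : ∀ k ∈ caps (1 / 24), NN N1 h (fun ξ => g ξ * capf h (1 / 24) k ξ) w R ≤
      ENNReal.ofReal (C2 * R ^ ε' * Q * (C0 * SS g R D)) := by
    intro k _
    obtain ⟨⟨ξ0, hin⟩, hi, hEn⟩ := hpc k
    have e1 := h2 h _ R (C0 * D) 1 ξ0 w hin (by
      rw [one_pow, one_mul]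
      calc R ^ ε' ≤ R ^ (1 : ℝ) := Real.rpow_le_rpow_of_exponent_le hR1 hε'1
        _ = R := Real.rpow_one R) (by linarith) hwR Q hQ1 hhyp
    refine (NN_mono (by linarith)).trans (e1.trans (ENNReal.ofReal_le_ofReal ?_))
    rw [Real.one_rpow, mul_one]
    have hQ0 : 0 ≤ Q := by linarith
    gcongr
    exact SS_piece hR0.le hEn hSt.D0 hC0
  have hsum := NN_sum N1 w R hSt.par.1.continuous (caps (1 / 24)) (fun k _ => (hpc k).2.1)
  rw [← hg, ← hn] at hsum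
  have hSS := SS_nn (g := g) (D := D) hR0.le
  have hQ0 : 0 ≤ Q := by linarith
  calc NN N1 h g w R ≤ (n : ℝ≥0∞) ^ 2 * ∑ k ∈ caps (1 / 24),
        NN N1 h (fun ξ => g ξ * capf h (1 / 24) k ξ) w R := hsum
    _ ≤ (n : ℝ≥0∞) ^ 2 * ∑ k ∈ caps (1 / 24), ENNReal.ofReal (C2 * R ^ ε' * Q * (C0 * SS g R D)) := by
        gcongr with k hk
        exact hpiece k hk
    _ = ENNReal.ofReal (n ^ 3 * (C2 * R ^ ε' * Q * (C0 * SS g R D))) := by
        rw [Finset.sum_const, nsmul_eq_mul, ENNReal.ofReal_mul (p := (n : ℝ) ^ 3) (by positivity),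
          ENNReal.ofReal_pow (by positivity), ENNReal.ofReal_natCast, ← hn]
        ring
    _ ≤ _ := by
        apply ENNReal.ofReal_le_ofReal
        have e5 : R ^ ε' * R ^ ε' ≤ R ^ ε := by
          rw [← Real.rpow_add hR0]
          exact Real.rpow_le_rpow_of_exponent_le hR1 (by linarith)
        calc (n : ℝ) ^ 3 * (C2 * R ^ ε' * Q * (C0 * SS g R D))
            = n ^ 3 * (C2 * T * C0) * (R ^ ε' * R ^ ε') * (R / w ^ 2) ^ (c / 2) * SS g R D := by
              rw [hQ]; ring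
          _ ≤ n ^ 3 * (C2 * T * C0) * R ^ ε * (R / w ^ 2) ^ (c / 2) * SS g R D := by gcongr

end Crest.Agent.R138.T774
end

-- ▼ part R138/Hf3_774

/-!
# R138 / R139, WAVE side: A5b from ZoomCC (helper774)
-/

set_option autoImplicit false

open MeasureTheory FourierTransform
open scoped ENNReal ContDiff

namespace Crest.Agent.R138.T774

open Crest.Agent.R138.Defs Crest.Agent.R138.Bil882 Crest.Agent.R138.W188 Crest.Agent.R138.Zm858
open Crest.Agent.R138.Sup882 (capf)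
open Crest.Agent.R138.Wpk685 (caps)

attribute [local instance] haar3

theorem wt_symm (N : ℕ) (w : ℝ) (z p : E2 × ℝ) : wt N w z.1 z.2 p = wt N w p.1 p.2 z := by
  unfold wt
  rw [norm_sub_rev, abs_sub_comm]

theorem lint_wt_N {N : ℕ} (hN : 4 ≤ N) : ∃ C : ℝ, 0 ≤ C ∧ ∀ w : ℝ, 0 < w → ∀ z : E2 × ℝ,
    ∫⁻ p : E2 × ℝ, ENNReal.ofReal (wt N w z.1 z.2 p) ≤ ENNReal.ofReal (C * w ^ 3) := by
  obtain ⟨C, hC, h⟩ := lint_wt
  refine ⟨C, hC, fun w hw z => le_trans ?_ (h w hw z)⟩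
  exact lintegral_mono fun p => ENNReal.ofReal_le_ofReal (wt_le_wt4 hN hw z p)

/-- Hölder: the average to the power `3/2` is bounded by the average of the cube. -/
theorem AA_pow_le {N : ℕ} (hN : 4 ≤ N) : ∃ C : ℝ, 0 ≤ C ∧ ∀ w : ℝ, 0 < w →
    ∀ F : E2 × ℝ → ℂ, Measurable F → ∀ z : E2 × ℝ,
    AA N w F z ^ (3 / 2 : ℝ) ≤ ENNReal.ofReal (C * (w ^ 3)⁻¹) *
      ∫⁻ p : E2 × ℝ, ‖F p‖ₑ ^ 3 * ENNReal.ofReal (wt N w z.1 z.2 p) := by
  obtain ⟨C, hC, hw4⟩ := lint_wt_N hN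
  refine ⟨C ^ (1 / 2 : ℝ), by positivity, fun w hw F hF z => ?_⟩
  have hm := (measurable_wt N w z.1 z.2).ennreal_ofReal
  have hFm : Measurable fun p => ‖F p‖ₑ := hF.enorm
  have hp : (3 / 2 : ℝ).HolderConjugate 3 := by
    rw [Real.holderConjugate_iff]; norm_num
  have h1 := ENNReal.lintegral_mul_le_Lp_mul_Lq (volume : Measure (E2 × ℝ)) hp
    (f := fun p => ‖F p‖ₑ ^ 2 * ENNReal.ofReal (wt N w z.1 z.2 p) ^ (2 / 3 : ℝ))
    (g := fun p => ENNReal.ofReal (wt N w z.1 z.2 p) ^ (1 / 3 : ℝ))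
    (show Measurable (fun p => ‖F p‖ₑ ^ 2 * ENNReal.ofReal (wt N w z.1 z.2 p) ^ (2 / 3 : ℝ)) from
      (hFm.pow_const 2).mul (hm.pow_const _)).aemeasurable (hm.pow_const _).aemeasurable
  have e1 : ∀ p : E2 × ℝ, ((fun p => ‖F p‖ₑ ^ 2 * ENNReal.ofReal (wt N w z.1 z.2 p) ^ (2 / 3 : ℝ)) *
      (fun p => ENNReal.ofReal (wt N w z.1 z.2 p) ^ (1 / 3 : ℝ))) p =
      ‖F p‖ₑ ^ 2 * ENNReal.ofReal (wt N w z.1 z.2 p) := by
    intro p
    simp only [Pi.mul_apply]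
    rw [mul_assoc, ← ENNReal.rpow_add_of_nonneg _ _ (by norm_num) (by norm_num)]
    norm_num
  have e2 : ∀ p : E2 × ℝ, (‖F p‖ₑ ^ 2 * ENNReal.ofReal (wt N w z.1 z.2 p) ^ (2 / 3 : ℝ)) ^ (3 / 2 : ℝ) =
      ‖F p‖ₑ ^ 3 * ENNReal.ofReal (wt N w z.1 z.2 p) := by
    intro p
    rw [ENNReal.mul_rpow_of_nonneg _ _ (by norm_num), ← ENNReal.rpow_natCast, ← ENNReal.rpow_mul,
      ← ENNReal.rpow_mul, ← ENNReal.rpow_natCast]
    norm_num
  have e3 : ∀ p : E2 × ℝ, (ENNReal.ofReal (wt N w z.1 z.2 p) ^ (1 / 3 : ℝ)) ^ (3 : ℝ) =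
      ENNReal.ofReal (wt N w z.1 z.2 p) := by
    intro p
    rw [← ENNReal.rpow_mul]; norm_num
  simp only [e1, e2, e3] at h1
  unfold AA
  set J : ℝ≥0∞ := ∫⁻ p : E2 × ℝ, ‖F p‖ₑ ^ 3 * ENNReal.ofReal (wt N w z.1 z.2 p) with hJ
  calc (ENNReal.ofReal ((w ^ 3)⁻¹) * ∫⁻ p : E2 × ℝ, ‖F p‖ₑ ^ 2 *
        ENNReal.ofReal (wt N w z.1 z.2 p)) ^ (3 / 2 : ℝ)
      ≤ (ENNReal.ofReal ((w ^ 3)⁻¹) * (J ^ (1 / (3 / 2) : ℝ) *
        (ENNReal.ofReal (C * w ^ 3)) ^ (1 / 3 : ℝ))) ^ (3 / 2 : ℝ) := by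
        gcongr
        refine h1.trans ?_
        gcongr
        exact hw4 w hw z
    _ = _ := by
        rw [ENNReal.mul_rpow_of_nonneg _ _ (by norm_num), ENNReal.mul_rpow_of_nonneg _ _ (by norm_num),
          ← ENNReal.rpow_mul, ← ENNReal.rpow_mul, show (1 / (3 / 2) * (3 / 2) : ℝ) = 1 by norm_num,
          ENNReal.rpow_one, show (1 / 3 * (3 / 2) : ℝ) = 1 / 2 by norm_num,
          ENNReal.ofReal_rpow_of_nonneg (by positivity) (by norm_num),
          ENNReal.ofReal_rpow_of_nonneg (by positivity) (by norm_num),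
          mul_comm J, ← mul_assoc, ← ENNReal.ofReal_mul (by positivity)]
        congr 2
        rw [Real.mul_rpow hC (by positivity), ← Real.rpow_natCast, ← Real.rpow_neg hw.le,
          ← Real.rpow_mul hw.le, ← Real.rpow_mul hw.le, mul_left_comm, ← Real.rpow_add hw]
        norm_num

/-- the integral of the averages over a cylinder is bounded by the cubic integral. -/
theorem lint_AA_le {N : ℕ} (hN : 4 ≤ N) : ∃ C : ℝ, 0 ≤ C ∧ ∀ w : ℝ, 0 < w →
    ∀ F : E2 × ℝ → ℂ, Measurable F → ∀ R : ℝ,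
    ∫⁻ z in cyl R, AA N w F z ^ (3 / 2 : ℝ) ≤ ENNReal.ofReal C * ∫⁻ p, ‖F p‖ₑ ^ 3 := by
  obtain ⟨C, hC, h1⟩ := AA_pow_le hN
  obtain ⟨C', hC', h2⟩ := lint_wt_N hN
  refine ⟨C * C', by positivity, fun w hw F hF R => ?_⟩
  have hmeas : Measurable fun q : (E2 × ℝ) × (E2 × ℝ) =>
      ‖F q.2‖ₑ ^ 3 * ENNReal.ofReal (wt N w q.1.1 q.1.2 q.2) := by
    refine Measurable.mul ?_ (Measurable.ennreal_ofReal ?_)
    · exact (hF.comp measurable_snd).enorm.pow_const 3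
    · unfold wt
      fun_prop
  have hswap : ∫⁻ z : E2 × ℝ, ∫⁻ p : E2 × ℝ, ‖F p‖ₑ ^ 3 * ENNReal.ofReal (wt N w z.1 z.2 p) =
      ∫⁻ p : E2 × ℝ, ∫⁻ z : E2 × ℝ, ‖F p‖ₑ ^ 3 * ENNReal.ofReal (wt N w z.1 z.2 p) :=
    lintegral_lintegral_swap (μ := (volume : Measure (E2 × ℝ))) (ν := (volume : Measure (E2 × ℝ)))
      (f := fun z p => ‖F p‖ₑ ^ 3 * ENNReal.ofReal (wt N w z.1 z.2 p)) hmeas.aemeasurable
  have hinner : ∀ p : E2 × ℝ, ∫⁻ z : E2 × ℝ, ‖F p‖ₑ ^ 3 * ENNReal.ofReal (wt N w z.1 z.2 p) ≤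
      ENNReal.ofReal (C' * w ^ 3) * ‖F p‖ₑ ^ 3 := by
    intro p
    have e1 : ∀ z : E2 × ℝ, wt N w z.1 z.2 p = wt N w p.1 p.2 z := fun z => wt_symm N w z p
    simp_rw [e1]
    rw [lintegral_const_mul _ (measurable_wt N w p.1 p.2).ennreal_ofReal, mul_comm]
    exact mul_le_mul_left (h2 w hw p) _
  have hA : ∫⁻ z in cyl R, AA N w F z ^ (3 / 2 : ℝ) ≤ ∫⁻ z : E2 × ℝ,
      ENNReal.ofReal (C * (w ^ 3)⁻¹) *
        ∫⁻ p : E2 × ℝ, ‖F p‖ₑ ^ 3 * ENNReal.ofReal (wt N w z.1 z.2 p) :=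
    (setLIntegral_le_lintegral _ _).trans (lintegral_mono fun z => h1 w hw F hF z)
  refine hA.trans ?_
  rw [lintegral_const_mul' _ _ ENNReal.ofReal_ne_top, hswap]
  refine (mul_le_mul_right (lintegral_mono hinner) _).trans (le_of_eq ?_)
  rw [lintegral_const_mul' _ _ ENNReal.ofReal_ne_top, ← mul_assoc,
    ← ENNReal.ofReal_mul (by positivity)]
  congr 2
  field_simp

theorem wt_far2 {N : ℕ} (hN : 4 ≤ N) {w r : ℝ} (hw : 0 < w) (hr : 0 < r) {z p : E2 × ℝ}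
    (hz : z ∈ cyl r) (hp : p ∉ cyl (2 * r)) :
    wt N w z.1 z.2 p ≤ (w / r) ^ (N - 4) * wt 4 w z.1 z.2 p := by
  obtain ⟨hz1, hz2⟩ := hz
  set a : ℝ := 1 + (‖p.1 - z.1‖ + |p.2 - z.2|) / w with ha
  have h1 : r ≤ ‖p.1 - z.1‖ + |p.2 - z.2| := by
    have hp' : ¬ (‖p.1‖ ≤ 2 * r ∧ |p.2| ≤ 2 * r) := hp
    rw [not_and_or, not_le, not_le] at hp'
    rcases hp' with hp | hp
    · have h2 : ‖p.1‖ ≤ ‖p.1 - z.1‖ + ‖z.1‖ := by
        simpa using norm_add_le (p.1 - z.1) z.1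
      have := abs_nonneg (p.2 - z.2)
      linarith
    · have h2 : |p.2| ≤ |p.2 - z.2| + |z.2| := by
        simpa using abs_add_le (p.2 - z.2) z.2
      have := norm_nonneg (p.1 - z.1)
      linarith
  have h3 : r / w ≤ a := by
    rw [ha]
    have : r / w ≤ (‖p.1 - z.1‖ + |p.2 - z.2|) / w := by gcongr
    linarith
  have ha0 : 0 < a := lt_of_lt_of_le (by positivity) h3
  have h4 : (a ^ (N - 4))⁻¹ ≤ (w / r) ^ (N - 4) := by
    rw [← inv_pow]
    have : a⁻¹ ≤ w / r := by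
      rw [inv_le_comm₀ ha0 (by positivity), inv_div]
      exact h3
    gcongr
  have e1 : wt N w z.1 z.2 p = (a ^ (N - 4))⁻¹ * (a ^ 4)⁻¹ := by
    unfold wt
    rw [← mul_inv, ← pow_add, show N - 4 + 4 = N by omega]
  have e2 : wt 4 w z.1 z.2 p = (a ^ 4)⁻¹ := rfl
  rw [e1, e2]
  gcongr

/-- near and far part of the average. -/
theorem AA_split {N : ℕ} (hN : 4 ≤ N) : ∃ C : ℝ, 0 ≤ C ∧ ∀ (w r S : ℝ), 0 < w → 0 < r →
    0 ≤ S → ∀ F : E2 × ℝ → ℂ, Measurable F → (∀ p, ‖F p‖ ≤ S) →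
    ∀ z ∈ cyl r, AA N w F z ≤ AA N w ((cyl (2 * r)).indicator F) z +
      ENNReal.ofReal (C * (S ^ 2 * (w / r) ^ (N - 4))) := by
  obtain ⟨C, hC, h⟩ := lint_wt
  refine ⟨C, hC, fun w r S hw hr hS F hFm hF z hz => ?_⟩
  have h1 : ∀ p : E2 × ℝ, ‖F p‖ₑ ^ 2 * ENNReal.ofReal (wt N w z.1 z.2 p) ≤
      ‖(cyl (2 * r)).indicator F p‖ₑ ^ 2 * ENNReal.ofReal (wt N w z.1 z.2 p) +
      ENNReal.ofReal (S ^ 2 * (w / r) ^ (N - 4)) * ENNReal.ofReal (wt 4 w z.1 z.2 p) := by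
    intro p
    by_cases hp : p ∈ cyl (2 * r)
    · rw [Set.indicator_of_mem hp]
      exact le_self_add
    · refine le_add_left ?_
      rw [← ofReal_norm, ← ENNReal.ofReal_pow (norm_nonneg _), ← ENNReal.ofReal_mul (by positivity),
        ← ENNReal.ofReal_mul (by positivity)]
      apply ENNReal.ofReal_le_ofReal
      have h2 := hF p
      have h3 : ‖F p‖ ^ 2 ≤ S ^ 2 := by gcongr
      have hw4 := (wt_pos 4 hw z.1 z.2 p).le
      have hwN := (wt_pos N hw z.1 z.2 p).le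
      calc ‖F p‖ ^ 2 * wt N w z.1 z.2 p ≤ S ^ 2 * ((w / r) ^ (N - 4) * wt 4 w z.1 z.2 p) := by
            gcongr
            exact wt_far2 hN hw hr hz hp
        _ = (S ^ 2 * (w / r) ^ (N - 4)) * wt 4 w z.1 z.2 p := by ring
  unfold AA
  calc ENNReal.ofReal ((w ^ 3)⁻¹) * ∫⁻ p : E2 × ℝ, ‖F p‖ₑ ^ 2 * ENNReal.ofReal (wt N w z.1 z.2 p)
      ≤ ENNReal.ofReal ((w ^ 3)⁻¹) * ∫⁻ p : E2 × ℝ,
        (‖(cyl (2 * r)).indicator F p‖ₑ ^ 2 * ENNReal.ofReal (wt N w z.1 z.2 p) +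
        ENNReal.ofReal (S ^ 2 * (w / r) ^ (N - 4)) * ENNReal.ofReal (wt 4 w z.1 z.2 p)) := by
        exact mul_le_mul_right (lintegral_mono h1) _
    _ = ENNReal.ofReal ((w ^ 3)⁻¹) * (∫⁻ p : E2 × ℝ,
        ‖(cyl (2 * r)).indicator F p‖ₑ ^ 2 * ENNReal.ofReal (wt N w z.1 z.2 p)) +
        ENNReal.ofReal ((w ^ 3)⁻¹) * (ENNReal.ofReal (S ^ 2 * (w / r) ^ (N - 4)) *
        ∫⁻ p : E2 × ℝ, ENNReal.ofReal (wt 4 w z.1 z.2 p)) := by
        rw [lintegral_add_right _ ((measurable_wt 4 w z.1 z.2).ennreal_ofReal.const_mul _),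
          lintegral_const_mul _ (measurable_wt 4 w z.1 z.2).ennreal_ofReal, mul_add]
    _ ≤ _ := by
        gcongr
        calc ENNReal.ofReal ((w ^ 3)⁻¹) * (ENNReal.ofReal (S ^ 2 * (w / r) ^ (N - 4)) *
              ∫⁻ p : E2 × ℝ, ENNReal.ofReal (wt 4 w z.1 z.2 p))
            ≤ ENNReal.ofReal ((w ^ 3)⁻¹) * (ENNReal.ofReal (S ^ 2 * (w / r) ^ (N - 4)) *
              ENNReal.ofReal (C * w ^ 3)) := by
              gcongr
              exact h w hw z
          _ = _ := by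
              rw [← ENNReal.ofReal_mul (by positivity), ← ENNReal.ofReal_mul (by positivity)]
              congr 1
              field_simp

/-- **local averages are bounded by the cubic integral over the double cylinder**, up to a tail. -/
theorem lint_AA_split {N : ℕ} (hN : 4 ≤ N) : ∃ C : ℝ, 0 ≤ C ∧ ∀ (w r S : ℝ), 0 < w → 0 < r →
    0 ≤ S → ∀ F : E2 × ℝ → ℂ, Measurable F → (∀ p, ‖F p‖ ≤ S) →
    ∫⁻ z in cyl r, AA N w F z ^ (3 / 2 : ℝ) ≤
      ENNReal.ofReal C * (∫⁻ p in cyl (2 * r), ‖F p‖ₑ ^ 3) +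
      ENNReal.ofReal (C * r ^ 3 * (S ^ 2 * (w / r) ^ (N - 4)) ^ (3 / 2 : ℝ)) := by
  obtain ⟨C1, hC1, h1⟩ := AA_split hN
  obtain ⟨C2, hC2, h2⟩ := lint_AA_le hN
  obtain ⟨C3, hC3, h3⟩ := volume_cyl
  refine ⟨2 * C2 + 2 * C3 * C1 ^ (3 / 2 : ℝ), by positivity, fun w r S hw hr hS F hFm hF => ?_⟩
  set X : ℝ := S ^ 2 * (w / r) ^ (N - 4) with hX
  have hX0 : 0 ≤ X := by positivity
  set F1 : E2 × ℝ → ℂ := (cyl (2 * r)).indicator F with hF1
  have hF1m : Measurable F1 := hFm.indicator (measurableSet_cyl _)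
  have hsub : ∀ a b : ℝ≥0∞, (a + b) ^ (3 / 2 : ℝ) ≤ ENNReal.ofReal 2 * (a ^ (3 / 2 : ℝ) + b ^ (3 / 2 : ℝ)) := by
    intro a b
    refine (ENNReal.rpow_add_le_mul_rpow_add_rpow a b (by norm_num)).trans ?_
    gcongr
    calc (2 : ℝ≥0∞) ^ ((3 / 2 : ℝ) - 1) ≤ 2 ^ (1 : ℝ) :=
          ENNReal.rpow_le_rpow_of_exponent_le (by norm_num) (by norm_num)
      _ = ENNReal.ofReal 2 := by rw [ENNReal.rpow_one]; norm_num
  calc ∫⁻ z in cyl r, AA N w F z ^ (3 / 2 : ℝ)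
      ≤ ∫⁻ z in cyl r, (ENNReal.ofReal 2 * AA N w F1 z ^ (3 / 2 : ℝ) +
        ENNReal.ofReal 2 * ENNReal.ofReal (C1 * X) ^ (3 / 2 : ℝ)) := by
        refine setLIntegral_mono' (measurableSet_cyl r) fun z hz => ?_
        rw [← mul_add]
        exact (ENNReal.rpow_le_rpow (h1 w r S hw hr hS F hFm hF z hz) (by norm_num)).trans (hsub _ _)
    _ = ENNReal.ofReal 2 * (∫⁻ z in cyl r, AA N w F1 z ^ (3 / 2 : ℝ)) +
        ENNReal.ofReal 2 * ENNReal.ofReal (C1 * X) ^ (3 / 2 : ℝ) * volume (cyl r) := by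
        rw [lintegral_add_right _ measurable_const,
          lintegral_const_mul' _ _ ENNReal.ofReal_ne_top, setLIntegral_const]
    _ ≤ ENNReal.ofReal 2 * (ENNReal.ofReal C2 * ∫⁻ p, ‖F1 p‖ₑ ^ 3) +
        ENNReal.ofReal 2 * ENNReal.ofReal (C1 * X) ^ (3 / 2 : ℝ) * ENNReal.ofReal (C3 * r ^ 3) := by
        gcongr
        · exact h2 w hw F1 hF1m r
        · exact h3 r hr.le
    _ ≤ _ := by
        have e1 : ∫⁻ p, ‖F1 p‖ₑ ^ 3 = ∫⁻ p in cyl (2 * r), ‖F p‖ₑ ^ 3 := by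
          rw [← lintegral_indicator (measurableSet_cyl _)]
          refine lintegral_congr fun p => ?_
          rw [hF1]
          by_cases hp : p ∈ cyl (2 * r)
          · rw [Set.indicator_of_mem hp, Set.indicator_of_mem hp]
          · rw [Set.indicator_of_notMem hp, Set.indicator_of_notMem hp]; simp
        rw [e1]
        have hX3 : 0 ≤ X ^ (3 / 2 : ℝ) := by positivity
        have hC13 : 0 ≤ C1 ^ (3 / 2 : ℝ) := by positivity
        gcongr ?_ + ?_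
        · rw [← mul_assoc, ← ENNReal.ofReal_mul (by norm_num)]
          refine mul_le_mul_left (ENNReal.ofReal_le_ofReal ?_) _
          have : 0 ≤ 2 * C3 * C1 ^ (3 / 2 : ℝ) := by positivity
          linarith
        · rw [ENNReal.ofReal_rpow_of_nonneg (by positivity) (by norm_num),
            ← ENNReal.ofReal_mul (by norm_num), ← ENNReal.ofReal_mul (by positivity)]
          apply ENNReal.ofReal_le_ofReal
          rw [Real.mul_rpow hC1 hX0]
          calc 2 * (C1 ^ (3 / 2 : ℝ) * X ^ (3 / 2 : ℝ)) * (C3 * r ^ 3)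
              = (2 * C3 * C1 ^ (3 / 2 : ℝ)) * r ^ 3 * X ^ (3 / 2 : ℝ) := by ring
            _ ≤ _ := by
                gcongr
                linarith

theorem St.one {B : ℕ → ℝ} {q : ℝ} {Na : ℕ} {M0 σ : ℝ} {h : E2 → ℝ} {g : E2 → ℂ} {R D : ℝ}
    (hσ : σ ≤ 1) (H : St B q Na M0 σ h g R D) : St B q Na M0 1 h g R D :=
  ⟨H.par, H.h0, H.h1, H.meas, H.bdd, fun ξ hξ => H.supp ξ (hσ.trans_lt hξ), H.R1, H.D0, H.box, H.nd⟩

/-- the tail is absorbed by the nondegeneracy. -/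
theorem tail_le {C4 R w E D M0 : ℝ} {L : ℕ} (hC4 : 0 ≤ C4) (hR : 1 ≤ R) (hw : 0 < w)
    (hwR : w ≤ R ^ (1 / 2 : ℝ)) (hE : 0 ≤ E) (hD : 0 ≤ D) (hnd : E ≤ R ^ M0 * D)
    (hL : M0 ≤ 2 * (L : ℝ)) :
    R ^ 3 * ((C4 * Real.sqrt E) ^ 2 * (w / R) ^ (2 * L + 12 - 4)) ^ (3 / 2 : ℝ) ≤
      C4 ^ 3 * (R * E * Real.sqrt D) := by
  have hR0 : 0 < R := by linarith
  set ρ : ℝ := (R ^ (L + 4))⁻¹ with hρ
  have hρ0 : 0 < ρ := by positivity
  have hρ1 : ρ ≤ 1 := inv_le_one_of_one_le₀ (one_le_pow₀ hR)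
  have h1 : (w / R) ^ (2 * L + 12 - 4) ≤ ρ := by
    have h2 : (w / R) ^ 2 ≤ R⁻¹ := by
      rw [div_pow, div_le_iff₀ (by positivity)]
      calc w ^ 2 ≤ (R ^ (1 / 2 : ℝ)) ^ 2 := by gcongr
        _ = R := by rw [← Real.rpow_natCast, ← Real.rpow_mul hR0.le]; norm_num
        _ = R⁻¹ * R ^ 2 := by field_simp
    calc (w / R) ^ (2 * L + 12 - 4) = ((w / R) ^ 2) ^ (L + 4) := by
          rw [← pow_mul]; congr 1
      _ ≤ (R⁻¹) ^ (L + 4) := by gcongr
      _ = ρ := by rw [hρ, inv_pow]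
  set a : ℝ := (C4 * Real.sqrt E) ^ 2 * (w / R) ^ (2 * L + 12 - 4) with ha
  have ha0 : 0 ≤ a := by positivity
  have hS2 : (C4 * Real.sqrt E) ^ 2 = C4 ^ 2 * E := by rw [mul_pow, Real.sq_sqrt hE]
  have ha1 : a ≤ C4 ^ 2 * E * ρ := by
    rw [ha, hS2]; gcongr
  have ha2 : Real.sqrt a ≤ C4 * (R ^ L * Real.sqrt D) := by
    have h3 : a ≤ (C4 * Real.sqrt E) ^ 2 := by
      rw [hS2]
      calc a ≤ C4 ^ 2 * E * ρ := ha1
        _ ≤ C4 ^ 2 * E * 1 := by gcongr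
        _ = C4 ^ 2 * E := mul_one _
    have h4 : Real.sqrt E ≤ R ^ L * Real.sqrt D := by
      have h5 : E ≤ (R ^ L) ^ 2 * D := by
        refine hnd.trans ?_
        gcongr
        rw [← pow_mul, ← Real.rpow_natCast]
        exact Real.rpow_le_rpow_of_exponent_le hR (by push_cast; linarith)
      calc Real.sqrt E ≤ Real.sqrt ((R ^ L) ^ 2 * D) := Real.sqrt_le_sqrt h5
        _ = R ^ L * Real.sqrt D := by
          rw [Real.sqrt_mul (by positivity), Real.sqrt_sq (by positivity)]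
    calc Real.sqrt a ≤ Real.sqrt ((C4 * Real.sqrt E) ^ 2) := Real.sqrt_le_sqrt h3
      _ = C4 * Real.sqrt E := Real.sqrt_sq (by positivity)
      _ ≤ _ := by gcongr
  have h32 : a ^ (3 / 2 : ℝ) = a * Real.sqrt a := by
    rcases eq_or_lt_of_le ha0 with h0 | h0
    · rw [← h0]; norm_num
    · rw [show (3 / 2 : ℝ) = 1 + 1 / 2 by norm_num, Real.rpow_add h0, Real.rpow_one,
        Real.sqrt_eq_rpow]
  rw [h32]
  calc R ^ 3 * (a * Real.sqrt a)
      ≤ R ^ 3 * ((C4 ^ 2 * E * ρ) * (C4 * (R ^ L * Real.sqrt D))) := by gcongr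
    _ = C4 ^ 3 * ((R ^ 3 * R ^ L * ρ) * E * Real.sqrt D) := by ring
    _ ≤ C4 ^ 3 * (R * E * Real.sqrt D) := by
        gcongr
        rw [hρ, ← pow_add, ← div_eq_mul_inv, div_le_iff₀ (by positivity)]
        calc R ^ (3 + L) ≤ R ^ (L + 5) := pow_le_pow_right₀ hR (by omega)
          _ = R * R ^ (L + 4) := by ring

/-- **A5b** from the zoom. -/
theorem A5b_of_Zoom {B : ℕ → ℝ} {q : ℝ} (hB : B 2 ≤ 1 / 10) (hZ : ZoomCC B q) : A5b B q := by
  obtain ⟨θ, hθ, hθ1, hZ⟩ := hZ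
  refine ⟨θ, hθ, hθ1, fun ε hε Na M0 => ?_⟩
  obtain ⟨ε', hε', hε'1, hε'2⟩ : ∃ ε' : ℝ, 0 < ε' ∧ ε' ≤ 1 ∧ ε' ≤ ε :=
    ⟨min ε 1, by positivity, min_le_right _ _, min_le_left _ _⟩
  obtain ⟨Na', M0', C2, hC2, h2⟩ := hZ ε' hε' Na M0
  obtain ⟨C0, hC0, hp⟩ := pieces hB Na
  obtain ⟨L, hL⟩ := exists_nat_ge M0
  obtain ⟨C3, hC3, h3⟩ := lint_AA_split (N := 2 * L + 12) (by omega)
  obtain ⟨C4, hC4, h4⟩ := ext_le
  obtain ⟨n, hn⟩ : ∃ n : ℕ, n = (caps (1 / 24)).card := ⟨_, rfl⟩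
  refine ⟨2 * L + 12, Na', M0', C3 * (n ^ 3 * (C2 * C0)) + C3 * C4 ^ 3, by positivity, ?_⟩
  intro h g R D hSt w hw1 hwR Q hQ hhyp
  have hR1 := hSt.R1
  have hR0 : 0 < R := by linarith
  have hw0 : 0 < w := by linarith
  have hEn := En_nn g
  have hD0 := hSt.D0
  have hg1 : Integrable g := memLp_one_iff_integrable.1 (integ hSt.meas hSt.bdd hSt.supp 1)
  obtain ⟨hg, hpc⟩ := hp q M0 h g R D hSt
  -- cubic integral
  have hpiece : ∀ k ∈ caps (1 / 24), CC h (fun ξ => g ξ * capf h (1 / 24) k ξ) (2 * R) ≤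
      ENNReal.ofReal (C2 * R ^ ε' * Q * (C0 * SS g R D)) := by
    intro k _
    obtain ⟨⟨ξ0, hin⟩, hi, hEn⟩ := hpc k
    have e1 := h2 h _ R (C0 * D) 1 ξ0 hin (by
      rw [one_pow, one_mul]
      calc R ^ ε' ≤ R ^ (1 : ℝ) := Real.rpow_le_rpow_of_exponent_le hR1 hε'1
        _ = R := Real.rpow_one R) Q hQ (by
      intro h' g' D' hSt'
      rw [one_pow, one_mul] at hSt' ⊢
      exact hhyp h' g' (θ * R) D' (St.one (by norm_num) hSt') le_rfl
        (mul_le_of_le_one_left hR0.le hθ1))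
    refine e1.trans (ENNReal.ofReal_le_ofReal ?_)
    rw [Real.one_rpow, mul_one]
    have hQ0 : 0 ≤ Q := by linarith
    gcongr
    exact SS_piece hR0.le hEn hSt.D0 hC0
  have hsum := CC_sum (2 * R) hSt.par.1.continuous (caps (1 / 24)) (fun k _ => (hpc k).2.1)
  rw [← hg, ← hn] at hsum
  have hSS := SS_nn (g := g) (D := D) hR0.le
  have hQ0 : 0 ≤ Q := by linarith
  have hCC : CC h g (2 * R) ≤ ENNReal.ofReal (n ^ 3 * (C2 * R ^ ε' * Q * (C0 * SS g R D))) := by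
    calc CC h g (2 * R) ≤ (n : ℝ≥0∞) ^ 2 * ∑ k ∈ caps (1 / 24),
          CC h (fun ξ => g ξ * capf h (1 / 24) k ξ) (2 * R) := hsum
      _ ≤ (n : ℝ≥0∞) ^ 2 * ∑ k ∈ caps (1 / 24), ENNReal.ofReal (C2 * R ^ ε' * Q * (C0 * SS g R D)) := by
          gcongr with k hk
          exact hpiece k hk
      _ = ENNReal.ofReal (n ^ 3 * (C2 * R ^ ε' * Q * (C0 * SS g R D))) := by
          rw [Finset.sum_const, nsmul_eq_mul, ENNReal.ofReal_mul (p := (n : ℝ) ^ 3) (by positivity),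
            ENNReal.ofReal_pow (by positivity), ENNReal.ofReal_natCast, ← hn]
          ring
  -- averages
  have h5 := h3 w R (C4 * Real.sqrt (En g)) hw0 hR0 (by positivity)
    (fun p => ext h g p.1 p.2) (F4x858.continuous_ext hSt.par.1.continuous hg1).measurable
    (fun p => h4 h g hSt.meas hSt.bdd (fun ξ hξ => hSt.supp ξ (by linarith)) p.1 p.2)
  have h6 := tail_le (L := L) hC4 hR1 hw0 hwR hEn hD0 hSt.nd (by
    have : (0:ℝ) ≤ L := Nat.cast_nonneg _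
    linarith)
  have hRe : R ^ ε' ≤ R ^ ε := Real.rpow_le_rpow_of_exponent_le hR1 hε'2
  have hRe1 : 1 ≤ R ^ ε := Real.one_le_rpow hR1 hε.le
  calc NN (2 * L + 12) h g w R
      ≤ ENNReal.ofReal C3 * CC h g (2 * R) + ENNReal.ofReal (C3 * R ^ 3 *
        ((C4 * Real.sqrt (En g)) ^ 2 * (w / R) ^ (2 * L + 12 - 4)) ^ (3 / 2 : ℝ)) := h5
    _ ≤ ENNReal.ofReal C3 * ENNReal.ofReal (n ^ 3 * (C2 * R ^ ε' * Q * (C0 * SS g R D))) +
        ENNReal.ofReal (C3 * (C4 ^ 3 * SS g R D)) := by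
        gcongr ?_ + ?_
        · exact mul_le_mul_right hCC _
        · apply ENNReal.ofReal_le_ofReal
          rw [mul_assoc]
          exact mul_le_mul_of_nonneg_left h6 hC3
    _ = ENNReal.ofReal (C3 * (n ^ 3 * (C2 * R ^ ε' * Q * (C0 * SS g R D))) +
        C3 * (C4 ^ 3 * SS g R D)) := by
        rw [← ENNReal.ofReal_mul hC3, ← ENNReal.ofReal_add (by positivity) (by positivity)]
    _ ≤ _ := by
        apply ENNReal.ofReal_le_ofReal
        have e1 : C3 * (n ^ 3 * (C2 * R ^ ε' * Q * (C0 * SS g R D))) ≤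
            C3 * (n ^ 3 * (C2 * C0)) * R ^ ε * Q * SS g R D := by
          calc C3 * (n ^ 3 * (C2 * R ^ ε' * Q * (C0 * SS g R D)))
              = C3 * (n ^ 3 * (C2 * C0)) * R ^ ε' * Q * SS g R D := by ring
            _ ≤ _ := by gcongr
        have e2 : C3 * (C4 ^ 3 * SS g R D) ≤ C3 * C4 ^ 3 * R ^ ε * Q * SS g R D := by
          have h7 : 1 ≤ R ^ ε * Q := one_le_mul_of_one_le_of_one_le hRe1 hQ
          calc C3 * (C4 ^ 3 * SS g R D) = C3 * C4 ^ 3 * 1 * SS g R D := by ring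
            _ ≤ C3 * C4 ^ 3 * (R ^ ε * Q) * SS g R D := by gcongr
            _ = _ := by ring
        calc _ ≤ C3 * (n ^ 3 * (C2 * C0)) * R ^ ε * Q * SS g R D +
              C3 * C4 ^ 3 * R ^ ε * Q * SS g R D := add_le_add e1 e2
          _ = _ := by ring

end Crest.Agent.R138.T774
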