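import Crest.Agent.R138.Mw4_330
import Crest.Agent.R138.Km_535
import Crest.Agent.R138.Fq7_665

-- ▼ part R138/Mw5_330
section

/-!
# R138 / R139: MIS / ALIGN, wave half, part 5 (helper330): energy of one child plate over the cells,
dilated boxes
-/

set_option autoImplicit false
set_option linter.unusedSectionVars false
set_option linter.unusedVariables false

open MeasureTheory FourierTransform
open scoped ContDiff ENNReal

namespace Crest.Agent.R138.Mis330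

open Crest.Agent.R138.Defs Crest.Agent.R138.Wpk685 Crest.Agent.R138.Loc878
open Crest.Agent.R138.W188 (tr Plate uS Plates)
open Crest.Agent.R138.Ad480
open Crest.Agent.R138.Mis535 (PB)
open Crest.Agent.R138.P654 (an Smis selQ)

/-- the two sines agree. -/
theorem sn_eq (b b' : OrthonormalBasis (Fin 2) ℝ E2) :
    P654.sn b b' = |Mis535.sn (b 0) (b' 0)| := by
  have h0 := Mis535.norm_sq_eq (b' 0)
  have h1 := Mis535.norm_sq_eq (b' 1)
  have h2 : inner ℝ (b' 0) (b' 1) = (0 : ℝ) := b'.orthonormal.2 (by decide)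
  rw [b'.orthonormal.1] at h0 h1
  rw [Mis535.inner_eq] at h2
  unfold P654.sn Mis535.sn
  rw [← sq_eq_sq_iff_abs_eq_abs, Mis535.inner_eq]
  set u0 := (b' 0 : E2) 0
  set u1 := (b' 0 : E2) 1
  set v0 := (b' 1 : E2) 0
  set v1 := (b' 1 : E2) 1
  set a0 := (b 0 : E2) 0
  set a1 := (b 0 : E2) 1
  set L : ℝ := v1 * u0 - v0 * u1 with hL
  have e0 : v0 = -(L * u1) := by
    have : -(L * u1) = v0 * (u0 * u0 + u1 * u1) - u0 * (u0 * v0 + u1 * v1) := by rw [hL]; ring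
    rw [this, h2, ← h0]; ring
  have e1 : v1 = L * u0 := by
    have : L * u0 = v1 * (u0 * u0 + u1 * u1) - u1 * (u0 * v0 + u1 * v1) := by rw [hL]; ring
    rw [this, h2, ← h0]; ring
  have eL : L ^ 2 = 1 := by
    have : L ^ 2 = (u0 * u0 + u1 * u1) * (v0 * v0 + v1 * v1) - (u0 * v0 + u1 * v1) ^ 2 := by
      rw [hL]; ring
    rw [this, h2, ← h0, ← h1]; ring
  rw [e0, e1]
  have : (a0 * -(L * u1) + a1 * (L * u0)) ^ 2 = L ^ 2 * (a0 * u1 - a1 * u0) ^ 2 := by ring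
  rw [this, eL, one_mul]

theorem Smis_eq (δ : ℝ) (b : OrthonormalBasis (Fin 2) ℝ E2) (I1 : Finset ℕ) (P1 : ℕ → Plate)
    [DecidablePred fun a => δ < P654.sn b (P1 a).b] (m : ℤ × ℤ) :
    Smis δ b I1 P1 m = ⋃ a ∈ I1.filter (fun a => δ < P654.sn b (P1 a).b), (P1 a).S m := by
  ext y
  simp only [Smis, selQ, Set.mem_ofPred_eq, Set.mem_iUnion, Finset.mem_filter, exists_prop]
  constructor
  · rintro ⟨i, hi, h1, h2⟩
    exact ⟨i, ⟨hi, h1⟩, h2⟩
  · rintro ⟨i, ⟨hi, h1⟩, h2⟩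
    exact ⟨i, hi, h1, h2⟩

theorem an_facts {r1 dl : ℝ} (hr1 : 1 ≤ r1) (hdl : 0 < dl) (hdl1 : dl ≤ 1) (hr' : 1 ≤ dl * r1) :
    0 < an r1 ∧ an r1 ≤ 1 ∧ an r1 ^ 2 = r1⁻¹ ∧ 0 < an (dl * r1) ∧ an (dl * r1) ≤ 1 ∧
      an (dl * r1) ^ 2 = (dl * r1)⁻¹ ∧ an r1 ≤ an (dl * r1) ∧
      (an (dl * r1) / an r1) ^ 2 = dl⁻¹ := by
  obtain ⟨hρ, hρ1, hρ2⟩ := rp_facts hr1
  obtain ⟨hρ', hρ'1, hρ'2⟩ := rp_facts hr'
  refine ⟨hρ, hρ1, hρ2, hρ', hρ'1, hρ'2, ?_, ?_⟩
  · exact Real.rpow_le_rpow_of_nonpos (by positivity) (by nlinarith) (by norm_num)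
  · have e1 : an r1 ^ 2 = r1⁻¹ := hρ2
    have e2 : an (dl * r1) ^ 2 = (dl * r1)⁻¹ := hρ'2
    rw [div_pow, e1, e2]
    have : 0 < r1 := by linarith
    field_simp

open Classical in
/-- **energy of the misaligned part** of one child plate, over the cells. -/
theorem en_plate_le (B : ℕ → ℝ) (n : ℕ) : ∃ C : ℝ, 0 ≤ C ∧ ∀ h, ParB B h → ∀ (r1 dl : ℝ),
    1 ≤ r1 → 0 < dl → dl ≤ 1 → 1 ≤ dl * r1 → ∀ g : E2 → ℂ, Integrable g →
    ∀ (I1 : Finset ℕ) (P1 : ℕ → Plate) (K : ℝ), (∀ a ∈ I1, ∀ m, MeasurableSet ((P1 a).S m)) →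
    (∀ a ∈ I1, ∀ a' ∈ I1, a ≠ a' → ∀ m, Disjoint ((P1 a).S m) ((P1 a').S m)) →
    (∀ a ∈ I1, ∀ m, ∀ y ∈ (P1 a).S m, ‖y‖ ≤ K) →
    ∀ N : ℕ, K / (an r1 * r1) + 1 ≤ N → ∀ (δ : ℝ) (b : OrthonormalBasis (Fin 2) ℝ E2)
    (z : E2 × ℝ), |z.2| ≤ r1 → ∀ S' : ℤ × ℤ → Set E2,
    (∀ m ∈ caps (an (dl * r1)), MeasurableSet (S' m)) →
    en (an (dl * r1)) (tr h z (sel (an r1) g (Smis δ b I1 P1))) S' ≤ ENNReal.ofReal (C * dl⁻¹) *
      ∑ T ∈ (TI (an r1) N I1).filter (fun T => δ < P654.sn b (P1 T.1).b),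
        wE n (an r1) (an (dl * r1)) S' T.2.1 (vv h (an r1) (an r1 * r1) z T.2) *
          muE (an r1) (an r1 * r1) g P1 T := by
  obtain ⟨C, hC, h1⟩ := en_le_wE B n 1 le_rfl
  refine ⟨C * (1 + 3 / 2) ^ n, by positivity, ?_⟩
  intro h hh r1 dl hr1 hdl hdl1 hr' g hg I1 P1 K hm hd hb N hN δ b z hz S' hS'
  obtain ⟨hρ, hρ1, hρ2, hρ', hρ'1, hρ'2, hρρ, hdiv⟩ := an_facts hr1 hdl hdl1 hr'
  set ρ : ℝ := an r1 with hρdef
  set ρ' : ℝ := an (dl * r1) with hρ'def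
  have hr0 : 0 < r1 := by linarith
  set l : ℝ := ρ * r1 with hl
  have hl0 : 0 < l := by positivity
  have hρl : ρ * l = 1 := by
    have : ρ * l = ρ ^ 2 * r1 := by rw [hl]; ring
    rw [this, hρ2, inv_mul_cancel₀ hr0.ne']
  set Im : Finset ℕ := I1.filter (fun a => δ < P654.sn b (P1 a).b) with hIm
  have hSm : ∀ m, Smis δ b I1 P1 m = ⋃ a ∈ Im, (P1 a).S m := fun m => Smis_eq δ b I1 P1 m
  have hmem : ∀ a ∈ Im, a ∈ I1 := fun a ha => (Finset.mem_filter.1 ha).1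
  have hmeasS : ∀ m, MeasurableSet (Smis δ b I1 P1 m) := by
    intro m
    rw [hSm]
    exact Finset.measurableSet_biUnion _ fun a ha => hm a (hmem a ha) m
  have hBs : Bs ρ (Smis δ b I1 P1) := by
    refine ⟨fun m _ => hmeasS m, fun m _ => ?_⟩
    refine (Metric.isBounded_closedBall (x := (0 : E2)) (r := K)).subset ?_
    intro y hy
    rw [hSm] at hy
    simp only [Set.mem_iUnion, exists_prop] at hy
    obtain ⟨a, ha, hya⟩ := hy
    rw [mem_closedBall_zero_iff]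
    exact hb a (hmem a ha) m y hya
  have hz1 : |z.2| * ρ ^ 2 ≤ 1 := by
    rw [hρ2]
    rw [← div_eq_mul_inv, div_le_one hr0]
    exact hz
  refine (h1 h hh ρ ρ' hρ hρρ hρ1 g hg _ hBs z hz1 S' hS').trans ?_
  rw [hdiv]
  have key : ∑ m ∈ caps ρ, ∫⁻ y in Smis δ b I1 P1 m,
        wE n ρ ρ' S' m (y - z.1 - z.2 • gradient h (cen ρ m)) * ‖um ρ g m y‖ₑ ^ 2 ≤
      ENNReal.ofReal ((1 + 3 / 2) ^ n) *
      ∑ T ∈ (TI ρ N I1).filter (fun T => δ < P654.sn b (P1 T.1).b),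
        wE n ρ ρ' S' T.2.1 (vv h ρ l z T.2) * muE ρ l g P1 T := by
    have e1 : (TI ρ N I1).filter (fun T => δ < P654.sn b (P1 T.1).b) = TI ρ N Im := by
      ext T
      simp only [Finset.mem_filter, mem_TI, hIm]
      tauto
    rw [e1]
    have e2 : ∑ T ∈ TI ρ N Im, wE n ρ ρ' S' T.2.1 (vv h ρ l z T.2) * muE ρ l g P1 T =
        ∑ m ∈ caps ρ, ∑ a ∈ Im, ∑ k ∈ kbox N,
          wE n ρ ρ' S' m (vv h ρ l z (m, k)) * muE ρ l g P1 (a, (m, k)) := by
      unfold TI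
      rw [Finset.sum_product]
      simp_rw [Finset.sum_product]
      rw [Finset.sum_comm]
    rw [e2, Finset.mul_sum]
    refine Finset.sum_le_sum fun m _ => ?_
    rw [hSm, lintegral_biUnion_finset]
    · rw [Finset.mul_sum]
      refine Finset.sum_le_sum fun a ha => ?_
      rw [split_cells hl0 (hm a (hmem a ha) m) (hb a (hmem a ha) m) hN, Finset.mul_sum]
      refine Finset.sum_le_sum fun k _ => ?_
      have hfin : wE n ρ ρ' S' m (vv h ρ l z (m, k)) * muE ρ l g P1 (a, (m, k)) =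
          ∫⁻ y in pc l ((P1 a).S m) k, wE n ρ ρ' S' m (vv h ρ l z (m, k)) * ‖um ρ g m y‖ₑ ^ 2 := by
        rw [lintegral_const_mul _ (um_meas hg m)]
        rfl
      rw [hfin, ← lintegral_const_mul' _ _ ENNReal.ofReal_ne_top]
      refine setLIntegral_mono' (pc_meas (hm a (hmem a ha) m) k) fun y hy => ?_
      rw [← mul_assoc]
      refine mul_le_mul' ?_ le_rfl
      refine wE_shift hρ.le (by norm_num) n S' m ?_
      have hk := kk_dist hl0 y
      have hy2 : kk l y = k := hy.2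
      rw [hy2] at hk
      have e3 : vv h ρ l z (m, k) - (y - z.1 - z.2 • gradient h (cen ρ m)) = -(y - cen l k) := by
        unfold vv
        abel
      rw [e3, norm_neg]
      calc ρ * ‖y - cen l k‖ ≤ ρ * (3 / 2 * l) := mul_le_mul_of_nonneg_left hk hρ.le
        _ = 3 / 2 * (ρ * l) := by ring
        _ = 3 / 2 := by rw [hρl, mul_one]
    · intro a ha a' ha' hne
      exact hd a (hmem a ha) a' (hmem a' ha') hne m
    · exact fun a ha => hm a (hmem a ha) m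
  refine (mul_le_mul' le_rfl key).trans (le_of_eq ?_)
  rw [← mul_assoc, ← ENNReal.ofReal_mul (by positivity)]
  congr 2
  ring



end Crest.Agent.R138.Mis330
end

-- ▼ part R138/MisA_535
section

/-!
# R138 / R139: misaligned plates are negligible, finite counting (helper535)

Weighted tubes `‖x - y i + t c i‖ ≤ w`, `|t| ≤ r`, partitioned into plates of full density.
A family of plates `α` whose tubes belong to plates making an angle at least `δ` with `α` carries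
a small part of the mass, by Kakeya (`KM32`) alone.
-/

set_option autoImplicit false

namespace Crest.Agent.R138.Mis535

open MeasureTheory Crest.Agent.R138.Tub70
open Crest.Agent.R138.Defs (plank)
open scoped ENNReal

section pointwise

variable {ι κ : Type*}

open Classical in
/-- the good part of a misaligned family at one point is a small part of the total. -/
theorem pw_good (I TT J : Finset ι) (pl : ι → κ) (T : ι → Prop) (μ : ι → ℝ) (hμ : ∀ i, 0 ≤ μ i)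
    {K κ' : ℝ} (hκ : 0 ≤ κ')
    (hK0 : 0 ≤ K)
    (hK : ∀ i0 ∈ TT, T i0 → ∑ i ∈ TT with pl i = pl i0, (if T i then μ i else 0) ≤ K)
    (hJ : ∀ i0 ∈ TT, ∀ i ∈ I, pl i = pl i0 → i ∈ J) :
    (∑ i ∈ TT, if T i ∧ κ' ≤ ∑ i' ∈ I with pl i' = pl i, (if T i' then μ i' else 0) then μ i else 0)
      * κ' ≤ K * ∑ i ∈ J, if T i then μ i else 0 := by
  set G : Finset ι := TT.filter (fun i => T i ∧
    κ' ≤ ∑ i' ∈ I with pl i' = pl i, (if T i' then μ i' else 0)) with hG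
  set L : Finset κ := G.image pl with hL
  have h1 : (∑ i ∈ TT, if T i ∧ κ' ≤ ∑ i' ∈ I with pl i' = pl i, (if T i' then μ i' else 0)
      then μ i else 0) = ∑ i ∈ G, μ i := by
    rw [hG, Finset.sum_filter]
  have h2 : ∑ i ∈ G, μ i ≤ L.card * K := by
    apply sum_le_card_mul G L pl μ (fun i hi => Finset.mem_image_of_mem pl hi)
    intro P hP
    obtain ⟨i0, hi0, rfl⟩ := Finset.mem_image.1 hP
    rw [hG, Finset.mem_filter] at hi0
    refine le_trans ?_ (hK i0 hi0.1 hi0.2.1)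
    rw [hG, Finset.filter_filter, Finset.sum_filter, Finset.sum_filter]
    refine Finset.sum_le_sum fun i _ => ?_
    by_cases hp : pl i = pl i0
    · rw [if_pos hp]
      by_cases ht : T i
      · rw [if_pos ht]
        split_ifs
        · exact le_rfl
        · exact hμ i
      · rw [if_neg ht, if_neg (fun h => ht h.1.1)]
    · rw [if_neg hp, if_neg (fun h => hp h.2)]
  have h3 : L.card * κ' ≤ ∑ i ∈ J, if T i then μ i else 0 := by
    have h4 : (L.card : ℝ) * κ' ≤ ∑ P ∈ L, ∑ i' ∈ I with pl i' = P, (if T i' then μ i' else 0) := by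
      rw [← nsmul_eq_mul]
      apply Finset.card_nsmul_le_sum
      intro P hP
      obtain ⟨i0, hi0, rfl⟩ := Finset.mem_image.1 hP
      rw [hG, Finset.mem_filter] at hi0
      exact hi0.2.2
    refine h4.trans ?_
    have h5 : ∑ P ∈ L, ∑ i' ∈ I with pl i' = P, (if T i' then μ i' else 0) =
        ∑ i' ∈ I with pl i' ∈ L, (if T i' then μ i' else 0) := by
      rw [← Finset.sum_fiberwise_of_maps_to (s := I.filter (fun i' => pl i' ∈ L)) (t := L) (g := pl)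
        (fun i hi => (Finset.mem_filter.1 hi).2)]
      refine Finset.sum_congr rfl fun P hP => ?_
      rw [Finset.filter_filter]
      refine Finset.sum_congr ?_ fun _ _ => rfl
      ext i
      simp only [Finset.mem_filter]
      constructor
      · rintro ⟨a, b⟩
        exact ⟨a, b ▸ hP, b⟩
      · rintro ⟨a, _, b⟩
        exact ⟨a, b⟩
    rw [h5]
    apply Finset.sum_le_sum_of_subset_of_nonneg
    · intro i hi
      rw [Finset.mem_filter] at hi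
      obtain ⟨i0, hi0, he⟩ := Finset.mem_image.1 hi.2
      rw [hG, Finset.mem_filter] at hi0
      exact hJ i0 hi0.1 i hi.1 he.symm
    · intro i _ _
      split_ifs
      · exact hμ i
      · exact le_rfl
  rw [h1]
  calc (∑ i ∈ G, μ i) * κ' ≤ (L.card * K) * κ' := mul_le_mul_of_nonneg_right h2 hκ
    _ = K * (L.card * κ') := by ring
    _ ≤ K * _ := mul_le_mul_of_nonneg_left h3 hK0

open Classical in
/-- sum over the families with bounded multiplicity. -/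
theorem sum_mult {α : Type*} (A : Finset α) (TT : α → Finset ι) (J : Finset ι) {mult : ℝ}
    (hsub : ∀ a ∈ A, TT a ⊆ J) (f : ι → ℝ) (hf : ∀ i ∈ J, 0 ≤ f i)
    (hm : ∀ i ∈ J, ((A.filter (fun a => i ∈ TT a)).card : ℝ) ≤ mult) :
    ∑ a ∈ A, ∑ i ∈ TT a, f i ≤ mult * ∑ i ∈ J, f i := by
  have h1 : ∑ a ∈ A, ∑ i ∈ TT a, f i = ∑ i ∈ J, ∑ a ∈ A with i ∈ TT a, f i := by
    have h2 : ∀ a ∈ A, ∑ i ∈ TT a, f i = ∑ i ∈ J, if i ∈ TT a then f i else 0 := by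
      intro a ha
      rw [← Finset.sum_filter]
      congr 1
      ext i
      rw [Finset.mem_filter]
      exact ⟨fun h => ⟨hsub a ha h, h⟩, fun h => h.2⟩
    rw [Finset.sum_congr rfl h2, Finset.sum_comm]
    refine Finset.sum_congr rfl fun i _ => ?_
    rw [Finset.sum_filter]
  rw [h1, Finset.mul_sum]
  refine Finset.sum_le_sum fun i hi => ?_
  rw [Finset.sum_const, nsmul_eq_mul]
  exact mul_le_mul_of_nonneg_right (hm i hi) (hf i hi)

end pointwise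

section geometry

variable {w r : ℝ}

theorem PB.norm_c {b : OrthonormalBasis (Fin 2) ℝ E2} {s1 s2 : ℝ} {c0 y0 c y : E2} (h12 : s1 ≤ s2)
    (h : PB r b s1 s2 c0 y0 c y) : ‖c - c0‖ ≤ 2 * s2 := by
  have h0 : 0 ≤ s1 := (abs_nonneg _).trans h.1
  refine le_of_sq_le_sq ?_ (by linarith)
  have h1 := b.sum_sq_norm_inner_right (c - c0)
  rw [Fin.sum_univ_two] at h1
  have h2 : ‖(inner ℝ (b 0) (c - c0) : ℝ)‖ ≤ s1 := by
    rw [real_inner_comm]; exact h.1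
  have h3 : ‖(inner ℝ (b 1) (c - c0) : ℝ)‖ ≤ s2 := by
    rw [real_inner_comm]; exact h.2.1
  have h4 := norm_nonneg (inner ℝ (b 0) (c - c0) : ℝ)
  have h5 := norm_nonneg (inner ℝ (b 1) (c - c0) : ℝ)
  nlinarith

/-- all tubes of a box stay in a plank. -/
theorem mem_plank {b : OrthonormalBasis (Fin 2) ℝ E2} {s1 s2 : ℝ} {c0 y0 c y : E2} (hr : 0 < r)
    (h1 : w / r ≤ s1) (h2 : w / r ≤ s2) (h : PB r b s1 s2 c0 y0 c y) {p : E2 × ℝ} (hp : |p.2| ≤ r)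
    (hT : InT w c y p) : p ∈ plank c0 b (fun j => 3 * ![s1, s2] j) r y0 0 := by
  have key : ∀ (j : Fin 2) (s : ℝ), w / r ≤ s → |inner ℝ (c - c0) (b j)| ≤ s →
      |inner ℝ (y - y0) (b j)| ≤ s * r →
      |inner ℝ (p.1 - y0 + (p.2 - 0) • c0) (b j)| ≤ 3 * s * r := by
    intro j s hs hc hy
    have e : p.1 - y0 + (p.2 - 0) • c0 = (p.1 - y + p.2 • c) + (y - y0) - p.2 • (c - c0) := by
      rw [sub_zero, smul_sub]; abel
    rw [e, inner_sub_left, inner_add_left, inner_smul_left]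
    simp only [conj_trivial]
    have e1 : |inner ℝ (p.1 - y + p.2 • c) (b j)| ≤ s * r := by
      refine (abs_real_inner_le_norm _ _).trans ?_
      rw [b.orthonormal.1 j, mul_one]
      refine (show ‖p.1 - y + p.2 • c‖ ≤ w from hT).trans ?_
      rw [div_le_iff₀ hr] at hs
      exact hs
    have e2 : |p.2 * inner ℝ (c - c0) (b j)| ≤ s * r := by
      rw [abs_mul, mul_comm s r]
      exact mul_le_mul hp hc (abs_nonneg _) hr.le
    have e3 := abs_sub (inner ℝ (p.1 - y + p.2 • c) (b j) + inner ℝ (y - y0) (b j))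
      (p.2 * inner ℝ (c - c0) (b j))
    have e4 := abs_add_le (inner ℝ (p.1 - y + p.2 • c) (b j)) (inner ℝ (y - y0) (b j))
    linarith
  refine ⟨by simpa using hp, fun j => ?_⟩
  fin_cases j
  · exact key 0 s1 h1 h.1 h.2.2.1
  · exact key 1 s2 h2 h.2.1 h.2.2.2

theorem lint_tube (hr : 0 < r) (hw : 0 < w) {ι : Type} (c y : ι → E2) (μ : ι → ℝ)
    (hμ : ∀ i, 0 ≤ μ i) (J : Finset ι) :
    ∫⁻ p in cy r, ENNReal.ofReal (ef w c y μ J p) =
      ENNReal.ofReal (2 * Real.pi * w ^ 2 * r * ∑ i ∈ J, μ i) := by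
  classical
  simp only [ofReal_ef hμ]
  rw [lintegral_finsetSum]
  · rw [Finset.mul_sum, ENNReal.ofReal_sum_of_nonneg]
    · refine Finset.sum_congr rfl fun i _ => ?_
      have e1 : ∀ p, (if InT w (c i) (y i) p then ENNReal.ofReal (μ i) else 0) =
          {p | InT w (c i) (y i) p}.indicator (fun _ => ENNReal.ofReal (μ i)) p := by
        intro p
        simp only [Set.indicator, Set.mem_ofPred_eq]
      simp only [e1]
      rw [lintegral_indicator (measurableSet_inT _ _ _), lintegral_const,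
        Measure.restrict_restrict (measurableSet_inT _ _ _), Measure.restrict_apply_univ]
      have e2 : {p | InT w (c i) (y i) p} ∩ cy r = NR877.Tube (y i, - c i) w 0 r := by
        ext p
        simp only [Set.mem_inter_iff, Set.mem_ofPred_eq, cy, NR877.Tube, NR877.pos, InT, sub_zero]
        have e3 : p.1 - (y i + p.2 • -c i) = p.1 - y i + p.2 • c i := by
          rw [smul_neg]; abel
        rw [e3]
        exact And.comm
      rw [e2, NR877.volume_tube _ _ _ _ hw.le, mul_comm, ← ENNReal.ofReal_mul (by positivity)]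
    · intro i _
      have := hμ i
      positivity
  · intro i _
    exact Measurable.ite (measurableSet_inT _ _ _) measurable_const measurable_const

/-- a bounded function supported in the plank of a box. -/
theorem lint_low {b : OrthonormalBasis (Fin 2) ℝ E2} {s1 s2 : ℝ} {c0 y0 : E2} (hr : 0 < r)
    (hs1 : 0 ≤ s1) (hs2 : 0 ≤ s2) {β : ℝ} (hβ : 0 ≤ β) (f : E2 × ℝ → ℝ)
    (hf : ∀ p, |p.2| ≤ r → f p ≤ β)
    (hf0 : ∀ p, |p.2| ≤ r → p ∉ plank c0 b (fun j => 3 * ![s1, s2] j) r y0 0 → f p ≤ 0) :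
    ∫⁻ p in cy r, ENNReal.ofReal (f p) ≤ ENNReal.ofReal (β * (72 * (s1 * s2 * r ^ 3))) := by
  have hP : MeasurableSet (plank c0 b (fun j => 3 * ![s1, s2] j) r y0 0) :=
    Fq665.measurableSet_plank _ _ _ _ _ _
  calc ∫⁻ p in cy r, ENNReal.ofReal (f p)
      ≤ ∫⁻ p in cy r, (plank c0 b (fun j => 3 * ![s1, s2] j) r y0 0).indicator
          (fun _ => ENNReal.ofReal β) p := by
        refine setLIntegral_mono' (measurableSet_cy r) fun p hp => ?_
        by_cases h : p ∈ plank c0 b (fun j => 3 * ![s1, s2] j) r y0 0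
        · rw [Set.indicator_of_mem h]
          exact ENNReal.ofReal_le_ofReal (hf p hp)
        · rw [Set.indicator_of_notMem h]
          rw [ENNReal.ofReal_of_nonpos (hf0 p hp h)]
    _ ≤ ∫⁻ p, (plank c0 b (fun j => 3 * ![s1, s2] j) r y0 0).indicator
          (fun _ => ENNReal.ofReal β) p := setLIntegral_le_lintegral _ _
    _ = ENNReal.ofReal β * volume (plank c0 b (fun j => 3 * ![s1, s2] j) r y0 0) := by
        rw [lintegral_indicator hP, lintegral_const, Measure.restrict_apply_univ]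
    _ ≤ ENNReal.ofReal β * ENNReal.ofReal (8 * ((3 * ![s1, s2] 0) * (3 * ![s1, s2] 1) * r ^ 3)) := by
        gcongr
        refine Fq665.vol_plank_le c0 b (fun j => 3 * ![s1, s2] j) (fun j => ?_) hr.le y0 0
        fin_cases j
        · simpa using hs1
        · simpa using hs2
    _ = _ := by
        rw [← ENNReal.ofReal_mul hβ]
        congr 1
        simp only [Matrix.cons_val_zero, Matrix.cons_val_one]
        ring

end geometry

section real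

/-- the final numerology. -/
theorem numer {w r q D m0 κ0 s2 s2' φ0 : ℝ} (hw : 0 < w) (hr : 0 < r) (hD : 0 < D)
    (hm0 : 0 < m0) (hκ0 : 0 < κ0) (hs2 : 0 < s2) (hs2' : 0 < s2') (hφ : 0 < φ0) :
    (Real.sqrt ((Real.pi / 144 * m0 * D * s2' ^ q * w ^ 2) * (κ0 * w ^ 2 * D * s2 ^ q) /
      (2 * (D * (3 * φ0) ^ q * (3 * φ0 * (3 * φ0) * r ^ 2)))))⁻¹ *
        Real.sqrt (25 * D * (8 * max s2 s2') ^ q) * w ≤
      150 * ((m0 * κ0) ^ (-(1/2) : ℝ) * (φ0 * r / w) * (24 * φ0 / min s2 s2') ^ (q / 2)) := by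
  have hmn : 0 < min s2 s2' := lt_min hs2 hs2'
  have hmx : 0 < max s2 s2' := lt_max_of_lt_left hs2
  have hpi := Real.pi_pos
  have h3 : (3 : ℝ) < Real.pi := Real.pi_gt_three
  have p1 : 0 < s2' ^ q := Real.rpow_pos_of_pos hs2' _
  have p2 : 0 < s2 ^ q := Real.rpow_pos_of_pos hs2 _
  have p3 : 0 < (3 * φ0) ^ q := Real.rpow_pos_of_pos (by positivity) _
  have p4 : 0 < (8 * max s2 s2') ^ q := Real.rpow_pos_of_pos (by positivity) _
  have p5 : 0 < (24 * φ0 / min s2 s2') ^ q := Real.rpow_pos_of_pos (by positivity) _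
  set A0 : ℝ := (Real.pi / 144 * m0 * D * s2' ^ q * w ^ 2) * (κ0 * w ^ 2 * D * s2 ^ q) /
      (2 * (D * (3 * φ0) ^ q * (3 * φ0 * (3 * φ0) * r ^ 2))) with hA0
  have pA : 0 < A0 := by positivity
  have key : (8 * max s2 s2') ^ q * (3 * φ0) ^ q = (24 * φ0 / min s2 s2') ^ q * (s2 ^ q * s2' ^ q) := by
    rw [← Real.mul_rpow (by positivity) (by positivity), ← Real.mul_rpow hs2.le hs2'.le,
      ← Real.mul_rpow (by positivity) (by positivity)]
    congr 1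
    have : max s2 s2' * min s2 s2' = s2 * s2' := max_mul_min s2 s2'
    field_simp
    linarith
  refine le_of_sq_le_sq ?_ (by positivity)
  have e1 : ((Real.sqrt A0)⁻¹ * Real.sqrt (25 * D * (8 * max s2 s2') ^ q) * w) ^ 2 =
      25 * D * (8 * max s2 s2') ^ q * w ^ 2 / A0 := by
    rw [mul_pow, mul_pow, inv_pow, Real.sq_sqrt pA.le, Real.sq_sqrt (by positivity)]
    field_simp
  have e2 : (150 * ((m0 * κ0) ^ (-(1/2) : ℝ) * (φ0 * r / w) * (24 * φ0 / min s2 s2') ^ (q / 2))) ^ 2 =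
      22500 * ((m0 * κ0)⁻¹ * (φ0 * r / w) ^ 2 * (24 * φ0 / min s2 s2') ^ q) := by
    have a1 : ((m0 * κ0) ^ (-(1/2) : ℝ)) ^ 2 = (m0 * κ0)⁻¹ := by
      rw [← Real.rpow_natCast, ← Real.rpow_mul (by positivity), ← Real.rpow_neg_one]
      norm_num
    have a2 : ((24 * φ0 / min s2 s2') ^ (q / 2)) ^ 2 = (24 * φ0 / min s2 s2') ^ q := by
      rw [← Real.rpow_natCast, ← Real.rpow_mul (by positivity)]
      congr 1
      push_cast
      ring
    rw [mul_pow, mul_pow, mul_pow, a1, a2]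
    norm_num
  rw [e1, e2, div_le_iff₀ pA]
  have e3 : 22500 * ((m0 * κ0)⁻¹ * (φ0 * r / w) ^ 2 * (24 * φ0 / min s2 s2') ^ q) * A0 =
      (22500 * Real.pi / 2592) * (D * w ^ 2) *
        ((24 * φ0 / min s2 s2') ^ q * (s2 ^ q * s2' ^ q) / (3 * φ0) ^ q) := by
    rw [hA0]
    field_simp
    ring
  rw [e3, ← key]
  have e4 : (8 * max s2 s2') ^ q * (3 * φ0) ^ q / (3 * φ0) ^ q = (8 * max s2 s2') ^ q := by
    field_simp
  rw [e4]
  have h5 : 25 ≤ 22500 * Real.pi / 2592 := by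
    rw [le_div_iff₀ (by norm_num)]; linarith
  calc 25 * D * (8 * max s2 s2') ^ q * w ^ 2 = 25 * (D * w ^ 2 * (8 * max s2 s2') ^ q) := by ring
    _ ≤ (22500 * Real.pi / 2592) * (D * w ^ 2 * (8 * max s2 s2') ^ q) := by
        apply mul_le_mul_of_nonneg_right h5; positivity
    _ = _ := by ring

end real

section pointwise2

variable {ι κ α κ' : Type*}

/-- exchange of the two sums, fractional multiplicity. -/
theorem sum_multw (A : Finset α) (I J : Finset ι) (om : α → ι → ℝ) {mult : ℝ}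
    (hJI : J ⊆ I) (hsub : ∀ a ∈ A, ∀ i ∈ I, om a i ≠ 0 → i ∈ J) (f : ι → ℝ) (hf : ∀ i ∈ J, 0 ≤ f i)
    (hm : ∀ i ∈ J, ∑ a ∈ A, om a i ≤ mult) :
    ∑ a ∈ A, ∑ i ∈ I, om a i * f i ≤ mult * ∑ i ∈ J, f i := by
  have h1 : ∀ a ∈ A, ∑ i ∈ I, om a i * f i = ∑ i ∈ J, om a i * f i := by
    intro a ha
    symm
    apply Finset.sum_subset hJI
    intro i hi hiJ
    have : om a i = 0 := by
      by_contra h
      exact hiJ (hsub a ha i hi h)
    rw [this, zero_mul]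
  rw [Finset.sum_congr rfl h1, Finset.sum_comm, Finset.mul_sum]
  refine Finset.sum_le_sum fun i hi => ?_
  rw [← Finset.sum_mul]
  exact mul_le_mul_of_nonneg_right (hm i hi) (hf i hi)

open Classical in
/-- the total inequality at one point. -/
theorem pw_total (I : Finset ι) (A : Finset α) (om : α → ι → ℝ) (JJ : κ' → Finset ι) (k : α → κ')
    (pl : ι → κ) (T : ι → Prop) (μ : ι → ℝ) (hμ : ∀ i, 0 ≤ μ i) {mult K κ1 β0 : ℝ}
    (h0 : ∀ a i, 0 ≤ om a i) (h1' : ∀ a i, om a i ≤ 1) (hm0 : 0 ≤ mult)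
    (hm : ∀ i ∈ I, ∑ a ∈ A, om a i ≤ mult)
    (hJI : ∀ k, JJ k ⊆ I)
    (hPJ : ∀ a ∈ A, ∀ i0 ∈ I, om a i0 ≠ 0 → ∀ i ∈ I, pl i = pl i0 → i ∈ JJ (k a))
    (hK0 : 0 < K) (hκ : 0 < κ1) (hβ : 0 < β0)
    (KK : Finset κ') (hKK : ∀ a ∈ A, k a ∈ KK)
    (hK : ∀ a ∈ A, ∀ i0 ∈ I, om a i0 ≠ 0 → T i0 →
      ∑ i ∈ (I.filter (fun i => om a i ≠ 0)) with pl i = pl i0, (if T i then μ i else 0) ≤ K) :
    ∑ a ∈ A, ∑ i ∈ I, (if T i then om a i * μ i else 0) ≤
      mult * (Real.sqrt (β0 * κ1 / (2 * K)))⁻¹ *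
        ∑ j ∈ KK, (∑ i ∈ JJ j, if T i then μ i else 0) ^ (3/2 : ℝ) +
      ∑ a ∈ A, (if (∑ i ∈ I, if T i then om a i * μ i else 0) < β0 then
        (∑ i ∈ I, if T i then om a i * μ i else 0) else 0) +
      2 * mult * ∑ P ∈ I.image pl, (if (∑ i ∈ I with pl i = P, if T i then μ i else 0) < κ1 then
        (∑ i ∈ I with pl i = P, if T i then μ i else 0) else 0) := by
  set f : ι → ℝ := fun i => if T i then μ i else 0 with hf
  have hf0 : ∀ i, 0 ≤ f i := fun i => by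
    simp only [hf]; split_ifs
    · exact hμ i
    · exact le_rfl
  have hfo : ∀ a i, (if T i then om a i * μ i else 0) = om a i * f i := by
    intro a i
    simp only [hf]
    split_ifs
    · rfl
    · rw [mul_zero]
  simp only [hfo]
  set A0 : ℝ := β0 * κ1 / (2 * K) with hA0
  have hA0p : 0 < A0 := by positivity
  set E : α → ℝ := fun a => ∑ i ∈ I, om a i * f i with hE
  set th : ι → ℝ := fun i => if (∑ i' ∈ I with pl i' = pl i, f i') < κ1 then f i else 0 with hth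
  have hth0 : ∀ i, 0 ≤ th i := fun i => by
    simp only [hth]; split_ifs
    · exact hf0 i
    · exact le_rfl
  set Tn : α → ℝ := fun a => ∑ i ∈ I, om a i * th i with hTn
  have hE0 : ∀ a, 0 ≤ E a := fun a => Finset.sum_nonneg fun i _ => mul_nonneg (h0 a i) (hf0 i)
  have hTn0 : ∀ a, 0 ≤ Tn a := fun a => Finset.sum_nonneg fun i _ => mul_nonneg (h0 a i) (hth0 i)
  -- step 1: decomposition of every `E a`
  have h1 : ∀ a ∈ A, E a ≤ (if β0 ≤ E a ∧ 2 * Tn a ≤ E a then E a else 0) +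
      (if E a < β0 then E a else 0) + 2 * Tn a := by
    intro a _
    by_cases hb : E a < β0
    · rw [if_pos hb]
      have : 0 ≤ (if β0 ≤ E a ∧ 2 * Tn a ≤ E a then E a else 0) := by
        split_ifs
        · exact hE0 a
        · exact le_rfl
      linarith [hTn0 a]
    · rw [if_neg hb]
      by_cases ht : 2 * Tn a ≤ E a
      · rw [if_pos ⟨not_lt.1 hb, ht⟩]
        linarith [hTn0 a]
      · rw [if_neg (fun h => ht h.2)]
        push Not at ht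
        linarith
  -- step 2: the thin part
  have h2 : ∑ a ∈ A, Tn a ≤ mult * ∑ P ∈ I.image pl,
      (if (∑ i ∈ I with pl i = P, f i) < κ1 then (∑ i ∈ I with pl i = P, f i) else 0) := by
    have h3 := sum_multw A I I om subset_rfl (fun a _ i hi _ => hi) th (fun i _ => hth0 i) hm
    refine h3.trans (mul_le_mul_of_nonneg_left (le_of_eq ?_) hm0)
    rw [← Finset.sum_fiberwise_of_maps_to (s := I) (t := I.image pl) (g := pl)
      (fun i hi => Finset.mem_image_of_mem pl hi)]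
    refine Finset.sum_congr rfl fun P _ => ?_
    simp only [hth]
    split_ifs with hP
    · refine Finset.sum_congr rfl fun i hi => ?_
      rw [(Finset.mem_filter.1 hi).2, if_pos hP]
    · refine Finset.sum_eq_zero fun i hi => ?_
      rw [(Finset.mem_filter.1 hi).2, if_neg hP]
  -- step 3: the rich part
  have h3 : ∑ a ∈ A, (if β0 ≤ E a ∧ 2 * Tn a ≤ E a then E a else 0) ≤
      mult * (Real.sqrt A0)⁻¹ * ∑ j ∈ KK, (∑ i ∈ JJ j, f i) ^ (3/2 : ℝ) := by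
    rw [← Finset.sum_fiberwise_of_maps_to (s := A) (t := KK) (g := k)
      (fun a ha => hKK a ha), Finset.mul_sum]
    refine Finset.sum_le_sum fun j _ => ?_
    set ej : ℝ := ∑ i ∈ JJ j, f i with hej
    have hej0 : 0 ≤ ej := Finset.sum_nonneg fun i _ => hf0 i
    have hTJ : ∀ a ∈ A, k a = j → ∀ i ∈ I, om a i ≠ 0 → i ∈ JJ j := fun a ha hk i hi ho =>
      hk ▸ hPJ a ha i hi ho i hi rfl
    by_cases hA : A0 ≤ ej
    · have h4 : ∑ a ∈ A with k a = j, (if β0 ≤ E a ∧ 2 * Tn a ≤ E a then E a else 0) ≤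
          ∑ a ∈ A with k a = j, E a := by
        refine Finset.sum_le_sum fun a _ => ?_
        split_ifs
        · exact le_rfl
        · exact hE0 a
      have h5 : ∑ a ∈ A with k a = j, E a ≤ mult * ej := by
        apply sum_multw (A.filter (fun a => k a = j)) I (JJ j) om (hJI j)
        · intro a ha
          rw [Finset.mem_filter] at ha
          exact hTJ a ha.1 ha.2
        · exact fun i _ => hf0 i
        · intro i hi
          refine le_trans ?_ (hm i (hJI j hi))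
          exact Finset.sum_le_sum_of_subset_of_nonneg (Finset.filter_subset _ _)
            fun a _ _ => h0 a i
      refine (h4.trans h5).trans ?_
      have hejp : 0 < ej := hA0p.trans_le hA
      have h6 : ej ^ (3/2 : ℝ) = ej * Real.sqrt ej := by
        rw [Real.sqrt_eq_rpow, ← Real.rpow_one_add' hej0 (by norm_num)]
        norm_num
      have h7 : Real.sqrt A0 ≤ Real.sqrt ej := Real.sqrt_le_sqrt hA
      have h8 : 0 < Real.sqrt A0 := Real.sqrt_pos.2 hA0p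
      rw [h6, mul_assoc]
      apply mul_le_mul_of_nonneg_left _ hm0
      rw [le_inv_mul_iff₀ h8, mul_comm (Real.sqrt A0)]
      exact mul_le_mul_of_nonneg_left h7 hej0
    · have h4 : ∑ a ∈ A with k a = j, (if β0 ≤ E a ∧ 2 * Tn a ≤ E a then E a else 0) = 0 := by
        refine Finset.sum_eq_zero fun a ha => ?_
        rw [Finset.mem_filter] at ha
        rw [if_neg]
        rintro ⟨hb1, hb2⟩
        apply hA
        set TTa : Finset ι := I.filter (fun i => om a i ≠ 0) with hTTa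
        have h5 := pw_good I TTa (JJ j) pl T μ hμ (K := K) (κ' := κ1) hκ.le hK0.le
          (fun i0 hi0 hT0 => hK a ha.1 i0 (Finset.mem_filter.1 hi0).1 (Finset.mem_filter.1 hi0).2 hT0)
          (fun i0 hi0 i hi hp => ha.2 ▸ hPJ a ha.1 i0 (Finset.mem_filter.1 hi0).1
            (Finset.mem_filter.1 hi0).2 i hi hp)
        have h6 : E a - Tn a ≤ (∑ i ∈ TTa, if T i ∧ κ1 ≤ ∑ i' ∈ I with pl i' = pl i,
            (if T i' then μ i' else 0) then μ i else 0) := by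
          rw [hE, hTn]
          simp only
          rw [← Finset.sum_sub_distrib, hTTa, Finset.sum_filter]
          refine Finset.sum_le_sum fun i _ => ?_
          by_cases ho : om a i = 0
          · rw [ho, if_neg (fun h => h rfl)]; simp
          · rw [if_pos ho]
            have hr0 : 0 ≤ (if T i ∧ κ1 ≤ ∑ i' ∈ I with pl i' = pl i,
                (if T i' then μ i' else 0) then μ i else 0) := by
              split_ifs
              · exact hμ i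
              · exact le_rfl
            by_cases h1 : T i
            · by_cases h2 : κ1 ≤ ∑ i' ∈ I with pl i' = pl i, (if T i' then μ i' else 0)
              · have e1 : th i = 0 := by
                  simp only [hth]
                  exact if_neg (not_lt.2 h2)
                have e2 : f i = μ i := by
                  simp only [hf]
                  exact if_pos h1
                rw [if_pos ⟨h1, h2⟩, e1, e2, mul_zero, sub_zero]
                exact mul_le_of_le_one_left (hμ i) (h1' a i)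
              · have e1 : th i = f i := by
                  simp only [hth]
                  exact if_pos (not_le.1 h2)
                rw [e1, sub_self]
                exact hr0
            · have e2 : f i = 0 := by
                simp only [hf]
                exact if_neg h1
              have e1 : th i = 0 := by
                simp only [hth]
                split_ifs
                · exact e2
                · rfl
              rw [e1, e2, sub_self]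
              exact hr0
        have h7 : β0 / 2 ≤ E a - Tn a := by linarith
        have h8 : β0 / 2 * κ1 ≤ K * ej :=
          (mul_le_mul_of_nonneg_right (h7.trans h6) hκ.le).trans h5
        rw [hA0, div_le_iff₀ (by positivity)]
        linarith
      rw [h4]
      positivity
  have h4 := Finset.sum_le_sum h1
  rw [Finset.sum_add_distrib, Finset.sum_add_distrib, ← Finset.mul_sum] at h4
  have h5 : 2 * ∑ a ∈ A, Tn a ≤ 2 * mult * ∑ P ∈ I.image pl,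
      (if (∑ i ∈ I with pl i = P, f i) < κ1 then (∑ i ∈ I with pl i = P, f i) else 0) := by
    rw [mul_assoc]
    exact mul_le_mul_of_nonneg_left h2 (by norm_num)
  linarith

end pointwise2

open Classical in
/-- number of lattice caps near a point. -/
theorem card_lat {s : ℝ} (hs : 0 < s) (K : Finset (ℤ × ℤ)) (c : E2) :
    ((K.filter (fun k => ‖c - Lat s k‖ ≤ 8 * s)).card : ℝ) ≤ 361 := by
  have h1 : (K.filter (fun k => ‖c - Lat s k‖ ≤ 8 * s)).card ≤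
      (Finset.Icc (-9 : ℤ) 9 ×ˢ Finset.Icc (-9 : ℤ) 9).card := by
    apply Finset.card_le_card_of_injOn (fun k => k - nr s c)
    · intro k hk
      rw [Finset.coe_filter, Set.mem_ofPred_eq] at hk
      have h2 : ‖Lat s (k - nr s c)‖ ≤ 9 * s := by
        rw [Lat_sub]
        have e : Lat s k - Lat s (nr s c) = (c - Lat s (nr s c)) - (c - Lat s k) := by abel
        rw [e]
        have := norm_sub_le (c - Lat s (nr s c)) (c - Lat s k)
        have := norm_sub_nr hs c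
        linarith [hk.2]
      have h3 : ∀ j : Fin 2, |Lat s (k - nr s c) j| ≤ 9 * s := fun j =>
        (PiLp.norm_apply_le (Lat s (k - nr s c)) j).trans h2
      have h4 := h3 0
      have h5 := h3 1
      rw [Lat_zero_coord, abs_mul, abs_of_pos hs, mul_comm, mul_le_mul_iff_left₀ hs] at h4
      rw [Lat_one_coord, abs_mul, abs_of_pos hs, mul_comm, mul_le_mul_iff_left₀ hs] at h5
      rw [abs_le] at h4 h5
      simp only [Finset.coe_product, Finset.coe_Icc, Set.mem_prod, Set.mem_Icc]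
      refine ⟨⟨?_, ?_⟩, ?_, ?_⟩
      · exact_mod_cast h4.1
      · exact_mod_cast h4.2
      · exact_mod_cast h5.1
      · exact_mod_cast h5.2
    · intro a _ b _ hab
      simpa using hab
  have h2 : (Finset.Icc (-9 : ℤ) 9 ×ˢ Finset.Icc (-9 : ℤ) 9).card = 361 := by
    rw [Finset.card_product, Int.card_Icc]
    rfl
  rw [h2] at h1
  exact_mod_cast h1

end Crest.Agent.R138.Mis535
end

-- ▼ part R138/Mis_535
section

/-!
# R138 / R139: misaligned plates are negligible, main statement (helper535)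
-/

set_option autoImplicit false

namespace Crest.Agent.R138.Mis535

open MeasureTheory Crest.Agent.R138.Tub70
open Crest.Agent.R138.Defs (plank)
open scoped ENNReal

theorem sn_comm (e e' : E2) : sn e e' = - sn e' e := by
  unfold sn; ring


set_option maxHeartbeats 2000000 in
open Classical in
/-- **misaligned plates are negligible** (finite form). -/
theorem mis_frac0 {V : ℝ} (hKM : KM32 V) (ε : ℝ) (hε : 0 < ε) : ∃ C : ℝ, 0 ≤ C ∧
    ∀ (w r q D : ℝ), 0 < w → w ≤ r → 0 ≤ q → 0 < D →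
    ∀ (ι κ α : Type) (I : Finset ι) (c y : ι → E2) (μ : ι → ℝ), (∀ i, 0 ≤ μ i) →
      (∀ i ∈ I, ‖c i‖ ≤ V) → (∀ i ∈ I, ‖y i‖ ≤ V * r) →
      (∀ (b : OrthonormalBasis (Fin 2) ℝ E2) (s1 s2 : ℝ) (c0 y0 : E2),
        w / r ≤ s1 → s1 ≤ 1 → w / r ≤ s2 → s2 ≤ 1 →
          ∑ i ∈ I with PB r b s1 s2 c0 y0 (c i) (y i), μ i ≤
            D * (max s1 s2) ^ q * (s1 * s2 * r ^ 2)) →
    ∀ (pl : ι → κ) (bP : κ → OrthonormalBasis (Fin 2) ℝ E2) (cP yP : κ → E2) (s1 s2 c0 : ℝ),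
      w / r ≤ s1 → s1 ≤ s2 → 0 < c0 →
      (∀ i ∈ I, PB r (bP (pl i)) s1 s2 (cP (pl i)) (yP (pl i)) (c i) (y i)) →
      (∀ i ∈ I, c0 * D * s2 ^ q * (s1 * s2 * r ^ 2) ≤ ∑ i' ∈ I with pl i' = pl i, μ i') →
    ∀ (A : Finset α) (om : α → ι → ℝ) (bA : α → OrthonormalBasis (Fin 2) ℝ E2)
      (cA yA : α → E2) (s1' s2' m0 δ mult φ0 : ℝ),
      w / r ≤ s1' → s1' ≤ s2' → 0 < m0 → 0 < δ → δ ≤ 1 → 0 ≤ mult →
      (∀ a i, 0 ≤ om a i) → (∀ a i, om a i ≤ 1) →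
      (∀ a ∈ A, ∀ i ∈ I, om a i ≠ 0 → PB r (bA a) s1' s2' (cA a) (yA a) (c i) (y i)) →
      (∀ a ∈ A, ∀ i ∈ I, om a i ≠ 0 → δ ≤ |sn (bA a 0) (bP (pl i) 0)|) →
      (∀ a ∈ A, m0 * D * s2' ^ q * (s1' * s2' * r ^ 2) ≤ ∑ i ∈ I, om a i * μ i) →
      (∀ i ∈ I, ∑ a ∈ A, om a i ≤ mult) →
      φ0 = 2 * (s1 + s1') / δ → 3 * φ0 ≤ 1 →
    ∀ κ0 : ℝ, 0 < κ0 →
      ∑ a ∈ A, ∑ i ∈ I, om a i * μ i ≤ C * mult *
        ((w / r) ^ (-ε) * (m0 * κ0) ^ (-(1/2) : ℝ) * (φ0 * r / w) *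
          (24 * φ0 / min s2 s2') ^ (q / 2) + κ0 / c0) * ∑ i ∈ I, μ i := by
  obtain ⟨C1, hC1, hkm⟩ := km_fin hKM ε hε
  refine ⟨C1 * 54150 + 144, by positivity, ?_⟩
  intro w r q D hw hwr hq hD ι κ α I c y μ hμ hc hy hdm pl bP cP yP s1 s2 c0 hs1 hs12 hc0 hPB
    hdens A om bA cA yA s1' s2' m0 δ mult φ0 hs1' hs12' hm0 hδ hδ1 hmult hom0 hom1 hPBA hmis hmass
    hm hφ hφ1 κ0 hκ0
  set μo : α → ι → ℝ := fun a i => om a i * μ i with hμod
  have hμo : ∀ a i, 0 ≤ μo a i := fun a i => mul_nonneg (hom0 a i) (hμ i)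
  have hr : 0 < r := hw.trans_le hwr
  have hθ : 0 < w / r := by positivity
  have ps1 : 0 < s1 := hθ.trans_le hs1
  have ps2 : 0 < s2 := ps1.trans_le hs12
  have ps1' : 0 < s1' := hθ.trans_le hs1'
  have ps2' : 0 < s2' := ps1'.trans_le hs12'
  have pφ : 0 < φ0 := by rw [hφ]; positivity
  have hφθ : w / r ≤ φ0 := by
    rw [hφ, le_div_iff₀ hδ]
    nlinarith
  have hpi := Real.pi_pos
  set s : ℝ := max s2 s2' with hs
  have ps : 0 < s := lt_max_of_lt_left ps2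
  have hs2s : s2 ≤ s := le_max_left _ _
  have hs2s' : s2' ≤ s := le_max_right _ _
  set k : α → ℤ × ℤ := fun a => nr s (cA a) with hk
  set JJ : ℤ × ℤ → Finset ι := fun k => I.filter (fun i => ‖c i - Lat s k‖ ≤ 8 * s) with hJJ
  set K : ℝ := D * (3 * φ0) ^ q * (3 * φ0 * (3 * φ0) * r ^ 2) with hKdef
  have p3 : 0 < (3 * φ0) ^ q := Real.rpow_pos_of_pos (by positivity) _
  have p1 : 0 < s2' ^ q := Real.rpow_pos_of_pos ps2' _
  have p2 : 0 < s2 ^ q := Real.rpow_pos_of_pos ps2 _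
  have hK0 : 0 < K := by positivity
  set β0 : ℝ := Real.pi / 144 * m0 * D * s2' ^ q * w ^ 2 with hβ0
  have pβ : 0 < β0 := by positivity
  set κ1 : ℝ := κ0 * w ^ 2 * D * s2 ^ q with hκ1
  have pκ1 : 0 < κ1 := by positivity
  have hJI : ∀ k, JJ k ⊆ I := fun k => Finset.filter_subset _ _
  have hPJ : ∀ a ∈ A, ∀ i0 ∈ I, om a i0 ≠ 0 → ∀ i ∈ I, pl i = pl i0 → i ∈ JJ (k a) := by
    intro a ha i0 hi0 ho0 i hi hp
    rw [hJJ, Finset.mem_filter]
    refine ⟨hi, ?_⟩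
    have n1 := (hPB i hi).norm_c hs12
    have n2 := (hPB i0 hi0).norm_c hs12
    have n3 := (hPBA a ha i0 hi0 ho0).norm_c hs12'
    have n4 := norm_sub_nr ps (cA a)
    rw [hp] at n1
    have e : c i - Lat s (k a) = (c i - cP (pl i0)) - (c i0 - cP (pl i0)) + (c i0 - cA a) +
        (cA a - Lat s (nr s (cA a))) := by
      rw [hk]; abel
    rw [e]
    have t1 := norm_add_le ((c i - cP (pl i0)) - (c i0 - cP (pl i0)) + (c i0 - cA a))
      (cA a - Lat s (nr s (cA a)))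
    have t2 := norm_add_le ((c i - cP (pl i0)) - (c i0 - cP (pl i0))) (c i0 - cA a)
    have t3 := norm_sub_le (c i - cP (pl i0)) (c i0 - cP (pl i0))
    linarith
  -- the bound `K`
  have hKb : ∀ p : E2 × ℝ, p ∈ cy r → ∀ a ∈ A, ∀ i0 ∈ I, om a i0 ≠ 0 → InT w (c i0) (y i0) p →
      ∑ i ∈ (I.filter (fun i => om a i ≠ 0)) with pl i = pl i0,
        (if InT w (c i) (y i) p then μ i else 0) ≤ K := by
    intro p hp a ha i0 hi0I ho0 hT0
    refine le_trans ?_ (hdm (bA a) (3 * φ0) (3 * φ0) (c i0) (y i0) (by linarith) hφ1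
      (by linarith) hφ1 |>.trans (le_of_eq (by rw [max_self])))
    rw [← Finset.sum_filter]
    apply Finset.sum_le_sum_of_subset_of_nonneg
    · intro i hi
      rw [Finset.mem_filter, Finset.mem_filter] at hi
      obtain ⟨⟨hi1, hpl⟩, hT⟩ := hi
      rw [Finset.mem_filter] at hi1
      obtain ⟨hiI, ho⟩ := hi1
      rw [Finset.mem_filter]
      refine ⟨hiI, ?_⟩
      have q1 := hPB i hiI
      have q2 := hPB i0 hi0I
      rw [hpl] at q1
      have q3 := hPBA a ha i hiI ho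
      have q4 := hPBA a ha i0 hi0I ho0
      have dif : ∀ (u v x e : E2) (σ : ℝ), |inner ℝ (u - x) e| ≤ σ → |inner ℝ (v - x) e| ≤ σ →
          |inner ℝ (u - v) e| ≤ 2 * σ := by
        intro u v x e σ h1 h2
        have e1 : u - v = (u - x) - (v - x) := by abel
        rw [e1, inner_sub_left]
        have := abs_sub (inner ℝ (u - x) e) (inner ℝ (v - x) e)
        linarith
      have m1 := dif _ _ _ _ _ q1.1 q2.1
      have m2 := dif _ _ _ _ _ q3.1 q4.1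
      have m3 := sn_norm_le (u := c i - c i0) ((bA a).orthonormal.1 0)
        ((bP (pl i0)).orthonormal.1 0)
      have m4 := hmis a ha i0 hi0I ho0
      have m5 : ‖c i - c i0‖ ≤ φ0 := by
        rw [hφ, le_div_iff₀ hδ]
        have := mul_le_mul_of_nonneg_right m4 (norm_nonneg (c i - c i0))
        linarith
      have m6 : ‖y i - y i0‖ ≤ 3 * φ0 * r := by
        have e1 : y i - y i0 = (p.1 - y i0 + p.2 • c i0) - (p.1 - y i + p.2 • c i) +
            p.2 • (c i - c i0) := by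
          rw [smul_sub]; abel
        rw [e1]
        have t1 := norm_add_le ((p.1 - y i0 + p.2 • c i0) - (p.1 - y i + p.2 • c i))
          (p.2 • (c i - c i0))
        have t2 := norm_sub_le (p.1 - y i0 + p.2 • c i0) (p.1 - y i + p.2 • c i)
        have t3 : ‖p.1 - y i0 + p.2 • c i0‖ ≤ w := hT0
        have t4 : ‖p.1 - y i + p.2 • c i‖ ≤ w := hT
        have t5 : ‖p.2 • (c i - c i0)‖ ≤ r * φ0 := by
          rw [norm_smul]
          exact mul_le_mul hp m5 (norm_nonneg _) hr.le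
        have t6 : w ≤ φ0 * r := by rwa [div_le_iff₀ hr] at hφθ
        nlinarith
      have cs : ∀ (u : E2) (j : Fin 2), |inner ℝ u (bA a j)| ≤ ‖u‖ := by
        intro u j
        refine (abs_real_inner_le_norm _ _).trans ?_
        rw [(bA a).orthonormal.1 j, mul_one]
      exact ⟨(cs _ _).trans (by linarith), (cs _ _).trans (by linarith), (cs _ _).trans m6,
        (cs _ _).trans m6⟩
    · intro i _ _
      exact hμ i
  -- pointwise inequality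
  set A0 : ℝ := β0 * κ1 / (2 * K) with hA0
  have pA0 : 0 < A0 := by positivity
  set Cx : ℝ := mult * (Real.sqrt A0)⁻¹ with hCx
  have hCx0 : 0 ≤ Cx := by positivity
  have hpw : ∀ p ∈ cy r, ∑ a ∈ A, ef w c y (μo a) I p ≤
      Cx * ∑ j ∈ A.image k, (ef w c y μ (JJ j) p) ^ (3/2 : ℝ) +
      ∑ a ∈ A, (if ef w c y (μo a) I p < β0 then ef w c y (μo a) I p else 0) +
      2 * mult * ∑ P ∈ I.image pl, (if ef w c y μ (I.filter (fun i => pl i = P)) p < κ1 then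
        ef w c y μ (I.filter (fun i => pl i = P)) p else 0) := by
    intro p hp
    exact pw_total I A om JJ k pl (fun i => InT w (c i) (y i) p) μ hμ hom0 hom1 hmult hm hJI hPJ
      hK0 pκ1 pβ (A.image k) (fun a ha => Finset.mem_image_of_mem k ha) (hKb p hp)
  set Ma : ℝ := ∑ a ∈ A, ∑ i ∈ I, μo a i with hMa
  set m : ℝ := ∑ i ∈ I, μ i with hmdef
  have hm_nn : 0 ≤ m := Finset.sum_nonneg fun i _ => hμ i
  have hMa_nn : 0 ≤ Ma := Finset.sum_nonneg fun a _ => Finset.sum_nonneg fun i _ => hμo a i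
  -- left side
  have hL : ∫⁻ p in cy r, ENNReal.ofReal (∑ a ∈ A, ef w c y (μo a) I p) =
      ENNReal.ofReal (2 * Real.pi * w ^ 2 * r * Ma) := by
    have e1 : ∀ p, ENNReal.ofReal (∑ a ∈ A, ef w c y (μo a) I p) =
        ∑ a ∈ A, ENNReal.ofReal (ef w c y (μo a) I p) := fun p =>
      ENNReal.ofReal_sum_of_nonneg fun a _ => ef_nonneg (hμo a) _ _
    simp only [e1]
    rw [lintegral_finsetSum _ fun a _ => (measurable_ef I).ennreal_ofReal]
    have e2 : ∀ a, ∫⁻ p in cy r, ENNReal.ofReal (ef w c y (μo a) I p) =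
        ENNReal.ofReal (2 * Real.pi * w ^ 2 * r * ∑ i ∈ I, μo a i) := fun a =>
      lint_tube hr hw c y (μo a) (hμo a) I
    simp only [e2]
    rw [hMa, Finset.mul_sum, ENNReal.ofReal_sum_of_nonneg]
    intro a _
    have : 0 ≤ ∑ i ∈ I, μo a i := Finset.sum_nonneg fun i _ => hμo a i
    positivity
  -- first term
  have hR1 : ∫⁻ p in cy r, ENNReal.ofReal
      (Cx * ∑ j ∈ A.image k, (ef w c y μ (JJ j) p) ^ (3/2 : ℝ)) ≤
      ENNReal.ofReal (Cx * (C1 * (w / r) ^ (-ε) * Real.sqrt (25 * D * (8 * s) ^ q) *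
        (w ^ 3 * r * (361 * m)))) := by
    have e1 : ∀ p, ENNReal.ofReal (Cx * ∑ j ∈ A.image k, (ef w c y μ (JJ j) p) ^ (3/2 : ℝ)) =
        ENNReal.ofReal Cx * ∑ j ∈ A.image k, ENNReal.ofReal (ef w c y μ (JJ j) p) ^ (3/2 : ℝ) := by
      intro p
      rw [ENNReal.ofReal_mul hCx0, ENNReal.ofReal_sum_of_nonneg]
      · congr 1
        refine Finset.sum_congr rfl fun j _ => ?_
        rw [ENNReal.ofReal_rpow_of_nonneg (ef_nonneg hμ _ _) (by norm_num)]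
      · intro j _
        exact Real.rpow_nonneg (ef_nonneg hμ _ _) _
    simp only [e1]
    rw [lintegral_const_mul' _ _ ENNReal.ofReal_ne_top, lintegral_finsetSum _ fun j _ =>
      (measurable_ef (JJ j)).ennreal_ofReal.pow_const _, ENNReal.ofReal_mul hCx0]
    gcongr
    have hΔ0 : 0 ≤ 25 * D * (8 * s) ^ q := by positivity
    have h1 : ∀ j ∈ A.image k, ∫⁻ p in cy r, ENNReal.ofReal (ef w c y μ (JJ j) p) ^ (3/2 : ℝ) ≤
        ENNReal.ofReal (C1 * (w / r) ^ (-ε) * Real.sqrt (25 * D * (8 * s) ^ q) *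
          (w ^ 3 * r * ∑ i ∈ JJ j, μ i)) := by
      intro j _
      apply hkm w r hw hwr ι (JJ j) c y μ hμ (fun i hi => hy i (hJI j hi))
        (fun i hi => hc i (hJI j hi)) _ hΔ0
      intro b σ1 σ2 cc yy h1 h2 h3 h4
      have hs8 : w / r ≤ 8 * s := by linarith
      exact cap_dmax hw hr hq hD.le I c y μ hμ hdm (Lat s j) (8 * s) hs8 b σ1 σ2 cc yy h1 h2 h3 h4
    refine (Finset.sum_le_sum h1).trans ?_
    rw [← ENNReal.ofReal_sum_of_nonneg]
    · apply ENNReal.ofReal_le_ofReal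
      rw [← Finset.mul_sum, ← Finset.mul_sum]
      have h2 : ∑ j ∈ A.image k, ∑ i ∈ JJ j, μ i ≤ 361 * m := by
        apply sum_mult (A.image k) JJ I (fun j _ => hJI j) μ (fun i _ => hμ i)
        intro i hi
        refine le_trans ?_ (card_lat ps (A.image k) (c i))
        exact_mod_cast Finset.card_le_card (fun j hj => by
          rw [Finset.mem_filter] at hj ⊢
          exact ⟨hj.1, (Finset.mem_filter.1 hj.2).2⟩)
      have : 0 ≤ (w / r) ^ (-ε) := Real.rpow_nonneg hθ.le _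
      gcongr
    · intro j _
      have : 0 ≤ ∑ i ∈ JJ j, μ i := Finset.sum_nonneg fun i _ => hμ i
      have : 0 ≤ (w / r) ^ (-ε) := Real.rpow_nonneg hθ.le _
      positivity
  -- second term
  have hR2 : ∫⁻ p in cy r, ENNReal.ofReal
      (∑ a ∈ A, (if ef w c y (μo a) I p < β0 then ef w c y (μo a) I p else 0)) ≤
      ENNReal.ofReal (Real.pi / 2 * w ^ 2 * r * Ma) := by
    have e1 : ∀ p, ENNReal.ofReal
        (∑ a ∈ A, (if ef w c y (μo a) I p < β0 then ef w c y (μo a) I p else 0)) =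
        ∑ a ∈ A, ENNReal.ofReal (if ef w c y (μo a) I p < β0 then ef w c y (μo a) I p else 0) :=
      fun p => ENNReal.ofReal_sum_of_nonneg fun a _ => by
        split_ifs
        · exact ef_nonneg (hμo a) _ _
        · exact le_rfl
    simp only [e1]
    rw [lintegral_finsetSum _ fun a _ => (Measurable.ite
      (measurableSet_lt (measurable_ef I) measurable_const) (measurable_ef I)
      measurable_const).ennreal_ofReal]
    have h1 : ∀ a ∈ A, ∫⁻ p in cy r, ENNReal.ofReal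
        (if ef w c y (μo a) I p < β0 then ef w c y (μo a) I p else 0) ≤
        ENNReal.ofReal (Real.pi / 2 * w ^ 2 * r * ∑ i ∈ I, μo a i) := by
      intro a ha
      refine (lint_low (b := bA a) (c0 := cA a) (y0 := yA a) hr ps1'.le ps2'.le pβ.le _
        (fun p _ => ?_) (fun p hp hnp => ?_)).trans ?_
      · split_ifs with h
        · exact h.le
        · exact pβ.le
      · have h0 : ef w c y (μo a) I p = 0 := by
          unfold ef
          refine Finset.sum_eq_zero fun i hi => ?_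
          split_ifs with hT
          · by_contra hne
            have ho : om a i ≠ 0 := fun h => hne (by rw [hμod]; simp only [h, zero_mul])
            exact hnp (mem_plank hr hs1' (hs1'.trans hs12') (hPBA a ha i hi ho) hp hT)
          · rfl
        simp [h0]
      · apply ENNReal.ofReal_le_ofReal
        have h2 := hmass a ha
        calc β0 * (72 * (s1' * s2' * r ^ 3)) = Real.pi / 2 * w ^ 2 * r *
              (m0 * D * s2' ^ q * (s1' * s2' * r ^ 2)) := by rw [hβ0]; ring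
          _ ≤ _ := by gcongr
    refine (Finset.sum_le_sum h1).trans ?_
    rw [← ENNReal.ofReal_sum_of_nonneg]
    · rw [← Finset.mul_sum]
    · intro a _
      have : 0 ≤ ∑ i ∈ I, μo a i := Finset.sum_nonneg fun i _ => hμo a i
      positivity
  -- third term
  have hR3 : ∫⁻ p in cy r, ENNReal.ofReal
      (2 * mult * ∑ P ∈ I.image pl, (if ef w c y μ (I.filter (fun i => pl i = P)) p < κ1 then
        ef w c y μ (I.filter (fun i => pl i = P)) p else 0)) ≤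
      ENNReal.ofReal (144 * mult * κ0 * w ^ 2 * r * m / c0) := by
    have e1 : ∀ p, ENNReal.ofReal
        (2 * mult * ∑ P ∈ I.image pl, (if ef w c y μ (I.filter (fun i => pl i = P)) p < κ1 then
          ef w c y μ (I.filter (fun i => pl i = P)) p else 0)) =
        ENNReal.ofReal (2 * mult) * ∑ P ∈ I.image pl, ENNReal.ofReal
          (if ef w c y μ (I.filter (fun i => pl i = P)) p < κ1 then
          ef w c y μ (I.filter (fun i => pl i = P)) p else 0) := by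
      intro p
      rw [ENNReal.ofReal_mul (by positivity), ENNReal.ofReal_sum_of_nonneg]
      intro P _
      split_ifs
      · exact ef_nonneg hμ _ _
      · exact le_rfl
    simp only [e1]
    rw [lintegral_const_mul' _ _ ENNReal.ofReal_ne_top, lintegral_finsetSum _ fun P _ =>
      (Measurable.ite (measurableSet_lt (measurable_ef _) measurable_const) (measurable_ef _)
      measurable_const).ennreal_ofReal]
    have h1 : ∀ P ∈ I.image pl, ∫⁻ p in cy r, ENNReal.ofReal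
        (if ef w c y μ (I.filter (fun i => pl i = P)) p < κ1 then
          ef w c y μ (I.filter (fun i => pl i = P)) p else 0) ≤
        ENNReal.ofReal (κ1 * (72 * (s1 * s2 * r ^ 3))) := by
      intro P _
      refine lint_low (b := bP P) (c0 := cP P) (y0 := yP P) hr ps1.le ps2.le pκ1.le _
        (fun p _ => ?_) (fun p hp hnp => ?_)
      · split_ifs with h
        · exact h.le
        · exact pκ1.le
      · have h0 : ef w c y μ (I.filter (fun i => pl i = P)) p = 0 := by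
          unfold ef
          refine Finset.sum_eq_zero fun i hi => ?_
          rw [if_neg]
          intro hT
          rw [Finset.mem_filter] at hi
          have h2 := hPB i hi.1
          rw [hi.2] at h2
          exact hnp (mem_plank hr hs1 (hs1.trans hs12) h2 hp hT)
        simp [h0]
    refine (mul_le_mul_right (Finset.sum_le_sum h1) _).trans ?_
    rw [Finset.sum_const, nsmul_eq_mul, ← ENNReal.ofReal_natCast, ← ENNReal.ofReal_mul
      (Nat.cast_nonneg _), ← ENNReal.ofReal_mul (by positivity)]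
    apply ENNReal.ofReal_le_ofReal
    -- number of labels
    have h2 : ((I.image pl).card : ℝ) * (c0 * D * s2 ^ q * (s1 * s2 * r ^ 2)) ≤ m := by
      rw [hmdef, ← Finset.sum_fiberwise_of_maps_to (s := I) (t := I.image pl) (g := pl)
        (fun i hi => Finset.mem_image_of_mem pl hi), ← nsmul_eq_mul]
      apply Finset.card_nsmul_le_sum
      intro P hP
      obtain ⟨i0, hi0, rfl⟩ := Finset.mem_image.1 hP
      exact hdens i0 hi0
    rw [le_div_iff₀ hc0]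
    calc 2 * mult * (((I.image pl).card : ℝ) * (κ1 * (72 * (s1 * s2 * r ^ 3)))) * c0
        = 144 * mult * κ0 * w ^ 2 * r * (((I.image pl).card : ℝ) *
          (c0 * D * s2 ^ q * (s1 * s2 * r ^ 2))) := by rw [hκ1]; ring
      _ ≤ _ := by gcongr
  -- total
  have htot : ENNReal.ofReal (2 * Real.pi * w ^ 2 * r * Ma) ≤
      ENNReal.ofReal (Cx * (C1 * (w / r) ^ (-ε) * Real.sqrt (25 * D * (8 * s) ^ q) *
        (w ^ 3 * r * (361 * m))) + Real.pi / 2 * w ^ 2 * r * Ma +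
        144 * mult * κ0 * w ^ 2 * r * m / c0) := by
    have hp0 : 0 ≤ (w / r) ^ (-ε) := Real.rpow_nonneg hθ.le _
    rw [ENNReal.ofReal_add (by positivity) (by positivity), ENNReal.ofReal_add (by positivity)
      (by positivity), ← hL]
    refine le_trans ?_ (add_le_add (add_le_add hR1 hR2) hR3)
    rw [← lintegral_add_left, ← lintegral_add_left]
    · refine setLIntegral_mono' (measurableSet_cy r) fun p hp => ?_
      refine (ENNReal.ofReal_le_ofReal (hpw p hp)).trans ?_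
      exact ENNReal.ofReal_add_le.trans (add_le_add ENNReal.ofReal_add_le le_rfl)
    · refine Measurable.fun_add ?_ ?_
      · exact (measurable_const.mul (Finset.measurable_fun_sum _ fun j _ =>
          (measurable_ef (JJ j)).pow_const _)).ennreal_ofReal
      · exact (Finset.measurable_fun_sum _ fun a _ => Measurable.ite
          (measurableSet_lt (measurable_ef I) measurable_const) (measurable_ef I)
          measurable_const).ennreal_ofReal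
    · exact (measurable_const.mul (Finset.measurable_fun_sum _ fun j _ =>
          (measurable_ef (JJ j)).pow_const _)).ennreal_ofReal
  have hp0 : 0 ≤ (w / r) ^ (-ε) := Real.rpow_nonneg hθ.le _
  have hreal : 2 * Real.pi * w ^ 2 * r * Ma ≤
      Cx * (C1 * (w / r) ^ (-ε) * Real.sqrt (25 * D * (8 * s) ^ q) *
        (w ^ 3 * r * (361 * m))) + Real.pi / 2 * w ^ 2 * r * Ma +
        144 * mult * κ0 * w ^ 2 * r * m / c0 := by
    rwa [ENNReal.ofReal_le_ofReal_iff (by positivity)] at htot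
  have hnum := numer (D := D) (m0 := m0) (κ0 := κ0) (q := q) hw hr hD hm0 hκ0 ps2 ps2' pφ
  set X : ℝ := (m0 * κ0) ^ (-(1/2) : ℝ) * (φ0 * r / w) * (24 * φ0 / min s2 s2') ^ (q / 2) with hX
  have hmn : 0 < min s2 s2' := lt_min ps2 ps2'
  have hX0 : 0 ≤ X := by
    rw [hX]
    have : 0 ≤ (m0 * κ0) ^ (-(1/2) : ℝ) := Real.rpow_nonneg (by positivity) _
    have : 0 ≤ (24 * φ0 / min s2 s2') ^ (q / 2) := Real.rpow_nonneg (by positivity) _
    positivity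
  have h5 : Cx * (C1 * (w / r) ^ (-ε) * Real.sqrt (25 * D * (8 * s) ^ q) *
        (w ^ 3 * r * (361 * m))) ≤ mult * C1 * (w / r) ^ (-ε) * (w ^ 2 * r) * 361 * m * (150 * X) := by
    calc _ = mult * C1 * (w / r) ^ (-ε) * (w ^ 2 * r) * 361 * m *
          ((Real.sqrt A0)⁻¹ * Real.sqrt (25 * D * (8 * s) ^ q) * w) := by rw [hCx]; ring
      _ ≤ _ := by gcongr
  have h3 : (3 : ℝ) < Real.pi := Real.pi_gt_three
  have h6 : (w ^ 2 * r) * Ma ≤ (w ^ 2 * r) * (mult * C1 * (w / r) ^ (-ε) * 361 * m * (150 * X) +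
      144 * mult * κ0 * m / c0) := by
    have e1 : (w ^ 2 * r) * Ma ≤ 3 / 2 * Real.pi * w ^ 2 * r * Ma := by
      have : 1 ≤ 3 / 2 * Real.pi := by linarith
      calc (w ^ 2 * r) * Ma = 1 * (w ^ 2 * r * Ma) := by ring
        _ ≤ (3 / 2 * Real.pi) * (w ^ 2 * r * Ma) := by
          apply mul_le_mul_of_nonneg_right this; positivity
        _ = _ := by ring
    refine e1.trans ?_
    have e2 : 144 * mult * κ0 * w ^ 2 * r * m / c0 = (w ^ 2 * r) * (144 * mult * κ0 * m / c0) := by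
      field_simp
    rw [e2] at hreal
    linarith
  have h7 : Ma ≤ mult * C1 * (w / r) ^ (-ε) * 361 * m * (150 * X) + 144 * mult * κ0 * m / c0 :=
    le_of_mul_le_mul_left h6 (by positivity)
  refine h7.trans ?_
  have e3 : (C1 * 54150 + 144) * mult * ((w / r) ^ (-ε) * (m0 * κ0) ^ (-(1/2) : ℝ) * (φ0 * r / w) *
      (24 * φ0 / min s2 s2') ^ (q / 2) + κ0 / c0) * m =
      (mult * C1 * (w / r) ^ (-ε) * 361 * m * (150 * X) + 144 * mult * κ0 * m / c0) +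
      (144 * mult * ((w / r) ^ (-ε) * X) * m + C1 * 54150 * mult * (κ0 / c0) * m) := by
    rw [hX]; ring
  rw [e3]
  have : 0 ≤ 144 * mult * ((w / r) ^ (-ε) * X) * m + C1 * 54150 * mult * (κ0 / c0) * m := by
    positivity
  linarith

open Classical in
/-- **misaligned plates are negligible** (finite form, fractional incidences `om`). -/
theorem mis_frac {V : ℝ} (hKM : KM32 V) (ε : ℝ) (hε : 0 < ε) : ∃ C : ℝ, 0 ≤ C ∧
    ∀ (w r q D : ℝ), 0 < w → w ≤ r → 0 ≤ q → 0 < D →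
    ∀ (ι κ α : Type) (I : Finset ι) (c y : ι → E2) (μ : ι → ℝ), (∀ i, 0 ≤ μ i) →
      (∀ i ∈ I, ‖c i‖ ≤ V) → (∀ i ∈ I, ‖y i‖ ≤ V * r) →
      (∀ (b : OrthonormalBasis (Fin 2) ℝ E2) (s1 s2 : ℝ) (c0 y0 : E2),
        w / r ≤ s1 → s1 ≤ 1 → w / r ≤ s2 → s2 ≤ 1 →
          ∑ i ∈ I with PB r b s1 s2 c0 y0 (c i) (y i), μ i ≤
            D * (max s1 s2) ^ q * (s1 * s2 * r ^ 2)) →
    ∀ (pl : ι → κ) (bP : κ → OrthonormalBasis (Fin 2) ℝ E2) (cP yP : κ → E2) (s1 s2 c0 : ℝ),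
      w / r ≤ s1 → s1 ≤ s2 → 0 < c0 →
      (∀ i ∈ I, PB r (bP (pl i)) s1 s2 (cP (pl i)) (yP (pl i)) (c i) (y i)) →
      (∀ i ∈ I, c0 * D * s2 ^ q * (s1 * s2 * r ^ 2) ≤ ∑ i' ∈ I with pl i' = pl i, μ i') →
    ∀ (A : Finset α) (om : α → ι → ℝ) (bA : α → OrthonormalBasis (Fin 2) ℝ E2)
      (cA yA : α → E2) (s1' s2' m0 δ mult φ0 : ℝ),
      w / r ≤ s1' → s1' ≤ s2' → 0 < m0 → 0 < δ → δ ≤ 1 → 0 ≤ mult →
      (∀ a ∈ A, ∀ i ∈ I, 0 ≤ om a i) → (∀ a ∈ A, ∀ i ∈ I, om a i ≤ 1) →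
      (∀ a ∈ A, ∀ i ∈ I, om a i ≠ 0 → PB r (bA a) s1' s2' (cA a) (yA a) (c i) (y i)) →
      (∀ a ∈ A, ∀ i ∈ I, om a i ≠ 0 → δ ≤ |sn (bP (pl i) 0) (bA a 0)|) →
      (∀ a ∈ A, m0 * D * s2' ^ q * (s1' * s2' * r ^ 2) ≤ ∑ i ∈ I, om a i * μ i) →
      (∀ i ∈ I, ∑ a ∈ A, om a i ≤ mult) →
      φ0 = 2 * (s1 + s1') / δ → 3 * φ0 ≤ 1 →
    ∀ κ0 : ℝ, 0 < κ0 →
      ∑ a ∈ A, ∑ i ∈ I, om a i * μ i ≤ C * mult *
        ((w / r) ^ (-ε) * (m0 * κ0) ^ (-(1/2) : ℝ) * (φ0 * r / w) *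
          (24 * φ0 / min s2 s2') ^ (q / 2) + κ0 / c0) * ∑ i ∈ I, μ i := by
  obtain ⟨C, hC, H⟩ := mis_frac0 hKM ε hε
  refine ⟨C, hC, ?_⟩
  intro w r q D hw hwr hq hD ι κ α I c y μ hμ hc hy hdm pl bP cP yP s1 s2 c0 hs1 hs12 hc0 hPB
    hdens A om bA cA yA s1' s2' m0 δ mult φ0 hs1' hs12' hm0 hδ hδ1 hmult hom0 hom1 hPBA hmis hmass
    hm hφ hφ1 κ0 hκ0
  set om' : α → ι → ℝ := fun a i => if a ∈ A ∧ i ∈ I then om a i else 0 with hom'
  have he : ∀ a ∈ A, ∀ i ∈ I, om' a i = om a i := fun a ha i hi => if_pos ⟨ha, hi⟩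
  have hs : ∀ a ∈ A, ∑ i ∈ I, om' a i * μ i = ∑ i ∈ I, om a i * μ i := fun a ha =>
    Finset.sum_congr rfl fun i hi => by rw [he a ha i hi]
  have h := H w r q D hw hwr hq hD ι κ α I c y μ hμ hc hy hdm pl bP cP yP s1 s2 c0 hs1 hs12 hc0
    hPB hdens A om' bA cA yA s1' s2' m0 δ mult φ0 hs1' hs12' hm0 hδ hδ1 hmult
    (fun a i => by
      simp only [hom']
      split_ifs with h
      · exact hom0 a h.1 i h.2
      · exact le_rfl)
    (fun a i => by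
      simp only [hom']
      split_ifs with h
      · exact hom1 a h.1 i h.2
      · exact zero_le_one)
    (fun a ha i hi h => hPBA a ha i hi (by rwa [he a ha i hi] at h))
    (fun a ha i hi h => by
      rw [sn_comm, abs_neg]
      exact hmis a ha i hi (by rwa [he a ha i hi] at h))
    (fun a ha => by rw [hs a ha]; exact hmass a ha)
    (fun i hi => by
      rw [Finset.sum_congr rfl fun a ha => he a ha i hi]
      exact hm i hi) hφ hφ1 κ0 hκ0
  rwa [Finset.sum_congr rfl hs] at h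

end Crest.Agent.R138.Mis535
end

-- ▼ part R138/Mw6_330
section

/-!
# R138 / R139: MIS / ALIGN, wave half, part 6 (helper330): the cells of a parent class as weighted
tubes
-/

set_option autoImplicit false
set_option linter.unusedSectionVars false
set_option linter.unusedVariables false

open MeasureTheory FourierTransform
open scoped ContDiff ENNReal

namespace Crest.Agent.R138.Mis330

open Crest.Agent.R138.Defs Crest.Agent.R138.Wpk685 Crest.Agent.R138.Loc878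
open Crest.Agent.R138.W188 (tr Plate uS Plates)
open Crest.Agent.R138.Ad480
open Crest.Agent.R138.Mis535 (PB)
open Crest.Agent.R138.P654 (an Smis selQ Par)

theorem caps_norm' {ρ : ℝ} (hρ : 0 < ρ) (hρ1 : ρ ≤ 1) {m : ℤ × ℤ} (hm : m ∈ caps ρ) :
    ‖cen ρ m‖ ≤ 8 := by
  unfold caps at hm
  rw [Finset.mem_product, Finset.mem_Icc, Finset.mem_Icc] at hm
  obtain ⟨⟨a1, a2⟩, ⟨b1, b2⟩⟩ := hm
  have hc : (⌈2 / ρ⌉ : ℝ) < 2 / ρ + 1 := Int.ceil_lt_add_one _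
  have key : ∀ k : ℤ, -⌈2 / ρ⌉ - 1 ≤ k → k ≤ ⌈2 / ρ⌉ + 1 → |ρ * (k:ℝ)| ≤ 4 := by
    intro k h1 h2
    have h1' : (-(⌈2 / ρ⌉ : ℝ)) - 1 ≤ k := by exact_mod_cast h1
    have h2' : (k:ℝ) ≤ (⌈2 / ρ⌉ : ℝ) + 1 := by exact_mod_cast h2
    have h3 : ρ * (2 / ρ) = 2 := by field_simp
    rw [abs_le]
    constructor
    · have := mul_le_mul_of_nonneg_left (show -(2 / ρ + 2) ≤ (k:ℝ) by linarith) hρ.le
      nlinarith
    · have := mul_le_mul_of_nonneg_left (show (k:ℝ) ≤ 2 / ρ + 2 by linarith) hρ.le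
      nlinarith
  have h1 := key m.1 a1 a2
  have h2 := key m.2 b1 b2
  unfold cen
  rw [EuclideanSpace.norm_eq, Fin.sum_univ_two]
  refine Real.sqrt_le_iff.2 ⟨by norm_num, ?_⟩
  simp only [Real.norm_eq_abs, sq_abs]
  have e1 := sq_le_sq' (abs_le.1 h1).1 (abs_le.1 h1).2
  have e2 := sq_le_sq' (abs_le.1 h2).1 (abs_le.1 h2).2
  show (ρ * (m.1:ℝ)) ^ 2 + (ρ * (m.2:ℝ)) ^ 2 ≤ 8 ^ 2
  linarith

theorem grad_zero {h : E2 → ℝ} (h1 : fderiv ℝ h 0 = 0) : gradient h 0 = 0 := by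
  unfold gradient
  rw [h1]
  exact map_zero _

theorem grad_caps {B : ℕ → ℝ} {h : E2 → ℝ} (hh : ParB B h) (h1 : fderiv ℝ h 0 = 0) {ρ : ℝ}
    (hρ : 0 < ρ) (hρ1 : ρ ≤ 1) {m : ℤ × ℤ} (hm : m ∈ caps ρ) :
    ‖gradient h (cen ρ m)‖ ≤ 8 * (1 + |B 2|) := by
  have h2 := glip hh (cen ρ m) 0
  rw [grad_zero h1, sub_zero, sub_zero] at h2
  have h3 := caps_norm' hρ hρ1 hm
  have h4 : 0 ≤ 1 + |B 2| := by positivity
  nlinarith

theorem muE_zero {ρ l : ℝ} {g : E2 → ℂ} {P : ℕ → Plate} {T : ℕ × Cel}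
    (h : ¬ (pc l ((P T.1).S T.2.1) T.2.2).Nonempty) : muE ρ l g P T = 0 := by
  rw [Set.not_nonempty_iff_eq_empty] at h
  unfold muE
  rw [h]
  simp

theorem mu_zero {ρ l : ℝ} {g : E2 → ℂ} {P : ℕ → Plate} {T : ℕ × Cel}
    (h : ¬ (pc l ((P T.1).S T.2.1) T.2.2).Nonempty) : mu ρ l g P T = 0 := by
  unfold mu
  rw [muE_zero h]
  simp

/-- number of cells in one direction. -/
noncomputable def Nc (A r1 : ℝ) : ℕ := ⌈A * r1 / (an r1 * r1)⌉₊ + 1

theorem Nc_le (A r1 : ℝ) : A * r1 / (an r1 * r1) + 1 ≤ Nc A r1 := by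
  unfold Nc
  push_cast
  have := Nat.le_ceil (A * r1 / (an r1 * r1))
  linarith

open Classical in
/-- the nonempty cells. -/
noncomputable def Ic (A r1 : ℝ) (I1 : Finset ℕ) (P1 : ℕ → Plate) : Finset (ℕ × Cel) :=
  (TI (an r1) (Nc A r1) I1).filter fun T => (pc (an r1 * r1) ((P1 T.1).S T.2.1) T.2.2).Nonempty

section par

variable {B : ℕ → ℝ} {q A c0 : ℝ} {h : E2 → ℝ} {g : E2 → ℂ} {r1 s1' s2' D : ℝ} {I1 : Finset ℕ}
  {P1 : ℕ → Plate}

theorem par_bd (hp : Par q A c0 h g r1 s1' s2' D I1 P1) :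
    ∀ a ∈ I1, ∀ m, ∀ y ∈ (P1 a).S m, ‖y‖ ≤ A * r1 := by
  intro a ha m y hy
  have := hp.bd m (Set.mem_biUnion ha hy)
  rwa [mem_closedBall_zero_iff] at this

theorem mem_Ic {T : ℕ × Cel} (hT : T ∈ Ic A r1 I1 P1) : T.1 ∈ I1 ∧ T.2.1 ∈ caps (an r1) ∧
    ∃ y ∈ (P1 T.1).S T.2.1, kk (an r1 * r1) y = T.2.2 := by
  classical
  obtain ⟨h1, y, hy1, hy2⟩ := Finset.mem_filter.1 hT
  exact ⟨(mem_TI.1 h1).1, (mem_TI.1 h1).2.1, y, hy1, hy2⟩

theorem Ic_sub : Ic A r1 I1 P1 ⊆ TI (an r1) (Nc A r1) I1 := by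
  classical
  exact Finset.filter_subset _ _

theorem mem_Ic_of {T : ℕ × Cel} (hT : T ∈ TI (an r1) (Nc A r1) I1)
    (hne : (pc (an r1 * r1) ((P1 T.1).S T.2.1) T.2.2).Nonempty) : T ∈ Ic A r1 I1 P1 := by
  classical
  unfold Ic
  exact Finset.mem_filter.2 ⟨hT, hne⟩

theorem sum_Ic (p : ℕ × Cel → Prop) [DecidablePred p] :
    ∑ T ∈ (Ic A r1 I1 P1).filter p, mu (an r1) (an r1 * r1) g P1 T =
      ∑ T ∈ (TI (an r1) (Nc A r1) I1).filter p, mu (an r1) (an r1 * r1) g P1 T := by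
  refine Finset.sum_subset (Finset.filter_subset_filter _ Ic_sub) ?_
  intro T hT hT2
  refine mu_zero fun hne => hT2 ?_
  rw [Finset.mem_filter] at hT ⊢
  exact ⟨mem_Ic_of hT.1 hne, hT.2⟩

theorem sum_mu (hr1 : 1 ≤ r1) (hp : Par q A c0 h g r1 s1' s2' D I1 P1) (F : Finset (ℕ × Cel))
    (hF : F ⊆ TI (an r1) (Nc A r1) I1) :
    ENNReal.ofReal (∑ T ∈ F, mu (an r1) (an r1 * r1) g P1 T) =
      ∑ T ∈ F, muE (an r1) (an r1 * r1) g P1 T := by
  obtain ⟨hρ, hρ1, hρ2⟩ := rp_facts hr1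
  rw [ENNReal.ofReal_sum_of_nonneg fun T _ => mu_nonneg _ _ _ _ _]
  exact Finset.sum_congr rfl fun T hT => ofReal_mu hρ hρ1 hp.gi hp.g2 P1 (mem_TI.1 (hF hT)).2.1

/-- total mass. -/
theorem tot_mu (hr1 : 1 ≤ r1) (hp : Par q A c0 h g r1 s1' s2' D I1 P1) :
    ENNReal.ofReal (∑ T ∈ Ic A r1 I1 P1, mu (an r1) (an r1 * r1) g P1 T) =
      en (an r1) g (uS I1 P1) := by
  classical
  obtain ⟨hρ, hρ1, hρ2⟩ := rp_facts hr1
  have hr0 : 0 < r1 := by linarith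
  have hl0 : 0 < an r1 * r1 := mul_pos hρ hr0
  have h1 := sum_Ic (A := A) (r1 := r1) (I1 := I1) (P1 := P1) (g := g) (fun _ => True)
  rw [Finset.filter_true, Finset.filter_true] at h1
  rw [h1, sum_mu hr1 hp _ (le_refl _)]
  exact mass_all hl0 hp.meas hp.disj (par_bd hp) (Nc_le A r1)

/-- velocities. -/
theorem Ic_vel (hh : ParB B h) (h1 : fderiv ℝ h 0 = 0) (hr1 : 1 ≤ r1) {T : ℕ × Cel}
    (hT : T ∈ Ic A r1 I1 P1) : ‖gradient h (cen (an r1) T.2.1)‖ ≤ 8 * (1 + |B 2|) := by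
  obtain ⟨hρ, hρ1, hρ2⟩ := rp_facts hr1
  exact grad_caps hh h1 hρ hρ1 (mem_Ic hT).2.1

theorem l_le (hr1 : 1 ≤ r1) : an r1 * r1 ≤ r1 := by
  obtain ⟨hρ, hρ1, hρ2⟩ := rp_facts hr1
  have hr0 : 0 < r1 := by linarith
  calc an r1 * r1 ≤ 1 * r1 := mul_le_mul_of_nonneg_right hρ1 hr0.le
    _ = r1 := one_mul _

/-- positions. -/
theorem Ic_pos (hr1 : 1 ≤ r1) (hp : Par q A c0 h g r1 s1' s2' D I1 P1) {T : ℕ × Cel}
    (hT : T ∈ Ic A r1 I1 P1) : ‖cen (an r1 * r1) T.2.2‖ ≤ (A + 3 / 2) * r1 := by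
  obtain ⟨hρ, hρ1, hρ2⟩ := rp_facts hr1
  have hr0 : 0 < r1 := by linarith
  have hl0 : 0 < an r1 * r1 := mul_pos hρ hr0
  obtain ⟨h1, h2, y, hy, hk⟩ := mem_Ic hT
  have h3 := par_bd hp _ h1 _ y hy
  have h4 := kk_dist hl0 y
  rw [hk] at h4
  have h5 : ‖cen (an r1 * r1) T.2.2‖ ≤ ‖y‖ + ‖y - cen (an r1 * r1) T.2.2‖ := by
    have : cen (an r1 * r1) T.2.2 = y - (y - cen (an r1 * r1) T.2.2) := by abel
    conv_lhs => rw [this]
    exact norm_sub_le _ _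
  have h6 := l_le hr1
  linarith

/-- cells lie in the box of their plate. -/
theorem Ic_box (hA : 0 ≤ A) (hr1 : 1 ≤ r1) (hp : Par q A c0 h g r1 s1' s2' D I1 P1) {T : ℕ × Cel}
    (hT : T ∈ Ic A r1 I1 P1) :
    PB r1 (P1 T.1).b ((A + 3 / 2) * s1') ((A + 3 / 2) * s2') (P1 T.1).c (P1 T.1).x
      (gradient h (cen (an r1) T.2.1)) (cen (an r1 * r1) T.2.2) := by
  obtain ⟨hρ, hρ1, hρ2⟩ := rp_facts hr1
  have hr0 : 0 < r1 := by linarith
  have hl0 : 0 < an r1 * r1 := mul_pos hρ hr0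
  obtain ⟨h1, h2, y, hy, hk⟩ := mem_Ic hT
  obtain ⟨q1, q2⟩ := hp.box _ h1 _ hy
  have h4 := kk_dist hl0 y
  rw [hk] at h4
  have hs1 : an r1 ≤ s1' := hp.sd.lo
  have hs2 : s1' ≤ s2' := hp.sd.le
  have hs10 : 0 < s1' := lt_of_lt_of_le hρ hs1
  have hs20 : 0 < s2' := hs10.trans_le hs2
  have pos : ∀ j : Fin 2, |inner ℝ (cen (an r1 * r1) T.2.2 - (P1 T.1).x) ((P1 T.1).b j)| ≤
      (A + 3 / 2) * (![s1', s2'] : Fin 2 → ℝ) j * r1 := by
    intro j
    have e : cen (an r1 * r1) T.2.2 - (P1 T.1).x = -(y - cen (an r1 * r1) T.2.2) +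
        (y - (P1 T.1).x) := by abel
    rw [e, inner_add_left]
    have a1 : |inner ℝ (-(y - cen (an r1 * r1) T.2.2)) ((P1 T.1).b j)| ≤ 3 / 2 * (an r1 * r1) := by
      refine (abs_real_inner_le_norm _ _).trans ?_
      rw [(P1 T.1).b.orthonormal.1 j, mul_one, norm_neg]
      exact h4
    have a2 := q2 j
    have a3 : an r1 ≤ (![s1', s2'] : Fin 2 → ℝ) j := by
      fin_cases j
      · exact hs1
      · exact hs1.trans hs2
    have a4 : 3 / 2 * (an r1 * r1) ≤ 3 / 2 * ((![s1', s2'] : Fin 2 → ℝ) j * r1) :=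
      mul_le_mul_of_nonneg_left (mul_le_mul_of_nonneg_right a3 hr0.le) (by norm_num)
    calc _ ≤ _ := abs_add_le _ _
      _ ≤ 3 / 2 * ((![s1', s2'] : Fin 2 → ℝ) j * r1) + A * (![s1', s2'] : Fin 2 → ℝ) j * r1 :=
        add_le_add (a1.trans a4) a2
      _ = _ := by ring
  refine ⟨?_, ?_, ?_, ?_⟩
  · refine (q1 0).trans ?_
    show A * s1' ≤ (A + 3 / 2) * s1'
    nlinarith
  · refine (q1 1).trans ?_
    show A * s2' ≤ (A + 3 / 2) * s2'
    nlinarith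
  · exact pos 0
  · exact pos 1

open Classical in
/-- density of the cells. -/
theorem Ic_dens (hr1 : 1 ≤ r1) (hp : Par q A c0 h g r1 s1' s2' D I1 P1)
    (b : OrthonormalBasis (Fin 2) ℝ E2) (s1 s2 : ℝ) (c y0 : E2) (h1 : an r1 ≤ s1) (h1' : s1 ≤ 1)
    (h2 : an r1 ≤ s2) (h2' : s2 ≤ 1) :
    ∑ T ∈ Ic A r1 I1 P1 with PB r1 b s1 s2 c y0 (gradient h (cen (an r1) T.2.1))
        (cen (an r1 * r1) T.2.2), mu (an r1) (an r1 * r1) g P1 T ≤
      49 * D * (max s1 s2) ^ q * (s1 * s2 * r1 ^ 2) := by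
  obtain ⟨hρ, hρ1, hρ2⟩ := rp_facts hr1
  have hρ : 0 < an r1 := hρ
  have p1 : 0 < s1 := hρ.trans_le h1
  have p2 : 0 < s2 := hρ.trans_le h2
  have pm : 0 < max s1 s2 := lt_max_of_lt_left p1
  have hD := hp.D0
  rw [sum_Ic]
  have h3 := dmax_cells hr1 hp.meas hp.disj hp.D0 hp.dens (Nc A r1) c b ![s1, s2] y0 (by
    intro i
    fin_cases i
    · exact ⟨h1, h1'⟩
    · exact ⟨h2, h2'⟩)
  simp only [Matrix.cons_val_zero, Matrix.cons_val_one] at h3
  refine (ENNReal.ofReal_le_ofReal_iff ?_).1 ?_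
  · have : 0 ≤ (max s1 s2) ^ q := Real.rpow_nonneg pm.le q
    positivity
  · rw [sum_mu hr1 hp _ (Finset.filter_subset _ _)]
    exact h3

/-- mass of a plate. -/
theorem Ic_plate (hr1 : 1 ≤ r1) (hp : Par q A c0 h g r1 s1' s2' D I1 P1) {a : ℕ} (ha : a ∈ I1)
    [DecidablePred fun T : ℕ × Cel => T.1 = a] :
    c0 * D * (s2' ^ q * (s1' * s2' * r1 ^ 2)) ≤
      ∑ T ∈ (Ic A r1 I1 P1).filter (fun T => T.1 = a), mu (an r1) (an r1 * r1) g P1 T := by
  obtain ⟨hρ, hρ1, hρ2⟩ := rp_facts hr1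
  have hr0 : 0 < r1 := by linarith
  have hl0 : 0 < an r1 * r1 := mul_pos hρ hr0
  rw [sum_Ic]
  have hnn : 0 ≤ ∑ T ∈ (TI (an r1) (Nc A r1) I1).filter (fun T => T.1 = a),
      mu (an r1) (an r1 * r1) g P1 T := Finset.sum_nonneg fun T _ => mu_nonneg _ _ _ _ _
  refine (ENNReal.ofReal_le_ofReal_iff hnn).1 ?_
  rw [sum_mu hr1 hp _ (Finset.filter_subset _ _)]
  refine (hp.dense a ha).trans (le_of_eq ?_)
  have e : (TI (an r1) (Nc A r1) I1).filter (fun T => T.1 = a) =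
      ({a} : Finset ℕ) ×ˢ (caps (an r1) ×ˢ kbox (Nc A r1)) := by
    ext T
    rw [Finset.mem_filter, mem_TI, Finset.mem_product, Finset.mem_product, Finset.mem_singleton]
    constructor
    · rintro ⟨⟨_, h2, h3⟩, h4⟩
      exact ⟨h4, h2, h3⟩
    · rintro ⟨h4, h2, h3⟩
      exact ⟨⟨h4 ▸ ha, h2, h3⟩, h4⟩
  rw [e, Finset.sum_product, Finset.sum_singleton]
  exact (mass_plate hl0 (hp.meas a ha) (par_bd hp a ha) (Nc_le A r1)).symm

end par

end Crest.Agent.R138.Mis330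
end

-- ▼ part R138/Mw7_330
section

/-!
# R138 / R139: MIS / ALIGN, wave half, part 7 (helper330): the normalised incidences, energies of the
child plates
-/

set_option autoImplicit false
set_option linter.unusedSectionVars false
set_option linter.unusedVariables false

open MeasureTheory FourierTransform
open scoped ContDiff ENNReal

namespace Crest.Agent.R138.Mis330

open Crest.Agent.R138.Defs Crest.Agent.R138.Wpk685 Crest.Agent.R138.Loc878
open Crest.Agent.R138.W188 (tr Plate uS Plates)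
open Crest.Agent.R138.Ad480
open Crest.Agent.R138.Mis535 (PB)
open Crest.Agent.R138.P654 (an Smis selQ Par)

open Classical in
/-- **normalised incidence** of the child plate `i` and the cell `T`: misaligned and near. -/
noncomputable def om (n : ℕ) (δ : ℝ) (h : E2 → ℝ) (r1 dl s1 s2 K : ℝ) (P1 P : ℕ → Plate) (i : ℕ)
    (T : ℕ × Cel) : ℝ :=
  if δ < P654.sn (P i).b (P1 T.1).b ∧ NB h (an r1) (an r1 * r1) r1 K s1 s2 P i T.2 then
    (wT n h (an r1) (an (dl * r1)) (an r1 * r1) P i T.2).toReal / (36 * cdec + 1) else 0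

open Classical in
/-- far energy. -/
noncomputable def fw (n : ℕ) (h : E2 → ℝ) (g : E2 → ℂ) (A r1 dl s1 s2 K : ℝ) (I1 : Finset ℕ)
    (P1 P : ℕ → Plate) (i : ℕ) : ℝ≥0∞ :=
  ∑ T ∈ (TI (an r1) (Nc A r1) I1).filter
      (fun T => ¬ NB h (an r1) (an r1 * r1) r1 K s1 s2 P i T.2),
    wT n h (an r1) (an (dl * r1)) (an r1 * r1) P i T.2 * muE (an r1) (an r1 * r1) g P1 T

theorem c1_pos : 0 < 36 * cdec + 1 := by
  have := cdec_nonneg
  positivity

section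

variable {B : ℕ → ℝ} {q A c0 : ℝ} {h : E2 → ℝ} {g : E2 → ℂ} {r1 dl s1 s2 s1' s2' D K δ : ℝ}
  {I1 : Finset ℕ} {P1 : ℕ → Plate} {I : Finset ℕ} {P : ℕ → Plate} {k : ℕ}

theorem om_nonneg (n : ℕ) (i : ℕ) (T : ℕ × Cel) : 0 ≤ om n δ h r1 dl s1 s2 K P1 P i T := by
  unfold om
  split_ifs
  · exact div_nonneg ENNReal.toReal_nonneg c1_pos.le
  · exact le_rfl

theorem om_le (n : ℕ) (i : ℕ) (T : ℕ × Cel) : om n δ h r1 dl s1 s2 K P1 P i T ≤
    (wT n h (an r1) (an (dl * r1)) (an r1 * r1) P i T.2).toReal / (36 * cdec + 1) := by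
  unfold om
  split_ifs
  · exact le_rfl
  · exact div_nonneg ENNReal.toReal_nonneg c1_pos.le

theorem wT_le (hρ : 0 < an r1) (hρ' : 0 < an (dl * r1)) (hP : Plates A h (dl * r1) s1 s2 r1 I P)
    {i : ℕ} (hi : i ∈ I) (x : Cel) :
    wT (k + 4) h (an r1) (an (dl * r1)) (an r1 * r1) P i x ≤ ENNReal.ofReal (36 * cdec) :=
  wE_le hρ hρ' k _ (fun m _ => hP.meas i hi m) x.1 _

theorem wT_fin (hρ : 0 < an r1) (hρ' : 0 < an (dl * r1)) (hP : Plates A h (dl * r1) s1 s2 r1 I P)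
    {i : ℕ} (hi : i ∈ I) (x : Cel) :
    wT (k + 4) h (an r1) (an (dl * r1)) (an r1 * r1) P i x ≠ ⊤ :=
  ne_top_of_le_ne_top ENNReal.ofReal_ne_top (wT_le hρ hρ' hP hi x)

theorem om_le_one (hρ : 0 < an r1) (hρ' : 0 < an (dl * r1))
    (hP : Plates A h (dl * r1) s1 s2 r1 I P) {i : ℕ} (hi : i ∈ I) (T : ℕ × Cel) :
    om (k + 4) δ h r1 dl s1 s2 K P1 P i T ≤ 1 := by
  have hc := cdec_nonneg
  refine (om_le _ i T).trans ?_
  rw [div_le_one c1_pos]
  have h1 := ENNReal.toReal_mono ENNReal.ofReal_ne_top (wT_le (k := k) hρ hρ' hP hi T.2)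
  rw [ENNReal.toReal_ofReal (by positivity)] at h1
  linarith

theorem sum_om (hr1 : 0 < r1) (hdl : 0 < dl) (hdl1 : dl ≤ 1) (hρ : 0 < an r1)
    (hρ' : 0 < an (dl * r1)) (hP : Plates A h (dl * r1) s1 s2 r1 I P) (T : ℕ × Cel) :
    ∑ i ∈ I, om (k + 4) δ h r1 dl s1 s2 K P1 P i T ≤ 216 * (dl⁻¹) ^ 3 := by
  have hc := cdec_nonneg
  have hc1 := c1_pos
  calc ∑ i ∈ I, om (k + 4) δ h r1 dl s1 s2 K P1 P i T
      ≤ ∑ i ∈ I, (wT (k + 4) h (an r1) (an (dl * r1)) (an r1 * r1) P i T.2).toReal /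
          (36 * cdec + 1) := Finset.sum_le_sum fun i _ => om_le _ i T
    _ = (∑ i ∈ I, wT (k + 4) h (an r1) (an (dl * r1)) (an r1 * r1) P i T.2).toReal /
          (36 * cdec + 1) := by
        rw [← Finset.sum_div, ENNReal.toReal_sum fun i hi => wT_fin hρ hρ' hP hi T.2]
    _ ≤ (216 * (dl⁻¹) ^ 3 * (36 * cdec)) / (36 * cdec + 1) := by
        refine div_le_div_of_nonneg_right ?_ hc1.le
        have h1 := ENNReal.toReal_mono ENNReal.ofReal_ne_top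
          (tot_wT (l := an r1 * r1) hr1 hdl hdl1 hP hρ hρ' k T.2)
        rwa [ENNReal.toReal_ofReal (by positivity)] at h1
    _ ≤ _ := by
        rw [div_le_iff₀ hc1]
        have : 0 ≤ 216 * (dl⁻¹) ^ 3 := by positivity
        nlinarith

theorem om_ne (n : ℕ) {i : ℕ} {T : ℕ × Cel} (h0 : om n δ h r1 dl s1 s2 K P1 P i T ≠ 0) :
    δ < P654.sn (P i).b (P1 T.1).b ∧ NB h (an r1) (an r1 * r1) r1 K s1 s2 P i T.2 := by
  unfold om at h0
  split_ifs at h0 with h1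
  · exact h1
  · exact absurd rfl h0

open Classical in
/-- near energy through `om`. -/
theorem near_eq (hr1 : 1 ≤ r1) (hρ' : 0 < an (dl * r1))
    (hp : Par q A c0 h g r1 s1' s2' D I1 P1) (hP : Plates A h (dl * r1) s1 s2 r1 I P) {i : ℕ}
    (hi : i ∈ I) :
    ∑ T ∈ (TI (an r1) (Nc A r1) I1).filter (fun T => δ < P654.sn (P i).b (P1 T.1).b ∧
        NB h (an r1) (an r1 * r1) r1 K s1 s2 P i T.2),
      wT (k + 4) h (an r1) (an (dl * r1)) (an r1 * r1) P i T.2 *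
        muE (an r1) (an r1 * r1) g P1 T =
    ENNReal.ofReal ((36 * cdec + 1) * ∑ T ∈ Ic A r1 I1 P1,
      om (k + 4) δ h r1 dl s1 s2 K P1 P i T * mu (an r1) (an r1 * r1) g P1 T) := by
  obtain ⟨hρ, hρ1, hρ2⟩ := rp_facts hr1
  have hρ : 0 < an r1 := hρ
  have hc1 := c1_pos
  have e1 : ∑ T ∈ Ic A r1 I1 P1,
      om (k + 4) δ h r1 dl s1 s2 K P1 P i T * mu (an r1) (an r1 * r1) g P1 T =
      ∑ T ∈ TI (an r1) (Nc A r1) I1,
      om (k + 4) δ h r1 dl s1 s2 K P1 P i T * mu (an r1) (an r1 * r1) g P1 T := by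
    refine Finset.sum_subset Ic_sub fun T hT hT2 => ?_
    rw [mu_zero fun hne => hT2 (mem_Ic_of hT hne), mul_zero]
  rw [e1, Finset.mul_sum, ENNReal.ofReal_sum_of_nonneg fun T _ =>
    mul_nonneg hc1.le (mul_nonneg (om_nonneg _ _ _) (mu_nonneg _ _ _ _ _)), Finset.sum_filter]
  refine Finset.sum_congr rfl fun T hT => ?_
  unfold om
  split_ifs with h1
  · have e2 : (36 * cdec + 1) * ((wT (k + 4) h (an r1) (an (dl * r1)) (an r1 * r1) P i T.2).toReal /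
        (36 * cdec + 1) * mu (an r1) (an r1 * r1) g P1 T) =
        (wT (k + 4) h (an r1) (an (dl * r1)) (an r1 * r1) P i T.2).toReal *
          mu (an r1) (an r1 * r1) g P1 T := by
      field_simp
    rw [e2, ENNReal.ofReal_mul ENNReal.toReal_nonneg,
      ENNReal.ofReal_toReal (wT_fin hρ hρ' hP hi T.2),
      ofReal_mu hρ hρ1 hp.gi hp.g2 P1 (mem_TI.1 hT).2.1]
  · simp

open Classical in
/-- total far energy. -/
theorem sum_fw (hB : ParB B h) (hA : 0 ≤ A) (hr1 : 1 ≤ r1) (hdl : 0 < dl) (hdl1 : dl ≤ 1)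
    (hr' : 1 ≤ dl * r1) (hp : Par q A c0 h g r1 s1' s2' D I1 P1)
    (hP : Plates A h (dl * r1) s1 s2 r1 I P)
    (hs : ∀ i : Fin 2, an (dl * r1) ≤ (![s1, s2] : Fin 2 → ℝ) i) {X : ℝ} (hX : 0 < X)
    (hK : X + 2 * A + 3 * (1 + |B 2|) ≤ K) (k : ℕ) :
    ∑ i ∈ I, fw (k + 4) h g A r1 dl s1 s2 K I1 P1 P i ≤
      ENNReal.ofReal (216 * (dl⁻¹) ^ 3 * (36 * cdec * (X ^ k)⁻¹)) * en (an r1) g (uS I1 P1) := by
  obtain ⟨hρ, hρ1, hρ2, hρ', hρ'1, hρ'2, hρρ, hdiv⟩ := an_facts hr1 hdl hdl1 hr'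
  have hr0 : 0 < r1 := by linarith
  have hl0 : 0 < an r1 * r1 := mul_pos hρ hr0
  unfold fw
  simp_rw [Finset.sum_filter]
  rw [Finset.sum_comm]
  rw [← mass_all hl0 hp.meas hp.disj (par_bd hp) (Nc_le A r1), Finset.mul_sum]
  refine Finset.sum_le_sum fun T _ => ?_
  rw [← Finset.sum_filter, ← Finset.sum_mul]
  refine mul_le_mul' ?_ le_rfl
  refine far_wT (l := an r1 * r1) hr0 hdl hdl1 hP hρ hρ' hX k T.2 _ (Finset.filter_subset _ _) ?_
  intro i hi m' hm' y hy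
  obtain ⟨hi1, hi2⟩ := Finset.mem_filter.1 hi
  exact far_of_not_NB hB hA hr1 hdl hdl1 hr' hP hs hX.le hK hi1 hi2 m' hm' y hy

/-- **energy of one child plate.** -/
theorem e_le (B : ℕ → ℝ) (k : ℕ) : ∃ C : ℝ, 0 ≤ C ∧ ∀ (h : E2 → ℝ), ParB B h →
    ∀ (q A c0 : ℝ) (g : E2 → ℂ) (r1 dl s1 s2 s1' s2' D K δ : ℝ) (I1 : Finset ℕ) (P1 : ℕ → Plate)
    (I : Finset ℕ) (P : ℕ → Plate), 1 ≤ r1 → 0 < dl → dl ≤ 1 → 1 ≤ dl * r1 →
    Par q A c0 h g r1 s1' s2' D I1 P1 → Plates A h (dl * r1) s1 s2 r1 I P →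
    P654.IsMis δ h g dl r1 I1 P1 I P → ∀ i ∈ I,
    en (an (dl * r1)) (tr h (P i).z (sel (an r1) g (uS I1 P1))) (P i).S ≤
      ENNReal.ofReal (C * dl⁻¹) * (ENNReal.ofReal ((36 * cdec + 1) * ∑ T ∈ Ic A r1 I1 P1,
        om (k + 4) δ h r1 dl s1 s2 K P1 P i T * mu (an r1) (an r1 * r1) g P1 T) +
        fw (k + 4) h g A r1 dl s1 s2 K I1 P1 P i) := by
  classical
  obtain ⟨C, hC, h1⟩ := en_plate_le B (k + 4)
  refine ⟨4 * C, by positivity, ?_⟩
  intro h hB q A c0 g r1 dl s1 s2 s1' s2' D K δ I1 P1 I P hr1 hdl hdl1 hr' hp hP hmis i hi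
  obtain ⟨hρ, hρ1, hρ2, hρ', hρ'1, hρ'2, hρρ, hdiv⟩ := an_facts hr1 hdl hdl1 hr'
  have h2 := h1 h hB r1 dl hr1 hdl hdl1 hr' g hp.gi I1 P1 (A * r1) hp.meas hp.disj (par_bd hp)
    (Nc A r1) (Nc_le A r1) δ (P i).b (P i).z (hP.mem i hi).2 (P i).S
    (fun m _ => hP.meas i hi m)
  have h3 : en (an (dl * r1)) (tr h (P i).z (sel (an r1) g (uS I1 P1))) (P i).S ≤
      ENNReal.ofReal 4 *
        en (an (dl * r1)) (tr h (P i).z (sel (an r1) g (Smis δ (P i).b I1 P1))) (P i).S := by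
    unfold en
    rw [Finset.mul_sum]
    refine Finset.sum_le_sum fun m _ => ?_
    rw [← lintegral_const_mul' _ _ ENNReal.ofReal_ne_top]
    refine setLIntegral_mono' (hP.meas i hi m) fun y hy => ?_
    have h4 := hmis i hi m y hy
    rw [← ofReal_norm, ← ofReal_norm, ← ENNReal.ofReal_pow (norm_nonneg _),
      ← ENNReal.ofReal_pow (norm_nonneg _), ← ENNReal.ofReal_mul (by norm_num)]
    refine ENNReal.ofReal_le_ofReal ?_
    calc _ ≤ (2 * ‖um (an (dl * r1)) (tr h (P i).z (sel (an r1) g (Smis δ (P i).b I1 P1))) m y‖) ^ 2 :=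
          pow_le_pow_left₀ (norm_nonneg _) h4 2
      _ = _ := by ring
  refine h3.trans ((mul_le_mul' le_rfl h2).trans ?_)
  rw [← mul_assoc, ← ENNReal.ofReal_mul (by norm_num), ← mul_assoc]
  refine mul_le_mul' le_rfl ?_
  have h5 : ∀ x : ℕ × Cel, wE (k + 4) (an r1) (an (dl * r1)) (P i).S x.2.1
      (vv h (an r1) (an r1 * r1) (P i).z x.2) =
      wT (k + 4) h (an r1) (an (dl * r1)) (an r1 * r1) P i x.2 := fun x => rfl
  simp_rw [h5]
  rw [← near_eq hr1 hρ' hp hP hi]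
  unfold fw
  rw [← Finset.sum_filter_add_sum_filter_not ((TI (an r1) (Nc A r1) I1).filter
    (fun T => δ < P654.sn (P i).b (P1 T.1).b))
    (fun T => NB h (an r1) (an r1 * r1) r1 K s1 s2 P i T.2)]
  refine add_le_add (le_of_eq ?_) ?_
  · rw [Finset.filter_filter]
  · rw [Finset.filter_filter]
    refine Finset.sum_le_sum_of_subset ?_
    intro T hT
    rw [Finset.mem_filter] at hT ⊢
    exact ⟨hT.1, hT.2.2⟩

end

end Crest.Agent.R138.Mis330
end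

-- ▼ part R138/Mw8_330
section

/-!
# R138 / R139: MIS / ALIGN, wave half, part 8 (helper330): value of the child plates = near + far,
tails
-/

set_option autoImplicit false
set_option linter.unusedSectionVars false
set_option linter.unusedVariables false

open MeasureTheory FourierTransform
open scoped ContDiff ENNReal

namespace Crest.Agent.R138.Mis330

open Crest.Agent.R138.Defs Crest.Agent.R138.Wpk685 Crest.Agent.R138.Loc878
open Crest.Agent.R138.W188 (tr Plate uS Plates val)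
open Crest.Agent.R138.Ad480
open Crest.Agent.R138.Mis535 (PB)
open Crest.Agent.R138.P654 (an Smis selQ Par)

theorem rpow_32 (x : ℝ≥0∞) : x ^ (3/2 : ℝ) = x * x ^ (1/2 : ℝ) := by
  have : (3/2 : ℝ) = 1 + 1/2 := by norm_num
  rw [this, ENNReal.rpow_add_of_nonneg _ _ (by norm_num) (by norm_num), ENNReal.rpow_one]

theorem sum_rpow_le {κ : Type*} (J : Finset κ) (f : κ → ℝ≥0∞) :
    ∑ j ∈ J, f j ^ (3/2 : ℝ) ≤ (∑ j ∈ J, f j) ^ (3/2 : ℝ) := by
  rw [rpow_32 (∑ j ∈ J, f j), Finset.sum_mul]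
  refine Finset.sum_le_sum fun j hj => ?_
  rw [rpow_32]
  refine mul_le_mul' le_rfl (ENNReal.rpow_le_rpow ?_ (by norm_num))
  exact Finset.single_le_sum (f := f) (fun _ _ => zero_le) hj

/-- one term of `val`. -/
theorem val_term {r s1 s2 : ℝ} (hr : 0 < r) (hs1 : 0 < s1) (hs2 : 0 < s2) (e : ℝ≥0∞) :
    ENNReal.ofReal ((s1 * s2 * r ^ 3) ^ (-(1/2) : ℝ)) * (ENNReal.ofReal r * e) ^ (3 / 2 : ℝ) =
      ENNReal.ofReal ((s1 * s2) ^ (-(1/2) : ℝ)) * e ^ (3/2 : ℝ) := by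
  rw [ENNReal.mul_rpow_of_nonneg _ _ (by norm_num : (0:ℝ) ≤ 3/2), ENNReal.ofReal_rpow_of_pos hr,
    ← mul_assoc, ← ENNReal.ofReal_mul (by positivity)]
  congr 2
  rw [Real.mul_rpow (by positivity) (by positivity), mul_assoc]
  have h1 : (r ^ 3) ^ (-(1/2) : ℝ) * r ^ (3/2 : ℝ) = 1 := by
    rw [← Real.rpow_natCast r 3, ← Real.rpow_mul hr.le, ← Real.rpow_add hr]
    norm_num
  rw [h1, mul_one]

/-- power `3/2` of near + far. -/
theorem pow_split {e a f : ℝ≥0∞} {K1 : ℝ} (hK1 : 0 ≤ K1) (h : e ≤ ENNReal.ofReal K1 * (a + f)) :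
    e ^ (3/2 : ℝ) ≤ ENNReal.ofReal (2 * K1 ^ (3/2 : ℝ)) * (a ^ (3/2 : ℝ) + f ^ (3/2 : ℝ)) := by
  refine (ENNReal.rpow_le_rpow h (by norm_num : (0:ℝ) ≤ 3/2)).trans ?_
  rw [ENNReal.mul_rpow_of_nonneg _ _ (by norm_num : (0:ℝ) ≤ 3/2),
    ENNReal.ofReal_rpow_of_nonneg hK1 (by norm_num : (0:ℝ) ≤ 3/2), mul_comm 2 (K1 ^ (3/2 : ℝ)),
    ENNReal.ofReal_mul (by positivity), mul_assoc]
  refine mul_le_mul' le_rfl ?_
  refine (ENNReal.rpow_add_le_mul_rpow_add_rpow a f (by norm_num : (1:ℝ) ≤ 3/2)).trans ?_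
  refine mul_le_mul' ?_ le_rfl
  rw [ENNReal.ofReal_ofNat]
  calc (2 : ℝ≥0∞) ^ ((3/2 : ℝ) - 1) ≤ 2 ^ (1 : ℝ) :=
        ENNReal.rpow_le_rpow_of_exponent_le (by norm_num) (by norm_num)
    _ = 2 := ENNReal.rpow_one 2

/-- **value of the child plates = near + far.** -/
theorem val_le (B : ℕ → ℝ) (k : ℕ) : ∃ C : ℝ, 0 ≤ C ∧ ∀ (h : E2 → ℝ), ParB B h →
    ∀ (q A c0 : ℝ) (g : E2 → ℂ) (r1 dl s1 s2 s1' s2' D K δ : ℝ) (I1 : Finset ℕ) (P1 : ℕ → Plate)
    (I : Finset ℕ) (P : ℕ → Plate), 1 ≤ r1 → 0 < dl → dl ≤ 1 → 1 ≤ dl * r1 → 0 < s1 → 0 < s2 →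
    Par q A c0 h g r1 s1' s2' D I1 P1 → Plates A h (dl * r1) s1 s2 r1 I P →
    P654.IsMis δ h g dl r1 I1 P1 I P →
    val h (sel (an r1) g (uS I1 P1)) (dl * r1) s1 s2 I P ≤
      ENNReal.ofReal (C * (dl⁻¹) ^ (3/2 : ℝ) * (s1 * s2) ^ (-(1/2) : ℝ)) *
        (ENNReal.ofReal (∑ i ∈ I, (∑ T ∈ Ic A r1 I1 P1,
          om (k + 4) δ h r1 dl s1 s2 K P1 P i T * mu (an r1) (an r1 * r1) g P1 T) ^ (3/2 : ℝ)) +
        (∑ i ∈ I, fw (k + 4) h g A r1 dl s1 s2 K I1 P1 P i) ^ (3/2 : ℝ)) := by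
  obtain ⟨C, hC, h1⟩ := e_le B k
  have hc1 := c1_pos
  have hcd := cdec_nonneg
  refine ⟨2 * C ^ (3/2 : ℝ) * (36 * cdec + 1) ^ (3/2 : ℝ), by positivity, ?_⟩
  intro h hB q A c0 g r1 dl s1 s2 s1' s2' D K δ I1 P1 I P hr1 hdl hdl1 hr' hs1 hs2 hp hP hmis
  have hr0 : 0 < dl * r1 := by linarith
  set nn : ℕ → ℝ := fun i => ∑ T ∈ Ic A r1 I1 P1,
    om (k + 4) δ h r1 dl s1 s2 K P1 P i T * mu (an r1) (an r1 * r1) g P1 T with hnn
  have hnn0 : ∀ i, 0 ≤ nn i := fun i =>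
    Finset.sum_nonneg fun T _ => mul_nonneg (om_nonneg _ _ _) (mu_nonneg _ _ _ _ _)
  set ff : ℕ → ℝ≥0∞ := fun i => fw (k + 4) h g A r1 dl s1 s2 K I1 P1 P i with hff
  have hterm : ∀ i ∈ I, (en (an (dl * r1)) (tr h (P i).z (sel (an r1) g (uS I1 P1))) (P i).S) ^
      (3/2 : ℝ) ≤ ENNReal.ofReal (2 * (C * dl⁻¹) ^ (3/2 : ℝ) * (36 * cdec + 1) ^ (3/2 : ℝ)) *
        (ENNReal.ofReal (nn i ^ (3/2 : ℝ)) + ff i ^ (3/2 : ℝ)) := by
    intro i hi
    have h2 := h1 h hB q A c0 g r1 dl s1 s2 s1' s2' D K δ I1 P1 I P hr1 hdl hdl1 hr' hp hP hmis i hi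
    refine (pow_split (by positivity) h2).trans ?_
    rw [ENNReal.ofReal_mul (p := 2 * (C * dl⁻¹) ^ (3/2 : ℝ)) (by positivity), mul_assoc]
    refine mul_le_mul' le_rfl ?_
    rw [mul_add]
    refine add_le_add (le_of_eq ?_) ?_
    · rw [ENNReal.ofReal_rpow_of_nonneg (mul_nonneg hc1.le (hnn0 i)) (by norm_num),
        ← ENNReal.ofReal_mul (by positivity), Real.mul_rpow hc1.le (hnn0 i)]
    · have h3 : (1 : ℝ≥0∞) ≤ ENNReal.ofReal ((36 * cdec + 1) ^ (3/2 : ℝ)) := by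
        rw [← ENNReal.ofReal_one]
        refine ENNReal.ofReal_le_ofReal ?_
        exact Real.one_le_rpow (by linarith) (by norm_num)
      calc ff i ^ (3/2 : ℝ) = 1 * ff i ^ (3/2 : ℝ) := (one_mul _).symm
        _ ≤ _ := mul_le_mul' h3 le_rfl
  unfold val
  calc ∑ i ∈ I, ENNReal.ofReal ((s1 * s2 * (dl * r1) ^ 3) ^ (-(1/2) : ℝ)) *
        (ENNReal.ofReal (dl * r1) * en ((dl * r1) ^ (-(1/2) : ℝ))
          (tr h (P i).z (sel (an r1) g (uS I1 P1))) (P i).S) ^ (3 / 2 : ℝ)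
      = ∑ i ∈ I, ENNReal.ofReal ((s1 * s2) ^ (-(1/2) : ℝ)) *
        (en (an (dl * r1)) (tr h (P i).z (sel (an r1) g (uS I1 P1))) (P i).S) ^ (3/2 : ℝ) :=
        Finset.sum_congr rfl fun i _ => val_term hr0 hs1 hs2 _
    _ ≤ ∑ i ∈ I, ENNReal.ofReal ((s1 * s2) ^ (-(1/2) : ℝ)) *
        (ENNReal.ofReal (2 * (C * dl⁻¹) ^ (3/2 : ℝ) * (36 * cdec + 1) ^ (3/2 : ℝ)) *
        (ENNReal.ofReal (nn i ^ (3/2 : ℝ)) + ff i ^ (3/2 : ℝ))) :=
        Finset.sum_le_sum fun i hi => mul_le_mul' le_rfl (hterm i hi)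
    _ = ENNReal.ofReal (2 * C ^ (3/2 : ℝ) * (36 * cdec + 1) ^ (3/2 : ℝ) * (dl⁻¹) ^ (3/2 : ℝ) *
          (s1 * s2) ^ (-(1/2) : ℝ)) *
        (ENNReal.ofReal (∑ i ∈ I, nn i ^ (3/2 : ℝ)) + ∑ i ∈ I, ff i ^ (3/2 : ℝ)) := by
        rw [← Finset.mul_sum, ← Finset.mul_sum, ← mul_assoc, ← ENNReal.ofReal_mul (by positivity),
          Finset.sum_add_distrib, ENNReal.ofReal_sum_of_nonneg fun i _ =>
            Real.rpow_nonneg (hnn0 i) _]
        congr 2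
        rw [Real.mul_rpow hC (by positivity)]
        ring
    _ ≤ _ := mul_le_mul' le_rfl (add_le_add le_rfl (sum_rpow_le I ff))

/-- real inequality for the tail. -/
theorem tail_real {q r1 dl s1 s2 Y c C1 C3 : ℝ} {M : ℕ} (hq : 0 ≤ q) (hq1 : q ≤ 1) (hr1 : 1 ≤ r1)
    (hdl : 0 < dl) (hdl1 : dl ≤ 1) (hr' : 1 ≤ dl * r1) (hY : 1 ≤ Y) (h1 : an r1 ≤ s1)
    (h2 : an r1 ≤ s2) (hc : 0 ≤ c) (hC1 : 0 ≤ C1) (hC3 : 0 ≤ C3) :
    s2 ^ (-q / 2) * (C1 * (dl⁻¹) ^ (3/2 : ℝ) * (s1 * s2) ^ (-(1/2) : ℝ)) *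
      ((216 * (dl⁻¹) ^ 3 * (c * (Y ^ M)⁻¹)) * C3) ^ (3/2 : ℝ) ≤
    C1 * (216 * c * C3 * (1 + 216 * c * C3)) * r1 ^ (20 : ℕ) * (Y ^ M)⁻¹ := by
  obtain ⟨hρ, hρ1, hρ2⟩ := rp_facts hr1
  have hρ : 0 < an r1 := hρ
  have hr0 : 0 < r1 := by linarith
  have p1 : 0 < s1 := hρ.trans_le h1
  have p2 : 0 < s2 := hρ.trans_le h2
  have hdi : 1 ≤ dl⁻¹ := (one_le_inv₀ hdl).2 hdl1
  have hdr : dl⁻¹ ≤ r1 := by
    rw [inv_le_iff_one_le_mul₀ hdl]
    linarith
  have hYM : 1 ≤ Y ^ M := one_le_pow₀ hY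
  have hYi : (Y ^ M)⁻¹ ≤ 1 := inv_le_one_of_one_le₀ hYM
  have hYi0 : 0 < (Y ^ M)⁻¹ := by positivity
  -- s2 factor
  have b1 : s2 ^ (-q / 2) ≤ r1 := by
    calc s2 ^ (-q / 2) ≤ (an r1) ^ (-q / 2) :=
          Real.rpow_le_rpow_of_nonpos hρ h2 (by linarith)
      _ = r1 ^ (q / 4) := by
          show (r1 ^ (-(1/2) : ℝ)) ^ (-q / 2) = _
          rw [← Real.rpow_mul hr0.le]
          congr 1
          ring
      _ ≤ r1 ^ (1 : ℝ) := Real.rpow_le_rpow_of_exponent_le hr1 (by linarith)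
      _ = r1 := Real.rpow_one r1
  have b2 : (s1 * s2) ^ (-(1/2) : ℝ) ≤ r1 := by
    calc (s1 * s2) ^ (-(1/2) : ℝ) ≤ (an r1 * an r1) ^ (-(1/2) : ℝ) :=
          Real.rpow_le_rpow_of_nonpos (by positivity) (mul_le_mul h1 h2 hρ.le p1.le) (by norm_num)
      _ = r1 ^ (1/2 : ℝ) := by
          show (r1 ^ (-(1/2) : ℝ) * r1 ^ (-(1/2) : ℝ)) ^ (-(1/2) : ℝ) = _
          rw [← Real.rpow_add hr0, ← Real.rpow_mul hr0.le]
          norm_num
      _ ≤ r1 ^ (1 : ℝ) := Real.rpow_le_rpow_of_exponent_le hr1 (by norm_num)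
      _ = r1 := Real.rpow_one r1
  have b3 : (dl⁻¹) ^ (3/2 : ℝ) ≤ r1 ^ 2 := by
    calc (dl⁻¹) ^ (3/2 : ℝ) ≤ (dl⁻¹) ^ (2 : ℝ) :=
          Real.rpow_le_rpow_of_exponent_le hdi (by norm_num)
      _ = (dl⁻¹) ^ 2 := by norm_num
      _ ≤ r1 ^ 2 := pow_le_pow_left₀ (by positivity) hdr 2
  set t : ℝ := (216 * (dl⁻¹) ^ 3 * (c * (Y ^ M)⁻¹)) * C3 with ht
  have ht0 : 0 ≤ t := by positivity
  set c' : ℝ := 216 * c * C3 with hc'
  have hc'0 : 0 ≤ c' := by positivity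
  have t1 : t = c' * (dl⁻¹) ^ 3 * (Y ^ M)⁻¹ := by rw [ht, hc']; ring
  have t2 : t ≤ c' * r1 ^ 3 * (Y ^ M)⁻¹ := by
    rw [t1]
    have : (dl⁻¹) ^ 3 ≤ r1 ^ 3 := pow_le_pow_left₀ (by positivity) hdr 3
    gcongr
  have t3 : t ≤ c' * r1 ^ 3 := t2.trans (mul_le_of_le_one_right (by positivity) hYi)
  have hr3 : 1 ≤ r1 ^ 3 := one_le_pow₀ hr1
  have t4 : t ^ (1/2 : ℝ) ≤ (1 + c') * r1 ^ 3 := by
    have h5 : t ^ (1/2 : ℝ) ≤ 1 + t := by
      rcases le_total t 1 with h6 | h6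
      · exact (Real.rpow_le_one ht0 h6 (by norm_num)).trans (by linarith)
      · calc t ^ (1/2 : ℝ) ≤ t ^ (1 : ℝ) := Real.rpow_le_rpow_of_exponent_le h6 (by norm_num)
          _ = t := Real.rpow_one t
          _ ≤ _ := by linarith
    nlinarith
  have t5 : t ^ (3/2 : ℝ) ≤ c' * (1 + c') * r1 ^ 6 * (Y ^ M)⁻¹ := by
    have e : t ^ (3/2 : ℝ) = t * t ^ (1/2 : ℝ) := by
      have : (3/2 : ℝ) = 1 + 1/2 := by norm_num
      rw [this, Real.rpow_add_of_nonneg ht0 (by norm_num) (by norm_num), Real.rpow_one]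
    rw [e]
    calc t * t ^ (1/2 : ℝ) ≤ (c' * r1 ^ 3 * (Y ^ M)⁻¹) * ((1 + c') * r1 ^ 3) :=
          mul_le_mul t2 t4 (Real.rpow_nonneg ht0 _) (by positivity)
      _ = _ := by ring
  have p3 : 0 ≤ s2 ^ (-q / 2) := Real.rpow_nonneg p2.le _
  have p4 : 0 ≤ (s1 * s2) ^ (-(1/2) : ℝ) := by positivity
  have p5 : 0 ≤ (dl⁻¹) ^ (3/2 : ℝ) := by positivity
  calc s2 ^ (-q / 2) * (C1 * (dl⁻¹) ^ (3/2 : ℝ) * (s1 * s2) ^ (-(1/2) : ℝ)) * t ^ (3/2 : ℝ)
      ≤ r1 * (C1 * r1 ^ 2 * r1) * (c' * (1 + c') * r1 ^ 6 * (Y ^ M)⁻¹) := by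
        gcongr
    _ = C1 * (c' * (1 + c')) * r1 ^ 10 * (Y ^ M)⁻¹ := by ring
    _ ≤ C1 * (c' * (1 + c')) * r1 ^ 20 * (Y ^ M)⁻¹ := by
        have : r1 ^ 10 ≤ r1 ^ 20 := pow_le_pow_right₀ hr1 (by norm_num)
        gcongr
    _ = _ := by rw [hc']

end Crest.Agent.R138.Mis330
end

-- ▼ part R138/Mis2A_535
section

/-!
# R138 / R139: misaligned plates, energy form and numerology (helper535)
-/

set_option autoImplicit false

namespace Crest.Agent.R138.Mis535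

open MeasureTheory Crest.Agent.R138.Tub70

open Classical in
/-- D-max for a dilated box. -/
theorem dens_dil {ι : Type} {θ r q D : ℝ} (hr : 0 < r) (hθ : 0 < θ)
    (I : Finset ι) (c y : ι → E2) (μ : ι → ℝ) (hμ : ∀ i, 0 ≤ μ i)
    (hdm : ∀ (b : OrthonormalBasis (Fin 2) ℝ E2) (s1 s2 : ℝ) (c0 y0 : E2),
        θ ≤ s1 → s1 ≤ 1 → θ ≤ s2 → s2 ≤ 1 →
          ∑ i ∈ I with PB r b s1 s2 c0 y0 (c i) (y i), μ i ≤ D * (max s1 s2) ^ q * (s1 * s2 * r ^ 2))
    (b : OrthonormalBasis (Fin 2) ℝ E2) {s1 s2 : ℝ} (c0 y0 : E2)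
    (h1 : θ ≤ s1) (h1' : s1 ≤ 1) (h2 : θ ≤ s2) (h2' : s2 ≤ 1) {K : ℝ} (hK : 1 ≤ K) :
    ∑ i ∈ I with PB r b (K * s1) (K * s2) c0 y0 (c i) (y i), μ i ≤
      81 * K ^ 4 * (D * (max s1 s2) ^ q * (s1 * s2 * r ^ 2)) := by
  have p1 : 0 < s1 := hθ.trans_le h1
  have p2 : 0 < s2 := hθ.trans_le h2
  set kx : ℝ → ℝ → ℤ := fun s x => round (x / (2 * s)) with hkx
  have hk1 : ∀ s x : ℝ, 0 < s → |x - 2 * s * (kx s x : ℝ)| ≤ s := by
    intro s x hs
    have h3 := abs_sub_round (x / (2 * s))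
    have e : x - 2 * s * (kx s x : ℝ) = (2 * s) * (x / (2 * s) - round (x / (2 * s))) := by
      simp only [hkx]
      field_simp
    rw [e, abs_mul, abs_of_pos (by positivity)]
    nlinarith
  have hk2 : ∀ s x : ℝ, 0 < s → |x| ≤ K * s → kx s x ∈ Finset.Icc (-⌊K⌋) ⌊K⌋ := by
    intro s x hs hx
    have h3 := abs_sub_round (x / (2 * s))
    have h4 : |x / (2 * s)| ≤ K / 2 := by
      rw [abs_div, abs_of_pos (by positivity : 0 < 2 * s), div_le_iff₀ (by positivity)]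
      linarith
    have h5 : |(round (x / (2 * s)) : ℝ)| ≤ K := by
      have h6 := abs_sub_abs_le_abs_sub ((round (x / (2*s)) : ℤ) : ℝ) (x / (2 * s))
      rw [abs_sub_comm ((round (x / (2*s)) : ℤ) : ℝ)] at h6
      linarith
    rw [abs_le] at h5
    rw [Finset.mem_Icc]
    have h7 : round (x / (2 * s)) ≤ ⌊K⌋ := Int.le_floor.2 h5.2
    have h8 : -round (x / (2 * s)) ≤ ⌊K⌋ := Int.le_floor.2 (by push_cast; linarith [h5.1])
    exact ⟨by linarith, h7⟩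
  set J : Finset ((ℤ × ℤ) × (ℤ × ℤ)) := (Finset.Icc (-⌊K⌋) ⌊K⌋ ×ˢ Finset.Icc (-⌊K⌋) ⌊K⌋) ×ˢ
    (Finset.Icc (-⌊K⌋) ⌊K⌋ ×ˢ Finset.Icc (-⌊K⌋) ⌊K⌋) with hJ
  have hfl : (⌊K⌋ : ℝ) ≤ K := Int.floor_le K
  have hfl1 : (1 : ℤ) ≤ ⌊K⌋ := Int.le_floor.2 (by simpa using hK)
  have hcard1 : ((Finset.Icc (-⌊K⌋) ⌊K⌋).card : ℝ) ≤ 3 * K := by
    rw [Int.card_Icc]
    have h0 : (0 : ℤ) ≤ ⌊K⌋ + 1 - -⌊K⌋ := by omega
    have h3 : (((⌊K⌋ + 1 - -⌊K⌋).toNat : ℤ) : ℝ) = ((⌊K⌋ + 1 - -⌊K⌋ : ℤ) : ℝ) := by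
      rw [Int.toNat_of_nonneg h0]
    push_cast at h3
    rw [← Int.cast_natCast (R := ℝ)]
    push_cast
    linarith
  have hcard : (J.card : ℝ) ≤ 81 * K ^ 4 := by
    rw [hJ, Finset.card_product, Finset.card_product]
    push_cast
    have h0 : (0 : ℝ) ≤ ((Finset.Icc (-⌊K⌋) ⌊K⌋).card : ℝ) := Nat.cast_nonneg _
    calc _ ≤ ((3 * K) * (3 * K)) * ((3 * K) * (3 * K)) := by gcongr
      _ = _ := by ring
  set L : ι → (ℤ × ℤ) × (ℤ × ℤ) := fun i =>
    ((kx s1 (inner ℝ (c i - c0) (b 0)), kx s2 (inner ℝ (c i - c0) (b 1))),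
      (kx (s1 * r) (inner ℝ (y i - y0) (b 0)), kx (s2 * r) (inner ℝ (y i - y0) (b 1)))) with hL
  have hnn : 0 ≤ D * (max s1 s2) ^ q * (s1 * s2 * r ^ 2) := by
    refine le_trans ?_ (hdm b s1 s2 c0 y0 h1 h1' h2 h2')
    exact Finset.sum_nonneg fun i _ => hμ i
  have hmain := sum_le_card_mul (I.filter (fun i => PB r b (K * s1) (K * s2) c0 y0 (c i) (y i))) J L μ
    (B := D * (max s1 s2) ^ q * (s1 * s2 * r ^ 2)) ?_ ?_
  · exact hmain.trans (mul_le_mul_of_nonneg_right hcard hnn)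
  · intro i hi
    rw [Finset.mem_filter] at hi
    obtain ⟨_, g1, g2, g3, g4⟩ := hi
    rw [hJ, hL, Finset.mem_product, Finset.mem_product, Finset.mem_product]
    refine ⟨⟨hk2 _ _ p1 g1, hk2 _ _ p2 g2⟩, hk2 _ _ (by positivity) ?_, hk2 _ _ (by positivity) ?_⟩
    · rw [← mul_assoc]; exact g3
    · rw [← mul_assoc]; exact g4
  · intro j _
    set cj : E2 := c0 + vec b ![2 * s1 * (j.1.1 : ℝ), 2 * s2 * (j.1.2 : ℝ)] with hcj
    set yj : E2 := y0 + vec b ![2 * (s1 * r) * (j.2.1 : ℝ), 2 * (s2 * r) * (j.2.2 : ℝ)] with hyj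
    refine le_trans ?_ (hdm b s1 s2 cj yj h1 h1' h2 h2')
    apply Finset.sum_le_sum_of_subset_of_nonneg
    · intro i hi
      rw [Finset.mem_filter, Finset.mem_filter] at hi
      obtain ⟨⟨hi1, _⟩, hLi⟩ := hi
      rw [Finset.mem_filter]
      refine ⟨hi1, ?_⟩
      rw [hL] at hLi
      have e1 : kx s1 (inner ℝ (c i - c0) (b 0)) = j.1.1 := by rw [← hLi]
      have e2 : kx s2 (inner ℝ (c i - c0) (b 1)) = j.1.2 := by rw [← hLi]
      have e3 : kx (s1 * r) (inner ℝ (y i - y0) (b 0)) = j.2.1 := by rw [← hLi]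
      have e4 : kx (s2 * r) (inner ℝ (y i - y0) (b 1)) = j.2.2 := by rw [← hLi]
      have sub : ∀ (u v t : E2) (k : Fin 2), inner ℝ (u - (v + t)) (b k) =
          (inner ℝ (u - v) (b k) : ℝ) - inner ℝ t (b k) := by
        intro u v t k
        rw [← sub_sub, inner_sub_left]
      refine ⟨?_, ?_, ?_, ?_⟩
      · rw [hcj, sub, inner_vec, ← e1]
        exact hk1 _ _ p1
      · rw [hcj, sub, inner_vec, ← e2]
        exact hk1 _ _ p2
      · rw [hyj, sub, inner_vec, ← e3]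
        exact hk1 _ _ (by positivity)
      · rw [hyj, sub, inner_vec, ← e4]
        exact hk1 _ _ (by positivity)
    · intro i _ _
      exact hμ i

section real

theorem phi_le {ρ t A K Gm a1 b1 : ℝ} (hρ : 0 < ρ) (ht : 0 < t) (ht1 : t ≤ 1) (hA : 0 ≤ A)
    (hAK : A ≤ K) (hG : 1 ≤ Gm) (ha0 : 0 ≤ a1) (ha : a1 ≤ Gm * ρ)
    (hb : b1 ≤ Gm * (t⁻¹ * ρ)) :
    2 * (A * a1 + K * b1) / t ≤ 4 * (K * Gm) * ρ / t ^ 2 := by
  have hK : 0 ≤ K := hA.trans hAK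
  have h1 : A * a1 ≤ K * (Gm * (t⁻¹ * ρ)) := by
    refine (mul_le_mul hAK ha ha0 hK).trans ?_
    refine mul_le_mul_of_nonneg_left (mul_le_mul_of_nonneg_left ?_ (by linarith)) hK
    have : 1 ≤ t⁻¹ := (one_le_inv₀ ht).2 ht1
    nlinarith
  have h2 : K * b1 ≤ K * (Gm * (t⁻¹ * ρ)) := mul_le_mul_of_nonneg_left hb hK
  rw [div_le_div_iff₀ ht (by positivity)]
  have h3 : 2 * (A * a1 + K * b1) ≤ 4 * (K * Gm) * ρ * t⁻¹ := by
    have e : K * (Gm * (t⁻¹ * ρ)) = K * Gm * ρ * t⁻¹ := by ring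
    rw [e] at h1 h2
    linarith
  calc 2 * (A * a1 + K * b1) * t ^ 2 ≤ 4 * (K * Gm) * ρ * t⁻¹ * t ^ 2 :=
        mul_le_mul_of_nonneg_right h3 (by positivity)
    _ = 4 * (K * Gm) * ρ * t := by field_simp

theorem brk {q ε ρ r1 dl Gm K φ0 mn G : ℝ} (hq : 0 < q) (hε : 0 < ε) (hr1 : 1 ≤ r1)
    (hρ : ρ = r1 ^ (-(1/2) : ℝ)) (hdl : 0 < dl) (hdl1 : dl ≤ 1) (hG : 1 ≤ Gm) (hK : 1 ≤ K)
    (hφ0 : 0 < φ0) (hφ : φ0 ≤ 4 * (K * Gm) * ρ / dl) (hmn : dl ^ (-G) * ρ ≤ mn)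
    (hGq : 27 / 2 ≤ (G - 1) * (q / 2)) :
    ρ ^ (-ε) * (dl ^ 10 * dl ^ 5) ^ (-(1/2) : ℝ) * (φ0 * r1 / (ρ * r1)) *
      (24 * φ0 / mn) ^ (q / 2) ≤ 4 * 96 ^ (q / 2) * r1 ^ ε * (K * Gm) ^ (1 + q / 2) * dl ^ 5 := by
  have hr0 : 0 < r1 := by linarith
  have pρ : 0 < ρ := by rw [hρ]; exact Real.rpow_pos_of_pos hr0 _
  have hKG : 0 < K * Gm := by positivity
  have pd : 0 < dl ^ (-G) := Real.rpow_pos_of_pos hdl _
  have pmn : 0 < mn := (mul_pos pd pρ).trans_le hmn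
  have e1 : ρ ^ (-ε) ≤ r1 ^ ε := by
    rw [hρ, ← Real.rpow_mul hr0.le]
    exact Real.rpow_le_rpow_of_exponent_le hr1 (by linarith)
  have e2 : (dl ^ 10 * dl ^ 5) ^ (-(1/2) : ℝ) = dl ^ (-(15/2) : ℝ) := by
    rw [← pow_add, ← Real.rpow_natCast, ← Real.rpow_mul hdl.le]
    norm_num
  have e3 : φ0 * r1 / (ρ * r1) ≤ 4 * (K * Gm) * dl ^ (-1 : ℝ) := by
    rw [mul_div_mul_right _ _ hr0.ne', div_le_iff₀ pρ, Real.rpow_neg_one]
    calc φ0 ≤ 4 * (K * Gm) * ρ / dl := hφ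
      _ = _ := by field_simp
  have e4 : 24 * φ0 / mn ≤ 96 * (K * Gm) * dl ^ (G - 1) := by
    have h1 : 24 * φ0 / mn ≤ 24 * (4 * (K * Gm) * ρ / dl) / (dl ^ (-G) * ρ) := by
      gcongr
    refine h1.trans (le_of_eq ?_)
    have h2 : dl ^ (G - 1) = dl ^ G / dl := by
      rw [Real.rpow_sub hdl, Real.rpow_one]
    have h3 : dl ^ (-G) = (dl ^ G)⁻¹ := Real.rpow_neg hdl.le _
    have h4 : 0 < dl ^ G := Real.rpow_pos_of_pos hdl _
    rw [h2, h3]
    field_simp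
    norm_num
  have e5 : (24 * φ0 / mn) ^ (q / 2) ≤ 96 ^ (q / 2) * (K * Gm) ^ (q / 2) * dl ^ (27 / 2 : ℝ) := by
    have h1 : 0 ≤ 24 * φ0 / mn := by positivity
    refine (Real.rpow_le_rpow h1 e4 (by positivity)).trans ?_
    rw [Real.mul_rpow (by positivity) (Real.rpow_nonneg hdl.le _), Real.mul_rpow (by norm_num)
      hKG.le, ← Real.rpow_mul hdl.le]
    refine mul_le_mul_of_nonneg_left ?_ (by positivity)
    exact Real.rpow_le_rpow_of_exponent_ge hdl hdl1 hGq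
  have p1 : 0 < ρ ^ (-ε) := Real.rpow_pos_of_pos pρ _
  have p2 : 0 < dl ^ (-(15/2) : ℝ) := Real.rpow_pos_of_pos hdl _
  have p3 : 0 < r1 ^ ε := Real.rpow_pos_of_pos hr0 _
  have p4 : 0 ≤ (24 * φ0 / mn) ^ (q / 2) := Real.rpow_nonneg (by positivity) _
  rw [e2]
  calc ρ ^ (-ε) * dl ^ (-(15/2) : ℝ) * (φ0 * r1 / (ρ * r1)) * (24 * φ0 / mn) ^ (q / 2)
      ≤ r1 ^ ε * dl ^ (-(15/2) : ℝ) * (4 * (K * Gm) * dl ^ (-1 : ℝ)) *
        (96 ^ (q / 2) * (K * Gm) ^ (q / 2) * dl ^ (27 / 2 : ℝ)) := by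
        have : 0 ≤ φ0 * r1 / (ρ * r1) := by positivity
        have h0 : 0 ≤ 4 * (K * Gm) * dl ^ (-1 : ℝ) := by
          have := Real.rpow_nonneg hdl.le (-1)
          positivity
        gcongr
    _ = 4 * 96 ^ (q / 2) * r1 ^ ε * ((K * Gm) ^ (1 : ℝ) * (K * Gm) ^ (q / 2)) *
        (dl ^ (-(15/2) : ℝ) * dl ^ (-1 : ℝ) * dl ^ (27 / 2 : ℝ)) := by
        rw [Real.rpow_one]; ring
    _ = _ := by
        rw [← Real.rpow_add hKG, ← Real.rpow_add hdl, ← Real.rpow_add hdl, ← Real.rpow_natCast]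
        norm_num

/-- `3/2` powers. -/
theorem pow32 {e B : ℝ} (he : 0 ≤ e) (h : e ≤ B) : e ^ (3/2 : ℝ) ≤ Real.sqrt B * e := by
  have h6 : e ^ (3/2 : ℝ) = Real.sqrt e * e := by
    rw [Real.sqrt_eq_rpow, ← Real.rpow_add_one' he (by norm_num)]
    norm_num
  rw [h6]
  exact mul_le_mul_of_nonneg_right (Real.sqrt_le_sqrt h) he

/-- the normalisation. -/
theorem norm_val {q b1 b2 D r1 k : ℝ} (hb1 : 0 < b1) (hb2 : 0 < b2) (hD : 0 ≤ D) (hr1 : 0 < r1)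
    (hk : 0 ≤ k) :
    b2 ^ (-q / 2) * (b1 * b2) ^ (-(1/2) : ℝ) *
      Real.sqrt (k * (D * b2 ^ q * (b1 * b2 * r1 ^ 2))) = Real.sqrt k * (r1 * Real.sqrt D) := by
  have p : 0 < b2 ^ q := Real.rpow_pos_of_pos hb2 _
  have h1 : Real.sqrt (b2 ^ q) = b2 ^ (q / 2) := by
    rw [Real.sqrt_eq_rpow, ← Real.rpow_mul hb2.le]
    congr 1; ring
  have h2 : b2 ^ (-q / 2) = (b2 ^ (q / 2))⁻¹ := by
    rw [← Real.rpow_neg hb2.le]
    congr 1; ring
  have h3 : (b1 * b2) ^ (-(1/2) : ℝ) = (Real.sqrt (b1 * b2))⁻¹ := by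
    rw [Real.sqrt_eq_rpow, ← Real.rpow_neg (by positivity)]
  have p2 : 0 < b2 ^ (q / 2) := Real.rpow_pos_of_pos hb2 _
  have p3 : 0 < Real.sqrt (b1 * b2) := Real.sqrt_pos.2 (by positivity)
  rw [Real.sqrt_mul hk, Real.sqrt_mul (by positivity), Real.sqrt_mul hD,
    Real.sqrt_mul (by positivity), Real.sqrt_sq hr1.le, h1, h2, h3]
  field_simp

end real

theorem fin_num {q C1 dl K M0 c0 Gm G X r1 ε m T SE SR W U rD : ℝ} (hq : 0 < q) (hC1 : 0 ≤ C1)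
    (hdl : 0 < dl) (hK : 1 ≤ K) (hM0 : 0 ≤ M0) (hc0 : 0 < c0) (hc01 : c0 ≤ 1)
    (hGm : 1 ≤ Gm) (hG : 1 + q / 2 ≤ G) (hX : X = K / c0) (hr1 : 1 ≤ r1) (hε : 0 < ε) (hm : 0 ≤ m)
    (hW : 0 ≤ W) (hrD : 0 ≤ rD)
    (hWU : ∀ k : ℝ, 0 ≤ k → W * Real.sqrt (k * U) = Real.sqrt k * rD)
    (hT : T ≤ Real.sqrt (dl ^ 10 * (K ^ q * K ^ 2) * U) * SE + Real.sqrt (81 * K ^ 4 * U) * SR)
    (hSE : SE ≤ M0 * (dl⁻¹) ^ 3 * m)
    (hSR : SR ≤ C1 * (M0 * (dl⁻¹) ^ 3) *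
      (4 * 96 ^ (q / 2) * r1 ^ ε * (K * Gm) ^ (1 + q / 2) * dl ^ 5 +
        dl ^ 5 * (K ^ q * K ^ 2 / c0)) * m) :
    W * T ≤ (1 + 9 * C1 * (4 * 96 ^ (q / 2) + 1) + 9 * 144) * M0 * r1 ^ ε * X ^ (q + 6) * Gm ^ G *
      dl ^ 2 * rD * m := by
  have hK0 : 0 < K := by linarith
  have hKX : K ≤ X := by
    rw [hX, le_div_iff₀ hc0]; nlinarith
  have hX1 : 1 ≤ X := hK.trans hKX
  have hX0 : 0 < X := by linarith
  have hcX : c0⁻¹ ≤ X := by
    rw [hX, div_eq_mul_inv]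
    exact le_mul_of_one_le_left (inv_nonneg.2 hc0.le) hK
  have h96 : (0 : ℝ) < 96 ^ (q / 2) := by positivity
  have hrp : 1 ≤ r1 ^ ε := Real.one_le_rpow hr1 hε.le
  have hGp : 1 ≤ Gm ^ G := Real.one_le_rpow hGm (by linarith)
  have hXp : 1 ≤ X ^ (q + 6) := Real.one_le_rpow hX1 (by positivity)
  have hGm0 : 0 < Gm := by linarith
  have s1 : Real.sqrt (dl ^ 10 * (K ^ q * K ^ 2)) = dl ^ 5 * (K ^ (q / 2) * K) := by
    have e : dl ^ 10 * (K ^ q * K ^ 2) = (dl ^ 5 * (K ^ (q / 2) * K)) ^ 2 := by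
      have : K ^ q = K ^ (q / 2) * K ^ (q / 2) := by
        rw [← Real.rpow_add hK0]; congr 1; ring
      rw [this]; ring
    rw [e]
    exact Real.sqrt_sq (by positivity)
  have s2 : Real.sqrt (81 * K ^ 4) = 9 * K ^ 2 := by
    rw [show (81 : ℝ) * K ^ 4 = (9 * K ^ 2) ^ 2 by ring]
    exact Real.sqrt_sq (by positivity)
  have h1 : W * T ≤ dl ^ 5 * (K ^ (q / 2) * K) * rD * SE + 9 * K ^ 2 * rD * SR := by
    have e1 := hWU (dl ^ 10 * (K ^ q * K ^ 2)) (by positivity)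
    have e2 := hWU (81 * K ^ 4) (by positivity)
    rw [s1] at e1
    rw [s2] at e2
    calc W * T ≤ W * (Real.sqrt (dl ^ 10 * (K ^ q * K ^ 2) * U) * SE +
          Real.sqrt (81 * K ^ 4 * U) * SR) := mul_le_mul_of_nonneg_left hT hW
      _ = (W * Real.sqrt (dl ^ 10 * (K ^ q * K ^ 2) * U)) * SE +
          (W * Real.sqrt (81 * K ^ 4 * U)) * SR := by ring
      _ = _ := by rw [e1, e2]
  have t1 : K ^ (q / 2) * K ≤ X ^ (q + 6) := by
    calc K ^ (q / 2) * K ≤ X ^ (q / 2) * X :=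
          mul_le_mul (Real.rpow_le_rpow hK0.le hKX (by positivity)) hKX hK0.le (by positivity)
      _ = X ^ (q / 2 + 1) := (Real.rpow_add_one hX0.ne' _).symm
      _ ≤ _ := Real.rpow_le_rpow_of_exponent_le hX1 (by linarith)
  have t2 : K ^ 2 * (K * Gm) ^ (1 + q / 2) ≤ X ^ (q + 6) * Gm ^ G := by
    rw [Real.mul_rpow hK0.le hGm0.le, ← mul_assoc]
    refine mul_le_mul ?_ (Real.rpow_le_rpow_of_exponent_le hGm hG) (by positivity) (by positivity)
    calc K ^ 2 * K ^ (1 + q / 2) = K ^ (2 + (1 + q / 2)) := by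
          rw [Real.rpow_add hK0 2, Real.rpow_ofNat]
      _ ≤ X ^ (2 + (1 + q / 2)) := Real.rpow_le_rpow hK0.le hKX (by positivity)
      _ ≤ _ := Real.rpow_le_rpow_of_exponent_le hX1 (by linarith)
  have t3 : K ^ 2 * (K ^ q * K ^ 2 / c0) ≤ X ^ (q + 6) := by
    calc K ^ 2 * (K ^ q * K ^ 2 / c0) = K ^ q * K ^ 4 * c0⁻¹ := by
          rw [div_eq_mul_inv]; ring
      _ ≤ X ^ q * X ^ 4 * X := by
          have : K ^ q ≤ X ^ q := Real.rpow_le_rpow hK0.le hKX hq.le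
          have : K ^ 4 ≤ X ^ 4 := pow_le_pow_left₀ hK0.le hKX 4
          gcongr
      _ = X ^ (q + 5) := by
          rw [Real.rpow_add hX0, Real.rpow_ofNat]; ring
      _ ≤ _ := Real.rpow_le_rpow_of_exponent_le hX1 (by linarith)
  have hdi : dl ^ 5 * (dl⁻¹) ^ 3 = dl ^ 2 := by
    field_simp
  have hB : 0 ≤ M0 * dl ^ 2 * rD * m := by positivity
  have hXG : 1 ≤ r1 ^ ε * X ^ (q + 6) * Gm ^ G := by
    have := mul_le_mul (mul_le_mul hrp hXp zero_le_one (by linarith)) hGp zero_le_one (by positivity)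
    simpa using this
  have g1 : dl ^ 5 * (K ^ (q / 2) * K) * rD * SE ≤
      (r1 ^ ε * X ^ (q + 6) * Gm ^ G) * (M0 * dl ^ 2 * rD * m) := by
    calc dl ^ 5 * (K ^ (q / 2) * K) * rD * SE
        ≤ dl ^ 5 * (K ^ (q / 2) * K) * rD * (M0 * (dl⁻¹) ^ 3 * m) :=
          mul_le_mul_of_nonneg_left hSE (by positivity)
      _ = (K ^ (q / 2) * K) * (M0 * (dl ^ 5 * (dl⁻¹) ^ 3) * rD * m) := by ring
      _ = (K ^ (q / 2) * K) * (M0 * dl ^ 2 * rD * m) := by rw [hdi]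
      _ ≤ (r1 ^ ε * X ^ (q + 6) * Gm ^ G) * (M0 * dl ^ 2 * rD * m) := by
          refine mul_le_mul_of_nonneg_right (t1.trans ?_) hB
          calc X ^ (q + 6) = 1 * X ^ (q + 6) * 1 := by ring
            _ ≤ r1 ^ ε * X ^ (q + 6) * Gm ^ G := by gcongr
  have g2 : 9 * K ^ 2 * rD * SR ≤ (9 * C1 * (4 * 96 ^ (q / 2) + 1)) *
      (r1 ^ ε * X ^ (q + 6) * Gm ^ G) * (M0 * dl ^ 2 * rD * m) := by
    calc 9 * K ^ 2 * rD * SR ≤ 9 * K ^ 2 * rD * (C1 * (M0 * (dl⁻¹) ^ 3) *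
          (4 * 96 ^ (q / 2) * r1 ^ ε * (K * Gm) ^ (1 + q / 2) * dl ^ 5 +
          dl ^ 5 * (K ^ q * K ^ 2 / c0)) * m) := mul_le_mul_of_nonneg_left hSR (by positivity)
      _ = 9 * C1 * (4 * 96 ^ (q / 2) * r1 ^ ε * (K ^ 2 * (K * Gm) ^ (1 + q / 2)) +
          K ^ 2 * (K ^ q * K ^ 2 / c0)) * (M0 * (dl ^ 5 * (dl⁻¹) ^ 3) * rD * m) := by ring
      _ = 9 * C1 * (4 * 96 ^ (q / 2) * r1 ^ ε * (K ^ 2 * (K * Gm) ^ (1 + q / 2)) +
          K ^ 2 * (K ^ q * K ^ 2 / c0)) * (M0 * dl ^ 2 * rD * m) := by rw [hdi]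
      _ ≤ 9 * C1 * (4 * 96 ^ (q / 2) * r1 ^ ε * (X ^ (q + 6) * Gm ^ G) +
          1 * X ^ (q + 6) * 1) * (M0 * dl ^ 2 * rD * m) := by
          rw [one_mul, mul_one]
          gcongr
      _ ≤ 9 * C1 * (4 * 96 ^ (q / 2) * r1 ^ ε * (X ^ (q + 6) * Gm ^ G) +
          r1 ^ ε * X ^ (q + 6) * Gm ^ G) * (M0 * dl ^ 2 * rD * m) := by
          gcongr
      _ = _ := by ring
  have g3 : 0 ≤ (9 * 144) * (r1 ^ ε * X ^ (q + 6) * Gm ^ G) * (M0 * dl ^ 2 * rD * m) := by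
    positivity
  calc W * T ≤ _ := h1
    _ ≤ _ := add_le_add g1 g2
    _ ≤ (r1 ^ ε * X ^ (q + 6) * Gm ^ G) * (M0 * dl ^ 2 * rD * m) +
        (9 * C1 * (4 * 96 ^ (q / 2) + 1)) * (r1 ^ ε * X ^ (q + 6) * Gm ^ G) *
          (M0 * dl ^ 2 * rD * m) +
        (9 * 144) * (r1 ^ ε * X ^ (q + 6) * Gm ^ G) * (M0 * dl ^ 2 * rD * m) := by linarith
    _ = _ := by ring

/-- the trivial case. -/
theorem triv_num {q C1 dl K M0 c0 Gm G X r1 ε m ρ φ0 rD : ℝ} (hq : 0 < q) (hC1 : 0 ≤ C1)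
    (hdl : 0 < dl) (hdl1 : dl ≤ 1) (hdlG : dl ^ (-G) ≤ r1) (hK : 1 ≤ K) (hM0 : 0 ≤ M0)
    (hc0 : 0 < c0) (hc01 : c0 ≤ 1)
    (hGm : 1 ≤ Gm) (hG : 7 ≤ G) (hX : X = K / c0) (hr1 : 1 ≤ r1) (hε : 0 < ε) (hm : 0 ≤ m)
    (hrD : 0 ≤ rD) (hρ : ρ = r1 ^ (-(1/2) : ℝ)) (hφ : φ0 ≤ 4 * (K * Gm) * ρ / dl)
    (h3 : 1 < 3 * φ0) :
    9 * K ^ 2 * rD * (M0 * (dl⁻¹) ^ 3 * m) ≤
      (1 + 9 * C1 * (4 * 96 ^ (q / 2) + 1) + 9 * 144) * M0 * r1 ^ ε * X ^ (q + 6) * Gm ^ G *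
      dl ^ 2 * rD * m := by
  have hr0 : 0 < r1 := by linarith
  have hK0 : 0 < K := by linarith
  have hKX : K ≤ X := by
    rw [hX, le_div_iff₀ hc0]; nlinarith
  have hX1 : 1 ≤ X := hK.trans hKX
  have h96 : (0 : ℝ) < 96 ^ (q / 2) := by positivity
  have hrp : 1 ≤ r1 ^ ε := Real.one_le_rpow hr1 hε.le
  have h4 : 1 < 12 * (K * Gm) * (ρ / dl) := by
    calc 1 < 3 * φ0 := h3
      _ ≤ 3 * (4 * (K * Gm) * ρ / dl) := by linarith
      _ = _ := by ring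
  have h5 : ρ ^ 2 = r1⁻¹ := by
    rw [hρ, ← Real.rpow_natCast, ← Real.rpow_mul hr0.le, ← Real.rpow_neg_one]; norm_num
  have pdG : 0 < dl ^ G := Real.rpow_pos_of_pos hdl _
  have h6 : r1⁻¹ ≤ dl ^ G := by
    rw [Real.rpow_neg hdl.le] at hdlG
    rw [inv_le_comm₀ hr0 pdG]
    exact hdlG
  have h7 : dl ^ G ≤ dl ^ 7 := by
    rw [← Real.rpow_natCast]
    exact Real.rpow_le_rpow_of_exponent_ge hdl hdl1 (by exact_mod_cast hG)
  have h8 : 1 ≤ (12 * (K * Gm) * (ρ / dl)) ^ 2 := one_le_pow₀ h4.le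
  have h9 : (12 * (K * Gm) * (ρ / dl)) ^ 2 ≤ 144 * (K ^ 2 * Gm ^ 2) * dl ^ 5 := by
    have e : (12 * (K * Gm) * (ρ / dl)) ^ 2 = 144 * (K ^ 2 * Gm ^ 2) * (ρ ^ 2 / dl ^ 2) := by
      ring
    rw [e, h5]
    refine mul_le_mul_of_nonneg_left ?_ (by positivity)
    rw [div_le_iff₀ (by positivity)]
    calc r1⁻¹ ≤ dl ^ 7 := h6.trans h7
      _ = _ := by ring
  have h10 : (dl⁻¹) ^ 3 ≤ 144 * (K ^ 2 * Gm ^ 2) * dl ^ 2 := by
    have h11 : 1 ≤ 144 * (K ^ 2 * Gm ^ 2) * dl ^ 5 := h8.trans h9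
    rw [inv_pow, inv_le_iff_one_le_mul₀ (by positivity)]
    calc 1 ≤ 144 * (K ^ 2 * Gm ^ 2) * dl ^ 5 := h11
      _ = _ := by ring
  have h12 : Gm ^ 2 ≤ Gm ^ G := by
    rw [← Real.rpow_natCast]
    exact Real.rpow_le_rpow_of_exponent_le hGm (by push_cast; linarith)
  have h13 : K ^ 4 ≤ X ^ (q + 6) := by
    calc K ^ 4 ≤ X ^ 4 := pow_le_pow_left₀ hK0.le hKX 4
      _ = X ^ ((4 : ℕ) : ℝ) := (Real.rpow_natCast _ _).symm
      _ ≤ X ^ (q + 6) := Real.rpow_le_rpow_of_exponent_le hX1 (by push_cast; linarith)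
  have h14 : (9 : ℝ) * 144 ≤ 1 + 9 * C1 * (4 * 96 ^ (q / 2) + 1) + 9 * 144 := by
    have : 0 ≤ 9 * C1 * (4 * 96 ^ (q / 2) + 1) := by positivity
    linarith
  calc 9 * K ^ 2 * rD * (M0 * (dl⁻¹) ^ 3 * m)
      ≤ 9 * K ^ 2 * rD * (M0 * (144 * (K ^ 2 * Gm ^ 2) * dl ^ 2) * m) := by
        gcongr
    _ = (9 * 144) * M0 * 1 * K ^ 4 * Gm ^ 2 * dl ^ 2 * rD * m := by ring
    _ ≤ (1 + 9 * C1 * (4 * 96 ^ (q / 2) + 1) + 9 * 144) * M0 * r1 ^ ε * X ^ (q + 6) * Gm ^ G *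
        dl ^ 2 * rD * m := by
        gcongr

end Crest.Agent.R138.Mis535
end

-- ▼ part R138/Mis2_535
section

/-!
# R138 / R139: misaligned plates, energy form `mis_E` (helper535)
-/

set_option autoImplicit false
namespace Crest.Agent.R138.Mis535
open MeasureTheory Crest.Agent.R138.Tub70

open Classical in
set_option maxHeartbeats 1000000 in
/-- **misaligned plates are negligible**, energy form: rich and poor plates, all parameters. -/
theorem mis_E {V : ℝ} (hKM : KM32 V) {q A : ℝ} (hq : 0 < q) (hA : 1 ≤ A) : ∃ G : ℝ, 1 ≤ G ∧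
    ∀ ε : ℝ, 0 < ε → ∃ C G' : ℝ, 0 ≤ C ∧ 0 ≤ G' ∧
    ∀ (r1 ρ dl Gm K M0 c0 D a1 a2 b1 b2 : ℝ), 1 ≤ r1 → ρ = r1 ^ (-(1/2) : ℝ) → 0 < dl → dl ≤ 1 →
      dl ^ (-G) ≤ r1 → 1 ≤ Gm → A ≤ K → 0 ≤ M0 → 0 < c0 → c0 ≤ 1 → 0 ≤ D →
      ρ ≤ a1 → a1 ≤ a2 → a2 ≤ 1 → ρ ≤ b1 → b1 ≤ b2 → b2 ≤ 1 → a1 ≤ Gm * ρ →
      b1 ≤ Gm * (dl ^ (-(1/2) : ℝ) * ρ) → dl ^ (-G) * ρ ≤ a2 → dl ^ (-G) * ρ ≤ b2 →
    ∀ (ι κ α : Type) (I : Finset ι) (c y : ι → E2) (μ : ι → ℝ), (∀ i, 0 ≤ μ i) →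
      (∀ i ∈ I, ‖c i‖ ≤ V) → (∀ i ∈ I, ‖y i‖ ≤ V * r1) →
      (∀ (b : OrthonormalBasis (Fin 2) ℝ E2) (s1 s2 : ℝ) (c0 y0 : E2),
        ρ ≤ s1 → s1 ≤ 1 → ρ ≤ s2 → s2 ≤ 1 →
          ∑ i ∈ I with PB r1 b s1 s2 c0 y0 (c i) (y i), μ i ≤
            D * (max s1 s2) ^ q * (s1 * s2 * r1 ^ 2)) →
    ∀ (pl : ι → κ) (bP : κ → OrthonormalBasis (Fin 2) ℝ E2) (cP yP : κ → E2),
      (∀ i ∈ I, PB r1 (bP (pl i)) (A * a1) (A * a2) (cP (pl i)) (yP (pl i)) (c i) (y i)) →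
      (∀ i ∈ I, c0 * D * a2 ^ q * (a1 * a2 * r1 ^ 2) ≤ ∑ i' ∈ I with pl i' = pl i, μ i') →
    ∀ (J : Finset α) (om : α → ι → ℝ) (bA : α → OrthonormalBasis (Fin 2) ℝ E2)
      (cA yA : α → E2),
      (∀ a ∈ J, ∀ i ∈ I, 0 ≤ om a i) → (∀ a ∈ J, ∀ i ∈ I, om a i ≤ 1) →
      (∀ a ∈ J, ∀ i ∈ I, om a i ≠ 0 → PB r1 (bA a) (K * b1) (K * b2) (cA a) (yA a) (c i) (y i)) →
      (∀ a ∈ J, ∀ i ∈ I, om a i ≠ 0 → dl ^ (1/2 : ℝ) ≤ |sn (bP (pl i) 0) (bA a 0)|) →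
      (∀ i ∈ I, ∑ a ∈ J, om a i ≤ M0 * (dl⁻¹) ^ 3) →
      b2 ^ (-q / 2) * (b1 * b2) ^ (-(1/2) : ℝ) * ∑ a ∈ J, (∑ i ∈ I, om a i * μ i) ^ (3/2 : ℝ) ≤
        C * M0 * r1 ^ ε * (K / c0) ^ G' * Gm ^ G * dl ^ 2 * (r1 * Real.sqrt D) *
          ∑ i ∈ I, μ i := by
  set G : ℝ := q + 10 + 30 / q with hGdef
  have hG1 : 1 ≤ G := by
    have : 0 < 30 / q := by positivity
    linarith
  have hGq : 27 / 2 ≤ (G - 1) * (q / 2) := by
    have e : (G - 1) * (q / 2) = q * q / 2 + 9 * q / 2 + 15 := by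
      rw [hGdef]; field_simp; ring
    rw [e]
    nlinarith
  have hG7 : 7 ≤ G := by
    have : 0 < 30 / q := by positivity
    linarith
  have hGq2 : 1 + q / 2 ≤ G := by
    have : 0 < 30 / q := by positivity
    linarith
  refine ⟨G, hG1, ?_⟩
  intro ε hε
  obtain ⟨C1, hC1, hfrac⟩ := mis_frac hKM ε hε
  have h96 : (0 : ℝ) < 96 ^ (q / 2) := by positivity
  refine ⟨1 + 9 * C1 * (4 * 96 ^ (q / 2) + 1) + 9 * 144, q + 6, by positivity, by positivity, ?_⟩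
  intro r1 ρ dl Gm K M0 c0 D a1 a2 b1 b2 hr1 hρ hdl hdl1 hdlG hGm hAK hM0 hc0 hc01 hD ha1 ha12 ha2
    hb1 hb12 hb2 ha1G hb1G ha2G hb2G ι κ α I c y μ hμ hc hy hdm pl bP cP yP hPB hdens J om bA cA yA
    hom0 hom1 hPBA hmis hmult
  have hr0 : 0 < r1 := by linarith
  have pρ : 0 < ρ := by rw [hρ]; exact Real.rpow_pos_of_pos hr0 _
  have hρ1 : ρ ≤ 1 := ha1.trans (ha12.trans ha2)
  have pa1 : 0 < a1 := pρ.trans_le ha1
  have pa2 : 0 < a2 := pa1.trans_le ha12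
  have pb1 : 0 < b1 := pρ.trans_le hb1
  have pb2 : 0 < b2 := pb1.trans_le hb12
  have hK1 : 1 ≤ K := hA.trans hAK
  have hK0 : 0 < K := by linarith
  have hA0 : 0 < A := by linarith
  have pdG : 1 ≤ dl ^ (-G) := Real.one_le_rpow_of_pos_of_le_one_of_nonpos hdl hdl1 (by linarith)
  set m : ℝ := ∑ i ∈ I, μ i with hm
  have hm0 : 0 ≤ m := Finset.sum_nonneg fun i _ => hμ i
  set E : α → ℝ := fun a => ∑ i ∈ I, om a i * μ i with hE
  have hE0 : ∀ a ∈ J, 0 ≤ E a := fun a ha => Finset.sum_nonneg fun i hi =>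
    mul_nonneg (hom0 a ha i hi) (hμ i)
  have hmax : max b1 b2 = b2 := max_eq_right hb12
  set U : ℝ := D * b2 ^ q * (b1 * b2 * r1 ^ 2) with hU
  have pbq : 0 < b2 ^ q := Real.rpow_pos_of_pos pb2 _
  have hU0 : 0 ≤ U := by positivity
  have hup : ∀ a ∈ J, E a ≤ 81 * K ^ 4 * U := by
    intro a ha
    have h1 := dens_dil hr0 pρ I c y μ hμ hdm (bA a) (cA a) (yA a) hb1 (hb12.trans hb2)
      (hb1.trans hb12) hb2 hK1
    rw [hmax] at h1
    refine le_trans ?_ h1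
    rw [Finset.sum_filter]
    refine Finset.sum_le_sum fun i hi => ?_
    by_cases ho : om a i = 0
    · rw [ho, zero_mul]
      split_ifs
      · exact hμ i
      · exact le_rfl
    · rw [if_pos (hPBA a ha i hi ho)]
      exact mul_le_of_le_one_left (hμ i) (hom1 a ha i hi)
  have hsum : ∑ a ∈ J, E a ≤ M0 * (dl⁻¹) ^ 3 * m :=
    sum_multw J I I om subset_rfl (fun a _ i hi _ => hi) μ (fun i _ => hμ i) hmult
  set W : ℝ := b2 ^ (-q / 2) * (b1 * b2) ^ (-(1/2) : ℝ) with hW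
  have hW0 : 0 ≤ W := by
    have := Real.rpow_nonneg pb2.le (-q / 2)
    have := Real.rpow_nonneg (mul_pos pb1 pb2).le (-(1/2))
    positivity
  have hWU : ∀ k : ℝ, 0 ≤ k → W * Real.sqrt (k * U) = Real.sqrt k * (r1 * Real.sqrt D) :=
    fun k hk => norm_val pb1 pb2 hD hr0 hk
  have hsD : 0 ≤ r1 * Real.sqrt D := by positivity
  -- trivial bound
  have htriv : W * ∑ a ∈ J, E a ^ (3/2 : ℝ) ≤
      9 * K ^ 2 * (r1 * Real.sqrt D) * (M0 * (dl⁻¹) ^ 3 * m) := by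
    have h1 : ∑ a ∈ J, E a ^ (3/2 : ℝ) ≤ Real.sqrt (81 * K ^ 4 * U) * ∑ a ∈ J, E a := by
      rw [Finset.mul_sum]
      exact Finset.sum_le_sum fun a ha => pow32 (hE0 a ha) (hup a ha)
    have h2 : Real.sqrt (81 * K ^ 4) = 9 * K ^ 2 := by
      rw [show (81 : ℝ) * K ^ 4 = (9 * K ^ 2) ^ 2 by ring]
      exact Real.sqrt_sq (by positivity)
    calc W * ∑ a ∈ J, E a ^ (3/2 : ℝ) ≤ W * (Real.sqrt (81 * K ^ 4 * U) * ∑ a ∈ J, E a) :=
          mul_le_mul_of_nonneg_left h1 hW0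
      _ = 9 * K ^ 2 * (r1 * Real.sqrt D) * ∑ a ∈ J, E a := by
          rw [← mul_assoc, hWU _ (by positivity), h2]
      _ ≤ _ := mul_le_mul_of_nonneg_left hsum (by positivity)
  rcases hD.eq_or_lt with hD0 | hDp
  · rw [← hD0] at htriv ⊢
    rw [Real.sqrt_zero] at htriv ⊢
    simpa using htriv
  have hpdl : 0 < dl ^ (1/2 : ℝ) := Real.rpow_pos_of_pos hdl _
  have ht1 : dl ^ (1/2 : ℝ) ≤ 1 := Real.rpow_le_one hdl.le hdl1 (by norm_num)
  have ht2 : (dl ^ (1/2 : ℝ)) ^ 2 = dl := by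
    rw [← Real.rpow_natCast, ← Real.rpow_mul hdl.le]; norm_num
  have hb1G' : b1 ≤ Gm * ((dl ^ (1/2 : ℝ))⁻¹ * ρ) := by
    rwa [← Real.rpow_neg hdl.le]
  set φ0 : ℝ := 2 * (A * a1 + K * b1) / dl ^ (1/2 : ℝ) with hφ0
  have pφ : 0 < φ0 := by positivity
  have hφle : φ0 ≤ 4 * (K * Gm) * ρ / dl := by
    have := phi_le pρ hpdl ht1 hA0.le hAK hGm pa1.le ha1G hb1G'
    rwa [ht2] at this
  by_cases h3 : 3 * φ0 ≤ 1
  swap
  · -- the trivial case
    exact htriv.trans (triv_num hq hC1 hdl hdl1 hdlG hK1 hM0 hc0 hc01 hGm hG7 rfl hr1 hε hm0 hsD hρ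
      hφle (not_le.1 h3))
  -- the main case
  set R : Finset α := J.filter (fun a => dl ^ 10 * D * (K * b2) ^ q *
    ((K * b1) * (K * b2) * r1 ^ 2) ≤ E a) with hR
  have hKq : 0 < K ^ q := Real.rpow_pos_of_pos hK0 _
  have hthr : dl ^ 10 * D * (K * b2) ^ q * ((K * b1) * (K * b2) * r1 ^ 2) =
      dl ^ 10 * (K ^ q * K ^ 2) * U := by
    rw [Real.mul_rpow hK0.le pb2.le, hU]; ring
  have hRJ : R ⊆ J := Finset.filter_subset _ _
  have hsplit : ∑ a ∈ J, E a ^ (3/2 : ℝ) ≤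
      Real.sqrt (dl ^ 10 * (K ^ q * K ^ 2) * U) * ∑ a ∈ J, E a +
        Real.sqrt (81 * K ^ 4 * U) * ∑ a ∈ R, E a := by
    rw [← Finset.sum_filter_add_sum_filter_not J (fun a => dl ^ 10 * D * (K * b2) ^ q *
      ((K * b1) * (K * b2) * r1 ^ 2) ≤ E a), add_comm]
    refine add_le_add ?_ ?_
    · have h1 : ∑ a ∈ J with ¬ (dl ^ 10 * D * (K * b2) ^ q *
          ((K * b1) * (K * b2) * r1 ^ 2) ≤ E a), E a ^ (3/2 : ℝ) ≤
          Real.sqrt (dl ^ 10 * (K ^ q * K ^ 2) * U) * ∑ a ∈ J with ¬ (dl ^ 10 * D * (K * b2) ^ q *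
          ((K * b1) * (K * b2) * r1 ^ 2) ≤ E a), E a := by
        rw [Finset.mul_sum]
        refine Finset.sum_le_sum fun a ha => ?_
        rw [Finset.mem_filter] at ha
        refine pow32 (hE0 a ha.1) ?_
        rw [← hthr]
        exact (not_le.1 ha.2).le
      refine h1.trans (mul_le_mul_of_nonneg_left ?_ (Real.sqrt_nonneg _))
      exact Finset.sum_le_sum_of_subset_of_nonneg (Finset.filter_subset _ _)
        fun a ha _ => hE0 a ha
    · rw [Finset.mul_sum]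
      exact Finset.sum_le_sum fun a ha => pow32 (hE0 a (hRJ ha)) (hup a (hRJ ha))
  -- apply the finite estimate to the rich plates
  have hww : ρ * r1 / r1 = ρ := by field_simp
  have hw0 : 0 < ρ * r1 := mul_pos pρ hr0
  have hwr : ρ * r1 ≤ r1 := mul_le_of_le_one_left hr0.le hρ1
  have hAq : 0 < A ^ q := Real.rpow_pos_of_pos hA0 _
  have k1 : ρ * r1 / r1 ≤ A * a1 := by
    rw [hww]; exact ha1.trans (le_mul_of_one_le_left pa1.le hA)
  have k2 : A * a1 ≤ A * a2 := mul_le_mul_of_nonneg_left ha12 hA0.le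
  have k3 : ρ * r1 / r1 ≤ K * b1 := by
    rw [hww]; exact hb1.trans (le_mul_of_one_le_left pb1.le hK1)
  have k4 : K * b1 ≤ K * b2 := mul_le_mul_of_nonneg_left hb12 hK0.le
  have k5 : 0 < c0 / (A ^ q * A ^ 2) := div_pos hc0 (mul_pos hAq (pow_pos hA0 2))
  have k6 : ∀ i ∈ I, c0 / (A ^ q * A ^ 2) * D * (A * a2) ^ q * ((A * a1) * (A * a2) * r1 ^ 2) ≤
      ∑ i' ∈ I with pl i' = pl i, μ i' := by
    intro i hi
    refine le_trans (le_of_eq ?_) (hdens i hi)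
    rw [Real.mul_rpow hA0.le pa2.le]
    field_simp
  have k7 : ∀ a ∈ R, dl ^ 10 * D * (K * b2) ^ q * ((K * b1) * (K * b2) * r1 ^ 2) ≤
      ∑ i ∈ I, om a i * μ i := by
    intro a ha
    exact (Finset.mem_filter.1 ha).2
  have k8 : ∀ i ∈ I, ∑ a ∈ R, om a i ≤ M0 * (dl⁻¹) ^ 3 := by
    intro i hi
    refine le_trans ?_ (hmult i hi)
    exact Finset.sum_le_sum_of_subset_of_nonneg hRJ fun a ha _ => hom0 a ha i hi
  have k9 : 0 ≤ M0 * (dl⁻¹) ^ 3 := mul_nonneg hM0 (pow_nonneg (inv_nonneg.2 hdl.le) 3)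
  have hdm' : ∀ (b : OrthonormalBasis (Fin 2) ℝ E2) (s1 s2 : ℝ) (c0 y0 : E2),
        ρ * r1 / r1 ≤ s1 → s1 ≤ 1 → ρ * r1 / r1 ≤ s2 → s2 ≤ 1 →
          ∑ i ∈ I with PB r1 b s1 s2 c0 y0 (c i) (y i), μ i ≤
            D * (max s1 s2) ^ q * (s1 * s2 * r1 ^ 2) := by
    rw [hww]; exact hdm
  have hrich := hfrac (ρ * r1) r1 q D hw0 hwr hq.le hDp ι κ α I c y μ hμ hc hy
    hdm' pl bP cP yP (A * a1) (A * a2) (c0 / (A ^ q * A ^ 2))
    k1 k2 k5 hPB k6 R om bA cA yA (K * b1) (K * b2) (dl ^ 10) (dl ^ (1/2 : ℝ)) (M0 * (dl⁻¹) ^ 3) φ0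
    k3 k4 (pow_pos hdl 10) hpdl ht1 k9
    (fun a ha => hom0 a (hRJ ha)) (fun a ha => hom1 a (hRJ ha)) (fun a ha => hPBA a (hRJ ha))
    (fun a ha => hmis a (hRJ ha)) k7 k8 rfl h3 (dl ^ 5) (pow_pos hdl 5)
  rw [hww] at hrich
  set mn : ℝ := min (A * a2) (K * b2) with hmn
  have hmn1 : dl ^ (-G) * ρ ≤ mn := le_min (ha2G.trans (le_mul_of_one_le_left pa2.le hA))
    (hb2G.trans (le_mul_of_one_le_left pb2.le hK1))
  have hbrk := brk (Gm := Gm) (K := K) (φ0 := φ0) (mn := mn) hq hε hr1 hρ hdl hdl1 hGm hK1 pφ hφle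
    hmn1 hGq
  have hc0' : dl ^ 5 / (c0 / (A ^ q * A ^ 2)) ≤ dl ^ 5 * (K ^ q * K ^ 2 / c0) := by
    rw [div_div_eq_mul_div, mul_div_assoc]
    have h1 : A ^ q ≤ K ^ q := Real.rpow_le_rpow hA0.le hAK hq.le
    have h2 : A ^ 2 ≤ K ^ 2 := pow_le_pow_left₀ hA0.le hAK 2
    have h3 : A ^ q * A ^ 2 ≤ K ^ q * K ^ 2 :=
      mul_le_mul h1 h2 (by positivity) (by positivity)
    exact mul_le_mul_of_nonneg_left (div_le_div_of_nonneg_right h3 hc0.le) (by positivity)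
  have hrich2 : ∑ a ∈ R, E a ≤ C1 * (M0 * (dl⁻¹) ^ 3) *
      (4 * 96 ^ (q / 2) * r1 ^ ε * (K * Gm) ^ (1 + q / 2) * dl ^ 5 +
        dl ^ 5 * (K ^ q * K ^ 2 / c0)) * m := by
    refine hrich.trans ?_
    refine mul_le_mul_of_nonneg_right ?_ hm0
    exact mul_le_mul_of_nonneg_left (add_le_add hbrk hc0') (mul_nonneg hC1 k9)
  exact fin_num hq hC1 hdl hK1 hM0 hc0 hc01 hGm hGq2 rfl hr1 hε hm0 hW0 hsD hWU hsplit hsum hrich2

end Crest.Agent.R138.Mis535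
end

-- ▼ part R138/Mw9_330

/-!
# R138 / R139: MIS / ALIGN, wave half, part 9 (helper330): `P654.MIS` from the finite real part
-/

set_option autoImplicit false
set_option linter.unusedSectionVars false
set_option linter.unusedVariables false

open MeasureTheory FourierTransform
open scoped ContDiff ENNReal

namespace Crest.Agent.R138.Mis330

open Crest.Agent.R138.Defs Crest.Agent.R138.Wpk685 Crest.Agent.R138.Loc878
open Crest.Agent.R138.W188 (tr Plate uS Plates val)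
open Crest.Agent.R138.Ad480
open Crest.Agent.R138.Mis535 (PB)
open Crest.Agent.R138.P654 (an Smis selQ Par)

theorem lint_En {g : E2 → ℂ} (hg : MemLp g 2) :
    ∫⁻ ξ, ‖g ξ‖ₑ ^ 2 = ENNReal.ofReal (W188.En g) := by
  unfold W188.En
  rw [ofReal_integral_eq_lintegral_ofReal]
  · refine lintegral_congr fun ξ => ?_
    rw [← ofReal_norm, ENNReal.ofReal_pow (norm_nonneg _)]
  · exact hg.integrable_norm_pow (by norm_num)
  · exact Filter.Eventually.of_forall fun ξ => by positivity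

set_option maxHeartbeats 2000000 in
/-- **MIS** (PDef_654). -/
theorem mis (hKM : ∀ V : ℝ, Tub70.KM32 V) (B : ℕ → ℝ) {q : ℝ} (hq : 0 < q) (hq1 : q ≤ 1) :
    P654.MIS B q := by
  classical
  intro A hA
  have hB2 : 0 ≤ |B 2| := abs_nonneg _
  set A1 : ℝ := A + 3 / 2 with hA1
  set V : ℝ := 8 * (1 + |B 2|) + A1 with hV
  obtain ⟨G, hG, hE⟩ := Mis535.mis_E (hKM V) hq (show 1 ≤ A1 by linarith)
  refine ⟨1, G, one_pos, le_rfl, hG, ?_⟩
  intro ε hε
  obtain ⟨C2, G', hC2, hG', hE⟩ := hE ε hε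
  refine ⟨G', hG', ?_⟩
  intro M
  obtain ⟨C1, hC1, hval⟩ := val_le B M
  obtain ⟨C3, hC3, hen⟩ := en_le
  have hcd := cdec_nonneg
  set k1 : ℝ := 2 * A + 3 * (1 + |B 2|) with hk1
  have hk10 : 0 ≤ k1 := by rw [hk1]; positivity
  set Ca : ℝ := C1 * (C2 * 216 * (49 * (1 + k1)) ^ G' * 7) with hCa
  set Cb : ℝ := C1 * (216 * (36 * cdec) * C3 * (1 + 216 * (36 * cdec) * C3)) with hCb
  have hCa0 : 0 ≤ Ca := by positivity
  have hCb0 : 0 ≤ Cb := by positivity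
  refine ⟨Ca + Cb, by positivity, ?_⟩
  intro c0 h g r1 dl Y Gm s1' s2' s1 s2 D I1 P1 I P hC hw' hw hmis
  have hh := hC.parB
  have hp := hC.par
  have hP := hC.pl
  have hdl := hC.dlpos
  have hdl1 := hC.dlle
  have hGm := hC.Gm1
  have hY := hC.Y1
  have hc0 := hC.c0pos
  have hc01 := hC.c0le
  have hr1G := hC.r1ge
  have hdi : 1 ≤ dl ^ (-G) := Real.one_le_rpow_of_pos_of_le_one_of_nonpos hdl hdl1 (by linarith)
  have hr1 : 1 ≤ r1 := hdi.trans hr1G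
  have hr0 : 0 < r1 := by linarith
  have hr' : 1 ≤ dl * r1 := by
    have h1 : dl⁻¹ ≤ dl ^ (-G) := by
      rw [← Real.rpow_neg_one]
      exact Real.rpow_le_rpow_of_exponent_ge hdl hdl1 (by linarith)
    have h2 := mul_le_mul_of_nonneg_left (h1.trans hr1G) hdl.le
    rwa [mul_inv_cancel₀ hdl.ne'] at h2
  obtain ⟨hρ, hρ1, hρ2, hρ', hρ'1, hρ'2, hρρ, hdiv⟩ := an_facts hr1 hdl hdl1 hr'
  have hanr : an (dl * r1) = dl ^ (-(1/2) : ℝ) * an r1 := by
    show (dl * r1) ^ (-(1/2) : ℝ) = _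
    rw [Real.mul_rpow hdl.le hr0.le]
  have hs1 : an (dl * r1) ≤ s1 := hC.sd.lo
  have hs12 : s1 ≤ s2 := hC.sd.le
  have hs2 : s2 ≤ 1 := hC.sd.hi
  have hs1' : an r1 ≤ s1' := hp.sd.lo
  have hs12' : s1' ≤ s2' := hp.sd.le
  have hs2' : s2' ≤ 1 := hp.sd.hi
  have p1 : 0 < s1 := hρ'.trans_le hs1
  have p2 : 0 < s2 := p1.trans_le hs12
  have hD := hp.D0
  set K : ℝ := Y + k1 with hK
  have hKX : Y + 2 * A + 3 * (1 + |B 2|) ≤ K := by rw [hK, hk1]; linarith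
  have hAK : A1 ≤ K := by rw [hA1, hK, hk1]; linarith
  set δ : ℝ := dl ^ (1/2 : ℝ) with hδ
  -- the finite part
  have hfin := hE r1 (an r1) dl Gm K 216 (c0 / 49) (49 * D) s1' s2' s1 s2 hr1 rfl hdl hdl1 hr1G hGm
    hAK (by norm_num) (by positivity) (by linarith) (by positivity) hs1' hs12' hs2'
    (hρρ.trans hs1) hs12 hs2 hC.thin' (by rw [← hanr]; exact hC.thin) hw'
    ((mul_le_mul_of_nonneg_left hρρ (by positivity)).trans hw)
    (ℕ × Cel) ℕ ℕ (Ic A r1 I1 P1) (fun T => gradient h (cen (an r1) T.2.1))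
    (fun T => cen (an r1 * r1) T.2.2) (mu (an r1) (an r1 * r1) g P1)
    (fun T => mu_nonneg _ _ _ _ _)
    (fun T hT => (Ic_vel hh hC.h1 hr1 hT).trans (by rw [hV]; linarith))
    (fun T hT => (Ic_pos hr1 hp hT).trans (by
      refine mul_le_mul_of_nonneg_right ?_ hr0.le
      rw [hV, hA1]
      linarith))
    (fun b t1 t2 c y0 h1 h2 h3 h4 => Ic_dens hr1 hp b t1 t2 c y0 h1 h2 h3 h4)
    (fun T => T.1) (fun a => (P1 a).b) (fun a => (P1 a).c) (fun a => (P1 a).x)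
    (fun T hT => Ic_box (by linarith) hr1 hp hT)
    (fun T hT => by
      have h1 := Ic_plate (A := A) hr1 hp (a := T.1) (mem_Ic hT).1
      have e : c0 / 49 * (49 * D) * s2' ^ q * (s1' * s2' * r1 ^ 2) =
        c0 * D * (s2' ^ q * (s1' * s2' * r1 ^ 2)) := by ring
      rw [e]
      convert h1)
    I (om (M + 4) δ h r1 dl s1 s2 K P1 P) (fun i => (P i).b) (fun i => (P i).c) (fun i => yP P i)
    (fun i _ T _ => om_nonneg _ _ _)
    (fun i hi T _ => om_le_one hρ hρ' hP hi T)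
    (fun i hi T hT h0 => (om_ne _ h0).2)
    (fun i hi T hT h0 => by
      have h1 := (om_ne _ h0).1
      rw [sn_eq, Mis535.sn_comm, abs_neg] at h1
      exact h1.le)
    (fun T hT => sum_om hr0 hdl hdl1 hρ hρ' hP T)
  have hvl := hval h hh q A c0 g r1 dl s1 s2 s1' s2' D K δ I1 P1 I P hr1 hdl hdl1 hr' p1 p2 hp hP
    hmis
  have hfar := sum_fw hh (by linarith : 0 ≤ A) hr1 hdl hdl1 hr' hp hP (by
    intro i
    fin_cases i
    · exact hs1
    · exact hs1.trans hs12) (by linarith : 0 < Y) hKX M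
  set nn : ℝ := ∑ i ∈ I, (∑ T ∈ Ic A r1 I1 P1,
          om (M + 4) δ h r1 dl s1 s2 K P1 P i T * mu (an r1) (an r1 * r1) g P1 T) ^ (3/2 : ℝ)
    with hnn
  set F : ℝ≥0∞ := ∑ i ∈ I, fw (M + 4) h g A r1 dl s1 s2 K I1 P1 P i with hF
  set μt : ℝ := ∑ T ∈ Ic A r1 I1 P1, mu (an r1) (an r1 * r1) g P1 T with hμt
  have hμt0 : 0 ≤ μt := Finset.sum_nonneg fun T _ => mu_nonneg _ _ _ _ _
  have hnn0 : 0 ≤ nn := Finset.sum_nonneg fun i _ => Real.rpow_nonneg (Finset.sum_nonneg fun T _ =>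
    mul_nonneg (om_nonneg _ _ _) (mu_nonneg _ _ _ _ _)) _
  have htot : ENNReal.ofReal μt = en (an r1) g (uS I1 P1) := tot_mu hr1 hp
  have q1 : 0 ≤ s2 ^ (-q / 2) := Real.rpow_nonneg p2.le _
  have q2 : 0 ≤ (s1 * s2) ^ (-(1/2) : ℝ) := by positivity
  have q3 : 0 ≤ (dl⁻¹) ^ (3/2 : ℝ) := by positivity
  calc ENNReal.ofReal (s2 ^ (-q / 2)) * val h (sel (an r1) g (uS I1 P1)) (dl * r1) s1 s2 I P
      ≤ ENNReal.ofReal (s2 ^ (-q / 2)) *
        (ENNReal.ofReal (C1 * (dl⁻¹) ^ (3/2 : ℝ) * (s1 * s2) ^ (-(1/2) : ℝ)) *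
        (ENNReal.ofReal nn + F ^ (3/2 : ℝ))) := mul_le_mul' le_rfl hvl
    _ = ENNReal.ofReal (s2 ^ (-q / 2) * (C1 * (dl⁻¹) ^ (3/2 : ℝ) * (s1 * s2) ^ (-(1/2) : ℝ)) * nn) +
        ENNReal.ofReal (s2 ^ (-q / 2) * (C1 * (dl⁻¹) ^ (3/2 : ℝ) * (s1 * s2) ^ (-(1/2) : ℝ))) *
          F ^ (3/2 : ℝ) := by
        rw [← mul_assoc, ← ENNReal.ofReal_mul q1, mul_add, ← ENNReal.ofReal_mul (by positivity)]
    _ ≤ ENNReal.ofReal ((Ca + Cb) * r1 ^ ε * (Y / c0) ^ G' * Gm ^ G * dl ^ (1/2 : ℝ)) *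
          P654.SCo g r1 D (uS I1 P1) + P654.Tl (Ca + Cb) Y M g r1 := by
        refine add_le_add ?_ ?_
        · -- near part
          unfold P654.SCo
          rw [← htot, ← ENNReal.ofReal_mul (by positivity), ← ENNReal.ofReal_mul (by positivity)]
          refine ENNReal.ofReal_le_ofReal ?_
          have e1 : s2 ^ (-q / 2) * (C1 * (dl⁻¹) ^ (3/2 : ℝ) * (s1 * s2) ^ (-(1/2) : ℝ)) * nn =
              C1 * (dl⁻¹) ^ (3/2 : ℝ) * (s2 ^ (-q / 2) * (s1 * s2) ^ (-(1/2) : ℝ) * nn) := by ring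
          rw [e1]
          refine (mul_le_mul_of_nonneg_left hfin (by positivity)).trans ?_
          have e2 : (dl⁻¹) ^ (3/2 : ℝ) * dl ^ (2 : ℕ) = dl ^ (1/2 : ℝ) := by
            rw [Real.inv_rpow hdl.le, ← Real.rpow_neg hdl.le, ← Real.rpow_natCast dl 2,
              ← Real.rpow_add hdl]
            norm_num
          have e3 : Real.sqrt (49 * D) = 7 * Real.sqrt D := by
            rw [Real.sqrt_mul (by norm_num)]
            congr 1
            rw [show (49 : ℝ) = 7 ^ 2 by norm_num]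
            exact Real.sqrt_sq (by norm_num)
          have e4 : (K / (c0 / 49)) ^ G' ≤ (49 * (1 + k1)) ^ G' * (Y / c0) ^ G' := by
            rw [← Real.mul_rpow (by positivity) (by positivity)]
            refine Real.rpow_le_rpow (by positivity) ?_ hG'
            have : K / (c0 / 49) = 49 * K / c0 := by field_simp
            rw [this, ← mul_div_assoc]
            refine div_le_div_of_nonneg_right ?_ hc0.le
            have h5 : k1 * 1 ≤ k1 * Y := mul_le_mul_of_nonneg_left hY hk10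
            calc 49 * K = 49 * (Y + k1 * 1) := by rw [hK, mul_one]
              _ ≤ 49 * (Y + k1 * Y) := by gcongr
              _ = 49 * (1 + k1) * Y := by ring
          have hsD := Real.sqrt_nonneg D
          have hGG : 0 ≤ Gm ^ G := Real.rpow_nonneg (by linarith) _
          have hrε : 0 ≤ r1 ^ ε := Real.rpow_nonneg hr0.le _
          have hYc : 0 ≤ (Y / c0) ^ G' := Real.rpow_nonneg (by positivity) _
          have hdh : 0 ≤ dl ^ (1/2 : ℝ) := Real.rpow_nonneg hdl.le _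
          rw [e3]
          calc C1 * (dl⁻¹) ^ (3/2 : ℝ) * (C2 * 216 * r1 ^ ε * (K / (c0 / 49)) ^ G' * Gm ^ G *
                dl ^ (2 : ℕ) * (r1 * (7 * Real.sqrt D)) * μt)
              = C1 * ((dl⁻¹) ^ (3/2 : ℝ) * dl ^ (2 : ℕ)) * (C2 * 216 * r1 ^ ε *
                (K / (c0 / 49)) ^ G' * Gm ^ G * (7 * Real.sqrt D * r1) * μt) := by ring
            _ = C1 * dl ^ (1/2 : ℝ) * (C2 * 216 * r1 ^ ε *
                (K / (c0 / 49)) ^ G' * Gm ^ G * (7 * Real.sqrt D * r1) * μt) := by rw [e2]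
            _ ≤ C1 * dl ^ (1/2 : ℝ) * (C2 * 216 * r1 ^ ε *
                ((49 * (1 + k1)) ^ G' * (Y / c0) ^ G') * Gm ^ G * (7 * Real.sqrt D * r1) * μt) := by
                gcongr
            _ = Ca * r1 ^ ε * (Y / c0) ^ G' * Gm ^ G * dl ^ (1/2 : ℝ) * (r1 * Real.sqrt D * μt) := by
                rw [hCa]; ring
            _ ≤ (Ca + Cb) * r1 ^ ε * (Y / c0) ^ G' * Gm ^ G * dl ^ (1/2 : ℝ) *
                (r1 * Real.sqrt D * μt) := by
                have : Ca ≤ Ca + Cb := by linarith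
                gcongr
            _ = _ := by ring
        · -- far part
          unfold P654.Tl
          have hen1 : en (an r1) g (uS I1 P1) ≤ ENNReal.ofReal C3 * ENNReal.ofReal (W188.En g) := by
            have := hen (an r1) hρ hρ1 g hp.gi hp.g2 (uS I1 P1)
            rwa [lint_En hp.g2] at this
          have hF1 : F ≤ ENNReal.ofReal ((216 * (dl⁻¹) ^ 3 * (36 * cdec * (Y ^ M)⁻¹)) * C3) *
              ENNReal.ofReal (W188.En g) := by
            refine hfar.trans ((mul_le_mul' le_rfl hen1).trans (le_of_eq ?_))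
            rw [← mul_assoc, ← ENNReal.ofReal_mul (by positivity)]
          have hF2 : F ^ (3/2 : ℝ) ≤ ENNReal.ofReal
              (((216 * (dl⁻¹) ^ 3 * (36 * cdec * (Y ^ M)⁻¹)) * C3) ^ (3/2 : ℝ)) *
              (ENNReal.ofReal (W188.En g)) ^ (3/2 : ℝ) := by
            refine (ENNReal.rpow_le_rpow hF1 (by norm_num : (0:ℝ) ≤ 3/2)).trans (le_of_eq ?_)
            rw [ENNReal.mul_rpow_of_nonneg _ _ (by norm_num : (0:ℝ) ≤ 3/2),
              ENNReal.ofReal_rpow_of_nonneg (by positivity) (by norm_num)]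
          refine (mul_le_mul' le_rfl hF2).trans ?_
          rw [← mul_assoc, ← ENNReal.ofReal_mul (by positivity)]
          refine mul_le_mul' (ENNReal.ofReal_le_ofReal ?_) le_rfl
          refine (tail_real hq.le hq1 hr1 hdl hdl1 hr' hY (hρρ.trans hs1)
            ((hρρ.trans hs1).trans hs12) (by positivity) hC1 hC3).trans ?_
          have hYM : 0 ≤ (Y ^ M)⁻¹ := by positivity
          calc C1 * (216 * (36 * cdec) * C3 * (1 + 216 * (36 * cdec) * C3)) * r1 ^ (20 : ℕ) *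
                (Y ^ M)⁻¹ = Cb * r1 ^ (20 : ℕ) * (Y ^ M)⁻¹ := by rw [hCb]
            _ ≤ _ := by
                have : Cb ≤ Ca + Cb := by linarith
                gcongr

end Crest.Agent.R138.Mis330
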