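import Mathlib
import Crest.Agent.R138.BCT8_191
import Crest.Agent.R138.Bn9_759
import Crest.Agent.R138.ZmDef_858
import Crest.Agent.R138.Sup5_882
import Crest.Agent.R138.Zm6_858

-- ▼ part R138/BnA1_759
section

/-! R138, broad/narrow end, leaf A4 part 1 (helper759): `BN2` on `cyl (2R)` and with helper191's
trilinear restriction plugged in. -/

set_option autoImplicit false

open MeasureTheory
open scoped ENNReal

namespace Crest.Agent.R138.Bn759

open Crest.Agent.R138.Defs (E2 ee ext ParB cyl)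
open Crest.Agent.R138.Bil882 (NearId ee_eq Gam W lip_of_grad norm_le_add planar_bilinear wt)

lemma avg_ge' {f : E2 × ℝ → ℝ≥0∞} (hf : Measurable f) {K R S : ℝ} (hK : 0 < K) (hS : R + K ≤ S) :
    ∫⁻ p in cyl R, f p ≤ ∫⁻ z in cyl S, (volume (U K z))⁻¹ * ∫⁻ p in U K z, f p := by
  rw [avg_eq hf hK _, ← lintegral_const_mul' _ _
    (ENNReal.inv_ne_top.2 (vU_ne_zero hK 0)), ← lintegral_indicator (measurableSet_cyl R)]
  refine lintegral_mono fun p => ?_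
  by_cases hp : p ∈ cyl R
  · rw [Set.indicator_of_mem hp, Set.inter_eq_self_of_subset_right
      (U_subset_cyl hp hS), volume_U hK, volume_U hK, ← volume_U hK 0]
    rw [mul_comm (f p), ← mul_assoc, ENNReal.inv_mul_cancel (vU_ne_zero hK 0) (vU_ne_top hK 0),
      one_mul]
  · rw [Set.indicator_of_notMem hp]; exact bot_le

lemma avg_le' {f : E2 × ℝ → ℝ≥0∞} (hf : Measurable f) {K S T : ℝ} (hK : 0 < K) (hT : S + K ≤ T) :
    ∫⁻ z in cyl S, (volume (U K z))⁻¹ * ∫⁻ p in U K z, f p ≤ ∫⁻ p in cyl T, f p := by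
  rw [avg_eq hf hK _, ← lintegral_const_mul' _ _
    (ENNReal.inv_ne_top.2 (vU_ne_zero hK 0)), ← lintegral_indicator (measurableSet_cyl _)]
  refine lintegral_mono fun p => ?_
  by_cases hp : p ∈ cyl T
  · rw [Set.indicator_of_mem hp]
    have hle : volume (cyl S ∩ U K p) ≤ volume (U K 0) := by
      calc volume (cyl S ∩ U K p) ≤ volume (U K p) := measure_mono Set.inter_subset_right
        _ = volume (U K 0) := by rw [volume_U hK, volume_U hK]
    calc (volume (U K 0))⁻¹ * (f p * volume (cyl S ∩ U K p))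
        ≤ (volume (U K 0))⁻¹ * (f p * volume (U K 0)) :=
          mul_le_mul_right (mul_le_mul_right hle _) _
      _ = f p := by
          rw [mul_comm (f p), ← mul_assoc,
            ENNReal.inv_mul_cancel (vU_ne_zero hK 0) (vU_ne_top hK 0), one_mul]
  · have e : cyl S ∩ U K p = ∅ := by
      by_contra hne
      obtain ⟨z, hz1, hz2⟩ := Set.nonempty_iff_ne_empty.2 hne
      exact hp (U_subset_cyl (S := T) hz1 hT (mem_U_comm.1 hz2))
    rw [e, measure_empty, mul_zero, mul_zero]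
    exact bot_le

/-- trilinear restriction (helper191) in the form `B3`. -/
theorem B3_holds (ε : ℝ) (hε : 0 < ε) : ∃ C : ℝ, 0 < C ∧ B3 2 ε (7 + ε) C := by
  obtain ⟨C, hC, h⟩ := Crest.Agent.R138.BCT191.trilinear_restriction 2 ε (by norm_num) hε
  refine ⟨C, hC, ?_⟩
  intro f hd hf0 hL ν R hν hν1 hR g hgm hgb hgs htr
  have h1 := h f hd hL hf0 ν R hν hν1 hR g hgm hgb (fun j ξ hξ => by
    by_contra hc; exact hξ (hgs j ξ (not_le.1 hc))) (fun ξ hξ => by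
      have h2 := htr ξ hξ
      unfold dt at h2
      unfold Crest.Agent.R138.BCT191.area
      convert h2 using 2
      simp only [PiLp.sub_apply]
      ring)
  have hN : ∀ j, Nice 2 (g j) := fun j => ⟨hgm j, hgb j, hgs j⟩
  have hE : ∀ j, Crest.Agent.R138.Bct383.sq (Crest.Agent.R138.BCT191.En (g j)) =
      ENNReal.ofReal √(∫ ξ, ‖g j ξ‖ ^ 2) := by
    intro j
    have h3 : Crest.Agent.R138.BCT191.En (g j) = ENNReal.ofReal (∫ ξ, ‖g j ξ‖ ^ 2) := by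
      unfold Crest.Agent.R138.BCT191.En
      rw [ofReal_integral_eq_lintegral_ofReal (hN j).sq_integrable
        (Filter.Eventually.of_forall fun ξ => by positivity)]
      refine lintegral_congr fun ξ => ?_
      rw [ENNReal.ofReal_pow (norm_nonneg _), ofReal_norm]
    rw [h3]
    unfold Crest.Agent.R138.Bct383.sq
    rw [ENNReal.ofReal_rpow_of_nonneg (integral_nonneg fun ξ => by positivity) (by norm_num),
      ← Real.sqrt_eq_rpow]
  rw [hE, hE, hE] at h1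
  refine h1.trans (le_of_eq ?_)
  rw [← ENNReal.ofReal_mul (Real.sqrt_nonneg _), ← ENNReal.ofReal_mul (by positivity),
    ← ENNReal.ofReal_mul (by positivity)]
  congr 1
  rw [Real.inv_rpow hν.le, ← Real.rpow_neg hν.le]
  ring

set_option maxHeartbeats 1000000 in
/-- **BN2** with everything on `cyl (2 R)`, `K ≤ R / 2`. -/
theorem bn_int2 (B : ℕ → ℝ) (hB2 : B 2 ≤ 1 / 10) {ε A C3 : ℝ} (hε : 0 ≤ ε) (hA : 0 ≤ A)
    (hC3 : 0 ≤ C3) (hB3 : B3 2 ε A C3) (N : ℕ) :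
    ∃ C : ℝ, 0 < C ∧ ∀ h : E2 → ℝ, ParB B h → ‖gradient h 0‖ ≤ 1 →
    ∀ K1 K R : ℝ, 1 ≤ K1 → K1 ≤ K → K ≤ R / 2 → ∀ g : E2 → ℂ, Nice 1 g →
      ∫⁻ p in cyl R, ‖ext h g p.1 p.2‖ₑ ^ 3 ≤
        ENNReal.ofReal C * (∑ a ∈ sq (nn K1),
          ∫⁻ p in cyl (2 * R), ‖ext h (pc h K1 {a} g) p.1 p.2‖ₑ ^ 3) +
        ENNReal.ofReal (C * K1 ^ 15) * NN N h g K (2 * R) +
        ENNReal.ofReal (C * K ^ (36 + 2 * A) * R ^ ε * (∫ ξ, ‖g ξ‖ ^ 2) ^ (3 / 2 : ℝ)) := by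
  classical
  set n := max 1 N with hn
  have hn1 : 1 ≤ n := le_max_left _ _
  have hnN : N ≤ 2 * n := by have := le_max_right 1 N; omega
  obtain ⟨C, hC, hball⟩ := bn_ball B hB2 n hn1
  have hI : IW (4 * n) ≠ ∞ := IW_ne_top (by omega)
  set I3 : ℝ := (IW (4 * n)).toReal with hI3
  have hI30 : 0 ≤ I3 := ENNReal.toReal_nonneg
  set CC : ℝ := C + C * (2 ^ n) ^ (3 / 2 : ℝ) + C * (81 * 81) ^ 3 * I3 ^ 3 * C3 * 2 ^ ε with hCC
  have hCC0 : 0 < CC := by positivity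
  refine ⟨CC, hCC0, ?_⟩
  intro h hh h0 K1 K R hK1 hK hKR2 g hg
  have hKR : K ≤ R := by linarith
  have hK0 : 0 < K := by linarith
  have hKK : 1 ≤ K := hK1.trans hK
  have hR0 : 0 < R := by linarith
  have hd : Differentiable ℝ h := hh.1.differentiable (by simp)
  have hc : Continuous h := hd.continuous
  have hN : ∀ j : JJ (nn K) (nn K1), Nice 1 (Gj h K K1 g j) := fun j =>
    (hg.pc hh K1 _).pc hh K _
  have mf : Measurable fun p : E2 × ℝ => ‖ext h g p.1 p.2‖ₑ ^ 3 :=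
    (hg.cont hc).measurable.enorm.pow_const 3
  have mfa : ∀ a : ℤ × ℤ, Measurable fun p : E2 × ℝ => ‖ext h (pc h K1 {a} g) p.1 p.2‖ₑ ^ 3 :=
    fun a => ((hg.pc hh K1 {a}).cont hc).measurable.enorm.pow_const 3
  refine (avg_ge' mf hK0 (S := R + K) le_rfl).trans ?_
  refine (lintegral_mono fun z => hball h hh h0 K1 K hK1 hK g hg z).trans ?_
  rw [lintegral_add_right, lintegral_add_left]
  rotate_left
  · exact (Finset.measurable_fun_sum _ fun a _ => measurable_avg (mfa _) hK0).const_mul _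
  · exact (Finset.measurable_fun_sum _ fun q _ => ((measurable_ML _ hc K (hN _)).mul
      (measurable_ML _ hc K (hN _))).mul (measurable_ML _ hc K (hN _))).const_mul _
  have hSR : cyl (R + K) ⊆ cyl (2 * R) := fun p hp => ⟨hp.1.trans (by linarith), hp.2.trans (by linarith)⟩
  refine add_le_add (add_le_add ?_ ?_) ?_
  · -- narrow
    rw [lintegral_const_mul' _ _ ENNReal.ofReal_ne_top, lintegral_finsetSum _ fun a _ =>
      measurable_avg (mfa _) hK0]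
    have e1 : ∑ a : {a // a ∈ sq (nn K1)}, ∫⁻ z in cyl (R + K), (volume (U K z))⁻¹ *
        ∫⁻ p in U K z, ‖ext h (pc h K1 {(a : ℤ × ℤ)} g) p.1 p.2‖ₑ ^ 3 ≤
        ∑ a ∈ sq (nn K1), ∫⁻ p in cyl (2 * R), ‖ext h (pc h K1 {a} g) p.1 p.2‖ₑ ^ 3 := by
      rw [← Finset.sum_coe_sort (sq (nn K1)) (fun a => ∫⁻ p in cyl (2 * R),
        ‖ext h (pc h K1 {a} g) p.1 p.2‖ₑ ^ 3)]
      exact Finset.sum_le_sum fun a _ => avg_le' (mfa _) hK0 (S := R + K) (by linarith)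
    refine mul_le_mul (ENNReal.ofReal_le_ofReal ?_) e1 bot_le bot_le
    rw [hCC]
    have : 0 ≤ C * (2 ^ n) ^ (3 / 2 : ℝ) + C * (81 * 81) ^ 3 * I3 ^ 3 * C3 * 2 ^ ε := by positivity
    linarith
  · -- bilinear
    rw [lintegral_const_mul' _ _ ENNReal.ofReal_ne_top]
    calc _ ≤ ENNReal.ofReal (C * K1 ^ 15) *
          (ENNReal.ofReal ((2 ^ n) ^ (3 / 2 : ℝ)) * NN N h g K (2 * R)) := by
          gcongr
          exact (lintegral_mono_set hSR).trans (QQ_le_NN hnN h hK0 g (2 * R))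
      _ = ENNReal.ofReal (C * (2 ^ n) ^ (3 / 2 : ℝ) * K1 ^ 15) * NN N h g K (2 * R) := by
          rw [← mul_assoc, ← ENNReal.ofReal_mul (by positivity)]
          congr 2
          ring
      _ ≤ _ := by
          refine mul_le_mul_left (ENNReal.ofReal_le_ofReal ?_) _
          refine mul_le_mul_of_nonneg_right ?_ (by positivity)
          rw [hCC]
          have : 0 ≤ C + C * (81 * 81) ^ 3 * I3 ^ 3 * C3 * 2 ^ ε := by positivity
          linarith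
  · -- broad
    have hmM : ∀ q : JJ (nn K) (nn K1) × JJ (nn K) (nn K1) × JJ (nn K) (nn K1),
        Measurable fun z => ML (4 * n) h K (Gj h K K1 g q.1) z *
          ML (4 * n) h K (Gj h K K1 g q.2.1) z * ML (4 * n) h K (Gj h K K1 g q.2.2) z := fun q =>
      ((measurable_ML _ hc K (hN _)).mul (measurable_ML _ hc K (hN _))).mul
        (measurable_ML _ hc K (hN _))
    rw [lintegral_const_mul' _ _ ENNReal.ofReal_ne_top, lintegral_finsetSum _ fun q _ => hmM q]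
    set D : ℝ := C3 * ((K ^ 2)⁻¹) ^ (-A) * (2 * R) ^ ε * √(∫ ξ, ‖g ξ‖ ^ 2) ^ 3 with hD
    have hD0 : 0 ≤ D := by positivity
    have e1 : ∀ q ∈ Tr K (nn K) (nn K1), ∫⁻ z in cyl (R + K),
        ML (4 * n) h K (Gj h K K1 g q.1) z * ML (4 * n) h K (Gj h K K1 g q.2.1) z *
            ML (4 * n) h K (Gj h K K1 g q.2.2) z ≤ ENNReal.ofReal (I3 ^ 3 * D) := by
      intro q hq
      refine (lintegral_mono_set hSR).trans ?_
      refine (triple_avg (4 * n) hc hK0 (hN q.1) (hN q.2.1) (hN q.2.2) (cyl (2 * R)) _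
        (broad_piece hC3 hB3 hB2 hh h0 hK1 hK hKR hg q hq)).trans (le_of_eq ?_)
      rw [ENNReal.ofReal_mul (p := I3 ^ 3) (by positivity), ENNReal.ofReal_pow hI30, hI3,
        ENNReal.ofReal_toReal hI]
    have e2 : ((Tr K (nn K) (nn K1)).card : ℝ≥0∞) ≤
        ENNReal.ofReal ((81 * K ^ 2 * (81 * K ^ 2)) ^ 3) := by
      refine ofReal_card_le ?_
      have h1 : ((Fintype.card (JJ (nn K) (nn K1)) : ℕ) : ℝ) ≤ 81 * K ^ 2 * (81 * K ^ 2) := by
        rw [Fintype.card_prod, Fintype.card_coe, Fintype.card_coe]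
        push_cast
        refine mul_le_mul (card_sq_le hKK) ((card_sq_le hK1).trans ?_) (by positivity)
          (by positivity)
        gcongr
      have h2 : ((Tr K (nn K) (nn K1)).card : ℝ) ≤
          ((Fintype.card (JJ (nn K) (nn K1)) : ℕ) : ℝ) ^ 3 := by
        have h3 : (Tr K (nn K) (nn K1)).card ≤ Fintype.card (JJ (nn K) (nn K1)) ^ 3 := by
          refine (Finset.card_le_univ _).trans (le_of_eq ?_)
          simp only [Fintype.card_prod]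
          ring
        exact_mod_cast h3
      refine h2.trans ?_
      gcongr
    calc _ ≤ ENNReal.ofReal (C * K ^ 24) * ∑ q ∈ Tr K (nn K) (nn K1),
          ENNReal.ofReal (I3 ^ 3 * D) := by
          gcongr with q hq
          exact e1 q hq
      _ = ENNReal.ofReal (C * K ^ 24) * (((Tr K (nn K) (nn K1)).card : ℝ≥0∞) *
          ENNReal.ofReal (I3 ^ 3 * D)) := by simp
      _ ≤ ENNReal.ofReal (C * K ^ 24) * (ENNReal.ofReal ((81 * K ^ 2 * (81 * K ^ 2)) ^ 3) *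
          ENNReal.ofReal (I3 ^ 3 * D)) := by gcongr
      _ = ENNReal.ofReal (C * K ^ 24 * ((81 * K ^ 2 * (81 * K ^ 2)) ^ 3 * (I3 ^ 3 * D))) := by
          rw [← ENNReal.ofReal_mul (by positivity), ← ENNReal.ofReal_mul (by positivity)]
      _ ≤ _ := by
          refine ENNReal.ofReal_le_ofReal ?_
          have hE : 0 ≤ ∫ ξ, ‖g ξ‖ ^ 2 := integral_nonneg fun ξ => by positivity
          have r1 : √(∫ ξ, ‖g ξ‖ ^ 2) ^ 3 = (∫ ξ, ‖g ξ‖ ^ 2) ^ (3 / 2 : ℝ) := by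
            rw [Real.sqrt_eq_rpow, ← Real.rpow_natCast, ← Real.rpow_mul hE]
            norm_num
          have r2 : ((K ^ 2)⁻¹) ^ (-A) = K ^ (2 * A) := by
            rw [Real.inv_rpow (by positivity), ← Real.rpow_neg (by positivity), neg_neg,
              ← Real.rpow_natCast, ← Real.rpow_mul hK0.le]
            norm_num
          have r3 : (2 * R) ^ ε = 2 ^ ε * R ^ ε := Real.mul_rpow (by norm_num) hR0.le
          have r4 : K ^ (36 + 2 * A) = K ^ 36 * K ^ (2 * A) := by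
            rw [Real.rpow_add hK0]
            congr 1
            exact_mod_cast Real.rpow_natCast K 36
          rw [hD, r1, r2, r3, r4]
          have e3 : C * K ^ 24 * ((81 * K ^ 2 * (81 * K ^ 2)) ^ 3 *
              (I3 ^ 3 * (C3 * K ^ (2 * A) * (2 ^ ε * R ^ ε) *
                (∫ ξ, ‖g ξ‖ ^ 2) ^ (3 / 2 : ℝ)))) =
              (C * (81 * 81) ^ 3 * I3 ^ 3 * C3 * 2 ^ ε) * (K ^ 36 * K ^ (2 * A)) * R ^ ε *
                (∫ ξ, ‖g ξ‖ ^ 2) ^ (3 / 2 : ℝ) := by ring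
          rw [e3]
          have h5 : C * (81 * 81) ^ 3 * I3 ^ 3 * C3 * 2 ^ ε ≤ CC := by
            rw [hCC]
            have : 0 ≤ C + C * (2 ^ n) ^ (3 / 2 : ℝ) := by positivity
            linarith
          gcongr

end Crest.Agent.R138.Bn759
end

-- ▼ part R138/ZmDef2_858
section

/-!
# R138 / R139: ZOOM, strong form of the interface (helper858): absolute `Na'`, `M0' = 2`
-/

set_option autoImplicit false

open MeasureTheory FourierTransform
open scoped ContDiff ENNReal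

namespace Crest.Agent.R138.Zm858

open Crest.Agent.R138.Defs Crest.Agent.R138.Bil882 Crest.Agent.R138.W188

/-- **ZOOM**, local averages, strong form. -/
def ZoomNN2 (B : ℕ → ℝ) (q : ℝ) : Prop := ∃ (θ : ℝ) (Na' : ℕ), 0 < θ ∧ θ ≤ 1 ∧ ∀ ε : ℝ, 0 < ε →
  ∀ (Na : ℕ) (M0 : ℝ) (N : ℕ), ∃ (N1 : ℕ) (C : ℝ), 0 ≤ C ∧
  ∀ h g R D l ξ0 w, ZIn B q Na M0 l ξ0 h g R D → R ^ ε ≤ l ^ 2 * R → 1 ≤ l * w →
    w ≤ R ^ (1/2 : ℝ) → ∀ Q : ℝ, 1 ≤ Q →
    (∀ h' g' D', St B q Na' 2 (1/2) h' g' (θ * (l ^ 2 * R)) D' →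
      NN N h' g' (l * w) (θ * (l ^ 2 * R)) ≤ ENNReal.ofReal (Q * SS g' (θ * (l ^ 2 * R)) D')) →
    NN N1 h g w (2 * R) ≤ ENNReal.ofReal (C * R ^ ε * Q * l ^ (q / 2) * SS g R D)

/-- **ZOOM**, cubic integrals, strong form. -/
def ZoomCC2 (B : ℕ → ℝ) (q : ℝ) : Prop := ∃ (θ : ℝ) (Na' : ℕ), 0 < θ ∧ θ ≤ 1 ∧ ∀ ε : ℝ, 0 < ε →
  ∀ (Na : ℕ) (M0 : ℝ), ∃ C : ℝ, 0 ≤ C ∧
  ∀ h g R D l ξ0, ZIn B q Na M0 l ξ0 h g R D → R ^ ε ≤ l ^ 2 * R → ∀ Q : ℝ, 1 ≤ Q →
    (∀ h' g' D', St B q Na' 2 (1/2) h' g' (θ * (l ^ 2 * R)) D' →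
      CC h' g' (θ * (l ^ 2 * R)) ≤ ENNReal.ofReal (Q * SS g' (θ * (l ^ 2 * R)) D')) →
    CC h g (2 * R) ≤ ENNReal.ofReal (C * R ^ ε * Q * l ^ (q / 2) * SS g R D)

theorem ZoomNN_of {B : ℕ → ℝ} {q : ℝ} (H : ZoomNN2 B q) : ZoomNN B q := by
  obtain ⟨θ, Na', h0, h1, H⟩ := H
  refine ⟨θ, h0, h1, fun ε hε Na M0 => ⟨Na', 2, fun N => ?_⟩⟩
  exact H ε hε Na M0 N

theorem ZoomCC_of {B : ℕ → ℝ} {q : ℝ} (H : ZoomCC2 B q) : ZoomCC B q := by
  obtain ⟨θ, Na', h0, h1, H⟩ := H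
  refine ⟨θ, h0, h1, fun ε hε Na M0 => ?_⟩
  obtain ⟨C, hC, H⟩ := H ε hε Na M0
  exact ⟨Na', 2, C, hC, H⟩

end Crest.Agent.R138.Zm858
end

-- ▼ part R138/BnA2_759
section

/-! R138, broad/narrow end, leaf A4 part 2 (helper759): pieces, subadditivity, trivial bound. -/

set_option autoImplicit false

open MeasureTheory
open scoped ENNReal

namespace Crest.Agent.R138.Bn759

open Crest.Agent.R138.Defs (E2 ee ext ParB cyl)
open Crest.Agent.R138.Bil882 (NearId ee_eq Gam W lip_of_grad norm_le_add planar_bilinear wt)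
open Crest.Agent.R138.W188 (St SS CC En PBox)
open Crest.Agent.R138.Zm858 (PBoxLe ZIn ZoomNN2 ZoomCC2)

lemma rpow_sum_le {ι : Type*} (s : Finset ι) (x : ι → ℝ≥0∞) {p : ℝ} (hp : 0 < p) :
    (∑ i ∈ s, x i) ^ p ≤ (s.card : ℝ≥0∞) ^ p * ∑ i ∈ s, x i ^ p := by
  classical
  rcases s.eq_empty_or_nonempty with hs | hs
  · subst hs
    simp [hp]
  · obtain ⟨i, hi, hmax⟩ := Finset.exists_max_image s x hs
    calc (∑ i ∈ s, x i) ^ p ≤ ((s.card : ℝ≥0∞) * x i) ^ p := by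
          refine ENNReal.rpow_le_rpow ?_ hp.le
          calc ∑ i ∈ s, x i ≤ ∑ _j ∈ s, x i := Finset.sum_le_sum fun j hj => hmax j hj
            _ = (s.card : ℝ≥0∞) * x i := by simp
      _ = (s.card : ℝ≥0∞) ^ p * x i ^ p := ENNReal.mul_rpow_of_nonneg _ _ hp.le
      _ ≤ _ := mul_le_mul_right (Finset.single_le_sum (f := fun i => x i ^ p)
          (fun _ _ => bot_le) hi) _

lemma pow_sum_le {ι : Type*} (s : Finset ι) (x : ι → ℝ≥0∞) {n : ℕ} (hn : 0 < n) :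
    (∑ i ∈ s, x i) ^ n ≤ (s.card : ℝ≥0∞) ^ n * ∑ i ∈ s, x i ^ n := by
  have h := rpow_sum_le s x (p := (n : ℝ)) (by exact_mod_cast hn)
  simpa only [ENNReal.rpow_natCast] using h

lemma _root_.Crest.Agent.R138.W188.St.nice {B : ℕ → ℝ} {q : ℝ} {Na : ℕ} {M0 σ : ℝ} {h : E2 → ℝ}
    {g : E2 → ℂ} {R D : ℝ} (H : St B q Na M0 σ h g R D) : Nice σ g := ⟨H.meas, H.bdd, H.supp⟩

lemma grad0 {h : E2 → ℝ} (h1 : fderiv ℝ h 0 = 0) : ‖gradient h 0‖ ≤ 1 := by
  have : gradient h 0 = 0 := by unfold gradient; rw [h1, map_zero]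
  rw [this, norm_zero]; norm_num

/-! ### subadditivity -/

lemma CC_sum_le {h : E2 → ℝ} (hh : Continuous h) {r : ℝ} {ι : Type*} (s : Finset ι)
    {G : ι → E2 → ℂ} (hG : ∀ i ∈ s, Nice r (G i)) (R : ℝ) :
    CC h (fun ξ => ∑ i ∈ s, G i ξ) R ≤ (s.card : ℝ≥0∞) ^ 3 * ∑ i ∈ s, CC h (G i) R := by
  unfold Crest.Agent.R138.W188.CC
  have hm : ∀ i ∈ s, Measurable fun p : E2 × ℝ => ‖ext h (G i) p.1 p.2‖ₑ ^ 3 := fun i hi =>
    ((hG i hi).cont hh).measurable.enorm.pow_const 3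
  calc ∫⁻ p in cyl R, ‖ext h (fun ξ => ∑ i ∈ s, G i ξ) p.1 p.2‖ₑ ^ 3
      ≤ ∫⁻ p in cyl R, (s.card : ℝ≥0∞) ^ 3 * ∑ i ∈ s, ‖ext h (G i) p.1 p.2‖ₑ ^ 3 := by
        refine lintegral_mono fun p => ?_
        rw [ext_sum hh s hG]
        refine le_trans ?_ (pow_sum_le s (fun i => ‖ext h (G i) p.1 p.2‖ₑ) (by norm_num))
        exact pow_le_pow_left' (enorm_sum_le _ _) 3
    _ = _ := by
        rw [lintegral_const_mul' _ _ (ENNReal.pow_ne_top (ENNReal.natCast_ne_top _)),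
          lintegral_finsetSum' _ fun i hi => (hm i hi).aemeasurable]

lemma NN_sum_le (N : ℕ) {h : E2 → ℝ} (hh : Continuous h) {r : ℝ} {ι : Type*} (s : Finset ι)
    {G : ι → E2 → ℂ} (hG : ∀ i ∈ s, Nice r (G i)) (w R : ℝ) (hw : 0 < w) :
    NN N h (fun ξ => ∑ i ∈ s, G i ξ) w R ≤
      (s.card : ℝ≥0∞) ^ (9 / 2 : ℝ) * ∑ i ∈ s, NN N h (G i) w R := by
  unfold NN
  have hm : ∀ i ∈ s, Measurable fun p : E2 × ℝ => ‖ext h (G i) p.1 p.2‖ₑ ^ 2 := fun i hi =>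
    ((hG i hi).cont hh).measurable.enorm.pow_const 2
  have hmw : ∀ z : E2 × ℝ, Measurable fun p : E2 × ℝ => ENNReal.ofReal (wt N w z.1 z.2 p) :=
    fun z => (Crest.Agent.R138.Bil882.measurable_wt N w z.1 z.2).ennreal_ofReal
  set a : ι → E2 × ℝ → ℝ≥0∞ := fun i z => ENNReal.ofReal (w ^ 3)⁻¹ *
    ∫⁻ p : E2 × ℝ, ‖ext h (G i) p.1 p.2‖ₑ ^ 2 * ENNReal.ofReal (wt N w z.1 z.2 p) with ha
  have hpt : ∀ z : E2 × ℝ, (ENNReal.ofReal (w ^ 3)⁻¹ * ∫⁻ p : E2 × ℝ,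
      ‖ext h (fun ξ => ∑ i ∈ s, G i ξ) p.1 p.2‖ₑ ^ 2 * ENNReal.ofReal (wt N w z.1 z.2 p)) ^
        (3 / 2 : ℝ) ≤ (s.card : ℝ≥0∞) ^ (9 / 2 : ℝ) * ∑ i ∈ s, a i z ^ (3 / 2 : ℝ) := by
    intro z
    have h1 : ENNReal.ofReal (w ^ 3)⁻¹ * ∫⁻ p : E2 × ℝ,
        ‖ext h (fun ξ => ∑ i ∈ s, G i ξ) p.1 p.2‖ₑ ^ 2 * ENNReal.ofReal (wt N w z.1 z.2 p) ≤
        (s.card : ℝ≥0∞) ^ 2 * ∑ i ∈ s, a i z := by
      have h2 : ∫⁻ p : E2 × ℝ, ‖ext h (fun ξ => ∑ i ∈ s, G i ξ) p.1 p.2‖ₑ ^ 2 *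
          ENNReal.ofReal (wt N w z.1 z.2 p) ≤ (s.card : ℝ≥0∞) ^ 2 * ∑ i ∈ s,
          ∫⁻ p : E2 × ℝ, ‖ext h (G i) p.1 p.2‖ₑ ^ 2 * ENNReal.ofReal (wt N w z.1 z.2 p) := by
        calc _ ≤ ∫⁻ p : E2 × ℝ, (s.card : ℝ≥0∞) ^ 2 * ∑ i ∈ s, ‖ext h (G i) p.1 p.2‖ₑ ^ 2 *
              ENNReal.ofReal (wt N w z.1 z.2 p) := by
              refine lintegral_mono fun p => ?_
              rw [ext_sum hh s hG, ← Finset.sum_mul, ← mul_assoc]
              refine mul_le_mul_left ?_ _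
              refine le_trans ?_ (pow_sum_le s (fun i => ‖ext h (G i) p.1 p.2‖ₑ) (by norm_num))
              exact pow_le_pow_left' (enorm_sum_le _ _) 2
          _ = _ := by
              have hmz : ∀ i ∈ s, AEMeasurable (fun p : E2 × ℝ => ‖ext h (G i) p.1 p.2‖ₑ ^ 2 *
                  ENNReal.ofReal (wt N w z.1 z.2 p)) := fun i hi =>
                ((hm i hi).mul (hmw z)).aemeasurable
              rw [lintegral_const_mul' _ _ (ENNReal.pow_ne_top (ENNReal.natCast_ne_top _)),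
                lintegral_finsetSum' _ hmz]
      calc _ ≤ ENNReal.ofReal (w ^ 3)⁻¹ * ((s.card : ℝ≥0∞) ^ 2 * ∑ i ∈ s,
          ∫⁻ p : E2 × ℝ, ‖ext h (G i) p.1 p.2‖ₑ ^ 2 * ENNReal.ofReal (wt N w z.1 z.2 p)) := by
            gcongr
        _ = _ := by
            rw [ha, ← Finset.mul_sum]
            ring
    calc _ ≤ ((s.card : ℝ≥0∞) ^ 2 * ∑ i ∈ s, a i z) ^ (3 / 2 : ℝ) :=
          ENNReal.rpow_le_rpow h1 (by norm_num)
      _ = ((s.card : ℝ≥0∞) ^ 2) ^ (3 / 2 : ℝ) * (∑ i ∈ s, a i z) ^ (3 / 2 : ℝ) :=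
          ENNReal.mul_rpow_of_nonneg _ _ (by norm_num)
      _ ≤ ((s.card : ℝ≥0∞) ^ 2) ^ (3 / 2 : ℝ) *
          ((s.card : ℝ≥0∞) ^ (3 / 2 : ℝ) * ∑ i ∈ s, a i z ^ (3 / 2 : ℝ)) := by
          gcongr
          exact rpow_sum_le s _ (by norm_num)
      _ = _ := by
          rw [← mul_assoc]
          congr 1
          rw [← ENNReal.rpow_natCast, ← ENNReal.rpow_mul,
            ← ENNReal.rpow_add_of_nonneg _ _ (by norm_num) (by norm_num)]
          norm_num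
  have hc : ((s.card : ℝ≥0∞) ^ (9 / 2 : ℝ)) ≠ ∞ :=
    ENNReal.rpow_ne_top_of_nonneg (by norm_num) (ENNReal.natCast_ne_top _)
  calc _ ≤ ∫⁻ z in cyl R, (s.card : ℝ≥0∞) ^ (9 / 2 : ℝ) * ∑ i ∈ s, a i z ^ (3 / 2 : ℝ) :=
        lintegral_mono hpt
    _ ≤ _ := by
        rw [lintegral_const_mul' _ _ hc]
        gcongr
        have hma : ∀ i ∈ s, Measurable (a i) := by
          intro i hi
          rw [ha]
          refine Measurable.const_mul ?_ _
          have h3 : Measurable fun q : (E2 × ℝ) × (E2 × ℝ) =>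
              ‖ext h (G i) q.2.1 q.2.2‖ₑ ^ 2 * ENNReal.ofReal (wt N w q.1.1 q.1.2 q.2) := by
            refine ((hm i hi).comp measurable_snd).mul ?_
            refine Measurable.ennreal_ofReal ?_
            unfold Crest.Agent.R138.Bil882.wt
            fun_prop
          exact h3.lintegral_prod_right'
        rw [lintegral_finsetSum' _ fun i hi => ((hma i hi).pow_const _).aemeasurable]

/-! ### trivial bound -/

lemma En_nonneg' (g : E2 → ℂ) : 0 ≤ En g := integral_nonneg fun ξ => by positivity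

lemma norm_ext_le {h : E2 → ℝ} {r : ℝ} {g : E2 → ℂ} (hg : Nice r g) (x : E2) (t : ℝ) :
    ‖ext h g x t‖ ≤ √(volume.real (Metric.closedBall (0 : E2) r)) * √(En g) := by
  have h1 : ‖ext h g x t‖ ≤ ∫ ξ, ‖g ξ‖ := by
    unfold Crest.Agent.R138.Defs.ext
    refine (norm_integral_le_integral_norm _).trans (le_of_eq ?_)
    refine integral_congr_ae (Filter.Eventually.of_forall fun ξ => ?_)
    simp only
    rw [norm_mul, norm_ee, mul_one]
  refine h1.trans ?_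
  have h2 : ∫ ξ, ‖g ξ‖ = ∫ ξ in Metric.closedBall (0 : E2) r, ‖g ξ‖ := by
    rw [setIntegral_eq_integral_of_forall_compl_eq_zero]
    intro ξ hξ
    rw [hg.s ξ (by simpa using hξ), norm_zero]
  have hfin : IsFiniteMeasure ((volume : Measure E2).restrict (Metric.closedBall 0 r)) :=
    ⟨by rw [Measure.restrict_apply_univ]; exact measure_closedBall_lt_top⟩
  have hmem : MemLp (fun ξ => ‖g ξ‖) (ENNReal.ofReal 2)
      ((volume : Measure E2).restrict (Metric.closedBall 0 r)) := by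
    have := ((memLp_of_bdd hg.m hg.b hg.s).restrict (Metric.closedBall 0 r)).norm
    simpa using this
  have h3 := integral_mul_le_Lp_mul_Lq_of_nonneg (μ := (volume : Measure E2).restrict
    (Metric.closedBall 0 r)) (p := 2) (q := 2) ⟨by norm_num, by norm_num, by norm_num⟩
    (f := fun _ => (1:ℝ)) (g := fun ξ => ‖g ξ‖) (Filter.Eventually.of_forall fun _ => by simp)
    (Filter.Eventually.of_forall fun _ => norm_nonneg _) (memLp_const 1) hmem
  simp only [one_mul, Real.one_rpow, integral_const, smul_eq_mul, mul_one] at h3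
  rw [h2]
  refine h3.trans ?_
  rw [Real.sqrt_eq_rpow, Real.sqrt_eq_rpow]
  have h4 : (volume.restrict (Metric.closedBall (0:E2) r)).real Set.univ =
      volume.real (Metric.closedBall (0 : E2) r) := by
    simp [Measure.real]
  rw [h4]
  refine mul_le_mul_of_nonneg_left ?_ (by positivity)
  refine Real.rpow_le_rpow (integral_nonneg fun ξ => by positivity) ?_ (by norm_num)
  unfold Crest.Agent.R138.W188.En
  simp only [Real.rpow_two]
  exact setIntegral_le_integral hg.sq_integrable (Filter.Eventually.of_forall fun ξ => by positivity)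

/-- trivial bound for bounded `R`. -/
lemma CC_triv (R0 M0 : ℝ) : ∃ C : ℝ, 0 ≤ C ∧ ∀ (B : ℕ → ℝ) (q : ℝ) (Na : ℕ) h g R D,
    St B q Na M0 1 h g R D → R ≤ R0 → CC h g R ≤ ENNReal.ofReal (C * SS g R D) := by
  set V : ℝ := (volume (Metric.closedBall (0 : E2 × ℝ) R0)).toReal with hV
  set v : ℝ := √(volume.real (Metric.closedBall (0 : E2) 1)) with hv
  have hV0 : 0 ≤ V := ENNReal.toReal_nonneg
  have hv0 : 0 ≤ v := Real.sqrt_nonneg _
  set X : ℝ := (max 1 R0) ^ (|M0| / 2) with hX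
  have hX0 : 0 ≤ X := by positivity
  refine ⟨V * v ^ 3 * X, by positivity, ?_⟩
  intro B q Na h g R D H hR
  have hg := H.nice
  have hE := En_nonneg' g
  have hb : ∀ p : E2 × ℝ, ‖ext h g p.1 p.2‖ₑ ^ 3 ≤ ENNReal.ofReal ((v * √(En g)) ^ 3) := by
    intro p
    rw [ENNReal.ofReal_pow (by positivity)]
    gcongr
    rw [← ofReal_norm]
    exact ENNReal.ofReal_le_ofReal (norm_ext_le hg _ _)
  have hsub : cyl R ⊆ Metric.closedBall (0 : E2 × ℝ) R0 := by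
    intro p hp
    rw [mem_closedBall_zero_iff, Prod.norm_def, max_le_iff]
    exact ⟨hp.1.trans hR, by rw [Real.norm_eq_abs]; exact hp.2.trans hR⟩
  have h1 : CC h g R ≤ ENNReal.ofReal ((v * √(En g)) ^ 3) * ENNReal.ofReal V := by
    unfold Crest.Agent.R138.W188.CC
    calc _ ≤ ∫⁻ p in cyl R, ENNReal.ofReal ((v * √(En g)) ^ 3) := lintegral_mono hb
      _ = ENNReal.ofReal ((v * √(En g)) ^ 3) * volume (cyl R) := by
          rw [lintegral_const, Measure.restrict_apply_univ]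
      _ ≤ _ := by
          gcongr
          rw [hV, ENNReal.ofReal_toReal measure_closedBall_lt_top.ne]
          exact measure_mono hsub
  refine h1.trans ?_
  rw [← ENNReal.ofReal_mul (by positivity)]
  refine ENNReal.ofReal_le_ofReal ?_
  have h2 : √(En g) ≤ X * √D := by
    have h3 : En g ≤ X ^ 2 * D := by
      refine H.nd.trans ?_
      refine mul_le_mul_of_nonneg_right ?_ H.D0
      have h4 : R ^ M0 ≤ R ^ |M0| := Real.rpow_le_rpow_of_exponent_le H.R1 (le_abs_self _)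
      have h5 : R ^ |M0| ≤ (max 1 R0) ^ |M0| :=
        Real.rpow_le_rpow (by linarith [H.R1]) (hR.trans (le_max_right _ _)) (abs_nonneg _)
      have h6 : X ^ 2 = (max 1 R0) ^ |M0| := by
        rw [hX, ← Real.rpow_natCast, ← Real.rpow_mul (by positivity)]
        congr 1
        push_cast; ring
      rw [h6]
      exact h4.trans h5
    calc √(En g) ≤ √(X ^ 2 * D) := Real.sqrt_le_sqrt h3
      _ = X * √D := by rw [Real.sqrt_mul (by positivity), Real.sqrt_sq hX0]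
  have h3 : (v * √(En g)) ^ 3 * V = V * v ^ 3 * (√(En g) * √(En g)) * √(En g) := by ring
  rw [h3, Real.mul_self_sqrt hE]
  unfold Crest.Agent.R138.W188.SS
  calc V * v ^ 3 * En g * √(En g) ≤ V * v ^ 3 * En g * (X * √D) := by gcongr
    _ = V * v ^ 3 * X * (1 * En g * √D) := by ring
    _ ≤ V * v ^ 3 * X * (R * En g * √D) := by
        have := H.R1
        gcongr

end Crest.Agent.R138.Bn759
end

-- ▼ part R138/BnA3_759
section

/-! R138, broad/narrow end, leaf A4 part 3 (helper759): pieces are inputs of the zoom. -/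

set_option autoImplicit false

open MeasureTheory
open scoped ENNReal

namespace Crest.Agent.R138.Bn759

open Crest.Agent.R138.Defs (E2 ee ext ParB cyl)
open Crest.Agent.R138.Bil882 (NearId ee_eq Gam W lip_of_grad norm_le_add planar_bilinear wt)
open Crest.Agent.R138.W188 (St SS CC En PBox)
open Crest.Agent.R138.Zm858 (PBoxLe ZIn ZoomNN2 ZoomCC2)
open Crest.Agent.R138.Sup882 (capf capf_eq capf_supp_ball pboxLe_piece)


lemma pc_eq_capf (h : E2 → ℝ) {l : ℝ} (hl : 0 < l) (k : ℤ × ℤ) (g : E2 → ℂ) :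
    pc h l⁻¹ {k} g = fun ξ => g ξ * capf h l k ξ := by
  funext ξ
  rw [capf_eq h hl]
  unfold pc mm Ph
  rw [Finset.sum_singleton, mul_comm]
  rfl

lemma En_pc_le (h : E2 → ℝ) (κ : ℝ) (a : ℤ × ℤ) {r : ℝ} {g : E2 → ℂ} (hg : Nice r g) :
    En (pc h κ {a} g) ≤ En g := integral_sq_le hg (norm_pc_single_le h κ a g)

/-- a piece is an input of the zoom. -/
theorem zin_piece (Na : ℕ) : ∃ C0 : ℝ, 1 ≤ C0 ∧ ∀ (B : ℕ → ℝ), B 2 ≤ 1 / 10 → ∀ (q M0 σ : ℝ) h g R D,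
    St B q Na M0 σ h g R D → σ ≤ 1 → ∀ l : ℝ, 0 < l → 16 * l ≤ 1 →
    R ^ (-(1/2) : ℝ) ≤ 16 * l → ∀ k : ℤ × ℤ, ∃ ξ0 : E2,
      ZIn B q Na M0 (16 * l) ξ0 h (pc h l⁻¹ {k} g) R (C0 * D) := by
  obtain ⟨C0, hC0, hbox⟩ := pboxLe_piece Na 16 (by norm_num)
  refine ⟨C0, hC0, ?_⟩
  intro B hB2 q M0 σ h g R D H hσ l hl hl1 hRl k
  have hR0 : 0 < R := lt_of_lt_of_le one_pos H.R1
  have hn := nearId hB2 H.par
  have hg : Nice σ g := H.nice
  have hN : Nice σ (pc h l⁻¹ {k} g) := hg.pc H.par _ _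
  have hb := hbox q h g R D l H.box hR0 hl hl1 hRl k
  have hξ0 : ∃ ξ0 : E2, ∀ ξ, 16 * l / 4 < ‖ξ - ξ0‖ → pc h l⁻¹ {k} g ξ = 0 := by
    by_cases he : ∃ η, pc h l⁻¹ {k} g η ≠ 0
    · obtain ⟨η, hη⟩ := he
      refine ⟨η, fun ξ hξ => ?_⟩
      by_contra hc
      rw [pc_eq_capf h hl] at hc hη
      have h1 := capf_supp_ball hn hl (right_ne_zero_of_mul hc) (right_ne_zero_of_mul hη)
      linarith
    · push Not at he
      exact ⟨0, fun ξ _ => he ξ⟩
  obtain ⟨ξ0, hξ0⟩ := hξ0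
  refine ⟨ξ0, ?_⟩
  exact
    { par := H.par
      h0 := H.h0
      h1 := H.h1
      meas := hN.m
      bdd := hN.b
      supp1 := fun ξ hξ => hN.s ξ (by linarith)
      supp := hξ0
      l0 := by positivity
      l1 := hl1
      R1 := H.R1
      D0 := mul_nonneg (by linarith) H.D0
      box := by rw [pc_eq_capf h hl]; exact hb
      nd := by
        refine (En_pc_le h _ k hg).trans (H.nd.trans ?_)
        refine mul_le_mul_of_nonneg_left ?_ (by positivity)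
        exact le_mul_of_one_le_left H.D0 hC0 }

/-- energy of the pieces. -/
lemma sum_En_pc {B : ℕ → ℝ} (hB2 : B 2 ≤ 1 / 10) {h : E2 → ℝ} (hh : ParB B h)
    (h0 : ‖gradient h 0‖ ≤ 1) {g : E2 → ℂ} {σ : ℝ} (hσ : σ ≤ 1) (hg : Nice σ g) {κ : ℝ}
    (hκ : 0 < κ) : ∑ a ∈ sq (nn κ), En (pc h κ {a} g) ≤ En g := by
  have hn := nearId hB2 hh
  unfold Crest.Agent.R138.W188.En
  have hi : ∀ a ∈ sq (nn κ), Integrable fun ξ => ‖pc h κ {a} g ξ‖ ^ 2 := fun a _ =>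
    (hg.pc hh κ {a}).sq_integrable
  rw [← integral_finsetSum _ hi]
  refine integral_mono (integrable_finsetSum _ hi) hg.sq_integrable fun ξ => ?_
  simp only
  by_cases hξ : ‖ξ‖ ≤ σ
  · have h1 : ‖κ • gradient h ξ‖ ≤ nn κ := by
      rw [norm_smul, Real.norm_of_nonneg hκ.le]
      calc κ * ‖gradient h ξ‖ ≤ κ * 3 := by
            gcongr
            exact (grad_le hn h0 (hξ.trans hσ)).trans (by norm_num)
        _ = 3 * κ := by ring
        _ ≤ _ := nn_ge κ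
    have h2 := sum_th2 h1
    have h3 : ∀ a ∈ sq (nn κ), ‖pc h κ {a} g ξ‖ ^ 2 ≤ th2 a (κ • gradient h ξ) * ‖g ξ‖ ^ 2 := by
      intro a _
      unfold pc mm Ph
      rw [Finset.sum_singleton, norm_mul, Complex.norm_real, Real.norm_of_nonneg (th2_nonneg a _),
        mul_pow]
      refine mul_le_mul_of_nonneg_right ?_ (by positivity)
      have h4 : th2 a (κ • gradient h ξ) ≤ 1 := by
        unfold th2; exact mul_le_one₀ (th_le_one _) (th_nonneg _) (th_le_one _)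
      have h5 := th2_nonneg a (κ • gradient h ξ)
      nlinarith
    calc _ ≤ ∑ a ∈ sq (nn κ), th2 a (κ • gradient h ξ) * ‖g ξ‖ ^ 2 := Finset.sum_le_sum h3
      _ = ‖g ξ‖ ^ 2 := by rw [← Finset.sum_mul, h2, one_mul]
  · have h1 : ∀ a ∈ sq (nn κ), ‖pc h κ {a} g ξ‖ ^ 2 = 0 := by
      intro a _
      rw [pc_zero_of (hg.s ξ (not_le.1 hξ))]; simp
    rw [Finset.sum_eq_zero h1]
    positivity

/-- decomposition into the pieces. -/
lemma sum_pc {B : ℕ → ℝ} (hB2 : B 2 ≤ 1 / 10) {h : E2 → ℝ} (hh : ParB B h)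
    (h0 : ‖gradient h 0‖ ≤ 1) {g : E2 → ℂ} {σ : ℝ} (hσ : σ ≤ 1) (hg : Nice σ g) {κ : ℝ}
    (hκ : 0 < κ) : (fun ξ => ∑ a ∈ sq (nn κ), pc h κ {a} g ξ) = g := by
  have hn := nearId hB2 hh
  have e3 : (fun ξ => ∑ a ∈ sq (nn κ), pc h κ {a} g ξ) = pc h κ (sq (nn κ)) g := by
    funext ξ
    unfold pc mm Ph
    rw [← Finset.sum_mul]
    congr 1
    push_cast
    simp only [Finset.sum_singleton]
  rw [e3]
  refine pc_full (r := σ) hg.s fun ξ hξ => ?_
  rw [norm_smul, Real.norm_of_nonneg hκ.le]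
  calc κ * ‖gradient h ξ‖ ≤ κ * 3 := by
        gcongr
        exact (grad_le hn h0 (hξ.trans hσ)).trans (by norm_num)
    _ = 3 * κ := by ring
    _ ≤ _ := nn_ge κ

/-- sums of the normalising quantities. -/
lemma sum_SS_pc {B : ℕ → ℝ} (hB2 : B 2 ≤ 1 / 10) {h : E2 → ℝ} (hh : ParB B h)
    (h0 : ‖gradient h 0‖ ≤ 1) {g : E2 → ℂ} {σ : ℝ} (hσ : σ ≤ 1) (hg : Nice σ g) {κ : ℝ}
    (hκ : 0 < κ) {R D C0 : ℝ} (hR : 0 ≤ R) (hC0 : 0 ≤ C0) :
    ∑ a ∈ sq (nn κ), SS (pc h κ {a} g) R (C0 * D) ≤ √C0 * SS g R D := by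
  unfold Crest.Agent.R138.W188.SS
  rw [← Finset.sum_mul, ← Finset.mul_sum, Real.sqrt_mul hC0]
  have h1 := sum_En_pc hB2 hh h0 hσ hg hκ
  calc R * (∑ a ∈ sq (nn κ), En (pc h κ {a} g)) * (√C0 * √D) ≤ R * En g * (√C0 * √D) := by
        gcongr
    _ = _ := by ring

lemma ofReal_sum_le {ι : Type*} (s : Finset ι) (x : ι → ℝ) (hx : ∀ i ∈ s, 0 ≤ x i) {y : ℝ}
    (h : ∑ i ∈ s, x i ≤ y) : ∑ i ∈ s, ENNReal.ofReal (x i) ≤ ENNReal.ofReal y := by
  rw [← ENNReal.ofReal_sum_of_nonneg hx]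
  exact ENNReal.ofReal_le_ofReal h

lemma SS_nonneg {g : E2 → ℂ} {R D : ℝ} (hR : 0 ≤ R) : 0 ≤ SS g R D := by
  unfold Crest.Agent.R138.W188.SS
  have := En_nonneg' g
  positivity

/-- states are monotone in the support radius and in the order of the bumps. -/
lemma St.mono' {B : ℕ → ℝ} {q : ℝ} {Na Na' : ℕ} {M0 σ σ' : ℝ} {h : E2 → ℝ} {g : E2 → ℂ} {R D : ℝ}
    (H : St B q Na M0 σ h g R D) (hNa : Na ≤ Na') (hσ : σ ≤ σ') :
    St B q Na' M0 σ' h g R D :=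
  { par := H.par
    h0 := H.h0
    h1 := H.h1
    meas := H.meas
    bdd := H.bdd
    supp := fun ξ hξ => H.supp ξ (by linarith)
    R1 := H.R1
    D0 := H.D0
    box := fun c b s hs ψ hψ => H.box c b s hs ψ ⟨hψ.1, hψ.2.1, fun j hj => hψ.2.2 j (hj.trans hNa)⟩
    nd := H.nd }

end Crest.Agent.R138.Bn759
end

-- ▼ part R138/BnA4_759
section

/-! R138, broad/narrow end, leaf A4 part 4 (helper759): **A4** from the two zooms. -/

set_option autoImplicit false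

open MeasureTheory
open scoped ENNReal

namespace Crest.Agent.R138.Bn759

open Crest.Agent.R138.Defs (E2 ee ext ParB cyl)
open Crest.Agent.R138.Bil882 (NearId ee_eq Gam W lip_of_grad norm_le_add planar_bilinear wt)
open Crest.Agent.R138.W188 (St SS CC En PBox)
open Crest.Agent.R138.Zm858 (PBoxLe ZIn ZoomNN2 ZoomCC2)

lemma Nice.mono {r r' : ℝ} {g : E2 → ℂ} (hg : Nice r g) (h : r ≤ r') : Nice r' g :=
  ⟨hg.m, hg.b, fun ξ hξ => hg.s ξ (by linarith)⟩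

/-- elementary inequalities for the scales. -/
structure Sc (θ R k1 k ε' : ℝ) : Prop where
  x1 : 1 ≤ R ^ k1
  xy : R ^ k1 ≤ R ^ k
  R1 : 1 ≤ θ * R
  K2 : 16 * R ^ k ≤ θ * R / 2
  Kh : 16 * R ^ k ≤ (θ * R) ^ (1/2 : ℝ)
  lo : (θ * R) ^ (-(1/2) : ℝ) ≤ (R ^ k1)⁻¹
  lo1 : (θ * R) ^ (-(1/2) : ℝ) ≤ 1
  re : (θ * R) ^ ε' ≤ ((R ^ k1)⁻¹) ^ 2 * (θ * R)
  re1 : (θ * R) ^ ε' ≤ θ * R
  ex : R ^ (1 - 2 * k1) = ((R ^ k1)⁻¹) ^ 2 * R

lemma sc_of {θ R k1 k ε' : ℝ} (hθ : 0 < θ) (hθ1 : θ ≤ 1) (hR : 1 ≤ R)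
    (hu : 16 / θ ≤ R ^ (1/4 : ℝ)) (hk1 : 0 < k1) (hkk : k1 ≤ k) (hk : k ≤ 1/4) (hε : 0 ≤ ε')
    (hε8 : ε' ≤ 1/8) : Sc θ R k1 k ε' := by
  have hR0 : 0 < R := by linarith
  set u : ℝ := R ^ (1/4 : ℝ) with hu'
  have hu4 : u ^ 4 = R := by
    rw [hu', ← Real.rpow_natCast, ← Real.rpow_mul hR0.le]; norm_num
  have hu0 : 0 < u := by positivity
  have hθu : 16 ≤ θ * u := by
    rw [div_le_iff₀ hθ] at hu; linarith
  have hu16 : 16 ≤ u := by nlinarith
  have hx1 : 1 ≤ R ^ k1 := Real.one_le_rpow hR hk1.le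
  have hxy : R ^ k1 ≤ R ^ k := Real.rpow_le_rpow_of_exponent_le hR hkk
  have hyu : R ^ k ≤ u := Real.rpow_le_rpow_of_exponent_le hR hk
  have hx0 : 0 < R ^ k1 := by linarith
  have hxu : R ^ k1 ≤ u := hxy.trans hyu
  have hθR : θ * R = (θ * u) * u ^ 3 := by rw [← hu4]; ring
  have h3 : u ^ 3 = u * u ^ 2 := by ring
  have hu2 : 256 ≤ u ^ 2 := by nlinarith
  have hu3 : 256 * u ≤ u ^ 3 := by rw [h3]; nlinarith
  have hbig : 16 * u ^ 3 ≤ θ * R := by rw [hθR]; nlinarith [pow_pos hu0 3]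
  have hR1 : 1 ≤ θ * R := by nlinarith
  have hsq : ∀ y : ℝ, 0 ≤ y → y ^ 2 ≤ θ * R → y ≤ (θ * R) ^ (1/2 : ℝ) := by
    intro y hy h
    rw [← Real.sqrt_eq_rpow]
    exact Real.le_sqrt_of_sq_le h
  have hKh : 16 * R ^ k ≤ (θ * R) ^ (1/2 : ℝ) := by
    refine hsq _ (by positivity) ?_
    have : (16 * R ^ k) ^ 2 ≤ (16 * u) ^ 2 := by
      have : 0 ≤ R ^ k := by positivity
      gcongr
    nlinarith
  have hlo : (θ * R) ^ (-(1/2) : ℝ) ≤ (R ^ k1)⁻¹ := by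
    rw [Real.rpow_neg (by positivity)]
    refine inv_anti₀ hx0 ?_
    refine le_trans ?_ hKh
    linarith
  have hre0 : (θ * R) ^ ε' ≤ u := by
    calc (θ * R) ^ ε' ≤ R ^ ε' := Real.rpow_le_rpow (by positivity) (by nlinarith) hε
      _ ≤ R ^ (1/4 : ℝ) := Real.rpow_le_rpow_of_exponent_le hR (by linarith)
      _ = u := rfl
  refine ⟨hx1, hxy, hR1, ?_, hKh, hlo, ?_, ?_, ?_, ?_⟩
  · have : 16 * R ^ k ≤ 16 * u := by linarith
    nlinarith
  · exact hlo.trans (inv_le_one_of_one_le₀ hx1)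
  · refine hre0.trans ?_
    rw [inv_pow, inv_mul_eq_div, le_div_iff₀ (by positivity)]
    have h1 : (R ^ k1) ^ 2 ≤ u ^ 2 := by gcongr
    calc u * (R ^ k1) ^ 2 ≤ u * u ^ 2 := by gcongr
      _ ≤ θ * R := by nlinarith [pow_pos hu0 3]
  · refine hre0.trans ?_
    nlinarith
  · rw [show 1 - 2 * k1 = 1 + (-k1) * 2 by ring, Real.rpow_add hR0, Real.rpow_one,
      Real.rpow_mul hR0.le, Real.rpow_neg hR0.le, Real.rpow_two]
    ring

lemma En_rpow_le {g : E2 → ℂ} {R D : ℝ} (hR : 1 ≤ R)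
    (hnd : En g ≤ R ^ (2:ℝ) * D) : (∫ ξ, ‖g ξ‖ ^ 2) ^ (3 / 2 : ℝ) ≤ SS g R D := by
  have hE := En_nonneg' g
  have h1 : (∫ ξ, ‖g ξ‖ ^ 2) ^ (3 / 2 : ℝ) = En g * √(En g) := by
    show En g ^ (3 / 2 : ℝ) = En g * √(En g)
    rw [show (3 / 2 : ℝ) = 1 + 1 / 2 by norm_num, Real.rpow_add' hE (by norm_num), Real.rpow_one,
      Real.sqrt_eq_rpow]
  rw [h1]
  unfold Crest.Agent.R138.W188.SS
  have h2 : √(En g) ≤ R * √D := by
    calc √(En g) ≤ √(R ^ (2:ℝ) * D) := Real.sqrt_le_sqrt hnd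
      _ = R * √D := by
          rw [Real.rpow_two, Real.sqrt_mul (by positivity), Real.sqrt_sq (by linarith)]
  calc En g * √(En g) ≤ En g * (R * √D) := by gcongr
    _ = _ := by ring

set_option maxHeartbeats 1000000 in
/-- the inequality at the localised state. -/
theorem core (B : ℕ → ℝ) (hB2 : B 2 ≤ 1 / 10) (q : ℝ) (hq : 0 ≤ q) {θ θn : ℝ} (hθ : 0 < θ)
    (hθ1 : θ ≤ 1) (hθn : 0 < θn) (hθn1 : θn ≤ 1) {Nc Nn : ℕ} {εb ε' : ℝ} (hεb : 0 < εb)
    (hε' : 0 < ε') (hε8 : ε' ≤ 1/8) (N N1 : ℕ) {Cn Cc : ℝ} (hCn : 0 ≤ Cn) (hCc : 0 ≤ Cc)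
    (ZN : ∀ h g R D l ξ0 w, ZIn B q Nc 2 l ξ0 h g R D → R ^ ε' ≤ l ^ 2 * R → 1 ≤ l * w →
      w ≤ R ^ (1/2 : ℝ) → ∀ Q : ℝ, 1 ≤ Q →
      (∀ h' g' D', St B q Nn 2 (1/2) h' g' (θn * (l ^ 2 * R)) D' →
        W188.NN N h' g' (l * w) (θn * (l ^ 2 * R)) ≤
          ENNReal.ofReal (Q * SS g' (θn * (l ^ 2 * R)) D')) →
      W188.NN N1 h g w (2 * R) ≤ ENNReal.ofReal (Cn * R ^ ε' * Q * l ^ (q / 2) * SS g R D))
    (ZC : ∀ h g R D l ξ0, ZIn B q Nc 2 l ξ0 h g R D → R ^ ε' ≤ l ^ 2 * R → ∀ Q : ℝ, 1 ≤ Q →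
      (∀ h' g' D', St B q Nc 2 (1/2) h' g' (θ * (l ^ 2 * R)) D' →
        CC h' g' (θ * (l ^ 2 * R)) ≤ ENNReal.ofReal (Q * SS g' (θ * (l ^ 2 * R)) D')) →
      CC h g (2 * R) ≤ ENNReal.ofReal (Cc * R ^ ε' * Q * l ^ (q / 2) * SS g R D)) :
    ∃ C : ℝ, 1 ≤ C ∧ ∀ k1 k R Q1 Q2 : ℝ, 0 < k1 → k1 ≤ k → k ≤ 1/4 → 1 ≤ R →
      16 / θ ≤ R ^ (1/4 : ℝ) → 1 ≤ Q1 → 1 ≤ Q2 →
      (∀ h' g' R' D', St B q (max Nc Nn) 2 1 h' g' R' D' → R' = θ ^ 2 * R ^ (1 - 2 * k1) →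
        CC h' g' R' ≤ ENNReal.ofReal (Q1 * SS g' R' D')) →
      (∀ h' g' R' D' w', St B q (max Nc Nn) 2 1 h' g' R' D' → R' = θn * θ * R →
        w' = 16 * R ^ k → W188.NN N h' g' w' R' ≤ ENNReal.ofReal (Q2 * SS g' R' D')) →
      ∀ h1 g1 D1, St B q Nc 2 (1/2) h1 g1 (θ * R) D1 →
        CC h1 g1 (θ * R) ≤ ENNReal.ofReal (C * R ^ ε' *
          (Q1 + R ^ ((36 + 2 * (7 + εb)) * k1) * Q2 + R ^ ((36 + 2 * (7 + εb)) * k + εb)) *
            SS g1 (θ * R) D1) := by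
  classical
  obtain ⟨C3, hC3, hB3⟩ := B3_holds εb hεb
  obtain ⟨Cb, hCb, hbn⟩ := bn_int2 B hB2 hεb.le (by positivity : (0:ℝ) ≤ 7 + εb) hC3.le hB3 N1
  obtain ⟨C0, hC0, hzin⟩ := zin_piece Nc
  set A : ℝ := 36 + 2 * (7 + εb) with hA
  have hA15 : 15 ≤ A := by rw [hA]; linarith
  set M : ℝ := ((sq (nn 16)).card : ℝ) with hM
  have hM0 : 0 ≤ M := by positivity
  refine ⟨1 + Cb * Cc * √C0 + Cb * 16 ^ 15 * M ^ (9 / 2 : ℝ) * Cn * √C0 + Cb * 16 ^ A, ?_, ?_⟩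
  · have : 0 ≤ Cb * Cc * √C0 + Cb * 16 ^ 15 * M ^ (9 / 2 : ℝ) * Cn * √C0 + Cb * 16 ^ A := by
      positivity
    linarith
  intro k1 k R Q1 Q2 hk1 hkk hk hR hu hQ1 hQ2 H1 H2 h1 g1 D1 HS
  have sc := sc_of hθ hθ1 hR hu hk1 hkk hk hε'.le hε8
  have hR0 : 0 < R := by linarith
  have hR10 : 0 < θ * R := by positivity
  have hg := HS.nice
  have hgr := grad0 HS.h1
  have hcont : Continuous h1 := HS.par.1.continuous
  set x : ℝ := R ^ k1 with hx
  set y : ℝ := R ^ k with hy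
  have hx0 : 0 < x := by linarith [sc.x1]
  have hy0 : 0 < y := by linarith [sc.x1, sc.xy]
  have hSS0 : 0 ≤ SS g1 (θ * R) D1 := SS_nonneg hR10.le
  have hmain := hbn h1 HS.par hgr (16 * x) (16 * y) (θ * R) (by linarith [sc.x1])
    (by linarith [sc.xy]) sc.K2 g1 (hg.mono (by norm_num))
  -- narrow term
  have hnar : ∑ a ∈ sq (nn (16 * x)), ∫⁻ p in cyl (2 * (θ * R)),
      ‖ext h1 (pc h1 (16 * x) {a} g1) p.1 p.2‖ₑ ^ 3 ≤
      ENNReal.ofReal (Cc * R ^ ε' * Q1 * (√C0 * SS g1 (θ * R) D1)) := by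
    set l : ℝ := (16 * x)⁻¹ with hl
    have hl0 : 0 < l := by positivity
    have hl16 : 16 * l = x⁻¹ := by rw [hl]; field_simp
    have hlinv : l⁻¹ = 16 * x := by rw [hl, inv_inv]
    have hl1 : 16 * l ≤ 1 := by rw [hl16]; exact inv_le_one_of_one_le₀ sc.x1
    have hpiece : ∀ a ∈ sq (nn (16 * x)), CC h1 (pc h1 (16 * x) {a} g1) (2 * (θ * R)) ≤
        ENNReal.ofReal (Cc * R ^ ε' * Q1 * SS (pc h1 (16 * x) {a} g1) (θ * R) (C0 * D1)) := by
      intro a _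
      obtain ⟨ξ0, hz⟩ := hzin B hB2 q 2 (1/2) h1 g1 (θ * R) D1 HS (by norm_num) l hl0 hl1
        (by rw [hl16]; exact sc.lo) a
      rw [hlinv] at hz
      have h3 := ZC h1 (pc h1 (16 * x) {a} g1) (θ * R) (C0 * D1) (16 * l) ξ0 hz
        (by rw [hl16]; exact sc.re) Q1 hQ1 (fun h' g' D' hS' => by
          refine H1 h' g' _ D' (St.mono' hS' (le_max_left _ _) (by norm_num)) ?_
          rw [sc.ex, hl16]; ring)
      refine h3.trans (ENNReal.ofReal_le_ofReal ?_)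
      have hS0 : 0 ≤ SS (pc h1 (16 * x) {a} g1) (θ * R) (C0 * D1) := SS_nonneg hR10.le
      have h4 : (θ * R) ^ ε' ≤ R ^ ε' := Real.rpow_le_rpow hR10.le (by nlinarith) hε'.le
      have h5 : (16 * l) ^ (q / 2) ≤ 1 := Real.rpow_le_one (by positivity) hl1 (by positivity)
      calc Cc * (θ * R) ^ ε' * Q1 * (16 * l) ^ (q / 2) * SS (pc h1 (16 * x) {a} g1) (θ * R) (C0 * D1)
          ≤ Cc * R ^ ε' * Q1 * 1 * SS (pc h1 (16 * x) {a} g1) (θ * R) (C0 * D1) := by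
            gcongr
        _ = _ := by ring
    calc _ ≤ ∑ a ∈ sq (nn (16 * x)),
          ENNReal.ofReal (Cc * R ^ ε' * Q1 * SS (pc h1 (16 * x) {a} g1) (θ * R) (C0 * D1)) :=
          Finset.sum_le_sum hpiece
      _ ≤ _ := by
          refine ofReal_sum_le _ _ (fun a _ => ?_) ?_
          · have : 0 ≤ SS (pc h1 (16 * x) {a} g1) (θ * R) (C0 * D1) := SS_nonneg hR10.le
            positivity
          · rw [← Finset.mul_sum]
            refine mul_le_mul_of_nonneg_left ?_ (by positivity)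
            exact sum_SS_pc hB2 HS.par hgr (by norm_num) hg (by positivity) hR10.le (by linarith)
  -- bilinear term
  have hbil : NN N1 h1 g1 (16 * y) (2 * (θ * R)) ≤
      ENNReal.ofReal (M ^ (9 / 2 : ℝ) * (Cn * R ^ ε' * Q2 * (√C0 * SS g1 (θ * R) D1))) := by
    have hpiece : ∀ a ∈ sq (nn 16), NN N1 h1 (pc h1 16 {a} g1) (16 * y) (2 * (θ * R)) ≤
        ENNReal.ofReal (Cn * R ^ ε' * Q2 * SS (pc h1 16 {a} g1) (θ * R) (C0 * D1)) := by
      intro a _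
      obtain ⟨ξ0, hz⟩ := hzin B hB2 q 2 (1/2) h1 g1 (θ * R) D1 HS (by norm_num) (1/16) (by norm_num)
        (by norm_num) (by norm_num; have := sc.lo1; norm_num at this; exact this) a
      have e1 : ((1:ℝ)/16)⁻¹ = 16 := by norm_num
      have e2 : (16:ℝ) * (1/16) = 1 := by norm_num
      rw [e1, e2] at hz
      have h3 := ZN h1 (pc h1 16 {a} g1) (θ * R) (C0 * D1) 1 ξ0 (16 * y) hz
        (by rw [one_pow, one_mul]; exact sc.re1) (by linarith [sc.x1, sc.xy]) sc.Kh Q2 hQ2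
        (fun h' g' D' hS' => by
          refine H2 h' g' _ D' _ (St.mono' hS' (le_max_right _ _) (by norm_num)) ?_ ?_
          · ring
          · ring)
      refine h3.trans (ENNReal.ofReal_le_ofReal ?_)
      have hS0 : 0 ≤ SS (pc h1 16 {a} g1) (θ * R) (C0 * D1) := SS_nonneg hR10.le
      have h4 : (θ * R) ^ ε' ≤ R ^ ε' := Real.rpow_le_rpow hR10.le (by nlinarith) hε'.le
      rw [Real.one_rpow, mul_one]
      gcongr
    have hs := sum_pc hB2 HS.par hgr (by norm_num) hg (κ := 16) (by norm_num)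
    calc NN N1 h1 g1 (16 * y) (2 * (θ * R))
        = NN N1 h1 (fun ξ => ∑ a ∈ sq (nn 16), pc h1 16 {a} g1 ξ) (16 * y) (2 * (θ * R)) := by
          rw [hs]
      _ ≤ ((sq (nn 16)).card : ℝ≥0∞) ^ (9 / 2 : ℝ) *
          ∑ a ∈ sq (nn 16), NN N1 h1 (pc h1 16 {a} g1) (16 * y) (2 * (θ * R)) :=
          NN_sum_le N1 hcont (sq (nn 16)) (fun a _ => hg.pc HS.par 16 {a}) _ _ (by positivity)
      _ ≤ ((sq (nn 16)).card : ℝ≥0∞) ^ (9 / 2 : ℝ) *
          ENNReal.ofReal (Cn * R ^ ε' * Q2 * (√C0 * SS g1 (θ * R) D1)) := by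
          refine mul_le_mul_right ?_ _
          refine (Finset.sum_le_sum hpiece).trans ?_
          refine ofReal_sum_le _ _ (fun a _ => ?_) ?_
          · have : 0 ≤ SS (pc h1 16 {a} g1) (θ * R) (C0 * D1) := SS_nonneg hR10.le
            positivity
          · rw [← Finset.mul_sum]
            refine mul_le_mul_of_nonneg_left ?_ (by positivity)
            exact sum_SS_pc hB2 HS.par hgr (by norm_num) hg (by positivity) hR10.le (by linarith)
      _ = _ := by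
          rw [ENNReal.ofReal_mul (p := M ^ (9 / 2 : ℝ)) (by positivity),
            ← ENNReal.ofReal_rpow_of_nonneg hM0 (by norm_num), hM, ENNReal.ofReal_natCast]
  -- broad term
  have hbr : Cb * (16 * y) ^ A * (θ * R) ^ εb * (∫ ξ, ‖g1 ξ‖ ^ 2) ^ (3 / 2 : ℝ) ≤
      Cb * 16 ^ A * R ^ (A * k + εb) * SS g1 (θ * R) D1 := by
    have e1 := En_rpow_le sc.R1 HS.nd
    have e2 : (16 * y) ^ A = 16 ^ A * R ^ (A * k) := by
      rw [Real.mul_rpow (by norm_num) hy0.le, hy, ← Real.rpow_mul hR0.le, mul_comm k A]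
    have e3 : (θ * R) ^ εb ≤ R ^ εb := Real.rpow_le_rpow hR10.le (by nlinarith) hεb.le
    rw [Real.rpow_add hR0, e2]
    calc Cb * (16 ^ A * R ^ (A * k)) * (θ * R) ^ εb * (∫ ξ, ‖g1 ξ‖ ^ 2) ^ (3 / 2 : ℝ)
        ≤ Cb * (16 ^ A * R ^ (A * k)) * R ^ εb * SS g1 (θ * R) D1 := by
          gcongr
      _ = _ := by ring
  show CC h1 g1 (θ * R) ≤ _
  unfold Crest.Agent.R138.W188.CC at *
  refine hmain.trans ?_
  calc _ ≤ ENNReal.ofReal Cb * ENNReal.ofReal (Cc * R ^ ε' * Q1 * (√C0 * SS g1 (θ * R) D1)) +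
        ENNReal.ofReal (Cb * (16 * x) ^ 15) *
          ENNReal.ofReal (M ^ (9 / 2 : ℝ) * (Cn * R ^ ε' * Q2 * (√C0 * SS g1 (θ * R) D1))) +
        ENNReal.ofReal (Cb * 16 ^ A * R ^ (A * k + εb) * SS g1 (θ * R) D1) := by
        refine add_le_add (add_le_add ?_ ?_) ?_
        · gcongr
        · gcongr
        · exact ENNReal.ofReal_le_ofReal hbr
    _ = ENNReal.ofReal (Cb * (Cc * R ^ ε' * Q1 * (√C0 * SS g1 (θ * R) D1)) +
        Cb * (16 * x) ^ 15 * (M ^ (9 / 2 : ℝ) * (Cn * R ^ ε' * Q2 * (√C0 * SS g1 (θ * R) D1))) +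
        Cb * 16 ^ A * R ^ (A * k + εb) * SS g1 (θ * R) D1) := by
        rw [← ENNReal.ofReal_mul (by positivity), ← ENNReal.ofReal_mul (by positivity),
          ← ENNReal.ofReal_add (by positivity) (by positivity),
          ← ENNReal.ofReal_add (by positivity) (by positivity)]
    _ ≤ _ := by
        refine ENNReal.ofReal_le_ofReal ?_
        have hRε : 1 ≤ R ^ ε' := Real.one_le_rpow hR hε'.le
        have hx15 : x ^ 15 ≤ R ^ (A * k1) := by
          rw [hx, ← Real.rpow_natCast, ← Real.rpow_mul hR0.le]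
          refine Real.rpow_le_rpow_of_exponent_le hR ?_
          push_cast
          nlinarith
        set S := SS g1 (θ * R) D1 with hS
        set E1 := R ^ (A * k1) with hE1
        set E2' := R ^ (A * k + εb) with hE2
        have hE10 : 0 ≤ E1 := by positivity
        have hE20 : 0 ≤ E2' := by positivity
        have t1 : Cb * (Cc * R ^ ε' * Q1 * (√C0 * S)) = (Cb * Cc * √C0) * (R ^ ε' * Q1 * S) := by
          ring
        have t2 : Cb * (16 * x) ^ 15 * (M ^ (9 / 2 : ℝ) * (Cn * R ^ ε' * Q2 * (√C0 * S))) ≤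
            (Cb * 16 ^ 15 * M ^ (9 / 2 : ℝ) * Cn * √C0) * (R ^ ε' * (E1 * Q2) * S) := by
          calc _ = (Cb * 16 ^ 15 * M ^ (9 / 2 : ℝ) * Cn * √C0) * (R ^ ε' * (x ^ 15 * Q2) * S) := by
                ring
            _ ≤ _ := by gcongr
        have t3 : Cb * 16 ^ A * E2' * S ≤ (Cb * 16 ^ A) * (R ^ ε' * E2' * S) := by
          calc Cb * 16 ^ A * E2' * S = (Cb * 16 ^ A) * (1 * E2' * S) := by ring
            _ ≤ _ := by gcongr
        have p1 : 0 ≤ R ^ ε' * Q1 * S := by positivity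
        have p2 : 0 ≤ R ^ ε' * (E1 * Q2) * S := by positivity
        have p3 : 0 ≤ R ^ ε' * E2' * S := by positivity
        set a1 := Cb * Cc * √C0 with ha1
        set a2 := Cb * 16 ^ 15 * M ^ (9 / 2 : ℝ) * Cn * √C0 with ha2
        set a3 := Cb * 16 ^ A with ha3
        have q1 : 0 ≤ a1 := by positivity
        have q2 : 0 ≤ a2 := by positivity
        have q3 : 0 ≤ a3 := by positivity
        calc _ ≤ a1 * (R ^ ε' * Q1 * S) + a2 * (R ^ ε' * (E1 * Q2) * S) +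
              a3 * (R ^ ε' * E2' * S) := by rw [t1]; linarith
          _ ≤ (1 + a1 + a2 + a3) * (R ^ ε' * Q1 * S) + (1 + a1 + a2 + a3) *
              (R ^ ε' * (E1 * Q2) * S) + (1 + a1 + a2 + a3) * (R ^ ε' * E2' * S) := by
              gcongr <;> linarith
          _ = _ := by ring

end Crest.Agent.R138.Bn759
end

-- ▼ part R138/BnA5_759
section

/-! R138, broad/narrow end, leaf A4 part 5 (helper759): **A4** of the WAVE side from the zooms. -/

set_option autoImplicit false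

open MeasureTheory
open scoped ENNReal

namespace Crest.Agent.R138.Bn759

open Crest.Agent.R138.Defs (E2 ee ext ParB cyl)
open Crest.Agent.R138.W188 (St SS CC En PBox)
open Crest.Agent.R138.Zm858 (PBoxLe ZIn ZoomNN2 ZoomCC2)

lemma CC_mono {h : E2 → ℝ} {g : E2 → ℂ} {R R' : ℝ} (h1 : R ≤ R') : CC h g R ≤ CC h g R' := by
  unfold Crest.Agent.R138.W188.CC
  refine lintegral_mono_set ?_
  intro p hp
  exact ⟨hp.1.trans h1, hp.2.trans h1⟩

set_option maxHeartbeats 1000000 in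
/-- **A4** (broad / narrow) from the two zooms. -/
theorem A4_of_Zoom {B : ℕ → ℝ} (hB2 : B 2 ≤ 1 / 10) {q : ℝ} (hq : 0 ≤ q)
    (ZC : ZoomCC2 B q) (ZN : ZoomNN2 B q) : W188.A4 B q := by
  classical
  obtain ⟨θ, Nc, hθ, hθ1, ZC⟩ := ZC
  obtain ⟨θn, Nn, hθn, hθn1, ZN⟩ := ZN
  set c0 : ℝ := min (θ ^ 2) (min (θ * θn) (1 / 16)) with hc0
  have hc0pos : 0 < c0 := by
    rw [hc0]; exact lt_min (by positivity) (lt_min (by positivity) (by norm_num))
  have hc0a : c0 ≤ θ ^ 2 := min_le_left _ _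
  have hc0b : c0 ≤ θ * θn := (min_le_right _ _).trans (min_le_left _ _)
  have hc0c : c0 ≤ 1 / 16 := (min_le_right _ _).trans (min_le_right _ _)
  refine ⟨c0, hc0pos, by linarith, ?_⟩
  intro εb hεb
  refine ⟨36 + 2 * (7 + εb), by linarith, ?_⟩
  intro k1 k hk1 hkk hk ε hε Na M0
  set ε' : ℝ := min (ε / 2) (1 / 8) with hε'd
  have hε' : 0 < ε' := lt_min (by positivity) (by norm_num)
  have hε'2 : ε' ≤ ε / 2 := min_le_left _ _
  have hε'8 : ε' ≤ 1 / 8 := min_le_right _ _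
  refine ⟨max Nc Nn, 2, fun N => ?_⟩
  obtain ⟨N1, Cn, hCn, ZN'⟩ := ZN ε' hε' Nc 2 N
  obtain ⟨Cc, hCc, ZC'⟩ := ZC ε' hε' Nc 2
  obtain ⟨Cr, hCr, ZCr⟩ := ZC ε' hε' Na M0
  obtain ⟨C1, hC1, hcore⟩ := core B hB2 q hq hθ hθ1 hθn hθn1 hεb hε' hε'8 N N1 hCn hCc ZN' ZC'
  obtain ⟨C0, hC0, hzin⟩ := zin_piece Na
  obtain ⟨Ct, hCt, htriv⟩ := CC_triv ((16 / θ) ^ 4) M0
  set M : ℝ := ((sq (nn 16)).card : ℝ) with hM
  have hM0 : 0 ≤ M := by positivity
  set A : ℝ := 36 + 2 * (7 + εb) with hA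
  refine ⟨Ct + M ^ 3 * (Cr * C1 * √C0), by positivity, ?_⟩
  intro h g R D H Q1 Q2 hQ1 hQ2 H1 H2
  have hR1 := H.R1
  have hR0 : 0 < R := by linarith
  have hSS : 0 ≤ SS g R D := SS_nonneg hR0.le
  have hRε : 1 ≤ R ^ ε := Real.one_le_rpow hR1 hε.le
  set T : ℝ := Q1 + R ^ (A * k1) * Q2 + R ^ (A * k + εb) with hT
  have hT1 : 1 ≤ T := by
    have h1 : 0 ≤ R ^ (A * k1) * Q2 := by positivity
    have h2 : 0 ≤ R ^ (A * k + εb) := by positivity
    rw [hT]; linarith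
  by_cases hbig : 16 / θ ≤ R ^ (1/4 : ℝ)
  · -- large scales
    have hg : Nice 1 g := H.nice
    have hgr := grad0 H.h1
    have hcont : Continuous h := H.par.1.continuous
    have hcl : ∀ h1 g1 D1, St B q Nc 2 (1/2) h1 g1 (θ * R) D1 →
        CC h1 g1 (θ * R) ≤ ENNReal.ofReal (C1 * R ^ ε' * T * SS g1 (θ * R) D1) := by
      refine hcore k1 k R Q1 Q2 hk1 hkk hk hR1 hbig hQ1 hQ2 ?_ ?_
      · intro h' g' R' D' hS hR'
        have hp : 0 < R ^ (1 - 2 * k1) := by positivity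
        refine H1 h' g' R' D' hS ?_ ?_
        · rw [hR']; gcongr
        · rw [hR']
          have : θ ^ 2 ≤ 1 := pow_le_one₀ hθ.le hθ1
          nlinarith
      · intro h' g' R' D' w' hS hR' hw'
        have hp : 0 < R ^ k := by positivity
        refine H2 h' g' R' D' w' hS ?_ ?_ ?_ ?_
        · rw [hR', mul_comm θn θ]; gcongr
        · rw [hR']
          have : θn * θ ≤ 1 := mul_le_one₀ hθn1 hθ.le hθ1
          nlinarith
        · rw [hw']; linarith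
        · rw [hw']
          have : (16 : ℝ) ≤ c0⁻¹ := by
            rw [show (16:ℝ) = (1/16 : ℝ)⁻¹ by norm_num]
            exact inv_anti₀ hc0pos hc0c
          nlinarith
    have hpiece : ∀ a ∈ sq (nn 16), CC h (pc h 16 {a} g) (2 * R) ≤
        ENNReal.ofReal (Cr * R ^ ε' * (C1 * R ^ ε' * T) * SS (pc h 16 {a} g) R (C0 * D)) := by
      intro a _
      obtain ⟨ξ0, hz⟩ := hzin B hB2 q M0 1 h g R D H le_rfl (1/16) (by norm_num)
        (by norm_num) (by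
          have : R ^ (-(1/2) : ℝ) ≤ 1 := Real.rpow_le_one_of_one_le_of_nonpos hR1 (by norm_num)
          norm_num at this ⊢
          exact this) a
      have e1 : ((1:ℝ)/16)⁻¹ = 16 := by norm_num
      have e2 : (16:ℝ) * (1/16) = 1 := by norm_num
      rw [e1, e2] at hz
      have hQ : 1 ≤ C1 * R ^ ε' * T := by
        have h1 : 1 ≤ R ^ ε' := Real.one_le_rpow hR1 hε'.le
        have h2 : 1 ≤ C1 * R ^ ε' := by nlinarith
        nlinarith
      have h3 := ZCr h (pc h 16 {a} g) R (C0 * D) 1 ξ0 hz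
        (by
          rw [one_pow, one_mul]
          calc R ^ ε' ≤ R ^ (1:ℝ) := Real.rpow_le_rpow_of_exponent_le hR1 (by linarith)
            _ = R := Real.rpow_one R) (C1 * R ^ ε' * T) hQ
        (fun h' g' D' hS' => by
          rw [one_pow, one_mul] at hS' ⊢
          exact hcl h' g' D' hS')
      rw [Real.one_rpow, mul_one] at h3
      exact h3
    have hs := sum_pc hB2 H.par hgr (le_refl (1:ℝ)) hg (κ := 16) (by norm_num)
    have hmain : CC h g R ≤ ENNReal.ofReal (M ^ 3 *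
        (Cr * R ^ ε' * (C1 * R ^ ε' * T) * (√C0 * SS g R D))) := by
      calc CC h g R ≤ CC h g (2 * R) := CC_mono (by linarith)
        _ = CC h (fun ξ => ∑ a ∈ sq (nn 16), pc h 16 {a} g ξ) (2 * R) := by rw [hs]
        _ ≤ ((sq (nn 16)).card : ℝ≥0∞) ^ 3 *
            ∑ a ∈ sq (nn 16), CC h (pc h 16 {a} g) (2 * R) :=
            CC_sum_le hcont (sq (nn 16)) (fun a _ => hg.pc H.par 16 {a}) _
        _ ≤ ((sq (nn 16)).card : ℝ≥0∞) ^ 3 *
            ENNReal.ofReal (Cr * R ^ ε' * (C1 * R ^ ε' * T) * (√C0 * SS g R D)) := by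
            refine mul_le_mul_right ?_ _
            refine (Finset.sum_le_sum hpiece).trans ?_
            refine ofReal_sum_le _ _ (fun a _ => ?_) ?_
            · have : 0 ≤ SS (pc h 16 {a} g) R (C0 * D) := SS_nonneg hR0.le
              positivity
            · rw [← Finset.mul_sum]
              refine mul_le_mul_of_nonneg_left ?_ (by positivity)
              exact sum_SS_pc hB2 H.par hgr le_rfl hg (by positivity) hR0.le (by linarith)
        _ = _ := by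
            rw [ENNReal.ofReal_mul (p := M ^ 3) (by positivity),
              ENNReal.ofReal_pow hM0, hM, ENNReal.ofReal_natCast]
    refine hmain.trans (ENNReal.ofReal_le_ofReal ?_)
    have h2 : R ^ ε' * R ^ ε' ≤ R ^ ε := by
      rw [← Real.rpow_add hR0]
      exact Real.rpow_le_rpow_of_exponent_le hR1 (by linarith)
    calc M ^ 3 * (Cr * R ^ ε' * (C1 * R ^ ε' * T) * (√C0 * SS g R D))
        = (M ^ 3 * (Cr * C1 * √C0)) * (R ^ ε' * R ^ ε') * T * SS g R D := by ring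
      _ ≤ (Ct + M ^ 3 * (Cr * C1 * √C0)) * R ^ ε * T * SS g R D := by
          have h4 : 0 ≤ M ^ 3 * (Cr * C1 * √C0) := by positivity
          gcongr
          linarith
      _ = _ := by ring
  · -- bounded scales
    have hRle : R ≤ (16 / θ) ^ 4 := by
      have h1 : R ^ (1/4 : ℝ) ≤ 16 / θ := (not_le.1 hbig).le
      have h2 : (R ^ (1/4 : ℝ)) ^ 4 = R := by
        rw [← Real.rpow_natCast, ← Real.rpow_mul hR0.le]; norm_num
      calc R = (R ^ (1/4 : ℝ)) ^ 4 := h2.symm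
        _ ≤ _ := by gcongr
    refine (htriv B q Na h g R D H hRle).trans (ENNReal.ofReal_le_ofReal ?_)
    have h4 : 0 ≤ M ^ 3 * (Cr * C1 * √C0) := by positivity
    calc Ct * SS g R D = Ct * 1 * 1 * SS g R D := by ring
      _ ≤ (Ct + M ^ 3 * (Cr * C1 * √C0)) * R ^ ε * T * SS g R D := by
          gcongr
          linarith
      _ = _ := by ring

end Crest.Agent.R138.Bn759
end

-- ▼ part R138/Zm7_858
section

/-!
# R138 / R139: ZOOM (helper858), part 7: real inequalities, the zoom for cubic integrals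
-/

set_option autoImplicit false

open MeasureTheory FourierTransform
open scoped ContDiff ENNReal

namespace Crest.Agent.R138.Zm858

open Crest.Agent.R138.Defs Crest.Agent.R138.Bil882 Crest.Agent.R138.W188
open Crest.Agent.R138.Resc574 (hR Ph PhH parB_hR gradient_hR_zero hR_zero supp_resc
  integral_sq_resc Ph_mem_of_cyl lintegral_cube_resc)

/-! ### real inequalities -/

theorem lq_lower {l R q : ℝ} (hl : 0 < l) (hq : 0 ≤ q) (hR : 1 ≤ R) (h : 1 ≤ l ^ 2 * R) :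
    R ^ (-(q / 4)) ≤ l ^ (q / 2) := by
  have hR0 : 0 < R := by linarith
  have h1 : l ^ (q / 2) = (l ^ 2) ^ (q / 4) := by
    rw [← Real.rpow_natCast, ← Real.rpow_mul hl.le]
    congr 1
    push_cast; ring
  have h2 : R⁻¹ ≤ l ^ 2 := by
    rw [inv_le_iff_one_le_mul₀ hR0]; exact h
  rw [h1, Real.rpow_neg hR0.le, ← Real.inv_rpow hR0.le]
  exact Real.rpow_le_rpow (by positivity) h2 (by positivity)

theorem sqrt_nd {R M0 D E : ℝ} (hR : 1 ≤ R) (hD : 0 ≤ D) (hE : E ≤ R ^ M0 * D) :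
    Real.sqrt E ≤ R ^ (|M0| / 2) * Real.sqrt D := by
  have hR0 : 0 < R := by linarith
  have h1 : E ≤ R ^ |M0| * D := hE.trans (by
    have := Real.rpow_le_rpow_of_exponent_le hR (le_abs_self M0)
    gcongr)
  calc Real.sqrt E ≤ Real.sqrt (R ^ |M0| * D) := Real.sqrt_le_sqrt h1
    _ = Real.sqrt (R ^ |M0|) * Real.sqrt D := Real.sqrt_mul (Real.rpow_nonneg hR0.le _) _
    _ = R ^ (|M0| / 2) * Real.sqrt D := by
        congr 1
        rw [Real.sqrt_eq_rpow, ← Real.rpow_mul hR0.le]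
        congr 1; ring

/-- the main term. -/
theorem main_real {l R D D' E C θ Q ε q : ℝ} (hl : 0 < l) (hR : 1 ≤ R)
    (hD : 0 ≤ D) (hE : 0 ≤ E) (hC : 0 ≤ C) (hθ : 0 ≤ θ) (hQ : 0 ≤ Q) (hε : 0 ≤ ε)
    (hD' : D' ≤ C * R ^ ε * (l ^ (q - 4) * D)) :
    l ^ 2 * (Q * (θ * (l ^ 2 * R) * (C * ((l ^ 2)⁻¹ * E)) * Real.sqrt D')) ≤
      (θ * C * Real.sqrt C) * (R ^ ε * Q * l ^ (q / 2) * (R * E * Real.sqrt D)) := by
  have hR0 : 0 < R := by linarith
  have h1 : Real.sqrt D' ≤ Real.sqrt C * R ^ ε * (l ^ (q / 2 - 2) * Real.sqrt D) := by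
    have hre : 0 ≤ R ^ ε := Real.rpow_nonneg hR0.le _
    have hlq : 0 ≤ l ^ (q - 4) := Real.rpow_nonneg hl.le _
    have h2 : Real.sqrt (R ^ ε) ≤ R ^ ε := by
      rw [Real.sqrt_le_left hre]
      exact le_self_pow₀ (Real.one_le_rpow hR hε) (by norm_num)
    have h3 : Real.sqrt (l ^ (q - 4)) = l ^ (q / 2 - 2) := by
      rw [Real.sqrt_eq_rpow, ← Real.rpow_mul hl.le]
      congr 1; ring
    calc Real.sqrt D' ≤ Real.sqrt (C * R ^ ε * (l ^ (q - 4) * D)) := Real.sqrt_le_sqrt hD'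
      _ = Real.sqrt C * Real.sqrt (R ^ ε) * (Real.sqrt (l ^ (q - 4)) * Real.sqrt D) := by
          rw [Real.sqrt_mul (by positivity), Real.sqrt_mul hC, Real.sqrt_mul hlq]
      _ ≤ Real.sqrt C * R ^ ε * (l ^ (q / 2 - 2) * Real.sqrt D) := by
          rw [h3]
          have : 0 ≤ l ^ (q / 2 - 2) := Real.rpow_nonneg hl.le _
          gcongr
  have h4 : l ^ (q / 2) = l ^ 2 * l ^ (q / 2 - 2) := by
    rw [← Real.rpow_natCast l 2, ← Real.rpow_add hl]
    congr 1; push_cast; ring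
  calc l ^ 2 * (Q * (θ * (l ^ 2 * R) * (C * ((l ^ 2)⁻¹ * E)) * Real.sqrt D'))
      ≤ l ^ 2 * (Q * (θ * (l ^ 2 * R) * (C * ((l ^ 2)⁻¹ * E)) *
        (Real.sqrt C * R ^ ε * (l ^ (q / 2 - 2) * Real.sqrt D)))) := by gcongr
    _ = _ := by
        rw [h4]
        field_simp

/-- the remainder. -/
theorem rest_total {l R D E K C C' θ Q ε q M0 : ℝ} {M : ℕ} (hl : 0 < l) (hl1 : l ≤ 1) (hR : 1 ≤ R)
    (hD : 0 ≤ D) (hE : 0 ≤ E) (hC : 0 ≤ C) (hC' : 0 ≤ C') (hK : 0 ≤ K) (hθ : 0 ≤ θ) (hθ1 : θ ≤ 1)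
    (hQ : 1 ≤ Q) (hε : 0 ≤ ε) (hq : 0 ≤ q) (h1 : 1 ≤ l ^ 2 * R) (hnd : E ≤ R ^ M0 * D)
    (hM : 3 + |M0| + q ≤ M) :
    l ^ 2 * (K * (C * R * ((θ * (l ^ 2 * R)) ^ 3 * (C' * (R ^ M)⁻¹ * Real.sqrt E) ^ 3))) ≤
      (K * C * C' ^ 3) * (R ^ ε * Q * l ^ (q / 2) * (R * E * Real.sqrt D)) := by
  have hR0 : 0 < R := by linarith
  have hM0 : 0 ≤ |M0| := abs_nonneg _
  have a1 : θ * (l ^ 2 * R) ≤ R := by
    have h3 : l ^ 2 ≤ 1 := pow_le_one₀ hl.le hl1
    calc θ * (l ^ 2 * R) ≤ 1 * (1 * R) := by gcongr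
      _ = R := by ring
  have a2 : Real.sqrt E ^ 3 ≤ E * (R ^ (|M0| / 2) * Real.sqrt D) := by
    calc Real.sqrt E ^ 3 = Real.sqrt E ^ 2 * Real.sqrt E := by ring
      _ = E * Real.sqrt E := by rw [Real.sq_sqrt hE]
      _ ≤ _ := by gcongr; exact sqrt_nd hR hD hnd
  have a3 := lq_lower hl hq hR h1
  have a4 : 1 ≤ R ^ ε := Real.one_le_rpow hR hε
  have a5 : R ^ 4 * ((R ^ M)⁻¹) ^ 3 * R ^ (|M0| / 2) ≤ R * R ^ (-(q / 4)) := by
    have e1 : R ^ 4 * ((R ^ M)⁻¹) ^ 3 * R ^ (|M0| / 2) = R ^ (4 - 3 * (M:ℝ) + |M0| / 2) := by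
      rw [Real.rpow_add hR0, Real.rpow_sub hR0]
      congr 1
      rw [inv_pow, ← div_eq_mul_inv]
      congr 1
      · norm_cast
      · rw [← pow_mul, ← Real.rpow_natCast]
        congr 1
        push_cast; ring
    have e2 : R * R ^ (-(q / 4)) = R ^ (1 + -(q / 4)) := by
      rw [Real.rpow_add hR0, Real.rpow_one]
    rw [e1, e2]
    exact Real.rpow_le_rpow_of_exponent_le hR (by linarith)
  have a6 : 0 ≤ R ^ (|M0| / 2) := Real.rpow_nonneg hR0.le _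
  have a7 : 0 ≤ R ^ (-(q / 4)) := Real.rpow_nonneg hR0.le _
  have a8 : 0 ≤ l ^ (q / 2) := Real.rpow_nonneg hl.le _
  calc l ^ 2 * (K * (C * R * ((θ * (l ^ 2 * R)) ^ 3 * (C' * (R ^ M)⁻¹ * Real.sqrt E) ^ 3)))
      ≤ 1 * (K * (C * R * (R ^ 3 * (C' * (R ^ M)⁻¹ * Real.sqrt E) ^ 3))) := by
        gcongr
        exact pow_le_one₀ hl.le hl1
    _ = (K * C * C' ^ 3) * (R ^ 4 * ((R ^ M)⁻¹) ^ 3 * Real.sqrt E ^ 3) := by ring
    _ ≤ (K * C * C' ^ 3) * (R ^ 4 * ((R ^ M)⁻¹) ^ 3 *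
        (E * (R ^ (|M0| / 2) * Real.sqrt D))) := by gcongr
    _ = (K * C * C' ^ 3) * ((R ^ 4 * ((R ^ M)⁻¹) ^ 3 * R ^ (|M0| / 2)) * (E * Real.sqrt D)) := by
        ring
    _ ≤ (K * C * C' ^ 3) * ((R * R ^ (-(q / 4))) * (E * Real.sqrt D)) := by gcongr
    _ ≤ (K * C * C' ^ 3) * ((R * l ^ (q / 2)) * (E * Real.sqrt D)) := by gcongr
    _ = (K * C * C' ^ 3) * (1 * 1 * l ^ (q / 2) * (R * E * Real.sqrt D)) := by ring
    _ ≤ _ := by gcongr

/-- the trivial case `R ≤ L`. -/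
theorem triv_real {l R D E K L Q ε q M0 : ℝ} (hl : 0 < l) (hR : 1 ≤ R) (hRL : R ≤ L)
    (hD : 0 ≤ D) (hE : 0 ≤ E) (hK : 0 ≤ K)
    (hQ : 1 ≤ Q) (hε : 0 ≤ ε) (hq : 0 ≤ q) (h1 : 1 ≤ l ^ 2 * R) (hnd : E ≤ R ^ M0 * D) :
    K * (R ^ 3 * Real.sqrt E ^ 3) ≤
      (K * (L ^ 2 * (L ^ (|M0| / 2) * L ^ (q / 4)))) *
        (R ^ ε * Q * l ^ (q / 2) * (R * E * Real.sqrt D)) := by
  have hR0 : 0 < R := by linarith
  have hL0 : 0 < L := by linarith
  have a2 : Real.sqrt E ^ 3 ≤ E * (R ^ (|M0| / 2) * Real.sqrt D) := by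
    calc Real.sqrt E ^ 3 = Real.sqrt E ^ 2 * Real.sqrt E := by ring
      _ = E * Real.sqrt E := by rw [Real.sq_sqrt hE]
      _ ≤ _ := by gcongr; exact sqrt_nd hR hD hnd
  have a3 := lq_lower hl hq hR h1
  have a4 : 1 ≤ R ^ ε := Real.one_le_rpow hR hε
  have a6 : R ^ (|M0| / 2) ≤ L ^ (|M0| / 2) := Real.rpow_le_rpow hR0.le hRL (by positivity)
  have a7 : 1 ≤ L ^ (q / 4) * l ^ (q / 2) := by
    have h2 : R ^ (q / 4) ≤ L ^ (q / 4) := Real.rpow_le_rpow hR0.le hRL (by positivity)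
    calc (1:ℝ) = R ^ (q / 4) * R ^ (-(q / 4)) := by
          rw [← Real.rpow_add hR0]; simp
      _ ≤ _ := by
          have : 0 ≤ R ^ (-(q / 4)) := Real.rpow_nonneg hR0.le _
          gcongr
  have a8 : 0 ≤ l ^ (q / 2) := Real.rpow_nonneg hl.le _
  have a9 : 0 ≤ L ^ (|M0| / 2) := Real.rpow_nonneg hL0.le _
  have a10 : 0 ≤ L ^ (q / 4) := Real.rpow_nonneg hL0.le _
  have a11 : 0 ≤ R ^ (|M0| / 2) := Real.rpow_nonneg hR0.le _
  calc K * (R ^ 3 * Real.sqrt E ^ 3)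
      ≤ K * (R ^ 3 * (E * (R ^ (|M0| / 2) * Real.sqrt D))) := by gcongr
    _ = K * (R ^ 2 * (R ^ (|M0| / 2) * 1)) * (1 * 1 * 1 * (R * E * Real.sqrt D)) := by ring
    _ ≤ K * (L ^ 2 * (L ^ (|M0| / 2) * (L ^ (q / 4) * l ^ (q / 2)))) *
        (R ^ ε * Q * 1 * (R * E * Real.sqrt D)) := by gcongr
    _ = _ := by ring

/-! ### the cover -/

/-- `Ph ⁻¹ (Ph '' cyl) = cyl`, measurable image. -/
theorem preim_img (v : E2) {l : ℝ} (hl : l ≠ 0) (s : Set (E2 × ℝ)) :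
    Ph v l ⁻¹' ((PhH v l hl) '' s) = s := by
  have h1 : Function.Injective (PhH v l hl) := (PhH v l hl).injective
  exact Set.preimage_image_eq s h1

theorem meas_img (v : E2) {l : ℝ} (hl : l ≠ 0) (R : ℝ) :
    MeasurableSet ((PhH v l hl) '' cyl R) := by
  have h1 : IsClosed (cyl R) := by
    rw [T774.cyl_eq]; exact Metric.isClosed_closedBall
  exact ((PhH v l hl).isClosed_image.2 h1).measurableSet

/-- the velocity of the cap. -/
theorem grad_cap {B : ℕ → ℝ} (hB : B 2 ≤ 1 / 2) {q : ℝ} {Na : ℕ} {M0 l : ℝ} {ξ0 : E2} {h : E2 → ℝ}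
    {g : E2 → ℂ} {R D : ℝ} (Z : ZIn B q Na M0 l ξ0 h g R D) (hg : ∃ ξ, g ξ ≠ 0) :
    ‖gradient h ξ0‖ ≤ 2 := by
  obtain ⟨ξ, hξ⟩ := hg
  have h1 : ‖ξ‖ ≤ 1 := by
    by_contra h; exact hξ (Z.supp1 ξ (not_le.1 h))
  have h2 : ‖ξ - ξ0‖ ≤ l / 4 := by
    by_contra h; exact hξ (Z.supp ξ (not_le.1 h))
  have h3 : ‖ξ0‖ ≤ 5 / 4 := by
    have h4 : ‖ξ0‖ ≤ ‖ξ‖ + ‖ξ - ξ0‖ := by
      have : ξ0 = ξ - (ξ - ξ0) := by abel
      calc ‖ξ0‖ = ‖ξ - (ξ - ξ0)‖ := by rw [← this]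
        _ ≤ _ := norm_sub_le _ _
    have := Z.l1
    linarith
  have h5 := Wf448.gradient_lip Z.par.1 (M := 3 / 2)
    (fun ξ => (Wf448.ParB.bound Z.par 2 le_rfl ξ).trans (by linarith)) ξ0 0
  have h6 : gradient h 0 = 0 := by simp [gradient, Z.h1]
  rw [h6, sub_zero, sub_zero] at h5
  linarith

theorem SS_sum {ι : Type*} (s : Finset ι) (G : ι → E2 → ℂ) {Q r D' a : ℝ} (hQ : 0 ≤ Q) (hr : 0 ≤ r)
    (h : ∑ i ∈ s, En (G i) ≤ a) :
    ∑ i ∈ s, ENNReal.ofReal (Q * SS (G i) r D') ≤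
      ENNReal.ofReal (Q * (r * a * Real.sqrt D')) := by
  have h0 : ∀ i, 0 ≤ Q * SS (G i) r D' := fun i => by
    have := En_nonneg (G i)
    unfold SS
    positivity
  rw [← ENNReal.ofReal_sum_of_nonneg fun i _ => h0 i]
  apply ENNReal.ofReal_le_ofReal
  have e : ∑ i ∈ s, Q * SS (G i) r D' = Q * (r * (∑ i ∈ s, En (G i)) * Real.sqrt D') := by
    unfold SS
    rw [← Finset.mul_sum, ← Finset.sum_mul, ← Finset.mul_sum]
  rw [e]
  gcongr

/-- **ZOOM for cubic integrals**. -/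
theorem zoomCC2 (B : ℕ → ℝ) (hB : B 2 ≤ 1 / 2) {q : ℝ} (hq : 0 ≤ q) : ZoomCC2 B q := by
  obtain ⟨θ, hθ0, hθ1, HP⟩ := pieces B hq
  obtain ⟨Cv, hCv, HV⟩ := T774.volume_cyl
  refine ⟨θ, 6, hθ0, hθ1, ?_⟩
  intro ε hε Na M0
  obtain ⟨C, L, hC, hL, H⟩ := HP ε hε Na M0 ⌈3 + |M0| + q⌉₊
  refine ⟨4 * (θ * C * Real.sqrt C) + 4 * Cv * C * C ^ 3 +
    (Cv * 8 * 8) * (L ^ 2 * (L ^ (|M0| / 2) * L ^ (q / 4))), by positivity, ?_⟩
  intro h g R D l ξ0 Z hlR Q hQ hyp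
  have hl := Z.l0
  have hl1 := Z.l1
  have hR1 := Z.R1
  have hR0 : 0 < R := by linarith
  have hE := En_nonneg g
  have hQ0 : 0 ≤ Q := by linarith
  have h1 : 1 ≤ l ^ 2 * R := (Real.one_le_rpow hR1 hε.le).trans hlR
  have hg2 : MemLp g 2 := memLp_ball Z.meas Z.bdd Z.supp 2
  have hfin : 0 ≤ R ^ ε * Q * l ^ (q / 2) * (R * En g * Real.sqrt D) := by
    have a1 : 0 ≤ R ^ ε := Real.rpow_nonneg hR0.le _
    have a2 : 0 ≤ l ^ (q / 2) := Real.rpow_nonneg hl.le _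
    positivity
  have a3 : 0 ≤ (Cv * 8 * 8) * (L ^ 2 * (L ^ (|M0| / 2) * L ^ (q / 4))) := by positivity
  have a4 : 0 ≤ 4 * (θ * C * Real.sqrt C) + 4 * Cv * C * C ^ 3 := by positivity
  have goal_eq : ∀ x : ℝ, x * R ^ ε * Q * l ^ (q / 2) * SS g R D =
      x * (R ^ ε * Q * l ^ (q / 2) * (R * En g * Real.sqrt D)) := by
    intro x; unfold SS; ring
  by_cases hg : ∃ ξ, g ξ ≠ 0
  swap
  · push Not at hg
    have e : ∀ p : E2 × ℝ, ext h g p.1 p.2 = 0 := by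
      intro p
      unfold ext
      simp [hg]
    unfold CC
    simp [e]
  have hv := grad_cap hB Z hg
  by_cases hRL : L ≤ R
  swap
  · -- bounded `R`
    push Not at hRL
    unfold CC
    calc ∫⁻ p in cyl (2 * R), ‖ext h g p.1 p.2‖ₑ ^ 3
        ≤ ∫⁻ p in cyl (2 * R), ENNReal.ofReal ((2 * Real.sqrt (En g)) ^ 3) := by
          refine lintegral_mono fun p => ?_
          rw [← ofReal_norm, ← ENNReal.ofReal_pow (norm_nonneg _)]
          apply ENNReal.ofReal_le_ofReal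
          gcongr
          exact ext_sup h Z.meas hg2 Z.supp1 _ _
      _ ≤ ENNReal.ofReal ((2 * Real.sqrt (En g)) ^ 3) * ENNReal.ofReal (Cv * (2 * R) ^ 3) := by
          rw [setLIntegral_const]
          gcongr
          exact HV (2 * R) (by positivity)
      _ = ENNReal.ofReal ((Cv * 8 * 8) * (R ^ 3 * Real.sqrt (En g) ^ 3)) := by
          rw [← ENNReal.ofReal_mul (by positivity)]
          congr 1; ring
      _ ≤ _ := by
          apply ENNReal.ofReal_le_ofReal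
          refine (triv_real hl hR1 hRL.le Z.D0 hE (by positivity) hQ hε.le hq h1 Z.nd).trans ?_
          rw [goal_eq]
          gcongr
          linarith
  · obtain ⟨Λ, G, D', hcov, hcard, hst, hD', hEn, hr1, -⟩ := H h g R D l ξ0 Z hlR hRL hv
    set r : ℝ := θ * (l ^ 2 * R) with hr
    have hr0 : 0 < r := by positivity
    set v := gradient h ξ0 with hvd
    set h' := hR h ξ0 l with hh'
    set g' : E2 → ℂ := fun η => g (ξ0 + l • η) with hg'
    set bd : ℝ := C * (R ^ ⌈3 + |M0| + q⌉₊)⁻¹ * Real.sqrt (En g) with hbd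
    have hbd0 : 0 ≤ bd := by positivity
    -- one piece
    have key : ∀ a ∈ Λ, ∫⁻ z in cyl r, ‖ext h' g' (z + zz r a).1 (z + zz r a).2‖ₑ ^ 3 ≤
        4 * ENNReal.ofReal (Q * SS (G a) r D') + ENNReal.ofReal (4 * (Cv * r ^ 3 * bd ^ 3)) := by
      intro a ha
      have hGi : Integrable (G a) := by
        have := hst a ha
        exact int_ball (ξ0 := 0) this.meas this.bdd (r := 1 / 2) (by simpa using this.supp)
      have hcont : Measurable fun z : E2 × ℝ => ‖ext h' (G a) z.1 z.2‖ₑ ^ 3 :=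
        ((F4x858.continuous_ext (hst a ha).par.1.continuous hGi).measurable.enorm).pow_const 3
      calc ∫⁻ z in cyl r, ‖ext h' g' (z + zz r a).1 (z + zz r a).2‖ₑ ^ 3
          ≤ ∫⁻ z in cyl r, (4 * ‖ext h' (G a) z.1 z.2‖ₑ ^ 3 + ENNReal.ofReal (4 * bd ^ 3)) := by
            refine setLIntegral_mono' (T774.measurableSet_cyl r) fun z hz => ?_
            have e1 : ext h' g' (z + zz r a).1 (z + zz r a).2 =
                ext h' (G a) z.1 z.2 + (ext h' (tr h' (zz r a) g') z.1 z.2 -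
                  ext h' (G a) z.1 z.2) := by
              rw [ext_tr]; simp
            have e2 := hr1 a ha z (hz.1.trans (by linarith)) (hz.2.trans (by linarith))
            rw [e1]
            have e3 : ‖ext h' (tr h' (zz r a) g') z.1 z.2 - ext h' (G a) z.1 z.2‖ₑ ≤
                ENNReal.ofReal bd := by
              rw [← ofReal_norm]; exact ENNReal.ofReal_le_ofReal e2
            have e4 := ENNReal.rpow_add_le_mul_rpow_add_rpow (‖ext h' (G a) z.1 z.2‖ₑ)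
              (ENNReal.ofReal bd) (p := 3) (by norm_num)
            have e5 : ((2:ℝ≥0∞) ^ ((3:ℝ) - 1)) = 4 := by
              rw [show ((3:ℝ) - 1) = ((2:ℕ) : ℝ) by norm_num, ENNReal.rpow_natCast]; norm_num
            rw [e5] at e4
            have e6 : ∀ x : ℝ≥0∞, x ^ (3:ℝ) = x ^ 3 := fun x => by
              rw [show (3:ℝ) = ((3:ℕ) : ℝ) by norm_num, ENNReal.rpow_natCast]
            rw [e6, e6, e6] at e4
            calc ‖ext h' (G a) z.1 z.2 + (ext h' (tr h' (zz r a) g') z.1 z.2 -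
                  ext h' (G a) z.1 z.2)‖ₑ ^ 3
                ≤ (‖ext h' (G a) z.1 z.2‖ₑ + ENNReal.ofReal bd) ^ 3 := by
                  gcongr
                  exact (enorm_add_le _ _).trans (by gcongr)
              _ ≤ 4 * (‖ext h' (G a) z.1 z.2‖ₑ ^ 3 + ENNReal.ofReal bd ^ 3) := e4
              _ = _ := by
                  rw [mul_add, ← ENNReal.ofReal_pow hbd0, ENNReal.ofReal_mul (by norm_num)]
                  norm_num
        _ = 4 * (∫⁻ z in cyl r, ‖ext h' (G a) z.1 z.2‖ₑ ^ 3) +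
            ENNReal.ofReal (4 * bd ^ 3) * volume (cyl r) := by
            rw [lintegral_add_right _ measurable_const, lintegral_const_mul _ hcont,
              setLIntegral_const]
        _ ≤ 4 * ENNReal.ofReal (Q * SS (G a) r D') +
            ENNReal.ofReal (4 * bd ^ 3) * ENNReal.ofReal (Cv * r ^ 3) := by
            gcongr
            · exact hyp h' (G a) D' (hst a ha)
            · exact HV r hr0.le
        _ = _ := by
            rw [← ENNReal.ofReal_mul (by positivity)]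
            congr 2; ring
    have hsum : ∑ a ∈ Λ, (4 * ENNReal.ofReal (Q * SS (G a) r D') +
        ENNReal.ofReal (4 * (Cv * r ^ 3 * bd ^ 3))) ≤
        ENNReal.ofReal (4 * (Q * (r * (C * ((l ^ 2)⁻¹ * En g)) * Real.sqrt D')) +
          4 * Cv * (C * R * (r ^ 3 * bd ^ 3))) := by
      rw [Finset.sum_add_distrib, ← Finset.mul_sum, Finset.sum_const, nsmul_eq_mul,
        ENNReal.ofReal_add (by positivity) (by positivity)]
      refine add_le_add ?_ ?_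
      · rw [ENNReal.ofReal_mul (show (0:ℝ) ≤ 4 by norm_num)]
        have : ENNReal.ofReal 4 = 4 := by norm_num
        rw [this]
        gcongr
        exact SS_sum Λ G hQ0 hr0.le hEn
      · rw [← ENNReal.ofReal_natCast, ← ENNReal.ofReal_mul (Nat.cast_nonneg _)]
        apply ENNReal.ofReal_le_ofReal
        calc (Λ.card : ℝ) * (4 * (Cv * r ^ 3 * bd ^ 3)) ≤ (C * R) * (4 * (Cv * r ^ 3 * bd ^ 3)) := by
              gcongr
          _ = _ := by ring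
    have e0 := lintegral_cube_resc h g ξ0 hl (meas_img v hl.ne' (2 * R))
    rw [← hvd, preim_img v hl.ne'] at e0
    unfold CC
    rw [e0]
    calc ENNReal.ofReal (l ^ 2) * ∫⁻ q in (PhH v l hl.ne') '' cyl (2 * R),
          ‖ext h' g' q.1 q.2‖ₑ ^ 3
        ≤ ENNReal.ofReal (l ^ 2) * ∑ a ∈ Λ, ∫⁻ z in cyl r,
          ‖ext h' g' (z + zz r a).1 (z + zz r a).2‖ₑ ^ 3 := by
          gcongr
          refine lint_cover2 Λ (fun a => zz r a) ?_ (fun q => ‖ext h' g' q.1 q.2‖ₑ ^ 3)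
          rintro _ ⟨p, hp, rfl⟩
          exact hcov p hp
      _ ≤ ENNReal.ofReal (l ^ 2) * ∑ a ∈ Λ, (4 * ENNReal.ofReal (Q * SS (G a) r D') +
          ENNReal.ofReal (4 * (Cv * r ^ 3 * bd ^ 3))) := by
          gcongr with a ha
          exact key a ha
      _ ≤ ENNReal.ofReal (l ^ 2) *
          ENNReal.ofReal (4 * (Q * (r * (C * ((l ^ 2)⁻¹ * En g)) * Real.sqrt D')) +
          4 * Cv * (C * R * (r ^ 3 * bd ^ 3))) := by gcongr
      _ = ENNReal.ofReal (4 * (l ^ 2 * (Q * (r * (C * ((l ^ 2)⁻¹ * En g)) * Real.sqrt D'))) +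
          l ^ 2 * (4 * Cv * (C * R * (r ^ 3 * bd ^ 3)))) := by
          rw [← ENNReal.ofReal_mul (by positivity)]
          congr 1; ring
      _ ≤ _ := by
          apply ENNReal.ofReal_le_ofReal
          rw [goal_eq]
          have b1 := main_real (Q := Q) hl hR1 Z.D0 hE hC hθ0.le hQ0 hε.le hD'
          have b2 := rest_total (K := 4 * Cv) (C := C) (C' := C) (ε := ε) (Q := Q)
            (M := ⌈3 + |M0| + q⌉₊) hl hl1 hR1 Z.D0 hE hC hC (by positivity) hθ0.le hθ1 hQ hε.le hq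
            h1 Z.nd (Nat.le_ceil _)
          have b3 : 0 ≤ ((Cv * 8 * 8) * (L ^ 2 * (L ^ (|M0| / 2) * L ^ (q / 4)))) *
            (R ^ ε * Q * l ^ (q / 2) * (R * En g * Real.sqrt D)) := mul_nonneg a3 hfin
          rw [← hr, ← hbd] at b2
          rw [← hr] at b1
          calc 4 * (l ^ 2 * (Q * (r * (C * ((l ^ 2)⁻¹ * En g)) * Real.sqrt D'))) +
                l ^ 2 * (4 * Cv * (C * R * (r ^ 3 * bd ^ 3)))
              ≤ 4 * ((θ * C * Real.sqrt C) *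
                (R ^ ε * Q * l ^ (q / 2) * (R * En g * Real.sqrt D))) +
                (4 * Cv * C * C ^ 3) *
                  (R ^ ε * Q * l ^ (q / 2) * (R * En g * Real.sqrt D)) := by
                gcongr
            _ ≤ _ := by linarith

end Crest.Agent.R138.Zm858
end

-- ▼ part R138/Zm8_858

/-!
# R138 / R139: ZOOM (helper858), part 8: the zoom for local averages
-/

set_option autoImplicit false

open MeasureTheory FourierTransform
open scoped ContDiff ENNReal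

namespace Crest.Agent.R138.Zm858

open Crest.Agent.R138.Defs Crest.Agent.R138.Bil882 Crest.Agent.R138.W188
open Crest.Agent.R138.Resc574 (hR Ph PhH parB_hR gradient_hR_zero hR_zero supp_resc
  integral_sq_resc Ph_mem_of_cyl setLIntegral_Ph)
open Crest.Agent.R138.T774 (AA T12_abs AA_translate measurable_AA)

theorem NN_eq (N : ℕ) (h : E2 → ℝ) (g : E2 → ℂ) (w R : ℝ) :
    NN N h g w R = ∫⁻ z in cyl R, AA N w (fun p => ext h g p.1 p.2) z ^ (3 / 2 : ℝ) := rfl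

/-- localisation of the averages in one cylinder. -/
theorem one_piece {N : ℕ} (hN : 4 ≤ N) : ∃ C : ℝ, 0 ≤ C ∧ ∀ (w r b s : ℝ), 0 < w → 0 < r →
    0 ≤ b → 0 ≤ s → ∀ (F G : E2 × ℝ → ℂ), Measurable F → Measurable G →
    (∀ p, ‖p.1‖ ≤ 8 * r → |p.2| ≤ 8 * r → ‖F p - G p‖ ≤ b) → (∀ p, ‖F p - G p‖ ≤ s) →
    ∫⁻ z in cyl r, AA N w F z ^ (3 / 2 : ℝ) ≤
      4 * (∫⁻ z in cyl r, AA N w G z ^ (3 / 2 : ℝ)) +
        ENNReal.ofReal (C * r ^ 3 * (b ^ 2 + s ^ 2 * (w / r) ^ (N - 4)) ^ (3 / 2 : ℝ)) := by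
  obtain ⟨C, hC, H⟩ := T12_abs hN
  refine ⟨4 * C, by positivity, ?_⟩
  intro w r b s hw hr hb hs F G hF hG h1 h2
  have h3 := H w r r b s hw hr hb hs {0} (fun p hp => ⟨0, by simp, by simpa using hp⟩) Unit F
    (fun _ _ => G) (fun _ p => F p - G p) (fun _ _ _ => hG) (fun _ _ => hF.sub hG)
    (fun z hz p => by
      rw [Finset.mem_singleton] at hz
      subst hz
      simp) (fun _ _ => h1) (fun _ _ => h2)
  refine h3.trans (le_of_eq ?_)
  have e1 : ((Fintype.card Unit : ℝ≥0∞) + 1) ^ 2 = 4 := by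
    rw [Fintype.card_unit]; norm_num
  rw [e1]
  simp only [Finset.sum_singleton, Finset.univ_unique, Finset.card_singleton, Nat.cast_one, one_mul]
  congr 1
  rw [show (4 : ℝ≥0∞) = ENNReal.ofReal 4 by norm_num, ← ENNReal.ofReal_mul (by norm_num)]
  congr 1
  ring

/-- the far part of the weight. -/
theorem far_real {l R w θ ε : ℝ} {M n : ℕ} (hl : 0 < l) (hR : 1 ≤ R) (hw : 0 < w)
    (hθ : 0 < θ) (hε : 0 < ε) (hwR : w ≤ R ^ (1/2 : ℝ)) (hlR : R ^ ε ≤ l ^ 2 * R)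
    (hL : 1 / θ ^ 2 ≤ R ^ (ε / 2)) (hn : 2 + (4 * M + 4) / ε ≤ n) :
    (l * w / (θ * (l ^ 2 * R))) ^ (2 * n - 4) ≤ (R ^ (2 * M + 2))⁻¹ := by
  have hR0 : 0 < R := by linarith
  have hre : 0 < R ^ (ε / 2) := Real.rpow_pos_of_pos hR0 _
  have hnn : (2:ℝ) ≤ n := by
    have : 0 ≤ (4 * (M:ℝ) + 4) / ε := by positivity
    linarith
  have hnn' : 2 ≤ n := by exact_mod_cast hnn
  have h1 : (l * w / (θ * (l ^ 2 * R))) ^ 2 ≤ (R ^ (ε / 2))⁻¹ := by
    have h2 : w ^ 2 ≤ R := by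
      calc w ^ 2 ≤ (R ^ (1/2 : ℝ)) ^ 2 := by gcongr
        _ = R := by
          rw [← Real.rpow_natCast, ← Real.rpow_mul hR0.le]; norm_num
    have h3 : (l * w / (θ * (l ^ 2 * R))) ^ 2 ≤ (θ ^ 2 * (l ^ 2 * R))⁻¹ := by
      rw [div_pow, mul_pow, mul_pow, div_eq_mul_inv]
      calc l ^ 2 * w ^ 2 * (θ ^ 2 * (l ^ 2 * R) ^ 2)⁻¹
          ≤ l ^ 2 * R * (θ ^ 2 * (l ^ 2 * R) ^ 2)⁻¹ := by gcongr
        _ = (θ ^ 2 * (l ^ 2 * R))⁻¹ := by field_simp
    refine h3.trans (inv_anti₀ hre ?_)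
    have h4 : 1 ≤ θ ^ 2 * R ^ (ε / 2) := by
      rw [div_le_iff₀ (by positivity)] at hL
      linarith
    calc R ^ (ε / 2) = 1 * R ^ (ε / 2) := (one_mul _).symm
      _ ≤ (θ ^ 2 * R ^ (ε / 2)) * R ^ (ε / 2) := by gcongr
      _ = θ ^ 2 * R ^ ε := by
        rw [mul_assoc, ← Real.rpow_add hR0]; congr 2; ring
      _ ≤ θ ^ 2 * (l ^ 2 * R) := by gcongr
  have e : 2 * n - 4 = 2 * (n - 2) := by omega
  rw [e, pow_mul]
  calc ((l * w / (θ * (l ^ 2 * R))) ^ 2) ^ (n - 2) ≤ ((R ^ (ε / 2))⁻¹) ^ (n - 2) := by gcongr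
    _ = (R ^ (ε / 2 * ((n - 2 : ℕ) : ℝ)))⁻¹ := by
        rw [inv_pow, ← Real.rpow_natCast, ← Real.rpow_mul hR0.le]
    _ ≤ (R ^ (((2 * M + 2 : ℕ) : ℝ)))⁻¹ := by
        refine inv_anti₀ (Real.rpow_pos_of_pos hR0 _) ?_
        refine Real.rpow_le_rpow_of_exponent_le hR ?_
        rw [Nat.cast_sub hnn']
        push_cast
        have h5 : (4 * (M:ℝ) + 4) / ε ≤ n - 2 := by linarith
        rw [div_le_iff₀ hε] at h5
        linarith
    _ = (R ^ (2 * M + 2))⁻¹ := by rw [Real.rpow_natCast]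

/-- the remainder of one piece. -/
theorem rest_piece {R E C x : ℝ} {M : ℕ} (hR : 1 ≤ R) (hE : 0 ≤ E) (hC : 0 ≤ C)
    (hx0 : 0 ≤ x) (hx : x ≤ (R ^ (2 * M + 2))⁻¹) :
    ((C * (R ^ M)⁻¹ * Real.sqrt E) ^ 2 + (C * R * Real.sqrt E) ^ 2 * x) ^ (3 / 2 : ℝ) ≤
      (2 * C * (R ^ M)⁻¹ * Real.sqrt E) ^ 3 := by
  have hR0 : 0 < R := by linarith
  have hb : 0 ≤ C * (R ^ M)⁻¹ * Real.sqrt E := by positivity
  have h1 : (C * (R ^ M)⁻¹ * Real.sqrt E) ^ 2 + (C * R * Real.sqrt E) ^ 2 * x ≤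
      (2 * C * (R ^ M)⁻¹ * Real.sqrt E) ^ 2 := by
    have h2 : (C * R * Real.sqrt E) ^ 2 * x ≤ (C * (R ^ M)⁻¹ * Real.sqrt E) ^ 2 := by
      calc (C * R * Real.sqrt E) ^ 2 * x ≤ (C * R * Real.sqrt E) ^ 2 * (R ^ (2 * M + 2))⁻¹ := by
            gcongr
        _ = (C * (R ^ M)⁻¹ * Real.sqrt E) ^ 2 := by
            rw [pow_add, mul_inv, pow_mul']
            field_simp
    nlinarith [sq_nonneg (C * (R ^ M)⁻¹ * Real.sqrt E)]
  calc _ ≤ ((2 * C * (R ^ M)⁻¹ * Real.sqrt E) ^ 2) ^ (3 / 2 : ℝ) :=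
        Real.rpow_le_rpow (by positivity) h1 (by norm_num)
    _ = (2 * C * (R ^ M)⁻¹ * Real.sqrt E) ^ 3 := by
        rw [← Real.rpow_natCast, ← Real.rpow_mul (by positivity), ← Real.rpow_natCast]
        norm_num

/-- the bounded case. -/
theorem NN_triv : ∃ C : ℝ, 0 ≤ C ∧ ∀ N : ℕ, 8 ≤ N → ∀ h : E2 → ℝ, Continuous h → ∀ g : E2 → ℂ,
    Measurable g → (∃ M : ℝ, ∀ ξ, ‖g ξ‖ ≤ M) → (∀ ξ, 1 < ‖ξ‖ → g ξ = 0) → ∀ w R : ℝ, 0 < w →
    1 ≤ R → NN N h g w (2 * R) ≤ ENNReal.ofReal (C * (R ^ 3 * Real.sqrt (En g) ^ 3)) := by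
  obtain ⟨C, hC, H⟩ := W323.exists_triv1
  refine ⟨2 * C, by positivity, ?_⟩
  intro N hN h hh g hg hb hs w R hw hR
  have hR0 : 0 < R := by linarith
  have hE := En_nonneg g
  have h1 := H N hN h hh g hg hb hs w (2 * R) hw (by positivity)
  have e1 : ∀ z, W323.av N h g w z = AA N w (fun p => ext h g p.1 p.2) z := by
    intro z
    unfold W323.av AA
    rw [inv_pow]
  have hg2 : MemLp g 2 := memLp_ball (ξ0 := 0) hg hb (r := 1) (by simpa using hs) 2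
  simp_rw [e1] at h1
  rw [lint_nsq hg2] at h1
  rw [NN_eq]
  refine h1.trans ?_
  rw [ENNReal.ofReal_rpow_of_nonneg hE (by norm_num), ← ENNReal.ofReal_mul (by positivity)]
  apply ENNReal.ofReal_le_ofReal
  have e2 : En g ^ (3 / 2 : ℝ) = Real.sqrt (En g) ^ 3 := by
    rw [Real.sqrt_eq_rpow, ← Real.rpow_natCast, ← Real.rpow_mul hE]
    norm_num
  rw [e2]
  calc C * (2 * R) * Real.sqrt (En g) ^ 3 = 2 * C * (R ^ 1 * Real.sqrt (En g) ^ 3) := by ring
    _ ≤ 2 * C * (R ^ 3 * Real.sqrt (En g) ^ 3) := by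
        gcongr
        norm_num

/-- **ZOOM for local averages**. -/
theorem zoomNN2 (B : ℕ → ℝ) (hB : B 2 ≤ 1 / 2) {q : ℝ} (hq : 0 ≤ q) : ZoomNN2 B q := by
  obtain ⟨θ, hθ0, hθ1, HP⟩ := pieces B hq
  obtain ⟨Ct, hCt, HT⟩ := NN_triv
  refine ⟨θ, 6, hθ0, hθ1, ?_⟩
  intro ε hε Na M0 N
  set M : ℕ := ⌈3 + |M0| + q⌉₊ with hM
  obtain ⟨C, L0, hC, hL0, H⟩ := HP ε hε Na M0 M
  set n : ℕ := max (max N 4) ⌈2 + (4 * M + 4) / ε⌉₊ with hn
  have hn4 : 4 ≤ n := (le_max_right _ _).trans (le_max_left _ _)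
  have hnN : N ≤ 2 * n := by
    have : N ≤ n := (le_max_left _ _).trans (le_max_left _ _)
    omega
  have hnM : 2 + (4 * (M:ℝ) + 4) / ε ≤ n := by
    exact (Nat.le_ceil _).trans (Nat.cast_le.2 (le_max_right _ _))
  obtain ⟨CA, hCA, HA⟩ := AA_resc n B (by linarith)
  obtain ⟨Cp, hCp, Hp⟩ := one_piece (N := 2 * n) (by omega)
  set L : ℝ := max L0 ((1 / θ ^ 2) ^ (2 / ε)) with hL
  have hL1 : 1 ≤ L := hL0.trans (le_max_left _ _)
  have hL00 : 0 < L := by linarith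
  refine ⟨2 * n + (2 * n + 2), CA ^ (3 / 2 : ℝ) * (4 * (θ * C * Real.sqrt C) +
    Cp * C * (2 * C) ^ 3) + Ct * (L ^ 2 * (L ^ (|M0| / 2) * L ^ (q / 4))), by positivity, ?_⟩
  intro h g R D l ξ0 w Z hlR hlw hwR Q hQ hyp
  have hl := Z.l0
  have hl1 := Z.l1
  have hR1 := Z.R1
  have hR0 : 0 < R := by linarith
  have hE := En_nonneg g
  have hQ0 : 0 ≤ Q := by linarith
  have hw : 0 < w := by
    by_contra hc
    push Not at hc
    have : l * w ≤ 0 := mul_nonpos_of_nonneg_of_nonpos hl.le hc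
    linarith
  have h1 : 1 ≤ l ^ 2 * R := (Real.one_le_rpow hR1 hε.le).trans hlR
  have hg2 : MemLp g 2 := memLp_ball Z.meas Z.bdd Z.supp 2
  have hfin : 0 ≤ R ^ ε * Q * l ^ (q / 2) * (R * En g * Real.sqrt D) := by
    have a1 : 0 ≤ R ^ ε := Real.rpow_nonneg hR0.le _
    have a2 : 0 ≤ l ^ (q / 2) := Real.rpow_nonneg hl.le _
    positivity
  have a3 : 0 ≤ Ct * (L ^ 2 * (L ^ (|M0| / 2) * L ^ (q / 4))) := by positivity
  have a4 : 0 ≤ CA ^ (3 / 2 : ℝ) * (4 * (θ * C * Real.sqrt C) + Cp * C * (2 * C) ^ 3) := by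
    positivity
  have goal_eq : ∀ x : ℝ, x * R ^ ε * Q * l ^ (q / 2) * SS g R D =
      x * (R ^ ε * Q * l ^ (q / 2) * (R * En g * Real.sqrt D)) := by
    intro x; unfold SS; ring
  by_cases hg : ∃ ξ, g ξ ≠ 0
  swap
  · push Not at hg
    have e : ∀ p : E2 × ℝ, ext h g p.1 p.2 = 0 := by
      intro p
      unfold ext
      simp [hg]
    unfold NN
    simp [e]
  have hv := grad_cap hB Z hg
  by_cases hRL : L ≤ R
  swap
  · -- bounded `R`
    push Not at hRL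
    refine (HT (2 * n + (2 * n + 2)) (by omega) h Z.par.1.continuous g Z.meas Z.bdd Z.supp1 w R hw
      hR1).trans ?_
    apply ENNReal.ofReal_le_ofReal
    refine (triv_real hl hR1 hRL.le Z.D0 hE hCt hQ hε.le hq h1 Z.nd).trans ?_
    rw [goal_eq]
    gcongr
    linarith
  · have hRL0 : L0 ≤ R := (le_max_left _ _).trans hRL
    have hRθ : 1 / θ ^ 2 ≤ R ^ (ε / 2) := by
      have h3 : (1 / θ ^ 2) = ((1 / θ ^ 2) ^ (2 / ε)) ^ (ε / 2) := by
        rw [← Real.rpow_mul (by positivity)]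
        have : 2 / ε * (ε / 2) = 1 := by field_simp
        rw [this, Real.rpow_one]
      rw [h3]
      exact Real.rpow_le_rpow (by positivity) ((le_max_right _ _).trans hRL) (by positivity)
    obtain ⟨Λ, G, D', hcov, hcard, hst, hD', hEn, hr1, hr2⟩ := H h g R D l ξ0 Z hlR hRL0 hv
    set r : ℝ := θ * (l ^ 2 * R) with hr
    have hr0 : 0 < r := by positivity
    set v := gradient h ξ0 with hvd
    set h' := hR h ξ0 l with hh'
    set g' : E2 → ℂ := fun η => g (ξ0 + l • η) with hg'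
    have hh2 : ParB B h' := parB_hR Z.par ξ0 hl hl1
    have hm' : Measurable g' := Z.meas.comp (by fun_prop)
    have hb' : ∃ M : ℝ, ∀ ξ, ‖g' ξ‖ ≤ M := by
      obtain ⟨M, hM⟩ := Z.bdd; exact ⟨M, fun ξ => hM _⟩
    have hs' : ∀ ξ, 1 / 4 < ‖ξ‖ → g' ξ = 0 :=
      supp_resc hl (fun ξ hξ => Z.supp ξ (by linarith))
    have hi' : Integrable g' := int_ball (ξ0 := 0) hm' hb' (r := 1 / 4) (by simpa using hs')
    set F' : E2 × ℝ → ℂ := fun p => ext h' g' p.1 p.2 with hF'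
    set W : ℝ := l * w with hW
    have hW0 : 0 < W := by positivity
    set bd : ℝ := 2 * C * (R ^ M)⁻¹ * Real.sqrt (En g) with hbd
    have hbd0 : 0 ≤ bd := by positivity
    -- one piece
    have key : ∀ a ∈ Λ, ∫⁻ z in cyl r, AA (2 * n) W F' (z + zz r a) ^ (3 / 2 : ℝ) ≤
        4 * ENNReal.ofReal (Q * SS (G a) r D') + ENNReal.ofReal (Cp * r ^ 3 * bd ^ 3) := by
      intro a ha
      have hGi : Integrable (G a) := by
        have := hst a ha
        exact int_ball (ξ0 := 0) this.meas this.bdd (r := 1 / 2) (by simpa using this.supp)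
      have e1 : ∀ z, AA (2 * n) W F' (z + zz r a) =
          AA (2 * n) W (fun p => ext h' (tr h' (zz r a) g') p.1 p.2) z := by
        intro z
        rw [AA_translate]
        congr 1
        funext p
        rw [ext_tr]
        rfl
      simp_rw [e1]
      have e2 := Hp W r (C * (R ^ M)⁻¹ * Real.sqrt (En g)) (C * R * Real.sqrt (En g)) hW0 hr0
        (by positivity) (by positivity) (fun p => ext h' (tr h' (zz r a) g') p.1 p.2)
        (fun p => ext h' (G a) p.1 p.2)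
        (F4x858.continuous_ext hh2.1.continuous (tr_int hh2.1.continuous _ hi')).measurable
        (F4x858.continuous_ext hh2.1.continuous hGi).measurable (hr1 a ha) (hr2 a ha)
      refine e2.trans (add_le_add ?_ ?_)
      · gcongr
        refine le_trans ?_ (hyp h' (G a) D' (hst a ha))
        rw [NN_eq]
        refine lintegral_mono fun z => ?_
        exact ENNReal.rpow_le_rpow (AA_anti hnN hW0 _ _) (by norm_num)
      · apply ENNReal.ofReal_le_ofReal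
        gcongr
        refine rest_piece hR1 hE hC (by positivity) ?_
        exact far_real hl hR1 hw hθ0 hε hwR hlR hRθ hnM
    have hsum : ∑ a ∈ Λ, (4 * ENNReal.ofReal (Q * SS (G a) r D') +
        ENNReal.ofReal (Cp * r ^ 3 * bd ^ 3)) ≤
        ENNReal.ofReal (4 * (Q * (r * (C * ((l ^ 2)⁻¹ * En g)) * Real.sqrt D')) +
          Cp * (C * R * (r ^ 3 * bd ^ 3))) := by
      rw [Finset.sum_add_distrib, ← Finset.mul_sum, Finset.sum_const, nsmul_eq_mul,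
        ENNReal.ofReal_add (by positivity) (by positivity)]
      refine add_le_add ?_ ?_
      · rw [ENNReal.ofReal_mul (show (0:ℝ) ≤ 4 by norm_num)]
        have : ENNReal.ofReal 4 = 4 := by norm_num
        rw [this]
        gcongr
        exact SS_sum Λ G hQ0 hr0.le hEn
      · rw [← ENNReal.ofReal_natCast, ← ENNReal.ofReal_mul (Nat.cast_nonneg _)]
        apply ENNReal.ofReal_le_ofReal
        calc (Λ.card : ℝ) * (Cp * r ^ 3 * bd ^ 3) ≤ (C * R) * (Cp * r ^ 3 * bd ^ 3) := by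
              gcongr
          _ = _ := by ring
    set Φ : E2 × ℝ → ℝ≥0∞ := fun z => AA (2 * n) W F' z ^ (3 / 2 : ℝ) with hΦ
    have e0 := setLIntegral_Ph v hl (meas_img v hl.ne' (2 * R)) Φ
    rw [preim_img v hl.ne'] at e0
    rw [NN_eq]
    calc ∫⁻ z in cyl (2 * R), AA (2 * n + (2 * n + 2)) w (fun p => ext h g p.1 p.2) z ^ (3 / 2 : ℝ)
        ≤ ∫⁻ z in cyl (2 * R), ENNReal.ofReal (CA ^ (3 / 2 : ℝ) * l ^ 6) * Φ (Ph v l z) := by
          refine lintegral_mono fun z => ?_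
          have e3 := HA h Z.par g ξ0 l w hl hl1 hw hlw hv Z.meas Z.bdd
            (fun ξ hξ => Z.supp ξ (by linarith)) z
          calc AA (2 * n + (2 * n + 2)) w (fun p => ext h g p.1 p.2) z ^ (3 / 2 : ℝ)
              ≤ (ENNReal.ofReal (CA * l ^ 4) * AA (2 * n) W F' (Ph v l z)) ^ (3 / 2 : ℝ) :=
                ENNReal.rpow_le_rpow e3 (by norm_num)
            _ = _ := by
                rw [ENNReal.mul_rpow_of_nonneg _ _ (by norm_num),
                  ENNReal.ofReal_rpow_of_nonneg (by positivity) (by norm_num),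
                  Real.mul_rpow hCA (by positivity)]
                congr 3
                rw [← Real.rpow_natCast, ← Real.rpow_mul hl.le, ← Real.rpow_natCast]
                norm_num
      _ = ENNReal.ofReal (CA ^ (3 / 2 : ℝ) * l ^ 2) *
          ∫⁻ q in (PhH v l hl.ne') '' cyl (2 * R), Φ q := by
          rw [lintegral_const_mul' _ _ ENNReal.ofReal_ne_top, e0, ← mul_assoc,
            ← ENNReal.ofReal_mul (by positivity)]
          congr 2
          field_simp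
      _ ≤ ENNReal.ofReal (CA ^ (3 / 2 : ℝ) * l ^ 2) * ∑ a ∈ Λ, ∫⁻ z in cyl r, Φ (z + zz r a) := by
          gcongr
          refine lint_cover2 Λ (fun a => zz r a) ?_ Φ
          rintro _ ⟨p, hp, rfl⟩
          exact hcov p hp
      _ ≤ ENNReal.ofReal (CA ^ (3 / 2 : ℝ) * l ^ 2) * ∑ a ∈ Λ,
          (4 * ENNReal.ofReal (Q * SS (G a) r D') + ENNReal.ofReal (Cp * r ^ 3 * bd ^ 3)) := by
          gcongr with a ha
          exact key a ha
      _ ≤ ENNReal.ofReal (CA ^ (3 / 2 : ℝ) * l ^ 2) *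
          ENNReal.ofReal (4 * (Q * (r * (C * ((l ^ 2)⁻¹ * En g)) * Real.sqrt D')) +
          Cp * (C * R * (r ^ 3 * bd ^ 3))) := by gcongr
      _ = ENNReal.ofReal (CA ^ (3 / 2 : ℝ) *
          (4 * (l ^ 2 * (Q * (r * (C * ((l ^ 2)⁻¹ * En g)) * Real.sqrt D'))) +
          l ^ 2 * (Cp * (C * R * (r ^ 3 * bd ^ 3))))) := by
          rw [← ENNReal.ofReal_mul (by positivity)]
          congr 1; ring
      _ ≤ _ := by
          apply ENNReal.ofReal_le_ofReal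
          rw [goal_eq]
          have b1 := main_real (Q := Q) hl hR1 Z.D0 hE hC hθ0.le hQ0 hε.le hD'
          have b2 := rest_total (K := Cp) (C := C) (C' := 2 * C) (ε := ε) (Q := Q)
            (M := M) hl hl1 hR1 Z.D0 hE hC (by positivity) hCp hθ0.le hθ1 hQ hε.le hq
            h1 Z.nd (Nat.le_ceil _)
          have b3 : 0 ≤ (Ct * (L ^ 2 * (L ^ (|M0| / 2) * L ^ (q / 4)))) *
            (R ^ ε * Q * l ^ (q / 2) * (R * En g * Real.sqrt D)) := mul_nonneg a3 hfin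
          rw [← hr, ← hbd] at b2
          rw [← hr] at b1
          calc CA ^ (3 / 2 : ℝ) *
                (4 * (l ^ 2 * (Q * (r * (C * ((l ^ 2)⁻¹ * En g)) * Real.sqrt D'))) +
                l ^ 2 * (Cp * (C * R * (r ^ 3 * bd ^ 3))))
              ≤ CA ^ (3 / 2 : ℝ) * (4 * ((θ * C * Real.sqrt C) *
                (R ^ ε * Q * l ^ (q / 2) * (R * En g * Real.sqrt D))) +
                (Cp * C * (2 * C) ^ 3) *
                  (R ^ ε * Q * l ^ (q / 2) * (R * En g * Real.sqrt D))) := by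
                gcongr
            _ ≤ _ := by linarith



end Crest.Agent.R138.Zm858
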