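import Crest.Agent.R138.Step1_654_Mg
import Crest.Agent.R138.Ex_685_Mg
import Crest.Agent.R138.KMs_630
import Crest.Agent.R138.Mw9_330
import Crest.Agent.R138.WCh_188
import Crest.Agent.R138.Hf3_774_Mg
import Crest.Agent.R138.Sup7_882
import Crest.Agent.R138.Tv3_323
import Crest.Agent.R138.Zm8_858_Mg
import Crest.Agent.R138.Wpk11_685
import Crest.Agent.R138.Chn7_188

-- ▼ part R138/FinE_630
section

/-!
# R138 / R139: the tower `EXT` from `MIS` (helper630)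
-/

set_option autoImplicit false
set_option linter.unusedVariables false

namespace Crest.Agent.R138.FinE630

open Crest.Agent.R138

/-- the tower exists for all large `A`, modulo `MIS`. -/
theorem ext_of_mis (hKM : ∀ V : ℝ, Tub70.KM32 V) {B : ℕ → ℝ} (hB : B 2 ≤ 1 / 10) {q : ℝ}
    (hq : 0 ≤ q) (hq4 : q ≤ 4) (HM : P654.MIS B q) :
    ∃ A0 : ℝ, ∀ A : ℝ, A0 ≤ A → Chn188.EXT B q A := by
  obtain ⟨A0, hD⟩ := Wpk685.decc_holds B hq
  refine ⟨max A0 1, fun A hA => ?_⟩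
  have hD' := hD A ((le_max_left _ _).trans hA)
  have hS : P654.STEP B q := P654.step_of (Al878.al_of B hB hKM q hq hq4) HM
  exact ExtB628.ext_of (Ex685.ex1p hD') (Ex685.exp_holds hD')
    (Stp210.stepp ((le_max_right _ _).trans hA) hS)

end Crest.Agent.R138.FinE630
end

-- ▼ part R138/WireE_627
section

/-!
# R138 / R139: the tower `EXT`, unconditional (helper627)
-/

set_option autoImplicit false
set_option linter.unusedVariables false

namespace Crest.Agent.R138.Wire627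

open Crest.Agent.R138

/-- **EXT** for all large `A`. -/
theorem ext_holds {B : ℕ → ℝ} (hB : B 2 ≤ 1 / 10) {q : ℝ} (hq : 0 < q) (hq1 : q ≤ 1) :
    ∃ A0 : ℝ, ∀ A : ℝ, A0 ≤ A → Chn188.EXT B q A :=
  FinE630.ext_of_mis KMs630.km32 hB hq.le (by linarith) (Mis330.mis KMs630.km32 B hq hq1)

end Crest.Agent.R138.Wire627
end

-- ▼ part R138/WFin3_188
section

/-!
# R138 / R139: WAVE side, final part 3 (helper188): `EBn` from `KM32` (Kakeya side) and the slab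
chain `WChE` only (DEC of 685, ZOOM of 858, A4 of 759, ... are plugged in).
-/

set_option autoImplicit false

open MeasureTheory FourierTransform
open scoped ContDiff ENNReal

namespace Crest.Agent.R138.W188

open Crest.Agent.R138.Defs Crest.Agent.R138.Bil882 Crest.Agent.R138.Wpk685

/-- **`LB` for all `c > 0`** from `KM32` and the slab chain. -/
theorem LB_of_WCh {B : ℕ → ℝ} (hB2 : B 2 ≤ 1/10) {q : ℝ} (hq : 0 ≤ q)
    (hKM : ∀ V : ℝ, Tub70.KM32 V) (hW : ∃ A0 : ℝ, ∀ A : ℝ, A0 ≤ A → WChE B q (SIG A)) :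
    ∀ c : ℝ, 0 < c → LB B q 1 c := by
  obtain ⟨A0, hW⟩ := hW
  obtain ⟨A1, hD⟩ := dec_holds B hq
  have hB2' : B 2 ≤ 1/2 := by linarith
  set A : ℝ := max (max A0 A1) 1 with hA
  have hA1 : 1 ≤ A := le_max_right _ _
  have hDA := hD A ((le_max_right _ _).trans (le_max_left _ _))
  have hWA := hW A ((le_max_left _ _).trans (le_max_left _ _))
  have hZN := Zm858.zoomNN2 B hB2' hq
  have hZC := Zm858.zoomCC2 B hB2' hq
  have hA0 : 0 ≤ A := by linarith
  exact LB_all_ch (F := SIG A) (T774.HALF_of_Zoom hB2 (Zm858.ZoomNN_of hZN))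
    (Tub70.KMw_of_KM32 B hq (hKM _)) (W323.TRIV1_holds B q) (W323.TRIV2_holds B hq hA0)
    (A1_of_A1n (T774.A1_of_DEC hDA)) (Bn759.A4_of_Zoom hB2 hq hZC hZN)
    (T774.A5a_holds B q) hWA

/-- **`EBn`** from `KM32` and the slab chain; the phase class may be restricted
(`B k ≤ c0`, `2 ≤ k ≤ K0`). -/
theorem EBn_of_WCh {c0 : ℝ} (hc0 : 0 < c0) (K0 : ℕ) (hKM : ∀ V : ℝ, Tub70.KM32 V)
    (hW : ∀ B : ℕ → ℝ, (∀ k, 0 ≤ B k) → (∀ k, 2 ≤ k → k ≤ K0 → B k ≤ c0) → B 2 ≤ 1/10 →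
      ∀ q : ℝ, 0 < q → q ≤ 1 → ∃ A0 : ℝ, ∀ A : ℝ, A0 ≤ A → WChE B q (SIG A)) : EBn := by
  refine EBn_of_LB hc0 K0 ?_
  intro B hB0 hBk hB2 q hq hq1
  exact LB_of_WCh hB2 hq.le hKM (hW B hB0 hBk hB2 q hq hq1)

end Crest.Agent.R138.W188
end

-- ▼ part R138/WFin4_188
section

/-!
# R138 / R139: WAVE side, final part 4 (helper188): `EBn` from `KM32` (Kakeya side) and the
existence of towers `EXT` (level recursion + slab step).
-/

set_option autoImplicit false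

open MeasureTheory FourierTransform
open scoped ContDiff ENNReal

namespace Crest.Agent.R138.W188

open Crest.Agent.R138.Defs Crest.Agent.R138.Bil882 Crest.Agent.R138.Wpk685

/-- **`WChE`** from `KM32` and `EXT`. -/
theorem WChE_of_EXT' {B : ℕ → ℝ} (hB2 : B 2 ≤ 1/10) {q : ℝ} (hq : 0 ≤ q) {A : ℝ} (hA : 1 ≤ A)
    (hKM : ∀ V : ℝ, Tub70.KM32 V) (hX : Chn188.EXT B q A) : WChE B q (SIG A) := by
  have hB2' : B 2 ≤ 1/2 := by linarith
  have hZN := Zm858.zoomNN2 B hB2' hq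
  have hZC := Zm858.zoomCC2 B hB2' hq
  exact Chn188.wchE_of_EXT hA (Tub70.KMw_of_KM32 B hq (hKM _)) (W323.TRIV1_holds B q)
    (W323.TRIV2_holds B hq (by linarith))
    (Sup882.A2_of_Zoom B hB2 q hq A hA (Zm858.ZoomNN_of hZN))
    (Sup882.A2K_of_KMw B hB2 q hq A hA (Tub70.KMw_of_KM32 B le_rfl (hKM _)))
    (T774.A5b_of_Zoom hB2 (Zm858.ZoomCC_of hZC)) hX

/-- **`EBn`** from `KM32` and `EXT`; the phase class may be restricted (`B k ≤ c0`, `2 ≤ k ≤ K0`). -/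
theorem EBn_of_EXT {c0 : ℝ} (hc0 : 0 < c0) (K0 : ℕ) (hKM : ∀ V : ℝ, Tub70.KM32 V)
    (hX : ∀ B : ℕ → ℝ, (∀ k, 0 ≤ B k) → (∀ k, 2 ≤ k → k ≤ K0 → B k ≤ c0) → B 2 ≤ 1/10 →
      ∀ q : ℝ, 0 < q → q ≤ 1 → ∃ A0 : ℝ, ∀ A : ℝ, A0 ≤ A → Chn188.EXT B q A) : EBn := by
  refine EBn_of_WCh hc0 K0 hKM ?_
  intro B hB0 hBk hB2 q hq hq1
  obtain ⟨A0, hX⟩ := hX B hB0 hBk hB2 q hq hq1
  exact ⟨max A0 1, fun A hA => WChE_of_EXT' hB2 hq.le ((le_max_right _ _).trans hA) hKM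
    (hX A ((le_max_left _ _).trans hA))⟩

end Crest.Agent.R138.W188
end

-- ▼ part R138/Ebn_627

/-!
# R138 / R139: the energy bound `EBn` (helper627, wiring).

`EBn_of_EXT` (helper188) from `KM32` (Kakeya maximal inequality in `ℝ³`, `KMs630.km32`) and the
existence of towers `EXT` (`Wire627.ext_holds`).
-/

set_option autoImplicit false

namespace Crest.Agent.R138.Wire627

open Crest.Agent.R138

/-- **The energy bound `EBn`.** -/
theorem eBn_holds : Defs.EBn :=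
  W188.EBn_of_EXT (c0 := 1/10) (by norm_num) 2 KMs630.km32
    (fun _ _ _ hB2 _ hq hq1 => ext_holds hB2 hq hq1)

end Crest.Agent.R138.Wire627
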