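import Crest.Agent.R138.Ker7_858
import Crest.Agent.R138.Fq2_665
import Crest.Agent.R138.RsDef_134

/-! **F4**: the restricted local estimate (EInf) follows from (EB). -/

set_option autoImplicit false

open MeasureTheory FourierTransform
open scoped ContDiff ENNReal

namespace Crest.Agent.R138.F4x858

open Crest.Agent.R138.Defs Crest.Agent.R138.Ker858

theorem continuous_ee : Continuous ee := by
  unfold ee; fun_prop

theorem continuous_ext {h : E2 → ℝ} (hh : Continuous h) {g : E2 → ℂ} (hg : Integrable g) :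
    Continuous fun p : E2 × ℝ => ext h g p.1 p.2 := by
  unfold ext
  refine continuous_of_dominated (bound := fun ξ => ‖g ξ‖) ?_ ?_ hg.norm ?_
  · intro p
    refine hg.aestronglyMeasurable.mul (Continuous.aestronglyMeasurable ?_)
    exact continuous_ee.comp ((continuous_const.inner continuous_id).add (continuous_const.mul hh))
  · intro p
    refine Filter.Eventually.of_forall fun ξ => ?_
    rw [norm_mul, norm_ee, mul_one]
  · refine Filter.Eventually.of_forall fun ξ => ?_
    refine continuous_const.mul (continuous_ee.comp ?_)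
    exact (continuous_fst.inner continuous_const).add (continuous_snd.mul continuous_const)

theorem ext_eq (h : E2 → ℝ) (g : E2 → ℂ) (x : E2) (t : ℝ) :
    ext h g x t = 𝓕⁻ (fun ξ => g ξ * ee (t * h ξ)) x := by
  rw [ext, Real.fourierInv_eq]
  refine integral_congr_ae (Filter.Eventually.of_forall fun ξ => ?_)
  simp only [Circle.smul_def, Real.fourierChar_apply, smul_eq_mul, ee]
  rw [real_inner_comm]
  rw [show ((2 * Real.pi * (inner ℝ ξ x + t * h ξ) : ℝ) : ℂ) * Complex.I =
    ((2 * Real.pi * inner ℝ ξ x : ℝ) : ℂ) * Complex.I +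
      ((2 * Real.pi * (t * h ξ) : ℝ) : ℂ) * Complex.I by push_cast; ring, Complex.exp_add]
  ring

/-- Plancherel on a slice. -/
theorem slice {h : E2 → ℝ} (hh : Continuous h) {g : E2 → ℂ} (h1 : Integrable g)
    (h2 : MemLp g 2) (t : ℝ) : ∫⁻ x, ‖ext h g x t‖ₑ ^ 2 = ∫⁻ ξ, ‖g ξ‖ₑ ^ 2 := by
  simp_rw [ext_eq]
  have hm : AEStronglyMeasurable (fun ξ => ee (t * h ξ)) (volume : Measure E2) :=
    (continuous_ee.comp (continuous_const.mul hh)).aestronglyMeasurable
  have hn : ∀ ξ, ‖g ξ * ee (t * h ξ)‖ = ‖g ξ‖ := fun ξ => by rw [norm_mul, norm_ee, mul_one]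
  have i1 : Integrable fun ξ => g ξ * ee (t * h ξ) :=
    h1.mono (h1.aestronglyMeasurable.mul hm) (Filter.Eventually.of_forall fun ξ => (hn ξ).le)
  have i2 : MemLp (fun ξ => g ξ * ee (t * h ξ)) 2 :=
    h2.mono (h1.aestronglyMeasurable.mul hm) (Filter.Eventually.of_forall fun ξ => (hn ξ).le)
  rw [Fq665.plancherel_inv i1 i2]
  refine lintegral_congr fun ξ => ?_
  rw [enorm_mul]
  have : ‖ee (t * h ξ)‖ₑ = 1 := by
    rw [← ofReal_norm, norm_ee]; simp
  rw [this, mul_one]

theorem memLp_of_bdd {g : E2 → ℂ} (hm : Measurable g) {M : ℝ} (hb : ∀ ξ, ‖g ξ‖ ≤ M)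
    {S : Set E2} (hS : volume S < ⊤) (hS' : MeasurableSet S) (hs : ∀ ξ, ξ ∉ S → g ξ = 0)
    (p : ℝ≥0∞) : MemLp g p := by
  have h1 : MemLp (S.indicator fun _ => M) p volume :=
    memLp_indicator_const p hS' M (Or.inr hS.ne)
  refine h1.mono hm.aestronglyMeasurable (Filter.Eventually.of_forall fun ξ => ?_)
  by_cases hξ : ξ ∈ S
  · rw [Set.indicator_of_mem hξ]
    exact (hb ξ).trans (le_abs_self _)
  · rw [hs ξ hξ, norm_zero]; exact norm_nonneg _

theorem measurable_chi {h : E2 → ℝ} (hh : ContDiff ℝ ∞ h) (c : E2)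
    (b : OrthonormalBasis (Fin 2) ℝ E2) (s : Fin 2 → ℝ) {ψ : E2 → ℂ} (hψ : Continuous ψ) :
    Continuous (chi h c b s ψ) := by
  unfold chi
  refine hψ.comp ?_
  refine (PiLp.continuous_toLp 2 _).comp (continuous_pi fun a => ?_)
  exact (continuous_coord hh c a).div_const _




end Crest.Agent.R138.F4x858
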