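import Crest.Agent.R138.Defs_665

-- ▼ part R138/Ker1_858
section

/-! Non-stationary phase along a vector field: classes of functions with bounded derivatives along
the field, closed under products and inverses. -/

set_option autoImplicit false

open MeasureTheory
open scoped ContDiff

namespace Crest.Agent.R138.Ker858

open Crest.Agent.R138.Defs

/-- derivation along the vector field `W`. -/
noncomputable def Dv (W : E2 → E2) (f : E2 → ℂ) (x : E2) : ℂ := fderiv ℝ f x (W x)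

/-- `f` and its first `k` derivatives along `W` are at most `B` on `U`. -/
def Bd (W : E2 → E2) (U : Set E2) : ℕ → ℝ → (E2 → ℂ) → Prop
  | 0, B, f => ∀ x ∈ U, ‖f x‖ ≤ B
  | k + 1, B, f => (∀ x ∈ U, ‖f x‖ ≤ B) ∧ Bd W U k B (Dv W f)

variable {W : E2 → E2} {U : Set E2} {f g : E2 → ℂ} {B B' : ℝ} {k : ℕ}

theorem Bd.val (h : Bd W U k B f) {x : E2} (hx : x ∈ U) : ‖f x‖ ≤ B := by
  cases k with
  | zero => exact h x hx
  | succ k => exact h.1 x hx

theorem Bd.mono_B (h : Bd W U k B f) (hB : B ≤ B') : Bd W U k B' f := by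
  induction k generalizing f with
  | zero => exact fun x hx => (h x hx).trans hB
  | succ k ih => exact ⟨fun x hx => (h.1 x hx).trans hB, ih h.2⟩

theorem Bd.pred (h : Bd W U (k + 1) B f) : Bd W U k B f := by
  induction k generalizing f with
  | zero => exact h.1
  | succ k ih => exact ⟨h.1, ih h.2⟩

theorem Bd.mono_k {j : ℕ} (hjk : j ≤ k) (h : Bd W U k B f) : Bd W U j B f := by
  induction hjk with
  | refl => exact h
  | step _ ih => exact ih h.pred

theorem Dv_congr (hU : IsOpen U) (hfg : ∀ x ∈ U, f x = g x) : ∀ x ∈ U, Dv W f x = Dv W g x := by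
  intro x hx
  have : f =ᶠ[nhds x] g := Filter.eventually_of_mem (hU.mem_nhds hx) hfg
  rw [Dv, Dv, this.fderiv_eq]

theorem Bd.congr (hU : IsOpen U) (hfg : ∀ x ∈ U, f x = g x) (h : Bd W U k B f) :
    Bd W U k B g := by
  induction k generalizing f g with
  | zero => exact fun x hx => by rw [← hfg x hx]; exact h x hx
  | succ k ih =>
    exact ⟨fun x hx => by rw [← hfg x hx]; exact h.1 x hx, ih (Dv_congr hU hfg) h.2⟩

theorem contDiffOn_Dv (hU : IsOpen U) (hW : ContDiff ℝ ∞ W) (hf : ContDiffOn ℝ ∞ f U) :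
    ContDiffOn ℝ ∞ (Dv W f) U := by
  have h1 : ContDiffOn ℝ ∞ (fderiv ℝ f) U := hf.fderiv_of_isOpen hU (by simp)
  exact h1.clm_apply hW.contDiffOn

theorem diffAt (hU : IsOpen U) (hf : ContDiffOn ℝ ∞ f U) {x : E2} (hx : x ∈ U) :
    DifferentiableAt ℝ f x :=
  (hf.differentiableOn (by simp)).differentiableAt (hU.mem_nhds hx)

theorem Bd.zero (hB : 0 ≤ B) : Bd W U k B (fun _ => 0) := by
  induction k with
  | zero => exact fun x _ => by simpa using hB
  | succ k ih =>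
    refine ⟨fun x _ => by simpa using hB, ?_⟩
    have : Dv W (fun _ : E2 => (0:ℂ)) = fun _ => 0 := by
      funext x; simp [Dv]
    rw [this]; exact ih

theorem Bd.const (c : ℂ) (hB : ‖c‖ ≤ B) : Bd W U k B (fun _ => c) := by
  cases k with
  | zero => exact fun x _ => hB
  | succ k =>
    refine ⟨fun x _ => hB, ?_⟩
    have : Dv W (fun _ : E2 => c) = fun _ => 0 := by
      funext x; simp [Dv]
    rw [this]; exact Bd.zero ((norm_nonneg c).trans hB)

theorem Bd.add (hU : IsOpen U) (hW : ContDiff ℝ ∞ W) (hf : ContDiffOn ℝ ∞ f U)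
    (hg : ContDiffOn ℝ ∞ g U) (h : Bd W U k B f) (h' : Bd W U k B' g) :
    Bd W U k (B + B') (fun x => f x + g x) := by
  induction k generalizing f g with
  | zero => exact fun x hx => (norm_add_le _ _).trans (add_le_add (h x hx) (h' x hx))
  | succ k ih =>
    refine ⟨fun x hx => (norm_add_le _ _).trans (add_le_add (h.1 x hx) (h'.1 x hx)), ?_⟩
    refine (ih (contDiffOn_Dv hU hW hf) (contDiffOn_Dv hU hW hg) h.2 h'.2).congr hU ?_
    intro x hx
    simp only [Dv]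
    rw [fderiv_fun_add (diffAt hU hf hx) (diffAt hU hg hx)]
    rfl

theorem Dv_mul (hU : IsOpen U) (hf : ContDiffOn ℝ ∞ f U)
    (hg : ContDiffOn ℝ ∞ g U) {x : E2} (hx : x ∈ U) :
    Dv W (fun x => f x * g x) x = f x * Dv W g x + Dv W f x * g x := by
  simp only [Dv]
  rw [fderiv_fun_mul (diffAt hU hf hx) (diffAt hU hg hx)]
  simp [mul_comm]

theorem Bd.mul (hU : IsOpen U) (hW : ContDiff ℝ ∞ W) (hf : ContDiffOn ℝ ∞ f U)
    (hg : ContDiffOn ℝ ∞ g U) (hB : 0 ≤ B) (hB' : 0 ≤ B') (h : Bd W U k B f)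
    (h' : Bd W U k B' g) :
    Bd W U k (2 ^ k * (B * B')) (fun x => f x * g x) := by
  induction k generalizing f g with
  | zero =>
    intro x hx
    rw [norm_mul, pow_zero, one_mul]
    exact mul_le_mul (h x hx) (h' x hx) (norm_nonneg _) hB
  | succ k ih =>
    have h1 : (0:ℝ) ≤ B * B' := mul_nonneg hB hB'
    refine ⟨fun x hx => ?_, ?_⟩
    · rw [norm_mul]
      refine (mul_le_mul (h.1 x hx) (h'.1 x hx) (norm_nonneg _) hB).trans ?_
      exact le_mul_of_one_le_left h1 (one_le_pow₀ (by norm_num))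
    · have e1 := ih hf (contDiffOn_Dv hU hW hg) h.pred h'.2
      have e2 := ih (contDiffOn_Dv hU hW hf) hg h.2 h'.pred
      have e3 := Bd.add hU hW (hf.mul (contDiffOn_Dv hU hW hg))
        ((contDiffOn_Dv hU hW hf).mul hg) e1 e2
      refine (e3.congr hU ?_).mono_B (le_of_eq (by ring))
      intro x hx
      exact (Dv_mul hU hf hg hx).symm

theorem Bd.smul (c : ℂ) (hU : IsOpen U) (hW : ContDiff ℝ ∞ W) (hf : ContDiffOn ℝ ∞ f U)
    (h : Bd W U k B f) : Bd W U k (‖c‖ * B) (fun x => c * f x) := by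
  induction k generalizing f with
  | zero =>
    intro x hx
    rw [norm_mul]
    exact mul_le_mul_of_nonneg_left (h x hx) (norm_nonneg _)
  | succ k ih =>
    refine ⟨fun x hx => ?_, ?_⟩
    · rw [norm_mul]
      exact mul_le_mul_of_nonneg_left (h.1 x hx) (norm_nonneg _)
    · refine (ih (contDiffOn_Dv hU hW hf) h.2).congr hU ?_
      intro x hx
      simp only [Dv]
      rw [fderiv_const_mul (diffAt hU hf hx)]
      rfl

/-- the bound for the inverse. -/
noncomputable def invB (B : ℝ) : ℕ → ℝ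
  | 0 => 2
  | k + 1 => 2 + 4 ^ k * (B * invB B k ^ 2)

theorem two_le_invB (hB : 0 ≤ B) : ∀ k, 2 ≤ invB B k
  | 0 => le_rfl
  | k + 1 => by
    have : (0:ℝ) ≤ 4 ^ k * (B * invB B k ^ 2) := by positivity
    simp only [invB]; linarith

theorem contDiffOn_inv {q : E2 → ℂ} (hq : ContDiffOn ℝ ∞ q U) (h0 : ∀ x ∈ U, q x ≠ 0) :
    ContDiffOn ℝ ∞ (fun x => (q x)⁻¹) U := hq.inv h0

theorem Bd.inv {q : E2 → ℂ} (hU : IsOpen U) (hW : ContDiff ℝ ∞ W) (hq : ContDiffOn ℝ ∞ q U)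
    (hB : 0 ≤ B) (h2 : ∀ x ∈ U, 1 / 2 ≤ ‖q x‖) (h : Bd W U k B q) :
    Bd W U k (invB B k) (fun x => (q x)⁻¹) := by
  have h0 : ∀ x ∈ U, q x ≠ 0 := fun x hx e => by
    have := h2 x hx; rw [e, norm_zero] at this; norm_num at this
  have hval : ∀ x ∈ U, ‖(q x)⁻¹‖ ≤ 2 := fun x hx => by
    rw [norm_inv]
    have h3 := h2 x hx
    calc ‖q x‖⁻¹ ≤ (1 / 2 : ℝ)⁻¹ := inv_anti₀ (by norm_num) h3
      _ = 2 := by norm_num
  have hi := contDiffOn_inv hq h0
  induction k with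
  | zero => exact hval
  | succ k ih =>
    have hk := ih h.pred
    have hp : (0:ℝ) ≤ invB B k := by linarith [two_le_invB hB k]
    refine ⟨fun x hx => (hval x hx).trans (two_le_invB hB _), ?_⟩
    have e1 := Bd.mul hU hW hi hi hp hp hk hk
    have e2 := Bd.mul hU hW (contDiffOn_Dv hU hW hq) (hi.mul hi) hB
      (by positivity) h.2 e1
    have e3 := e2.smul (-1) hU hW ((contDiffOn_Dv hU hW hq).mul (hi.mul hi))
    refine (e3.congr hU ?_).mono_B ?_
    · intro x hx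
      have h1 : Dv W (fun x => q x * (q x)⁻¹) x = 0 := by
        have h2 : Dv W (fun x => q x * (q x)⁻¹) x = Dv W (fun _ => 1) x :=
          Dv_congr hU (fun y hy => mul_inv_cancel₀ (h0 y hy)) x hx
        rw [h2]; simp [Dv]
      rw [Dv_mul hU hq hi hx] at h1
      have h3 := h0 x hx
      have h4 : q x * Dv W (fun x => (q x)⁻¹) x = -(Dv W q x * (q x)⁻¹) := by
        linear_combination h1
      calc -1 * (Dv W q x * ((q x)⁻¹ * (q x)⁻¹)) = (q x)⁻¹ * -(Dv W q x * (q x)⁻¹) := by ring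
        _ = (q x)⁻¹ * (q x * Dv W (fun x => (q x)⁻¹) x) := by rw [h4]
        _ = Dv W (fun x => (q x)⁻¹) x := by rw [← mul_assoc, inv_mul_cancel₀ h3, one_mul]
    · simp only [invB, norm_neg, norm_one, one_mul]
      have : (2:ℝ) ^ k * (B * (2 ^ k * (invB B k * invB B k))) = 4 ^ k * (B * invB B k ^ 2) := by
        rw [show (4:ℝ) = 2 * 2 by norm_num, mul_pow]; ring
      rw [this]; linarith

end Crest.Agent.R138.Ker858
private theorem rz_c788fa69ee : type_of% @_root_.Crest.Agent.R138.Ker858.invB.eq_def := @_root_.Crest.Agent.R138.Ker858.invB.eq_def -- L145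
private theorem rz_96acaf7cda : type_of% @_root_.Crest.Agent.R138.Ker858.invB.eq_1 := @_root_.Crest.Agent.R138.Ker858.invB.eq_1 -- L145
end

-- ▼ part R138/Ker2_858
section

/-! Non-stationary phase along a vector field: the iteration. -/

set_option autoImplicit false

open MeasureTheory
open scoped ContDiff

namespace Crest.Agent.R138.Ker858

open Crest.Agent.R138.Defs

variable {W : E2 → E2} {U : Set E2}

/-- the divergence of `W` in the frame `b`. -/
noncomputable def dvg (b : OrthonormalBasis (Fin 2) ℝ E2) (W : E2 → E2) (x : E2) : ℂ :=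
  ((∑ i, fderiv ℝ (fun x => inner ℝ (b i) (W x)) x (b i) : ℝ) : ℂ)

theorem contDiff_comp_inner (b : OrthonormalBasis (Fin 2) ℝ E2) (hW : ContDiff ℝ ∞ W) (i : Fin 2) :
    ContDiff ℝ ∞ (fun x => inner ℝ (b i) (W x)) := contDiff_const.inner ℝ hW

theorem contDiff_dvg (b : OrthonormalBasis (Fin 2) ℝ E2) (hW : ContDiff ℝ ∞ W) :
    ContDiff ℝ ∞ (dvg b W) := by
  have h1 : ContDiff ℝ ∞ (fun x => ∑ i, fderiv ℝ (fun x => inner ℝ (b i) (W x)) x (b i)) := by
    refine ContDiff.sum fun i _ => ?_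
    exact ((contDiff_comp_inner b hW i).fderiv_right (m := ∞) (by simp)).clm_apply contDiff_const
  exact Complex.ofRealCLM.contDiff.comp h1

/-- the integral of a divergence is zero. -/
theorem ibp (b : OrthonormalBasis (Fin 2) ℝ E2) (hW : ContDiff ℝ ∞ W) {F : E2 → ℂ}
    (hF : ContDiff ℝ ∞ F) (hc : HasCompactSupport F) :
    ∫ x, (Dv W F x + dvg b W x * F x) = 0 := by
  have hdF : ContDiff ℝ ∞ (fderiv ℝ F) := hF.fderiv_right (by simp)
  have hcd : HasCompactSupport (fderiv ℝ F) := hc.fderiv ℝ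
  have hw : ∀ i, ContDiff ℝ ∞ (fun x => inner ℝ (b i) (W x)) := contDiff_comp_inner b hW
  have hdw : ∀ i, ContDiff ℝ ∞ (fderiv ℝ (fun x => inner ℝ (b i) (W x))) := fun i =>
    (hw i).fderiv_right (by simp)
  have c1 : ∀ i, Continuous fun x => fderiv ℝ (fun x => inner ℝ (b i) (W x)) x (b i) := fun i =>
    ((hdw i).clm_apply contDiff_const).continuous
  have c2 : ∀ i, Continuous fun x => fderiv ℝ F x (b i) := fun i =>
    (hdF.clm_apply contDiff_const).continuous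
  have s2 : ∀ i, HasCompactSupport fun x => fderiv ℝ F x (b i) := fun i =>
    hcd.mono' (fun x hx => by
      by_contra h
      exact hx (by simp [image_eq_zero_of_notMem_tsupport h]))
  have I1 : ∀ i, Integrable (fun x =>
      fderiv ℝ (fun x => inner ℝ (b i) (W x)) x (b i) • F x) := fun i =>
    ((c1 i).smul hF.continuous).integrable_of_hasCompactSupport (hc.smul_left)
  have I2 : ∀ i, Integrable (fun x => (inner ℝ (b i) (W x) : ℝ) • fderiv ℝ F x (b i)) := fun i =>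
    ((hw i).continuous.smul (c2 i)).integrable_of_hasCompactSupport ((s2 i).smul_left)
  have I3 : ∀ i, Integrable (fun x => (inner ℝ (b i) (W x) : ℝ) • F x) := fun i =>
    ((hw i).continuous.smul hF.continuous).integrable_of_hasCompactSupport (hc.smul_left)
  have key : ∀ i, ∫ x, (inner ℝ (b i) (W x) : ℝ) • fderiv ℝ F x (b i) =
      - ∫ x, fderiv ℝ (fun x => inner ℝ (b i) (W x)) x (b i) • F x := fun i =>
    integral_smul_fderiv_eq_neg_fderiv_smul_of_integrable (I1 i) (I2 i) (I3 i)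
      (fun x _ => (hw i).differentiable (by simp) x) (fun x _ => hF.differentiable (by simp) x)
  have e : ∀ x, Dv W F x + dvg b W x * F x =
      ∑ i, ((inner ℝ (b i) (W x) : ℝ) • fderiv ℝ F x (b i) +
        fderiv ℝ (fun x => inner ℝ (b i) (W x)) x (b i) • F x) := by
    intro x
    rw [Finset.sum_add_distrib]
    congr 1
    · conv_lhs => rw [Dv, ← b.sum_repr' (W x)]
      simp only [map_sum, map_smul]
    · rw [dvg, Complex.ofReal_sum, Finset.sum_mul]
      rfl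
  simp_rw [e]
  have I4 : ∀ i, Integrable (fun x => (inner ℝ (b i) (W x) : ℝ) • fderiv ℝ F x (b i) +
      fderiv ℝ (fun x => inner ℝ (b i) (W x)) x (b i) • F x) := fun i => (I2 i).add (I1 i)
  rw [integral_finsetSum _ (fun i _ => I4 i)]
  refine Finset.sum_eq_zero fun i _ => ?_
  rw [integral_add (I2 i) (I1 i), key i]; ring

/-- `ee ∘ Φ`. -/
theorem hasFDerivAt_ee {Φ : E2 → ℝ} {L : E2 →L[ℝ] ℝ} {x : E2} (h : HasFDerivAt Φ L x) :
    HasFDerivAt (fun x => ee (Φ x))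
      ((2 * Real.pi * Complex.I * ee (Φ x)) • (Complex.ofRealCLM.comp L)) x := by
  have h1 : HasDerivAt ee (2 * Real.pi * Complex.I * ee (Φ x)) (Φ x) := by
    have h2 : HasDerivAt (fun t : ℝ => ((2 * Real.pi * t : ℝ) : ℂ) * Complex.I)
        (2 * Real.pi * Complex.I) (Φ x) := by
      have h3 : HasDerivAt (fun t : ℝ => ((2 * Real.pi * t : ℝ) : ℂ)) ((2 * Real.pi : ℝ) : ℂ)
          (Φ x) := by
        have := ((hasDerivAt_id (Φ x)).const_mul (2 * Real.pi)).ofReal_comp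
        simpa using this
      simpa using h3.mul_const Complex.I
    exact (h2.cexp).congr_deriv (by simp only [ee]; ring)
  have h5 := h1.hasFDerivAt.comp x h
  refine h5.congr_fderiv ?_
  ext v
  simp [mul_comm, mul_assoc]

theorem contDiff_ee {Φ : E2 → ℝ} (h : ContDiff ℝ ∞ Φ) : ContDiff ℝ ∞ (fun x => ee (Φ x)) := by
  unfold ee
  have h1 : ContDiff ℝ ∞ (fun x => ((2 * Real.pi * Φ x : ℝ) : ℂ)) :=
    Complex.ofRealCLM.contDiff.comp (contDiff_const.mul h)
  exact (h1.mul contDiff_const).cexp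

theorem norm_ee (t : ℝ) : ‖ee t‖ = 1 := by
  rw [ee, Complex.norm_exp_ofReal_mul_I]

theorem contDiff_quot {u q : E2 → ℂ} (hU : IsOpen U) (hu : ContDiff ℝ ∞ u)
    (hq : ContDiffOn ℝ ∞ q U) (h0 : ∀ x ∈ U, q x ≠ 0) (hs : tsupport u ⊆ U) :
    ContDiff ℝ ∞ (fun x => u x * (q x)⁻¹) := by
  rw [contDiff_iff_contDiffAt]
  intro x
  by_cases hx : x ∈ U
  · exact (hu.contDiffAt).mul ((hq.inv h0).contDiffAt (hU.mem_nhds hx))
  · have hx' : x ∉ tsupport u := fun h => hx (hs h)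
    have h1 : (fun x => u x * (q x)⁻¹) =ᶠ[nhds x] fun _ => 0 := by
      filter_upwards [(isClosed_tsupport u).isOpen_compl.mem_nhds hx'] with y hy
      rw [image_eq_zero_of_notMem_tsupport hy, zero_mul]
    exact contDiffAt_const.congr_of_eventuallyEq h1

/-- the transposed operator of non-stationary phase. -/
noncomputable def Lop (b : OrthonormalBasis (Fin 2) ℝ E2) (W : E2 → E2) (q u : E2 → ℂ)
    (x : E2) : ℂ :=
  -(2 * Real.pi * Complex.I)⁻¹ *
    (Dv W (fun x => u x * (q x)⁻¹) x + dvg b W x * (u x * (q x)⁻¹))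

theorem tsupport_Lop (b : OrthonormalBasis (Fin 2) ℝ E2) (W : E2 → E2) (q u : E2 → ℂ) :
    tsupport (Lop b W q u) ⊆ tsupport u := by
  refine closure_minimal ?_ (isClosed_tsupport u)
  intro x hx
  by_contra hx'
  apply hx
  have h1 : (fun x => u x * (q x)⁻¹) =ᶠ[nhds x] fun _ => 0 := by
    filter_upwards [(isClosed_tsupport u).isOpen_compl.mem_nhds hx'] with y hy
    rw [image_eq_zero_of_notMem_tsupport hy, zero_mul]
  have h2 : Dv W (fun x => u x * (q x)⁻¹) x = 0 := by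
    rw [Dv, h1.fderiv_eq]; simp
  rw [Lop, h2, image_eq_zero_of_notMem_tsupport hx']
  simp

theorem contDiff_Lop (b : OrthonormalBasis (Fin 2) ℝ E2) {u q : E2 → ℂ} (hW : ContDiff ℝ ∞ W)
    (hU : IsOpen U) (hu : ContDiff ℝ ∞ u) (hq : ContDiffOn ℝ ∞ q U) (h0 : ∀ x ∈ U, q x ≠ 0)
    (hs : tsupport u ⊆ U) : ContDiff ℝ ∞ (Lop b W q u) := by
  have h1 := contDiff_quot hU hu hq h0 hs
  have h2 : ContDiff ℝ ∞ (Dv W (fun x => u x * (q x)⁻¹)) :=
    (h1.fderiv_right (m := ∞) (by simp)).clm_apply hW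
  exact contDiff_const.mul (h2.add ((contDiff_dvg b hW).mul h1))

/-- one step of non-stationary phase. -/
theorem step (b : OrthonormalBasis (Fin 2) ℝ E2) {u q : E2 → ℂ} {Φ : E2 → ℝ} {Λ : ℝ}
    (hW : ContDiff ℝ ∞ W) (hU : IsOpen U) (hu : ContDiff ℝ ∞ u) (hc : HasCompactSupport u)
    (hq : ContDiffOn ℝ ∞ q U) (h0 : ∀ x ∈ U, q x ≠ 0) (hs : tsupport u ⊆ U)
    (hΦ : ContDiff ℝ ∞ Φ) (hΛ : Λ ≠ 0) (hD : ∀ x ∈ U, ((fderiv ℝ Φ x (W x) : ℝ) : ℂ) = Λ * q x) :
    ∫ x, u x * ee (Φ x) = (Λ : ℂ)⁻¹ * ∫ x, Lop b W q u x * ee (Φ x) := by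
  have h1 := contDiff_quot hU hu hq h0 hs
  have hcq : HasCompactSupport (fun x => u x * (q x)⁻¹) := hc.mul_right
  have hF : ContDiff ℝ ∞ (fun x => (u x * (q x)⁻¹) * ee (Φ x)) := h1.mul (contDiff_ee hΦ)
  have hcF : HasCompactSupport (fun x => (u x * (q x)⁻¹) * ee (Φ x)) := hcq.mul_right
  have h2 := ibp b hW hF hcF
  have h3 : ∀ x, Dv W (fun x => (u x * (q x)⁻¹) * ee (Φ x)) x +
      dvg b W x * ((u x * (q x)⁻¹) * ee (Φ x)) =
      (2 * Real.pi * Complex.I * Λ) * (u x * ee (Φ x)) -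
        (2 * Real.pi * Complex.I) * (Lop b W q u x * ee (Φ x)) := by
    intro x
    have hpi : (2 * Real.pi * Complex.I : ℂ) ≠ 0 := by
      simp [Real.pi_ne_zero, Complex.I_ne_zero]
    have d1 : HasFDerivAt (fun x => u x * (q x)⁻¹) (fderiv ℝ (fun x => u x * (q x)⁻¹) x) x :=
      (h1.differentiable (by simp) x).hasFDerivAt
    have d2 : HasFDerivAt Φ (fderiv ℝ Φ x) x := (hΦ.differentiable (by simp) x).hasFDerivAt
    have d3 := (d1.mul (hasFDerivAt_ee d2)).fderiv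
    have e1 : Dv W (fun x => (u x * (q x)⁻¹) * ee (Φ x)) x =
        (u x * (q x)⁻¹) * (2 * Real.pi * Complex.I * ee (Φ x) * (fderiv ℝ Φ x (W x) : ℝ)) +
          Dv W (fun x => u x * (q x)⁻¹) x * ee (Φ x) := by
      simp only [Dv]
      have : fderiv ℝ (fun x => (u x * (q x)⁻¹) * ee (Φ x)) x =
        fderiv ℝ ((fun x => u x * (q x)⁻¹) * fun x => ee (Φ x)) x := rfl
      rw [this, d3]
      simp
      ring
    have e2 : (u x * (q x)⁻¹) * ((fderiv ℝ Φ x (W x) : ℝ) : ℂ) = Λ * u x := by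
      by_cases hx : x ∈ U
      · rw [hD x hx]
        have := h0 x hx
        field_simp
      · rw [image_eq_zero_of_notMem_tsupport (fun h => hx (hs h))]; ring
    have e3 : (2 * Real.pi * Complex.I) * (Lop b W q u x * ee (Φ x)) =
        -(Dv W (fun x => u x * (q x)⁻¹) x + dvg b W x * (u x * (q x)⁻¹)) * ee (Φ x) := by
      rw [Lop]
      field_simp
    rw [e1, e3]
    linear_combination (2 * Real.pi * Complex.I * ee (Φ x)) * e2
  simp_rw [h3] at h2
  have hL := contDiff_Lop b hW hU hu hq h0 hs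
  have hcL : HasCompactSupport (Lop b W q u) :=
    hc.mono' (subset_closure.trans (tsupport_Lop b W q u))
  have J1 : Integrable (fun x => u x * ee (Φ x)) :=
    (hu.continuous.mul (contDiff_ee hΦ).continuous).integrable_of_hasCompactSupport hc.mul_right
  have J2 : Integrable (fun x => Lop b W q u x * ee (Φ x)) :=
    (hL.continuous.mul (contDiff_ee hΦ).continuous).integrable_of_hasCompactSupport hcL.mul_right
  rw [integral_sub (J1.const_mul _) (J2.const_mul _), integral_const_mul, integral_const_mul] at h2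
  have hpi : (2 * Real.pi * Complex.I : ℂ) ≠ 0 := by
    simp [Real.pi_ne_zero, Complex.I_ne_zero]
  have hΛ' : (Λ : ℂ) ≠ 0 := by exact_mod_cast hΛ
  have h4 : (Λ : ℂ) * ∫ x, u x * ee (Φ x) = ∫ x, Lop b W q u x * ee (Φ x) := by
    have h5 : (2 * Real.pi * Complex.I : ℂ) * ((Λ : ℂ) * ∫ x, u x * ee (Φ x)) =
        (2 * Real.pi * Complex.I) * ∫ x, Lop b W q u x * ee (Φ x) := by
      linear_combination h2
    exact mul_left_cancel₀ hpi h5
  rw [← h4, inv_mul_cancel_left₀ hΛ']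

/-- bounds for the operator. -/
theorem Bd_Lop (b : OrthonormalBasis (Fin 2) ℝ E2) {u q : E2 → ℂ} {k : ℕ} {Bu Bq Bw : ℝ}
    (hW : ContDiff ℝ ∞ W) (hU : IsOpen U) (hu : ContDiff ℝ ∞ u) (hq : ContDiffOn ℝ ∞ q U)
    (h2 : ∀ x ∈ U, 1 / 2 ≤ ‖q x‖) (hs : tsupport u ⊆ U) (hBu : 0 ≤ Bu) (hBq : 0 ≤ Bq)
    (hBw : 0 ≤ Bw) (bu : Bd W U (k + 1) Bu u) (bq : Bd W U (k + 1) Bq q)
    (bw : Bd W U k Bw (dvg b W)) :
    Bd W U k (2 ^ (k + 1) * (Bu * invB Bq (k + 1)) +
      2 ^ k * (Bw * (2 ^ (k + 1) * (Bu * invB Bq (k + 1))))) (Lop b W q u) := by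
  have h0 : ∀ x ∈ U, q x ≠ 0 := fun x hx e => by
    have := h2 x hx; rw [e, norm_zero] at this; norm_num at this
  have hp : (0:ℝ) ≤ invB Bq (k + 1) := by linarith [two_le_invB hBq (k + 1)]
  have h1 := contDiff_quot hU hu hq h0 hs
  have e1 := Bd.mul hU hW hu.contDiffOn (hq.inv h0) hBu hp bu (Bd.inv hU hW hq hBq h2 bq)
  have e2 := Bd.mul hU hW (contDiff_dvg b hW).contDiffOn h1.contDiffOn hBw (by positivity) bw
    e1.pred
  have c2 : ContDiff ℝ ∞ (Dv W (fun x => u x * (q x)⁻¹)) :=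
    (h1.fderiv_right (m := ∞) (by simp)).clm_apply hW
  have e3 := Bd.add hU hW c2.contDiffOn ((contDiff_dvg b hW).mul h1).contDiffOn e1.2 e2
  have e4 := e3.smul (-(2 * Real.pi * Complex.I)⁻¹) hU hW
    (c2.add ((contDiff_dvg b hW).mul h1)).contDiffOn
  refine e4.mono_B ?_
  have h5 : ‖(-(2 * Real.pi * Complex.I)⁻¹ : ℂ)‖ ≤ 1 := by
    rw [norm_neg, norm_inv, norm_mul, norm_mul, Complex.norm_I, mul_one]
    have : (1:ℝ) ≤ ‖(2:ℂ)‖ * ‖(Real.pi : ℂ)‖ := by
      rw [Complex.norm_real, Real.norm_eq_abs, abs_of_pos Real.pi_pos]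
      have := Real.pi_gt_three
      norm_num
      linarith
    exact inv_le_one_of_one_le₀ this
  refine mul_le_of_le_one_left ?_ h5
  positivity

/-- **Non-stationary phase along a vector field**, uniform. -/
theorem nsp (Bq Bw : ℝ) (hBq : 0 ≤ Bq) (hBw : 0 ≤ Bw) (N : ℕ) : ∀ Bu : ℝ, 0 ≤ Bu →
    ∃ C : ℝ, 0 ≤ C ∧ ∀ (b : OrthonormalBasis (Fin 2) ℝ E2) (W : E2 → E2) (U : Set E2)
      (Φ : E2 → ℝ) (q u : E2 → ℂ) (Λ : ℝ), ContDiff ℝ ∞ W → IsOpen U → volume U ≠ ⊤ →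
      ContDiff ℝ ∞ Φ → ContDiffOn ℝ ∞ q U → (∀ x ∈ U, 1 / 2 ≤ ‖q x‖) → Λ ≠ 0 →
      (∀ x ∈ U, ((fderiv ℝ Φ x (W x) : ℝ) : ℂ) = Λ * q x) → ContDiff ℝ ∞ u →
      HasCompactSupport u → tsupport u ⊆ U → Bd W U N Bu u → Bd W U N Bq q →
      Bd W U N Bw (dvg b W) →
      ‖∫ x, u x * ee (Φ x)‖ ≤ C * (|Λ| ^ N)⁻¹ * (volume U).toReal := by
  induction N with
  | zero =>
    intro Bu hBu
    refine ⟨Bu, hBu, ?_⟩
    intro b W U Φ q u Λ hW hU hvol hΦ hq h2 hΛ hD hu hc hs bu bq bw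
    have h1 : ‖∫ x, u x * ee (Φ x)‖ ≤ ∫ x in U, ‖u x * ee (Φ x)‖ := by
      rw [← setIntegral_eq_integral_of_forall_compl_eq_zero (s := U)]
      · exact norm_integral_le_integral_norm _
      · intro x hx
        rw [image_eq_zero_of_notMem_tsupport (fun h => hx (hs h)), zero_mul]
    have h3 : ∫ x in U, ‖u x * ee (Φ x)‖ ≤ ∫ _ in U, Bu := by
      refine setIntegral_mono_on ?_ (by simp [integrableOn_const_iff, hvol.lt_top]) hU.measurableSet ?_
      · exact (((hu.continuous.mul (contDiff_ee hΦ).continuous).integrable_of_hasCompactSupport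
          hc.mul_right).norm).integrableOn
      · intro x hx
        rw [norm_mul, norm_ee, mul_one]
        exact bu x hx
    rw [setIntegral_const, smul_eq_mul, mul_comm] at h3
    refine h1.trans (h3.trans (le_of_eq ?_))
    simp [Measure.real]
  | succ N ih =>
    intro Bu hBu
    have hp : (0:ℝ) ≤ invB Bq (N + 1) := by linarith [two_le_invB hBq (N + 1)]
    obtain ⟨C, hC, H⟩ := ih (2 ^ (N + 1) * (Bu * invB Bq (N + 1)) +
      2 ^ N * (Bw * (2 ^ (N + 1) * (Bu * invB Bq (N + 1))))) (by positivity)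
    refine ⟨C, hC, ?_⟩
    intro b W U Φ q u Λ hW hU hvol hΦ hq h2 hΛ hD hu hc hs bu bq bw
    have h0 : ∀ x ∈ U, q x ≠ 0 := fun x hx e => by
      have := h2 x hx; rw [e, norm_zero] at this; norm_num at this
    rw [step b hW hU hu hc hq h0 hs hΦ hΛ hD, norm_mul]
    have h3 := H b W U Φ q (Lop b W q u) Λ hW hU hvol hΦ hq h2 hΛ hD
      (contDiff_Lop b hW hU hu hq h0 hs)
      (hc.mono' (subset_closure.trans (tsupport_Lop b W q u)))
      ((tsupport_Lop b W q u).trans hs)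
      (Bd_Lop b hW hU hu hq h2 hs hBu hBq hBw bu bq bw.pred) bq.pred bw.pred
    have h4 : ‖((Λ : ℂ))⁻¹‖ = |Λ|⁻¹ := by
      rw [norm_inv, Complex.norm_real, Real.norm_eq_abs]
    rw [h4]
    calc |Λ|⁻¹ * ‖∫ x, Lop b W q u x * ee (Φ x)‖
        ≤ |Λ|⁻¹ * (C * (|Λ| ^ N)⁻¹ * (volume U).toReal) :=
          mul_le_mul_of_nonneg_left h3 (by positivity)
      _ = C * (|Λ| ^ (N + 1))⁻¹ * (volume U).toReal := by
          rw [pow_succ, mul_inv]; ring

end Crest.Agent.R138.Ker858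
end

-- ▼ part R138/Ker3_858
section

/-! Bounds along the two fields used for the kernel: `s • (b j + κ • b i)`. -/

set_option autoImplicit false

open MeasureTheory
open scoped ContDiff

namespace Crest.Agent.R138.Ker858

open Crest.Agent.R138.Defs

/-- partial derivative in the frame. -/
noncomputable def par {F : Type*} [NormedAddCommGroup F] [NormedSpace ℝ F]
    (b : OrthonormalBasis (Fin 2) ℝ E2) (a : Fin 2) (f : E2 → F) (ξ : E2) : F :=
  fderiv ℝ f ξ (b a)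

section
variable {F : Type*} [NormedAddCommGroup F] [NormedSpace ℝ F]
  {b : OrthonormalBasis (Fin 2) ℝ E2} {f : E2 → F}

theorem contDiff_par (hf : ContDiff ℝ ∞ f) (a : Fin 2) : ContDiff ℝ ∞ (par b a f) :=
  (hf.fderiv_right (m := ∞) (by simp)).clm_apply contDiff_const

theorem norm_iteratedFDeriv_par (hf : ContDiff ℝ ∞ f) (a : Fin 2) (m : ℕ) (ξ : E2) :
    ‖iteratedFDeriv ℝ m (par b a f) ξ‖ ≤ ‖iteratedFDeriv ℝ (m + 1) f ξ‖ := by
  have h1 : ContDiff ℝ ∞ (fderiv ℝ f) := hf.fderiv_right (by simp)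
  have h2 : ‖iteratedFDeriv ℝ m (par b a f) ξ‖ ≤ ‖b a‖ * ‖iteratedFDeriv ℝ m (fderiv ℝ f) ξ‖ :=
    norm_iteratedFDeriv_clm_apply_const (h1.contDiffAt) (by exact_mod_cast le_top)
  rw [norm_iteratedFDeriv_fderiv, b.norm_eq_one, one_mul] at h2
  exact h2

end

/-- iterated bound for general functions. -/
noncomputable def gB (B : ℝ) : ℕ → ℝ
  | 0 => 1
  | k + 1 => (1 + 2 ^ k * B) * gB B k

theorem one_le_gB {B : ℝ} (hB : 0 ≤ B) : ∀ k, 1 ≤ gB B k
  | 0 => le_rfl
  | k + 1 => by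
    have h1 := one_le_gB hB k
    have h2 : (0:ℝ) ≤ 2 ^ k * B := by positivity
    simp only [gB]
    nlinarith

/-- the field `s • (b j + κ • b i)`. -/
noncomputable def fld (b : OrthonormalBasis (Fin 2) ℝ E2) (i j : Fin 2) (s : ℝ) (κ : E2 → ℝ)
    (ξ : E2) : E2 := s • (b j + κ ξ • b i)

theorem contDiff_fld {b : OrthonormalBasis (Fin 2) ℝ E2} {i j : Fin 2} {s : ℝ} {κ : E2 → ℝ}
    (hκ : ContDiff ℝ ∞ κ) : ContDiff ℝ ∞ (fld b i j s κ) := by
  have h1 : ContDiff ℝ ∞ (fun ξ => κ ξ • b i) := hκ.smul contDiff_const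
  have h2 : ContDiff ℝ ∞ (fun ξ => b j + κ ξ • b i) := contDiff_const.add h1
  exact h2.const_smul s

theorem fderiv_fld {F : Type*} [NormedAddCommGroup F] [NormedSpace ℝ F]
    (b : OrthonormalBasis (Fin 2) ℝ E2) (i j : Fin 2) (s : ℝ) (κ : E2 → ℝ) (f : E2 → F) (ξ : E2) :
    fderiv ℝ f ξ (fld b i j s κ ξ) = s • (par b j f ξ + κ ξ • par b i f ξ) := by
  simp [fld, par]

variable {U : Set E2}

theorem Bd_gen (b : OrthonormalBasis (Fin 2) ℝ E2) (i j : Fin 2) {s : ℝ} (hs0 : 0 ≤ s)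
    (hs : s ≤ 1) {κ : E2 → ℝ} (hκ : ContDiff ℝ ∞ κ) (hU : IsOpen U) {Bκ : ℝ} (hB : 0 ≤ Bκ) {k : ℕ}
    (bκ : Bd (fld b i j s κ) U k Bκ (fun ξ => (κ ξ : ℂ))) :
    ∀ l ≤ k + 1, ∀ f : E2 → ℂ, ContDiff ℝ ∞ f → ∀ A : ℝ, 0 ≤ A →
      (∀ m ≤ l, ∀ x ∈ U, ‖iteratedFDeriv ℝ m f x‖ ≤ A) →
      Bd (fld b i j s κ) U l (gB Bκ l * A) f := by
  intro l
  induction l with
  | zero =>
    intro _ f hf A hA hb x hx
    have := hb 0 le_rfl x hx
    rw [norm_iteratedFDeriv_zero] at this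
    simpa [gB] using this
  | succ l ih =>
    intro hl f hf A hA hb
    have hW := contDiff_fld (b := b) (i := i) (j := j) (s := s) hκ
    have h1 : (0:ℝ) ≤ gB Bκ l := zero_le_one.trans (one_le_gB hB l)
    have hκC : ContDiff ℝ ∞ (fun ξ => (κ ξ : ℂ)) := Complex.ofRealCLM.contDiff.comp hκ
    refine ⟨fun x hx => ?_, ?_⟩
    · have := hb 0 (Nat.zero_le _) x hx
      rw [norm_iteratedFDeriv_zero] at this
      exact this.trans (le_mul_of_one_le_left hA (one_le_gB hB _))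
    · have hj := ih (by omega) (par b j f) (contDiff_par hf j) A hA (fun m hm x hx =>
        (norm_iteratedFDeriv_par hf j m x).trans (hb (m + 1) (by omega) x hx))
      have hi := ih (by omega) (par b i f) (contDiff_par hf i) A hA (fun m hm x hx =>
        (norm_iteratedFDeriv_par hf i m x).trans (hb (m + 1) (by omega) x hx))
      have e1 := Bd.mul hU hW hκC.contDiffOn (contDiff_par hf i).contDiffOn hB
        (mul_nonneg h1 hA) (bκ.mono_k (by omega)) hi
      have e2 := Bd.add hU hW (contDiff_par hf j).contDiffOn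
        (hκC.mul (contDiff_par hf i)).contDiffOn hj e1
      have e3 := e2.smul (s : ℂ) hU hW
        ((contDiff_par hf j).add (hκC.mul (contDiff_par hf i))).contDiffOn
      refine (e3.congr hU ?_).mono_B ?_
      · intro x hx
        rw [Dv, fderiv_fld]
        simp only [Complex.real_smul]
      · have h3 : ‖(s : ℂ)‖ ≤ 1 := by
          rw [Complex.norm_real, Real.norm_eq_abs, abs_of_nonneg hs0]; exact hs
        refine (mul_le_of_le_one_left (by positivity) h3).trans (le_of_eq ?_)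
        simp only [gB]; ring

theorem norm_iteratedFDeriv_ofReal {f : E2 → ℝ} (hf : ContDiff ℝ ∞ f) (m : ℕ) (x : E2) :
    ‖iteratedFDeriv ℝ m (fun ξ => (f ξ : ℂ)) x‖ = ‖iteratedFDeriv ℝ m f x‖ :=
  Complex.ofRealLI.norm_iteratedFDeriv_comp_left (hf.contDiffAt) (by exact_mod_cast le_top)

/-- the shear. -/
noncomputable def kap (b : OrthonormalBasis (Fin 2) ℝ E2) (i j : Fin 2) (p : E2 → ℝ) (ξ : E2) : ℝ :=
  -(par b j (par b i p) ξ * (1 + par b i (par b i p) ξ)⁻¹)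

/-- hypotheses on the perturbation `p = h - |.|²/2`. -/
structure Pert (B : ℝ) (K : ℕ) (p : E2 → ℝ) : Prop where
  smooth : ContDiff ℝ ∞ p
  two : ∀ ξ, ‖iteratedFDeriv ℝ 2 p ξ‖ ≤ 1 / 16
  high : ∀ k, 2 ≤ k → k ≤ K → ∀ ξ, ‖iteratedFDeriv ℝ k p ξ‖ ≤ B

section
variable {B : ℝ} {K : ℕ} {p : E2 → ℝ} {b : OrthonormalBasis (Fin 2) ℝ E2}

theorem Pert.norm_le (hp : Pert B K p) (a a' : Fin 2) (m : ℕ) (ξ : E2) :
    ‖iteratedFDeriv ℝ m (par b a' (par b a p)) ξ‖ ≤ ‖iteratedFDeriv ℝ (m + 2) p ξ‖ :=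
  (norm_iteratedFDeriv_par (contDiff_par hp.smooth a) a' m ξ).trans
    (norm_iteratedFDeriv_par hp.smooth a (m + 1) ξ)

theorem Pert.abs_le (hp : Pert B K p) (a a' : Fin 2) (ξ : E2) :
    |par b a' (par b a p) ξ| ≤ 1 / 16 := by
  have h1 := hp.norm_le (b := b) a a' 0 ξ
  rw [norm_iteratedFDeriv_zero, Real.norm_eq_abs] at h1
  exact h1.trans (hp.two ξ)

theorem Pert.contDiff2 (hp : Pert B K p) (a a' : Fin 2) :
    ContDiff ℝ ∞ (par b a' (par b a p)) := contDiff_par (contDiff_par hp.smooth a) a'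

theorem Pert.one_add_ge (hp : Pert B K p) (a a' : Fin 2) (ξ : E2) :
    15 / 16 ≤ 1 + par b a' (par b a p) ξ := by
  have := _root_.abs_le.1 (hp.abs_le (b := b) a a' ξ)
  linarith [this.1]

theorem Pert.contDiff_kap (hp : Pert B K p) (i j : Fin 2) : ContDiff ℝ ∞ (kap b i j p) := by
  unfold kap
  refine ((hp.contDiff2 i j).mul ((contDiff_const.add (hp.contDiff2 i i)).inv ?_)).neg
  intro ξ
  have := hp.one_add_ge (b := b) i i ξ
  linarith

theorem Pert.kap_le (hp : Pert B K p) (i j : Fin 2) (ξ : E2) : |kap b i j p ξ| ≤ 1 / 8 := by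
  have h1 := hp.one_add_ge (b := b) i i ξ
  have h2 := hp.abs_le (b := b) i j ξ
  rw [kap, abs_neg, abs_mul, abs_inv, abs_of_pos (by linarith : (0:ℝ) < 1 + par b i (par b i p) ξ)]
  have h3 : (1 + par b i (par b i p) ξ)⁻¹ ≤ (15 / 16)⁻¹ := inv_anti₀ (by norm_num) h1
  calc |par b j (par b i p) ξ| * (1 + par b i (par b i p) ξ)⁻¹ ≤ 1 / 16 * (15 / 16)⁻¹ :=
        mul_le_mul h2 h3 (by positivity) (by norm_num)
    _ ≤ 1 / 8 := by norm_num

end

/-- bound of the second derivatives, assuming a bound on `κ` one order below. -/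
theorem Bd_second {B : ℝ} (hB : 0 ≤ B) {K : ℕ} {p : E2 → ℝ} (hp : Pert B K p)
    (b : OrthonormalBasis (Fin 2) ℝ E2) (i j : Fin 2) {s : ℝ} (hs0 : 0 ≤ s)
    (hs : s ≤ 1) {κ : E2 → ℝ} (hκ : ContDiff ℝ ∞ κ) (hU : IsOpen U) {Bκ : ℝ} (hBκ : 0 ≤ Bκ) {k : ℕ}
    (hk : k + 3 ≤ K)
    (bκ : Bd (fld b i j s κ) U k Bκ (fun ξ => (κ ξ : ℂ))) (a a' : Fin 2) :
    Bd (fld b i j s κ) U (k + 1) (gB Bκ (k + 1) * B)
      (fun ξ => ((par b a' (par b a p) ξ : ℝ) : ℂ)) := by
  refine Bd_gen b i j hs0 hs hκ hU hBκ bκ (k + 1) le_rfl _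
    (Complex.ofRealCLM.contDiff.comp (hp.contDiff2 a a')) B hB ?_
  intro m hm x hx
  have e := norm_iteratedFDeriv_ofReal (hp.contDiff2 (b := b) a a') m x
  refine (le_of_eq e).trans ?_
  exact (hp.norm_le a a' m x).trans (hp.high (m + 2) (by omega) (by omega) x)

/-- the shear has bounded derivatives along the field. -/
theorem Bd_kap (B : ℝ) (hB : 0 ≤ B) (k : ℕ) : ∃ C : ℝ, 0 ≤ C ∧
    ∀ (K : ℕ) (_ : k + 2 ≤ K) (p : E2 → ℝ) (_ : Pert B K p)
      (b : OrthonormalBasis (Fin 2) ℝ E2) (i j : Fin 2) (s : ℝ), 0 ≤ s → s ≤ 1 →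
      ∀ U : Set E2, IsOpen U →
      Bd (fld b i j s (kap b i j p)) U k C (fun ξ => ((kap b i j p ξ : ℝ) : ℂ)) := by
  induction k with
  | zero =>
    refine ⟨1 / 8, by norm_num, ?_⟩
    intro K hK p hp b i j s hs0 hs U hU x hx
    rw [Complex.norm_real]
    exact hp.kap_le i j x
  | succ k ih =>
    obtain ⟨C, hC, H⟩ := ih
    have hG : (0:ℝ) ≤ gB C (k + 1) := zero_le_one.trans (one_le_gB hC _)
    have hI := two_le_invB (B := 1 + gB C (k + 1) * B) (by positivity) (k + 1)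
    refine ⟨2 ^ (k + 1) * ((gB C (k + 1) * B) * invB (1 + gB C (k + 1) * B) (k + 1)),
      by positivity, ?_⟩
    intro K hK p hp b i j s hs0 hs U hU
    have hκ := hp.contDiff_kap (b := b) i j
    have hW := contDiff_fld (b := b) (i := i) (j := j) (s := s) hκ
    have b0 := H K (by omega) p hp b i j s hs0 hs U hU
    have b1 := Bd_second hB hp b i j hs0 hs hκ hU hC (by omega) b0 i j
    have b2 := Bd_second hB hp b i j hs0 hs hκ hU hC (by omega) b0 i i
    have c1 : ContDiff ℝ ∞ (fun ξ => ((par b j (par b i p) ξ : ℝ) : ℂ)) :=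
      Complex.ofRealCLM.contDiff.comp (hp.contDiff2 i j)
    have c2 : ContDiff ℝ ∞ (fun ξ => ((par b i (par b i p) ξ : ℝ) : ℂ)) :=
      Complex.ofRealCLM.contDiff.comp (hp.contDiff2 i i)
    have c3 : ContDiff ℝ ∞ (fun ξ => (1:ℂ) + ((par b i (par b i p) ξ : ℝ) : ℂ)) :=
      contDiff_const.add c2
    have b3 : Bd (fld b i j s (kap b i j p)) U (k + 1) (1 + gB C (k + 1) * B)
        (fun ξ => (1:ℂ) + ((par b i (par b i p) ξ : ℝ) : ℂ)) :=
      Bd.add hU hW contDiff_const.contDiffOn c2.contDiffOn (Bd.const 1 (by simp)) b2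
    have hn : ∀ ξ : E2, 1 / 2 ≤ ‖(1:ℂ) + ((par b i (par b i p) ξ : ℝ) : ℂ)‖ := by
      intro ξ
      have h1 := hp.one_add_ge (b := b) i i ξ
      have h2 : (1:ℂ) + ((par b i (par b i p) ξ : ℝ) : ℂ) =
        ((1 + par b i (par b i p) ξ : ℝ) : ℂ) := by push_cast; ring
      rw [h2, Complex.norm_real, Real.norm_eq_abs]
      exact le_trans (by linarith) (le_abs_self _)
    have hn0 : ∀ ξ : E2, (1:ℂ) + ((par b i (par b i p) ξ : ℝ) : ℂ) ≠ 0 := fun ξ e => by
      have := hn ξ; rw [e, norm_zero] at this; norm_num at this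
    have b4 := Bd.inv hU hW c3.contDiffOn (by positivity) (fun x _ => hn x) b3
    have b5 := Bd.mul hU hW c1.contDiffOn (c3.inv hn0).contDiffOn (by positivity)
      (by linarith) b1 b4
    have b6 := b5.smul (-1) hU hW (c1.mul (c3.inv hn0)).contDiffOn
    refine (b6.congr hU ?_).mono_B (le_of_eq (by simp))
    intro x _
    simp only [kap, Pi.inv_apply]
    push_cast
    ring

end Crest.Agent.R138.Ker858
private theorem rz_075eeb8b20 : type_of% @_root_.Crest.Agent.R138.Ker858.gB.eq_def := @_root_.Crest.Agent.R138.Ker858.gB.eq_def -- L37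
private theorem rz_d28722f388 : type_of% @_root_.Crest.Agent.R138.Ker858.gB.eq_1 := @_root_.Crest.Agent.R138.Ker858.gB.eq_1 -- L37
end

-- ▼ part R138/Ker4_858

/-! Geometry of curved rectangles: area, compactness, composition with bumps. -/

set_option autoImplicit false

open MeasureTheory
open scoped ContDiff ENNReal

namespace Crest.Agent.R138.Ker858

open Crest.Agent.R138.Defs

section
variable {B : ℝ} {K : ℕ} {p h : E2 → ℝ} {b : OrthonormalBasis (Fin 2) ℝ E2}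

theorem contDiff_h (hp : ContDiff ℝ ∞ p) (hh : ∀ ξ, h ξ = p ξ + ‖ξ‖ ^ 2 / 2) :
    ContDiff ℝ ∞ h := by
  have : h = fun ξ => p ξ + ‖ξ‖ ^ 2 / 2 := funext hh
  rw [this]
  exact hp.add ((contDiff_norm_sq ℝ).div_const 2)

theorem hasFDerivAt_sq (ξ : E2) :
    HasFDerivAt (fun ξ : E2 => ‖ξ‖ ^ 2 / 2) (innerSL ℝ ξ) ξ := by
  have h1 : HasFDerivAt (fun ξ : E2 => ‖ξ‖ ^ 2) (2 • (innerSL ℝ ξ)) ξ :=
    (hasStrictFDerivAt_norm_sq ξ).hasFDerivAt
  have h2 := h1.const_mul (1 / 2 : ℝ)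
  refine (h2.congr_fderiv ?_).congr_of_eventuallyEq (Filter.Eventually.of_forall fun y => ?_)
  · ext v; simp
  · simp; ring

theorem fderiv_h (hp : ContDiff ℝ ∞ p) (hh : ∀ ξ, h ξ = p ξ + ‖ξ‖ ^ 2 / 2) (ξ v : E2) :
    fderiv ℝ h ξ v = fderiv ℝ p ξ v + inner ℝ ξ v := by
  have h1 : HasFDerivAt h (fderiv ℝ p ξ + innerSL ℝ ξ) ξ := by
    have h2 : HasFDerivAt p (fderiv ℝ p ξ) ξ := (hp.differentiable (by simp) ξ).hasFDerivAt
    refine (h2.add (hasFDerivAt_sq ξ)).congr_of_eventuallyEq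
      (Filter.Eventually.of_forall fun y => hh y)
  rw [h1.fderiv]
  simp

theorem par_h (hp : ContDiff ℝ ∞ p) (hh : ∀ ξ, h ξ = p ξ + ‖ξ‖ ^ 2 / 2) (a : Fin 2) (ξ : E2) :
    par b a h ξ = par b a p ξ + inner ℝ ξ (b a) := fderiv_h hp hh ξ (b a)

theorem gradient_h (hp : ContDiff ℝ ∞ p) (hh : ∀ ξ, h ξ = p ξ + ‖ξ‖ ^ 2 / 2) (ξ : E2) :
    gradient h ξ = gradient p ξ + ξ := by
  refine ext_inner_right ℝ fun v => ?_
  rw [inner_add_left, inner_gradient_left, inner_gradient_left, fderiv_h hp hh]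

theorem Pert.lip (hp : Pert B K p) (ξ η : E2) :
    ‖gradient p ξ - gradient p η‖ ≤ 1 / 16 * ‖ξ - η‖ := by
  have h0 : ContDiff ℝ ∞ (fderiv ℝ p) := hp.smooth.fderiv_right (by simp)
  have h1 : ‖fderiv ℝ p ξ - fderiv ℝ p η‖ ≤ 1 / 16 * ‖ξ - η‖ := by
    refine Convex.norm_image_sub_le_of_norm_fderiv_le (𝕜 := ℝ) (f := fderiv ℝ p) (s := Set.univ)
      (fun x _ => h0.differentiable (by simp) x) (fun x _ => ?_) convex_univ
      (Set.mem_univ _) (Set.mem_univ _)
    have h2 := hp.two x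
    rw [← norm_iteratedFDeriv_fderiv, norm_iteratedFDeriv_one] at h2
    exact h2
  have h3 : gradient p ξ - gradient p η =
      (InnerProductSpace.toDual ℝ E2).symm (fderiv ℝ p ξ - fderiv ℝ p η) := by
    simp [gradient]
  rw [h3, LinearIsometryEquiv.norm_map]
  exact h1

theorem Pert.antilip (hp : Pert B K p) (hh : ∀ ξ, h ξ = p ξ + ‖ξ‖ ^ 2 / 2) :
    AntilipschitzWith 2 (gradient h) := by
  refine AntilipschitzWith.of_le_mul_dist fun ξ η => ?_
  rw [dist_eq_norm, dist_eq_norm, gradient_h hp.smooth hh, gradient_h hp.smooth hh]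
  have h1 := hp.lip ξ η
  have h2 : ‖ξ - η‖ ≤ ‖gradient p ξ + ξ - (gradient p η + η)‖ + ‖gradient p ξ - gradient p η‖ := by
    have : ξ - η = (gradient p ξ + ξ - (gradient p η + η)) - (gradient p ξ - gradient p η) := by
      abel
    calc ‖ξ - η‖ = ‖(gradient p ξ + ξ - (gradient p η + η)) - (gradient p ξ - gradient p η)‖ := by
          rw [← this]
      _ ≤ _ := norm_sub_le _ _
  have h3 := norm_nonneg (ξ - η)
  push_cast
  linarith

end

/-- the rectangle in direction space. -/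
def rect (c : E2) (b : OrthonormalBasis (Fin 2) ℝ E2) (s : Fin 2 → ℝ) (l : ℝ) : Set E2 :=
  {η | ∀ a, |inner ℝ (η - c) (b a)| < l * s a}

theorem volume_rect (c : E2) (b : OrthonormalBasis (Fin 2) ℝ E2) (s : Fin 2 → ℝ) (l : ℝ) :
    volume (rect c b s l) = ∏ a, ENNReal.ofReal (2 * (l * s a)) := by
  have h1 : rect c b s l = b.repr ⁻¹' ((fun y : E2 => (fun a => y a)) ⁻¹'
      (Set.pi Set.univ fun a => Set.Ioo (inner ℝ c (b a) - l * s a) (inner ℝ c (b a) + l * s a))) := by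
    ext η
    simp only [rect, Set.mem_ofPred_eq, Set.mem_preimage, Set.mem_pi, Set.mem_univ, true_implies,
      Set.mem_Ioo]
    refine forall_congr' fun a => ?_
    rw [b.repr_apply_apply, inner_sub_left, real_inner_comm (b a) η, abs_lt]
    constructor
    · rintro ⟨h1, h2⟩; exact ⟨by linarith, by linarith⟩
    · rintro ⟨h1, h2⟩; exact ⟨by linarith, by linarith⟩
  rw [h1]
  have hm : MeasurableSet (Set.pi Set.univ fun a : Fin 2 =>
      Set.Ioo (inner ℝ c (b a) - l * s a) (inner ℝ c (b a) + l * s a)) :=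
    MeasurableSet.univ_pi fun a => measurableSet_Ioo
  have h2 : MeasurePreserving (fun y : E2 => (fun a => y a)) volume volume :=
    PiLp.volume_preserving_ofLp (Fin 2)
  rw [b.measurePreserving_repr.measure_preimage ((h2.measurable hm).nullMeasurableSet),
    h2.measure_preimage hm.nullMeasurableSet, Real.volume_pi_Ioo]
  refine Finset.prod_congr rfl fun a _ => ?_
  congr 1; ring

theorem volume_le_of_antilip {G : E2 → E2} (hG : AntilipschitzWith 2 G) (S : Set E2) :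
    volume (G ⁻¹' S) ≤ 4 * volume S := by
  have h2 : (Module.finrank ℝ E2 : ℝ) = 2 := by simp
  have h1 := hG.hausdorffMeasure_preimage_le (d := (Module.finrank ℝ E2 : ℝ)) (by positivity) S
  have h3 := Measure.isAddLeftInvariant_eq_smul (volume : Measure E2) (μH[(Module.finrank ℝ E2 : ℝ)])
  rw [h3, Measure.smul_apply, Measure.smul_apply]
  simp only [ENNReal.smul_def, smul_eq_mul]
  calc _ ≤ _ := mul_le_mul_right h1 _
    _ = _ := by
      have h5 : ((2 : NNReal) : ℝ≥0∞) ^ (Module.finrank ℝ E2 : ℝ) = 4 := by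
        rw [h2]; norm_num
      rw [h5]; ring

section
variable {B : ℝ} {K : ℕ} {p h : E2 → ℝ} {b : OrthonormalBasis (Fin 2) ℝ E2}

/-- the curved rectangle. -/
def crect (h : E2 → ℝ) (c : E2) (b : OrthonormalBasis (Fin 2) ℝ E2) (s : Fin 2 → ℝ) (l : ℝ) :
    Set E2 := gradient h ⁻¹' rect c b s l

theorem volume_crect (hp : Pert B K p) (hh : ∀ ξ, h ξ = p ξ + ‖ξ‖ ^ 2 / 2) (c : E2)
    (s : Fin 2 → ℝ) (hs : ∀ a, 0 ≤ s a) :
    volume (crect h c b s 3) ≤ ENNReal.ofReal (144 * (s 0 * s 1)) := by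
  refine (volume_le_of_antilip (hp.antilip hh) _).trans ?_
  rw [volume_rect, Fin.prod_univ_two, ← ENNReal.ofReal_mul (by have := hs 0; positivity),
    show (4 : ℝ≥0∞) = ENNReal.ofReal 4 by norm_num, ← ENNReal.ofReal_mul (by norm_num)]
  refine ENNReal.ofReal_le_ofReal (le_of_eq ?_)
  ring

theorem inner_grad (ξ c : E2) (a : Fin 2) :
    inner ℝ (gradient h ξ - c) (b a) = par b a h ξ - inner ℝ c (b a) := by
  rw [inner_sub_left, inner_gradient_left]; rfl

theorem continuous_coord (hh : ContDiff ℝ ∞ h) (c : E2) (a : Fin 2) :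
    Continuous fun ξ => inner ℝ (gradient h ξ - c) (b a) := by
  simp_rw [inner_grad]
  exact ((contDiff_par hh a).continuous).sub continuous_const

theorem isOpen_crect (hh : ContDiff ℝ ∞ h) (c : E2) (s : Fin 2 → ℝ) (l : ℝ) :
    IsOpen (crect h c b s l) := by
  have : crect h c b s l = ⋂ a, {ξ | |inner ℝ (gradient h ξ - c) (b a)| < l * s a} := by
    ext ξ; simp [crect, rect]
  rw [this]
  exact isOpen_iInter_of_finite fun a =>
    isOpen_lt ((continuous_coord hh c a).abs) continuous_const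

/-- the closed support set. -/
def crectC (h : E2 → ℝ) (c : E2) (b : OrthonormalBasis (Fin 2) ℝ E2) (s : Fin 2 → ℝ) : Set E2 :=
  {ξ | ∀ a, |inner ℝ (gradient h ξ - c) (b a)| ≤ 2 * s a}

theorem isClosed_crectC (hh : ContDiff ℝ ∞ h) (c : E2) (s : Fin 2 → ℝ) :
    IsClosed (crectC h c b s) := by
  have : crectC h c b s = ⋂ a, {ξ | |inner ℝ (gradient h ξ - c) (b a)| ≤ 2 * s a} := by
    ext ξ; simp [crectC]
  rw [this]
  exact isClosed_iInter fun a => isClosed_le ((continuous_coord hh c a).abs) continuous_const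

theorem crectC_subset (c : E2) (s : Fin 2 → ℝ) (hs : ∀ a, 0 < s a) :
    crectC h c b s ⊆ crect h c b s 3 := by
  intro ξ hξ a
  have := hξ a
  have := hs a
  linarith

theorem isCompact_crectC (hp : Pert B K p) (hh : ∀ ξ, h ξ = p ξ + ‖ξ‖ ^ 2 / 2) (c : E2)
    (s : Fin 2 → ℝ) (hs : ∀ a, 0 < s a) : IsCompact (crectC h c b s) := by
  refine Metric.isCompact_of_isClosed_isBounded
    (isClosed_crectC (contDiff_h hp.smooth hh) c s) ?_
  have h1 : Bornology.IsBounded (Metric.closedBall c (3 * s 0 + 3 * s 1)) :=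
    Metric.isBounded_closedBall
  refine ((hp.antilip hh).isBounded_preimage h1).subset ?_
  intro ξ hξ
  have h2 := crectC_subset c s hs hξ
  rw [Set.mem_preimage, Metric.mem_closedBall, dist_eq_norm, ← b.sum_repr (gradient h ξ - c),
    Fin.sum_univ_two]
  refine (norm_add_le _ _).trans (add_le_add ?_ ?_)
  · rw [norm_smul, b.norm_eq_one, mul_one, b.repr_apply_apply, real_inner_comm]
    exact (h2 0).le
  · rw [norm_smul, b.norm_eq_one, mul_one, b.repr_apply_apply, real_inner_comm]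
    exact (h2 1).le

/-- the scaled coordinates. -/
noncomputable def yc (h : E2 → ℝ) (c : E2) (b : OrthonormalBasis (Fin 2) ℝ E2) (s : Fin 2 → ℝ)
    (a : Fin 2) (ξ : E2) : ℝ := inner ℝ (gradient h ξ - c) (b a) / s a

theorem contDiff_yc (hh : ContDiff ℝ ∞ h) (c : E2) (s : Fin 2 → ℝ) (a : Fin 2) :
    ContDiff ℝ ∞ (yc h c b s a) := by
  have : yc h c b s a = fun ξ => (par b a h ξ - inner ℝ c (b a)) / s a := by
    funext ξ; rw [yc, inner_grad]
  rw [this]
  exact ((contDiff_par hh a).sub contDiff_const).div_const _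

theorem fderiv_yc (hp : ContDiff ℝ ∞ p) (hh : ∀ ξ, h ξ = p ξ + ‖ξ‖ ^ 2 / 2) (c : E2)
    (s : Fin 2 → ℝ) (a : Fin 2) (ξ v : E2) :
    fderiv ℝ (yc h c b s a) ξ v = (fderiv ℝ (par b a p) ξ v + inner ℝ v (b a)) / s a := by
  have h1 : yc h c b s a =
      fun ξ => (par b a p ξ + inner ℝ ξ (b a) - inner ℝ c (b a)) / s a := by
    funext ξ; rw [yc, inner_grad, par_h hp hh]
  have h2 : HasFDerivAt (par b a p) (fderiv ℝ (par b a p) ξ) ξ :=
    ((contDiff_par hp a).differentiable (by simp) ξ).hasFDerivAt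
  have h3 : HasFDerivAt (fun ξ : E2 => inner ℝ ξ (b a)) (innerSL ℝ (b a)) ξ := by
    have := (innerSL ℝ (b a)).hasFDerivAt (x := ξ)
    refine this.congr_of_eventuallyEq (Filter.Eventually.of_forall fun y => ?_)
    simp [real_inner_comm]
  have h4 := ((h2.add h3).sub_const (inner ℝ c (b a))).mul_const (s a)⁻¹
  have h5 : HasFDerivAt (yc h c b s a)
      ((s a)⁻¹ • (fderiv ℝ (par b a p) ξ + innerSL ℝ (b a))) ξ := by
    rw [h1]
    refine h4.congr_of_eventuallyEq (Filter.Eventually.of_forall fun y => ?_)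
    simp [div_eq_mul_inv]
  rw [h5.fderiv]
  simp [div_eq_inv_mul, real_inner_comm]
  ring

end

/-! ### composition with a bump -/

/-- constants. -/
noncomputable def cB (B : ℝ) : ℕ → ℝ
  | 0 => 1
  | k + 1 => 1 + 2 * (2 ^ k * (B * cB B k))

theorem one_le_cB {B : ℝ} (hB : 0 ≤ B) : ∀ k, 1 ≤ cB B k
  | 0 => le_rfl
  | k + 1 => by
    have h1 := one_le_cB hB k
    have h2 : (0:ℝ) ≤ 2 * (2 ^ k * (B * cB B k)) := by positivity
    simp only [cB]
    linarith

theorem fderiv_comp_eucl {Y : E2 → E2} (hY : ContDiff ℝ ∞ Y) {ψ : E2 → ℂ} (hψ : ContDiff ℝ ∞ ψ)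
    (ξ v : E2) : fderiv ℝ (fun ξ => ψ (Y ξ)) ξ v =
      ∑ a, ((fderiv ℝ (fun ξ => Y ξ a) ξ v : ℝ) : ℂ) *
        par (EuclideanSpace.basisFun (Fin 2) ℝ) a ψ (Y ξ) := by
  have h1 : HasFDerivAt Y (fderiv ℝ Y ξ) ξ := (hY.differentiable (by simp) ξ).hasFDerivAt
  have h2 : HasFDerivAt ψ (fderiv ℝ ψ (Y ξ)) (Y ξ) :=
    (hψ.differentiable (by simp) _).hasFDerivAt
  have h3 := (h2.comp ξ h1).fderiv
  have h4 : fderiv ℝ (fun ξ => ψ (Y ξ)) ξ v = fderiv ℝ ψ (Y ξ) (fderiv ℝ Y ξ v) := by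
    have : (fun ξ => ψ (Y ξ)) = ψ ∘ Y := rfl
    rw [this, h3]; rfl
  have h5 : ∀ a, fderiv ℝ (fun ξ => Y ξ a) ξ v = (fderiv ℝ Y ξ v) a := by
    intro a
    have h6 := ((EuclideanSpace.proj (𝕜 := ℝ) a).hasFDerivAt.comp ξ h1).fderiv
    have : (fun ξ => Y ξ a) = (EuclideanSpace.proj (𝕜 := ℝ) a) ∘ Y := rfl
    rw [this, h6]; rfl
  rw [h4]
  conv_lhs => rw [← (EuclideanSpace.basisFun (Fin 2) ℝ).sum_repr (fderiv ℝ Y ξ v)]
  rw [map_sum]
  refine Finset.sum_congr rfl fun a _ => ?_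
  rw [map_smul, h5 a, Complex.real_smul]
  rfl

theorem Bd_comp {W : E2 → E2} {U : Set E2} (hW : ContDiff ℝ ∞ W) (hU : IsOpen U) {Y : E2 → E2}
    (hY : ContDiff ℝ ∞ Y) {Bδ : ℝ} (hB : 0 ≤ Bδ) {k : ℕ}
    (hδ : ∀ a, Bd W U k Bδ (fun ξ => ((fderiv ℝ (fun ξ => Y ξ a) ξ (W ξ) : ℝ) : ℂ))) :
    ∀ l ≤ k + 1, ∀ ψ : E2 → ℂ, ContDiff ℝ ∞ ψ → ∀ A : ℝ, 0 ≤ A →
      (∀ m ≤ l, ∀ y, ‖iteratedFDeriv ℝ m ψ y‖ ≤ A) →
      Bd W U l (cB Bδ l * A) (fun ξ => ψ (Y ξ)) := by
  intro l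
  induction l with
  | zero =>
    intro _ ψ hψ A hA hb x hx
    have := hb 0 le_rfl (Y x)
    rw [norm_iteratedFDeriv_zero] at this
    simpa [cB] using this
  | succ l ih =>
    intro hl ψ hψ A hA hb
    have h1 : (0:ℝ) ≤ cB Bδ l := zero_le_one.trans (one_le_cB hB l)
    have hYa : ∀ a, ContDiff ℝ ∞ (fun ξ => Y ξ a) := contDiff_euclidean.1 hY
    have hδs : ∀ a, ContDiff ℝ ∞ (fun ξ => ((fderiv ℝ (fun ξ => Y ξ a) ξ (W ξ) : ℝ) : ℂ)) :=
      fun a => Complex.ofRealCLM.contDiff.comp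
        ((((hYa a).fderiv_right (m := ∞) (by simp)).clm_apply hW))
    refine ⟨fun x hx => ?_, ?_⟩
    · have := hb 0 (Nat.zero_le _) (Y x)
      rw [norm_iteratedFDeriv_zero] at this
      exact this.trans (le_mul_of_one_le_left hA (one_le_cB hB _))
    · have e : ∀ a, Bd W U l (2 ^ l * (Bδ * (cB Bδ l * A))) (fun ξ =>
          ((fderiv ℝ (fun ξ => Y ξ a) ξ (W ξ) : ℝ) : ℂ) *
            par (EuclideanSpace.basisFun (Fin 2) ℝ) a ψ (Y ξ)) := by
        intro a
        refine Bd.mul hU hW (hδs a).contDiffOn ((contDiff_par hψ a).comp hY).contDiffOn hB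
          (mul_nonneg h1 hA) ((hδ a).mono_k (by omega)) ?_
        exact ih (by omega) _ (contDiff_par hψ a) A hA (fun m hm y =>
          (norm_iteratedFDeriv_par hψ a m y).trans (hb (m + 1) (by omega) y))
      have e2 := Bd.add hU hW ((hδs 0).mul ((contDiff_par hψ 0).comp hY)).contDiffOn
        ((hδs 1).mul ((contDiff_par hψ 1).comp hY)).contDiffOn (e 0) (e 1)
      refine (e2.congr hU ?_).mono_B ?_
      · intro x hx
        rw [Dv, fderiv_comp_eucl hY hψ, Fin.sum_univ_two]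
        rfl
      · simp only [cB]
        nlinarith [mul_nonneg h1 hA]

end Crest.Agent.R138.Ker858
private theorem rz_493cdb87ea : type_of% @_root_.Crest.Agent.R138.Ker858.cB.eq_def := @_root_.Crest.Agent.R138.Ker858.cB.eq_def -- L228
private theorem rz_8a494249dd : type_of% @_root_.Crest.Agent.R138.Ker858.cB.eq_1 := @_root_.Crest.Agent.R138.Ker858.cB.eq_1 -- L228
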