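import Crest.Agent.R138.RR2_323
import Crest.Agent.R138.DecDef_774
import Crest.Agent.R138.T12_774

-- ▼ part R138/RR3_323
section

/-!
# R138 wave side: re-rooting (helper323), part 3: plate systems
-/

set_option autoImplicit false

open MeasureTheory FourierTransform
open scoped ContDiff ENNReal

namespace Crest.Agent.R138.W323

open Crest.Agent.R138.Defs Crest.Agent.R138.Bil882 Crest.Agent.R138.W188
open Crest.Agent.R138.Wpk685

/-- contribution of one plate. -/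
noncomputable def tm (h : E2 → ℝ) (g : E2 → ℂ) (r s1 s2 : ℝ) (p : Plate) : ℝ≥0∞ :=
  ENNReal.ofReal ((s1 * s2 * r ^ 3) ^ (-(1/2) : ℝ)) *
    (ENNReal.ofReal r * en (r ^ (-(1/2) : ℝ)) (tr h p.z g) p.S) ^ (3 / 2 : ℝ)

theorem val_eq (h : E2 → ℝ) (g : E2 → ℂ) (r s1 s2 : ℝ) (I : Finset ℕ) (P : ℕ → Plate) :
    val h g r s1 s2 I P = ∑ i ∈ I, tm h g r s1 s2 (P i) := rfl

/-- plate systems with arbitrary index set. -/
structure PlG {κ : Type*} (A : ℝ) (h : E2 → ℝ) (r s1 s2 R : ℝ) (s : Finset κ) (Q : κ → Plate) :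
    Prop where
  mem : ∀ i ∈ s, (Q i).z ∈ cyl R
  sep : ∀ i ∈ s, ∀ j ∈ s, (Q i).z = (Q j).z ∨
    r ≤ ‖(Q i).z.1 - (Q j).z.1‖ ∨ r ≤ |(Q i).z.2 - (Q j).z.2|
  x : ∀ i ∈ s, ‖(Q i).x‖ ≤ A * r
  meas : ∀ i ∈ s, ∀ m, MeasurableSet ((Q i).S m)
  box : ∀ i ∈ s, ∀ m, (Q i).S m ⊆ pbox h r (Q i).c (Q i).b (fun k => A * (![s1, s2] k)) (Q i).x m
  disj : ∀ i ∈ s, ∀ j ∈ s, i ≠ j → (Q i).z = (Q j).z → ∀ m, Disjoint ((Q i).S m) ((Q j).S m)

theorem _root_.Crest.Agent.R138.W188.Plates.plG {A : ℝ} {h : E2 → ℝ} {r s1 s2 R : ℝ}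
    {I : Finset ℕ} {P : ℕ → Plate} (hP : Plates A h r s1 s2 R I P) : PlG A h r s1 s2 R I P :=
  ⟨hP.mem, hP.sep, hP.x, hP.meas, hP.box, hP.disj⟩

theorem PlG.le_SIG {κ : Type*} {A : ℝ} {h : E2 → ℝ} {r s1 s2 R : ℝ} {s : Finset κ}
    {Q : κ → Plate} (hQ : PlG A h r s1 s2 R s Q) (g : E2 → ℂ) :
    ∑ i ∈ s, tm h g r s1 s2 (Q i) ≤ SIG A r s1 s2 h g R := by
  classical
  rcases s.eq_empty_or_nonempty with hs | ⟨i0, hi0⟩
  · rw [hs, Finset.sum_empty]; exact zero_le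
  set n := s.card with hn
  set e := s.equivFin with he
  set P : ℕ → Plate := fun j => if hj : j < n then Q (e.symm ⟨j, hj⟩) else Q i0 with hPdef
  have hPe : ∀ j (hj : j < n), P j = Q (e.symm ⟨j, hj⟩) := fun j hj => by
    simp only [hPdef, dif_pos hj]
  have key : ∀ j ∈ Finset.range n, ∃ i : s, P j = Q i ∧ (e i : ℕ) = j := by
    intro j hj
    have hj' := Finset.mem_range.1 hj
    exact ⟨e.symm ⟨j, hj'⟩, hPe j hj', by simp⟩
  have hPl : Plates A h r s1 s2 R (Finset.range n) P := by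
    refine ⟨fun j hj => ?_, fun j hj j' hj' => ?_, fun j hj => ?_, fun j hj m => ?_,
      fun j hj m => ?_, fun j hj j' hj' hne hz m => ?_⟩
    · obtain ⟨i, h1, -⟩ := key j hj; rw [h1]; exact hQ.mem i i.2
    · obtain ⟨i, h1, -⟩ := key j hj
      obtain ⟨i', h1', -⟩ := key j' hj'
      rw [h1, h1']; exact hQ.sep i i.2 i' i'.2
    · obtain ⟨i, h1, -⟩ := key j hj; rw [h1]; exact hQ.x i i.2
    · obtain ⟨i, h1, -⟩ := key j hj; rw [h1]; exact hQ.meas i i.2 m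
    · obtain ⟨i, h1, -⟩ := key j hj; rw [h1]; exact hQ.box i i.2 m
    · obtain ⟨i, h1, h2⟩ := key j hj
      obtain ⟨i', h1', h2'⟩ := key j' hj'
      rw [h1, h1'] at hz ⊢
      refine hQ.disj i i.2 i' i'.2 (fun hii => hne ?_) hz m
      have : i = i' := Subtype.ext hii
      rw [← h2, ← h2', this]
  have hval : ∑ i ∈ s, tm h g r s1 s2 (Q i) = val h g r s1 s2 (Finset.range n) P := by
    rw [val_eq, Finset.sum_range, ← Finset.sum_coe_sort s]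
    refine Fintype.sum_equiv e _ _ fun i => ?_
    rw [hPe _ (e i).2]
    simp
  rw [hval]
  unfold SIG
  exact le_iSup_of_le (Finset.range n) (le_iSup_of_le P (le_iSup_of_le hPl le_rfl))

/-- shifting the frames. -/
def shift (z : E2 × ℝ) (p : Plate) : Plate := { p with z := p.z - z }

theorem PlG.shift {κ : Type*} {A : ℝ} {h : E2 → ℝ} {r s1 s2 R R' : ℝ} {s : Finset κ}
    {Q : κ → Plate} (hQ : PlG A h r s1 s2 R s Q) {t : Finset κ} (ht : t ⊆ s) (z : E2 × ℝ)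
    (hz : ∀ i ∈ t, (Q i).z - z ∈ cyl R') : PlG A h r s1 s2 R' t (fun i => shift z (Q i)) := by
  refine ⟨hz, fun i hi j hj => ?_, fun i hi => hQ.x i (ht hi), fun i hi => hQ.meas i (ht hi),
    fun i hi => hQ.box i (ht hi), fun i hi j hj hne hzz m => ?_⟩
  · rcases hQ.sep i (ht hi) j (ht hj) with h1 | h1 | h1
    · left; simp only [W323.shift, h1]
    · right; left
      simpa [W323.shift] using h1
    · right; right
      simpa [W323.shift] using h1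
  · refine hQ.disj i (ht hi) j (ht hj) hne ?_ m
    simpa [W323.shift] using hzz

theorem tm_shift (h : E2 → ℝ) (g : E2 → ℂ) (r s1 s2 : ℝ) (z : E2 × ℝ) (p : Plate) :
    tm h (tr h z g) r s1 s2 (shift z p) = tm h g r s1 s2 p := by
  unfold tm shift
  simp only
  rw [tr_add, sub_add_cancel]

/-- positions of the packets of a plate. -/
theorem pos_le {A : ℝ} {h : E2 → ℝ} {r s1 s2 : ℝ} {c : E2} {b : OrthonormalBasis (Fin 2) ℝ E2}
    {x : E2} {m : ℤ × ℤ} (hA : 0 ≤ A) (hr : 0 ≤ r) (h1 : s1 ≤ 1) (h2 : s2 ≤ 1)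
    (hx : ‖x‖ ≤ A * r) {y : E2} (hy : y ∈ pbox h r c b (fun k => A * (![s1, s2] k)) x m) :
    ‖y‖ ≤ 3 * A * r := by
  have hk : ∀ k : Fin 2, |inner ℝ (y - x) (b k)| ≤ A * r := by
    intro k
    refine (hy.2 k).trans ?_
    have : (![s1, s2] k) ≤ 1 := by
      fin_cases k <;> simp [h1, h2]
    have h3 : A * (![s1, s2] k) ≤ A * 1 := by gcongr
    nlinarith
  have h3 : ‖y - x‖ ^ 2 ≤ (2 * (A * r)) ^ 2 := by
    rw [← b.sum_sq_norm_inner_right (y - x), Fin.sum_univ_two, Real.norm_eq_abs, Real.norm_eq_abs,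
      real_inner_comm, real_inner_comm (y - x)]
    have e0 := pow_le_pow_left₀ (abs_nonneg _) (hk 0) 2
    have e1 := pow_le_pow_left₀ (abs_nonneg _) (hk 1) 2
    nlinarith [sq_nonneg (A * r)]
  have h4 : ‖y - x‖ ≤ 2 * (A * r) := le_of_sq_le_sq h3 (by positivity)
  calc ‖y‖ = ‖(y - x) + x‖ := by rw [sub_add_cancel]
    _ ≤ ‖y - x‖ + ‖x‖ := norm_add_le _ _
    _ ≤ 3 * A * r := by linarith

end Crest.Agent.R138.W323
end

-- ▼ part R138/RR4_323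
section

/-!
# R138 wave side: re-rooting (helper323), part 4: the core inequality
-/

set_option autoImplicit false

open MeasureTheory FourierTransform
open scoped ContDiff ENNReal

namespace Crest.Agent.R138.W323

open Crest.Agent.R138.Defs Crest.Agent.R138.Bil882 Crest.Agent.R138.W188
open Crest.Agent.R138.Wpk685

theorem sum_rpow_le {κ : Type*} (s : Finset κ) (a : κ → ℝ≥0∞) {p : ℝ} (hp : 1 ≤ p) :
    ∑ i ∈ s, a i ^ p ≤ (∑ i ∈ s, a i) ^ p := by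
  classical
  induction s using Finset.induction_on with
  | empty => simp
  | insert i s hi ih =>
    rw [Finset.sum_insert hi, Finset.sum_insert hi]
    refine le_trans ?_ (ENNReal.add_rpow_le_rpow_add _ _ hp)
    gcongr

/-- union of plate systems with different (separated) frames. -/
theorem sum_val_le_SIG {A : ℝ} {h : E2 → ℝ} {r s1 s2 R : ℝ} (Z : Finset (E2 × ℝ))
    (hsep : ∀ z ∈ Z, ∀ z' ∈ Z, z = z' ∨ r ≤ ‖z.1 - z'.1‖ ∨ r ≤ |z.2 - z'.2|)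
    (I : E2 × ℝ → Finset ℕ) (P : E2 × ℝ → ℕ → Plate)
    (hP : ∀ z ∈ Z, Plates A h r s1 s2 R (I z) (P z)) (hz : ∀ z ∈ Z, ∀ i ∈ I z, (P z i).z = z)
    (g : E2 → ℂ) : ∑ z ∈ Z, val h g r s1 s2 (I z) (P z) ≤ SIG A r s1 s2 h g R := by
  have hQ : PlG A h r s1 s2 R (Z.sigma I) (fun j => P j.1 j.2) := by
    refine ⟨fun j hj => ?_, fun j hj j' hj' => ?_, fun j hj => ?_, fun j hj m => ?_,
      fun j hj m => ?_, fun j hj j' hj' hne hzz m => ?_⟩
    · obtain ⟨h1, h2⟩ := Finset.mem_sigma.1 hj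
      exact (hP _ h1).mem _ h2
    · obtain ⟨h1, h2⟩ := Finset.mem_sigma.1 hj
      obtain ⟨h1', h2'⟩ := Finset.mem_sigma.1 hj'
      simp only [hz _ h1 _ h2, hz _ h1' _ h2']
      exact hsep _ h1 _ h1'
    · obtain ⟨h1, h2⟩ := Finset.mem_sigma.1 hj
      exact (hP _ h1).x _ h2
    · obtain ⟨h1, h2⟩ := Finset.mem_sigma.1 hj
      exact (hP _ h1).meas _ h2 m
    · obtain ⟨h1, h2⟩ := Finset.mem_sigma.1 hj
      exact (hP _ h1).box _ h2 m
    · obtain ⟨h1, h2⟩ := Finset.mem_sigma.1 hj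
      obtain ⟨h1', h2'⟩ := Finset.mem_sigma.1 hj'
      simp only [hz _ h1 _ h2, hz _ h1' _ h2'] at hzz
      obtain ⟨z, i⟩ := j
      obtain ⟨z', i'⟩ := j'
      simp only at hzz h1 h2 h1' h2' ⊢
      subst hzz
      refine (hP _ h1).disj i h2 i' h2' (fun hii => hne (by rw [hii])) ?_ m
      rw [hz _ h1 _ h2, hz _ h1 _ h2']
  have := hQ.le_SIG g
  rw [Finset.sum_sigma] at this
  exact this

/-- the contribution of one plate, decomposed. -/
theorem tm_sum_le {h : E2 → ℝ} (hh : Continuous h) {r s1 s2 : ℝ} (p : Plate) (z : E2 × ℝ)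
    {g : E2 → ℂ} (Λ : Finset ℕ) (G : ℕ → E2 → ℂ) (e : E2 → ℂ) (hG : ∀ k ∈ Λ, Gd (G k))
    (he : Gd e) (hdec : tr h z g = fun ξ => ∑ k ∈ Λ, G k ξ + e ξ) :
    tm h g r s1 s2 p ≤ 2 * ((Λ.card : ℝ≥0∞) + 1) ^ 2 *
      (∑ k ∈ Λ, tm h (G k) r s1 s2 (shift z p) + tm h e r s1 s2 (shift z p)) := by
  rw [← tm_shift h g r s1 s2 z p, hdec]
  unfold tm
  rw [tr_sum]
  have h1 := en_sum (ρ := r ^ (-(1/2) : ℝ)) Λ (G := fun k => tr h (shift z p).z (G k))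
    (e := tr h (shift z p).z e) (fun k hk => (W323.Gd.tr hh (hG k hk) _).int) (W323.Gd.tr hh he _).int
    (shift z p).S
  calc ENNReal.ofReal ((s1 * s2 * r ^ 3) ^ (-(1/2) : ℝ)) * (ENNReal.ofReal r *
        en (r ^ (-(1/2) : ℝ)) (fun ξ => ∑ k ∈ Λ, tr h (shift z p).z (G k) ξ +
          tr h (shift z p).z e ξ) (shift z p).S) ^ (3 / 2 : ℝ)
      ≤ ENNReal.ofReal ((s1 * s2 * r ^ 3) ^ (-(1/2) : ℝ)) * (ENNReal.ofReal r *
        (((Λ.card : ℝ≥0∞) + 1) * (∑ k ∈ Λ, en (r ^ (-(1/2) : ℝ)) (tr h (shift z p).z (G k))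
          (shift z p).S + en (r ^ (-(1/2) : ℝ)) (tr h (shift z p).z e) (shift z p).S))) ^
            (3 / 2 : ℝ) := by
        gcongr
    _ ≤ ENNReal.ofReal ((s1 * s2 * r ^ 3) ^ (-(1/2) : ℝ)) *
        (2 * ((Λ.card : ℝ≥0∞) + 1) ^ 2 * (∑ k ∈ Λ, (ENNReal.ofReal r *
          en (r ^ (-(1/2) : ℝ)) (tr h (shift z p).z (G k)) (shift z p).S) ^ (3 / 2 : ℝ) +
            (ENNReal.ofReal r * en (r ^ (-(1/2) : ℝ)) (tr h (shift z p).z e) (shift z p).S) ^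
              (3 / 2 : ℝ))) := by
        gcongr
        exact pow32_sum _ _ _ _
    _ = _ := by
        rw [mul_left_comm]
        congr 1
        rw [mul_add, Finset.mul_sum]

/-- the core inequality of re-rooting. -/
theorem rr_core {A : ℝ} {h : E2 → ℝ} (hh : Continuous h) (hA : 0 ≤ A) {R r1 r2 s1 s2 : ℝ}
    (hr2 : 0 ≤ r2) (hs1 : s1 ≤ 1) (hs2 : s2 ≤ 1) {g : E2 → ℂ} (Z : Finset (E2 × ℝ))
    (ζ : E2 × ℝ → E2 × ℝ) (hζ : ∀ p ∈ cyl R, ζ p ∈ Z ∧ p - ζ p ∈ cyl r1) (Λ : Finset ℕ)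
    (G : E2 × ℝ → ℕ → E2 → ℂ) (e : E2 × ℝ → E2 → ℂ) (hG : ∀ z ∈ Z, ∀ k ∈ Λ, Gd (G z k))
    (he : ∀ z ∈ Z, Gd (e z)) (hdec : ∀ z ∈ Z, tr h z g = fun ξ => ∑ k ∈ Λ, G z k ξ + e z ξ)
    (W : ℝ≥0∞) (hW : ∀ z ∈ Z, ∀ z' ∈ cyl r1, en (r2 ^ (-(1/2) : ℝ)) (tr h z' (e z))
      (fun _ => Metric.closedBall 0 (3 * A * r2)) ≤ W)
    (I : Finset ℕ) (P : ℕ → Plate) (hP : Plates A h r2 s1 s2 R I P) (F : ℕ)
    (hF : ∀ s : Finset (E2 × ℝ), (∀ z ∈ s, z ∈ cyl R) → (∀ z ∈ s, ∀ z' ∈ s, z = z' ∨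
      r2 ≤ ‖z.1 - z'.1‖ ∨ r2 ≤ |z.2 - z'.2|) → s.card ≤ F) :
    val h g r2 s1 s2 I P ≤ 2 * ((Λ.card : ℝ≥0∞) + 1) ^ 2 *
      (∑ z ∈ Z, ∑ k ∈ Λ, SIG A r2 s1 s2 h (G z k) r1 +
        ENNReal.ofReal ((s1 * s2 * r2 ^ 3) ^ (-(1/2) : ℝ)) *
          (ENNReal.ofReal r2 * ((F : ℝ≥0∞) * W)) ^ (3 / 2 : ℝ)) := by
  classical
  have hPG := hP.plG
  set z : ℕ → E2 × ℝ := fun i => (P i).z with hz
  have hmem : ∀ i ∈ I, ζ (z i) ∈ Z := fun i hi => (hζ _ (hP.mem i hi)).1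
  have step : val h g r2 s1 s2 I P ≤ 2 * ((Λ.card : ℝ≥0∞) + 1) ^ 2 *
      (∑ i ∈ I, ∑ k ∈ Λ, tm h (G (ζ (z i)) k) r2 s1 s2 (shift (ζ (z i)) (P i)) +
        ∑ i ∈ I, tm h (e (ζ (z i))) r2 s1 s2 (shift (ζ (z i)) (P i))) := by
    rw [val_eq, ← Finset.sum_add_distrib, Finset.mul_sum]
    refine Finset.sum_le_sum fun i hi => ?_
    exact tm_sum_le hh (P i) (ζ (z i)) Λ _ _ (fun k hk => hG _ (hmem i hi) k hk)
      (he _ (hmem i hi)) (hdec _ (hmem i hi))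
  refine step.trans ?_
  gcongr
  · -- main part
    rw [← Finset.sum_fiberwise_of_maps_to hmem]
    refine Finset.sum_le_sum fun y hy => ?_
    rw [Finset.sum_comm]
    refine Finset.sum_le_sum fun k hk => ?_
    have h1 : ∑ i ∈ I with ζ (z i) = y, tm h (G (ζ (z i)) k) r2 s1 s2 (shift (ζ (z i)) (P i)) =
        ∑ i ∈ I with ζ (z i) = y, tm h (G y k) r2 s1 s2 (shift y (P i)) := by
      refine Finset.sum_congr rfl fun i hi => ?_
      rw [(Finset.mem_filter.1 hi).2]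
    rw [h1]
    refine (hPG.shift (Finset.filter_subset _ I) y (R' := r1) fun i hi => ?_).le_SIG _
    obtain ⟨hi1, hi2⟩ := Finset.mem_filter.1 hi
    have := (hζ _ (hP.mem i hi1)).2
    rwa [show ζ (P i).z = y from hi2] at this
  · -- rest
    unfold tm
    rw [← Finset.mul_sum]
    gcongr
    refine (sum_rpow_le I _ (by norm_num)).trans ?_
    rw [← Finset.mul_sum]
    gcongr
    rw [← Finset.sum_fiberwise_of_maps_to (s := I) (t := I.image z)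
      (g := z) (fun i hi => Finset.mem_image_of_mem z hi)]
    have h2 : ∀ y ∈ I.image z, ∑ i ∈ I with z i = y, en (r2 ^ (-(1/2) : ℝ))
        (tr h (shift (ζ (z i)) (P i)).z (e (ζ (z i)))) (shift (ζ (z i)) (P i)).S ≤ W := by
      intro y hy
      obtain ⟨i0, hi0, rfl⟩ := Finset.mem_image.1 hy
      have hy0 := hζ _ (hP.mem i0 hi0)
      have h3 : ∑ i ∈ I with z i = z i0, en (r2 ^ (-(1/2) : ℝ))
          (tr h (shift (ζ (z i)) (P i)).z (e (ζ (z i)))) (shift (ζ (z i)) (P i)).S =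
          ∑ i ∈ I with z i = z i0, en (r2 ^ (-(1/2) : ℝ))
            (tr h (z i0 - ζ (z i0)) (e (ζ (z i0)))) (P i).S := by
        refine Finset.sum_congr rfl fun i hi => ?_
        have e1 : z i = z i0 := (Finset.mem_filter.1 hi).2
        have e2 : (P i).z = z i0 := e1
        unfold shift
        simp only [e1, e2]
      rw [h3]
      refine (en_union _ (fun i => (P i).S) (fun _ => Metric.closedBall 0 (3 * A * r2))
        (fun i hi m => ?_) (fun i hi j hj hne m => ?_) (fun i hi m y hy => ?_)).trans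
        (hW _ hy0.1 _ hy0.2)
      · exact hP.meas i (Finset.mem_filter.1 hi).1 m
      · obtain ⟨hi1, hi2⟩ := Finset.mem_filter.1 hi
        obtain ⟨hj1, hj2⟩ := Finset.mem_filter.1 hj
        exact hP.disj i hi1 j hj1 hne (hi2.trans hj2.symm) m
      · obtain ⟨hi1, hi2⟩ := Finset.mem_filter.1 hi
        rw [mem_closedBall_zero_iff]
        exact pos_le hA hr2 hs1 hs2 (hP.x i hi1) (hP.box i hi1 m hy)
    refine (Finset.sum_le_sum h2).trans ?_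
    rw [Finset.sum_const, nsmul_eq_mul]
    gcongr
    refine hF _ (fun y hy => ?_) (fun y hy y' hy' => ?_)
    · obtain ⟨i, hi, rfl⟩ := Finset.mem_image.1 hy
      exact hP.mem i hi
    · obtain ⟨i, hi, rfl⟩ := Finset.mem_image.1 hy
      obtain ⟨j, hj, rfl⟩ := Finset.mem_image.1 hy'
      exact hP.sep i hi j hj

end Crest.Agent.R138.W323
end

-- ▼ part R138/RR5_323

/-!
# R138 wave side: re-rooting (helper323), part 5: **A3** from **DEC**

The section `nets` is copied from `A1_774` (helper774).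
-/

set_option autoImplicit false

open MeasureTheory FourierTransform
open scoped ContDiff ENNReal

namespace Crest.Agent.R138.W323

open Crest.Agent.R138.Defs Crest.Agent.R138.Bil882 Crest.Agent.R138.W188
open Crest.Agent.R138.Wpk685
open Crest.Agent.R138.T774 (haar3 cyl_eq finrank3)

attribute [local instance] haar3

/-! ### nets -/

/-- the relation in `Plates.sep`. -/
def Sep (r : ℝ) (z z' : E2 × ℝ) : Prop := z = z' ∨ r ≤ ‖z.1 - z'.1‖ ∨ r ≤ |z.2 - z'.2|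

theorem Sep.symm {r : ℝ} {z z' : E2 × ℝ} (h : Sep r z z') : Sep r z' z := by
  rcases h with h | h | h
  · exact Or.inl h.symm
  · exact Or.inr (Or.inl (by rwa [norm_sub_rev]))
  · exact Or.inr (Or.inr (by rwa [abs_sub_comm]))

theorem card_net {R r : ℝ} (hr : 0 < r) (hrR : r ≤ R) (Z : Finset (E2 × ℝ))
    (hZ : ∀ z ∈ Z, z ∈ cyl R) (hs : ∀ z ∈ Z, ∀ z' ∈ Z, Sep r z z') :
    (Z.card : ℝ) ≤ 216 * (R / r) ^ 3 := by
  have hR : 0 < R := hr.trans_le hrR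
  set v : ℝ≥0∞ := volume (Metric.ball (0 : E2 × ℝ) 1) with hv
  have hvfin : v < ⊤ := measure_ball_lt_top
  have hvpos : 0 < v := Metric.measure_ball_pos _ _ one_pos
  have hdisj : (Z : Set (E2 × ℝ)).PairwiseDisjoint fun z => Metric.ball z (r / 2) := by
    intro z hz z' hz' hne
    refine Metric.ball_disjoint_ball ?_
    have h1 : r ≤ dist z z' := by
      rcases hs z hz z' hz' with h | h | h
      · exact absurd h hne
      · rw [Prod.dist_eq, dist_eq_norm]; exact h.trans (le_max_left _ _)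
      · rw [Prod.dist_eq, Real.dist_eq]; exact h.trans (le_max_right _ _)
    linarith
  have hsub : (⋃ z ∈ Z, Metric.ball z (r / 2)) ⊆ Metric.ball (0 : E2 × ℝ) (3 * R) := by
    intro p hp
    simp only [Set.mem_iUnion] at hp
    obtain ⟨z, hz, hp⟩ := hp
    have h1 := hZ z hz
    rw [cyl_eq, Metric.mem_closedBall] at h1
    rw [Metric.mem_ball] at hp ⊢
    calc dist p 0 ≤ dist p z + dist z 0 := dist_triangle _ _ _
      _ < r / 2 + R := by linarith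
      _ ≤ 3 * R := by linarith
  have h2 : (Z.card : ℝ≥0∞) * (ENNReal.ofReal ((r / 2) ^ 3) * v) ≤ ENNReal.ofReal ((3 * R) ^ 3) * v := by
    have h3 := measure_mono (μ := (volume : Measure (E2 × ℝ))) hsub
    rw [measure_biUnion_finset hdisj fun z _ => measurableSet_ball] at h3
    have h4 : ∀ z ∈ Z, volume (Metric.ball z (r / 2)) = ENNReal.ofReal ((r / 2) ^ 3) * v := by
      intro z _
      rw [Measure.addHaar_ball _ _ (by positivity), finrank3]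
    rw [Finset.sum_congr rfl h4, Finset.sum_const, nsmul_eq_mul,
      Measure.addHaar_ball _ _ (by positivity), finrank3] at h3
    exact h3
  rw [← mul_assoc, ENNReal.mul_le_mul_iff_left hvpos.ne' hvfin.ne, ← ENNReal.ofReal_natCast,
    ← ENNReal.ofReal_mul (by positivity), ENNReal.ofReal_le_ofReal_iff (by positivity)] at h2
  have h5 : (Z.card : ℝ) ≤ (3 * R) ^ 3 / (r / 2) ^ 3 := by
    rw [le_div_iff₀ (by positivity)]; exact h2
  refine h5.trans_eq ?_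
  field_simp
  norm_num

/-- a maximal `r`-separated net of the cylinder. -/
theorem exists_net {R r : ℝ} (hr : 0 < r) (hrR : r ≤ R) : ∃ Z : Finset (E2 × ℝ),
    (∀ z ∈ Z, z ∈ cyl R) ∧ (∀ z ∈ Z, ∀ z' ∈ Z, Sep r z z') ∧
    (∀ p ∈ cyl R, ∃ z ∈ Z, p - z ∈ cyl r) ∧ (Z.card : ℝ) ≤ 216 * (R / r) ^ 3 := by
  classical
  let Q : ℕ → Prop := fun n => ∃ Z : Finset (E2 × ℝ), Z.card = n ∧ (∀ z ∈ Z, z ∈ cyl R) ∧
    (∀ z ∈ Z, ∀ z' ∈ Z, Sep r z z')
  have hQ0 : Q 0 := ⟨∅, rfl, by simp, by simp⟩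
  set n0 : ℕ := ⌊216 * (R / r) ^ 3⌋₊ with hn0
  have hb : ∀ n, Q n → n ≤ n0 := by
    rintro n ⟨Z, rfl, h1, h2⟩
    exact Nat.le_floor (card_net hr hrR Z h1 h2)
  obtain ⟨Z, hc, h1, h2⟩ := Nat.findGreatest_spec (P := Q) (Nat.zero_le n0) hQ0
  refine ⟨Z, h1, h2, fun p hp => ?_, card_net hr hrR Z h1 h2⟩
  by_contra hcon
  push Not at hcon
  have hpZ : p ∉ Z := by
    intro hpZ
    refine hcon p hpZ ?_
    rw [sub_self, cyl_eq]
    exact Metric.mem_closedBall_self hr.le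
  have h3 : ∀ z ∈ Z, Sep r p z := by
    intro z hz
    have h4 := hcon z hz
    have h5 : ¬ (‖(p - z).1‖ ≤ r ∧ |(p - z).2| ≤ r) := h4
    rw [not_and_or, not_le, not_le] at h5
    rcases h5 with h5 | h5
    · exact Or.inr (Or.inl h5.le)
    · exact Or.inr (Or.inr h5.le)
  have hQ : Q (Z.card + 1) := by
    refine ⟨insert p Z, Finset.card_insert_of_notMem hpZ, ?_, ?_⟩
    · intro z hz
      rcases Finset.mem_insert.1 hz with rfl | hz
      · exact hp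
      · exact h1 z hz
    · intro z hz z' hz'
      rcases Finset.mem_insert.1 hz with hz1 | hz1 <;>
        rcases Finset.mem_insert.1 hz' with hz2 | hz2
      · exact Or.inl (hz1.trans hz2.symm)
      · rw [hz1]; exact h3 z' hz2
      · rw [hz2]; exact (h3 z hz1).symm
      · exact h2 z hz1 z' hz2
  have h6 := Nat.le_findGreatest (P := Q) (hb _ hQ) hQ
  omega


/-! ### A3 -/


/-- bound of the rest. -/
theorem rest_W {C1 C2 R r1 r2 ρ A e e' β ε' : ℝ} {k0 : ℕ} (hC1 : 0 ≤ C1) (hC2 : 0 ≤ C2)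
    (hR : 1 ≤ R) (hA : 1 ≤ A) (hr2 : R ^ (1/2 : ℝ) ≤ r2) (h21 : A * r2 ≤ r1) (h1R : r1 ≤ R)
    (hρ : ρ = r2 ^ (-(1/2) : ℝ)) (he : 0 ≤ e) (hε1 : ε' ≤ 1)
    (hβ : β = C2 * R ^ (-((k0 + 1 : ℕ) : ℝ)) * Real.sqrt e) (he' : e' ≤ C2 * R ^ ε' * e) :
    C1 * (4 * (3 * A * r2 + r1) ^ 2 * β ^ 2 + ((1 + ρ * r1) ^ (4 * (k0 + 1)))⁻¹ * e') ≤
      C1 * (64 * C2 ^ 2 + C2) * (R ^ (-(k0 : ℝ)) * e) := by
  have hR0 : 0 < R := by linarith
  have hr2' : 1 ≤ r2 := (Real.one_le_rpow hR (by norm_num)).trans hr2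
  have h21' : r2 ≤ r1 := by nlinarith
  have hr1 : 0 < r1 := by linarith
  have e1 : 4 * (3 * A * r2 + r1) ^ 2 * β ^ 2 ≤ 64 * C2 ^ 2 * (R ^ (-(k0 : ℝ)) * e) := by
    have h1 : 3 * A * r2 + r1 ≤ 4 * R := by nlinarith
    have h2 : β ^ 2 = C2 ^ 2 * (R ^ (-((2 * (k0 + 1) : ℕ) : ℝ)) * e) := by
      rw [hβ, mul_pow, mul_pow, Real.sq_sqrt he, ← Real.rpow_natCast (R ^ _) 2,
        ← Real.rpow_mul hR0.le, mul_assoc]
      congr 3
      push_cast; ring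
    rw [h2]
    calc 4 * (3 * A * r2 + r1) ^ 2 * (C2 ^ 2 * (R ^ (-((2 * (k0 + 1) : ℕ) : ℝ)) * e))
        ≤ 4 * (4 * R) ^ 2 * (C2 ^ 2 * (R ^ (-((2 * (k0 + 1) : ℕ) : ℝ)) * e)) := by
          gcongr
      _ = 64 * C2 ^ 2 * ((R ^ (2 : ℝ) * R ^ (-((2 * (k0 + 1) : ℕ) : ℝ))) * e) := by
          rw [Real.rpow_two]; ring
      _ ≤ 64 * C2 ^ 2 * (R ^ (-(k0 : ℝ)) * e) := by
          rw [← Real.rpow_add hR0]
          gcongr
          push_cast
          have : (0:ℝ) ≤ k0 := Nat.cast_nonneg _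
          linarith
  have e2 : ((1 + ρ * r1) ^ (4 * (k0 + 1)))⁻¹ * e' ≤ C2 * (R ^ (-(k0 : ℝ)) * e) := by
    have h1 : R ^ (1/4 : ℝ) ≤ 1 + ρ * r1 := by
      have h2 : R ^ (1/4 : ℝ) ≤ r2 ^ (1/2 : ℝ) := by
        have : R ^ (1/4 : ℝ) = (R ^ (1/2 : ℝ)) ^ (1/2 : ℝ) := by
          rw [← Real.rpow_mul hR0.le]; norm_num
        rw [this]
        gcongr
      have h3 : r2 ^ (1/2 : ℝ) = ρ * r2 := by
        rw [hρ]
        nth_rw 3 [← Real.rpow_one r2]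
        rw [← Real.rpow_add (by linarith)]
        norm_num
      have hρ0 : 0 ≤ ρ := by rw [hρ]; positivity
      have h4 : ρ * r2 ≤ ρ * r1 := by gcongr
      linarith
    have h5 : ((1 + ρ * r1) ^ (4 * (k0 + 1)))⁻¹ ≤ R ^ (-((k0 + 1 : ℕ) : ℝ)) := by
      calc ((1 + ρ * r1) ^ (4 * (k0 + 1)))⁻¹ ≤ ((R ^ (1/4 : ℝ)) ^ (4 * (k0 + 1)))⁻¹ := by
            gcongr
        _ = R ^ (-((k0 + 1 : ℕ) : ℝ)) := by
            rw [← Real.rpow_natCast, ← Real.rpow_mul hR0.le, ← Real.rpow_neg hR0.le]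
            congr 1
            push_cast; ring
    calc ((1 + ρ * r1) ^ (4 * (k0 + 1)))⁻¹ * e'
        ≤ ((1 + ρ * r1) ^ (4 * (k0 + 1)))⁻¹ * (C2 * R ^ ε' * e) := by
          gcongr
          have : (0:ℝ) ≤ 1 + ρ * r1 := (by positivity : (0:ℝ) ≤ R ^ (1/4 : ℝ)).trans h1
          positivity
      _ ≤ R ^ (-((k0 + 1 : ℕ) : ℝ)) * (C2 * R ^ ε' * e) := by gcongr
      _ = C2 * ((R ^ (-((k0 + 1 : ℕ) : ℝ)) * R ^ ε') * e) := by ring
      _ ≤ C2 * (R ^ (-(k0 : ℝ)) * e) := by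
          rw [← Real.rpow_add hR0]
          gcongr
          push_cast
          linarith
  calc C1 * (4 * (3 * A * r2 + r1) ^ 2 * β ^ 2 + ((1 + ρ * r1) ^ (4 * (k0 + 1)))⁻¹ * e')
      ≤ C1 * (64 * C2 ^ 2 * (R ^ (-(k0 : ℝ)) * e) + C2 * (R ^ (-(k0 : ℝ)) * e)) := by gcongr
    _ = _ := by ring


end Crest.Agent.R138.W323
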