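import Crest.Agent.R138.Ad_480
import Crest.Agent.R138.Wpk9_685
import Crest.Agent.R138.DecC_685
import Crest.Agent.R138.Km_535
import Crest.Agent.R138.PDef_654
import Crest.Agent.R138.RR5_323

-- ▼ part R138/Mw1_330
section

/-!
# R138 / R139: MIS / ALIGN, wave half, part 1 (helper330)

Pointwise bound of a short packet of `tr h z (sel ρ g S)` by the weighted energy of the long packets
of `g` in `S` through the point, and its integrated form with the (additive) weight of a set.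
-/

set_option autoImplicit false
set_option linter.unusedSectionVars false

open MeasureTheory FourierTransform
open scoped ContDiff ENNReal

namespace Crest.Agent.R138.Mis330

open Crest.Agent.R138.Defs Crest.Agent.R138.Wpk685 Crest.Agent.R138.Loc878
open Crest.Agent.R138.Wf448 (wE sl adj adet dw gw LI)
open Crest.Agent.R138.W188 (tr)
open Crest.Agent.R138.Ad480

/-- multiplication by `a`. -/
noncomputable def sca (a : ℝ) (ha : a ≠ 0) : E2 ≃L[ℝ] E2 :=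
  ContinuousLinearEquiv.smulLeft (Units.mk0 a ha)

theorem sca_apply (a : ℝ) (ha : a ≠ 0) (x : E2) : (sca a ha : E2 →L[ℝ] E2) x = a • x := rfl

theorem adj_sca (a : ℝ) (ha : a ≠ 0) (η : E2) : adj (sca a ha : E2 →L[ℝ] E2) η = a • η := by
  refine ext_inner_right ℝ fun v => ?_
  rw [ContinuousLinearMap.adjoint_inner_left, sca_apply, real_inner_smul_left, inner_smul_right]

theorem adet_sca (a : ℝ) (ha : a ≠ 0) : adet (sca a ha : E2 →L[ℝ] E2) = a ^ 2 := by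
  unfold adet
  have : ((sca a ha : E2 →L[ℝ] E2) : E2 →ₗ[ℝ] E2) = a • LinearMap.id := by
    ext x
    rfl
  rw [this, LinearMap.det_smul, LinearMap.det_id, mul_one, finrank_euclideanSpace_fin,
    abs_of_nonneg (sq_nonneg a)]

/-- locally constant property at scale `1/ρ`. -/
theorem loc_ptr (n : ℕ) : ∃ C : ℝ, 0 ≤ C ∧ ∀ (ρ : ℝ), 0 < ρ → ∀ (ξ0 : E2) (G : E2 → ℂ),
    Integrable G → (∀ ξ, G ξ ≠ 0 → ‖ξ - ξ0‖ ≤ 2 * ρ) → ∀ x,
    ‖𝓕⁻ G x‖ₑ ^ 2 ≤ ENNReal.ofReal (C * ρ ^ 2) * WE (fun y => wa ρ n (y - x)) G := by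
  obtain ⟨C, hC, h⟩ := Crest.Agent.R138.Wf448.loc_const E2 n
  refine ⟨C * 4 * 2 ^ n, by positivity, ?_⟩
  intro ρ hρ ξ0 G hG hs x
  have h2ρ : (2 * ρ : ℝ) ≠ 0 := by positivity
  have h1 := h (sca (2 * ρ) h2ρ) ξ0 G hG ?_ x
  · refine h1.trans ?_
    rw [wE_eq, adet_sca]
    have e : C * 4 * 2 ^ n * ρ ^ 2 = C * (2 * ρ) ^ 2 * 2 ^ n := by ring
    rw [e, ENNReal.ofReal_mul (p := C * (2 * ρ) ^ 2) (by positivity), mul_assoc]
    refine mul_le_mul_right ?_ _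
    unfold WE
    rw [← lintegral_const_mul' _ _ ENNReal.ofReal_ne_top]
    refine lintegral_mono fun y => ?_
    rw [← mul_assoc, ← ENNReal.ofReal_mul (by positivity)]
    refine mul_le_mul_left (ENNReal.ofReal_le_ofReal ?_) _
    unfold dw gw wa
    rw [sca_apply, norm_smul, Real.norm_eq_abs, abs_of_pos (by positivity : 0 < 2 * ρ)]
    set u : ℝ := ‖y - x‖ with hu
    have hu0 : 0 ≤ u := norm_nonneg _
    have h2 : (1 + ρ * u) ^ n ≤ 2 ^ n * (1 + (2 * ρ * u) ^ 2) ^ n := by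
      rw [← mul_pow]
      refine pow_le_pow_left₀ (by positivity) ?_ n
      nlinarith [sq_nonneg (1 - ρ * u), sq_nonneg (ρ * u), mul_nonneg hρ.le hu0]
    rw [← div_eq_mul_inv, inv_eq_one_div, div_le_div_iff₀ (by positivity) (by positivity), one_mul]
    exact h2
  · intro ξ hξ
    refine ⟨(2 * ρ)⁻¹ • (ξ - ξ0), ?_, ?_⟩
    · rw [norm_smul, norm_inv, Real.norm_eq_abs, abs_of_pos (by positivity : (0:ℝ) < 2 * ρ)]
      have := hs ξ hξ
      rw [inv_mul_le_iff₀ (by positivity)]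
      linarith
    · rw [adj_sca, smul_smul, mul_inv_cancel₀ h2ρ, one_smul]
      abel

/-- **pointwise bound** of a short packet of a selected wave. -/
theorem pt_le (B : ℕ → ℝ) (n : ℕ) (L : ℝ) (hL : 1 ≤ L) : ∃ C : ℝ, 0 ≤ C ∧ ∀ h, ParB B h →
    ∀ (ρ ρ' : ℝ), 0 < ρ → ρ ≤ ρ' → ρ ≤ 1 → ∀ g : E2 → ℂ, Integrable g →
    ∀ S : ℤ × ℤ → Set E2, Bs ρ S → ∀ z : E2 × ℝ, |z.2| * ρ ^ 2 ≤ L → ∀ (m' : ℤ × ℤ) (x : E2),
    ‖um ρ' (tr h z (sel ρ g S)) m' x‖ₑ ^ 2 ≤
      ENNReal.ofReal (C * (ρ' / ρ) ^ 2) * Ad n h ρ ρ' g S m' z x := by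
  obtain ⟨C1, hC1, h1⟩ := loc_core_rep B n L hL
  obtain ⟨C2, hC2, h2⟩ := loc_ptr n
  refine ⟨C2 * C1, by positivity, ?_⟩
  intro h hh ρ ρ' hρ hρ' hρ1 g hg S hS z hz m' x
  have hpos' : 0 < ρ' := lt_of_lt_of_le hρ hρ'
  have hhc : Continuous h := hh.1.continuous
  have hgs : Integrable (sel ρ g S) := (sel_int hρ hg hS).1
  have hgt : Integrable (tr h z (sel ρ g S)) := tr_int hhc hgs z
  have a1 := h2 ρ' hpos' (cen ρ' m') (fun ξ => cap win (cen ρ' m') ρ' ξ * tr h z (sel ρ g S) ξ)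
    (win_int hgt m') (fun ξ hξ => by
      have := capwin_supp hpos' m' ξ (left_ne_zero_of_mul hξ)
      linarith) x
  have a2 := h1 h hh ρ ρ' 1 (fun y => wa ρ n (y - x)) hρ hρ' hρ1
    (by simpa [wa] using SV_pt hρ.le n x)
    (fun m => piece ρ g m (S m)) (fun m => (S m).indicator (um ρ g m))
    (fun m hm => piece_rep hρ hg m (hS.meas m hm) (hS.bdd m hm)) z hz m'
  rw [one_pow, mul_one] at a2
  have a3 : WE (fun y => wa ρ' n (y - x))
      (fun ξ => cap win (cen ρ' m') ρ' ξ * tr h z (sel ρ g S) ξ) ≤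
      ∫⁻ y, ENNReal.ofReal (wa ρ n (y - x)) *
        ‖um ρ' (tr h z (fun ξ => ∑ m ∈ caps ρ, piece ρ g m (S m) ξ)) m' y‖ₑ ^ 2 := by
    unfold WE
    refine lintegral_mono fun y => ?_
    refine mul_le_mul' (ENNReal.ofReal_le_ofReal ?_) le_rfl
    unfold wa
    have : (1 + ρ * ‖y - x‖) ≤ (1 + ρ' * ‖y - x‖) := by
      have := mul_le_mul_of_nonneg_right hρ' (norm_nonneg (y - x))
      linarith
    have h0 : 0 < 1 + ρ * ‖y - x‖ := by positivity
    exact inv_anti₀ (by positivity) (pow_le_pow_left₀ h0.le this n)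
  calc ‖um ρ' (tr h z (sel ρ g S)) m' x‖ₑ ^ 2
      ≤ ENNReal.ofReal (C2 * ρ' ^ 2) * (ENNReal.ofReal C1 * ∑ m ∈ nearL ρ ρ' m', ∫⁻ y,
        ENNReal.ofReal (wa ρ n (y - z.1 - z.2 • gradient h (cen ρ m) - x)) *
          ‖(S m).indicator (um ρ g m) y‖ₑ ^ 2) :=
        a1.trans (mul_le_mul' le_rfl (a3.trans a2))
    _ = _ := by
        unfold Ad Ac
        rw [← mul_assoc, ← mul_assoc, ← ENNReal.ofReal_mul (by positivity),
          ← ENNReal.ofReal_mul (by positivity)]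
        congr 1
        · congr 1
          field_simp
        · refine Finset.sum_congr rfl fun m hm => ?_
          rw [← lint_ind (hS.meas m (mem_nearL.1 hm).1)]

/-- weight of the set family `S'` of level `ρ'` seen from a packet of the cap `m` of level `ρ` at
the point `v`. Additive in `S'`. -/
noncomputable def wE (n : ℕ) (ρ ρ' : ℝ) (S' : ℤ × ℤ → Set E2) (m : ℤ × ℤ) (v : E2) : ℝ≥0∞ :=
  ∑ m' ∈ nearS ρ ρ' m, ENNReal.ofReal (ρ ^ 2) * ∫⁻ x in S' m', ENNReal.ofReal (wa ρ n (v - x))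

theorem um_meas {ρ : ℝ} {g : E2 → ℂ} (hg : Integrable g) (m : ℤ × ℤ) :
    Measurable fun y => ‖um ρ g m y‖ₑ ^ 2 :=
  ((um_cont hg m).enorm.measurable).pow_const 2

/-- **integrated form**: the energy of a selected wave in the family `S'`. -/
theorem en_le_wE (B : ℕ → ℝ) (n : ℕ) (L : ℝ) (hL : 1 ≤ L) : ∃ C : ℝ, 0 ≤ C ∧ ∀ h, ParB B h →
    ∀ (ρ ρ' : ℝ), 0 < ρ → ρ ≤ ρ' → ρ ≤ 1 → ∀ g : E2 → ℂ, Integrable g →
    ∀ S : ℤ × ℤ → Set E2, Bs ρ S → ∀ z : E2 × ℝ, |z.2| * ρ ^ 2 ≤ L →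
    ∀ S' : ℤ × ℤ → Set E2, (∀ m ∈ caps ρ', MeasurableSet (S' m)) →
    en ρ' (tr h z (sel ρ g S)) S' ≤ ENNReal.ofReal (C * (ρ' / ρ) ^ 2) *
      ∑ m ∈ caps ρ, ∫⁻ y in S m,
        wE n ρ ρ' S' m (y - z.1 - z.2 • gradient h (cen ρ m)) * ‖um ρ g m y‖ₑ ^ 2 := by
  obtain ⟨C, hC, hpt⟩ := pt_le B n L hL
  refine ⟨C, hC, ?_⟩
  intro h hh ρ ρ' hρ hρ' hρ1 g hg S hS z hz S' hS'
  have hwc := wa_cont hρ.le n
  have hmeas : ∀ m : ℤ × ℤ, Measurable (Function.uncurry fun (x y : E2) =>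
      ENNReal.ofReal (wa ρ n (y - z.1 - z.2 • gradient h (cen ρ m) - x)) * ‖um ρ g m y‖ₑ ^ 2) := by
    intro m
    refine Measurable.mul ?_ ((um_meas hg m).comp measurable_snd)
    exact ENNReal.measurable_ofReal.comp (Continuous.measurable (by fun_prop))
  have key : ∀ m' ∈ caps ρ', ∫⁻ x in S' m', ‖um ρ' (tr h z (sel ρ g S)) m' x‖ₑ ^ 2 ≤
      ENNReal.ofReal (C * (ρ' / ρ) ^ 2) * ∑ m ∈ nearL ρ ρ' m', ∫⁻ y in S m,
        (ENNReal.ofReal (ρ ^ 2) * ∫⁻ x in S' m',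
          ENNReal.ofReal (wa ρ n ((y - z.1 - z.2 • gradient h (cen ρ m)) - x))) *
            ‖um ρ g m y‖ₑ ^ 2 := by
    intro m' hm'
    calc ∫⁻ x in S' m', ‖um ρ' (tr h z (sel ρ g S)) m' x‖ₑ ^ 2
        ≤ ∫⁻ x in S' m', ENNReal.ofReal (C * (ρ' / ρ) ^ 2) * Ad n h ρ ρ' g S m' z x :=
          lintegral_mono fun x => hpt h hh ρ ρ' hρ hρ' hρ1 g hg S hS z hz m' x
      _ = ENNReal.ofReal (C * (ρ' / ρ) ^ 2) * (ENNReal.ofReal (ρ ^ 2) *
            ∑ m ∈ nearL ρ ρ' m', ∫⁻ x in S' m', ∫⁻ y in S m,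
              ENNReal.ofReal (wa ρ n (y - z.1 - z.2 • gradient h (cen ρ m) - x)) *
                ‖um ρ g m y‖ₑ ^ 2) := by
          rw [lintegral_const_mul' _ _ ENNReal.ofReal_ne_top]
          congr 1
          unfold Ad Ac
          rw [lintegral_const_mul' _ _ ENNReal.ofReal_ne_top]
          congr 1
          refine lintegral_finsetSum' _ fun m _ => ?_
          exact ((hmeas m).lintegral_prod_right' (ν := volume.restrict (S m))).aemeasurable
      _ = _ := by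
          congr 1
          rw [Finset.mul_sum]
          refine Finset.sum_congr rfl fun m _ => ?_
          rw [lintegral_lintegral_swap (hmeas m).aemeasurable,
            ← lintegral_const_mul' _ _ ENNReal.ofReal_ne_top]
          refine lintegral_congr fun y => ?_
          have hm1 : Measurable fun x : E2 =>
              ENNReal.ofReal (wa ρ n (y - z.1 - z.2 • gradient h (cen ρ m) - x)) :=
            (Continuous.measurable (by fun_prop)).ennreal_ofReal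
          rw [lintegral_mul_const _ hm1, mul_assoc]
  unfold en
  refine (Finset.sum_le_sum key).trans (le_of_eq ?_)
  rw [← Finset.mul_sum]
  congr 1
  rw [Finset.sum_comm' (s := caps ρ') (t := fun m' => nearL ρ ρ' m') (t' := caps ρ)
    (s' := fun m => nearS ρ ρ' m) (fun m' m => by rw [mem_nearL, mem_nearS]; tauto)]
  refine Finset.sum_congr rfl fun m _ => ?_
  rw [← lintegral_finsetSum']
  · refine lintegral_congr fun y => ?_
    unfold wE
    rw [Finset.sum_mul]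
  · intro m' _
    refine AEMeasurable.mul ?_ (um_meas hg m).aemeasurable
    refine AEMeasurable.const_mul ?_ _
    have : Measurable (Function.uncurry fun (y x : E2) =>
        ENNReal.ofReal (wa ρ n (y - z.1 - z.2 • gradient h (cen ρ m) - x))) :=
      ENNReal.measurable_ofReal.comp (Continuous.measurable (by fun_prop))
    exact (this.lintegral_prod_right' (ν := volume.restrict (S' m'))).aemeasurable

end Crest.Agent.R138.Mis330
end

-- ▼ part R138/Mw2_330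
section

/-!
# R138 / R139: MIS / ALIGN, wave half, part 2 (helper330): the weights

`wE_le`, `wE_shift`, `wE_far`, `wE_sum` (additivity over disjoint selections of one frame).
-/

set_option autoImplicit false
set_option linter.unusedSectionVars false

open MeasureTheory FourierTransform
open scoped ContDiff ENNReal

namespace Crest.Agent.R138.Mis330

open Crest.Agent.R138.Defs Crest.Agent.R138.Wpk685 Crest.Agent.R138.Loc878
open Crest.Agent.R138.W188 (tr)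
open Crest.Agent.R138.Ad480

theorem wa4_le {ρ : ℝ} (hρ : 0 ≤ ρ) (v : E2) : ENNReal.ofReal (wa ρ 4 v) ≤ dec (ρ • v) := by
  unfold dec wa
  apply ENNReal.ofReal_le_ofReal
  rw [norm_smul, Real.norm_eq_abs, abs_of_nonneg hρ]
  have h0 : 0 ≤ ρ * ‖v‖ := by positivity
  refine inv_anti₀ (by positivity) ?_
  have : (1 + ρ * ‖v‖) ^ 4 = ((1 + ρ * ‖v‖) ^ 2) ^ 2 := by ring
  rw [this]
  refine pow_le_pow_left₀ (by positivity) ?_ 2
  nlinarith

theorem int_wa {ρ : ℝ} (hρ : 0 < ρ) (v : E2) :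
    ENNReal.ofReal (ρ ^ 2) * ∫⁻ x, ENNReal.ofReal (wa ρ 4 (v - x)) ≤ ENNReal.ofReal cdec := by
  calc ENNReal.ofReal (ρ ^ 2) * ∫⁻ x, ENNReal.ofReal (wa ρ 4 (v - x))
      ≤ ENNReal.ofReal (ρ ^ 2) * ∫⁻ x, dec (ρ • (v - x)) :=
        mul_le_mul' le_rfl (lintegral_mono fun x => wa4_le hρ.le _)
    _ = ENNReal.ofReal cdec := by
        rw [lintegral_scale dec v hρ, lintegral_dec, ← mul_assoc, ← ENNReal.ofReal_mul (by positivity),
          mul_inv_cancel₀ (by positivity), ENNReal.ofReal_one, one_mul]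

theorem wa_split {ρ : ℝ} (_hρ : 0 ≤ ρ) (k : ℕ) (v : E2) : wa ρ (k + 4) v = wa ρ k v * wa ρ 4 v := by
  unfold wa
  rw [pow_add, mul_inv]

theorem wa_far {ρ X : ℝ} (hρ : 0 ≤ ρ) (hX : 0 < X) (k : ℕ) {v : E2} (h : X ≤ ρ * ‖v‖) :
    wa ρ (k + 4) v ≤ (X ^ k)⁻¹ * wa ρ 4 v := by
  rw [wa_split hρ]
  refine mul_le_mul_of_nonneg_right ?_ (wa_pos hρ 4 v).le
  unfold wa
  exact inv_anti₀ (by positivity) (pow_le_pow_left₀ hX.le (by linarith) k)

theorem int_far {ρ X : ℝ} (hρ : 0 < ρ) (hX : 0 < X) (k : ℕ) (v : E2) (T : Set E2)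
    (hT : MeasurableSet T) (h : ∀ x ∈ T, X ≤ ρ * ‖v - x‖) :
    ENNReal.ofReal (ρ ^ 2) * ∫⁻ x in T, ENNReal.ofReal (wa ρ (k + 4) (v - x)) ≤
      ENNReal.ofReal (cdec * (X ^ k)⁻¹) := by
  have hc := cdec_nonneg
  calc ENNReal.ofReal (ρ ^ 2) * ∫⁻ x in T, ENNReal.ofReal (wa ρ (k + 4) (v - x))
      ≤ ENNReal.ofReal (ρ ^ 2) * ∫⁻ x in T, ENNReal.ofReal ((X ^ k)⁻¹) * ENNReal.ofReal (wa ρ 4 (v - x)) := by
        refine mul_le_mul' le_rfl (setLIntegral_mono' hT fun x hx => ?_)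
        rw [← ENNReal.ofReal_mul (by positivity)]
        exact ENNReal.ofReal_le_ofReal (wa_far hρ.le hX k (h x hx))
    _ = ENNReal.ofReal ((X ^ k)⁻¹) * (ENNReal.ofReal (ρ ^ 2) *
          ∫⁻ x in T, ENNReal.ofReal (wa ρ 4 (v - x))) := by
        rw [lintegral_const_mul' _ _ ENNReal.ofReal_ne_top, mul_left_comm]
    _ ≤ ENNReal.ofReal ((X ^ k)⁻¹) * ENNReal.ofReal cdec := by
        refine mul_le_mul' le_rfl (le_trans ?_ (int_wa hρ v))
        exact mul_le_mul' le_rfl (setLIntegral_le_lintegral _ _)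
    _ = _ := by rw [← ENNReal.ofReal_mul (by positivity), mul_comm]

theorem wa_anti' {ρ : ℝ} (hρ : 0 ≤ ρ) (k : ℕ) (v : E2) : wa ρ (k + 4) v ≤ wa ρ 4 v := by
  rw [wa_split hρ]
  exact mul_le_of_le_one_left (wa_pos hρ 4 v).le (wa_le_one hρ k v)

/-- the sum of the weights of a disjoint family (one frame) is bounded. -/
theorem wE_sum {κ : Type*} (J : Finset κ) {ρ ρ' : ℝ} (hρ : 0 < ρ) (hρ' : 0 < ρ') (k : ℕ)
    (S' : κ → ℤ × ℤ → Set E2) (hm : ∀ i ∈ J, ∀ m ∈ caps ρ', MeasurableSet (S' i m))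
    (hd : ∀ i ∈ J, ∀ j ∈ J, i ≠ j → ∀ m, Disjoint (S' i m) (S' j m)) (m : ℤ × ℤ) (v : E2) :
    ∑ i ∈ J, wE (k + 4) ρ ρ' (S' i) m v ≤ ENNReal.ofReal (36 * cdec) := by
  have hc := cdec_nonneg
  unfold wE
  rw [Finset.sum_comm]
  calc ∑ m' ∈ nearS ρ ρ' m, ∑ i ∈ J, ENNReal.ofReal (ρ ^ 2) *
        ∫⁻ x in S' i m', ENNReal.ofReal (wa ρ (k + 4) (v - x))
      ≤ ∑ m' ∈ nearS ρ ρ' m, ENNReal.ofReal cdec := by
        refine Finset.sum_le_sum fun m' hm' => ?_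
        rw [← Finset.mul_sum, ← lintegral_biUnion_finset]
        · refine le_trans (mul_le_mul' le_rfl ((setLIntegral_le_lintegral _ _).trans
            (lintegral_mono fun x => ENNReal.ofReal_le_ofReal (wa_anti' hρ.le k _)))) (int_wa hρ v)
        · intro i hi j hj hij
          exact hd i hi j hj hij m'
        · intro i hi
          exact hm i hi m' (mem_nearS.1 hm').1
    _ = (nearS ρ ρ' m).card * ENNReal.ofReal cdec := by
        rw [Finset.sum_const, nsmul_eq_mul]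
    _ ≤ _ := by
        rw [ENNReal.ofReal_mul (by norm_num), ENNReal.ofReal_ofNat]
        refine mul_le_mul' ?_ le_rfl
        exact_mod_cast card_nearS hρ' m

theorem wE_le {ρ ρ' : ℝ} (hρ : 0 < ρ) (hρ' : 0 < ρ') (k : ℕ) (S' : ℤ × ℤ → Set E2)
    (hm : ∀ m ∈ caps ρ', MeasurableSet (S' m)) (m : ℤ × ℤ) (v : E2) :
    wE (k + 4) ρ ρ' S' m v ≤ ENNReal.ofReal (36 * cdec) := by
  have := wE_sum ({()} : Finset Unit) hρ hρ' k (fun _ => S') (fun _ _ => hm)
    (fun i _ j _ hij => absurd rfl hij) m v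
  simpa using this

theorem wE_shift {ρ ρ' δ : ℝ} (hρ : 0 ≤ ρ) (hδ : 0 ≤ δ) (n : ℕ) (S' : ℤ × ℤ → Set E2)
    (m : ℤ × ℤ) {v v' : E2} (h : ρ * ‖v' - v‖ ≤ δ) :
    wE n ρ ρ' S' m v ≤ ENNReal.ofReal ((1 + δ) ^ n) * wE n ρ ρ' S' m v' := by
  unfold wE
  rw [Finset.mul_sum]
  refine Finset.sum_le_sum fun m' _ => ?_
  rw [mul_left_comm]
  refine mul_le_mul' le_rfl ?_
  rw [← lintegral_const_mul' _ _ ENNReal.ofReal_ne_top]
  refine lintegral_mono fun x => ?_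
  rw [← ENNReal.ofReal_mul (by positivity)]
  refine ENNReal.ofReal_le_ofReal (wa_shift hρ hδ n ?_)
  rwa [sub_sub_sub_cancel_right]


end Crest.Agent.R138.Mis330
end

-- ▼ part R138/Mw3_330
section

/-!
# R138 / R139: MIS / ALIGN, wave half, part 3 (helper330): cells of a plate system

`mu` = energy of the part of a plate in a phase space cell; `dmax_cells`, `mass_eq`, `box_cells`.
-/

set_option autoImplicit false
set_option linter.unusedSectionVars false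

open MeasureTheory FourierTransform
open scoped ContDiff ENNReal

namespace Crest.Agent.R138.Mis330

open Crest.Agent.R138.Defs Crest.Agent.R138.Wpk685 Crest.Agent.R138.Loc878
open Crest.Agent.R138.W188 (tr Plate uS)
open Crest.Agent.R138.Ad480
open Crest.Agent.R138.Mis535 (PB)

theorem glip {B : ℕ → ℝ} {h : E2 → ℝ} (hh : ParB B h) (ξ ξ' : E2) :
    ‖gradient h ξ - gradient h ξ'‖ ≤ (1 + |B 2|) * ‖ξ - ξ'‖ :=
  Crest.Agent.R138.Wf448.gradient_lip hh.1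
    (fun ξ => (norm_phase_le hh 2 le_rfl ξ).trans (by linarith [le_abs_self (B 2)])) ξ ξ'

/-! ### cells -/

/-- square of indices -/
noncomputable def kbox (N : ℕ) : Finset (ℤ × ℤ) := Finset.Icc (-(N:ℤ)) N ×ˢ Finset.Icc (-(N:ℤ)) N

theorem kk_mem_kbox {l K : ℝ} (hl : 0 < l) {y : E2} (hy : ‖y‖ ≤ K) {N : ℕ} (hN : K / l + 1 ≤ N) :
    kk l y ∈ kbox N := by
  have key : ∀ i : Fin 2, ⌊y i / l⌋ ∈ Finset.Icc (-(N:ℤ)) N := by
    intro i
    have h1 : |y i| ≤ K := (PiLp.norm_apply_le y i).trans hy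
    have h2 : |y i / l| ≤ K / l := by
      rw [abs_div, abs_of_pos hl]; gcongr
    obtain ⟨h3, h4⟩ := abs_le.1 h2
    have h5 := Int.floor_le (y i / l)
    have h6 := Int.lt_floor_add_one (y i / l)
    rw [Finset.mem_Icc]
    constructor
    · have : (-(N:ℝ)) ≤ ⌊y i / l⌋ := by linarith
      exact_mod_cast this
    · have : ((⌊y i / l⌋ : ℤ) : ℝ) ≤ N := by linarith
      exact_mod_cast this
  unfold kk kbox
  rw [Finset.mem_product]
  exact ⟨key 0, key 1⟩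

/-- the part of the cell `k` in `T`. -/
def pc (l : ℝ) (T : Set E2) (k : ℤ × ℤ) : Set E2 := T ∩ {y | kk l y = k}

theorem pc_meas {l : ℝ} {T : Set E2} (hT : MeasurableSet T) (k : ℤ × ℤ) : MeasurableSet (pc l T k) :=
  hT.inter (cell_meas l k)

theorem split_cells {l K : ℝ} (hl : 0 < l) {T : Set E2} (hT : MeasurableSet T)
    (hb : ∀ y ∈ T, ‖y‖ ≤ K) {N : ℕ} (hN : K / l + 1 ≤ N) (f : E2 → ℝ≥0∞) :
    ∫⁻ y in T, f y = ∑ k ∈ kbox N, ∫⁻ y in pc l T k, f y := by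
  have e : T = ⋃ k ∈ kbox N, pc l T k := by
    ext y
    simp only [pc, Set.mem_iUnion, Set.mem_inter_iff, Set.mem_ofPred_eq, exists_prop]
    constructor
    · intro hy
      exact ⟨kk l y, kk_mem_kbox hl (hb y hy) hN, hy, rfl⟩
    · rintro ⟨k, _, hy, _⟩
      exact hy
  conv_lhs => rw [e]
  rw [lintegral_biUnion_finset]
  · intro k _ k' _ hkk
    rw [Function.onFun, Set.disjoint_left]
    intro y hy hy'
    exact hkk (hy.2.symm.trans hy'.2)
  · exact fun k _ => pc_meas hT k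

/-- energy of the part of the plate `T.1` in the cell `T.2`. -/
noncomputable def muE (ρ l : ℝ) (g : E2 → ℂ) (P : ℕ → Plate) (T : ℕ × Cel) : ℝ≥0∞ :=
  ∫⁻ y in pc l ((P T.1).S T.2.1) T.2.2, ‖um ρ g T.2.1 y‖ₑ ^ 2

/-- real version. -/
noncomputable def mu (ρ l : ℝ) (g : E2 → ℂ) (P : ℕ → Plate) (T : ℕ × Cel) : ℝ :=
  (muE ρ l g P T).toReal

theorem mu_nonneg (ρ l : ℝ) (g : E2 → ℂ) (P : ℕ → Plate) (T : ℕ × Cel) : 0 ≤ mu ρ l g P T :=
  ENNReal.toReal_nonneg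

/-- finiteness. -/
theorem um_fin {ρ : ℝ} (hρ : 0 < ρ) (hρ1 : ρ ≤ 1) {g : E2 → ℂ} (hg : Integrable g)
    (hg2 : MemLp g 2) (S : ℤ × ℤ → Set E2) : en ρ g S ≠ ⊤ := by
  obtain ⟨C, _, hC⟩ := en_le
  refine ne_top_of_le_ne_top ?_ (hC ρ hρ hρ1 g hg hg2 S)
  refine ENNReal.mul_ne_top ENNReal.ofReal_ne_top ?_
  have := hg2.eLpNorm_lt_top
  have h2 := MeasureTheory.lintegral_rpow_enorm_lt_top_of_eLpNorm_lt_top (p := 2) (by norm_num)
    (by norm_num) this
  simpa using h2.ne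

theorem muE_fin {ρ l : ℝ} (hρ : 0 < ρ) (hρ1 : ρ ≤ 1) {g : E2 → ℂ} (hg : Integrable g)
    (hg2 : MemLp g 2) (P : ℕ → Plate) {T : ℕ × Cel} (hT : T.2.1 ∈ caps ρ) :
    muE ρ l g P T ≠ ⊤ := by
  refine ne_top_of_le_ne_top (um_fin hρ hρ1 hg hg2 (fun _ => Set.univ)) ?_
  unfold muE en
  refine le_trans ?_ (Finset.single_le_sum
    (f := fun m => ∫⁻ x in (Set.univ : Set E2), ‖um ρ g m x‖ₑ ^ 2) (fun _ _ => zero_le) hT)
  exact lintegral_mono_set (Set.subset_univ _)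

theorem ofReal_mu {ρ l : ℝ} (hρ : 0 < ρ) (hρ1 : ρ ≤ 1) {g : E2 → ℂ} (hg : Integrable g)
    (hg2 : MemLp g 2) (P : ℕ → Plate) {T : ℕ × Cel} (hT : T.2.1 ∈ caps ρ) :
    ENNReal.ofReal (mu ρ l g P T) = muE ρ l g P T :=
  ENNReal.ofReal_toReal (muE_fin hρ hρ1 hg hg2 P hT)

/-- all cells. -/
noncomputable def TI (ρ : ℝ) (N : ℕ) (I : Finset ℕ) : Finset (ℕ × Cel) :=
  I ×ˢ (caps ρ ×ˢ kbox N)

theorem mem_TI {ρ : ℝ} {N : ℕ} {I : Finset ℕ} {T : ℕ × Cel} :
    T ∈ TI ρ N I ↔ T.1 ∈ I ∧ T.2.1 ∈ caps ρ ∧ T.2.2 ∈ kbox N := by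
  unfold TI
  rw [Finset.mem_product, Finset.mem_product]

/-- sum over the cells of one plate. -/
theorem mass_plate {ρ l K : ℝ} (hl : 0 < l) {g : E2 → ℂ} {P : ℕ → Plate} {a : ℕ}
    (hm : ∀ m, MeasurableSet ((P a).S m)) (hb : ∀ m, ∀ y ∈ (P a).S m, ‖y‖ ≤ K) {N : ℕ}
    (hN : K / l + 1 ≤ N) :
    ∑ x ∈ caps ρ ×ˢ kbox N, muE ρ l g P (a, x) = en ρ g (P a).S := by
  unfold en muE
  rw [Finset.sum_product]
  exact Finset.sum_congr rfl fun m _ => (split_cells hl (hm m) (hb m) hN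
    (fun y => ‖um ρ g m y‖ₑ ^ 2)).symm

/-- the energy of a disjoint family of plates. -/
theorem en_uS {ρ : ℝ} {g : E2 → ℂ} {I : Finset ℕ} {P : ℕ → Plate}
    (hm : ∀ a ∈ I, ∀ m, MeasurableSet ((P a).S m))
    (hd : ∀ a ∈ I, ∀ a' ∈ I, a ≠ a' → ∀ m, Disjoint ((P a).S m) ((P a').S m)) :
    en ρ g (uS I P) = ∑ a ∈ I, en ρ g (P a).S := by
  unfold en uS
  rw [Finset.sum_comm]
  refine Finset.sum_congr rfl fun m _ => ?_
  rw [lintegral_biUnion_finset]
  · intro a ha a' ha' hne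
    exact hd a ha a' ha' hne m
  · exact fun a ha => hm a ha m

theorem mass_all {ρ l K : ℝ} (hl : 0 < l) {g : E2 → ℂ} {I : Finset ℕ} {P : ℕ → Plate}
    (hm : ∀ a ∈ I, ∀ m, MeasurableSet ((P a).S m))
    (hd : ∀ a ∈ I, ∀ a' ∈ I, a ≠ a' → ∀ m, Disjoint ((P a).S m) ((P a').S m))
    (hb : ∀ a ∈ I, ∀ m, ∀ y ∈ (P a).S m, ‖y‖ ≤ K) {N : ℕ} (hN : K / l + 1 ≤ N) :
    ∑ T ∈ TI ρ N I, muE ρ l g P T = en ρ g (uS I P) := by
  rw [en_uS hm hd]
  unfold TI
  rw [Finset.sum_product]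
  exact Finset.sum_congr rfl fun a ha => mass_plate hl (hm a ha) (hb a ha) hN

/-- finite subadditivity over a cover of the domain. -/
theorem lint_cover {κ : Type*} (J : Finset κ) (U : Set E2) (V : κ → Set E2)
    (h : ∀ y ∈ U, ∃ j ∈ J, y ∈ V j) (f : E2 → ℝ≥0∞) :
    ∫⁻ y in U, f y ≤ ∑ j ∈ J, ∫⁻ y in V j, f y := by
  classical
  have h1 : U ⊆ ⋃ j : {j // j ∈ J}, V j.1 := by
    intro y hy
    obtain ⟨j, hj, hyj⟩ := h y hy
    exact Set.mem_iUnion.2 ⟨⟨j, hj⟩, hyj⟩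
  refine (lintegral_mono_set h1).trans ((lintegral_iUnion_le _ _).trans ?_)
  rw [tsum_fintype, ← Finset.sum_coe_sort J (fun j => ∫⁻ y in V j, f y)]

open Classical in
/-- **dmax for cells**. -/
theorem dmax_cells {q : ℝ} {h : E2 → ℝ} {r : ℝ} (hr : 1 ≤ r) {g : E2 → ℂ} {I : Finset ℕ}
    {P : ℕ → Plate} (hm : ∀ a ∈ I, ∀ m, MeasurableSet ((P a).S m))
    (hd : ∀ a ∈ I, ∀ a' ∈ I, a ≠ a' → ∀ m, Disjoint ((P a).S m) ((P a').S m)) {D : ℝ} (hD : 0 ≤ D)
    (hdens : Dens q h r g (uS I P) D) (N : ℕ) (c0 : E2) (b : OrthonormalBasis (Fin 2) ℝ E2)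
    (s : Fin 2 → ℝ) (y0 : E2) (hs : ∀ i, r ^ (-(1/2) : ℝ) ≤ s i ∧ s i ≤ 1) :
    ∑ T ∈ (TI (r ^ (-(1/2) : ℝ)) N I).filter (fun T => PB r b (s 0) (s 1) c0 y0
        (gradient h (cen (r ^ (-(1/2) : ℝ)) T.2.1)) (cen (r ^ (-(1/2) : ℝ) * r) T.2.2)),
      muE (r ^ (-(1/2) : ℝ)) (r ^ (-(1/2) : ℝ) * r) g P T ≤
    ENNReal.ofReal (49 * D * (max (s 0) (s 1)) ^ q * (s 0 * s 1 * r ^ 2)) := by
  obtain ⟨hρ, hρ1, hρ2⟩ := rp_facts hr
  have hr0 : 0 < r := by linarith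
  have hdens' := fun (y1 : E2) => hdens c0 b s y1 hs
  have hpb : ∀ m y1, pbox h r c0 b s y1 m =
    {y | (∀ i, |inner ℝ (gradient h (cen (r ^ (-(1/2) : ℝ)) m) - c0) (b i)| ≤ s i) ∧
    ∀ i, |inner ℝ (y - y1) (b i)| ≤ s i * r} := fun m y1 => rfl
  set ρ : ℝ := r ^ (-(1/2) : ℝ) with hρdef
  set l : ℝ := ρ * r with hl
  have hl0 : 0 < l := by positivity
  have hs0 : ∀ i, 0 < s i := fun i => hρ.trans_le (hs i).1
  set J : Finset (ℤ × ℤ) := Finset.Icc (-⌈(5/2:ℝ)⌉) ⌈(5/2:ℝ)⌉ ×ˢ Finset.Icc (-⌈(5/2:ℝ)⌉) ⌈(5/2:ℝ)⌉ with hJ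
  have hJc : (J.card : ℝ≥0∞) = ENNReal.ofReal 49 := by
    have h3 : ⌈(5/2:ℝ)⌉ = 3 := by
      rw [Int.ceil_eq_iff]; norm_num
    rw [hJ, Finset.card_product, h3, ENNReal.ofReal_ofNat]
    rfl
  -- the translated boxes
  set yj : ℤ × ℤ → E2 := fun j => y0 + sh b ![2 * (j : ℤ × ℤ).1 * (s 0 * r), 2 * j.2 * (s 1 * r)] with hyj
  set Q : ℕ × Cel → Prop := fun T => PB r b (s 0) (s 1) c0 y0 (gradient h (cen ρ T.2.1)) (cen l T.2.2) with hQ
  -- per cap
  have key : ∀ m ∈ caps ρ, ∑ a ∈ I, ∑ k ∈ kbox N, (if Q (a, (m, k)) then muE ρ l g P (a, (m, k)) else 0) ≤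
      ∑ j ∈ J, ∫⁻ y in uS I P m ∩ pbox h r c0 b s (yj j) m, ‖um ρ g m y‖ₑ ^ 2 := by
    intro m _
    set U : Set E2 := ⋃ x ∈ (I ×ˢ kbox N).filter (fun x => Q (x.1, (m, x.2))), pc l ((P x.1).S m) x.2 with hU
    have e1 : ∑ a ∈ I, ∑ k ∈ kbox N, (if Q (a, (m, k)) then muE ρ l g P (a, (m, k)) else 0) =
        ∫⁻ y in U, ‖um ρ g m y‖ₑ ^ 2 := by
      rw [hU, lintegral_biUnion_finset, ← Finset.sum_product', Finset.sum_filter]
      · rfl
      · intro x hx x' hx' hne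
        rw [Function.onFun, Set.disjoint_left]
        intro y hy hy'
        have hx1 := (Finset.mem_product.1 (Finset.mem_filter.1 (Finset.mem_coe.1 hx)).1).1
        have hx2 := (Finset.mem_product.1 (Finset.mem_filter.1 (Finset.mem_coe.1 hx')).1).1
        by_cases ha : x.1 = x'.1
        · exact hne (Prod.ext ha (hy.2.symm.trans hy'.2))
        · exact Set.disjoint_left.1 (hd x.1 hx1 x'.1 hx2 ha m) hy.1 hy'.1
      · intro x hx
        have hx1 := (Finset.mem_product.1 (Finset.mem_filter.1 hx).1).1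
        exact pc_meas (hm x.1 hx1 m) x.2
    rw [e1]
    refine lint_cover J U _ ?_ _
    intro y hy
    simp only [hU, Set.mem_iUnion, Finset.mem_filter, Finset.mem_product, exists_prop] at hy
    obtain ⟨x, ⟨⟨hx1, _⟩, hx3⟩, hy1, hy2⟩ := hy
    have hk := kk_dist hl0 y
    have hy2' : kk l y = x.2 := hy2
    rw [hy2'] at hk
    obtain ⟨q1, q2, q3, q4⟩ := hx3
    have hin : ∀ i, |inner ℝ (y - y0) (b i)| ≤ 5/2 * (s i * r) := by
      intro i
      have e : y - y0 = (y - cen l x.2) + (cen l x.2 - y0) := by abel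
      rw [e, inner_add_left]
      have h1 : |inner ℝ (y - cen l x.2) (b i)| ≤ 3 / 2 * (s i * r) := by
        refine (abs_real_inner_le_norm _ _).trans ?_
        rw [b.orthonormal.1 i, mul_one]
        refine hk.trans ?_
        have : l ≤ s i * r := by rw [hl]; exact mul_le_mul_of_nonneg_right (hs i).1 hr0.le
        linarith
      have h2 : |inner ℝ (cen l x.2 - y0) (b i)| ≤ s i * r := by
        fin_cases i
        · exact q3
        · exact q4
      have := abs_add_le (inner ℝ (y - cen l x.2) (b i)) (inner ℝ (cen l x.2 - y0) (b i))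
      linarith
    obtain ⟨j, hj, hj2⟩ := near_shift (K := 5/2) (by norm_num) b (s := fun i => s i * r)
      (fun i => mul_pos (hs0 i) hr0) (y - y0) hin
    refine ⟨j, hj, ?_, ?_⟩
    · unfold uS
      exact Set.mem_biUnion hx1 hy1
    · rw [hpb]
      refine ⟨?_, ?_⟩
      · intro i
        fin_cases i
        · exact q1
        · exact q2
      · intro i
        have e : y - yj j = y - y0 - sh b ![2 * (j : ℤ × ℤ).1 * (s 0 * r), 2 * j.2 * (s 1 * r)] := by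
          rw [hyj]; exact sub_add_eq_sub_sub _ _ _
        rw [e]
        exact hj2 i
  calc ∑ T ∈ (TI ρ N I).filter Q, muE ρ l g P T
      = ∑ m ∈ caps ρ, ∑ a ∈ I, ∑ k ∈ kbox N,
          (if Q (a, (m, k)) then muE ρ l g P (a, (m, k)) else 0) := by
        rw [Finset.sum_filter]
        unfold TI
        rw [Finset.sum_product]
        simp_rw [Finset.sum_product]
        rw [Finset.sum_comm]
    _ ≤ ∑ m ∈ caps ρ, ∑ j ∈ J, ∫⁻ y in uS I P m ∩ pbox h r c0 b s (yj j) m, ‖um ρ g m y‖ₑ ^ 2 :=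
        Finset.sum_le_sum key
    _ = ∑ j ∈ J, en ρ g (fun m => uS I P m ∩ pbox h r c0 b s (yj j) m) := by
        rw [Finset.sum_comm]
        rfl
    _ ≤ ∑ j ∈ J, ENNReal.ofReal (D * (max (s 0) (s 1)) ^ q * (s 0 * s 1 * r ^ 2)) :=
        Finset.sum_le_sum fun j _ => hdens' (yj j)
    _ = _ := by
        rw [Finset.sum_const, nsmul_eq_mul, hJc, ← ENNReal.ofReal_mul (by norm_num)]
        congr 1; ring

end Crest.Agent.R138.Mis330
end

-- ▼ part R138/Mw4_330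

/-!
# R138 / R139: MIS / ALIGN, wave half, part 4 (helper330): near and far cells of the child plates
-/

set_option autoImplicit false
set_option linter.unusedSectionVars false
set_option linter.unusedVariables false

open MeasureTheory FourierTransform
open scoped ContDiff ENNReal

namespace Crest.Agent.R138.Mis330

open Crest.Agent.R138.Defs Crest.Agent.R138.Wpk685 Crest.Agent.R138.Loc878
open Crest.Agent.R138.W188 (tr Plate uS Plates)
open Crest.Agent.R138.Ad480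
open Crest.Agent.R138.Mis535 (PB)
open Crest.Agent.R138.P654 (an Smis selQ)

/-- sum of the weights of a disjoint family far from `v`. -/
theorem wE_sum_far {κ : Type*} (J : Finset κ) {ρ ρ' X : ℝ} (hρ : 0 < ρ) (hρ' : 0 < ρ')
    (hX : 0 < X) (k : ℕ)
    (S' : κ → ℤ × ℤ → Set E2) (hm : ∀ i ∈ J, ∀ m ∈ caps ρ', MeasurableSet (S' i m))
    (hd : ∀ i ∈ J, ∀ j ∈ J, i ≠ j → ∀ m, Disjoint (S' i m) (S' j m)) (m : ℤ × ℤ) (v : E2)
    (h : ∀ i ∈ J, ∀ m' ∈ nearS ρ ρ' m, ∀ x ∈ S' i m', X ≤ ρ * ‖v - x‖) :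
    ∑ i ∈ J, wE (k + 4) ρ ρ' (S' i) m v ≤ ENNReal.ofReal (36 * cdec * (X ^ k)⁻¹) := by
  have hc := cdec_nonneg
  unfold wE
  rw [Finset.sum_comm]
  calc ∑ m' ∈ nearS ρ ρ' m, ∑ i ∈ J, ENNReal.ofReal (ρ ^ 2) *
        ∫⁻ x in S' i m', ENNReal.ofReal (wa ρ (k + 4) (v - x))
      ≤ ∑ m' ∈ nearS ρ ρ' m, ENNReal.ofReal (cdec * (X ^ k)⁻¹) := by
        refine Finset.sum_le_sum fun m' hm' => ?_
        have hmm : ∀ i ∈ J, MeasurableSet (S' i m') := fun i hi => hm i hi m' (mem_nearS.1 hm').1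
        rw [← Finset.mul_sum, ← lintegral_biUnion_finset]
        · refine int_far hρ hX k v _ (Finset.measurableSet_biUnion _ hmm) ?_
          intro x hx
          simp only [Set.mem_iUnion, exists_prop] at hx
          obtain ⟨i, hi, hxi⟩ := hx
          exact h i hi m' hm' x hxi
        · intro i hi j hj hij
          exact hd i hi j hj hij m'
        · exact hmm
    _ = (nearS ρ ρ' m).card * ENNReal.ofReal (cdec * (X ^ k)⁻¹) := by
        rw [Finset.sum_const, nsmul_eq_mul]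
    _ ≤ _ := by
        have e : ENNReal.ofReal (36 * cdec * (X ^ k)⁻¹) = 36 * ENNReal.ofReal (cdec * (X ^ k)⁻¹) := by
          rw [mul_assoc, ENNReal.ofReal_mul (by norm_num : (0:ℝ) ≤ 36), ENNReal.ofReal_ofNat]
        rw [e]
        refine mul_le_mul' ?_ le_rfl
        exact_mod_cast card_nearS hρ' m

open Classical in
theorem sum_frames (I : Finset ℕ) (z : ℕ → E2 × ℝ) (f : ℕ → ℝ≥0∞) (c : ℝ≥0∞)
    (h : ∀ ζ ∈ I.image z, ∑ i ∈ I with z i = ζ, f i ≤ c) :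
    ∑ i ∈ I, f i ≤ (I.image z).card * c := by
  rw [← Finset.sum_fiberwise_of_maps_to (t := I.image z) (g := z)
    (fun i hi => Finset.mem_image_of_mem z hi)]
  refine (Finset.sum_le_sum h).trans (le_of_eq ?_)
  rw [Finset.sum_const, nsmul_eq_mul]

section

variable {A : ℝ} {h : E2 → ℝ} {r1 dl s1 s2 : ℝ} {I : Finset ℕ} {P : ℕ → Plate}

theorem card_frames (hr1 : 0 < r1) (hdl : 0 < dl) (hdl1 : dl ≤ 1)
    (hP : Plates A h (dl * r1) s1 s2 r1 I P) :
    (((I.image fun i => (P i).z).card : ℕ) : ℝ≥0∞) ≤ ENNReal.ofReal (216 * (dl⁻¹) ^ 3) := by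
  classical
  have h1 := Crest.Agent.R138.W323.card_net (R := r1) (r := dl * r1) (by positivity)
    (by nlinarith) (I.image fun i => (P i).z) ?_ ?_
  · have e : r1 / (dl * r1) = dl⁻¹ := by field_simp
    rw [e] at h1
    rw [← ENNReal.ofReal_natCast]
    exact ENNReal.ofReal_le_ofReal h1
  · intro z hz
    obtain ⟨i, hi, rfl⟩ := Finset.mem_image.1 hz
    exact hP.mem i hi
  · intro z hz z' hz'
    obtain ⟨i, hi, rfl⟩ := Finset.mem_image.1 hz
    obtain ⟨j, hj, rfl⟩ := Finset.mem_image.1 hz'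
    exact hP.sep i hi j hj

/-- the point seen from the cell `x` in the frame `z`. -/
noncomputable def vv (h : E2 → ℝ) (ρ l : ℝ) (z : E2 × ℝ) (x : Cel) : E2 :=
  cen l x.2 - z.1 - z.2 • gradient h (cen ρ x.1)

/-- weight of the child plate `i` on the cell `x`. -/
noncomputable def wT (n : ℕ) (h : E2 → ℝ) (ρ ρ' l : ℝ) (P : ℕ → Plate) (i : ℕ) (x : Cel) : ℝ≥0∞ :=
  wE n ρ ρ' (P i).S x.1 (vv h ρ l (P i).z x)

/-- centre of the box of the child plate at time zero. -/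
noncomputable def yP (P : ℕ → Plate) (i : ℕ) : E2 := (P i).x + (P i).z.1 + (P i).z.2 • (P i).c

/-- the cell lies in the dilated box of the child plate. -/
def NB (h : E2 → ℝ) (ρ l r1 K s1 s2 : ℝ) (P : ℕ → Plate) (i : ℕ) (x : Cel) : Prop :=
  PB r1 (P i).b (K * s1) (K * s2) (P i).c (yP P i) (gradient h (cen ρ x.1)) (cen l x.2)

theorem tot_wT (hr1 : 0 < r1) (hdl : 0 < dl) (hdl1 : dl ≤ 1)
    (hP : Plates A h (dl * r1) s1 s2 r1 I P) {ρ ρ' l : ℝ} (hρ : 0 < ρ) (hρ' : 0 < ρ') (k : ℕ)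
    (x : Cel) :
    ∑ i ∈ I, wT (k + 4) h ρ ρ' l P i x ≤ ENNReal.ofReal (216 * (dl⁻¹) ^ 3 * (36 * cdec)) := by
  classical
  have hc := cdec_nonneg
  refine (sum_frames I (fun i => (P i).z) _ (ENNReal.ofReal (36 * cdec)) ?_).trans ?_
  · intro ζ _
    have h1 := wE_sum (I.filter fun i => (P i).z = ζ) hρ hρ' k (fun i => (P i).S)
      (fun i hi m _ => hP.meas i (Finset.mem_filter.1 hi).1 m)
      (fun i hi j hj hij m => hP.disj i (Finset.mem_filter.1 hi).1 j (Finset.mem_filter.1 hj).1 hij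
        ((Finset.mem_filter.1 hi).2.trans (Finset.mem_filter.1 hj).2.symm) m) x.1
      (vv h ρ l ζ x)
    refine le_trans (le_of_eq ?_) h1
    refine Finset.sum_congr rfl fun i hi => ?_
    unfold wT
    rw [(Finset.mem_filter.1 hi).2]
  · rw [ENNReal.ofReal_mul (p := 216 * (dl⁻¹) ^ 3) (by positivity)]
    exact mul_le_mul' (card_frames hr1 hdl hdl1 hP) le_rfl

open Classical in
theorem far_wT (hr1 : 0 < r1) (hdl : 0 < dl) (hdl1 : dl ≤ 1)
    (hP : Plates A h (dl * r1) s1 s2 r1 I P) {ρ ρ' l X : ℝ} (hρ : 0 < ρ) (hρ' : 0 < ρ')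
    (hX : 0 < X) (k : ℕ) (x : Cel) (J : Finset ℕ) (hJ : J ⊆ I)
    (hfar : ∀ i ∈ J, ∀ m' ∈ nearS ρ ρ' x.1, ∀ y ∈ (P i).S m', X ≤ ρ * ‖vv h ρ l (P i).z x - y‖) :
    ∑ i ∈ J, wT (k + 4) h ρ ρ' l P i x ≤
      ENNReal.ofReal (216 * (dl⁻¹) ^ 3 * (36 * cdec * (X ^ k)⁻¹)) := by
  have hc := cdec_nonneg
  have hcard : (((J.image fun i => (P i).z).card : ℕ) : ℝ≥0∞) ≤
      ENNReal.ofReal (216 * (dl⁻¹) ^ 3) := by
    refine le_trans ?_ (card_frames hr1 hdl hdl1 hP)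
    exact_mod_cast Finset.card_le_card (Finset.image_subset_image hJ)
  refine (sum_frames J (fun i => (P i).z) _ (ENNReal.ofReal (36 * cdec * (X ^ k)⁻¹)) ?_).trans ?_
  · intro ζ _
    have h1 := wE_sum_far (J.filter fun i => (P i).z = ζ) hρ hρ' hX k (fun i => (P i).S)
      (fun i hi m _ => hP.meas i (hJ (Finset.mem_filter.1 hi).1) m)
      (fun i hi j hj hij m => hP.disj i (hJ (Finset.mem_filter.1 hi).1) j
        (hJ (Finset.mem_filter.1 hj).1) hij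
        ((Finset.mem_filter.1 hi).2.trans (Finset.mem_filter.1 hj).2.symm) m) x.1
      (vv h ρ l ζ x) (fun i hi m' hm' y hy => by
        have := hfar i (Finset.mem_filter.1 hi).1 m' hm' y hy
        rwa [(Finset.mem_filter.1 hi).2] at this)
    refine le_trans (le_of_eq ?_) h1
    refine Finset.sum_congr rfl fun i hi => ?_
    unfold wT
    rw [(Finset.mem_filter.1 hi).2]
  · rw [ENNReal.ofReal_mul (p := 216 * (dl⁻¹) ^ 3) (by positivity)]
    exact mul_le_mul' hcard le_rfl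

/-- cells outside of the dilated box are far from the child plate. -/
theorem far_of_not_NB {B : ℕ → ℝ} (hh : ParB B h) (hA : 0 ≤ A) (hr1 : 1 ≤ r1) (hdl : 0 < dl)
    (hdl1 : dl ≤ 1) (hr' : 1 ≤ dl * r1) (hP : Plates A h (dl * r1) s1 s2 r1 I P)
    (hs : ∀ i : Fin 2, an (dl * r1) ≤ (![s1, s2] : Fin 2 → ℝ) i) {X K : ℝ} (hX : 0 ≤ X)
    (hK : X + 2 * A + 3 * (1 + |B 2|) ≤ K) {i : ℕ} (hi : i ∈ I) {x : Cel}
    (hnb : ¬ NB h (an r1) (an r1 * r1) r1 K s1 s2 P i x) :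
    ∀ m' ∈ nearS (an r1) (an (dl * r1)) x.1, ∀ y ∈ (P i).S m',
      X ≤ an r1 * ‖vv h (an r1) (an r1 * r1) (P i).z x - y‖ := by
  intro m' hm' y hy
  by_contra hlt
  push Not at hlt
  apply hnb
  obtain ⟨hρ, hρ1, hρ2⟩ := rp_facts hr1
  obtain ⟨hρ', hρ'1, hρ'2⟩ := rp_facts hr'
  have hbox := hP.box i hi m' hy
  have hb2 : 0 ≤ |B 2| := abs_nonneg _
  set ρ : ℝ := r1 ^ (-(1/2) : ℝ) with hρdef
  set ρ' : ℝ := (dl * r1) ^ (-(1/2) : ℝ) with hρ'def
  have hanr : an r1 = ρ := rfl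
  have hanr' : an (dl * r1) = ρ' := rfl
  rw [hanr] at hlt ⊢
  rw [hanr, hanr'] at hm'
  have hr0 : 0 < r1 := by linarith
  have hρρ : ρ ≤ ρ' := by
    rw [hρdef, hρ'def]
    exact Real.rpow_le_rpow_of_nonpos (by positivity) (by nlinarith) (by norm_num)
  have hρl : ρ * (ρ * r1) = 1 := by
    have : ρ * (ρ * r1) = ρ ^ 2 * r1 := by ring
    rw [this, hρ2, inv_mul_cancel₀ hr0.ne']
  obtain ⟨hdir, hpos⟩ := hbox
  have hs' : ∀ j : Fin 2, ρ' ≤ (![s1, s2] : Fin 2 → ℝ) j := fun j => hs j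
  -- direction
  have hnear := (mem_nearS.1 hm').2
  have hg : ‖gradient h (cen ρ x.1) - gradient h (cen ρ' m')‖ ≤ (1 + |B 2|) * (3 * ρ') :=
    (glip hh _ _).trans (mul_le_mul_of_nonneg_left (le_of_lt hnear) (by positivity))
  have hdir2 : ∀ j : Fin 2, |inner ℝ (gradient h (cen ρ x.1) - (P i).c) ((P i).b j)| ≤
      (A + 3 * (1 + |B 2|)) * (![s1, s2] : Fin 2 → ℝ) j := by
    intro j
    have e : gradient h (cen ρ x.1) - (P i).c = (gradient h (cen ρ x.1) - gradient h (cen ρ' m')) +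
        (gradient h (cen ρ' m') - (P i).c) := by abel
    rw [e, inner_add_left]
    have a1 : |inner ℝ (gradient h (cen ρ x.1) - gradient h (cen ρ' m')) ((P i).b j)| ≤
        (1 + |B 2|) * (3 * ρ') := by
      refine (abs_real_inner_le_norm _ _).trans ?_
      rw [(P i).b.orthonormal.1 j, mul_one]
      exact hg
    have a2 := hdir j
    have a3 := abs_add_le (inner ℝ (gradient h (cen ρ x.1) - gradient h (cen ρ' m')) ((P i).b j))
      (inner ℝ (gradient h (cen ρ' m') - (P i).c) ((P i).b j))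
    have a4 : (1 + |B 2|) * (3 * ρ') ≤ 3 * (1 + |B 2|) * (![s1, s2] : Fin 2 → ℝ) j := by
      have := mul_le_mul_of_nonneg_left (hs' j) (by positivity : 0 ≤ 3 * (1 + |B 2|))
      linarith
    calc _ ≤ _ := a3
      _ ≤ 3 * (1 + |B 2|) * (![s1, s2] : Fin 2 → ℝ) j + A * (![s1, s2] : Fin 2 → ℝ) j := by
          exact add_le_add (a1.trans a4) a2
      _ = _ := by ring
  -- position
  have hzm : |(P i).z.2| ≤ r1 := (hP.mem i hi).2
  have hpos2 : ∀ j : Fin 2, |inner ℝ (cen (ρ * r1) x.2 - yP P i) ((P i).b j)| ≤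
      (X + 2 * A + 3 * (1 + |B 2|)) * (![s1, s2] : Fin 2 → ℝ) j * r1 := by
    intro j
    have hsj := hs' j
    have hsj0 : 0 < (![s1, s2] : Fin 2 → ℝ) j := hρ'.trans_le hsj
    have e : cen (ρ * r1) x.2 - yP P i = (vv h ρ (ρ * r1) (P i).z x - y) + (y - (P i).x) +
        (P i).z.2 • (gradient h (cen ρ x.1) - (P i).c) := by
      unfold yP vv
      rw [smul_sub]
      abel
    rw [e, inner_add_left, inner_add_left, real_inner_smul_left]
    have a1 : |inner ℝ (vv h ρ (ρ * r1) (P i).z x - y) ((P i).b j)| ≤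
        X * (![s1, s2] : Fin 2 → ℝ) j * r1 := by
      refine (abs_real_inner_le_norm _ _).trans ?_
      rw [(P i).b.orthonormal.1 j, mul_one]
      set N : ℝ := ‖vv h ρ (ρ * r1) (P i).z x - y‖ with hN
      have h1 : N = (ρ * r1) * (ρ * N) := by
        calc N = (ρ * (ρ * r1)) * N := by rw [hρl, one_mul]
          _ = _ := by ring
      rw [h1]
      calc (ρ * r1) * (ρ * N) ≤ (ρ * r1) * X := by
            refine mul_le_mul_of_nonneg_left hlt.le (by positivity)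
        _ ≤ ((![s1, s2] : Fin 2 → ℝ) j * r1) * X := by
            refine mul_le_mul_of_nonneg_right ?_ hX
            exact mul_le_mul_of_nonneg_right (hρρ.trans hsj) hr0.le
        _ = _ := by ring
    have a2 : |inner ℝ (y - (P i).x) ((P i).b j)| ≤ A * (![s1, s2] : Fin 2 → ℝ) j * r1 := by
      refine (hpos j).trans ?_
      have : dl * r1 ≤ r1 := by nlinarith
      refine mul_le_mul_of_nonneg_left this (by positivity)
    have a3 : |(P i).z.2 * inner ℝ (gradient h (cen ρ x.1) - (P i).c) ((P i).b j)| ≤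
        (A + 3 * (1 + |B 2|)) * (![s1, s2] : Fin 2 → ℝ) j * r1 := by
      rw [abs_mul, mul_comm]
      exact mul_le_mul (hdir2 j) hzm (abs_nonneg _) (by positivity)
    have b1 := abs_add_le (inner ℝ (vv h ρ (ρ * r1) (P i).z x - y) ((P i).b j) +
      inner ℝ (y - (P i).x) ((P i).b j))
      ((P i).z.2 * inner ℝ (gradient h (cen ρ x.1) - (P i).c) ((P i).b j))
    have b2 := abs_add_le (inner ℝ (vv h ρ (ρ * r1) (P i).z x - y) ((P i).b j))
      (inner ℝ (y - (P i).x) ((P i).b j))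
    calc _ ≤ _ := b1
      _ ≤ (X * (![s1, s2] : Fin 2 → ℝ) j * r1 + A * (![s1, s2] : Fin 2 → ℝ) j * r1) +
          (A + 3 * (1 + |B 2|)) * (![s1, s2] : Fin 2 → ℝ) j * r1 := by
          exact add_le_add (b2.trans (add_le_add a1 a2)) a3
      _ = _ := by ring
  have hs1 : 0 < s1 := hρ'.trans_le (hs' 0)
  have hs2 : 0 < s2 := hρ'.trans_le (hs' 1)
  have hKA : A + 3 * (1 + |B 2|) ≤ K := by linarith
  refine ⟨?_, ?_, ?_, ?_⟩
  · exact (hdir2 0).trans (mul_le_mul_of_nonneg_right hKA hs1.le)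
  · exact (hdir2 1).trans (mul_le_mul_of_nonneg_right hKA hs2.le)
  · refine (hpos2 0).trans (mul_le_mul_of_nonneg_right ?_ hr0.le)
    exact mul_le_mul_of_nonneg_right hK hs1.le
  · refine (hpos2 1).trans (mul_le_mul_of_nonneg_right ?_ hr0.le)
    exact mul_le_mul_of_nonneg_right hK hs2.le

end

end Crest.Agent.R138.Mis330
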