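import Crest.Agent.R138.MkDef_163
import Crest.Agent.R138.ExtP_926
import Crest.Agent.R138.Nx1_638
import Crest.Agent.R138.L15Def_196

-- ▼ part R138/Nx2_638
section

/-!
# R138, TEXT I, L15 (helper638): asymptotics of an `Nat5`

Two-sided bounds for cell lengths, wide widths, precisions, thicknesses and the resolution.
-/

set_option autoImplicit false
set_option linter.unusedVariables false

open Finset Filter Topology

namespace Crest.Agent.R138.Nx638

open Crest.Agent.R138.Ex926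
open Crest.Agent.R138.Flag51 Crest.Agent.R138.Flg101 Crest.Agent.R138.Mk163

noncomputable section

variable {B : Base}


/-- a limit of logarithmic quotients gives two-sided bounds -/
theorem two_sided {a b : ℕ → ℝ} {t : ℝ} (ha : ∀ᶠ n in (U : Filter ℕ), 0 < a n)
    (hb : ∀ᶠ n in (U : Filter ℕ), 0 < b n)
    (h : Tendsto (fun n => Real.log (a n / b n) / B.L n) U (𝓝 t)) {ε : ℝ} (hε : 0 < ε) :
    ∀ᶠ n in (U : Filter ℕ), a n * B.d n ^ (t + ε) ≤ b n ∧ b n ≤ a n * B.d n ^ (t - ε) := by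
  filter_upwards [ha, hb, h.eventually (Icc_mem_nhds (show t - ε < t by linarith)
    (show t < t + ε by linarith))] with n h1 h2 h3
  have hL := B.L_pos n
  obtain ⟨h4, h5⟩ := h3
  rw [le_div_iff₀ hL] at h4
  rw [div_le_iff₀ hL] at h5
  have e1 : b n = a n * Real.exp (-Real.log (a n / b n)) := by
    rw [Real.exp_neg, Real.exp_log (by positivity)]
    field_simp
  have e2 : B.d n ^ (t + ε) = Real.exp (-((t + ε) * B.L n)) := by
    rw [← neg_mul, B.exp_eq]; simp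
  have e3 : B.d n ^ (t - ε) = Real.exp (-((t - ε) * B.L n)) := by
    rw [← neg_mul, B.exp_eq]; simp
  rw [e1, e2, e3]
  constructor
  · refine mul_le_mul_of_nonneg_left (Real.exp_le_exp.2 ?_) h1.le
    linarith
  · refine mul_le_mul_of_nonneg_left (Real.exp_le_exp.2 ?_) h1.le
    linarith

theorem ev_const (B : Base) {C : ℝ} (hC : 0 < C) {ε : ℝ} (hε : 0 < ε) :
    ∀ᶠ n in (U : Filter ℕ), C ≤ B.d n ^ (-ε) := by
  filter_upwards [B.ev_const_log (Real.log C) hε] with n hn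
  rw [← B.exp_eq, ← Real.log_le_iff_le_exp hC]
  exact hn

theorem d_pos (B : Base) (n : ℕ) (t : ℝ) : 0 < B.d n ^ t := Real.rpow_pos_of_pos (B.pos n) t

theorem d_add (B : Base) (n : ℕ) (s t : ℝ) : B.d n ^ (s + t) = B.d n ^ s * B.d n ^ t :=
  Real.rpow_add (B.pos n) s t

theorem d_anti (B : Base) (n : ℕ) {s t : ℝ} (h : s ≤ t) : B.d n ^ t ≤ B.d n ^ s :=
  Real.rpow_le_rpow_of_exponent_ge (B.pos n) (B.lt n).le h

variable {I : ℕ → Finset (ℕ × ℝ)} {L : ℕ → ℕ → Ln} {lev : ℕ → ℚ → ℕ}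
    {r0 A : ℕ → ℝ} {q g : ℝ} {Λ τ : ℝ → ℝ} {f : ℕ → ℚ → ℕ → ℤ → ℕ} {b : ℕ → ℚ → ℕ → Ln}
    {e : ℕ → ℚ → ℕ → E2} {w1 w2 : ℕ → ℚ → ℝ} {fl : ℕ → ℕ × ℝ → E2} {sc : ℕ → ℝ} {k s θ : ℝ}

theorem rho_pos (i : ℕ) : 0 < rho i := by unfold rho; positivity

section MkSec

variable (hM : Mk B I L lev r0 A q g Λ τ f b e w1 w2)
include hM

/-- ratio of cell lengths -/
theorem rho_two {u v : ℚ} (hu : 0 ≤ u) (huv : u ≤ v) (hv : v ≤ 1) {ε : ℝ} (hε : 0 < ε) :
    ∀ᶠ n in (U : Filter ℕ), rho (lev n u) * B.d n ^ ((v : ℝ) - u + ε) ≤ rho (lev n v) ∧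
      rho (lev n v) ≤ rho (lev n u) * B.d n ^ ((v : ℝ) - u - ε) := by
  refine two_sided (Eventually.of_forall fun n => rho_pos _) (Eventually.of_forall fun n => rho_pos _)
    ?_ hε
  refine (hM.lev_lim u v hu huv hv).congr fun n => ?_
  congr 1
  rw [Real.log_div (rho_pos _).ne' (rho_pos _).ne']
  unfold rho
  rw [one_div, one_div, Real.log_inv, Real.log_inv, Real.log_pow, Real.log_pow]
  ring

theorem ev_w {v : ℚ} (hv0 : 0 ≤ v) (hv : v ≤ 1) :
    ∀ᶠ n in (U : Filter ℕ), 0 < w1 n v ∧ 0 < w2 n v := by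
  filter_upwards [hM.dims v hv0 hv] with n hn
  have := hM.rpos n
  exact ⟨by linarith, by linarith⟩

/-- wide angular width of the level `1` -/
theorem w2_two {v : ℚ} (hv0 : 0 ≤ v) (hv : v ≤ 1) {ε : ℝ} (hε : 0 < ε) :
    ∀ᶠ n in (U : Filter ℕ), w2 n 1 / rho (lev n 1) * B.d n ^ (τ v + ε) ≤ w2 n v / rho (lev n v) ∧
      w2 n v / rho (lev n v) ≤ w2 n 1 / rho (lev n 1) * B.d n ^ (τ v - ε) := by
  refine two_sided ?_ ?_ ?_ hε
  · filter_upwards [ev_w hM zero_le_one le_rfl] with n hn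
    exact div_pos hn.2 (rho_pos _)
  · filter_upwards [ev_w hM hv0 hv] with n hn
    exact div_pos hn.2 (rho_pos _)
  · refine (hM.tau v hv0 hv).congr' ?_
    filter_upwards [ev_w hM hv0 hv, ev_w hM zero_le_one le_rfl] with n h1 h2
    congr 2
    have a1 := h1.2.ne'
    have a2 := h2.2.ne'
    have a3 := (rho_pos (lev n v)).ne'
    have a4 := (rho_pos (lev n 1)).ne'
    field_simp

end MkSec

section N5

variable (hN : Nat5 B I L lev r0 A q g f b e w1 w2 fl sc k s θ)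
include hN





end N5

end

end Crest.Agent.R138.Nx638
end

-- ▼ part R138/Nx3_638
section

/-!
# R138, TEXT I, L15 (helper638): D-max for the label classes, finite form (GEO-D)
-/

set_option autoImplicit false
set_option linter.unusedVariables false

open Finset Filter Topology

namespace Crest.Agent.R138.Nx638

open Crest.Agent.R138.Ex926
open Crest.Agent.R138.Flag51 Crest.Agent.R138.Flg101 Crest.Agent.R138.Mk163
open Crest.Agent.R138.Tilt51 (DMax Near)

noncomputable section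

variable {I : Finset (ℕ × ℝ)} {L : ℕ → Ln} {c : Bool} {al sc : ℝ} {fl : ℕ × ℝ → E2}

/-- normalised incidence -/
def nx (c : Bool) (i0 : ℕ) (al sc : ℝ) (L : ℕ → Ln) (fl : ℕ × ℝ → E2) (x : ℕ × ℝ) : Inc :=
  toInc c (2 ^ i0) al sc (L x.1) (sl c (fl x)) x.2

theorem nx_z (i0 : ℕ) (x : ℕ × ℝ) : (nx c i0 al sc L fl x).z = 2 ^ i0 * x.2 := rfl

theorem zc_of_cell {i0 ic iu jc : ℕ} (h : iu ≤ i0 + ic) {x y : ℕ × ℝ}
    (hc : (nx c i0 al sc L fl y).cell ic jc = (nx c i0 al sc L fl x).cell ic jc) :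
    zc iu y.2 = zc iu x.2 := by
  unfold Inc.cell at hc
  rw [Prod.mk.injEq] at hc
  have h1 := hc.1
  rw [nx_z, nx_z, ← mul_assoc, ← mul_assoc, ← pow_add] at h1
  exact floor_nested (by omega) h1

theorem zl_le (i : ℕ) (z : ℝ) : zl i (zc i z) ≤ z := by
  unfold zl zc
  rw [div_le_iff₀ (by positivity)]
  linarith [Int.floor_le ((2 : ℝ) ^ i * z), mul_comm z ((2:ℝ) ^ i)]

theorem lt_zl (i : ℕ) (z : ℝ) : z < zl i (zc i z) + rho i := by
  unfold zl zc rho
  rw [← add_div, lt_div_iff₀ (by positivity)]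
  linarith [Int.lt_floor_add_one ((2 : ℝ) ^ i * z), mul_comm z ((2:ℝ) ^ i)]

open Classical in
/-- incidences of one line in one cell -/
theorem fib_card {iu i1 : ℕ} (hone : ∀ x ∈ I, ∀ y ∈ I, x.1 = y.1 → zc i1 x.2 = zc i1 y.2 → x = y)
    (x : ℕ × ℝ) :
    (I.filter fun y => y.1 = x.1 ∧ zc iu y.2 = zc iu x.2).card ≤ (own I iu i1 x).card := by
  unfold own
  rw [card_image_of_injOn]
  intro a ha b hb hab
  have ha' := mem_filter.1 ha
  have hb' := mem_filter.1 hb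
  exact hone a ha'.1 b hb'.1 (ha'.2.1.trans hb'.2.1.symm) hab

open Classical in
/-- **finite form of GEO-D** -/
theorem class_card {i0 iu i1 ic jc : ℕ} {p : Fin 4 → ℕ} (hal : 0 < al) (hsc : 0 < sc) (hsc1 : sc ≤ 1)
    (h0u : i0 ≤ iu) (huc : iu ≤ i0 + ic)
    (hone : ∀ x ∈ I, ∀ y ∈ I, x.1 = y.1 → zc i1 x.2 = zc i1 y.2 → x = y)
    {Nown : ℝ} (hown : ∀ y ∈ I, ((own I iu i1 y).card : ℝ) ≤ Nown)
    {x : ℕ × ℝ} (hx : x ∈ I) (hfl : dt (fl x) (fl x) = 1) (hch : Ch c (fl x)) {M q r0 : ℝ}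
    (hM : DMax (alive I iu (zc iu x.2)) L (fun _ => 1) (zl iu (zc iu x.2)) (rho iu) M 0 q r0
      (100 * rho iu)) {a1 a2 : ℝ}
    (h1 : al * sc / 2 ^ i0 * ((1 / 2) ^ p 0 + 3 * 2 ^ i0 * rho iu * (1 / 2) ^ p 1) ≤ a1)
    (h2 : 3 * (al / 2 ^ i0 * ((1 / 2) ^ p 3 + 3 * 2 ^ i0 * rho iu * (1 / 2) ^ p 2)) +
      al * sc / 2 ^ i0 * ((1 / 2) ^ p 0 + 3 * 2 ^ i0 * rho iu * (1 / 2) ^ p 1) ≤ a2)
    (hr : r0 ≤ a1) (ha : a1 ≤ a2) (hb : a2 ≤ 100 * rho iu) :
    ((I.filter fun y => (nx c i0 al sc L fl y).lab ic jc p = (nx c i0 al sc L fl x).lab ic jc p).card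
      : ℝ) ≤ M * a1 ^ (1 + 0 : ℝ) * a2 ^ (1 + q) * Nown := by
  set S := I.filter fun y => (nx c i0 al sc L fl y).lab ic jc p = (nx c i0 al sc L fl x).lab ic jc p
    with hS
  set J := zc iu x.2 with hJ
  have hH : (0:ℝ) < 2 ^ i0 := by positivity
  have hSz : ∀ y ∈ S, zc iu y.2 = J := fun y hy =>
    zc_of_cell huc (lab_eq_iff.1 (mem_filter.1 hy).2).1
  set w' := nx c i0 al sc L fl x with hw'
  set n := nrm c (w'.fQ jc * sc) with hn
  -- the corner slope is bounded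
  have hf : 1 + |w'.fQ jc * sc| ≤ 3 := by
    have e1 : |sl c (fl x) / sc - w'.fQ jc| ≤ (1 / 2) ^ jc := abs_sub_fl jc _
    have e2 : w'.fQ jc * sc = sl c (fl x) - sc * (sl c (fl x) / sc - w'.fQ jc) := by
      field_simp; ring
    have e3 : ((1:ℝ) / 2) ^ jc ≤ 1 := pow_le_one₀ (by norm_num) (by norm_num)
    rw [e2]
    have e4 := hch.sl_le hfl
    have e5 : |sc * (sl c (fl x) / sc - w'.fQ jc)| ≤ 1 := by
      rw [abs_mul, abs_of_pos hsc]
      exact mul_le_one₀ hsc1 (abs_nonneg _) (e1.trans e3)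
    have e6 := abs_sub (sl c (fl x)) (sc * (sl c (fl x) / sc - w'.fQ jc))
    linarith
  -- all lines of the class lie in one plank
  have hplank : ∀ y ∈ S, InPlank (L y.1) (L x.1) n a1 a2 (zl iu J) (rho iu) := by
    intro y hy ζ hζ
    have hlab := lab_eq_iff.1 (mem_filter.1 hy).2
    have hD : |2 ^ i0 * ζ - w'.zQ ic| ≤ 3 * 2 ^ i0 * rho iu := by
      have a1 : |2 ^ i0 * x.2 - w'.zQ ic| ≤ (1 / 2) ^ ic := abs_sub_fl ic _
      have a2 : ((1:ℝ) / 2) ^ ic ≤ 2 ^ i0 * rho iu := by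
        unfold rho
        rw [one_div, inv_pow, inv_eq_one_div, mul_one_div, div_le_div_iff₀ (by positivity)
          (by positivity), one_mul, ← pow_add]
        exact pow_le_pow_right₀ (by norm_num) huc
      have a3 : |ζ - x.2| ≤ 2 * rho iu := by
        have b1 := zl_le iu x.2
        have b2 := lt_zl iu x.2
        have b3 := abs_le.1 hζ
        rw [abs_le]
        constructor
        · linarith [b3.1]
        · linarith [b3.2, rho_pos iu]
      have a4 : 2 ^ i0 * ζ - w'.zQ ic = 2 ^ i0 * (ζ - x.2) + (2 ^ i0 * x.2 - w'.zQ ic) := by ring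
      rw [a4]
      refine (abs_add_le _ _).trans ?_
      rw [abs_mul, abs_of_pos hH]
      have := mul_le_mul_of_nonneg_left a3 hH.le
      linarith
    obtain ⟨g1, g2⟩ := G1 (c := c) (H := 2 ^ i0) (l := L y.1) (l' := L x.1) (ph := sl c (fl y))
      (ph' := sl c (fl x)) (z := y.2) (z' := x.2) (r := fun k => (1 / 2) ^ p k) hH hal hsc hlab.1
      (fun k => dist_of_floor (hlab.2 k)) hD
    refine ⟨g1.trans h1, g2.trans (le_trans ?_ h2)⟩
    refine add_le_add ?_ le_rfl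
    refine mul_le_mul_of_nonneg_right hf ?_
    have := rho_pos iu
    positivity
  have hJS : S.image Prod.fst ⊆ (alive I iu J).filter fun t =>
      InPlank (L t) (L x.1) n a1 a2 (zl iu J) (rho iu) := by
    intro t ht
    obtain ⟨y, hy, rfl⟩ := mem_image.1 ht
    refine mem_filter.2 ⟨?_, hplank y hy⟩
    exact mem_image.2 ⟨y, mem_filter.2 ⟨(mem_filter.1 hy).1, hSz y hy⟩, rfl⟩
  have hlines : ((S.image Prod.fst).card : ℝ) ≤ M * a1 ^ (1 + 0 : ℝ) * a2 ^ (1 + q) := by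
    have h3 := hM (L x.1) n a1 a2 (nrm_unit _ _) hr ha hb
    rw [sum_const, nsmul_eq_mul, mul_one] at h3
    exact le_trans (by exact_mod_cast card_le_card hJS) h3
  have hfib : ∀ t ∈ S.image Prod.fst, (((S.filter fun y => y.1 = t).card : ℕ) : ℝ) ≤ Nown := by
    intro t ht
    obtain ⟨y, hy, rfl⟩ := mem_image.1 ht
    refine le_trans ?_ (hown y (mem_filter.1 hy).1)
    have h4 : (S.filter fun y' => y'.1 = y.1) ⊆
        I.filter fun y' => y'.1 = y.1 ∧ zc iu y'.2 = zc iu y.2 := by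
      intro y' hy'
      obtain ⟨h5, h6⟩ := mem_filter.1 hy'
      exact mem_filter.2 ⟨(mem_filter.1 h5).1, h6, (hSz y' h5).trans (hSz y hy).symm⟩
    exact_mod_cast (card_le_card h4).trans (fib_card hone y)
  have hN0 : 0 ≤ Nown := (Nat.cast_nonneg _).trans (hown x hx)
  have hcount : (S.card : ℝ) ≤ ((S.image Prod.fst).card : ℝ) * Nown := by
    have h5 : (S.card : ℝ) = ∑ t ∈ S.image Prod.fst, (((S.filter fun y => y.1 = t).card : ℕ) : ℝ) := by
      rw [← Nat.cast_sum]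
      congr 1
      exact card_eq_sum_card_image Prod.fst S
    rw [h5]
    calc _ ≤ ∑ t ∈ S.image Prod.fst, Nown := sum_le_sum hfib
      _ = _ := by rw [sum_const, nsmul_eq_mul]
  exact hcount.trans (mul_le_mul_of_nonneg_right hlines hN0)

end

end Crest.Agent.R138.Nx638
end

-- ▼ part R138/Nx4_638

/-!
# R138, TEXT I, L15 (helper638): GEO-D
-/

set_option autoImplicit false
set_option linter.unusedVariables false

open Finset Filter Topology

namespace Crest.Agent.R138.Nx638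

open Crest.Agent.R138.Ex926 (Base U flab olab Bx6 LEG QProf mem_LEG half_pow_levc_le le_half_pow_levc
  half_pow_lev_le le_half_pow_lev)
open Crest.Agent.R138.Flag51 Crest.Agent.R138.Flg101 Crest.Agent.R138.Mk163
open Crest.Agent.R138.Tilt51 (DMax Near)
open Crest.Agent.R138.L15

noncomputable section

variable {B : Base} {I : ℕ → Finset (ℕ × ℝ)} {L : ℕ → ℕ → Ln} {lev : ℕ → ℚ → ℕ}
    {r0 A : ℕ → ℝ} {q g : ℝ} {Λ τ : ℝ → ℝ} {f : ℕ → ℚ → ℕ → ℤ → ℕ} {b : ℕ → ℚ → ℕ → Ln}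
    {e : ℕ → ℚ → ℕ → E2} {w1 w2 : ℕ → ℚ → ℝ} {fl : ℕ → ℕ × ℝ → E2} {sc : ℕ → ℝ} {k s θ : ℝ}
    {c : Bool}

section N5

variable (hN : Nat5 B I L lev r0 A q g f b e w1 w2 fl sc k s θ)
include hN

theorem ev_prec {v : ℚ} (hv0 : 0 ≤ v) (hv : v ≤ 1) :
    ∀ᶠ n in (U : Filter ℕ), 0 < prec w1 w2 n v := by
  filter_upwards [ev_w hN.base hv0 hv] with n hn
  exact div_pos hn.1 hn.2

theorem ev_sg : ∀ᶠ n in (U : Filter ℕ), 0 < sg w1 w2 n ∧ sg w1 w2 n ≤ 1 := by
  filter_upwards [ev_prec hN le_rfl zero_le_one, ev_w hN.base le_rfl zero_le_one,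
    hN.base.dims 0 le_rfl zero_le_one] with n h1 h2 h3
  exact ⟨h1, (div_le_one h2.2).2 h3.2.1⟩

theorem ev_WW : ∀ᶠ n in (U : Filter ℕ), 0 < WW lev w2 n ∧ WW lev w2 n ≤ 1 := by
  filter_upwards [ev_w hN.base zero_le_one le_rfl,
    hN.base.dims 1 zero_le_one le_rfl] with n h2 h3
  exact ⟨div_pos h2.2 (rho_pos _), (div_le_one (rho_pos _)).2 h3.2.2⟩

/-- precision relative to level `0` -/
theorem prec_sg {v : ℚ} (hv0 : 0 ≤ v) (hv : v ≤ 1) {ε : ℝ} (hε : 0 < ε) :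
    ∀ᶠ n in (U : Filter ℕ), sg w1 w2 n * B.d n ^ (k * v + ε) ≤ prec w1 w2 n v ∧
      prec w1 w2 n v ≤ sg w1 w2 n * B.d n ^ (k * v - ε) := by
  refine two_sided (ev_prec hN le_rfl zero_le_one) (ev_prec hN hv0 hv) ?_ hε
  have h1 := (hN.pr v hv0 hv).sub (hN.pr 0 le_rfl zero_le_one)
  simp only [Rat.cast_zero, mul_zero, sub_zero] at h1
  refine h1.congr' ?_
  filter_upwards [ev_prec hN le_rfl zero_le_one, ev_prec hN hv0 hv] with n h2 h3
  have h4 := hN.rot.scpos n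
  rw [← sub_div, Real.log_div h4.ne' h3.ne', Real.log_div h4.ne' h2.ne',
    Real.log_div h2.ne' h3.ne']
  congr 1; ring

/-- thickness of the marks -/
theorem w1_sg {v : ℚ} (hv0 : 0 ≤ v) (hv : v ≤ 1) {ε : ℝ} (hε : 0 < ε) :
    ∀ᶠ n in (U : Filter ℕ), w1 n v ≤ sg w1 w2 n * WW lev w2 n * rho (lev n 0) *
      B.d n ^ (v + θ * (1 - v) + k * v - ε) := by
  have h3 : (0 : ℝ) < ε / 3 := by positivity
  filter_upwards [prec_sg hN hv0 hv h3, w2_two hN.base hv0 hv h3, rho_two hN.base le_rfl hv0 hv h3,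
    ev_w hN.base hv0 hv, ev_w hN.base zero_le_one le_rfl, ev_sg hN] with n h1 h2 h3 h4 h5 h6
  have r1 := rho_pos (lev n 1)
  have r2 := rho_pos (lev n v)
  have r3 := rho_pos (lev n 0)
  have e1 : w1 n v = prec w1 w2 n v * (w2 n v / rho (lev n v)) * rho (lev n v) := by
    unfold prec
    have := h4.2.ne'
    field_simp
  have e2 : B.d n ^ ((v : ℝ) + θ * (1 - v) + k * v - ε) =
      B.d n ^ (k * (v : ℝ) - ε / 3) * B.d n ^ (θ * (1 - (v : ℝ)) - ε / 3) *
        B.d n ^ ((v : ℝ) - ((0 : ℚ) : ℝ) - ε / 3) := by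
    rw [← d_add, ← d_add]; congr 1; push_cast; ring
  rw [e1, e2]
  have hs := h6.1.le
  calc prec w1 w2 n v * (w2 n v / rho (lev n v)) * rho (lev n v)
      ≤ (sg w1 w2 n * B.d n ^ (k * (v : ℝ) - ε / 3)) *
        (w2 n 1 / rho (lev n 1) * B.d n ^ (θ * (1 - (v : ℝ)) - ε / 3)) *
        (rho (lev n 0) * B.d n ^ ((v : ℝ) - ((0 : ℚ) : ℝ) - ε / 3)) := by
        have p1 : 0 ≤ prec w1 w2 n v := (div_pos h4.1 h4.2).le
        have p2 : 0 ≤ w2 n v / rho (lev n v) := (div_pos h4.2 r2).le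
        have p3 := (d_pos B n (k * (v : ℝ) - ε / 3)).le
        have p4 := (d_pos B n (θ * (1 - (v : ℝ)) - ε / 3)).le
        have p5 := (div_pos h5.2 r1).le
        gcongr
        · exact h1.2
        · exact h2.2
        · exact h3.2
    _ = _ := by unfold WW; ring

/-- resolution -/
theorem r0_sg {ε : ℝ} (hε : 0 < ε) :
    ∀ᶠ n in (U : Filter ℕ), r0 n ≤ sg w1 w2 n * WW lev w2 n * rho (lev n 0) *
      B.d n ^ (MM k θ - ε) := by
  unfold MM
  rcases le_total (1 + k) θ with h | h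
  · rw [max_eq_right h]
    filter_upwards [w1_sg hN le_rfl zero_le_one hε, hN.base.dims 0 le_rfl zero_le_one] with n h1 h2
    refine (h2.1.trans h1).trans (le_of_eq ?_)
    congr 2; push_cast; ring
  · rw [max_eq_left h]
    filter_upwards [w1_sg hN zero_le_one le_rfl hε, hN.base.dims 1 zero_le_one le_rfl] with n h1 h2
    refine (h2.1.trans h1).trans (le_of_eq ?_)
    congr 2; push_cast; ring

/-- a rational level slightly above the real one (in the tree: coarser) -/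
theorem exists_level {v δ : ℝ} (hv0 : 0 ≤ v) (hv : v ≤ 1) (hδ : 0 < δ) :
    ∃ u : ℚ, 0 ≤ u ∧ (u : ℝ) ≤ v ∧ v - δ ≤ u ∧ u ≤ 1 ∧
      ∀ᶠ n in (U : Filter ℕ), lev n 0 ≤ lev n u ∧ lev n u ≤ lev n 0 + B.levc n v := by
  rcases hv0.eq_or_lt with h | h
  · refine ⟨0, le_rfl, by push_cast; linarith, by push_cast; linarith, zero_le_one, ?_⟩
    exact Eventually.of_forall fun n => ⟨le_rfl, Nat.le_add_right _ _⟩
  · obtain ⟨u, hu1, hu2⟩ := exists_rat_btwn (max_lt (show v - δ < v by linarith) h)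
    have hu0 : (0 : ℝ) ≤ u := ((le_max_right _ _).trans hu1.le)
    have hu0' : (0 : ℚ) ≤ u := by exact_mod_cast hu0
    have hu1' : u ≤ 1 := by
      have : (u : ℝ) ≤ 1 := by linarith
      exact_mod_cast this
    refine ⟨u, hu0', hu2.le, (le_max_left _ _).trans hu1.le, hu1', ?_⟩
    have hlim := hN.base.lev_lim 0 u le_rfl hu0' hu1'
    rw [Rat.cast_zero, sub_zero] at hlim
    filter_upwards [hN.base.lev_mono 0 u le_rfl hu0' hu1', hlim.eventually_lt_const hu2] with n h1 h2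
    refine ⟨h1, ?_⟩
    have hL := B.L_pos n
    have hl2 : 0 < Real.log 2 := Real.log_pos (by norm_num)
    rw [div_lt_iff₀ hL] at h2
    have h3 : v * B.L n / Real.log 2 ≤ (B.levc n v : ℝ) := Nat.le_ceil _
    rw [div_le_iff₀ hl2] at h3
    have h4 : ((lev n u : ℝ) - lev n 0) * Real.log 2 < (B.levc n v : ℝ) * Real.log 2 := by linarith
    have h5 := lt_of_mul_lt_mul_right h4 hl2.le
    have h6 : (lev n u : ℝ) < lev n 0 + B.levc n v := by linarith
    exact_mod_cast h6.le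

end N5

open Classical in
set_option maxHeartbeats 2000000 in
/-- GEO-D for one label class -/
theorem geoD_lab (hJ : NatJ B I L lev r0 A q g f b e w1 w2 fl sc k s θ c) {v l nn r : ℝ}
    (hv0 : 0 ≤ v) (hv : v ≤ 1) (hl : 0 ≤ l) (hln : l ≤ nn) (hM : v + nn ≤ MM k θ)
    {ε : ℝ} (hε : 0 < ε) : ∀ᶠ n in (U : Filter ℕ), ∀ x ∈ I n,
    (((I n).filter fun y =>
      (xx L lev w1 w2 fl c n y).lab (B.levc n v) (B.levc n r)
        ![B.lev n (v + nn), B.levc n nn, B.levc n l, B.lev n (v + l)] =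
      (xx L lev w1 w2 fl c n x).lab (B.levc n v) (B.levc n r)
        ![B.lev n (v + nn), B.levc n nn, B.levc n l, B.lev n (v + l)]).card : ℝ) ≤
      N0 lev A q w1 w2 n * B.d n ^ (-(bex s (2 * s + g) q v l nn + ε)) := by
  have hN := hJ.nat
  have hMk := hN.base
  have hs1 : 0 ≤ s ∧ s ≤ 1 := by
    have := hMk.lam 0 1 le_rfl zero_le_one le_rfl
    constructor <;> linarith [this.1, this.2]
  have hg := hMk.g0
  have hq0 := hMk.q0
  have hq2 := hMk.q2
  set K := 2 * s + g + 3 with hK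
  have hKpos : 0 < K := by linarith
  set ε1 := ε / 24 with hε1
  have hε1pos : 0 < ε1 := by positivity
  obtain ⟨u, hu0, huv, hvu, hu1, hlev⟩ := exists_level hN hv0 hv (δ := ε / (2 * K)) (by positivity)
  have hu0r : (0:ℝ) ≤ u := by exact_mod_cast hu0
  have hu1r : (u:ℝ) ≤ 1 := by exact_mod_cast hu1
  filter_upwards [hlev, rho_two hMk le_rfl hu0 hu1 hε1pos, hMk.one, hMk.own u 1 hu0 hu1 le_rfl ε1 hε1pos,
    hMk.dmax u hu0 hu1 ε1 hε1pos, r0_sg hN hε1pos, hMk.dims u hu0 hu1, ev_const B (by norm_num : (0:ℝ) < 28) hε1pos,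
    ev_sg hN, ev_WW hN] with n h1 h2 h3 h4 h5 h6 h7 h8 h9 h10 x hx
  set ρ0 := rho (lev n 0) with hρ0
  set ρu := rho (lev n u) with hρu
  set al := WW lev w2 n with hal
  set σ := sg w1 w2 n with hσ
  have p0 : 0 < ρ0 := rho_pos _
  have pu : 0 < ρu := rho_pos _
  have pA := hMk.Apos n
  have hdn := B.pos n
  have hH : (2:ℝ) ^ (lev n 0) * ρ0 = 1 := by
    rw [hρ0]; unfold rho; field_simp
  rw [Rat.cast_zero, sub_zero] at h2
  -- `d^v ≤ 2 ρu / ρ0`
  have hdv : B.d n ^ v * ρ0 ≤ 2 * ρu := by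
    have k1 := le_half_pow_levc B n hv0
    have k2 : ((1:ℝ) / 2) ^ (B.levc n v) * ρ0 ≤ ρu := by
      rw [hρ0, hρu]; unfold rho
      rw [one_div, inv_pow, inv_eq_one_div, div_mul_div_comm, one_mul, ← pow_add]
      exact one_div_le_one_div_of_le (by positivity)
        (pow_le_pow_right₀ (by norm_num) (by omega))
    have k3 := mul_le_mul_of_nonneg_right k1 p0.le
    linarith
  have hpl := (d_pos B n l).le
  have hpn := (d_pos B n nn).le
  have hll : B.d n ^ l ≤ 1 := Real.rpow_le_one hdn.le (B.lt n).le hl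
  have hnn : B.d n ^ nn ≤ B.d n ^ l := d_anti B n hln
  -- bounds for the boxes
  have hX : ∀ t : ℝ, ((1:ℝ) / 2) ^ (B.lev n (v + t)) + 3 * 2 ^ (lev n 0) * ρu * (1 / 2) ^ (B.levc n t) ≤
      7 * (2 ^ (lev n 0) * ρu) * B.d n ^ t := by
    intro t
    have k1 := half_pow_lev_le B n (v + t)
    have k2 := half_pow_levc_le B n t
    rw [d_add] at k1
    have k3 : B.d n ^ v ≤ 2 * (2 ^ (lev n 0) * ρu) := by
      have : B.d n ^ v = 2 ^ (lev n 0) * (B.d n ^ v * ρ0) := by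
        rw [mul_left_comm, hH, mul_one]
      rw [this]
      have := mul_le_mul_of_nonneg_left hdv (by positivity : (0:ℝ) ≤ 2 ^ (lev n 0))
      linarith
    have k4 := mul_le_mul_of_nonneg_right k3 (d_pos B n t).le
    have k5 := mul_le_mul_of_nonneg_left k2 (by positivity : (0:ℝ) ≤ 3 * 2 ^ (lev n 0) * ρu)
    linarith
  have hinv : ∀ y : ℝ, y / 2 ^ (lev n 0) = y * ρ0 := by
    intro y
    rw [div_eq_iff (by positivity), mul_assoc, mul_comm ρ0, hH, mul_one]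
  have hσ0 := h9.1
  have hal0 := h10.1
  -- widths
  set a1' := 7 * (al * σ * ρu * B.d n ^ nn) with ha1'
  set a2' := 28 * (al * ρu * B.d n ^ l) with ha2'
  set a1 := max (r0 n) a1' with ha1
  set a2 := max a1 a2' with ha2
  have b1 : al * σ / 2 ^ (lev n 0) * ((1 / 2) ^ (B.lev n (v + nn)) +
      3 * 2 ^ (lev n 0) * ρu * (1 / 2) ^ (B.levc n nn)) ≤ a1' := by
    rw [hinv]
    calc _ ≤ al * σ * ρ0 * (7 * (2 ^ (lev n 0) * ρu) * B.d n ^ nn) :=
          mul_le_mul_of_nonneg_left (hX nn) (by positivity)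
      _ = (2 ^ (lev n 0) * ρ0) * (7 * (al * σ * ρu * B.d n ^ nn)) := by ring
      _ = a1' := by rw [hH, one_mul]
  have b2 : al / 2 ^ (lev n 0) * ((1 / 2) ^ (B.lev n (v + l)) +
      3 * 2 ^ (lev n 0) * ρu * (1 / 2) ^ (B.levc n l)) ≤ 7 * (al * ρu * B.d n ^ l) := by
    rw [hinv]
    calc _ ≤ al * ρ0 * (7 * (2 ^ (lev n 0) * ρu) * B.d n ^ l) :=
          mul_le_mul_of_nonneg_left (hX l) (by positivity)
      _ = (2 ^ (lev n 0) * ρ0) * (7 * (al * ρu * B.d n ^ l)) := by ring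
      _ = _ := by rw [hH, one_mul]
  have b3 : a1' ≤ 7 * (al * ρu * B.d n ^ l) := by
    rw [ha1']
    have : al * σ * ρu * B.d n ^ nn ≤ al * 1 * ρu * B.d n ^ l := by
      gcongr
      exact h9.2
    linarith
  have hmain := class_card (I := I n) (L := L n) (c := c) (al := al) (sc := σ) (fl := fl n)
    (i0 := lev n 0) (iu := lev n u) (i1 := lev n 1) (ic := B.levc n v) (jc := B.levc n r)
    (p := ![B.lev n (v + nn), B.levc n nn, B.levc n l, B.lev n (v + l)]) hal0 hσ0 h9.2 h1.1 h1.2 h3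
    (fun y hy => (h4 y hy).2) hx (hN.unit n x hx) (hJ.slope n x hx) (h5 (zc (lev n u) x.2))
    (a1 := a1) (a2 := a2) (b1.trans (le_max_right _ _))
    (by
      refine le_trans ?_ (le_max_right _ _)
      have b1' := b1.trans b3
      have b2' := b2
      simp only [Matrix.cons_val_zero, Matrix.cons_val_one, Matrix.cons_val]
      rw [ha2']
      linarith)
    (le_max_left _ _) (le_max_left _ _)
    (by
      have k1 : r0 n ≤ ρu := by rw [hρu]; linarith [h7.1, h7.2.1, h7.2.2]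
      have k2 : al * ρu * B.d n ^ l ≤ ρu := by
        calc al * ρu * B.d n ^ l ≤ 1 * ρu * 1 := by
              gcongr
              exact h10.2
          _ = ρu := by ring
      refine max_le (max_le (by linarith) ?_) ?_
      · linarith
      · rw [ha2']; linarith)
  refine hmain.trans ?_
  -- the arithmetic
  have c1 : a1 ≤ al * σ * ρ0 * B.d n ^ (u + nn - 2 * ε1) := by
    refine max_le ?_ ?_
    · refine h6.trans ?_
      have k1 : B.d n ^ (MM k θ - ε1) ≤ B.d n ^ ((u : ℝ) + nn - 2 * ε1) :=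
        d_anti B n (by linarith)
      calc σ * al * ρ0 * B.d n ^ (MM k θ - ε1) ≤ σ * al * ρ0 * B.d n ^ ((u : ℝ) + nn - 2 * ε1) :=
            mul_le_mul_of_nonneg_left k1 (by positivity)
        _ = _ := by ring
    · have k2 : B.d n ^ ((u : ℝ) + nn - 2 * ε1) = B.d n ^ (-ε1) * B.d n ^ ((u : ℝ) - ε1) * B.d n ^ nn := by
        rw [← d_add, ← d_add]; congr 1; ring
      rw [k2, ha1']
      calc 7 * (al * σ * ρu * B.d n ^ nn)
          ≤ B.d n ^ (-ε1) * (al * σ * (ρ0 * B.d n ^ ((u : ℝ) - ε1)) * B.d n ^ nn) := by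
            have k3 : (7:ℝ) ≤ B.d n ^ (-ε1) := by linarith
            have k4 := h2.2
            have k5 : al * σ * ρu * B.d n ^ nn ≤ al * σ * (ρ0 * B.d n ^ ((u : ℝ) - ε1)) * B.d n ^ nn := by
              gcongr
            exact mul_le_mul k3 k5 (by positivity) (by linarith)
        _ = _ := by ring
  have c2 : a2 ≤ al * ρ0 * B.d n ^ (u + l - 2 * ε1) := by
    refine max_le ?_ ?_
    · refine c1.trans ?_
      have k1 : B.d n ^ ((u : ℝ) + nn - 2 * ε1) ≤ B.d n ^ ((u : ℝ) + l - 2 * ε1) :=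
        d_anti B n (by linarith)
      calc al * σ * ρ0 * B.d n ^ ((u : ℝ) + nn - 2 * ε1) ≤ al * 1 * ρ0 * B.d n ^ ((u : ℝ) + l - 2 * ε1) := by
            have := (d_pos B n ((u : ℝ) + nn - 2 * ε1)).le
            gcongr
            exact h9.2
        _ = _ := by ring
    · have k2 : B.d n ^ ((u : ℝ) + l - 2 * ε1) = B.d n ^ (-ε1) * B.d n ^ ((u : ℝ) - ε1) * B.d n ^ l := by
        rw [← d_add, ← d_add]; congr 1; ring
      rw [k2, ha2']
      calc 28 * (al * ρu * B.d n ^ l)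
          ≤ B.d n ^ (-ε1) * (al * (ρ0 * B.d n ^ ((u : ℝ) - ε1)) * B.d n ^ l) := by
            have k4 := h2.2
            have k5 : al * ρu * B.d n ^ l ≤ al * (ρ0 * B.d n ^ ((u : ℝ) - ε1)) * B.d n ^ l := by
              gcongr
            exact mul_le_mul h8 k5 (by positivity) (by linarith)
        _ = _ := by ring
  have ha10 : 0 < a1 := lt_of_lt_of_le (hMk.rpos n) (le_max_left _ _)
  have ha20 : 0 < a2 := lt_of_lt_of_le ha10 (le_max_left _ _)
  have c3 : amp B lev A q g (fun v => s * v) n u ≤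
      A n * B.d n ^ (-(2 * (s * u) + g * u)) * (ρ0 ^ (-q) * B.d n ^ (-(q * (u + ε1)))) := by
    unfold amp
    refine mul_le_mul_of_nonneg_left ?_ (by have := d_pos B n (-(2 * (s * u) + g * u)); positivity)
    have k1 := h2.1
    have k2 : (ρ0 * B.d n ^ ((u:ℝ) + ε1)) ^ (-q) = ρ0 ^ (-q) * B.d n ^ (-(q * (u + ε1))) := by
      rw [Real.mul_rpow p0.le (d_pos B n _).le, ← Real.rpow_mul hdn.le]
      congr 2; ring
    rw [← k2]
    exact Real.rpow_le_rpow_of_nonpos (by have := d_pos B n ((u:ℝ) + ε1); positivity) k1 (by linarith)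
  have c4 : a1 ^ (1 + 0 : ℝ) ≤ al * σ * ρ0 * B.d n ^ (u + nn - 2 * ε1) := by
    rw [add_zero, Real.rpow_one]; exact c1
  have c5 : a2 ^ (1 + q) ≤ (al * ρ0) ^ (1 + q) * B.d n ^ ((u + l - 2 * ε1) * (1 + q)) := by
    have k1 : (al * ρ0 * B.d n ^ ((u:ℝ) + l - 2 * ε1)) ^ (1 + q) =
        (al * ρ0) ^ (1 + q) * B.d n ^ ((u + l - 2 * ε1) * (1 + q)) := by
      rw [Real.mul_rpow (by positivity) (d_pos B n _).le, ← Real.rpow_mul hdn.le]
    rw [← k1]
    exact Real.rpow_le_rpow ha20.le c2 (by linarith)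
  have hamp : 0 ≤ amp B lev A q g (fun v => s * v) n u := by
    unfold amp
    have := d_pos B n (-(2 * (s * u) + g * u))
    have := Real.rpow_pos_of_pos pu (-q)
    positivity
  have hown : (0:ℝ) ≤ B.d n ^ (-(((1 : ℚ) : ℝ) - u) + (s * ((1 : ℚ) : ℝ) - s * u) - ε1) :=
    (d_pos B n _).le
  calc B.d n ^ (-ε1) * amp B lev A q g (fun v => s * v) n u * a1 ^ (1 + 0 : ℝ) * a2 ^ (1 + q) *
        B.d n ^ (-(((1 : ℚ) : ℝ) - u) + (s * ((1 : ℚ) : ℝ) - s * u) - ε1)
      ≤ B.d n ^ (-ε1) * (A n * B.d n ^ (-(2 * (s * u) + g * u)) *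
          (ρ0 ^ (-q) * B.d n ^ (-(q * (u + ε1))))) * (al * σ * ρ0 * B.d n ^ (u + nn - 2 * ε1)) *
          ((al * ρ0) ^ (1 + q) * B.d n ^ ((u + l - 2 * ε1) * (1 + q))) *
          B.d n ^ (-(((1 : ℚ) : ℝ) - u) + (s * ((1 : ℚ) : ℝ) - s * u) - ε1) := by
        have q1 := (d_pos B n (-ε1)).le
        have q2 : 0 ≤ a1 ^ (1 + 0 : ℝ) := (Real.rpow_pos_of_pos ha10 _).le
        have q3 : 0 ≤ a2 ^ (1 + q) := (Real.rpow_pos_of_pos ha20 _).le
        have q4 := (Real.rpow_pos_of_pos (mul_pos hal0 p0) (1 + q)).le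
        have q5 := (d_pos B n (((u:ℝ) + l - 2 * ε1) * (1 + q))).le
        have q6 := (d_pos B n ((u:ℝ) + nn - 2 * ε1)).le
        gcongr
    _ = (A n * (al * al ^ (1 + q)) * σ * (ρ0 ^ (-q) * ρ0 * ρ0 ^ (1 + q))) *
        B.d n ^ (-ε1 + -(2 * (s * u) + g * u) + -(q * (u + ε1)) + (u + nn - 2 * ε1) +
          (u + l - 2 * ε1) * (1 + q) +
          (-(((1 : ℚ) : ℝ) - u) + (s * ((1 : ℚ) : ℝ) - s * u) - ε1)) := by
        rw [d_add, d_add, d_add, d_add, d_add, Real.mul_rpow hal0.le p0.le]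
        ring
    _ ≤ N0 lev A q w1 w2 n * B.d n ^ (-(bex s (2 * s + g) q v l nn + ε)) := by
        have r1 : al * al ^ (1 + q) = al ^ (2 + q) := by
          have t := Real.rpow_add hal0 1 (1 + q)
          rw [Real.rpow_one] at t
          rw [← t]; congr 1; ring
        have r2 : ρ0 ^ (-q) * ρ0 * ρ0 ^ (1 + q) = ρ0 ^ 2 := by
          rw [Real.rpow_add p0 1 q, Real.rpow_one, Real.rpow_neg p0.le]
          have := (Real.rpow_pos_of_pos p0 q).ne'
          field_simp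
        rw [r1, r2]
        have r3 : A n * al ^ (2 + q) * σ * ρ0 ^ 2 = N0 lev A q w1 w2 n := rfl
        rw [r3]
        have r4 : 0 ≤ N0 lev A q w1 w2 n := by
          rw [← r3]
          have := Real.rpow_pos_of_pos hal0 (2 + q)
          positivity
        refine mul_le_mul_of_nonneg_left (d_anti B n ?_) r4
        unfold bex
        have hd1 : K * (v - u) ≤ ε / 2 := by
          have : v - u ≤ ε / (2 * K) := by linarith
          calc K * (v - u) ≤ K * (ε / (2 * K)) := mul_le_mul_of_nonneg_left this hKpos.le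
            _ = ε / 2 := by field_simp
        have hd2 : (3 - (s + g)) * (v - u) ≤ K * (v - u) :=
          mul_le_mul_of_nonneg_right (by linarith) (by linarith)
        have hd3 : q * ε1 ≤ 2 * ε1 := mul_le_mul_of_nonneg_right hq2 hε1pos.le
        push_cast
        nlinarith

end

end Crest.Agent.R138.Nx638
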