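import Crest.Agent.R138.Pf_926

-- ▼ part R138/Pf2_926
section

/-!
# R138: submodularity, zoom and coordinate boxes for profiles (helper926)
-/

set_option autoImplicit false
set_option linter.unusedSectionVars false
set_option linter.unusedVariables false

open Filter Topology MeasureTheory
open scoped NNReal

namespace Crest.Agent.R138.Ex926

section Submod

open Finset

theorem card_image_le_card_image {α β γ : Type*} [DecidableEq β] [DecidableEq γ] (A : Finset α)
    (f : α → β) (g : α → γ) (h : ∀ x ∈ A, ∀ y ∈ A, f x = f y → g x = g y) :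
    (A.image g).card ≤ (A.image f).card := by
  classical
  rcases A.eq_empty_or_nonempty with rfl | ⟨a₀, ha₀⟩
  · simp
  set φ : β → γ := fun c => if hc : ∃ x ∈ A, f x = c then g hc.choose else g a₀ with hφ
  have : A.image g ⊆ (A.image f).image φ := by
    intro c hc
    obtain ⟨x, hx, rfl⟩ := mem_image.1 hc
    refine mem_image.2 ⟨f x, mem_image_of_mem _ hx, ?_⟩
    have hex : ∃ y ∈ A, f y = f x := ⟨x, hx, rfl⟩
    simp only [hφ, dif_pos hex]
    exact h _ hex.choose_spec.1 _ hx hex.choose_spec.2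
  exact (card_le_card this).trans card_image_le

variable {B : Base} {ι κ : ℕ → Type*} [∀ n, DecidableEq (ι n)] [∀ n, DecidableEq (κ n)]

/-- general form of submodularity for four partitions: `fo` (coarse), `fp`, `fq` finer than `fo`,
`fr` determined by `fp` and `fq`. -/
theorem submod4 {I : ∀ n, Finset (ι n)} {fo fp fq fr : ∀ n, ι n → κ n} {νo νp νq νr : ℝ}
    (hI : ∀ᶠ n in (U : Filter ℕ), (I n).Nonempty)
    (ho : ∀ ε : ℝ, 0 < ε → ∀ᶠ n in (U : Filter ℕ), ∀ i ∈ I n,
      |Real.log ((cls (I n) (fo n) i).card) / B.L n - νo| ≤ ε)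
    (hp : ∀ ε : ℝ, 0 < ε → ∀ᶠ n in (U : Filter ℕ), ∀ i ∈ I n,
      |Real.log ((cls (I n) (fp n) i).card) / B.L n - νp| ≤ ε)
    (hq : ∀ ε : ℝ, 0 < ε → ∀ᶠ n in (U : Filter ℕ), ∀ i ∈ I n,
      |Real.log ((cls (I n) (fq n) i).card) / B.L n - νq| ≤ ε)
    (hr : ∀ ε : ℝ, 0 < ε → ∀ᶠ n in (U : Filter ℕ), ∀ i ∈ I n,
      |Real.log ((cls (I n) (fr n) i).card) / B.L n - νr| ≤ ε)
    (hpo : ∀ᶠ n in (U : Filter ℕ), ∀ i ∈ I n, ∀ i' ∈ I n, fp n i = fp n i' → fo n i = fo n i')
    (hqo : ∀ᶠ n in (U : Filter ℕ), ∀ i ∈ I n, ∀ i' ∈ I n, fq n i = fq n i' → fo n i = fo n i')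
    (hrq : ∀ᶠ n in (U : Filter ℕ), ∀ i ∈ I n, ∀ i' ∈ I n, fp n i = fp n i' → fq n i = fq n i' →
      fr n i = fr n i') :
    νp + νq ≤ νr + νo := by
  refine le_of_forall_pos_le_add fun ε hε => ?_
  obtain ⟨n, h0, h1, h2, h3, h4, h5, h6, h7⟩ := (hI.and ((ho (ε / 4) (by positivity)).and
    ((hp (ε / 4) (by positivity)).and ((hq (ε / 4) (by positivity)).and
    ((hr (ε / 4) (by positivity)).and (hpo.and (hqo.and hrq))))))).exists
  obtain ⟨i, hi⟩ := h0
  have hL := B.L_pos n
  set A := cls (I n) (fo n) i with hA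
  set A2 := cls (I n) (fq n) i with hA2
  have hA2A : A2 ⊆ A := fun x hx => by
    obtain ⟨x1, x2⟩ := mem_cls.1 hx
    exact mem_cls.2 ⟨x1, h6 x x1 i hi x2⟩
  -- (1) `e^{(νp-ε/4)L} * #(A.image fp) ≤ |A|`
  have c1 : Real.exp ((νp - ε / 4) * B.L n) * ((A.image (fp n)).card : ℝ) ≤ A.card := by
    have hc := count_mul_le A (fun _ => (1 : ℝ)) (fun _ _ => zero_le_one) (fp n)
      (m := Real.exp ((νp - ε / 4) * B.L n)) (fun x hx => by
        rw [sum_const, nsmul_eq_mul, mul_one]
        obtain ⟨x1, x2⟩ := mem_cls.1 hx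
        have e1 : cls A (fp n) x = cls (I n) (fp n) x := by
          ext y
          constructor
          · intro hy
            obtain ⟨y1, y2⟩ := mem_cls.1 hy
            exact mem_cls.2 ⟨(mem_cls.1 y1).1, y2⟩
          · intro hy
            obtain ⟨y1, y2⟩ := mem_cls.1 hy
            exact mem_cls.2 ⟨mem_cls.2 ⟨y1, (h5 y y1 x x1 y2).trans x2⟩, y2⟩
        rw [e1]
        have h8 := (abs_le.1 (h2 x x1)).1
        have h9 : (1 : ℝ) ≤ (cls (I n) (fp n) x).card := cls_card_pos x1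
        rw [← Real.le_log_iff_exp_le (by linarith), ← le_div_iff₀ hL]
        linarith)
    simpa using hc
  -- (2) `|A2| ≤ #(A2.image fr) * e^{(νr+ε/4)L}`
  have c2 : (A2.card : ℝ) ≤ Real.exp ((νr + ε / 4) * B.L n) * ((A2.image (fr n)).card : ℝ) := by
    have hc := le_count_mul A2 (fun _ => (1 : ℝ)) (fr n)
      (m := Real.exp ((νr + ε / 4) * B.L n)) (fun x hx => by
        rw [sum_const, nsmul_eq_mul, mul_one]
        obtain ⟨x1, x2⟩ := mem_cls.1 hx
        have e1 : ((cls A2 (fr n) x).card : ℝ) ≤ (cls (I n) (fr n) x).card := by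
          exact_mod_cast card_le_card (cls_mono (cls_subset _ _ _) _ _)
        refine e1.trans ?_
        have h8 := (abs_le.1 (h4 x x1)).2
        have h9 : (1 : ℝ) ≤ (cls (I n) (fr n) x).card := cls_card_pos x1
        rw [← Real.log_le_iff_le_exp (by linarith), ← div_le_iff₀ hL]
        linarith)
    simpa using hc
  -- (3) compare the counts
  have c3 : ((A2.image (fr n)).card : ℝ) ≤ ((A.image (fp n)).card : ℝ) := by
    have e1 : (A2.image (fr n)).card ≤ (A2.image (fp n)).card :=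
      card_image_le_card_image A2 (fp n) (fr n) fun x hx y hy hxy => by
        obtain ⟨x1, x2⟩ := mem_cls.1 hx
        obtain ⟨y1, y2⟩ := mem_cls.1 hy
        exact h7 x x1 y y1 hxy (x2.trans y2.symm)
    have e2 : (A2.image (fp n)).card ≤ (A.image (fp n)).card :=
      card_le_card (image_subset_image hA2A)
    exact_mod_cast e1.trans e2
  -- logarithms
  have a1 : (1 : ℝ) ≤ A.card := cls_card_pos hi
  have a2 : (1 : ℝ) ≤ A2.card := cls_card_pos hi
  have h8 := (abs_le.1 (h1 i hi)).2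
  have h9 := (abs_le.1 (h3 i hi)).1
  have d1 : Real.log A.card ≤ (νo + ε / 4) * B.L n := by
    rw [← div_le_iff₀ hL]; linarith
  have d2 : (νq - ε / 4) * B.L n ≤ Real.log A2.card := by
    rw [← le_div_iff₀ hL]; linarith
  have e0 : Real.exp ((νq - ε / 4) * B.L n) ≤ A2.card := by
    rwa [← Real.le_log_iff_exp_le (by linarith)]
  have e1 : (A.card : ℝ) ≤ Real.exp ((νo + ε / 4) * B.L n) := by
    rwa [← Real.log_le_iff_le_exp (by linarith)]
  have e2 : Real.exp ((νp - ε / 4) * B.L n) * Real.exp ((νq - ε / 4) * B.L n) ≤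
      Real.exp ((νr + ε / 4) * B.L n) * Real.exp ((νo + ε / 4) * B.L n) := by
    calc Real.exp ((νp - ε / 4) * B.L n) * Real.exp ((νq - ε / 4) * B.L n)
        ≤ Real.exp ((νp - ε / 4) * B.L n) *
          (Real.exp ((νr + ε / 4) * B.L n) * ((A.image (fp n)).card : ℝ)) := by
          refine mul_le_mul_of_nonneg_left (e0.trans (c2.trans ?_)) (Real.exp_pos _).le
          exact mul_le_mul_of_nonneg_left c3 (Real.exp_pos _).le
      _ = Real.exp ((νr + ε / 4) * B.L n) *
          (Real.exp ((νp - ε / 4) * B.L n) * ((A.image (fp n)).card : ℝ)) := by ring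
      _ ≤ Real.exp ((νr + ε / 4) * B.L n) * Real.exp ((νo + ε / 4) * B.L n) :=
          mul_le_mul_of_nonneg_left (c1.trans e1) (Real.exp_pos _).le
  rw [← Real.exp_add, ← Real.exp_add, Real.exp_le_exp] at e2
  have e3 : (νp + νq - ε / 2) * B.L n ≤ (νr + νo + ε / 2) * B.L n := by nlinarith
  have := le_of_mul_le_mul_right e3 hL
  linarith

variable {m : ℕ}

/-- join property: the partition at `p ⊔ q` is determined by those at `p` and `q`. -/
def PJoin (I : ∀ n, Finset (ι n)) (f : ∀ n, (Fin m → ℝ) → ι n → κ n) (P : Set (Fin m → ℝ)) : Prop :=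
  ∀ᶠ n in (U : Filter ℕ), ∀ p ∈ P, ∀ q ∈ P, ∀ i ∈ I n, ∀ i' ∈ I n, f n p i = f n p i' →
    f n q i = f n q i' → f n (p ⊔ q) i = f n (p ⊔ q) i'

/-- **Supermodularity of the profile** (i.e. submodularity of the entropy `-ν`). -/
theorem IsProfile.submod {I : ∀ n, Finset (ι n)} {f : ∀ n, (Fin m → ℝ) → ι n → κ n} {K : ℝ}
    {a b : Fin m → ℝ} {ν : (Fin m → ℝ) → ℝ} (hI : ∀ᶠ n in (U : Filter ℕ), (I n).Nonempty)
    (hν : IsProfile B I f (Set.Icc a b) ν) (hf : PFam B I f K (Set.Icc a b))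
    (hj : PJoin I f (Set.Icc a b)) {p q : Fin m → ℝ} (hp : p ∈ Set.Icc a b)
    (hq : q ∈ Set.Icc a b) : ν p + ν q ≤ ν (p ⊔ q) + ν (p ⊓ q) := by
  have hsup : p ⊔ q ∈ Set.Icc a b := ⟨hp.1.trans le_sup_left, sup_le hp.2 hq.2⟩
  have hinf : p ⊓ q ∈ Set.Icc a b := ⟨le_inf hp.1 hq.1, inf_le_left.trans hp.2⟩
  refine submod4 (B := B) (I := I) (fo := fun n => f n (p ⊓ q)) (fp := fun n => f n p)
    (fq := fun n => f n q) (fr := fun n => f n (p ⊔ q)) hI
    (fun ε hε => (hν ε hε).mono fun n hn => hn _ hinf)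
    (fun ε hε => (hν ε hε).mono fun n hn => hn _ hp)
    (fun ε hε => (hν ε hε).mono fun n hn => hn _ hq)
    (fun ε hε => (hν ε hε).mono fun n hn => hn _ hsup) ?_ ?_ ?_
  · exact hf.nest.mono fun n hn i hi i' hi' h => hn _ hinf _ hp inf_le_left i hi i' hi' h
  · exact hf.nest.mono fun n hn i hi i' hi' h => hn _ hinf _ hq inf_le_right i hi i' hi' h
  · exact hj.mono fun n hn i hi i' hi' h h' => hn _ hp _ hq i hi i' hi' h h'

/-- the family restricted to a subset. -/
theorem PFam.mono {I I' : ∀ n, Finset (ι n)} {f : ∀ n, (Fin m → ℝ) → ι n → κ n} {K : ℝ}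
    {P P' : Set (Fin m → ℝ)} (h : PFam B I f K P) (hI : ∀ᶠ n in (U : Filter ℕ), I' n ⊆ I n)
    (hP : P' ⊆ P) : PFam B I' f K P' where
  nest := by
    filter_upwards [h.nest, hI] with n h1 h2 p hp p' hp' hpp i hi i' hi'
    exact h1 p (hP hp) p' (hP hp') hpp i (h2 hi) i' (h2 hi')
  child := fun ε hε => by
    filter_upwards [h.child ε hε, hI] with n h1 h2 p hp p' hp' hpp i hi
    refine le_trans ?_ (h1 p (hP hp) p' (hP hp') hpp i (h2 hi))
    exact_mod_cast card_le_card (image_subset_image (cls_mono h2 _ _))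

theorem PJoin.mono {I I' : ∀ n, Finset (ι n)} {f : ∀ n, (Fin m → ℝ) → ι n → κ n}
    {P P' : Set (Fin m → ℝ)} (h : PJoin I f P) (hI : ∀ᶠ n in (U : Filter ℕ), I' n ⊆ I n)
    (hP : P' ⊆ P) : PJoin I' f P' := by
  filter_upwards [h, hI] with n h1 h2 p hp q hq i hi i' hi'
  exact h1 p (hP hp) q (hP hq) i (h2 hi) i' (h2 hi')

end Submod

/-! ### zoom for sets of functions -/


section ZoomProfile

open Finset

variable {B : Base} {ι : ℕ → Type*} [∀ n, DecidableEq (ι n)]


end ZoomProfile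

/-! ### coordinate boxes -/

section Coord

open Finset

variable {m : ℕ}

/-- dyadic cell of level `K j` in the coordinate `j` -/
noncomputable def dcell (K : Fin m → ℕ) (x : Fin m → ℝ) : Fin m → ℤ :=
  fun j => ⌊x j * 2 ^ (K j)⌋

theorem dcell_coarse {K K' : Fin m → ℕ} (h : K ≤ K') (x : Fin m → ℝ) (j : Fin m) :
    dcell K x j = dcell K' x j / (2 ^ (K' j - K j) : ℕ) := by
  simp only [dcell]
  have h0 : K j ≤ K' j := h j
  have h1 : K' j = K j + (K' j - K j) := by omega
  rw [← Int.floor_div_natCast]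
  congr 1
  push_cast
  rw [eq_div_iff (by positivity), mul_assoc, ← pow_add, ← h1]

theorem dcell_nest {K K' : Fin m → ℕ} (h : K ≤ K') {x y : Fin m → ℝ} (he : dcell K' x = dcell K' y) :
    dcell K x = dcell K y := by
  funext j
  rw [dcell_coarse h, dcell_coarse h, he]

theorem dcell_sup {K K' : Fin m → ℕ} {x y : Fin m → ℝ} (h : dcell K x = dcell K y)
    (h' : dcell K' x = dcell K' y) : dcell (K ⊔ K') x = dcell (K ⊔ K') y := by
  funext j
  rcases le_total (K j) (K' j) with hj | hj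
  · have := congrFun h' j
    simp only [dcell, Pi.sup_apply, sup_eq_right.2 hj] at this ⊢
    exact this
  · have := congrFun h j
    simp only [dcell, Pi.sup_apply, sup_eq_left.2 hj] at this ⊢
    exact this

/-- number of sub-cells of a cell -/
theorem card_dcell_le {α : Type*} [DecidableEq α] {K K' : Fin m → ℕ} (h : K ≤ K')
    (A : Finset α) (x : α → Fin m → ℝ) (hA : ∀ i ∈ A, ∀ i' ∈ A, dcell K (x i) = dcell K (x i')) :
    (A.image fun i => dcell K' (x i)).card ≤ 2 ^ ∑ j, (K' j - K j) := by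
  classical
  rcases A.eq_empty_or_nonempty with rfl | ⟨i₀, hi₀⟩
  · simp
  set z : Fin m → ℤ := dcell K (x i₀) with hz
  set T : Finset (Fin m → ℤ) := Fintype.piFinset fun j =>
    Finset.Ico (z j * (2 ^ (K' j - K j) : ℕ)) ((z j + 1) * (2 ^ (K' j - K j) : ℕ)) with hT
  have hsub : (A.image fun i => dcell K' (x i)) ⊆ T := by
    intro c hc
    obtain ⟨i, hi, rfl⟩ := mem_image.1 hc
    rw [hT, Fintype.mem_piFinset]
    intro j
    have h1 : dcell K' (x i) j / (2 ^ (K' j - K j) : ℕ) = z j := by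
      rw [← dcell_coarse h, hA i hi i₀ hi₀]
    have h2 : (0 : ℤ) < (2 ^ (K' j - K j) : ℕ) := by positivity
    rw [Finset.mem_Ico]
    constructor
    · rw [← h1]; exact Int.ediv_mul_le _ h2.ne'
    · rw [← h1]; exact Int.lt_ediv_add_one_mul_self _ h2
  refine (card_le_card hsub).trans (le_of_eq ?_)
  rw [hT, Fintype.card_piFinset]
  rw [← Finset.prod_pow_eq_pow_sum]
  refine prod_congr rfl fun j _ => ?_
  rw [Int.card_Ico]
  have : (z j + 1) * ((2 ^ (K' j - K j) : ℕ) : ℤ) - z j * ((2 ^ (K' j - K j) : ℕ) : ℤ) =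
      ((2 ^ (K' j - K j) : ℕ) : ℤ) := by ring
  rw [this, Int.toNat_natCast]

/-- dyadic level of the scale `d ^ t` -/
noncomputable def Base.lev (B : Base) (n : ℕ) (t : ℝ) : ℕ := ⌊t * B.L n / Real.log 2⌋₊

theorem Base.lev_mono (B : Base) (n : ℕ) : Monotone (B.lev n) := by
  intro s t h
  refine Nat.floor_le_floor ?_
  have h1 := B.L_pos n
  have h2 : 0 < Real.log 2 := Real.log_pos (by norm_num)
  gcongr

theorem Base.pow_lev_le (B : Base) (n : ℕ) {t : ℝ} (ht : 0 ≤ t) :
    (2 : ℝ) ^ (B.lev n t) ≤ B.d n ^ (-t) := by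
  have h1 := B.L_pos n
  have h2 : 0 < Real.log 2 := Real.log_pos (by norm_num)
  have h3 : ((B.lev n t : ℕ) : ℝ) ≤ t * B.L n / Real.log 2 := Nat.floor_le (by positivity)
  have h4 : ((B.lev n t : ℕ) : ℝ) * Real.log 2 ≤ t * B.L n := by
    rwa [le_div_iff₀ h2] at h3
  have h5 : B.d n ^ (-t) = Real.exp (t * B.L n) := by
    rw [Real.rpow_def_of_pos (B.pos n)]; congr 1; simp only [Base.L]; ring
  rw [h5, ← Real.rpow_natCast, Real.rpow_def_of_pos (by norm_num)]
  exact Real.exp_le_exp.2 (by linarith)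

theorem Base.lt_pow_lev (B : Base) (n : ℕ) (t : ℝ) :
    B.d n ^ (-t) < 2 ^ (B.lev n t + 1) := by
  have h1 := B.L_pos n
  have h2 : 0 < Real.log 2 := Real.log_pos (by norm_num)
  have h3 : t * B.L n / Real.log 2 < ((B.lev n t : ℕ) : ℝ) + 1 := Nat.lt_floor_add_one _
  have h4 : t * B.L n < (((B.lev n t : ℕ) : ℝ) + 1) * Real.log 2 := by
    rwa [div_lt_iff₀ h2] at h3
  have h5 : B.d n ^ (-t) = Real.exp (t * B.L n) := by
    rw [Real.rpow_def_of_pos (B.pos n)]; congr 1; simp only [Base.L]; ring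
  rw [h5]
  have h6 : (2 : ℝ) ^ (B.lev n t + 1) = Real.exp ((((B.lev n t : ℕ) : ℝ) + 1) * Real.log 2) := by
    rw [← Real.rpow_natCast, Real.rpow_def_of_pos (by norm_num)]
    congr 1; push_cast; ring
  rw [h6]
  exact Real.exp_lt_exp.2 h4

variable (B : Base) {ι γ : ℕ → Type*} [∀ n, DecidableEq (ι n)] [∀ n, DecidableEq (γ n)]

/-- the coordinate family: label `g` and dyadic cells of side `≈ d ^ p j` of the coordinates `x`. -/
noncomputable def cfam (g : ∀ n, ι n → γ n) (x : ∀ n, ι n → Fin m → ℝ) (n : ℕ) (p : Fin m → ℝ)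
    (i : ι n) : γ n × (Fin m → ℤ) :=
  (g n i, dcell (fun j => B.lev n (p j)) (x n i))

theorem cfam_PFam (I : ∀ n, Finset (ι n)) (g : ∀ n, ι n → γ n) (x : ∀ n, ι n → Fin m → ℝ)
    (a b : Fin m → ℝ) (ha : ∀ j, 0 ≤ a j) :
    PFam B I (cfam B g x) (m : ℝ) (Set.Icc a b) where
  nest := Eventually.of_forall fun n p hp p' hp' hpp i _ i' _ h => by
    simp only [cfam, Prod.mk.injEq] at h ⊢
    exact ⟨h.1, dcell_nest (fun j => B.lev_mono n (hpp j)) h.2⟩
  child := fun ε hε => by
    have h2log : ∀ᶠ n in (U : Filter ℕ), (m : ℝ) * Real.log 2 ≤ ε * B.L n := by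
      filter_upwards [B.ev_L_ge (m * Real.log 2 / ε)] with n hn
      rw [div_le_iff₀ hε] at hn
      linarith
    filter_upwards [h2log] with n hn p hp p' hp' hpp i hi
    set K : Fin m → ℕ := fun j => B.lev n (p j) with hK
    set K' : Fin m → ℕ := fun j => B.lev n (p' j) with hK'
    have hKK : K ≤ K' := fun j => B.lev_mono n (hpp j)
    have h1 : ((cls (I n) (cfam B g x n p) i).image (cfam B g x n p')).card ≤
        ((cls (I n) (cfam B g x n p) i).image fun i => dcell K' (x n i)).card := by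
      refine card_image_le_card_image _ _ _ fun u hu v hv huv => ?_
      have hu2 := (mem_cls.1 hu).2
      have hv2 := (mem_cls.1 hv).2
      simp only [cfam, Prod.mk.injEq] at hu2 hv2 ⊢
      exact ⟨hu2.1.trans hv2.1.symm, huv⟩
    have h2 := card_dcell_le (m := m) hKK (cls (I n) (cfam B g x n p) i) (x n) (by
      intro u hu v hv
      have hu2 := (mem_cls.1 hu).2
      have hv2 := (mem_cls.1 hv).2
      simp only [cfam, Prod.mk.injEq] at hu2 hv2
      exact hu2.2.trans hv2.2.symm)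
    have h3 : (((cls (I n) (cfam B g x n p) i).image (cfam B g x n p')).card : ℝ) ≤
        2 ^ ∑ j, (K' j - K j) := by exact_mod_cast h1.trans h2
    refine h3.trans ?_
    have hL := B.L_pos n
    have hl2 : 0 < Real.log 2 := Real.log_pos (by norm_num)
    have h5 : ∀ t : ℝ, B.d n ^ (-t) = Real.exp (t * B.L n) := by
      intro t
      rw [Real.rpow_def_of_pos (B.pos n)]; congr 1; simp only [Base.L]; ring
    rw [h5, ← Real.rpow_natCast, Real.rpow_def_of_pos (by norm_num)]
    refine Real.exp_le_exp.2 ?_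
    have h6 : ∀ j, ((K' j - K j : ℕ) : ℝ) * Real.log 2 ≤ ‖p' - p‖ * B.L n + Real.log 2 := by
      intro j
      have e1 : ((K' j - K j : ℕ) : ℝ) = (K' j : ℝ) - K j := by
        rw [Nat.cast_sub (hKK j)]
      have p0 : 0 ≤ p' j := (ha j).trans (hp'.1 j)
      have e2 : ((K' j : ℕ) : ℝ) ≤ p' j * B.L n / Real.log 2 := Nat.floor_le (by positivity)
      have e3 : p j * B.L n / Real.log 2 < ((K j : ℕ) : ℝ) + 1 := Nat.lt_floor_add_one _
      rw [le_div_iff₀ hl2] at e2
      rw [div_lt_iff₀ hl2] at e3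
      have e4 : p' j - p j ≤ ‖p' - p‖ := by
        have := norm_le_pi_norm (p' - p) j
        rw [Pi.sub_apply, Real.norm_eq_abs] at this
        exact (le_abs_self _).trans this
      rw [e1]
      nlinarith
    push_cast
    rw [mul_comm, Finset.sum_mul]
    calc ∑ j, ((K' j - K j : ℕ) : ℝ) * Real.log 2 ≤ ∑ _j : Fin m, (‖p' - p‖ * B.L n + Real.log 2) :=
          sum_le_sum fun j _ => h6 j
      _ = m * (‖p' - p‖ * B.L n) + m * Real.log 2 := by
          rw [sum_const, card_univ, Fintype.card_fin, nsmul_eq_mul]; ring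
      _ ≤ (m * ‖p' - p‖ + ε) * B.L n := by linarith

theorem cfam_PJoin (I : ∀ n, Finset (ι n)) (g : ∀ n, ι n → γ n) (x : ∀ n, ι n → Fin m → ℝ)
    (P : Set (Fin m → ℝ)) : PJoin I (cfam B g x) P :=
  Eventually.of_forall fun n p hp q hq i _ i' _ h h' => by
    simp only [cfam, Prod.mk.injEq] at h h' ⊢
    refine ⟨h.1, ?_⟩
    have e : (fun j => B.lev n ((p ⊔ q) j)) = (fun j => B.lev n (p j)) ⊔ fun j => B.lev n (q j) := by
      funext j
      simp only [Pi.sup_apply]
      exact (B.lev_mono n).map_sup _ _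
    rw [e]
    exact dcell_sup h.2 h'.2

end Coord

end Crest.Agent.R138.Ex926
end

-- ▼ part R138/Pm_926

/-!
# R138: countably many families with real parameters, uniform at once (helper926)
-/

set_option autoImplicit false
set_option linter.unusedSectionVars false
set_option linter.unusedVariables false

open Filter Topology MeasureTheory
open scoped NNReal

namespace Crest.Agent.R138.Ex926

open Finset

variable {B : Base} {ι : ℕ → Type*} [∀ n, DecidableEq (ι n)]


/-- a family which does not depend on the parameter. -/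
theorem PFam.const {m : ℕ} {κ : ℕ → Type*} [∀ n, DecidableEq (κ n)] (B : Base)
    (I : ∀ n, Finset (ι n)) (g : ∀ n, ι n → κ n) {K : ℝ} (hK : 0 ≤ K) (P : Set (Fin m → ℝ)) :
    PFam B I (fun n _ => g n) K P where
  nest := Eventually.of_forall fun n p _ p' _ _ i _ i' _ h => h
  child := fun ε hε => Eventually.of_forall fun n p _ p' _ _ i hi => by
    have h1 : (cls (I n) (g n) i).image (g n) ⊆ {g n i} := by
      intro c hc
      obtain ⟨y, hy, rfl⟩ := mem_image.1 hc
      rw [mem_singleton]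
      exact (mem_cls.1 hy).2
    have h2 : (((cls (I n) (g n) i).image (g n)).card : ℝ) ≤ 1 := by
      exact_mod_cast card_le_card h1
    refine h2.trans ?_
    refine Real.one_le_rpow_of_pos_of_le_one_of_nonpos (B.pos n) (B.lt n).le ?_
    have : 0 ≤ K * ‖p' - p‖ := by positivity
    linarith

/-- class sizes of `I'` itself: two points of `I'` have comparable classes. -/
theorem PUnif.self {V : Type*} {κ : ℕ → Type*} [∀ n, DecidableEq (κ n)]
    {I I' : ∀ n, Finset (ι n)} {f : ∀ n, V → ι n → κ n} {P : Set V}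
    (h : PUnif B I I' f P) (hsub : ∀ᶠ n in (U : Filter ℕ), I' n ⊆ I n) :
    ∀ ε : ℝ, 0 < ε → ∀ᶠ n in (U : Filter ℕ), ∀ p ∈ P, ∀ i ∈ I' n, ∀ i₀ ∈ I' n,
      ((cls (I' n) (f n p) i).card : ℝ) ≤ B.d n ^ (-ε) * (cls (I' n) (f n p) i₀).card := by
  intro ε hε
  filter_upwards [h ε hε, hsub] with n h1 h2 p hp i hi i₀ hi₀
  have e1 := h1 p hp i hi i₀ hi₀
  have c1 : (1 : ℝ) ≤ (cls (I' n) (f n p) i).card := cls_card_pos hi
  have c2 : (1 : ℝ) ≤ (cls (I' n) (f n p) i₀).card := cls_card_pos hi₀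
  have e2 : Real.log ((cls (I' n) (f n p) i).card) ≤ Real.log ((cls (I n) (f n p) i).card) := by
    refine Real.log_le_log (by linarith) ?_
    exact_mod_cast card_le_card (cls_mono h2 _ _)
  have hLd : Real.log (B.d n) = - B.L n := by simp [Base.L]
  have hdp := Real.rpow_pos_of_pos (B.pos n) (-ε)
  rw [← Real.log_le_log_iff (by linarith) (by positivity), Real.log_mul hdp.ne' (by linarith),
    Real.log_rpow (B.pos n), hLd]
  linarith

end Crest.Agent.R138.Ex926
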