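import Crest.Agent.R138.ShDefs_200
import Mathlib

-- ▼ part R138/Sh5_200
section

/-!
R138, outer shell (5): the multiplier `mR` as a Schwartz function, its second derivatives, and the
weighted kernel identity.
-/

set_option autoImplicit false

open MeasureTheory FourierTransform LineDeriv
open scoped ContDiff Real SchwartzMap

namespace Crest.Agent.R138.Sh200

theorem contDiff_mR {φ : ℝ → ℝ} (hφ : ContDiff ℝ ∞ φ) (R : ℝ) : ContDiff ℝ ∞ (mR φ R) := by
  have h1 : ContDiff ℝ ∞ fun ξ : V => φ (R * (1 - ‖ξ‖ ^ 2)) :=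
    hφ.comp (contDiff_const.mul (contDiff_const.sub (contDiff_norm_sq ℝ)))
  exact Complex.ofRealCLM.contDiff.comp h1

/-- a bound for the support of `φ`. -/
theorem exists_supp {φ : ℝ → ℝ} (hφ : HasCompactSupport φ) :
    ∃ M : ℝ, 0 < M ∧ ∀ t, M < |t| → φ t = 0 := by
  obtain ⟨M, hM⟩ := hφ.isCompact.isBounded.subset_closedBall 0
  refine ⟨max M 1, by positivity, fun t ht => ?_⟩
  by_contra h
  have h1 : t ∈ tsupport φ := subset_tsupport _ h
  have h2 := hM h1
  rw [mem_closedBall_zero_iff, Real.norm_eq_abs] at h2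
  exact absurd (h2.trans (le_max_left _ _)) (not_le.mpr ht)

theorem mR_eq_zero {φ : ℝ → ℝ} {M : ℝ} (hM : ∀ t, M < |t| → φ t = 0) {R : ℝ} {ξ : V}
    (h : M < |R * (1 - ‖ξ‖ ^ 2)|) : mR φ R ξ = 0 := by
  unfold mR
  rw [hM _ h, Complex.ofReal_zero]

theorem norm_sq_le_of_mem {M R : ℝ} (hM : 0 < M) (hR : 1 ≤ R) {ξ : V}
    (h : |R * (1 - ‖ξ‖ ^ 2)| ≤ M) : ‖ξ‖ ^ 2 ≤ 1 + M := by
  have h1 := (abs_le.mp h).1
  by_contra hcon
  push Not at hcon
  have : M < R * (‖ξ‖ ^ 2 - 1) := by nlinarith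
  linarith

theorem hasCompactSupport_mR {φ : ℝ → ℝ} (hφ : HasCompactSupport φ) {R : ℝ} (hR : 1 ≤ R) :
    HasCompactSupport (mR φ R) := by
  obtain ⟨M, hM0, hM⟩ := exists_supp hφ
  apply HasCompactSupport.of_support_subset_isCompact
    (isCompact_closedBall (0 : V) (Real.sqrt (1 + M)))
  intro ξ hξ
  rw [mem_closedBall_zero_iff]
  apply Real.le_sqrt_of_sq_le
  apply norm_sq_le_of_mem hM0 hR
  by_contra hcon
  exact hξ (mR_eq_zero hM (not_le.mp hcon))

/-- `mR` as a Schwartz function. -/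
noncomputable def mS {φ : ℝ → ℝ} (hφ : ContDiff ℝ ∞ φ) (hφ' : HasCompactSupport φ) {R : ℝ}
    (hR : 1 ≤ R) : 𝓢(V, ℂ) :=
  (hasCompactSupport_mR hφ' hR).toSchwartzMap (contDiff_mR hφ R)

theorem mS_apply {φ : ℝ → ℝ} (hφ : ContDiff ℝ ∞ φ) (hφ' : HasCompactSupport φ) {R : ℝ}
    (hR : 1 ≤ R) (ξ : V) : mS hφ hφ' hR ξ = mR φ R ξ := rfl

/-- the kernel as a Schwartz function. -/
noncomputable def kS {φ : ℝ → ℝ} (hφ : ContDiff ℝ ∞ φ) (hφ' : HasCompactSupport φ) {R : ℝ}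
    (hR : 1 ≤ R) : 𝓢(V, ℂ) := 𝓕⁻ (mS hφ hφ' hR)

theorem kS_coe {φ : ℝ → ℝ} (hφ : ContDiff ℝ ∞ φ) (hφ' : HasCompactSupport φ) {R : ℝ}
    (hR : 1 ≤ R) : (kS hφ hφ' hR : V → ℂ) = KR φ R := by
  unfold kS KR
  rw [SchwartzMap.fourierInv_coe]
  rfl

theorem kS_apply {φ : ℝ → ℝ} (hφ : ContDiff ℝ ∞ φ) (hφ' : HasCompactSupport φ) {R : ℝ}
    (hR : 1 ≤ R) (x : V) : kS hφ hφ' hR x = KR φ R x := by
  rw [← kS_coe hφ hφ' hR]

/-- derivative of the phase along a line. -/
theorem hasDerivAt_phase (R : ℝ) (y e : V) (t : ℝ) :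
    HasDerivAt (fun t : ℝ => R * (1 - ‖y + t • e‖ ^ 2)) (-2 * R * inner ℝ (y + t • e) e) t := by
  have h1 : HasDerivAt (fun t : ℝ => y + t • e) e t := by
    simpa using ((hasDerivAt_id t).smul_const e).const_add y
  have h2 := h1.norm_sq
  have h3 := (h2.const_sub 1).const_mul R
  refine h3.congr_deriv ?_
  ring

theorem lineDeriv_mS {φ : ℝ → ℝ} (hφ : ContDiff ℝ ∞ φ) (hφ' : HasCompactSupport φ) {R : ℝ}
    (hR : 1 ≤ R) (e y : V) : (∂_{e} (mS hφ hφ' hR)) y
      = ((deriv φ (R * (1 - ‖y‖ ^ 2)) * (-2 * R * inner ℝ y e) : ℝ) : ℂ) := by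
  rw [SchwartzMap.lineDerivOp_apply]
  unfold lineDeriv
  have h1 := hasDerivAt_phase R y e 0
  have hd : HasDerivAt φ (deriv φ (R * (1 - ‖y + (0:ℝ) • e‖ ^ 2)))
      (R * (1 - ‖y + (0:ℝ) • e‖ ^ 2)) :=
    ((hφ.differentiable (by simp)) _).hasDerivAt
  have h2 := (HasDerivAt.comp (0:ℝ) hd h1).ofReal_comp
  have h3 : (fun t : ℝ => (mS hφ hφ' hR) (y + t • e))
      = fun t : ℝ => (((φ ∘ fun t : ℝ => R * (1 - ‖y + t • e‖ ^ 2)) t : ℝ) : ℂ) := by
    funext t; rfl
  rw [h3, h2.deriv]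
  simp

theorem lineDeriv2_mS {φ : ℝ → ℝ} (hφ : ContDiff ℝ ∞ φ) (hφ' : HasCompactSupport φ) {R : ℝ}
    (hR : 1 ≤ R) (e y : V) : (∂_{e} (∂_{e} (mS hφ hφ' hR))) y
      = ((deriv (deriv φ) (R * (1 - ‖y‖ ^ 2)) * (-2 * R * inner ℝ y e) * (-2 * R * inner ℝ y e)
        + deriv φ (R * (1 - ‖y‖ ^ 2)) * (-2 * R * inner ℝ e e) : ℝ) : ℂ) := by
  rw [SchwartzMap.lineDerivOp_apply]
  unfold lineDeriv
  have h1 := hasDerivAt_phase R y e 0
  have hφ1 : ContDiff ℝ ∞ (deriv φ) := (contDiff_infty_iff_deriv.mp hφ).2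
  have hd : HasDerivAt (deriv φ) (deriv (deriv φ) (R * (1 - ‖y + (0:ℝ) • e‖ ^ 2)))
      (R * (1 - ‖y + (0:ℝ) • e‖ ^ 2)) :=
    ((hφ1.differentiable (by simp)) _).hasDerivAt
  have h2 := HasDerivAt.comp (0:ℝ) hd h1
  have h4 : HasDerivAt (fun t : ℝ => -2 * R * inner ℝ (y + t • e) e) (-2 * R * inner ℝ e e) 0 := by
    have h5 : HasDerivAt (fun t : ℝ => y + t • e) e 0 := by
      simpa using ((hasDerivAt_id (0:ℝ)).smul_const e).const_add y
    have h6 := (h5.inner ℝ (hasDerivAt_const (0:ℝ) e)).const_mul (-2 * R)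
    simpa using h6
  have h7 := (h2.mul h4).ofReal_comp
  have h3 : (fun t : ℝ => (∂_{e} (mS hφ hφ' hR)) (y + t • e))
      = fun t : ℝ => ((((deriv φ ∘ fun t : ℝ => R * (1 - ‖y + t • e‖ ^ 2)) *
          fun t : ℝ => -2 * R * inner ℝ (y + t • e) e) t : ℝ) : ℂ) := by
    funext t
    rw [lineDeriv_mS]
    rfl
  rw [h3, h7.deriv]
  simp

/-- the Schwartz function whose inverse Fourier transform is `(1 + |x|²/R²) K_R`. -/
noncomputable def wS {φ : ℝ → ℝ} (hφ : ContDiff ℝ ∞ φ) (hφ' : HasCompactSupport φ) {R : ℝ}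
    (hR : 1 ≤ R) : 𝓢(V, ℂ) :=
  mS hφ hφ' hR - ((1 / (4 * π ^ 2 * R ^ 2) : ℝ) : ℂ) •
    ∑ i : Fin 3, ∂_{EuclideanSpace.basisFun (Fin 3) ℝ i} (∂_{EuclideanSpace.basisFun (Fin 3) ℝ i}
      (mS hφ hφ' hR))

theorem wS_apply {φ : ℝ → ℝ} (hφ : ContDiff ℝ ∞ φ) (hφ' : HasCompactSupport φ) {R : ℝ}
    (hR : 1 ≤ R) (ξ : V) : wS hφ hφ' hR ξ = ((φ (R * (1 - ‖ξ‖ ^ 2))
      - 1 / (4 * π ^ 2 * R ^ 2) * (deriv (deriv φ) (R * (1 - ‖ξ‖ ^ 2)) * (4 * R ^ 2 * ‖ξ‖ ^ 2)
        - 6 * R * deriv φ (R * (1 - ‖ξ‖ ^ 2))) : ℝ) : ℂ) := by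
  unfold wS
  rw [sub_apply, smul_apply, sum_apply, mS_apply]
  simp_rw [lineDeriv2_mS]
  rw [← Complex.ofReal_sum, smul_eq_mul, ← Complex.ofReal_mul]
  unfold mR
  rw [← Complex.ofReal_sub]
  congr 1
  have h1 : ‖ξ‖ ^ 2 = ∑ i : Fin 3, (inner ℝ ξ (EuclideanSpace.basisFun (Fin 3) ℝ i)) ^ 2 := by
    rw [OrthonormalBasis.sum_sq_inner_left]
  have h2 : ∀ i : Fin 3, inner ℝ (EuclideanSpace.basisFun (Fin 3) ℝ i)
      (EuclideanSpace.basisFun (Fin 3) ℝ i) = (1:ℝ) := by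
    intro i
    rw [real_inner_self_eq_norm_sq]
    simp
  simp_rw [h2]
  rw [Finset.sum_add_distrib]
  have h3 : ∑ i : Fin 3, deriv (deriv φ) (R * (1 - ‖ξ‖ ^ 2)) *
      (-2 * R * inner ℝ ξ (EuclideanSpace.basisFun (Fin 3) ℝ i)) *
      (-2 * R * inner ℝ ξ (EuclideanSpace.basisFun (Fin 3) ℝ i))
      = deriv (deriv φ) (R * (1 - ‖ξ‖ ^ 2)) * (4 * R ^ 2 * ‖ξ‖ ^ 2) := by
    generalize deriv (deriv φ) (R * (1 - ‖ξ‖ ^ 2)) = D
    rw [h1, Finset.mul_sum, Finset.mul_sum]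
    refine Finset.sum_congr rfl fun i _ => ?_
    ring
  rw [h3, Finset.sum_const, Finset.card_univ, Fintype.card_fin]
  simp only [nsmul_eq_mul]
  push_cast
  ring

/-- weighted kernel identity. -/
theorem fourierInv_wS {φ : ℝ → ℝ} (hφ : ContDiff ℝ ∞ φ) (hφ' : HasCompactSupport φ) {R : ℝ}
    (hR : 1 ≤ R) (x : V) :
    (𝓕⁻ (wS hφ hφ' hR)) x = (((1 + ‖x‖ ^ 2 / R ^ 2) : ℝ) : ℂ) * KR φ R x := by
  have hR0 : R ≠ 0 := by positivity
  have h1 : ∀ e : V, (𝓕⁻ (∂_{e} (∂_{e} (mS hφ hφ' hR)))) x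
      = ((-(4 * π ^ 2) * (inner ℝ x e) ^ 2 : ℝ) : ℂ) * KR φ R x := by
    intro e
    have ht : (inner ℝ · e : V → ℝ).HasTemperateGrowth := by fun_prop
    rw [SchwartzMap.fourierInv_lineDerivOp_eq, SchwartzMap.fourierInv_lineDerivOp_eq,
      smul_apply, SchwartzMap.smulLeftCLM_apply_apply ht, smul_apply,
      SchwartzMap.smulLeftCLM_apply_apply ht]
    have hk : (𝓕⁻ (mS hφ hφ' hR)) x = KR φ R x := kS_apply hφ hφ' hR x
    rw [hk]
    simp only [smul_eq_mul, Complex.real_smul]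
    push_cast
    ring_nf
    rw [Complex.I_sq]
    ring
  have h2 : wS hφ hφ' hR = mS hφ hφ' hR + (-((1 / (4 * π ^ 2 * R ^ 2) : ℝ) : ℂ)) •
    ∑ i : Fin 3, ∂_{EuclideanSpace.basisFun (Fin 3) ℝ i} (∂_{EuclideanSpace.basisFun (Fin 3) ℝ i}
      (mS hφ hφ' hR)) := by
    unfold wS
    rw [neg_smul, sub_eq_add_neg]
  rw [h2, FourierTransform.fourierInv_add, FourierTransform.fourierInv_smul,
    FourierTransform.fourierInv_sum, add_apply, smul_apply, sum_apply]
  simp_rw [h1]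
  have hk : (𝓕⁻ (mS hφ hφ' hR)) x = KR φ R x := kS_apply hφ hφ' hR x
  have h3 : ‖x‖ ^ 2 = ∑ i : Fin 3, (inner ℝ x (EuclideanSpace.basisFun (Fin 3) ℝ i)) ^ 2 := by
    rw [OrthonormalBasis.sum_sq_inner_left]
  rw [hk, ← Finset.sum_mul, ← Complex.ofReal_sum, ← Finset.mul_sum, ← h3, smul_eq_mul,
    ← mul_assoc, ← Complex.ofReal_neg, ← Complex.ofReal_mul]
  have h4 : -(1 / (4 * π ^ 2 * R ^ 2)) * (-(4 * π ^ 2) * ‖x‖ ^ 2) = ‖x‖ ^ 2 / R ^ 2 := by
    field_simp
  rw [h4]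
  push_cast
  ring

end Crest.Agent.R138.Sh200
end

-- ▼ part R138/Sh6_200
section

/-!
R138, outer shell (6): `‖K_R‖_{L¹} ≤ C R`.
-/

set_option autoImplicit false

open MeasureTheory FourierTransform LineDeriv Set
open scoped ContDiff Real SchwartzMap ENNReal

namespace Crest.Agent.R138.Sh200

/-- elementary: cubes of square roots. -/
theorem cube_sub_le {u v : ℝ} (hu : 0 ≤ u) (hv : 0 < v) (huv : u ≤ v) :
    (Real.sqrt v) ^ 3 - (Real.sqrt u) ^ 3 ≤ 3 * Real.sqrt v * (v - u) := by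
  have hb : 0 < Real.sqrt v := Real.sqrt_pos.mpr hv
  have ha : 0 ≤ Real.sqrt u := Real.sqrt_nonneg u
  have hab : Real.sqrt u ≤ Real.sqrt v := Real.sqrt_le_sqrt huv
  have e1 : (Real.sqrt v) ^ 2 = v := Real.sq_sqrt hv.le
  have e2 : (Real.sqrt u) ^ 2 = u := Real.sq_sqrt hu
  set a := Real.sqrt u
  set b := Real.sqrt v
  have h1 : b ^ 3 - a ^ 3 = (b - a) * (a ^ 2 + a * b + b ^ 2) := by ring
  have h2 : v - u = (b - a) * (b + a) := by rw [← e1, ← e2]; ring
  rw [h1, h2]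
  have h3 : a ^ 2 + a * b + b ^ 2 ≤ 3 * b * (b + a) := by nlinarith
  have h4 : 0 ≤ b - a := by linarith
  nlinarith

theorem volume_shell {M : ℝ} (hM : 0 < M) {R : ℝ} (hR : 1 ≤ R) :
    volume {ξ : V | |R * (1 - ‖ξ‖ ^ 2)| ≤ M}
      ≤ ENNReal.ofReal (8 * π * Real.sqrt (1 + M) * M / R) := by
  have hR0 : 0 < R := by linarith
  set v := 1 + M / R with hv
  set u := max (1 - M / R) 0 with hu
  have hMR : 0 < M / R := by positivity
  have hu0 : 0 ≤ u := le_max_right _ _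
  have hv0 : 0 < v := by positivity
  have huv : u ≤ v := max_le (by linarith) hv0.le
  have hvM : v ≤ 1 + M := by
    have : M / R ≤ M := div_le_self hM.le hR
    linarith
  have hvu : v - u ≤ 2 * (M / R) := by
    have : 1 - M / R ≤ u := le_max_left _ _
    linarith
  have hsub : {ξ : V | |R * (1 - ‖ξ‖ ^ 2)| ≤ M}
      ⊆ Metric.closedBall 0 (Real.sqrt v) \ Metric.ball 0 (Real.sqrt u) := by
    intro ξ hξ
    have h1 := abs_le.mp (show |R * (1 - ‖ξ‖ ^ 2)| ≤ M from hξ)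
    refine ⟨?_, ?_⟩
    · rw [mem_closedBall_zero_iff]
      apply Real.le_sqrt_of_sq_le
      rw [hv]
      have : ‖ξ‖ ^ 2 - 1 ≤ M / R := by
        rw [le_div_iff₀ hR0]; linarith [h1.1]
      linarith
    · rw [mem_ball_zero_iff, not_lt]
      rw [Real.sqrt_le_left (norm_nonneg _)]
      rw [hu]
      apply max_le _ (by positivity)
      have : 1 - ‖ξ‖ ^ 2 ≤ M / R := by
        rw [le_div_iff₀ hR0]; linarith [h1.2]
      linarith
  refine (measure_mono hsub).trans ?_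
  have hsub2 : Metric.ball (0:V) (Real.sqrt u) ⊆ Metric.closedBall (0:V) (Real.sqrt v) :=
    (Metric.ball_subset_ball (Real.sqrt_le_sqrt huv)).trans Metric.ball_subset_closedBall
  rw [measure_sdiff hsub2 measurableSet_ball.nullMeasurableSet measure_ball_lt_top.ne,
    EuclideanSpace.volume_closedBall_fin_three, EuclideanSpace.volume_ball_fin_three]
  rw [← ENNReal.ofReal_pow (Real.sqrt_nonneg _), ← ENNReal.ofReal_pow (Real.sqrt_nonneg _),
    ← ENNReal.ofReal_mul (by positivity), ← ENNReal.ofReal_mul (by positivity),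
    ← ENNReal.ofReal_sub _ (by positivity)]
  apply ENNReal.ofReal_le_ofReal
  have h1 := cube_sub_le hu0 hv0 huv
  have h2 : Real.sqrt v ≤ Real.sqrt (1 + M) := Real.sqrt_le_sqrt hvM
  have h3 : 3 * Real.sqrt v * (v - u) ≤ 3 * Real.sqrt (1 + M) * (2 * (M / R)) := by
    have h4 : 0 ≤ v - u := by linarith
    have h5 : 0 ≤ Real.sqrt (1 + M) := Real.sqrt_nonneg _
    calc 3 * Real.sqrt v * (v - u) ≤ 3 * Real.sqrt (1 + M) * (v - u) := by gcongr
      _ ≤ 3 * Real.sqrt (1 + M) * (2 * (M / R)) := by gcongr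
  calc Real.sqrt v ^ 3 * (π * 4 / 3) - Real.sqrt u ^ 3 * (π * 4 / 3)
      = (Real.sqrt v ^ 3 - Real.sqrt u ^ 3) * (π * 4 / 3) := by ring
    _ ≤ (3 * Real.sqrt (1 + M) * (2 * (M / R))) * (π * 4 / 3) := by
        have hpi := Real.pi_pos
        gcongr
        exact h1.trans h3
    _ = 8 * π * Real.sqrt (1 + M) * M / R := by ring

/-- a compactly supported continuous function is bounded. -/
theorem exists_bd {f : ℝ → ℝ} (hf : Continuous f) (hc : HasCompactSupport f) :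
    ∃ C : ℝ, 0 ≤ C ∧ ∀ t, |f t| ≤ C := by
  obtain ⟨C, hC⟩ := hf.bounded_above_of_compact_support hc
  exact ⟨C, (norm_nonneg _).trans (hC 0), fun t => hC t⟩

/-- uniform bound of `wS`. -/
theorem wS_bound {φ : ℝ → ℝ} (hφ : ContDiff ℝ ∞ φ) (hφ' : HasCompactSupport φ) :
    ∃ M C : ℝ, 0 < M ∧ 0 < C ∧ ∀ (R : ℝ) (hR : 1 ≤ R) (ξ : V),
      ‖wS hφ hφ' hR ξ‖ ≤ {ξ : V | |R * (1 - ‖ξ‖ ^ 2)| ≤ M}.indicator (fun _ => C) ξ := by
  have hφ1 : ContDiff ℝ ∞ (deriv φ) := (contDiff_infty_iff_deriv.mp hφ).2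
  have hφ2 : ContDiff ℝ ∞ (deriv (deriv φ)) := (contDiff_infty_iff_deriv.mp hφ1).2
  have hs1 : HasCompactSupport (deriv φ) := hφ'.deriv
  have hs2 : HasCompactSupport (deriv (deriv φ)) := hs1.deriv
  obtain ⟨M0, hM0, h0⟩ := exists_supp hφ'
  obtain ⟨M1, hM1, h1⟩ := exists_supp hs1
  obtain ⟨M2, hM2, h2⟩ := exists_supp hs2
  obtain ⟨C0, hC0, hb0⟩ := exists_bd hφ.continuous hφ'
  obtain ⟨C1, hC1, hb1⟩ := exists_bd hφ1.continuous hs1
  obtain ⟨C2, hC2, hb2⟩ := exists_bd hφ2.continuous hs2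
  set M := max M0 (max M1 M2) with hM
  have hMpos : 0 < M := lt_of_lt_of_le hM0 (le_max_left _ _)
  refine ⟨M, C0 + C2 * (4 * (1 + M)) + 6 * C1 + 1, hMpos, by positivity, fun R hR ξ => ?_⟩
  have hR0 : 0 < R := by linarith
  rw [wS_apply, Complex.norm_real, Real.norm_eq_abs]
  by_cases hξ : |R * (1 - ‖ξ‖ ^ 2)| ≤ M
  · rw [indicator_of_mem (show ξ ∈ {ξ : V | |R * (1 - ‖ξ‖ ^ 2)| ≤ M} from hξ)]
    have hn := norm_sq_le_of_mem hMpos hR hξ
    have e0 := hb0 (R * (1 - ‖ξ‖ ^ 2))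
    have e1 := hb1 (R * (1 - ‖ξ‖ ^ 2))
    have e2 := hb2 (R * (1 - ‖ξ‖ ^ 2))
    set a := φ (R * (1 - ‖ξ‖ ^ 2))
    set b := deriv φ (R * (1 - ‖ξ‖ ^ 2))
    set c := deriv (deriv φ) (R * (1 - ‖ξ‖ ^ 2))
    have hpi : 1 ≤ 4 * π ^ 2 := by
      have := Real.pi_gt_three
      nlinarith
    have e3 : |1 / (4 * π ^ 2 * R ^ 2) * (c * (4 * R ^ 2 * ‖ξ‖ ^ 2) - 6 * R * b)|
        ≤ C2 * (4 * (1 + M)) + 6 * C1 := by
      rw [abs_mul, abs_of_pos (by positivity)]
      have e4 : |c * (4 * R ^ 2 * ‖ξ‖ ^ 2) - 6 * R * b|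
          ≤ R ^ 2 * (C2 * (4 * (1 + M)) + 6 * C1) := by
        calc |c * (4 * R ^ 2 * ‖ξ‖ ^ 2) - 6 * R * b|
            ≤ |c * (4 * R ^ 2 * ‖ξ‖ ^ 2)| + |6 * R * b| := abs_sub _ _
          _ = |c| * (4 * R ^ 2 * ‖ξ‖ ^ 2) + 6 * R * |b| := by
              rw [abs_mul c, abs_mul (6 * R) b,
                abs_of_nonneg (by positivity : 0 ≤ 4 * R ^ 2 * ‖ξ‖ ^ 2),
                abs_of_nonneg (by positivity : 0 ≤ 6 * R)]
          _ ≤ C2 * (4 * R ^ 2 * (1 + M)) + 6 * R ^ 2 * C1 := by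
              have hRR : R ≤ R ^ 2 := by nlinarith
              gcongr
          _ = R ^ 2 * (C2 * (4 * (1 + M)) + 6 * C1) := by ring
      have e5 : 0 ≤ C2 * (4 * (1 + M)) + 6 * C1 := by positivity
      rw [one_div, inv_mul_le_iff₀ (by positivity)]
      refine e4.trans ?_
      have : R ^ 2 ≤ 4 * π ^ 2 * R ^ 2 := by nlinarith [sq_nonneg R]
      gcongr
    have := abs_sub a (1 / (4 * π ^ 2 * R ^ 2) * (c * (4 * R ^ 2 * ‖ξ‖ ^ 2) - 6 * R * b))
    linarith
  · rw [indicator_of_notMem (show ξ ∉ {ξ : V | |R * (1 - ‖ξ‖ ^ 2)| ≤ M} from hξ)]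
    push Not at hξ
    rw [h0 _ (lt_of_le_of_lt (le_max_left _ _) hξ),
      h1 _ (lt_of_le_of_lt ((le_max_left _ _).trans (le_max_right _ _)) hξ),
      h2 _ (lt_of_le_of_lt ((le_max_right _ _).trans (le_max_right _ _)) hξ)]
    simp

/-- Plancherel in `lintegral` form, inverse transform. -/
theorem lint_sq_fourierInv (f : 𝓢(V, ℂ)) :
    ∫⁻ x, ENNReal.ofReal (‖(𝓕⁻ f) x‖ ^ 2) = ∫⁻ x, ENNReal.ofReal (‖f x‖ ^ 2) := by
  have hi : ∀ g : 𝓢(V, ℂ), Integrable (fun x => ‖g x‖ ^ 2) := fun g => by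
    have := (g.memLp 2).integrable_norm_pow (by norm_num)
    simpa using this
  rw [← ofReal_integral_eq_lintegral_ofReal (hi _) (Filter.Eventually.of_forall fun x => by positivity),
    ← ofReal_integral_eq_lintegral_ofReal (hi _) (Filter.Eventually.of_forall fun x => by positivity)]
  congr 1
  have := SchwartzMap.integral_norm_sq_fourier (𝓕⁻ f)
  rw [FourierTransform.fourier_fourierInv_eq] at this
  exact this.symm

theorem lint_weight : ∃ c : ℝ, 0 ≤ c ∧ ∀ R : ℝ, 1 ≤ R →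
    ∫⁻ x : V, ENNReal.ofReal ((1 + ‖x‖ ^ 2 / R ^ 2)⁻¹) ^ (2:ℝ) = ENNReal.ofReal (R ^ 3 * c) := by
  have hint : Integrable (fun x : V => ((1:ℝ) + ‖x‖ ^ 2) ^ (-(4:ℝ) / 2)) :=
    integrable_rpow_neg_one_add_norm_sq (by simp; norm_num)
  refine ⟨∫ x : V, ((1:ℝ) + ‖x‖ ^ 2) ^ (-(4:ℝ) / 2), integral_nonneg fun x => by positivity,
    fun R hR => ?_⟩
  have hR0 : 0 < R := by linarith
  have h1 := Measure.integral_comp_inv_smul_of_nonneg (volume : Measure V)
    (fun x : V => ((1:ℝ) + ‖x‖ ^ 2) ^ (-(4:ℝ) / 2)) hR0.le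
  have h2 : Integrable (fun x : V => ((1:ℝ) + ‖R⁻¹ • x‖ ^ 2) ^ (-(4:ℝ) / 2)) :=
    hint.comp_smul (inv_ne_zero hR0.ne')
  rw [finrank_euclideanSpace_fin, smul_eq_mul] at h1
  rw [← h1, ofReal_integral_eq_lintegral_ofReal h2
    (Filter.Eventually.of_forall fun x => by positivity)]
  refine lintegral_congr fun x => ?_
  have h3 : ‖R⁻¹ • x‖ ^ 2 = ‖x‖ ^ 2 / R ^ 2 := by
    rw [norm_smul, norm_inv, Real.norm_of_nonneg hR0.le]; field_simp
  rw [h3, ENNReal.ofReal_rpow_of_nonneg (by positivity) (by norm_num)]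
  congr 1
  rw [Real.inv_rpow (by positivity), ← Real.rpow_neg (by positivity)]
  norm_num

/-- `‖K_R‖₁ ≤ C R`. -/
theorem kernel_L1 {φ : ℝ → ℝ} (hφ : ContDiff ℝ ∞ φ) (hφ' : HasCompactSupport φ) :
    ∃ A : ℝ, 0 < A ∧ ∀ R : ℝ, 1 ≤ R → ∫⁻ x, ‖KR φ R x‖ₑ ≤ ENNReal.ofReal (A * R) := by
  obtain ⟨M, C, hM, hC, hb⟩ := wS_bound hφ hφ'
  obtain ⟨c, hc, hcw⟩ := lint_weight
  refine ⟨Real.sqrt (c * (C ^ 2 * (8 * π * Real.sqrt (1 + M) * M))) + 1, by positivity,
    fun R hR => ?_⟩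
  have hR0 : 0 < R := by linarith
  -- L² bound of `wS`
  have h1 : ∫⁻ x, ENNReal.ofReal (‖wS hφ hφ' hR x‖ ^ 2)
      ≤ ENNReal.ofReal (C ^ 2 * (8 * π * Real.sqrt (1 + M) * M / R)) := by
    have hms : MeasurableSet {ξ : V | |R * (1 - ‖ξ‖ ^ 2)| ≤ M} :=
      measurableSet_le (by fun_prop) measurable_const
    calc ∫⁻ x, ENNReal.ofReal (‖wS hφ hφ' hR x‖ ^ 2)
        ≤ ∫⁻ x, {ξ : V | |R * (1 - ‖ξ‖ ^ 2)| ≤ M}.indicator
            (fun _ => ENNReal.ofReal (C ^ 2)) x := by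
          refine lintegral_mono fun x => ?_
          have := hb R hR x
          by_cases hx : x ∈ {ξ : V | |R * (1 - ‖ξ‖ ^ 2)| ≤ M}
          · rw [indicator_of_mem hx] at this ⊢
            exact ENNReal.ofReal_le_ofReal (by gcongr)
          · rw [indicator_of_notMem hx] at this ⊢
            have h0 : ‖wS hφ hφ' hR x‖ = 0 := le_antisymm this (norm_nonneg _)
            rw [h0]; simp
      _ = ENNReal.ofReal (C ^ 2) * volume {ξ : V | |R * (1 - ‖ξ‖ ^ 2)| ≤ M} := by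
          rw [lintegral_indicator hms, setLIntegral_const]
      _ ≤ ENNReal.ofReal (C ^ 2) * ENNReal.ofReal (8 * π * Real.sqrt (1 + M) * M / R) := by
          gcongr
          exact volume_shell hM hR
      _ = _ := by rw [← ENNReal.ofReal_mul (by positivity)]
  have h2 : ∫⁻ x, ENNReal.ofReal ‖(𝓕⁻ (wS hφ hφ' hR)) x‖ ^ (2:ℝ)
      ≤ ENNReal.ofReal (C ^ 2 * (8 * π * Real.sqrt (1 + M) * M / R)) := by
    refine le_trans (le_of_eq ?_) h1
    rw [← lint_sq_fourierInv]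
    refine lintegral_congr fun x => ?_
    rw [ENNReal.ofReal_rpow_of_nonneg (norm_nonneg _) (by norm_num)]
    norm_num
  have h3 := ENNReal.lintegral_mul_le_Lp_mul_Lq (volume : Measure V) Real.HolderConjugate.two_two
    (f := fun x => ENNReal.ofReal ((1 + ‖x‖ ^ 2 / R ^ 2)⁻¹))
    (g := fun x => ENNReal.ofReal ‖(𝓕⁻ (wS hφ hφ' hR)) x‖)
    (by fun_prop) (by
      have := (𝓕⁻ (wS hφ hφ' hR)).continuous.norm.measurable.ennreal_ofReal
      exact this.aemeasurable)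
  simp only [Pi.mul_apply] at h3
  have h4 : ∫⁻ x, ‖KR φ R x‖ₑ = ∫⁻ x : V, ENNReal.ofReal ((1 + ‖x‖ ^ 2 / R ^ 2)⁻¹) *
      ENNReal.ofReal ‖(𝓕⁻ (wS hφ hφ' hR)) x‖ := by
    refine lintegral_congr fun x => ?_
    rw [← ENNReal.ofReal_mul (by positivity), fourierInv_wS, norm_mul,
      Complex.norm_real, Real.norm_of_nonneg (by positivity), ← mul_assoc,
      inv_mul_cancel₀ (by positivity), one_mul, ofReal_norm]
  rw [h4]
  refine h3.trans ?_
  rw [hcw R hR]
  calc ENNReal.ofReal (R ^ 3 * c) ^ (1 / (2:ℝ)) *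
        (∫⁻ x, ENNReal.ofReal ‖(𝓕⁻ (wS hφ hφ' hR)) x‖ ^ (2:ℝ)) ^ (1 / (2:ℝ))
      ≤ ENNReal.ofReal (R ^ 3 * c) ^ (1 / (2:ℝ)) *
        (ENNReal.ofReal (C ^ 2 * (8 * π * Real.sqrt (1 + M) * M / R))) ^ (1 / (2:ℝ)) := by
        gcongr
    _ = ENNReal.ofReal (Real.sqrt (R ^ 3 * c * (C ^ 2 * (8 * π * Real.sqrt (1 + M) * M / R)))) := by
        rw [← ENNReal.mul_rpow_of_nonneg _ _ (by norm_num), ← ENNReal.ofReal_mul (by positivity),
          ENNReal.ofReal_rpow_of_nonneg (by positivity) (by norm_num)]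
        congr 1
        exact (Real.sqrt_eq_rpow _).symm
    _ ≤ _ := by
        apply ENNReal.ofReal_le_ofReal
        have h5 : R ^ 3 * c * (C ^ 2 * (8 * π * Real.sqrt (1 + M) * M / R))
            = R ^ 2 * (c * (C ^ 2 * (8 * π * Real.sqrt (1 + M) * M))) := by
          field_simp
        rw [h5, Real.sqrt_mul (by positivity), Real.sqrt_sq hR0.le]
        nlinarith [Real.sqrt_nonneg (c * (C ^ 2 * (8 * π * Real.sqrt (1 + M) * M)))]

end Crest.Agent.R138.Sh200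
end

-- ▼ part R138/Sh1_200
section

/-!
R138, outer shell (1): one-dimensional integrals and Tonelli lemmas used by the two
Marcinkiewicz arguments.
-/

set_option autoImplicit false

namespace Crest.Agent.R138.Sh200

open MeasureTheory Set
open scoped ENNReal NNReal

theorem lint_Ioo_rpow {q b : ℝ} (hq : -1 < q) (hb : 0 ≤ b) :
    ∫⁻ t in Ioo 0 b, ENNReal.ofReal (t ^ q) = ENNReal.ofReal (b ^ (q + 1) / (q + 1)) := by
  rw [← ofReal_integral_eq_lintegral_ofReal]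
  · congr 1
    rw [← integral_Ioc_eq_integral_Ioo, ← intervalIntegral.integral_of_le hb,
      integral_rpow (Or.inl hq)]
    rw [Real.zero_rpow (by linarith), sub_zero]
  · have h := (intervalIntegral.intervalIntegrable_rpow' (a := 0) (b := b) hq).1
    exact h.mono_set Ioo_subset_Ioc_self
  · filter_upwards [ae_restrict_mem measurableSet_Ioo] with t ht using Real.rpow_nonneg ht.1.le _

theorem lint_Ioi_rpow {q b : ℝ} (hq : q < -1) (hb : 0 < b) :
    ∫⁻ t in Ioi b, ENNReal.ofReal (t ^ q) = ENNReal.ofReal (b ^ (q + 1) / (-(q + 1))) := by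
  rw [← ofReal_integral_eq_lintegral_ofReal]
  · congr 1
    rw [integral_Ioi_rpow_of_lt hq hb, div_neg, neg_div]
  · exact integrableOn_Ioi_rpow_of_lt hq hb
  · filter_upwards [ae_restrict_mem measurableSet_Ioi] with t ht using
      Real.rpow_nonneg (hb.trans ht).le _

variable {α : Type*} [MeasurableSpace α] {μ : Measure α} [SFinite μ]

/-- Tonelli, upper truncation. -/
theorem tonelli_gt {g : α → ℝ} (hg : Measurable g) (hg0 : ∀ x, 0 ≤ g x) {G : α → ℝ≥0∞}
    (hG : Measurable G) {q a : ℝ} (hq : -1 < q) (ha : 0 < a) :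
    ∫⁻ t in Ioi (0:ℝ), ENNReal.ofReal (t ^ q) * ∫⁻ x in {x | a * t < g x}, G x ∂μ
      = ∫⁻ x, G x * ENNReal.ofReal ((g x / a) ^ (q + 1) / (q + 1)) ∂μ := by
  have hm : Measurable (fun z : ℝ × α => ENNReal.ofReal (z.1 ^ q) *
      ({z : ℝ × α | a * z.1 < g z.2}.indicator (fun z => G z.2) z)) := by
    apply Measurable.mul
    · exact ENNReal.measurable_ofReal.comp ((measurable_fst).pow_const q)
    · apply Measurable.indicator (hG.comp measurable_snd)
      exact measurableSet_lt (measurable_const.mul measurable_fst) (hg.comp measurable_snd)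
  have e1 : ∀ t : ℝ, ENNReal.ofReal (t ^ q) * ∫⁻ x in {x | a * t < g x}, G x ∂μ
      = ∫⁻ x, ENNReal.ofReal (t ^ q) *
        ({z : ℝ × α | a * z.1 < g z.2}.indicator (fun z => G z.2) (t, x)) ∂μ := by
    intro t
    rw [lintegral_const_mul]
    · congr 1
      rw [← lintegral_indicator (measurableSet_lt measurable_const hg)]
      rfl
    · exact (Measurable.indicator hG (measurableSet_lt (measurable_const (a := a * t)) hg) :)
  simp_rw [e1]
  rw [lintegral_lintegral_swap (f := fun t x => ENNReal.ofReal (t ^ q) *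
        ({z : ℝ × α | a * z.1 < g z.2}.indicator (fun z => G z.2) (t, x))) hm.aemeasurable]
  refine lintegral_congr fun x => ?_
  have e2 : ∀ t : ℝ, t ∈ Ioi (0:ℝ) → ENNReal.ofReal (t ^ q) *
      ({z : ℝ × α | a * z.1 < g z.2}.indicator (fun z => G z.2) (t, x))
      = (Ioo 0 (g x / a)).indicator (fun t => G x * ENNReal.ofReal (t ^ q)) t := by
    intro t ht
    by_cases h : a * t < g x
    · have h1 : t ∈ Ioo 0 (g x / a) := ⟨ht, by rw [lt_div_iff₀ ha]; linarith⟩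
      rw [indicator_of_mem h1, indicator_of_mem (by exact h), mul_comm]
    · have h1 : t ∉ Ioo 0 (g x / a) := by
        intro h2
        apply h
        have := h2.2
        rw [lt_div_iff₀ ha] at this
        linarith
      rw [indicator_of_notMem h1, indicator_of_notMem (by exact h), mul_zero]
  rw [setLIntegral_congr_fun measurableSet_Ioi e2, lintegral_indicator measurableSet_Ioo,
    Measure.restrict_restrict measurableSet_Ioo]
  have e3 : Ioo (0:ℝ) (g x / a) ∩ Ioi 0 = Ioo 0 (g x / a) := by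
    apply inter_eq_left.mpr
    intro t ht
    exact ht.1
  rw [e3, lintegral_const_mul _ (by
    exact ENNReal.measurable_ofReal.comp (measurable_id.pow_const q)),
    lint_Ioo_rpow hq (div_nonneg (hg0 x) ha.le)]

/-- Tonelli, lower truncation. -/
theorem tonelli_le {g : α → ℝ} (hg : Measurable g) (hg0 : ∀ x, 0 ≤ g x) {G : α → ℝ≥0∞}
    (hG : Measurable G) (hG0 : ∀ x, g x = 0 → G x = 0) {q : ℝ} (hq : q < -1) :
    ∫⁻ t in Ioi (0:ℝ), ENNReal.ofReal (t ^ q) * ∫⁻ x in {x | g x ≤ t}, G x ∂μ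
      = ∫⁻ x, G x * ENNReal.ofReal ((g x) ^ (q + 1) / (-(q + 1))) ∂μ := by
  have hm : Measurable (fun z : ℝ × α => ENNReal.ofReal (z.1 ^ q) *
      ({z : ℝ × α | g z.2 ≤ z.1}.indicator (fun z => G z.2) z)) := by
    apply Measurable.mul
    · exact ENNReal.measurable_ofReal.comp ((measurable_fst).pow_const q)
    · apply Measurable.indicator (hG.comp measurable_snd)
      exact measurableSet_le (hg.comp measurable_snd) measurable_fst
  have e1 : ∀ t : ℝ, ENNReal.ofReal (t ^ q) * ∫⁻ x in {x | g x ≤ t}, G x ∂μ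
      = ∫⁻ x, ENNReal.ofReal (t ^ q) *
        ({z : ℝ × α | g z.2 ≤ z.1}.indicator (fun z => G z.2) (t, x)) ∂μ := by
    intro t
    rw [lintegral_const_mul]
    · congr 1
      rw [← lintegral_indicator (measurableSet_le hg measurable_const)]
      rfl
    · exact (Measurable.indicator hG (measurableSet_le hg (measurable_const (a := t))) :)
  simp_rw [e1]
  rw [lintegral_lintegral_swap (f := fun t x => ENNReal.ofReal (t ^ q) *
        ({z : ℝ × α | g z.2 ≤ z.1}.indicator (fun z => G z.2) (t, x))) hm.aemeasurable]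
  refine lintegral_congr fun x => ?_
  rcases eq_or_lt_of_le (hg0 x) with h0 | h0
  · have : G x = 0 := hG0 x h0.symm
    rw [this, zero_mul]
    rw [lintegral_congr (g := fun _ => 0)]
    · simp
    · intro t
      by_cases h : g x ≤ t
      · rw [indicator_of_mem (by exact h), this, mul_zero]
      · rw [indicator_of_notMem (by exact h), mul_zero]
  have e2 : ∀ t : ℝ, t ∈ Ioi (0:ℝ) → ENNReal.ofReal (t ^ q) *
      ({z : ℝ × α | g z.2 ≤ z.1}.indicator (fun z => G z.2) (t, x))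
      = (Ici (g x)).indicator (fun t => G x * ENNReal.ofReal (t ^ q)) t := by
    intro t ht
    by_cases h : g x ≤ t
    · rw [indicator_of_mem (by exact h), indicator_of_mem (by exact h), mul_comm]
    · rw [indicator_of_notMem (by exact h), indicator_of_notMem (by exact h), mul_zero]
  rw [setLIntegral_congr_fun measurableSet_Ioi e2, lintegral_indicator measurableSet_Ici,
    Measure.restrict_restrict measurableSet_Ici]
  have e3 : Ici (g x) ∩ Ioi 0 = Ici (g x) := by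
    apply inter_eq_left.mpr
    intro t ht
    exact h0.trans_le ht
  rw [e3, lintegral_const_mul _ (by
    exact ENNReal.measurable_ofReal.comp (measurable_id.pow_const q)),
    setLIntegral_congr Ioi_ae_eq_Ici.symm, lint_Ioi_rpow hq h0]

end Crest.Agent.R138.Sh200
end

-- ▼ part R138/Sh2_200
section

/-!
R138, outer shell (2): Marcinkiewicz interpolation from a restricted `L³` bound and a trivial
`L^∞` bound, for `p > 3`.
-/

set_option autoImplicit false

namespace Crest.Agent.R138.Sh200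

open MeasureTheory Set
open scoped ENNReal NNReal

variable {α : Type*} [MeasurableSpace α]

/-- bounded measurable functions. -/
structure BM (f : α → ℂ) : Prop where
  meas : Measurable f
  bdd : ∃ C : ℝ, ∀ x, ‖f x‖ ≤ C

theorem BM.add {f g : α → ℂ} (hf : BM f) (hg : BM g) : BM (f + g) := by
  obtain ⟨C, hC⟩ := hf.bdd
  obtain ⟨D, hD⟩ := hg.bdd
  exact ⟨hf.meas.add hg.meas, C + D, fun x => (norm_add_le _ _).trans (add_le_add (hC x) (hD x))⟩

theorem BM.smul {f : α → ℂ} (hf : BM f) (c : ℂ) : BM (c • f) := by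
  obtain ⟨C, hC⟩ := hf.bdd
  refine ⟨hf.meas.const_smul c, ‖c‖ * C, fun x => ?_⟩
  rw [Pi.smul_apply, norm_smul]
  exact mul_le_mul_of_nonneg_left (hC x) (norm_nonneg _)

theorem BM.zero : BM (0 : α → ℂ) := ⟨measurable_const, 0, fun x => by simp⟩

theorem BM.indicator {f : α → ℂ} (hf : BM f) {s : Set α} (hs : MeasurableSet s) :
    BM (s.indicator f) := by
  obtain ⟨C, hC⟩ := hf.bdd
  refine ⟨hf.meas.indicator hs, C, fun x => ?_⟩
  by_cases h : x ∈ s
  · rw [indicator_of_mem h]; exact hC x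
  · rw [indicator_of_notMem h, norm_zero]; exact (norm_nonneg _).trans (hC x)

theorem BM.sum {ι : Type*} {f : ι → α → ℂ} (s : Finset ι) (hf : ∀ i ∈ s, BM (f i)) :
    BM (∑ i ∈ s, f i) := by
  classical
  induction s using Finset.induction_on with
  | empty => simpa using BM.zero
  | insert a s ha ih =>
    rw [Finset.sum_insert ha]
    exact (hf a (Finset.mem_insert_self a s)).add
      (ih fun i hi => hf i (Finset.mem_insert_of_mem hi))

/-- a linear operator on bounded measurable functions with a sup bound and a restricted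
`L³` bound. -/
structure Op (μ : Measure α) (T : (α → ℂ) → (α → ℂ)) (A B : ℝ) : Prop where
  add : ∀ f g, BM f → BM g → ∀ x, T (f + g) x = T f x + T g x
  smul : ∀ (c : ℂ) f, BM f → ∀ x, T (c • f) x = c * T f x
  meas : ∀ f, BM f → Measurable (T f)
  sup : ∀ f (C : ℝ), Measurable f → (∀ x, ‖f x‖ ≤ C) → ∀ x, ‖T f x‖ ≤ A * C
  res : ∀ Ω, MeasurableSet Ω → μ Ω ≠ ∞ → ∀ f, Measurable f →
    (∀ x, ‖f x‖ ≤ Ω.indicator (fun _ => (1:ℝ)) x) →
    ∫⁻ x, ENNReal.ofReal (‖T f x‖ ^ (3:ℝ)) ∂μ ≤ ENNReal.ofReal B * μ Ω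

namespace Op

variable {μ : Measure α} {T : (α → ℂ) → (α → ℂ)} {A B : ℝ}

theorem map_zero (hT : Op μ T A B) (x : α) : T 0 x = 0 := by
  have := hT.smul 0 0 BM.zero x
  simpa using this

theorem map_sum (hT : Op μ T A B) {ι : Type*} {f : ι → α → ℂ} (s : Finset ι)
    (hf : ∀ i ∈ s, BM (f i)) (x : α) : T (∑ i ∈ s, f i) x = ∑ i ∈ s, T (f i) x := by
  classical
  induction s using Finset.induction_on with
  | empty => simpa using hT.map_zero x
  | insert a s ha ih =>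
    rw [Finset.sum_insert ha, Finset.sum_insert ha,
      hT.add _ _ (hf a (Finset.mem_insert_self a s))
        (BM.sum s fun i hi => hf i (Finset.mem_insert_of_mem hi)),
      ih fun i hi => hf i (Finset.mem_insert_of_mem hi)]

/-- the restricted bound, scaled. -/
theorem res_scale (hT : Op μ T A B) {Ω : Set α} (hΩ : MeasurableSet Ω) (hf0 : μ Ω ≠ ∞)
    {f : α → ℂ} (hf : Measurable f) {c : ℝ} (hc : 0 < c)
    (h : ∀ x, ‖f x‖ ≤ Ω.indicator (fun _ => c) x) :
    ∫⁻ x, ENNReal.ofReal (‖T f x‖ ^ (3:ℝ)) ∂μ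
      ≤ ENNReal.ofReal (B * c ^ (3:ℝ)) * μ Ω := by
  have hbm : BM f := by
    refine ⟨hf, c, fun x => (h x).trans ?_⟩
    by_cases hx : x ∈ Ω
    · rw [indicator_of_mem hx]
    · rw [indicator_of_notMem hx]; exact hc.le
  have hcc : (c:ℂ) ≠ 0 := by exact_mod_cast hc.ne'
  set g : α → ℂ := (c:ℂ)⁻¹ • f with hg
  have hgm : BM g := hbm.smul _
  have hfg : f = (c:ℂ) • g := by
    rw [hg, smul_smul, mul_inv_cancel₀ hcc, one_smul]
  have h1 : ∀ x, ‖g x‖ ≤ Ω.indicator (fun _ => (1:ℝ)) x := by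
    intro x
    rw [hg, Pi.smul_apply, norm_smul, norm_inv, Complex.norm_real, Real.norm_of_nonneg hc.le]
    have h2 := h x
    by_cases hx : x ∈ Ω
    · rw [indicator_of_mem hx] at h2 ⊢
      rw [inv_mul_le_iff₀ hc, mul_one]; exact h2
    · rw [indicator_of_notMem hx] at h2 ⊢
      have : ‖f x‖ = 0 := le_antisymm h2 (norm_nonneg _)
      rw [this, mul_zero]
  have h2 := hT.res Ω hΩ hf0 g hgm.meas h1
  have h3 : ∀ x, ENNReal.ofReal (‖T f x‖ ^ (3:ℝ))
      = ENNReal.ofReal (c ^ (3:ℝ)) * ENNReal.ofReal (‖T g x‖ ^ (3:ℝ)) := by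
    intro x
    rw [hfg, hT.smul _ _ hgm, norm_mul, Complex.norm_real, Real.norm_of_nonneg hc.le,
      Real.mul_rpow hc.le (norm_nonneg _), ENNReal.ofReal_mul (by positivity)]
  simp_rw [h3]
  rw [lintegral_const_mul _ ((hT.meas g hgm).norm.pow_const _).ennreal_ofReal]
  calc ENNReal.ofReal (c ^ (3:ℝ)) * ∫⁻ x, ENNReal.ofReal (‖T g x‖ ^ (3:ℝ)) ∂μ
      ≤ ENNReal.ofReal (c ^ (3:ℝ)) * (ENNReal.ofReal B * μ Ω) := by gcongr
    _ = ENNReal.ofReal (B * c ^ (3:ℝ)) * μ Ω := by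
        rw [← mul_assoc, ← ENNReal.ofReal_mul (by positivity), mul_comm B]

end Op

/-- weighted power mean, exponent 3. -/
theorem pow3_sum_le {N : ℕ} (a : ℕ → ℝ) (ha : ∀ i, 0 ≤ a i) {η : ℝ} (hη : 0 < η) :
    (∑ i ∈ Finset.range N, a i) ^ (3:ℝ)
      ≤ (1 - 2 ^ (-η))⁻¹ ^ (2:ℝ) * ∑ i ∈ Finset.range N, (2:ℝ) ^ (2 * η * i) * (a i) ^ (3:ℝ) := by
  rcases Nat.eq_zero_or_pos N with hN | hN
  · subst hN; simp
  set u : ℕ → ℝ := fun i => (2:ℝ) ^ (-(η * i)) with hu
  have hu0 : ∀ i, 0 < u i := fun i => by positivity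
  set W := ∑ i ∈ Finset.range N, u i with hW
  have hW0 : 0 < W := Finset.sum_pos (fun i _ => hu0 i) (Finset.nonempty_range_iff.mpr hN.ne')
  have hr1 : (2:ℝ) ^ (-η) < 1 := Real.rpow_lt_one_of_one_lt_of_neg (by norm_num) (by linarith)
  have hr0 : 0 < (2:ℝ) ^ (-η) := by positivity
  have hWle : W ≤ (1 - 2 ^ (-η))⁻¹ := by
    have h1 : ∀ i, u i = ((2:ℝ) ^ (-η)) ^ i := by
      intro i
      show (2:ℝ) ^ (-(η * i)) = ((2:ℝ) ^ (-η)) ^ i
      rw [← Real.rpow_natCast, ← Real.rpow_mul (by norm_num)]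
      congr 1; ring
    rw [hW]
    simp_rw [h1]
    rw [geom_sum_eq hr1.ne]
    rw [← neg_sub, ← neg_sub (1:ℝ), neg_div_neg_eq, div_eq_mul_inv]
    have : (1 - ((2:ℝ) ^ (-η)) ^ N) ≤ 1 := by
      have := pow_pos hr0 N
      linarith
    have h2 : 0 < (1 - (2:ℝ) ^ (-η))⁻¹ := inv_pos.mpr (by linarith)
    nlinarith
  have key := Real.rpow_arith_mean_le_arith_mean_rpow (Finset.range N) (fun i => u i / W)
    (fun i => a i / u i) (fun i _ => (div_pos (hu0 i) hW0).le)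
    (by rw [← Finset.sum_div, ← hW, div_self hW0.ne'])
    (fun i _ => div_nonneg (ha i) (hu0 i).le) (p := (3:ℝ)) (by norm_num)
  have e1 : ∑ i ∈ Finset.range N, u i / W * (a i / u i) = (∑ i ∈ Finset.range N, a i) / W := by
    rw [Finset.sum_div]
    refine Finset.sum_congr rfl fun i _ => ?_
    have := hu0 i
    field_simp
  have e2 : ∀ i, u i / W * (a i / u i) ^ (3:ℝ) = W⁻¹ * ((2:ℝ) ^ (2 * η * i) * (a i) ^ (3:ℝ)) := by
    intro i
    rw [Real.div_rpow (ha i) (hu0 i).le]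
    have h3 : (u i) ^ (3:ℝ) = (u i) ^ 3 := by
      exact_mod_cast Real.rpow_natCast (u i) 3
    have h4 : (2:ℝ) ^ (2 * η * i) = ((u i) ^ 2)⁻¹ := by
      show (2:ℝ) ^ (2 * η * i) = (((2:ℝ) ^ (-(η * i))) ^ 2)⁻¹
      rw [← Real.rpow_natCast ((2:ℝ) ^ (-(η * i))), ← Real.rpow_mul (by norm_num),
        ← Real.rpow_neg (by norm_num)]
      congr 1; push_cast; ring
    rw [h3, h4]
    have := hu0 i
    field_simp
  rw [e1] at key
  have key2 : ((∑ i ∈ Finset.range N, a i) / W) ^ (3:ℝ)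
      ≤ W⁻¹ * ∑ i ∈ Finset.range N, ((2:ℝ) ^ (2 * η * i) * (a i) ^ (3:ℝ)) := by
    rw [Finset.mul_sum]
    refine key.trans (le_of_eq (Finset.sum_congr rfl fun i _ => e2 i))
  rw [Real.div_rpow (Finset.sum_nonneg fun i _ => ha i) hW0.le] at key2
  have h3 : W ^ (3:ℝ) = W ^ 3 := by exact_mod_cast Real.rpow_natCast W 3
  rw [h3, div_le_iff₀ (by positivity)] at key2
  refine key2.trans ?_
  have hS : 0 ≤ ∑ i ∈ Finset.range N, ((2:ℝ) ^ (2 * η * i) * (a i) ^ (3:ℝ)) :=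
    Finset.sum_nonneg fun i _ => mul_nonneg (by positivity) (Real.rpow_nonneg (ha i) _)
  have e3 : W⁻¹ * (∑ i ∈ Finset.range N, ((2:ℝ) ^ (2 * η * i) * (a i) ^ (3:ℝ))) * W ^ 3
      = W ^ 2 * ∑ i ∈ Finset.range N, ((2:ℝ) ^ (2 * η * i) * (a i) ^ (3:ℝ)) := by
    field_simp
  rw [e3]
  refine mul_le_mul_of_nonneg_right ?_ hS
  have h5 : (1 - (2:ℝ) ^ (-η))⁻¹ ^ (2:ℝ) = (1 - (2:ℝ) ^ (-η))⁻¹ ^ 2 := by
    exact_mod_cast Real.rpow_natCast _ 2
  rw [h5]
  gcongr

/-- the constant of the power-mean inequality. -/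
noncomputable def cη (η : ℝ) : ℝ := 8 * (1 - 2 ^ (-η))⁻¹ ^ (2:ℝ)

namespace Op

variable {μ : Measure α} {T : (α → ℂ) → (α → ℂ)} {A B : ℝ}

/-- strong `L³` bound of the image of the large part. -/
theorem large (hT : Op μ T A B) (hB : 0 ≤ B) {f : α → ℂ} (hf : BM f) {s : ℝ} (hs : 0 < s)
    (hfin : μ {x | s < ‖f x‖} ≠ ∞) {η : ℝ} (hη : 0 < η) :
    ∫⁻ x, ENNReal.ofReal (‖T ({x | s < ‖f x‖}.indicator f) x‖ ^ (3:ℝ)) ∂μ
      ≤ ENNReal.ofReal (cη η * B * s ^ (-(2 * η)))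
        * ∫⁻ x in {x | s < ‖f x‖}, ENNReal.ofReal (‖f x‖ ^ (3 + 2 * η)) ∂μ := by
  obtain ⟨C, hC⟩ := hf.bdd
  obtain ⟨N, hN⟩ := pow_unbounded_of_one_lt (C / s) (one_lt_two (α := ℝ))
  have hN' : C < 2 ^ N * s := by rwa [div_lt_iff₀ hs] at hN
  set Ω : ℕ → Set α := fun i => {x | 2 ^ i * s < ‖f x‖ ∧ ‖f x‖ ≤ 2 ^ (i + 1) * s} with hΩ
  have hΩm : ∀ i, MeasurableSet (Ω i) := fun i =>
    (measurableSet_lt measurable_const hf.meas.norm).inter
      (measurableSet_le hf.meas.norm measurable_const)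
  have hΩd : Pairwise (Function.onFun Disjoint Ω) := by
    intro i j hij
    rw [Function.onFun, Set.disjoint_left]
    rintro x ⟨h1, h2⟩ ⟨h3, h4⟩
    rcases lt_or_gt_of_ne hij with h | h
    · have : (2:ℝ) ^ (i + 1) * s ≤ 2 ^ j * s := by
        gcongr
        · norm_num
        · exact h
      linarith
    · have : (2:ℝ) ^ (j + 1) * s ≤ 2 ^ i * s := by
        gcongr
        · norm_num
        · exact h
      linarith
  have hsub : ∀ i, Ω i ⊆ {x | s < ‖f x‖} := by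
    rintro i x ⟨h1, _⟩
    have : (1:ℝ) ≤ 2 ^ i := one_le_pow₀ (by norm_num)
    show s < ‖f x‖
    nlinarith
  have hdec : {x | s < ‖f x‖}.indicator f = ∑ i ∈ Finset.range N, (Ω i).indicator f := by
    funext x
    rw [Finset.sum_apply]
    by_cases hx : s < ‖f x‖
    · rw [indicator_of_mem (by exact hx)]
      -- find the level
      have hex : ∃ n : ℕ, ‖f x‖ ≤ 2 ^ (n + 1) * s := by
        refine ⟨N, (hC x).trans (hN'.le.trans ?_)⟩
        gcongr
        · norm_num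
        · exact Nat.le_succ N
      classical
      set n := Nat.find hex with hn
      have h1 : ‖f x‖ ≤ 2 ^ (n + 1) * s := Nat.find_spec hex
      have h2 : 2 ^ n * s < ‖f x‖ := by
        rcases Nat.eq_zero_or_pos n with h0 | h0
        · rw [h0]; simpa using hx
        · have := Nat.find_min hex (m := n - 1) (by omega)
          rw [not_le, Nat.sub_add_cancel h0] at this
          exact this
      have h3 : n < N := by
        by_contra hcon
        push Not at hcon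
        have : (2:ℝ) ^ N * s ≤ 2 ^ n * s := by
          gcongr
          norm_num
        have := hC x
        linarith
      rw [Finset.sum_eq_single n]
      · rw [indicator_of_mem (show x ∈ Ω n from ⟨h2, h1⟩)]
      · intro j _ hj
        apply indicator_of_notMem
        intro hxj
        exact (Set.disjoint_left.mp (hΩd hj) hxj) ⟨h2, h1⟩
      · intro h
        exact absurd (Finset.mem_range.mpr h3) h
    · rw [indicator_of_notMem (by exact hx)]
      symm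
      apply Finset.sum_eq_zero
      intro i _
      apply indicator_of_notMem
      intro hxi
      exact hx (hsub i hxi)
  have hbm : ∀ i, BM ((Ω i).indicator f) := fun i => hf.indicator (hΩm i)
  have hTsum : ∀ x, ‖T ({x | s < ‖f x‖}.indicator f) x‖
      ≤ ∑ i ∈ Finset.range N, ‖T ((Ω i).indicator f) x‖ := by
    intro x
    rw [hdec, hT.map_sum _ (fun i _ => hbm i)]
    exact norm_sum_le _ _
  have hW : 0 ≤ (1 - (2:ℝ) ^ (-η))⁻¹ ^ (2:ℝ) := by
    have hr1 : (2:ℝ) ^ (-η) < 1 := Real.rpow_lt_one_of_one_lt_of_neg (by norm_num) (by linarith)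
    have : 0 < (1 - (2:ℝ) ^ (-η))⁻¹ := inv_pos.mpr (by linarith)
    positivity
  set W2 : ℝ := (1 - (2:ℝ) ^ (-η))⁻¹ ^ (2:ℝ) with hW2
  have hptw : ∀ x, ENNReal.ofReal (‖T ({x | s < ‖f x‖}.indicator f) x‖ ^ (3:ℝ))
      ≤ ∑ i ∈ Finset.range N, ENNReal.ofReal (W2 * (2:ℝ) ^ (2 * η * i))
          * ENNReal.ofReal (‖T ((Ω i).indicator f) x‖ ^ (3:ℝ)) := by
    intro x
    have h1 := pow3_sum_le (N := N) (fun i => ‖T ((Ω i).indicator f) x‖)
      (fun i => norm_nonneg _) hη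
    rw [← hW2] at h1
    have h2 : ‖T ({x | s < ‖f x‖}.indicator f) x‖ ^ (3:ℝ)
        ≤ (∑ i ∈ Finset.range N, ‖T ((Ω i).indicator f) x‖) ^ (3:ℝ) := by
      gcongr
      exact hTsum x
    refine (ENNReal.ofReal_le_ofReal (h2.trans h1)).trans ?_
    rw [Finset.mul_sum, ENNReal.ofReal_sum_of_nonneg]
    · refine Finset.sum_le_sum fun i _ => le_of_eq ?_
      rw [← ENNReal.ofReal_mul (by positivity)]
      congr 1; ring
    · intro i _
      positivity
  have hTm : ∀ i, Measurable fun x => ENNReal.ofReal (‖T ((Ω i).indicator f) x‖ ^ (3:ℝ)) :=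
    fun i => ENNReal.measurable_ofReal.comp ((hT.meas _ (hbm i)).norm.pow_const _)
  calc ∫⁻ x, ENNReal.ofReal (‖T ({x | s < ‖f x‖}.indicator f) x‖ ^ (3:ℝ)) ∂μ
      ≤ ∫⁻ x, ∑ i ∈ Finset.range N, ENNReal.ofReal (W2 * (2:ℝ) ^ (2 * η * i))
          * ENNReal.ofReal (‖T ((Ω i).indicator f) x‖ ^ (3:ℝ)) ∂μ := lintegral_mono hptw
    _ = ∑ i ∈ Finset.range N, ENNReal.ofReal (W2 * (2:ℝ) ^ (2 * η * i))
          * ∫⁻ x, ENNReal.ofReal (‖T ((Ω i).indicator f) x‖ ^ (3:ℝ)) ∂μ := by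
        rw [lintegral_finsetSum]
        · refine Finset.sum_congr rfl fun i _ => ?_
          rw [lintegral_const_mul _ (hTm i)]
        · intro i _
          exact (hTm i).const_mul _
    _ ≤ ∑ i ∈ Finset.range N, ENNReal.ofReal (cη η * B * s ^ (-(2 * η)))
          * ∫⁻ x in Ω i, ENNReal.ofReal (‖f x‖ ^ (3 + 2 * η)) ∂μ := by
        refine Finset.sum_le_sum fun i _ => ?_
        have hc : 0 < (2:ℝ) ^ (i + 1) * s := by positivity
        have hfin' : μ (Ω i) ≠ ∞ := ne_top_of_le_ne_top hfin (measure_mono (hsub i))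
        have h1 := hT.res_scale (hΩm i) hfin' (hbm i).meas hc (by
          intro x
          by_cases hx : x ∈ Ω i
          · rw [indicator_of_mem hx, indicator_of_mem hx]; exact hx.2
          · rw [indicator_of_notMem hx, indicator_of_notMem hx, norm_zero])
        refine (mul_le_mul_right h1 _).trans ?_
        rw [← mul_assoc, ← ENNReal.ofReal_mul (by positivity)]
        -- compare the measure with the integral
        have h2 : ENNReal.ofReal ((2 ^ i * s) ^ (3 + 2 * η)) * μ (Ω i)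
            ≤ ∫⁻ x in Ω i, ENNReal.ofReal (‖f x‖ ^ (3 + 2 * η)) ∂μ := by
          rw [← setLIntegral_const]
          refine setLIntegral_mono' (hΩm i) fun x hx => ENNReal.ofReal_le_ofReal ?_
          exact Real.rpow_le_rpow (by positivity) hx.1.le (by linarith)
        refine le_trans (le_of_eq ?_) (mul_le_mul_right h2 _)
        rw [← mul_assoc (ENNReal.ofReal (cη η * B * s ^ (-(2 * η)))), ← ENNReal.ofReal_mul (by
          unfold cη; positivity)]
        congr 2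
        have e1 : (2 ^ i * s : ℝ) ^ (3 + 2 * η)
            = (2:ℝ) ^ (2 * η * i) * (2 ^ i) ^ 3 * s ^ 3 * s ^ (2 * η) := by
          rw [Real.mul_rpow (by positivity) hs.le, Real.rpow_add (by positivity),
            Real.rpow_add hs]
          have e2 : ((2:ℝ) ^ i) ^ (3:ℝ) = ((2:ℝ) ^ i) ^ 3 := by
            rw [← Real.rpow_natCast]; norm_num
          have e3 : s ^ (3:ℝ) = s ^ 3 := by rw [← Real.rpow_natCast]; norm_num
          have e4 : ((2:ℝ) ^ i) ^ (2 * η) = (2:ℝ) ^ (2 * η * i) := by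
            rw [← Real.rpow_natCast, ← Real.rpow_mul (by norm_num)]
            congr 1; ring
          rw [e2, e3, e4]; ring
        have e5 : ((2:ℝ) ^ (i + 1) * s) ^ (3:ℝ) = 8 * (2 ^ i) ^ 3 * s ^ 3 := by
          have : ((2:ℝ) ^ (i + 1) * s) ^ (3:ℝ) = ((2:ℝ) ^ (i + 1) * s) ^ 3 := by
            rw [← Real.rpow_natCast]; norm_num
          rw [this, pow_succ]; ring
        have e6 : s ^ (-(2 * η)) * s ^ (2 * η) = 1 := by
          rw [← Real.rpow_add hs]; simp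
        rw [e1, e5]
        unfold cη
        rw [← hW2]
        calc W2 * 2 ^ (2 * η * ↑i) * (B * (8 * (2 ^ i) ^ 3 * s ^ 3))
            = (8 * W2) * B * (s ^ (-(2 * η)) * s ^ (2 * η))
                * ((2:ℝ) ^ (2 * η * i) * (2 ^ i) ^ 3 * s ^ 3) := by rw [e6]; ring
          _ = _ := by ring
    _ = ENNReal.ofReal (cη η * B * s ^ (-(2 * η)))
          * ∫⁻ x in ⋃ i ∈ Finset.range N, Ω i, ENNReal.ofReal (‖f x‖ ^ (3 + 2 * η)) ∂μ := by
        rw [lintegral_biUnion_finset (fun i _ j _ hij => hΩd hij) (fun i _ => hΩm i),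
          Finset.mul_sum]
    _ ≤ _ := by
        gcongr
        exact Set.iUnion₂_subset fun i _ => hsub i

/-- Marcinkiewicz, `p > 3`. -/
theorem marc_gt [SFinite μ] (hT : Op μ T A B) (hA : 0 < A) (hB : 0 ≤ B) {p : ℝ} (hp : 3 < p)
    {f : α → ℂ} (hf : BM f) (hfp : ∫⁻ x, ENNReal.ofReal (‖f x‖ ^ p) ∂μ ≠ ∞) :
    ∫⁻ x, ENNReal.ofReal (‖T f x‖ ^ p) ∂μ
      ≤ ENNReal.ofReal ((8 * p * cη ((p - 3) / 4) * 2 ^ (p - 3) / ((p - 3) / 2)) * B * A ^ (p - 3))
        * ∫⁻ x, ENNReal.ofReal (‖f x‖ ^ p) ∂μ := by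
  have hp0 : 0 < p := by linarith
  set η := (p - 3) / 4 with hη
  have hη0 : 0 < η := by rw [hη]; linarith
  have hcη : 0 ≤ cη η := by
    unfold cη
    have hr1 : (2:ℝ) ^ (-η) < 1 := Real.rpow_lt_one_of_one_lt_of_neg (by norm_num) (by linarith)
    have : 0 < (1 - (2:ℝ) ^ (-η))⁻¹ := inv_pos.mpr (by linarith)
    positivity
  have hfin : ∀ s : ℝ, 0 < s → μ {x | s < ‖f x‖} ≠ ∞ := by
    intro s hs
    have h1 : ENNReal.ofReal (s ^ p) * μ {x | ENNReal.ofReal (s ^ p) ≤ ENNReal.ofReal (‖f x‖ ^ p)}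
        ≤ ∫⁻ x, ENNReal.ofReal (‖f x‖ ^ p) ∂μ :=
      mul_meas_ge_le_lintegral (ENNReal.measurable_ofReal.comp (hf.meas.norm.pow_const p)) _
    have h2 : {x | s < ‖f x‖} ⊆ {x | ENNReal.ofReal (s ^ p) ≤ ENNReal.ofReal (‖f x‖ ^ p)} := by
      intro x hx
      exact ENNReal.ofReal_le_ofReal (Real.rpow_le_rpow hs.le (le_of_lt hx) hp0.le)
    refine ne_top_of_le_ne_top ?_ (measure_mono h2)
    intro htop
    rw [htop] at h1
    have h3 : ENNReal.ofReal (s ^ p) ≠ 0 := by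
      rw [Ne, ENNReal.ofReal_eq_zero, not_le]; positivity
    rw [ENNReal.mul_top h3] at h1
    exact hfp (top_le_iff.mp h1)
  -- layer cake
  rw [lintegral_rpow_eq_lintegral_meas_lt_mul μ (Filter.Eventually.of_forall fun x => norm_nonneg _)
    (hT.meas f hf).norm.aemeasurable hp0]
  have hlev : ∀ t ∈ Ioi (0:ℝ), μ {x | t < ‖T f x‖} * ENNReal.ofReal (t ^ (p - 1))
      ≤ ENNReal.ofReal (8 * cη η * B * (2 * A) ^ (2 * η)) *
        (ENNReal.ofReal (t ^ (p - 4 - 2 * η)) *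
          ∫⁻ x in {x | (2 * A)⁻¹ * t < ‖f x‖}, ENNReal.ofReal (‖f x‖ ^ (3 + 2 * η)) ∂μ) := by
    intro t ht
    have ht0 : 0 < t := ht
    set s := (2 * A)⁻¹ * t with hs
    have hs0 : 0 < s := by positivity
    have hsmall : BM ({x | ‖f x‖ ≤ s}.indicator f) :=
      hf.indicator (measurableSet_le hf.meas.norm measurable_const)
    have hlarge : BM ({x | s < ‖f x‖}.indicator f) :=
      hf.indicator (measurableSet_lt measurable_const hf.meas.norm)
    have hsplit : f = {x | s < ‖f x‖}.indicator f + {x | ‖f x‖ ≤ s}.indicator f := by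
      funext x
      rw [Pi.add_apply]
      by_cases hx : s < ‖f x‖
      · rw [indicator_of_mem (by exact hx), indicator_of_notMem (by simpa using hx), add_zero]
      · rw [indicator_of_notMem (by exact hx), indicator_of_mem (by simpa using hx), zero_add]
    have hTs : ∀ x, ‖T ({x | ‖f x‖ ≤ s}.indicator f) x‖ ≤ t / 2 := by
      intro x
      have := hT.sup _ s hsmall.meas (by
        intro x
        by_cases hx : ‖f x‖ ≤ s
        · rw [indicator_of_mem (by exact hx)]; exact hx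
        · rw [indicator_of_notMem (by exact hx), norm_zero]; exact hs0.le) x
      refine this.trans (le_of_eq ?_)
      rw [hs]; field_simp
    have hsub : {x | t < ‖T f x‖} ⊆ {x | ENNReal.ofReal ((t / 2) ^ (3:ℝ))
        ≤ ENNReal.ofReal (‖T ({x | s < ‖f x‖}.indicator f) x‖ ^ (3:ℝ))} := by
      intro x hx
      have h1 : T f x = T ({x | s < ‖f x‖}.indicator f) x
          + T ({x | ‖f x‖ ≤ s}.indicator f) x := by
        conv_lhs => rw [hsplit]
        exact hT.add _ _ hlarge hsmall x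
      have h2 : ‖T f x‖ ≤ ‖T ({x | s < ‖f x‖}.indicator f) x‖ + t / 2 := by
        rw [h1]
        exact (norm_add_le _ _).trans (by linarith [hTs x])
      have h3 : t < ‖T f x‖ := hx
      refine ENNReal.ofReal_le_ofReal (Real.rpow_le_rpow (by positivity) ?_ (by norm_num))
      linarith
    have hmk := mul_meas_ge_le_lintegral (μ := μ) (f := fun x =>
      ENNReal.ofReal (‖T ({x | s < ‖f x‖}.indicator f) x‖ ^ (3:ℝ)))
      (ENNReal.measurable_ofReal.comp ((hT.meas _ hlarge).norm.pow_const _))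
      (ENNReal.ofReal ((t / 2) ^ (3:ℝ)))
    have hlg := hT.large hB hf hs0 (hfin s hs0) hη0
    have h4 : ENNReal.ofReal ((t / 2) ^ (3:ℝ)) * μ {x | t < ‖T f x‖}
        ≤ ENNReal.ofReal (cη η * B * s ^ (-(2 * η)))
        * ∫⁻ x in {x | s < ‖f x‖}, ENNReal.ofReal (‖f x‖ ^ (3 + 2 * η)) ∂μ :=
      (mul_le_mul_right (measure_mono hsub) _).trans (hmk.trans hlg)
    set I := ∫⁻ x in {x | s < ‖f x‖}, ENNReal.ofReal (‖f x‖ ^ (3 + 2 * η)) ∂μ with hI
    have h5 : ENNReal.ofReal (t ^ (p - 1)) = ENNReal.ofReal (8 * t ^ (p - 4)) *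
        ENNReal.ofReal ((t / 2) ^ (3:ℝ)) := by
      rw [← ENNReal.ofReal_mul (by positivity)]
      congr 1
      have e1 : (t / 2) ^ (3:ℝ) = t ^ (3:ℝ) / 8 := by
        rw [Real.div_rpow ht0.le (by norm_num)]
        norm_num
      rw [e1]
      have e2 : t ^ (p - 1) = t ^ (p - 4) * t ^ (3:ℝ) := by
        rw [← Real.rpow_add ht0]; congr 1; ring
      rw [e2]; ring
    calc μ {x | t < ‖T f x‖} * ENNReal.ofReal (t ^ (p - 1))
        = ENNReal.ofReal (8 * t ^ (p - 4)) *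
          (ENNReal.ofReal ((t / 2) ^ (3:ℝ)) * μ {x | t < ‖T f x‖}) := by
          rw [h5]; ring
      _ ≤ ENNReal.ofReal (8 * t ^ (p - 4)) * (ENNReal.ofReal (cη η * B * s ^ (-(2 * η))) * I) := by
          gcongr
      _ = ENNReal.ofReal (8 * cη η * B * (2 * A) ^ (2 * η)) *
            (ENNReal.ofReal (t ^ (p - 4 - 2 * η)) * I) := by
          rw [← mul_assoc, ← mul_assoc, ← ENNReal.ofReal_mul (by positivity),
            ← ENNReal.ofReal_mul (by positivity)]
          congr 2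
          have e3 : s ^ (-(2 * η)) = (2 * A) ^ (2 * η) * t ^ (-(2 * η)) := by
            rw [hs, Real.mul_rpow (by positivity) ht0.le, Real.inv_rpow (by positivity),
              Real.rpow_neg (by positivity), inv_inv]
          have e4 : t ^ (p - 4 - 2 * η) = t ^ (p - 4) * t ^ (-(2 * η)) := by
            rw [← Real.rpow_add ht0]; congr 1
          rw [e3, e4]; ring
  calc ENNReal.ofReal p * ∫⁻ t in Ioi (0:ℝ), μ {x | t < ‖T f x‖} * ENNReal.ofReal (t ^ (p - 1))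
      ≤ ENNReal.ofReal p * ∫⁻ t in Ioi (0:ℝ), ENNReal.ofReal (8 * cη η * B * (2 * A) ^ (2 * η)) *
        (ENNReal.ofReal (t ^ (p - 4 - 2 * η)) *
          ∫⁻ x in {x | (2 * A)⁻¹ * t < ‖f x‖}, ENNReal.ofReal (‖f x‖ ^ (3 + 2 * η)) ∂μ) := by
        gcongr ENNReal.ofReal p * ?_
        exact setLIntegral_mono' measurableSet_Ioi hlev
    _ = ENNReal.ofReal p * (ENNReal.ofReal (8 * cη η * B * (2 * A) ^ (2 * η)) *
          ∫⁻ x, ENNReal.ofReal (‖f x‖ ^ (3 + 2 * η)) *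
            ENNReal.ofReal ((‖f x‖ / (2 * A)⁻¹) ^ (p - 4 - 2 * η + 1) / (p - 4 - 2 * η + 1)) ∂μ) := by
        rw [lintegral_const_mul', tonelli_gt (g := fun x => ‖f x‖) hf.meas.norm
          (fun x => norm_nonneg _) (hf.meas.norm.pow_const _).ennreal_ofReal
          (by rw [hη]; linarith) (by positivity)]
        exact ENNReal.ofReal_ne_top
    _ = _ := by
        have hq : p - 4 - 2 * η + 1 = (p - 3) / 2 := by rw [hη]; ring
        rw [hq]
        have hpt : ∀ x, ENNReal.ofReal (‖f x‖ ^ (3 + 2 * η)) *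
            ENNReal.ofReal ((‖f x‖ / (2 * A)⁻¹) ^ ((p - 3) / 2) / ((p - 3) / 2))
            = ENNReal.ofReal ((2 * A) ^ ((p - 3) / 2) / ((p - 3) / 2)) *
              ENNReal.ofReal (‖f x‖ ^ p) := by
          intro x
          have hq0 : 0 < (p - 3) / 2 := by linarith
          rw [← ENNReal.ofReal_mul (by positivity), ← ENNReal.ofReal_mul (by positivity)]
          congr 1
          rw [div_inv_eq_mul, Real.mul_rpow (norm_nonneg _) (by positivity)]
          have e1 : ‖f x‖ ^ p = ‖f x‖ ^ (3 + 2 * η) * ‖f x‖ ^ ((p - 3) / 2) := by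
            rcases eq_or_lt_of_le (norm_nonneg (f x)) with h0 | h0
            · rw [← h0, Real.zero_rpow hp0.ne', Real.zero_rpow (by positivity), zero_mul]
            · rw [← Real.rpow_add h0]; congr 1; rw [hη]; ring
          rw [e1]; ring
        simp_rw [hpt]
        rw [lintegral_const_mul' _ _ ENNReal.ofReal_ne_top, ← mul_assoc, ← mul_assoc,
          ← ENNReal.ofReal_mul (by positivity), ← ENNReal.ofReal_mul (by positivity)]
        congr 2
        have e2 : (2 * A) ^ (2 * η) * (2 * A) ^ ((p - 3) / 2) = 2 ^ (p - 3) * A ^ (p - 3) := by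
          rw [← Real.rpow_add (by positivity), ← Real.mul_rpow (by norm_num) hA.le]
          congr 1; rw [hη]; ring
        calc p * (8 * cη η * B * (2 * A) ^ (2 * η)) * ((2 * A) ^ ((p - 3) / 2) / ((p - 3) / 2))
            = 8 * p * cη η * B * ((2 * A) ^ (2 * η) * (2 * A) ^ ((p - 3) / 2)) / ((p - 3) / 2) := by
              ring
          _ = _ := by rw [e2]; ring

end Op

end Crest.Agent.R138.Sh200
end

-- ▼ part R138/Sh3_200
section

/-!
R138, outer shell (3): Marcinkiewicz interpolation between two strong bounds `L^a`, `L^b`.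
-/

set_option autoImplicit false

namespace Crest.Agent.R138.Sh200

open MeasureTheory Set
open scoped ENNReal NNReal

variable {α : Type*} [MeasurableSpace α]

/-- linear on bounded measurable functions. -/
structure LinOp (T : (α → ℂ) → (α → ℂ)) : Prop where
  add : ∀ f g, BM f → BM g → ∀ x, T (f + g) x = T f x + T g x
  meas : ∀ f, BM f → Measurable (T f)

/-- strong type bound, `∫ |T f|^p ≤ A ∫ |f|^p` for all bounded measurable `f`. -/
def Strong (μ : Measure α) (T : (α → ℂ) → (α → ℂ)) (p A : ℝ) : Prop :=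
  ∀ f, BM f → ∫⁻ x, ENNReal.ofReal (‖T f x‖ ^ p) ∂μ
    ≤ ENNReal.ofReal A * ∫⁻ x, ENNReal.ofReal (‖f x‖ ^ p) ∂μ

theorem Strong.mono {μ : Measure α} {T : (α → ℂ) → (α → ℂ)} {p A A' : ℝ} (h : Strong μ T p A)
    (hA : A ≤ A') : Strong μ T p A' := fun f hf =>
  (h f hf).trans (by gcongr)

theorem Op.strong_gt {μ : Measure α} [SFinite μ] {T : (α → ℂ) → (α → ℂ)} {A B : ℝ}
    (hT : Op μ T A B) (hA : 0 < A) (hB : 0 < B) {p : ℝ} (hp : 3 < p) :
    Strong μ T p
      ((8 * p * cη ((p - 3) / 4) * 2 ^ (p - 3) / ((p - 3) / 2)) * B * A ^ (p - 3)) := by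
  intro f hf
  by_cases hfp : ∫⁻ x, ENNReal.ofReal (‖f x‖ ^ p) ∂μ = ∞
  · rw [hfp, ENNReal.mul_top]
    · exact le_top
    · rw [Ne, ENNReal.ofReal_eq_zero, not_le]
      have hcη : 0 < cη ((p - 3) / 4) := by
        unfold cη
        have hr1 : (2:ℝ) ^ (-((p - 3) / 4)) < 1 :=
          Real.rpow_lt_one_of_one_lt_of_neg (by norm_num) (by linarith)
        have : 0 < (1 - (2:ℝ) ^ (-((p - 3) / 4)))⁻¹ := inv_pos.mpr (by linarith)
        positivity
      have h1 : 0 < (p - 3) / 2 := by linarith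
      have h2 : 0 < p := by linarith
      positivity
  · exact hT.marc_gt hA hB.le hp hf hfp

/-- Chebyshev. -/
theorem cheb {μ : Measure α} {g : α → ℝ} (hg : Measurable g) (hg0 : ∀ x, 0 ≤ g x) {a t : ℝ}
    (ha : 0 < a) (ht : 0 < t) :
    μ {x | t < g x} ≤ ENNReal.ofReal (t ^ (-a)) * ∫⁻ x, ENNReal.ofReal (g x ^ a) ∂μ := by
  have h1 := mul_meas_ge_le_lintegral (μ := μ) (f := fun x => ENNReal.ofReal (g x ^ a))
    (hg.pow_const a).ennreal_ofReal (ENNReal.ofReal (t ^ a))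
  have h2 : {x | t < g x} ⊆ {x | ENNReal.ofReal (t ^ a) ≤ ENNReal.ofReal (g x ^ a)} := by
    intro x hx
    exact ENNReal.ofReal_le_ofReal (Real.rpow_le_rpow ht.le (le_of_lt hx) ha.le)
  have h3 := (mul_le_mul_right (measure_mono (μ := μ) h2) (ENNReal.ofReal (t ^ a))).trans h1
  calc μ {x | t < g x} = ENNReal.ofReal (t ^ (-a)) * (ENNReal.ofReal (t ^ a) * μ {x | t < g x}) := by
        rw [← mul_assoc, ← ENNReal.ofReal_mul (by positivity), ← Real.rpow_add ht]
        simp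
    _ ≤ _ := by gcongr

/-- Marcinkiewicz between `a < p < b`. -/
theorem marc_mid {μ : Measure α} [SFinite μ] {T : (α → ℂ) → (α → ℂ)} (hT : LinOp T)
    {a b A B p : ℝ} (ha : 0 < a) (hap : a < p) (hpb : p < b) (hA : 0 ≤ A) (hB : 0 ≤ B)
    (h1 : Strong μ T a A) (h2 : Strong μ T b B) :
    Strong μ T p (p * (2 ^ a * A / (p - a) + 2 ^ b * B / (b - p))) := by
  intro f hf
  have hp0 : 0 < p := by linarith
  have hb0 : 0 < b := by linarith
  have hpa : 0 < p - a := by linarith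
  have hbp : 0 < b - p := by linarith
  rw [lintegral_rpow_eq_lintegral_meas_lt_mul μ (Filter.Eventually.of_forall fun x => norm_nonneg _)
    (hT.meas f hf).norm.aemeasurable hp0]
  have hlev : ∀ t ∈ Ioi (0:ℝ), μ {x | t < ‖T f x‖} * ENNReal.ofReal (t ^ (p - 1))
      ≤ ENNReal.ofReal (2 ^ a * A) * (ENNReal.ofReal (t ^ (p - 1 - a)) *
          ∫⁻ x in {x | 1 * t < ‖f x‖}, ENNReal.ofReal (‖f x‖ ^ a) ∂μ)
        + ENNReal.ofReal (2 ^ b * B) * (ENNReal.ofReal (t ^ (p - 1 - b)) *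
          ∫⁻ x in {x | ‖f x‖ ≤ t}, ENNReal.ofReal (‖f x‖ ^ b) ∂μ) := by
    intro t ht
    have ht0 : 0 < t := ht
    simp only [one_mul]
    have hsmall : BM ({x | ‖f x‖ ≤ t}.indicator f) :=
      hf.indicator (measurableSet_le hf.meas.norm measurable_const)
    have hlarge : BM ({x | t < ‖f x‖}.indicator f) :=
      hf.indicator (measurableSet_lt measurable_const hf.meas.norm)
    have hsplit : f = {x | t < ‖f x‖}.indicator f + {x | ‖f x‖ ≤ t}.indicator f := by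
      funext x
      rw [Pi.add_apply]
      by_cases hx : t < ‖f x‖
      · rw [indicator_of_mem (by exact hx), indicator_of_notMem (by simpa using hx), add_zero]
      · rw [indicator_of_notMem (by exact hx), indicator_of_mem (by simpa using hx), zero_add]
    have hsub : {x | t < ‖T f x‖} ⊆ {x | t / 2 < ‖T ({x | t < ‖f x‖}.indicator f) x‖} ∪
        {x | t / 2 < ‖T ({x | ‖f x‖ ≤ t}.indicator f) x‖} := by
      intro x hx
      have h3 : T f x = T ({x | t < ‖f x‖}.indicator f) x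
          + T ({x | ‖f x‖ ≤ t}.indicator f) x := by
        conv_lhs => rw [hsplit]
        exact hT.add _ _ hlarge hsmall x
      by_contra hcon
      rw [mem_union, not_or] at hcon
      have h4 : ‖T ({x | t < ‖f x‖}.indicator f) x‖ ≤ t / 2 := not_lt.mp hcon.1
      have h5 : ‖T ({x | ‖f x‖ ≤ t}.indicator f) x‖ ≤ t / 2 := not_lt.mp hcon.2
      have h6 : t < ‖T f x‖ := hx
      rw [h3] at h6
      have := norm_add_le (T ({x | t < ‖f x‖}.indicator f) x) (T ({x | ‖f x‖ ≤ t}.indicator f) x)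
      linarith
    have hmu := (measure_mono (μ := μ) hsub).trans (measure_union_le _ _)
    have hL := cheb (μ := μ) (hT.meas _ hlarge).norm (fun x => norm_nonneg _) ha (half_pos ht0)
    have hS := cheb (μ := μ) (hT.meas _ hsmall).norm (fun x => norm_nonneg _) hb0 (half_pos ht0)
    have hL2 := h1 _ hlarge
    have hS2 := h2 _ hsmall
    have eL : ∫⁻ x, ENNReal.ofReal (‖({x | t < ‖f x‖}.indicator f) x‖ ^ a) ∂μ
        = ∫⁻ x in {x | t < ‖f x‖}, ENNReal.ofReal (‖f x‖ ^ a) ∂μ := by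
      rw [← lintegral_indicator (measurableSet_lt measurable_const hf.meas.norm)]
      refine lintegral_congr fun x => ?_
      by_cases hx : t < ‖f x‖
      · rw [indicator_of_mem (by exact hx), indicator_of_mem (by exact hx)]
      · rw [indicator_of_notMem (by exact hx), indicator_of_notMem (by exact hx), norm_zero,
          Real.zero_rpow ha.ne', ENNReal.ofReal_zero]
    have eS : ∫⁻ x, ENNReal.ofReal (‖({x | ‖f x‖ ≤ t}.indicator f) x‖ ^ b) ∂μ
        = ∫⁻ x in {x | ‖f x‖ ≤ t}, ENNReal.ofReal (‖f x‖ ^ b) ∂μ := by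
      rw [← lintegral_indicator (measurableSet_le hf.meas.norm measurable_const)]
      refine lintegral_congr fun x => ?_
      by_cases hx : ‖f x‖ ≤ t
      · rw [indicator_of_mem (by exact hx), indicator_of_mem (by exact hx)]
      · rw [indicator_of_notMem (by exact hx), indicator_of_notMem (by exact hx), norm_zero,
          Real.zero_rpow hb0.ne', ENNReal.ofReal_zero]
    rw [eL] at hL2
    rw [eS] at hS2
    set IL := ∫⁻ x in {x | t < ‖f x‖}, ENNReal.ofReal (‖f x‖ ^ a) ∂μ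
    set IS := ∫⁻ x in {x | ‖f x‖ ≤ t}, ENNReal.ofReal (‖f x‖ ^ b) ∂μ
    have hpw : ∀ c : ℝ, (t / 2) ^ (-c) * t ^ (p - 1) = 2 ^ c * t ^ (p - 1 - c) := by
      intro c
      rw [Real.div_rpow ht0.le (by norm_num), Real.rpow_neg (by norm_num : (0:ℝ) ≤ 2)]
      have : t ^ (p - 1 - c) = t ^ (p - 1) * t ^ (-c) := by
        rw [← Real.rpow_add ht0]; congr 1
      rw [this]
      have h2c : (0:ℝ) < 2 ^ c := by positivity
      field_simp
    calc μ {x | t < ‖T f x‖} * ENNReal.ofReal (t ^ (p - 1))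
        ≤ (ENNReal.ofReal ((t / 2) ^ (-a)) * (ENNReal.ofReal A * IL)
            + ENNReal.ofReal ((t / 2) ^ (-b)) * (ENNReal.ofReal B * IS))
            * ENNReal.ofReal (t ^ (p - 1)) := by
          gcongr
          refine hmu.trans (add_le_add ?_ ?_)
          · exact hL.trans (by gcongr)
          · exact hS.trans (by gcongr)
      _ = ENNReal.ofReal (2 ^ a * A) * (ENNReal.ofReal (t ^ (p - 1 - a)) * IL)
          + ENNReal.ofReal (2 ^ b * B) * (ENNReal.ofReal (t ^ (p - 1 - b)) * IS) := by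
          rw [add_mul]
          congr 1
          · calc ENNReal.ofReal ((t / 2) ^ (-a)) * (ENNReal.ofReal A * IL)
                  * ENNReal.ofReal (t ^ (p - 1))
                = (ENNReal.ofReal ((t / 2) ^ (-a)) * ENNReal.ofReal (t ^ (p - 1)))
                  * ENNReal.ofReal A * IL := by ring
              _ = (ENNReal.ofReal (2 ^ a) * ENNReal.ofReal (t ^ (p - 1 - a)))
                  * ENNReal.ofReal A * IL := by
                  rw [← ENNReal.ofReal_mul (by positivity), hpw a,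
                    ENNReal.ofReal_mul (by positivity)]
              _ = _ := by
                  rw [ENNReal.ofReal_mul (by positivity)]; ring
          · calc ENNReal.ofReal ((t / 2) ^ (-b)) * (ENNReal.ofReal B * IS)
                  * ENNReal.ofReal (t ^ (p - 1))
                = (ENNReal.ofReal ((t / 2) ^ (-b)) * ENNReal.ofReal (t ^ (p - 1)))
                  * ENNReal.ofReal B * IS := by ring
              _ = (ENNReal.ofReal (2 ^ b) * ENNReal.ofReal (t ^ (p - 1 - b)))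
                  * ENNReal.ofReal B * IS := by
                  rw [← ENNReal.ofReal_mul (by positivity), hpw b,
                    ENNReal.ofReal_mul (by positivity)]
              _ = _ := by
                  rw [ENNReal.ofReal_mul (by positivity)]; ring
  have hma : Measurable fun t : ℝ => ENNReal.ofReal (t ^ (p - 1 - a)) *
      ∫⁻ x in {x | 1 * t < ‖f x‖}, ENNReal.ofReal (‖f x‖ ^ a) ∂μ := by
    apply Measurable.mul
    · exact ENNReal.measurable_ofReal.comp (measurable_id.pow_const _)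
    · apply Antitone.measurable
      intro s t hst
      apply lintegral_mono_set
      intro x hx
      have : 1 * t < ‖f x‖ := hx
      show 1 * s < ‖f x‖
      linarith
  have hn2 : ∫⁻ t in Ioi (0:ℝ), ENNReal.ofReal (2 ^ a * A) * (ENNReal.ofReal (t ^ (p - 1 - a)) *
          ∫⁻ x in {x | 1 * t < ‖f x‖}, ENNReal.ofReal (‖f x‖ ^ a) ∂μ)
      = ENNReal.ofReal (2 ^ a * A / (p - a)) * ∫⁻ x, ENNReal.ofReal (‖f x‖ ^ p) ∂μ := by
    rw [lintegral_const_mul' _ _ ENNReal.ofReal_ne_top, tonelli_gt (g := fun x => ‖f x‖)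
      hf.meas.norm (fun x => norm_nonneg _) (hf.meas.norm.pow_const _).ennreal_ofReal
      (by linarith) one_pos, ← lintegral_const_mul' _ _ ENNReal.ofReal_ne_top,
      ← lintegral_const_mul' _ _ ENNReal.ofReal_ne_top]
    refine lintegral_congr fun x => ?_
    have hq : p - 1 - a + 1 = p - a := by ring
    rw [hq, div_one, ← ENNReal.ofReal_mul (by positivity), ← ENNReal.ofReal_mul (by positivity),
      ← ENNReal.ofReal_mul (by positivity)]
    congr 1
    have e1 : ‖f x‖ ^ p = ‖f x‖ ^ a * ‖f x‖ ^ (p - a) := by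
      rcases eq_or_lt_of_le (norm_nonneg (f x)) with h0 | h0
      · rw [← h0, Real.zero_rpow hp0.ne', Real.zero_rpow ha.ne', zero_mul]
      · rw [← Real.rpow_add h0]; congr 1; ring
    rw [e1]; ring
  have hn3 : ∫⁻ t in Ioi (0:ℝ), ENNReal.ofReal (2 ^ b * B) * (ENNReal.ofReal (t ^ (p - 1 - b)) *
          ∫⁻ x in {x | ‖f x‖ ≤ t}, ENNReal.ofReal (‖f x‖ ^ b) ∂μ)
      = ENNReal.ofReal (2 ^ b * B / (b - p)) * ∫⁻ x, ENNReal.ofReal (‖f x‖ ^ p) ∂μ := by
    rw [lintegral_const_mul' _ _ ENNReal.ofReal_ne_top, tonelli_le (g := fun x => ‖f x‖)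
      hf.meas.norm (fun x => norm_nonneg _) (hf.meas.norm.pow_const _).ennreal_ofReal
      (by intro x hx; rw [hx, Real.zero_rpow hb0.ne', ENNReal.ofReal_zero])
      (by linarith), ← lintegral_const_mul' _ _ ENNReal.ofReal_ne_top,
      ← lintegral_const_mul' _ _ ENNReal.ofReal_ne_top]
    refine lintegral_congr fun x => ?_
    have hq : p - 1 - b + 1 = -(b - p) := by ring
    rw [hq, neg_neg, ← ENNReal.ofReal_mul (by positivity), ← ENNReal.ofReal_mul (by positivity),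
      ← ENNReal.ofReal_mul (by positivity)]
    congr 1
    have e1 : ‖f x‖ ^ p = ‖f x‖ ^ b * ‖f x‖ ^ (-(b - p)) := by
      rcases eq_or_lt_of_le (norm_nonneg (f x)) with h0 | h0
      · rw [← h0, Real.zero_rpow hp0.ne', Real.zero_rpow hb0.ne', zero_mul]
      · rw [← Real.rpow_add h0]; congr 1; ring
    rw [e1]; ring
  calc ENNReal.ofReal p * ∫⁻ t in Ioi (0:ℝ), μ {x | t < ‖T f x‖} * ENNReal.ofReal (t ^ (p - 1))
      ≤ ENNReal.ofReal p * ∫⁻ t in Ioi (0:ℝ),
          (ENNReal.ofReal (2 ^ a * A) * (ENNReal.ofReal (t ^ (p - 1 - a)) *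
          ∫⁻ x in {x | 1 * t < ‖f x‖}, ENNReal.ofReal (‖f x‖ ^ a) ∂μ)
        + ENNReal.ofReal (2 ^ b * B) * (ENNReal.ofReal (t ^ (p - 1 - b)) *
          ∫⁻ x in {x | ‖f x‖ ≤ t}, ENNReal.ofReal (‖f x‖ ^ b) ∂μ)) := by
        gcongr ENNReal.ofReal p * ?_
        exact setLIntegral_mono' measurableSet_Ioi hlev
    _ = ENNReal.ofReal p * (ENNReal.ofReal (2 ^ a * A / (p - a)) *
          ∫⁻ x, ENNReal.ofReal (‖f x‖ ^ p) ∂μ
        + ENNReal.ofReal (2 ^ b * B / (b - p)) * ∫⁻ x, ENNReal.ofReal (‖f x‖ ^ p) ∂μ) := by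
        rw [lintegral_add_left (hma.const_mul _), hn2, hn3]
    _ = _ := by
        rw [← add_mul, ← ENNReal.ofReal_add (by positivity) (by positivity), ← mul_assoc,
          ← ENNReal.ofReal_mul hp0.le]

end Crest.Agent.R138.Sh200
end

-- ▼ part R138/Sh4_200
section

/-!
R138, outer shell (4): interpolation for a family `T R`, `R ≥ 1`, with `L²` norm `O(1)`,
`L^∞` norm `O(R)` and restricted `L³` norm `O(R^ε)`.
-/

set_option autoImplicit false

namespace Crest.Agent.R138.Sh200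

open MeasureTheory Set
open scoped ENNReal NNReal

variable {α : Type*} [MeasurableSpace α]

theorem Op.linOp {μ : Measure α} {T : (α → ℂ) → (α → ℂ)} {A B : ℝ} (hT : Op μ T A B) :
    LinOp T := ⟨hT.add, hT.meas⟩

theorem interp_family {μ : Measure α} [SFinite μ] (T : ℝ → (α → ℂ) → (α → ℂ)) {M A : ℝ}
    (hM : 0 ≤ M) (hA : 0 < A) (h2 : ∀ R : ℝ, 1 ≤ R → Strong μ (T R) 2 M)
    (h3 : ∀ ε : ℝ, 0 < ε → ∃ B : ℝ, 0 < B ∧ ∀ R : ℝ, 1 ≤ R → Op μ (T R) (A * R) (B * R ^ ε))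
    {p : ℝ} (hp : 2 ≤ p) {ε : ℝ} (hε : 0 < ε) :
    ∃ C : ℝ, 0 < C ∧ ∀ R : ℝ, 1 ≤ R → Strong μ (T R) p (C * R ^ (max (p - 3) 0 + ε)) := by
  -- first `p > 3`
  have big : ∀ p : ℝ, 3 < p → ∀ ε : ℝ, 0 < ε → ∃ C : ℝ, 0 < C ∧ ∀ R : ℝ, 1 ≤ R →
      Strong μ (T R) p (C * R ^ (p - 3 + ε)) := by
    intro p hp ε hε
    obtain ⟨B, hB, hBR⟩ := h3 ε hε
    have hcη : 0 < cη ((p - 3) / 4) := by
      unfold cη
      have hr1 : (2:ℝ) ^ (-((p - 3) / 4)) < 1 :=
        Real.rpow_lt_one_of_one_lt_of_neg (by norm_num) (by linarith)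
      have : 0 < (1 - (2:ℝ) ^ (-((p - 3) / 4)))⁻¹ := inv_pos.mpr (by linarith)
      positivity
    have h1 : 0 < (p - 3) / 2 := by linarith
    have h2' : 0 < p := by linarith
    refine ⟨(8 * p * cη ((p - 3) / 4) * 2 ^ (p - 3) / ((p - 3) / 2)) * B * A ^ (p - 3),
      by positivity, fun R hR => ?_⟩
    have hR0 : 0 < R := by linarith
    have := (hBR R hR).strong_gt (mul_pos hA hR0) (by positivity) hp
    refine this.mono (le_of_eq ?_)
    rw [Real.mul_rpow hA.le hR0.le, Real.rpow_add hR0]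
    ring
  rcases eq_or_lt_of_le hp with h0 | h0
  · subst h0
    refine ⟨M + 1, by linarith, fun R hR => (h2 R hR).mono ?_⟩
    have : 1 ≤ R ^ (max ((2:ℝ) - 3) 0 + ε) := Real.one_le_rpow hR (by positivity)
    nlinarith
  by_cases h3p : 3 < p
  · obtain ⟨C, hC, h⟩ := big p h3p ε hε
    refine ⟨C, hC, fun R hR => ?_⟩
    rw [max_eq_left (by linarith)]
    exact h R hR
  · push Not at h3p
    obtain ⟨C, hC, h⟩ := big (3 + ε / 2) (by linarith) (ε / 2) (by linarith)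
    have hpa : 0 < p - 2 := by linarith
    have hbp : 0 < 3 + ε / 2 - p := by linarith
    refine ⟨p * (2 ^ (2:ℝ) * M / (p - 2) + 2 ^ (3 + ε / 2) * C / (3 + ε / 2 - p)), by positivity,
      fun R hR => ?_⟩
    have hR0 : 0 < R := by linarith
    obtain ⟨B, hB, hBR⟩ := h3 1 one_pos
    have := marc_mid (hBR R hR).linOp two_pos h0 (by linarith : p < 3 + ε / 2) hM (by positivity)
      (h2 R hR) (h R hR)
    refine this.mono ?_
    rw [max_eq_right (by linarith), zero_add]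
    have e1 : 3 + ε / 2 - 3 + ε / 2 = ε := by ring
    rw [e1]
    have hRε : 1 ≤ R ^ ε := Real.one_le_rpow hR hε.le
    have hp0 : 0 < p := by linarith
    rw [mul_assoc]
    refine mul_le_mul_of_nonneg_left ?_ hp0.le
    rw [add_mul]
    refine add_le_add ?_ (le_of_eq ?_)
    · have : 0 ≤ 2 ^ (2:ℝ) * M / (p - 2) := by positivity
      nlinarith
    · ring

end Crest.Agent.R138.Sh200
end

-- ▼ part R138/Sh7_200

/-!
R138, outer shell (7): `cv (KR φ R)` as an operator: Schwartz functions, `L²` bound, `Op`.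
-/

set_option autoImplicit false

open MeasureTheory FourierTransform LineDeriv Set
open scoped ContDiff Real SchwartzMap ENNReal Convolution

namespace Crest.Agent.R138.Sh200

open Fr665 (cv)

theorem conv_eq {φ : ℝ → ℝ} (hφ : ContDiff ℝ ∞ φ) (hφ' : HasCompactSupport φ) {R : ℝ}
    (hR : 1 ≤ R) (g : 𝓢(V, ℂ)) (x : V) :
    SchwartzMap.convolution (ContinuousLinearMap.mul ℂ ℂ) (kS hφ hφ' hR) g x
      = cv (KR φ R) g x := by
  rw [SchwartzMap.convolution_apply, convolution_eq_swap]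
  unfold Fr665.cv
  rw [← kS_coe hφ hφ' hR]
  rfl

theorem cv_schwartz {φ : ℝ → ℝ} (hφ : ContDiff ℝ ∞ φ) (hφ' : HasCompactSupport φ) {R : ℝ}
    (hR : 1 ≤ R) (g : 𝓢(V, ℂ)) (x : V) :
    cv (KR φ R) g x = 𝓕⁻ (fun ξ => mR φ R ξ * 𝓕 (g : V → ℂ) ξ) x := by
  rw [← conv_eq hφ hφ' hR]
  have h1 : SchwartzMap.convolution (ContinuousLinearMap.mul ℂ ℂ) (kS hφ hφ' hR) g
      = 𝓕⁻ (SchwartzMap.pairing (ContinuousLinearMap.mul ℂ ℂ) (mS hφ hφ' hR) (𝓕 g)) := by
    have h0 : 𝓕 (kS hφ hφ' hR) = mS hφ hφ' hR := by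
      unfold kS
      exact FourierTransform.fourier_fourierInv_eq _
    rw [← h0]
    rfl
  rw [h1, SchwartzMap.fourierInv_coe]
  rfl

theorem l2_schwartz {φ : ℝ → ℝ} (hφ : ContDiff ℝ ∞ φ) (hφ' : HasCompactSupport φ) {C : ℝ}
    (hC : ∀ t, |φ t| ≤ C) {R : ℝ} (hR : 1 ≤ R) (g : 𝓢(V, ℂ)) :
    ∫⁻ x, ENNReal.ofReal (‖cv (KR φ R) g x‖ ^ 2)
      ≤ ENNReal.ofReal (C ^ 2) * ∫⁻ x, ENNReal.ofReal (‖g x‖ ^ 2) := by
  have hC0 : 0 ≤ C := (abs_nonneg _).trans (hC 0)
  set P := SchwartzMap.pairing (ContinuousLinearMap.mul ℂ ℂ) (mS hφ hφ' hR) (𝓕 g) with hP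
  have h1 : ∀ x, cv (KR φ R) g x = (𝓕⁻ P) x := by
    intro x
    rw [cv_schwartz hφ hφ' hR, SchwartzMap.fourierInv_coe]
    rfl
  simp_rw [h1]
  rw [lint_sq_fourierInv]
  have h2 : ∫⁻ x, ENNReal.ofReal (‖(𝓕 g) x‖ ^ 2) = ∫⁻ x, ENNReal.ofReal (‖g x‖ ^ 2) := by
    rw [← lint_sq_fourierInv, FourierTransform.fourierInv_fourier_eq]
  rw [← h2, ← lintegral_const_mul' _ _ ENNReal.ofReal_ne_top]
  refine lintegral_mono fun x => ?_
  rw [← ENNReal.ofReal_mul (by positivity)]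
  apply ENNReal.ofReal_le_ofReal
  have h3 : P x = mR φ R x * (𝓕 g) x := rfl
  rw [h3, norm_mul, mul_pow]
  gcongr
  unfold mR
  rw [Complex.norm_real]
  exact hC _

theorem integrable_KR {φ : ℝ → ℝ} (hφ : ContDiff ℝ ∞ φ) (hφ' : HasCompactSupport φ) {R : ℝ}
    (hR : 1 ≤ R) : Integrable (KR φ R) := by
  rw [← kS_coe hφ hφ' hR]
  exact (kS hφ hφ' hR).integrable

theorem continuous_KR {φ : ℝ → ℝ} (hφ : ContDiff ℝ ∞ φ) (hφ' : HasCompactSupport φ) {R : ℝ}
    (hR : 1 ≤ R) : Continuous (KR φ R) := by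
  rw [← kS_coe hφ hφ' hR]
  exact (kS hφ hφ' hR).continuous

theorem integrable_cv {K : V → ℂ} (hK : Integrable K) {f : V → ℂ} (hf : BM f) (x : V) :
    Integrable (fun y => K (x - y) * f y) := by
  obtain ⟨C, hC⟩ := hf.bdd
  have h1 : Integrable (fun y => K (x - y)) := hK.comp_sub_left x
  exact h1.mul_bdd (c := C) hf.meas.aestronglyMeasurable (Filter.Eventually.of_forall hC)

theorem cv_add {K : V → ℂ} (hK : Integrable K) {f g : V → ℂ} (hf : BM f) (hg : BM g) (x : V) :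
    cv K (f + g) x = cv K f x + cv K g x := by
  unfold Fr665.cv
  rw [← integral_add (integrable_cv hK hf x) (integrable_cv hK hg x)]
  congr 1
  funext y
  simp [mul_add]

theorem cv_smul (K : V → ℂ) (c : ℂ) (f : V → ℂ) (x : V) :
    cv K (c • f) x = c * cv K f x := by
  unfold Fr665.cv
  rw [← integral_const_mul]
  congr 1
  funext y
  simp only [Pi.smul_apply, smul_eq_mul]
  ring

theorem measurable_cv {K : V → ℂ} (hK : Measurable K) {f : V → ℂ} (hf : Measurable f) :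
    Measurable (cv K f) := by
  unfold Fr665.cv
  have h1 : StronglyMeasurable (fun p : V × V => K (p.1 - p.2) * f p.2) := by
    apply Measurable.stronglyMeasurable
    fun_prop
  exact (StronglyMeasurable.integral_prod_right' h1).measurable

theorem norm_cv_le {K : V → ℂ} (hK : Measurable K) {A : ℝ} (hA : ∫⁻ x, ‖K x‖ₑ ≤ ENNReal.ofReal A)
    (hA0 : 0 ≤ A) {f : V → ℂ} {C : ℝ} (hC : ∀ x, ‖f x‖ ≤ C) (x : V) : ‖cv K f x‖ ≤ A * C := by
  have hC0 : 0 ≤ C := (norm_nonneg _).trans (hC x)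
  have h1 := (Fr665.enorm_cv_le K f x).trans (Fr665.acv_le_sup hK (M := ENNReal.ofReal C)
    (fun y => by rw [← ofReal_norm]; exact ENNReal.ofReal_le_ofReal (hC y)) x)
  have h2 : ‖cv K f x‖ₑ ≤ ENNReal.ofReal (A * C) := by
    refine h1.trans ?_
    rw [ENNReal.ofReal_mul hA0]
    gcongr
  rw [← ofReal_norm] at h2
  exact (ENNReal.ofReal_le_ofReal_iff (by positivity)).mp h2

end Crest.Agent.R138.Sh200
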