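import Crest.Agent.R138.Sm5_858
import Crest.Agent.R138.Wpk6_685
import Crest.Agent.R138.Tub3_70
import Crest.Agent.R138.Sup7_882
import Crest.Agent.R138.Ad_480
import Crest.Agent.R138.Wpk5_685
import Crest.Agent.R138.Al1_878
import Crest.Agent.R138.PDef_654
import Crest.Agent.R138.Wpk7_685
import Crest.Agent.R138.RR1_323

-- ▼ part R138/Sm6_858
section

/-!
# R138 / R139, wave side (helper858): SUPM composed with the Kakeya bound for packet densities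
-/

set_option autoImplicit false

open MeasureTheory FourierTransform
open scoped ContDiff ENNReal

namespace Crest.Agent.R138.Sm858

open Crest.Agent.R138.Defs Crest.Agent.R138.Wf448
open Crest.Agent.R138.Ker858 (rect)
open Crest.Agent.R138.Sup882 (iso dw_iso grad_lip norm_le_of_inner sides_pos card_sep_le)
open Crest.Agent.R138.Wpk685 (cap win cen caps um sel Bs Dens pbox en)
open Crest.Agent.R138.Bn759 (nearId)
open Crest.Agent.R138.W188 (Plate Plates val Sd tr En)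
open Crest.Agent.R138.Low448 (fr)
open Crest.Agent.R138.Ad480 (wa Ac Ad measurable_Ac_xt)
open Crest.Agent.R138.Loc878 (nearL mem_nearL Near)

open Classical in
/-- caps of level `θ` with velocity near the velocity cell `k` of side `s`. -/
noncomputable def Mc (h : E2 → ℝ) (θ s Λ : ℝ) (k : ℤ × ℤ) : Finset (ℤ × ℤ) :=
  (caps θ).filter fun m => ‖gradient h (cen θ m) - cen s k‖ ≤ Λ * s

/-- velocity cell of side `s` of the velocity `c`. -/
noncomputable def labc (s : ℝ) (c : E2) : ℤ × ℤ := (⌊c 0 / s⌋, ⌊c 1 / s⌋)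

theorem mem_Mc {h : E2 → ℝ} {θ s Λ : ℝ} {k m : ℤ × ℤ} :
    m ∈ Mc h θ s Λ k ↔ m ∈ caps θ ∧ ‖gradient h (cen θ m) - cen s k‖ ≤ Λ * s := by
  unfold Mc; rw [Finset.mem_filter]

theorem labc_near {s : ℝ} (hs : 0 < s) (c : E2) : ‖c - cen s (labc s c)‖ ≤ 2 * s := by
  have h : ∀ i : Fin 2, |c i - cen s (labc s c) i| ≤ s := by
    intro i
    have h1 : cen s (labc s c) i = s * (⌊c i / s⌋ : ℝ) := by
      fin_cases i
      · exact Wpk685.cen_zero _ _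
      · exact Wpk685.cen_one _ _
    rw [h1]
    have h2 := Int.floor_le (c i / s)
    have h3 := Int.lt_floor_add_one (c i / s)
    have h4 : c i = s * (c i / s) := by field_simp
    have h5 : c i - s * (⌊c i / s⌋ : ℝ) = s * (c i / s - ⌊c i / s⌋) := by
      rw [mul_sub, ← h4]
    rw [h5, abs_mul, abs_of_pos hs, abs_of_nonneg (by linarith)]
    exact mul_le_of_le_one_right hs.le (by linarith)
  refine le_of_sq_le_sq ?_ (by positivity)
  rw [EuclideanSpace.norm_sq_eq, Fin.sum_univ_two]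
  simp only [PiLp.sub_apply, Real.norm_eq_abs]
  have h0 := h 0
  have h1 := h 1
  have := abs_nonneg (c 0 - cen s (labc s c) 0)
  have := abs_nonneg (c 1 - cen s (labc s c) 1)
  nlinarith

/-- a cap with velocity near the centre of the plate is in the family of the plate. -/
theorem mem_Mc_of {h : E2 → ℝ} {θ s Λ : ℝ} (hs : 0 < s) {c : E2} {m : ℤ × ℤ} (hm : m ∈ caps θ)
    (hd : ‖gradient h (cen θ m) - c‖ ≤ (Λ - 2) * s) : m ∈ Mc h θ s Λ (labc s c) := by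
  refine mem_Mc.2 ⟨hm, ?_⟩
  calc ‖gradient h (cen θ m) - cen s (labc s c)‖
      = ‖(gradient h (cen θ m) - c) + (c - cen s (labc s c))‖ := by rw [sub_add_sub_cancel]
    _ ≤ _ := norm_add_le _ _
    _ ≤ (Λ - 2) * s + 2 * s := add_le_add hd (labc_near hs c)
    _ = Λ * s := by ring

/-- **Kakeya bound for the packet densities** (882's `kmca`, as a hypothesis). -/
def KMCA (B : ℕ → ℝ) (q A L Λ : ℝ) : Prop :=
  ∀ ε : ℝ, 0 < ε → ∃ n0 : ℕ, ∀ n : ℕ, n0 ≤ n → ∃ C : ℝ, 0 ≤ C ∧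
  ∀ h, ParB B h → fderiv ℝ h 0 = 0 → ∀ R : ℝ, 1 ≤ R → ∀ (g : E2 → ℂ) (S : ℤ × ℤ → Set E2),
    Integrable g → MemLp g 2 →
    (∀ m, MeasurableSet (S m)) → (∀ m, ∀ y ∈ S m, ‖y‖ ≤ A * R) → ∀ Δ : ℝ, 0 ≤ Δ →
    Dens q h R g S Δ → ∀ s : ℝ, R ^ (-(1/2) : ℝ) ≤ s → s ≤ 1 →
    ∀ (K : Finset (ℤ × ℤ)) (M : ℤ × ℤ → Finset (ℤ × ℤ)),
    (∀ k ∈ K, M k ⊆ caps (R ^ (-(1/2) : ℝ)) ∧
      ∀ m ∈ M k, ‖gradient h (cen (R ^ (-(1/2) : ℝ)) m) - cen s k‖ ≤ Λ * s) →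
    ∑ k ∈ K, ∫⁻ t in Set.Icc (-(L * R)) (L * R), ∫⁻ x,
      Ac n h (R ^ (-(1/2) : ℝ)) g S (M k) (0, t) x ^ (3 / 2 : ℝ) ≤
      ENNReal.ofReal (C * R ^ ε * s ^ (q / 2) * Real.sqrt Δ * R) * en (R ^ (-(1/2) : ℝ)) g S

/-- energy of all plates. -/
theorem sum_en_plates : ∃ C : ℝ, 0 ≤ C ∧ ∀ (A : ℝ) (h : E2 → ℝ), Continuous h → ∀ g : E2 → ℂ,
    Integrable g → MemLp g 2 → ∀ r s1 s2 R : ℝ, 1 ≤ r → r ≤ R →
    ∀ (I : Finset ℕ) (P : ℕ → Plate), Plates A h r s1 s2 R I P →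
    ∑ i ∈ I, en (r ^ (-(1/2) : ℝ)) (tr h (P i).z g) (P i).S ≤
      ENNReal.ofReal (C * (R / r) ^ 3) * ∫⁻ ξ, ‖g ξ‖ₑ ^ 2 := by
  classical
  obtain ⟨C0, hC0, h0⟩ := Wpk685.en_le
  refine ⟨64 * C0, by positivity, ?_⟩
  intro A h hh g hg hg2 r s1 s2 R hr hrR I P hP
  have hr0 : 0 < r := by linarith
  have hR0 : 0 < R := by linarith
  set ρ : ℝ := r ^ (-(1/2) : ℝ) with hρdef
  have hρ : 0 < ρ := Real.rpow_pos_of_pos hr0 _
  have hρ1 : ρ ≤ 1 := Real.rpow_le_one_of_one_le_of_nonpos hr (by norm_num)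
  set Z : Finset (E2 × ℝ) := I.image fun i => (P i).z with hZ
  have hone : ∀ ζ ∈ Z, ∑ i ∈ I.filter (fun i => (P i).z = ζ), en ρ (tr h (P i).z g) (P i).S ≤
      ENNReal.ofReal C0 * ∫⁻ ξ, ‖g ξ‖ₑ ^ 2 := by
    intro ζ _
    have h1 : ∑ i ∈ I.filter (fun i => (P i).z = ζ), en ρ (tr h (P i).z g) (P i).S ≤
        en ρ (tr h ζ g) (fun _ => Set.univ) := by
      have e1 : ∑ i ∈ I.filter (fun i => (P i).z = ζ), en ρ (tr h (P i).z g) (P i).S =
          ∑ m ∈ caps ρ, ∑ i ∈ I.filter (fun i => (P i).z = ζ),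
            ∫⁻ y in (P i).S m, ‖um ρ (tr h ζ g) m y‖ₑ ^ 2 := by
        rw [Finset.sum_comm]
        refine Finset.sum_congr rfl fun i hi => ?_
        rw [(Finset.mem_filter.1 hi).2]
        rfl
      rw [e1]
      unfold en
      refine Finset.sum_le_sum fun m _ => ?_
      have h3 := lintegral_biUnion_finset (μ := (volume : Measure E2))
        (s := I.filter (fun i => (P i).z = ζ)) (t := fun i => (P i).S m)
        (fun i hi j hj hij => hP.disj i (Finset.mem_filter.1 hi).1 j (Finset.mem_filter.1 hj).1 hij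
          ((Finset.mem_filter.1 hi).2.trans (Finset.mem_filter.1 hj).2.symm) m)
        (fun i hi => hP.meas i (Finset.mem_filter.1 hi).1 m)
        (fun y => ‖um ρ (tr h ζ g) m y‖ₑ ^ 2)
      rw [← h3]
      exact lintegral_mono_set (Set.subset_univ _)
    refine h1.trans ((h0 ρ hρ hρ1 _ (Sup882.tr_integrable hh ζ hg) (Sup882.tr_memLp hh ζ hg2)
      _).trans (le_of_eq ?_))
    congr 1
    refine lintegral_congr fun ξ => ?_
    congr 1
    show ‖g ξ * ee (inner ℝ ζ.1 ξ + ζ.2 * h ξ)‖ₑ = ‖g ξ‖ₑ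
    rw [enorm_mul, ← ofReal_norm (ee _), norm_ee, ENNReal.ofReal_one, mul_one]
  have hcard : (Z.card : ℝ) ≤ 64 * (R / r) ^ 3 := by
    have h1 := card_sep_le hr0 (K := R / r) (by positivity) Z (by
      intro x hx y hy hxy
      obtain ⟨i, hi, rfl⟩ := Finset.mem_image.1 hx
      obtain ⟨j, hj, rfl⟩ := Finset.mem_image.1 hy
      rcases hP.sep i hi j hj with h2 | h2 | h2
      · exact absurd h2 hxy
      · rw [Prod.dist_eq, dist_eq_norm]; exact le_max_of_le_left h2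
      · rw [Prod.dist_eq, Real.dist_eq]; exact le_max_of_le_right h2) 0 (by
      intro x hx
      obtain ⟨i, hi, rfl⟩ := Finset.mem_image.1 hx
      have h2 := hP.mem i hi
      rw [div_mul_cancel₀ _ hr0.ne', dist_zero_right, Prod.norm_def]
      exact max_le h2.1 h2.2)
    have h3 : 1 ≤ R / r := by rw [one_le_div hr0]; exact hrR
    calc (Z.card : ℝ) ≤ (2 * (R / r) + 2) ^ 3 := h1
      _ ≤ (4 * (R / r)) ^ 3 := by gcongr; linarith
      _ = _ := by ring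
  have hsplit := Finset.sum_fiberwise_of_maps_to (s := I) (t := Z) (g := fun i => (P i).z)
    (fun i hi => Finset.mem_image_of_mem _ hi) (fun i => en ρ (tr h (P i).z g) (P i).S)
  rw [← hsplit]
  calc _ ≤ ∑ ζ ∈ Z, ENNReal.ofReal C0 * ∫⁻ ξ, ‖g ξ‖ₑ ^ 2 := Finset.sum_le_sum hone
    _ = ENNReal.ofReal (Z.card : ℝ) * (ENNReal.ofReal C0 * ∫⁻ ξ, ‖g ξ‖ₑ ^ 2) := by
        rw [Finset.sum_const, nsmul_eq_mul, ENNReal.ofReal_natCast]
    _ ≤ ENNReal.ofReal (64 * (R / r) ^ 3) * (ENNReal.ofReal C0 * ∫⁻ ξ, ‖g ξ‖ₑ ^ 2) := by gcongr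
    _ = _ := by
        rw [← mul_assoc, ← ENNReal.ofReal_mul (by positivity)]
        congr 2; ring

/-- **SUPM ∘ KMCA.** -/
theorem SUPM_K (B : ℕ → ℝ) (hB : B 2 ≤ 1 / 10) (A : ℝ) (hA : 1 ≤ A) (q Λ : ℝ)
    (hΛ : 2 * A + 6 ≤ Λ) (hK : KMCA B q A 2 Λ) :
    ∀ ε : ℝ, 0 < ε → ∃ n0 : ℕ, ∀ n : ℕ, n0 ≤ n → ∀ N : ℕ, n ≤ 2 * N → ∃ C : ℝ, 0 ≤ C ∧
    ∀ h : E2 → ℝ, ParB B h → fderiv ℝ h 0 = 0 →
    ∀ f : E2 → ℂ, Integrable f → MemLp f 2 →
    ∀ r s1 s2 R : ℝ, 1 ≤ r → (3 * A + 8) * r ≤ R → Sd r s1 s2 → R ^ (1/2 : ℝ) ≤ s2 * r →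
    ∀ S : ℤ × ℤ → Set E2, (∀ m, MeasurableSet (S m)) → (∀ m, ∀ y ∈ S m, ‖y‖ ≤ A * R) →
    ∀ D : ℝ, 0 ≤ D → Dens q h R f S D →
    ∀ (I : Finset ℕ) (P : ℕ → Plate), Plates A h r s1 s2 R I P →
    ∀ Mu τ : ℝ, 0 ≤ Mu → 0 ≤ τ →
    (∀ i ∈ I, ∀ x t, |t| ≤ r →
      x ∈ rect ((P i).x - t • (P i).c) (P i).b (fun j => ![s1, s2] j * r) (2 + 2 * A) →
      seP (N + 2) (fr (P i).b ![r ^ (1 / 2 : ℝ), R ^ (1/2 : ℝ)]) h r
          (tr h (P i).z (sel (R ^ (-(1/2) : ℝ)) f S)) (P i).S x t ≤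
        ENNReal.ofReal (r ^ (1 / 2 : ℝ) * R ^ (1/2 : ℝ)) *
          (ENNReal.ofReal Mu * Ac n h (R ^ (-(1/2) : ℝ)) f S
              (Mc h (R ^ (-(1/2) : ℝ)) s2 Λ (labc s2 (P i).c)) ((P i).z + (0, t)) x +
            ENNReal.ofReal τ)) →
    ENNReal.ofReal (s2 ^ (-q / 2)) * val h (sel (R ^ (-(1/2) : ℝ)) f S) r s1 s2 I P ≤
      ENNReal.ofReal (C * Mu ^ (1 / 2 : ℝ) * R ^ ε) *
          (ENNReal.ofReal (R * Real.sqrt D) * en (R ^ (-(1/2) : ℝ)) f S) +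
        ENNReal.ofReal (s2 ^ (-q / 2) * C * τ ^ (1 / 2 : ℝ) * r) *
          ∑ i ∈ I, en (r ^ (-(1/2) : ℝ))
            (tr h (P i).z (sel (R ^ (-(1/2) : ℝ)) f S)) (P i).S := by
  classical
  intro ε hε
  obtain ⟨n0, hn0⟩ := hK ε hε
  refine ⟨n0, ?_⟩
  intro n hn N hN
  obtain ⟨C1, hC1, h1⟩ := hn0 n hn
  obtain ⟨C2, hC2, h2⟩ := SUPM_Ac B hB A hA n N hN
  refine ⟨C2 * C1 + C2, by positivity, ?_⟩
  intro h hh hh1 f hf hf2 r s1 s2 R hr hR hs hws S hSm hSb D hD hDens I P hP Mu τ hMu hτ hH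
  have hr0 : 0 < r := by linarith
  have hrR : r ≤ R := by nlinarith
  have hR1 : 1 ≤ R := hr.trans hrR
  have hR0 : 0 < R := by linarith
  have hn2 := nearId hB hh
  obtain ⟨hs1, hs2⟩ := sides_pos hr hs
  set θ : ℝ := R ^ (-(1/2) : ℝ) with hθdef
  set θ' : ℝ := r ^ (-(1/2) : ℝ) with hθ'def
  have hθ : 0 < θ := Real.rpow_pos_of_pos hR0 _
  have hθ' : 0 < θ' := Real.rpow_pos_of_pos hr0 _
  have hθθ' : θ ≤ θ' := Real.rpow_le_rpow_of_nonpos hr0 hrR (by norm_num)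
  have hθ's2 : θ' ≤ s2 := hs.lo.trans hs.le
  have hBs : Bs θ S := ⟨fun m _ => hSm m, fun m _ => by
    refine (Metric.isBounded_closedBall (x := (0 : E2)) (r := A * R)).subset fun y hy => ?_
    rw [mem_closedBall_zero_iff]; exact hSb m y hy⟩
  set K : Finset (ℤ × ℤ) := I.image fun i => labc s2 (P i).c with hKdef
  have h3 := h2 h hh hh1 f hf r s1 s2 R hr hR hs hws S hBs I P hP (ℤ × ℤ) K
    (fun i => labc s2 (P i).c) (fun i hi => Finset.mem_image_of_mem _ hi)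
    (fun k => Mc h θ s2 Λ k) (by
      intro i hi m' _ hne m hm
      obtain ⟨hm1, hm2⟩ := mem_nearL.1 hm
      unfold Near at hm2
      refine mem_Mc_of hs2 hm1 ?_
      obtain ⟨y, hy⟩ := hne
      have h4 : ‖gradient h (cen θ' m') - (P i).c‖ ≤ 2 * (A * s2) := by
        refine norm_le_of_inner (P i).b _ (by positivity) fun j => ?_
        refine ((hP.box i hi m' hy).1 j).trans ?_
        have : ![s1, s2] j ≤ s2 := by fin_cases j <;> simp [hs.le]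
        exact mul_le_mul_of_nonneg_left this (by linarith)
      have h5 : ‖gradient h (cen θ m) - gradient h (cen θ' m')‖ ≤ 11 / 10 * (3 * s2) := by
        refine (grad_lip hn2 _ _).trans ?_
        have : 3 * θ' ≤ 3 * s2 := by linarith
        linarith [hm2.le]
      calc ‖gradient h (cen θ m) - (P i).c‖
          = ‖(gradient h (cen θ m) - gradient h (cen θ' m')) +
              (gradient h (cen θ' m') - (P i).c)‖ := by rw [sub_add_sub_cancel]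
        _ ≤ _ := norm_add_le _ _
        _ ≤ 11 / 10 * (3 * s2) + 2 * (A * s2) := add_le_add h5 h4
        _ ≤ (Λ - 2) * s2 := by nlinarith)
    Mu τ hMu hτ hH
  have hcyl : cyl (2 * R) ⊆ (Set.univ : Set E2) ×ˢ Set.Icc (-(2 * R)) (2 * R) := by
    intro p hp
    exact ⟨Set.mem_univ _, abs_le.1 hp.2⟩
  have hint : ∀ k, ∫⁻ p in cyl (2 * R), Ac n h θ f S (Mc h θ s2 Λ k) (0, p.2) p.1 ^ (3 / 2 : ℝ) ≤
      ∫⁻ t in Set.Icc (-(2 * R)) (2 * R), ∫⁻ x,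
        Ac n h θ f S (Mc h θ s2 Λ k) (0, t) x ^ (3 / 2 : ℝ) := by
    intro k
    have hm0 := measurable_Ac_xt (n := n) (h := h) (S := S) hθ.le hf (Mc h θ s2 Λ k) 0
    have hm : Measurable fun p : E2 × ℝ =>
        Ac n h θ f S (Mc h θ s2 Λ k) (0, p.2) p.1 ^ (3 / 2 : ℝ) := by
      have h6 : Measurable fun p : E2 × ℝ => Ac n h θ f S (Mc h θ s2 Λ k) (0, p.2) p.1 := by
        simpa using hm0
      exact h6.pow_const _
    refine (lintegral_mono_set hcyl).trans (le_of_eq ?_)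
    rw [Measure.volume_eq_prod, ← Measure.prod_restrict, Measure.restrict_univ]
    exact lintegral_prod_symm _ hm.aemeasurable
  have hθs2 : θ ≤ s2 := hθθ'.trans hθ's2
  have h4 := h1 h hh hh1 R hR1 f S hf hf2 hSm hSb D hD hDens s2 hθs2 hs.hi K
    (fun k => Mc h θ s2 Λ k)
    (fun k _ => ⟨Finset.filter_subset _ _, fun m hm => (mem_Mc.1 hm).2⟩)
  have h5 := (Finset.sum_le_sum fun k (_ : k ∈ K) => hint k).trans h4
  set E := en θ f S with hE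
  set E' := ∑ i ∈ I, en θ' (tr h (P i).z (sel θ f S)) (P i).S with hE'
  have hs2q : s2 ^ (-q / 2) * s2 ^ (q / 2) = 1 := by
    rw [← Real.rpow_add hs2]
    have : -q / 2 + q / 2 = 0 := by ring
    rw [this, Real.rpow_zero]
  have hs2p : 0 ≤ s2 ^ (-q / 2) := (Real.rpow_pos_of_pos hs2 _).le
  calc ENNReal.ofReal (s2 ^ (-q / 2)) * val h (sel θ f S) r s1 s2 I P
      ≤ ENNReal.ofReal (s2 ^ (-q / 2)) * (ENNReal.ofReal (C2 * Mu ^ (1 / 2 : ℝ)) *
          (ENNReal.ofReal (C1 * R ^ ε * s2 ^ (q / 2) * Real.sqrt D * R) * E) +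
        ENNReal.ofReal (C2 * τ ^ (1 / 2 : ℝ)) * (ENNReal.ofReal r * E')) := by
        refine mul_le_mul' le_rfl (h3.trans (add_le_add (mul_le_mul' le_rfl h5) le_rfl))
    _ = ENNReal.ofReal (s2 ^ (-q / 2) * (C2 * Mu ^ (1 / 2 : ℝ)) *
          (C1 * R ^ ε * s2 ^ (q / 2) * Real.sqrt D * R)) * E +
        ENNReal.ofReal (s2 ^ (-q / 2) * (C2 * τ ^ (1 / 2 : ℝ)) * r) * E' := by
        rw [mul_add, ← mul_assoc, ← mul_assoc, ← mul_assoc, ← mul_assoc,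
          ← ENNReal.ofReal_mul hs2p, ← ENNReal.ofReal_mul (by positivity),
          ← ENNReal.ofReal_mul hs2p, ← ENNReal.ofReal_mul (by positivity)]
    _ ≤ _ := by
        refine add_le_add ?_ (mul_le_mul' (ENNReal.ofReal_le_ofReal ?_) le_rfl)
        · rw [← mul_assoc (ENNReal.ofReal _) (ENNReal.ofReal _) E,
            ← ENNReal.ofReal_mul (by positivity)]
          refine mul_le_mul' (ENNReal.ofReal_le_ofReal ?_) le_rfl
          calc s2 ^ (-q / 2) * (C2 * Mu ^ (1 / 2 : ℝ)) *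
              (C1 * R ^ ε * s2 ^ (q / 2) * Real.sqrt D * R)
              = (s2 ^ (-q / 2) * s2 ^ (q / 2)) * (C2 * C1) *
                (Mu ^ (1 / 2 : ℝ) * R ^ ε * (R * Real.sqrt D)) := by ring
            _ = (C2 * C1) * (Mu ^ (1 / 2 : ℝ) * R ^ ε * (R * Real.sqrt D)) := by
                rw [hs2q, one_mul]
            _ ≤ (C2 * C1 + C2) * (Mu ^ (1 / 2 : ℝ) * R ^ ε * (R * Real.sqrt D)) := by
                gcongr
                linarith
            _ = _ := by ring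
        · calc s2 ^ (-q / 2) * (C2 * τ ^ (1 / 2 : ℝ)) * r
              = C2 * (s2 ^ (-q / 2) * τ ^ (1 / 2 : ℝ) * r) := by ring
            _ ≤ (C2 * C1 + C2) * (s2 ^ (-q / 2) * τ ^ (1 / 2 : ℝ) * r) := by
                gcongr
                have := mul_nonneg hC2 hC1
                linarith
            _ = _ := by ring

end Crest.Agent.R138.Sm858
end

-- ▼ part R138/Kcc1_882
section

/-!
# R138 / R139, wave side: KMC for coefficient energies, part 1 (helper882)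

Abstract phase space energies: `κ` finite family of directions with velocities `v m`, densities
`U m : E2 → ℝ≥0∞`, selection `S m`; packets move as `y ↦ y - t • v m`.
-/

set_option autoImplicit false

open MeasureTheory
open scoped ENNReal

namespace Crest.Agent.R138.Kcc882

open Crest.Agent.R138.Defs (E2 cyl)
open Crest.Agent.R138.Tub70 (KM32 Lat sl tubes_KM)

/-- lower left lattice point. -/
noncomputable def fl (w : ℝ) (x : E2) : ℤ × ℤ := (⌊x 0 / w⌋, ⌊x 1 / w⌋)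

theorem measurable_fl (w : ℝ) : Measurable (fl w) := by
  unfold fl
  refine Measurable.prodMk ?_ ?_
  · exact Int.measurable_floor.comp (by fun_prop)
  · exact Int.measurable_floor.comp (by fun_prop)

theorem norm_sub_fl {w : ℝ} (hw : 0 < w) (x : E2) : ‖x - Lat w (fl w x)‖ ≤ 2 * w := by
  have key : ∀ t : ℝ, |t - w * (⌊t / w⌋ : ℤ)| ≤ w := by
    intro t
    have h1 := Int.floor_le (t / w)
    have h2 := Int.lt_floor_add_one (t / w)
    rw [le_div_iff₀ hw] at h1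
    rw [div_lt_iff₀ hw] at h2
    rw [abs_le]
    constructor <;> nlinarith
  have h0 := key (x 0)
  have h1 := key (x 1)
  rw [EuclideanSpace.norm_eq, Real.sqrt_le_left (by positivity)]
  simp only [Fin.sum_univ_two, Real.norm_eq_abs, PiLp.sub_apply, Tub70.Lat_zero_coord,
    Tub70.Lat_one_coord, fl, sq_abs]
  have h0' := sq_le_sq' (by linarith [abs_le.mp h0]) (abs_le.mp h0).2
  have h1' := sq_le_sq' (by linarith [abs_le.mp h1]) (abs_le.mp h1).2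
  nlinarith

/-- energy over a family of cells. -/
theorem sum_cells {X : Type*} [MeasurableSpace X] {μ : Measure X} {f : X → ℤ × ℤ}
    (hf : Measurable f) (U : X → ℝ≥0∞) {A : Set X} (hA : MeasurableSet A) (Z : Finset (ℤ × ℤ)) :
    ∑ k ∈ Z, ∫⁻ y in A ∩ {y | f y = k}, U y ∂μ = ∫⁻ y in A ∩ {y | f y ∈ Z}, U y ∂μ := by
  have h1 := lintegral_biUnion_finset (μ := μ) (s := Z) (t := fun k => A ∩ {y | f y = k})
    (fun k _ l _ hkl => by
      rw [Function.onFun, Set.disjoint_left]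
      rintro y ⟨-, hy⟩ ⟨-, hy'⟩
      exact hkl (hy.symm.trans hy'))
    (fun k _ => hA.inter (hf (measurableSet_singleton k))) U
  rw [← h1]
  congr 2
  ext y
  simp

section

variable {κ : Type}

open Classical in
/-- **Kakeya for phase space energies**, sharp cut-offs. -/
theorem kcc_sharp {V : ℝ} (hKM : KM32 V) (ε : ℝ) (hε : 0 < ε) : ∃ C : ℝ, 0 ≤ C ∧
    ∀ w R : ℝ, 0 < w → w ≤ R → ∀ (F : Finset κ) (v : κ → E2) (U : κ → E2 → ℝ≥0∞)
      (S : κ → Set E2), (∀ m, MeasurableSet (S m)) →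
      (∀ m ∈ F, ‖v m‖ ≤ V) → (∀ m ∈ F, ∀ y ∈ S m, ‖y‖ + R ≤ V * R) →
      (∀ m ∈ F, ∫⁻ y in S m, U m y ≠ ⊤) → ∀ Δ : ℝ, 0 ≤ Δ →
      (∀ (b : OrthonormalBasis (Fin 2) ℝ E2) (s : Fin 2 → ℝ) (x0 c0 : E2),
        (∀ j, w / R ≤ s j ∧ s j ≤ 1) →
          ∑ m ∈ F.filter (fun m => ∀ j, |inner ℝ (v m - c0) (b j)| ≤ 2 * s j),
            ∫⁻ y in S m ∩ {y | ∀ j, |inner ℝ (y - x0) (b j)| ≤ 2 * (s j * R)}, U m y ≤
            ENNReal.ofReal (Δ * (s 0 * s 1 * R ^ 2))) →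
      ∫⁻ t in Set.Icc (-R) R, ∫⁻ x in {x : E2 | ‖x‖ ≤ R},
        (ENNReal.ofReal ((w ^ 2)⁻¹) *
          ∑ m ∈ F, ∫⁻ y in S m ∩ Metric.closedBall (x + t • v m) (w / 2), U m y) ^ (3/2 : ℝ) ≤
        ENNReal.ofReal (C * (w / R) ^ (-ε) * Real.sqrt Δ * R) * ∑ m ∈ F, ∫⁻ y in S m, U m y := by
  obtain ⟨C, hC, h⟩ := tubes_KM hKM ε hε
  refine ⟨C, hC, ?_⟩
  intro w R hw hwR F v U S hSm hv hS hfin Δ hΔ hbox
  have hR : 0 < R := hw.trans_le hwR
  set w0 : ℝ := w / 4 with hw0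
  have hw00 : 0 < w0 := by positivity
  -- the lattice points
  obtain ⟨N, hN⟩ : ∃ N : ℤ, V * R / w0 + 1 ≤ N := ⟨⌈V * R / w0 + 1⌉, Int.le_ceil _⟩
  set Z : Finset (ℤ × ℤ) := (Finset.Icc (-N) N ×ˢ Finset.Icc (-N) N).filter
    (fun k => ‖Lat w0 k‖ ≤ V * R) with hZ
  have hmem : ∀ m ∈ F, ∀ y ∈ S m, fl w0 y ∈ Z := by
    intro m hm y hy
    have h1 := hS m hm y hy
    have h2 := norm_sub_fl hw00 y
    have h3 : ‖Lat w0 (fl w0 y)‖ ≤ V * R := by
      calc ‖Lat w0 (fl w0 y)‖ = ‖y - (y - Lat w0 (fl w0 y))‖ := by rw [sub_sub_cancel]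
        _ ≤ ‖y‖ + ‖y - Lat w0 (fl w0 y)‖ := norm_sub_le _ _
        _ ≤ V * R := by
          have : 2 * w0 ≤ R := by rw [hw0]; linarith
          linarith
    have h4 : ∀ i : Fin 2, |Lat w0 (fl w0 y) i| ≤ V * R := fun i =>
      (PiLp.norm_apply_le (Lat w0 (fl w0 y)) i).trans h3
    have h5 : ∀ a : ℤ, |w0 * a| ≤ V * R → a ∈ Finset.Icc (-N) N := by
      intro a ha
      rw [abs_mul, abs_of_pos hw00, ← le_div_iff₀' hw00] at ha
      obtain ⟨ha1, ha2⟩ := abs_le.1 ha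
      rw [Finset.mem_Icc]
      constructor
      · have : ((-N : ℤ) : ℝ) ≤ a := by push_cast; linarith
        exact_mod_cast this
      · have : (a : ℝ) ≤ N := by linarith
        exact_mod_cast this
    rw [hZ, Finset.mem_filter, Finset.mem_product]
    refine ⟨⟨h5 _ ?_, h5 _ ?_⟩, h3⟩
    · have := h4 0
      rwa [Tub70.Lat_zero_coord] at this
    · have := h4 1
      rwa [Tub70.Lat_one_coord] at this
  set μ : κ → ℤ × ℤ → ℝ≥0∞ := fun m k => ∫⁻ y in S m ∩ {y | fl w0 y = k}, U m y with hμ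
  have hμfin : ∀ m ∈ F, ∀ k, μ m k ≠ ⊤ := by
    intro m hm k
    exact ne_top_of_le_ne_top (hfin m hm) (lintegral_mono_set Set.inter_subset_left)
  let ι := {p : κ × (ℤ × ℤ) // p ∈ F ×ˢ Z}
  have hιF : ∀ i : ι, i.1.1 ∈ F := fun i => (Finset.mem_product.1 i.2).1
  have hιZ : ∀ i : ι, i.1.2 ∈ Z := fun i => (Finset.mem_product.1 i.2).2
  have hsumι : ∀ f : κ × (ℤ × ℤ) → ℝ≥0∞, ∑ i : ι, f i.1 = ∑ m ∈ F, ∑ k ∈ Z, f (m, k) := by
    intro f
    rw [← Finset.sum_product (s := F) (t := Z) (f := f)]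
    exact (Finset.sum_subtype (F ×ˢ Z) (fun x => Iff.rfl) f).symm
  set a : ι → ℝ := fun i => (w ^ 2)⁻¹ * (μ i.1.1 i.1.2).toReal with ha
  have ha0 : ∀ i, 0 ≤ a i := fun i => by rw [ha]; positivity
  have haμ : ∀ i : ι, ENNReal.ofReal (a i * w ^ 2) = μ i.1.1 i.1.2 := by
    intro i
    have e : a i * w ^ 2 = (μ i.1.1 i.1.2).toReal := by
      simp only [ha]; field_simp
    rw [e, ENNReal.ofReal_toReal (hμfin _ (hιF i) _)]
  have key := h w R hw hwR ι (fun i => Lat w0 i.1.2) (fun i => v i.1.1) a ha0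
    (fun i => (Finset.mem_filter.1 (hιZ i)).2) (fun i => hv _ (hιF i)) Δ hΔ ?_
    (fun x t => ENNReal.ofReal ((w ^ 2)⁻¹) *
          ∑ m ∈ F, ∫⁻ y in S m ∩ Metric.closedBall (x + t • v m) (w / 2), U m y) ?_
  · refine key.trans (le_of_eq ?_)
    have e1 : ENNReal.ofReal (∑ i : ι, a i * w ^ 2) = ∑ m ∈ F, ∫⁻ y in S m, U m y := by
      rw [ENNReal.ofReal_sum_of_nonneg (fun i _ => by have := ha0 i; positivity)]
      simp_rw [haμ]
      rw [hsumι (fun p => μ p.1 p.2)]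
      refine Finset.sum_congr rfl fun m hm => ?_
      simp only [hμ]
      rw [sum_cells (measurable_fl w0) (U m) (hSm m) Z]
      congr 2
      ext y
      simp only [Set.mem_inter_iff, Set.mem_ofPred_eq, and_iff_left_iff_imp]
      exact fun hy => hmem m hm y hy
    rw [← e1, ← ENNReal.ofReal_mul (by positivity)]
    congr 1
    ring
  · -- planks
    intro b s x0 c0 hs
    have hs0 : ∀ j, 0 < s j := fun j => (by positivity : 0 < w / R).trans_le (hs j).1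
    have h1 := hbox b s x0 c0 hs
    have h2 : ENNReal.ofReal (∑ i : ι, (if ∀ t : ℝ, |t| ≤ R →
        sl c0 b (fun i => s i * R) x0 t (Lat w0 i.1.2 - t • v i.1.1) then a i * w ^ 2 else 0)) ≤
        ENNReal.ofReal (Δ * (s 0 * s 1 * R ^ 2)) := by
      refine le_trans ?_ h1
      rw [ENNReal.ofReal_sum_of_nonneg (fun i _ => by
        have := ha0 i
        split_ifs <;> positivity)]
      have e2 : ∀ i : ι, ENNReal.ofReal (if ∀ t : ℝ, |t| ≤ R →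
          sl c0 b (fun i => s i * R) x0 t (Lat w0 i.1.2 - t • v i.1.1) then a i * w ^ 2 else 0) =
          (fun p : κ × (ℤ × ℤ) => if ∀ t : ℝ, |t| ≤ R →
          sl c0 b (fun i => s i * R) x0 t (Lat w0 p.2 - t • v p.1) then μ p.1 p.2 else 0) i.1 := by
        intro i
        simp only
        split_ifs
        · exact haμ i
        · simp
      rw [Finset.sum_congr rfl fun i _ => e2 i]
      rw [hsumι (fun p : κ × (ℤ × ℤ) => if ∀ t : ℝ, |t| ≤ R →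
          sl c0 b (fun i => s i * R) x0 t (Lat w0 p.2 - t • v p.1) then μ p.1 p.2 else 0)]
      simp only
      rw [Finset.sum_filter]
      refine Finset.sum_le_sum fun m hm => ?_
      -- fixed direction
      rw [← Finset.sum_filter]
      have hgeo : ∀ k ∈ Z.filter (fun k => ∀ t : ℝ, |t| ≤ R →
          sl c0 b (fun i => s i * R) x0 t (Lat w0 k - t • v m)),
          (∀ j, |inner ℝ (v m - c0) (b j)| ≤ 2 * s j) ∧
          ∀ y, fl w0 y = k → ∀ j, |inner ℝ (y - x0) (b j)| ≤ 2 * (s j * R) := by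
        intro k hk
        have hk2 := (Finset.mem_filter.1 hk).2
        have h0 : ∀ j, |inner ℝ (Lat w0 k - x0) (b j)| ≤ s j * R := by
          intro j
          have := hk2 0 (by rw [abs_zero]; exact hR.le) j
          simpa using this
        refine ⟨fun j => ?_, fun y hy j => ?_⟩
        · have h3 := hk2 R (by rw [abs_of_pos hR]) j
          have e3 : (R : ℝ) * inner ℝ (v m - c0) (b j) = inner ℝ (Lat w0 k - x0) (b j) -
              inner ℝ (Lat w0 k - R • v m - x0 + R • c0) (b j) := by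
            rw [← inner_sub_left, ← real_inner_smul_left]
            congr 1
            rw [smul_sub]; abel
          have h4 : |R * inner ℝ (v m - c0) (b j)| ≤ s j * R + s j * R := by
            rw [e3]
            exact (abs_sub _ _).trans (add_le_add (h0 j) h3)
          rw [abs_mul, abs_of_pos hR] at h4
          have h5 : R * |inner ℝ (v m - c0) (b j)| ≤ R * (2 * s j) := by linarith
          exact le_of_mul_le_mul_left h5 hR
        · have h3 : ‖y - Lat w0 k‖ ≤ s j * R := by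
            have := norm_sub_fl hw00 y
            rw [hy] at this
            have h4 : w ≤ s j * R := by
              have := (hs j).1
              rwa [div_le_iff₀ hR] at this
            rw [hw0] at this
            linarith
          have e3 : inner ℝ (y - x0) (b j) = inner ℝ (y - Lat w0 k) (b j) +
              inner ℝ (Lat w0 k - x0) (b j) := by
            rw [← inner_add_left]; congr 1; abel
          have h4 : |inner ℝ (y - Lat w0 k) (b j)| ≤ s j * R := by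
            refine (abs_real_inner_le_norm _ _).trans ?_
            rw [b.norm_eq_one, mul_one]; exact h3
          rw [e3]
          refine (abs_add_le _ _).trans ?_
          linarith [h0 j]
      by_cases hdir : ∀ j, |inner ℝ (v m - c0) (b j)| ≤ 2 * s j
      · rw [if_pos hdir]
        simp only [hμ]
        rw [sum_cells (measurable_fl w0) (U m) (hSm m)]
        refine lintegral_mono_set fun y hy => ⟨hy.1, fun j => ?_⟩
        exact (hgeo _ hy.2).2 y rfl j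
      · rw [if_neg hdir]
        have : Z.filter (fun k => ∀ t : ℝ, |t| ≤ R →
          sl c0 b (fun i => s i * R) x0 t (Lat w0 k - t • v m)) = ∅ := by
          rw [Finset.eq_empty_iff_forall_notMem]
          intro k hk
          exact hdir (hgeo k hk).1
        rw [this, Finset.sum_empty]
    rwa [ENNReal.ofReal_le_ofReal_iff (by have := hs0 0; have := hs0 1; positivity)] at h2
  · -- domination
    intro x t _ _
    have e2 : ∀ i : ι, (if ‖x - Lat w0 i.1.2 + t • v i.1.1‖ ≤ w then ENNReal.ofReal (a i) else 0) =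
        ENNReal.ofReal ((w ^ 2)⁻¹) * (fun p : κ × (ℤ × ℤ) =>
          if ‖x - Lat w0 p.2 + t • v p.1‖ ≤ w then μ p.1 p.2 else 0) i.1 := by
      intro i
      simp only
      split_ifs
      · rw [← haμ i, ← ENNReal.ofReal_mul (by positivity)]
        congr 1
        field_simp
      · simp
    rw [Finset.sum_congr rfl fun i _ => e2 i]
    rw [← Finset.mul_sum, hsumι (fun p : κ × (ℤ × ℤ) =>
          if ‖x - Lat w0 p.2 + t • v p.1‖ ≤ w then μ p.1 p.2 else 0)]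
    refine mul_le_mul' le_rfl (Finset.sum_le_sum fun m hm => ?_)
    simp only
    rw [← Finset.sum_filter]
    simp only [hμ]
    rw [sum_cells (measurable_fl w0) (U m) (hSm m)]
    refine lintegral_mono_set fun y hy => ⟨hy.1, ?_⟩
    refine Finset.mem_filter.2 ⟨hmem m hm y hy.1, ?_⟩
    have h1 := norm_sub_fl hw00 y
    have h2 : ‖y - (x + t • v m)‖ ≤ w / 2 := by
      have := hy.2
      rwa [Metric.mem_closedBall, dist_eq_norm] at this
    calc ‖x - Lat w0 (fl w0 y) + t • v m‖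
        = ‖(y - Lat w0 (fl w0 y)) - (y - (x + t • v m))‖ := by congr 1; abel
      _ ≤ ‖y - Lat w0 (fl w0 y)‖ + ‖y - (x + t • v m)‖ := norm_sub_le _ _
      _ ≤ 2 * w0 + w / 2 := add_le_add h1 h2
      _ = w := by rw [hw0]; ring

end

end Crest.Agent.R138.Kcc882
end

-- ▼ part R138/Kcc2_882
section

/-!
# R138 / R139, wave side: KMC for coefficient energies, part 2 (helper882)

Covering by honest phase boxes: from `Dens` to the box hypothesis of `kcc_sharp` inside one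
direction cap.
-/

set_option autoImplicit false

open MeasureTheory
open scoped ENNReal

namespace Crest.Agent.R138.Kcc882

open Crest.Agent.R138.Defs Crest.Agent.R138.Wpk685 Crest.Agent.R138.Ad480

/-- index of the cell of sides `u 0`, `u 1` in the frame `b`. -/
noncomputable def ix (b : OrthonormalBasis (Fin 2) ℝ E2) (u : Fin 2 → ℝ) (x : E2) : ℤ × ℤ :=
  (⌊inner ℝ x (b 0) / u 0⌋, ⌊inner ℝ x (b 1) / u 1⌋)

theorem measurable_ix (b : OrthonormalBasis (Fin 2) ℝ E2) (u : Fin 2 → ℝ) : Measurable (ix b u) := by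
  unfold ix
  refine Measurable.prodMk ?_ ?_
  · exact Int.measurable_floor.comp (Continuous.measurable (by fun_prop))
  · exact Int.measurable_floor.comp (Continuous.measurable (by fun_prop))

theorem floor_mem {x u a : ℝ} (hu : 0 < u) (hx : |x| ≤ a * u) :
    ⌊x / u⌋ ∈ Finset.Icc (-⌈a⌉) ⌈a⌉ := by
  have h3 : |x / u| ≤ a := by
    rw [abs_div, abs_of_pos hu, div_le_iff₀ hu]
    exact hx
  obtain ⟨h4, h5⟩ := abs_le.1 h3
  have h6 := Int.le_ceil a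
  rw [Finset.mem_Icc]
  constructor
  · rw [Int.le_floor]; push_cast; linarith
  · have : ((⌊x / u⌋ : ℤ) : ℝ) ≤ (⌈a⌉ : ℤ) := (Int.floor_le _).trans (h5.trans h6)
    exact_mod_cast this

theorem ix_mem (b : OrthonormalBasis (Fin 2) ℝ E2) {u a : Fin 2 → ℝ} (hu : ∀ i, 0 < u i) {x : E2}
    (hx : ∀ i, |inner ℝ x (b i)| ≤ a i * u i) :
    ix b u x ∈ Finset.Icc (-⌈a 0⌉) ⌈a 0⌉ ×ˢ Finset.Icc (-⌈a 1⌉) ⌈a 1⌉ := by
  unfold ix
  rw [Finset.mem_product]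
  exact ⟨floor_mem (hu 0) (hx 0), floor_mem (hu 1) (hx 1)⟩

theorem ix_near (b : OrthonormalBasis (Fin 2) ℝ E2) {u : Fin 2 → ℝ} (hu : ∀ i, 0 < u i) {x : E2}
    {k : ℤ × ℤ} (h : ix b u x = k) (i : Fin 2) :
    |inner ℝ (x - sh b ![k.1 * u 0, k.2 * u 1]) (b i)| ≤ u i := by
  have key : ∀ (z w : ℝ) (n : ℤ), 0 < w → ⌊z / w⌋ = n → |z - n * w| ≤ w := by
    intro z w n hw hn
    have h1 := Int.floor_le (z / w)
    have h2 := Int.lt_floor_add_one (z / w)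
    rw [hn] at h1 h2
    rw [le_div_iff₀ hw] at h1
    rw [div_lt_iff₀ hw] at h2
    rw [abs_le]
    constructor <;> nlinarith
  have h0 : ⌊inner ℝ x (b 0) / u 0⌋ = k.1 := by rw [← h]; rfl
  have h1 : ⌊inner ℝ x (b 1) / u 1⌋ = k.2 := by rw [← h]; rfl
  rw [inner_sub_left, inner_sh]
  fin_cases i
  · simpa using key _ _ _ (hu 0) h0
  · simpa using key _ _ _ (hu 1) h1

theorem card_Icc_ceil {a : ℝ} (ha : 0 ≤ a) : ((Finset.Icc (-⌈a⌉) ⌈a⌉).card : ℝ) ≤ 2 * a + 3 := by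
  rw [Int.card_Icc]
  have h1 := Int.ceil_lt_add_one a
  have h0 : (0 : ℤ) ≤ ⌈a⌉ := Int.ceil_nonneg ha
  have h2 : ((⌈a⌉ + 1 - -⌈a⌉).toNat : ℤ) = 2 * ⌈a⌉ + 1 := by omega
  have h3 : (((⌈a⌉ + 1 - -⌈a⌉).toNat : ℤ) : ℝ) = 2 * ⌈a⌉ + 1 := by rw [h2]; push_cast; ring
  rw [← Int.cast_natCast (R := ℝ), h3]
  linarith

theorem card_box {a : Fin 2 → ℝ} (ha : ∀ i, 0 ≤ a i) :
    ((Finset.Icc (-⌈a 0⌉) ⌈a 0⌉ ×ˢ Finset.Icc (-⌈a 1⌉) ⌈a 1⌉).card : ℝ) ≤
      (2 * a 0 + 3) * (2 * a 1 + 3) := by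
  rw [Finset.card_product]
  push_cast
  exact mul_le_mul (card_Icc_ceil (ha 0)) (card_Icc_ceil (ha 1)) (Nat.cast_nonneg _)
    (by have := ha 0; positivity)

open Classical in
/-- **cover**: energy in a phase box of sides `a i σ i`, `p i σ i R`. -/
theorem box_cover {q : ℝ} {h : E2 → ℝ} {R : ℝ} (hR : 1 ≤ R) {g : E2 → ℂ} {S : ℤ × ℤ → Set E2}
    (hSm : ∀ m, MeasurableSet (S m)) {Δ : ℝ} (_hΔ : 0 ≤ Δ) (hD : Dens q h R g S Δ)
    (b : OrthonormalBasis (Fin 2) ℝ E2) {σ : Fin 2 → ℝ}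
    (hσ : ∀ i, R ^ (-(1/2) : ℝ) ≤ σ i ∧ σ i ≤ 1) {a p : Fin 2 → ℝ} (ha : ∀ i, 0 ≤ a i)
    (hp : ∀ i, 0 ≤ p i) (c x0 : E2) {F : Finset (ℤ × ℤ)} (hF : F ⊆ caps (R ^ (-(1/2) : ℝ)))
    (T : ℤ × ℤ → Set E2) (hT : ∀ m ∈ F, T m ⊆ S m)
    (hv : ∀ m ∈ F, ∀ i, |inner ℝ (gradient h (cen (R ^ (-(1/2) : ℝ)) m) - c) (b i)| ≤ a i * σ i)
    (hx : ∀ m ∈ F, ∀ y ∈ T m, ∀ i, |inner ℝ (y - x0) (b i)| ≤ p i * (σ i * R)) :
    ∑ m ∈ F, ∫⁻ y in T m, ‖um (R ^ (-(1/2) : ℝ)) g m y‖ₑ ^ 2 ≤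
      ENNReal.ofReal ((2 * a 0 + 3) * (2 * a 1 + 3) * ((2 * p 0 + 3) * (2 * p 1 + 3)) *
        (Δ * (max (σ 0) (σ 1)) ^ q * (σ 0 * σ 1 * R ^ 2))) := by
  obtain ⟨hρ, hρ1, hρ2⟩ := rp_facts hR
  set ρ : ℝ := R ^ (-(1/2) : ℝ) with hρdef
  have hR0 : 0 < R := by linarith
  have hσ0 : ∀ i, 0 < σ i := fun i => hρ.trans_le (hσ i).1
  have hσR : ∀ i, 0 < σ i * R := fun i => mul_pos (hσ0 i) hR0
  set KA : Finset (ℤ × ℤ) := Finset.Icc (-⌈a 0⌉) ⌈a 0⌉ ×ˢ Finset.Icc (-⌈a 1⌉) ⌈a 1⌉ with hKA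
  set KP : Finset (ℤ × ℤ) := Finset.Icc (-⌈p 0⌉) ⌈p 0⌉ ×ˢ Finset.Icc (-⌈p 1⌉) ⌈p 1⌉ with hKP
  set φ : E2 → ℤ × ℤ := fun y => ix b (fun i => σ i * R) (y - x0) with hφ
  have hφm : Measurable φ := (measurable_ix b _).comp (measurable_id.sub_const x0)
  set ψ : ℤ × ℤ → ℤ × ℤ := fun m => ix b σ (gradient h (cen ρ m) - c) with hψ
  set U : ℤ × ℤ → E2 → ℝ≥0∞ := fun m y => ‖um ρ g m y‖ₑ ^ 2 with hU
  set E : ℝ≥0∞ := ENNReal.ofReal (Δ * (max (σ 0) (σ 1)) ^ q * (σ 0 * σ 1 * R ^ 2)) with hE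
  have h1 : ∑ m ∈ F, ∫⁻ y in T m, U m y ≤ ∑ m ∈ F, ∑ k ∈ KP, ∫⁻ y in S m ∩ {y | φ y = k}, U m y := by
    refine Finset.sum_le_sum fun m hm => ?_
    rw [sum_cells hφm (U m) (hSm m)]
    refine lintegral_mono_set fun y hy => ⟨hT m hm hy, ?_⟩
    exact ix_mem b hσR (hx m hm y hy)
  have h2 : ∑ m ∈ F, ∑ k ∈ KP, ∫⁻ y in S m ∩ {y | φ y = k}, U m y =
      ∑ j ∈ KA, ∑ k ∈ KP, ∑ m ∈ F with ψ m = j, ∫⁻ y in S m ∩ {y | φ y = k}, U m y := by
    rw [← Finset.sum_fiberwise_of_maps_to (s := F) (t := KA) (g := ψ)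
      (fun m hm => ix_mem b hσ0 (hv m hm))]
    exact Finset.sum_congr rfl fun j _ => Finset.sum_comm
  have h3 : ∀ j ∈ KA, ∀ k ∈ KP, ∑ m ∈ F with ψ m = j, ∫⁻ y in S m ∩ {y | φ y = k}, U m y ≤ E := by
    intro j _ k _
    refine le_trans ?_ (hD (c + sh b ![j.1 * σ 0, j.2 * σ 1]) b σ
      (x0 + sh b ![k.1 * (σ 0 * R), k.2 * (σ 1 * R)]) hσ)
    unfold en
    have hFj : (F.filter (fun m => ψ m = j)) ⊆ caps ρ := (Finset.filter_subset _ _).trans hF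
    refine le_trans (Finset.sum_le_sum fun m hm => ?_) (Finset.sum_le_sum_of_subset hFj)
    refine lintegral_mono_set ?_
    rintro y ⟨hy1, hy2⟩
    refine ⟨hy1, fun i => ?_, fun i => ?_⟩
    · have := ix_near b hσ0 (Finset.mem_filter.1 hm).2 i
      rwa [sub_sub] at this
    · have := ix_near b hσR (show ix b (fun i => σ i * R) (y - x0) = k from hy2) i
      rwa [sub_sub] at this
  have h4 : ∑ j ∈ KA, ∑ k ∈ KP, ∑ m ∈ F with ψ m = j, ∫⁻ y in S m ∩ {y | φ y = k}, U m y ≤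
      (KA.card : ℝ≥0∞) * ((KP.card : ℝ≥0∞) * E) := by
    calc _ ≤ ∑ j ∈ KA, ∑ k ∈ KP, E :=
          Finset.sum_le_sum fun j hj => Finset.sum_le_sum fun k hk => h3 j hj k hk
      _ = _ := by rw [Finset.sum_const, Finset.sum_const, nsmul_eq_mul, nsmul_eq_mul]
  refine h1.trans (h2.le.trans (h4.trans ?_))
  have e1 : (KA.card : ℝ≥0∞) ≤ ENNReal.ofReal ((2 * a 0 + 3) * (2 * a 1 + 3)) := by
    rw [← ENNReal.ofReal_natCast]
    exact ENNReal.ofReal_le_ofReal (card_box ha)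
  have e2 : (KP.card : ℝ≥0∞) ≤ ENNReal.ofReal ((2 * p 0 + 3) * (2 * p 1 + 3)) := by
    rw [← ENNReal.ofReal_natCast]
    exact ENNReal.ofReal_le_ofReal (card_box hp)
  have ha0 := ha 0
  have ha1 := ha 1
  have hp0 := hp 0
  have hp1 := hp 1
  rw [ENNReal.ofReal_mul (by positivity), ENNReal.ofReal_mul (by positivity), mul_assoc]
  exact mul_le_mul' e1 (mul_le_mul' e2 le_rfl)

end Crest.Agent.R138.Kcc882
end

-- ▼ part R138/Kcc3_882
section

/-!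
# R138 / R139, wave side: KMC for coefficient energies, part 3 (helper882)

Smooth weights against sharp cut-offs, the tail, the overlap of direction caps.
-/

set_option autoImplicit false

open MeasureTheory
open scoped ENNReal

namespace Crest.Agent.R138.Kcc882

open Crest.Agent.R138.Defs Crest.Agent.R138.Wpk685 Crest.Agent.R138.Ad480

theorem wa_split {ρ Y : ℝ} (hρ : 0 ≤ ρ) (hY : 0 < Y) {n n1 : ℕ} (hn : n1 ≤ n) (v : E2) :
    wa ρ n v ≤ (if ρ * ‖v‖ ≤ Y then 1 else 0) + (Y ^ (n - n1))⁻¹ * wa ρ n1 v := by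
  have h1 := wa_le_one hρ n v
  have h2 := wa_pos hρ n1 v
  split_ifs with h
  · have : 0 ≤ (Y ^ (n - n1))⁻¹ * wa ρ n1 v := by positivity
    linarith
  · rw [zero_add]
    unfold wa
    rw [← mul_inv]
    have hv : 0 ≤ ρ * ‖v‖ := by positivity
    refine inv_anti₀ (by positivity) ?_
    have e : (1 + ρ * ‖v‖) ^ n = (1 + ρ * ‖v‖) ^ (n - n1) * (1 + ρ * ‖v‖) ^ n1 := by
      rw [← pow_add, Nat.sub_add_cancel hn]
    rw [e]
    refine mul_le_mul_of_nonneg_right (pow_le_pow_left₀ hY.le ?_ _) (by positivity)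
    linarith [not_le.1 h]

/-- sharp cut-off. -/
noncomputable def Sh (h : E2 → ℝ) (ρ Y : ℝ) (g : E2 → ℂ) (S : ℤ × ℤ → Set E2) (M : Finset (ℤ × ℤ))
    (t : ℝ) (x : E2) : ℝ≥0∞ :=
  ENNReal.ofReal (ρ ^ 2) * ∑ m ∈ M,
    ∫⁻ y in S m ∩ Metric.closedBall (x + t • gradient h (cen ρ m)) (Y / ρ), ‖um ρ g m y‖ₑ ^ 2

theorem U_meas {ρ : ℝ} {g : E2 → ℂ} (hg : Integrable g) (m : ℤ × ℤ) :
    Measurable fun y => ‖um ρ g m y‖ₑ ^ 2 := by
  exact ((um_cont hg m).enorm.measurable).pow_const 2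

theorem wa_meas {ρ : ℝ} (hρ : 0 ≤ ρ) (n : ℕ) (z : E2 × ℝ) (v : E2) :
    Measurable fun p : E2 × E2 => ENNReal.ofReal (wa ρ n (p.2 - z.1 - z.2 • v - p.1)) := by
  refine ENNReal.measurable_ofReal.comp ?_
  refine ((wa_cont hρ n).comp ?_).measurable
  fun_prop

theorem Ac_meas {n : ℕ} {h : E2 → ℝ} {ρ : ℝ} (hρ : 0 ≤ ρ) {g : E2 → ℂ} (hg : Integrable g)
    (S : ℤ × ℤ → Set E2) (M : Finset (ℤ × ℤ)) (z : E2 × ℝ) :
    Measurable fun x => Ac n h ρ g S M z x := by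
  unfold Ac
  refine Measurable.const_mul (Finset.measurable_fun_sum _ fun m _ => ?_) _
  exact Measurable.lintegral_prod_right' (ν := volume.restrict (S m))
    (f := fun p : E2 × E2 => ENNReal.ofReal (wa ρ n (p.2 - z.1 - z.2 • gradient h (cen ρ m) - p.1)) *
      ‖um ρ g m p.2‖ₑ ^ 2)
    ((wa_meas hρ n z _).mul ((U_meas hg m).comp measurable_snd))

theorem Ac_split {n n1 : ℕ} (hn : n1 ≤ n) {h : E2 → ℝ} {ρ Y : ℝ} (hρ : 0 < ρ) (hY : 0 < Y)
    {g : E2 → ℂ} (hg : Integrable g) (S : ℤ × ℤ → Set E2) (M : Finset (ℤ × ℤ)) (t : ℝ) (x : E2) :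
    Ac n h ρ g S M (0, t) x ≤ Sh h ρ Y g S M t x +
      ENNReal.ofReal ((Y ^ (n - n1))⁻¹) * Ac n1 h ρ g S M (0, t) x := by
  unfold Ac Sh
  rw [mul_left_comm, ← mul_add]
  refine mul_le_mul' le_rfl ?_
  rw [Finset.mul_sum, ← Finset.sum_add_distrib]
  refine Finset.sum_le_sum fun m _ => ?_
  simp only
  set v := gradient h (cen ρ m) with hv
  have hb : MeasurableSet (Metric.closedBall (x + t • v) (Y / ρ)) := measurableSet_closedBall
  have h1 : ∀ y, ENNReal.ofReal (wa ρ n (y - 0 - t • v - x)) * ‖um ρ g m y‖ₑ ^ 2 ≤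
      (Metric.closedBall (x + t • v) (Y / ρ)).indicator (fun y => ‖um ρ g m y‖ₑ ^ 2) y +
      ENNReal.ofReal ((Y ^ (n - n1))⁻¹) *
        (ENNReal.ofReal (wa ρ n1 (y - 0 - t • v - x)) * ‖um ρ g m y‖ₑ ^ 2) := by
    intro y
    have h2 := wa_split hρ.le hY hn (y - 0 - t • v - x)
    have h3 : (Metric.closedBall (x + t • v) (Y / ρ)).indicator (fun y => ‖um ρ g m y‖ₑ ^ 2) y =
        ENNReal.ofReal (if ρ * ‖y - 0 - t • v - x‖ ≤ Y then 1 else 0) * ‖um ρ g m y‖ₑ ^ 2 := by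
      have e : y - 0 - t • v - x = y - (x + t • v) := by rw [sub_zero]; abel
      rw [e]
      by_cases hy : ρ * ‖y - (x + t • v)‖ ≤ Y
      · have hy' : y ∈ Metric.closedBall (x + t • v) (Y / ρ) := by
          rw [Metric.mem_closedBall, dist_eq_norm, le_div_iff₀ hρ, mul_comm]
          exact hy
        rw [Set.indicator_of_mem hy', if_pos hy, ENNReal.ofReal_one, one_mul]
      · have hy' : y ∉ Metric.closedBall (x + t • v) (Y / ρ) := by
          rw [Metric.mem_closedBall, dist_eq_norm, le_div_iff₀ hρ, mul_comm]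
          exact hy
        rw [Set.indicator_of_notMem hy', if_neg hy, ENNReal.ofReal_zero, zero_mul]
    rw [h3, ← mul_assoc, ← ENNReal.ofReal_mul (by positivity), ← add_mul,
      ← ENNReal.ofReal_add (by split_ifs <;> norm_num) (by have := wa_pos hρ.le n1 (y - 0 - t • v - x); positivity)]
    exact mul_le_mul' (ENNReal.ofReal_le_ofReal h2) le_rfl
  refine (lintegral_mono h1).trans ?_
  have hm : Measurable fun y => (Metric.closedBall (x + t • v) (Y / ρ)).indicator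
      (fun y => ‖um ρ g m y‖ₑ ^ 2) y := (U_meas hg m).indicator hb
  rw [lintegral_add_left hm, lintegral_const_mul' _ _ ENNReal.ofReal_ne_top,
    setLIntegral_indicator hb, Set.inter_comm]

/-- the mass of the weight. -/
noncomputable def W0 : ℝ≥0∞ := ∫⁻ x : E2, ENNReal.ofReal (wa 1 3 x)

theorem W0_lt : W0 < ⊤ := by
  have h := finite_integral_one_add_norm (E := E2) (μ := volume) (r := 3) (by
    rw [finrank_euclideanSpace_fin]; norm_num)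
  refine lt_of_le_of_lt (le_of_eq ?_) h
  unfold W0
  congr 1
  funext x
  unfold wa
  rw [Real.rpow_neg (by positivity), one_mul]
  norm_cast

theorem lint_wa {ρ : ℝ} (hρ : 0 < ρ) (a : E2) :
    ∫⁻ x, ENNReal.ofReal (wa ρ 3 (a - x)) = ENNReal.ofReal ((ρ ^ 2)⁻¹) * W0 := by
  rw [lintegral_sub_left_eq_self (fun x => ENNReal.ofReal (wa ρ 3 x)) a,
    Tub70.lintegral_smul_E2 (inv_pos.2 hρ), inv_pow]
  congr 1
  unfold W0
  congr 1
  funext x
  congr 1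
  unfold wa
  rw [norm_smul, Real.norm_of_nonneg (inv_pos.2 hρ).le, mul_inv_cancel_left₀ hρ.ne', one_mul]

theorem lint_Ac {h : E2 → ℝ} {ρ : ℝ} (hρ : 0 < ρ) {g : E2 → ℂ} (hg : Integrable g)
    (S : ℤ × ℤ → Set E2) (M : Finset (ℤ × ℤ)) (z : E2 × ℝ) :
    ∫⁻ x, Ac 3 h ρ g S M z x = W0 * ∑ m ∈ M, ∫⁻ y in S m, ‖um ρ g m y‖ₑ ^ 2 := by
  unfold Ac
  have hm : ∀ m, Measurable fun p : E2 × E2 =>
      ENNReal.ofReal (wa ρ 3 (p.2 - z.1 - z.2 • gradient h (cen ρ m) - p.1)) *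
      ‖um ρ g m p.2‖ₑ ^ 2 := fun m => (wa_meas hρ.le 3 z _).mul ((U_meas hg m).comp measurable_snd)
  rw [lintegral_const_mul' _ _ ENNReal.ofReal_ne_top, lintegral_finset_sum]
  · have e : ∀ m, ∫⁻ x, ∫⁻ y in S m,
        ENNReal.ofReal (wa ρ 3 (y - z.1 - z.2 • gradient h (cen ρ m) - x)) * ‖um ρ g m y‖ₑ ^ 2 =
        ENNReal.ofReal ((ρ ^ 2)⁻¹) * (W0 * ∫⁻ y in S m, ‖um ρ g m y‖ₑ ^ 2) := by
      intro m
      rw [lintegral_lintegral_swap (hm m).aemeasurable, ← mul_assoc,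
        ← lintegral_const_mul _ (U_meas hg m)]
      refine lintegral_congr fun y => ?_
      rw [lintegral_mul_const' _ _ (by
        exact ENNReal.pow_ne_top (by simp)), lint_wa hρ]
    simp_rw [e]
    rw [← Finset.mul_sum, ← mul_assoc, ← ENNReal.ofReal_mul (by positivity),
      mul_inv_cancel₀ (by positivity), ENNReal.ofReal_one, one_mul, ← Finset.mul_sum]
  · intro m _
    exact Measurable.lintegral_prod_right' (ν := volume.restrict (S m))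
      (f := fun p : E2 × E2 => ENNReal.ofReal (wa ρ 3 (p.2 - z.1 - z.2 • gradient h (cen ρ m) - p.1)) *
      ‖um ρ g m p.2‖ₑ ^ 2) (hm m)


theorem rpow32_le {l a : ℝ≥0∞} (h : a ≤ l) : a ^ (3/2 : ℝ) ≤ l ^ (1/2 : ℝ) * a := by
  have e : (3/2 : ℝ) = 1/2 + 1 := by norm_num
  rw [e, ENNReal.rpow_add_of_nonneg _ _ (by norm_num) (by norm_num), ENNReal.rpow_one]
  exact mul_le_mul' (ENNReal.rpow_le_rpow h (by norm_num)) le_rfl

open Classical in
/-- overlap of the direction caps. -/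
theorem overlap {s Λ : ℝ} (hs : 0 < s) (hΛ : 0 ≤ Λ) (v : E2) (K : Finset (ℤ × ℤ)) :
    ((K.filter fun k => ‖v - cen s k‖ ≤ Λ * s).card : ℝ) ≤ (2 * Λ + 1) ^ 2 := by
  set F : Finset (ℤ × ℤ) := Finset.Icc ⌈v 0 / s - Λ⌉ ⌊v 0 / s + Λ⌋ ×ˢ
    Finset.Icc ⌈v 1 / s - Λ⌉ ⌊v 1 / s + Λ⌋ with hF
  have h1 : (K.filter fun k => ‖v - cen s k‖ ≤ Λ * s) ⊆ F := by
    intro k hk
    have h2 := (Finset.mem_filter.1 hk).2
    have h3 : ∀ (a : ℝ) (n : ℤ), |a - s * n| ≤ Λ * s → n ∈ Finset.Icc ⌈a / s - Λ⌉ ⌊a / s + Λ⌋ := by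
      intro a n h4
      obtain ⟨h5, h6⟩ := abs_le.1 h4
      rw [Finset.mem_Icc, Int.ceil_le, Int.le_floor]
      constructor
      · rw [sub_le_iff_le_add, div_le_iff₀ hs]; linarith
      · rw [← sub_le_iff_le_add, le_div_iff₀ hs]; linarith
    have h4 := (PiLp.norm_apply_le (v - cen s k) 0).trans h2
    have h5 := (PiLp.norm_apply_le (v - cen s k) 1).trans h2
    rw [PiLp.sub_apply, cen_zero, Real.norm_eq_abs] at h4
    rw [PiLp.sub_apply, cen_one, Real.norm_eq_abs] at h5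
    rw [hF, Finset.mem_product]
    exact ⟨h3 _ _ h4, h3 _ _ h5⟩
  have hcard : ∀ a : ℝ, ((Finset.Icc ⌈a / s - Λ⌉ ⌊a / s + Λ⌋).card : ℝ) ≤ 2 * Λ + 1 := by
    intro a
    rw [Int.card_Icc]
    by_cases h0 : 0 ≤ ⌊a / s + Λ⌋ + 1 - ⌈a / s - Λ⌉
    · have h2 := Int.toNat_of_nonneg h0
      have h3 : (((⌊a / s + Λ⌋ + 1 - ⌈a / s - Λ⌉).toNat : ℤ) : ℝ) =
        ((⌊a / s + Λ⌋ + 1 - ⌈a / s - Λ⌉ : ℤ) : ℝ) := by rw [h2]
      rw [← Int.cast_natCast (R := ℝ), h3]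
      push_cast
      have h4 := Int.floor_le (a / s + Λ)
      have h5 := Int.le_ceil (a / s - Λ)
      linarith
    · rw [Int.toNat_of_nonpos (by omega)]
      push_cast
      linarith
  calc ((K.filter fun k => ‖v - cen s k‖ ≤ Λ * s).card : ℝ) ≤ F.card := by
        exact_mod_cast Finset.card_le_card h1
    _ ≤ (2 * Λ + 1) * (2 * Λ + 1) := by
        rw [hF, Finset.card_product]
        push_cast
        exact mul_le_mul (hcard _) (hcard _) (Nat.cast_nonneg _) (by positivity)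
    _ = _ := by ring

open Classical in
/-- sum of the energies of families of caps. -/
theorem sum_fam {h : E2 → ℝ} {ρ s Λ : ℝ} (hs : 0 < s) (hΛ : 0 ≤ Λ) (K : Finset (ℤ × ℤ))
    (M : ℤ × ℤ → Finset (ℤ × ℤ)) (hM : ∀ k ∈ K, M k ⊆ caps ρ)
    (hM' : ∀ k ∈ K, ∀ m ∈ M k, ‖gradient h (cen ρ m) - cen s k‖ ≤ Λ * s) (a : ℤ × ℤ → ℝ≥0∞) :
    ∑ k ∈ K, ∑ m ∈ M k, a m ≤ ENNReal.ofReal ((2 * Λ + 1) ^ 2) * ∑ m ∈ caps ρ, a m := by
  have h1 : ∑ k ∈ K, ∑ m ∈ M k, a m = ∑ m ∈ caps ρ, ∑ k ∈ K.filter (fun k => m ∈ M k), a m := by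
    refine Finset.sum_comm' fun k m => ?_
    simp only [Finset.mem_filter]
    constructor
    · rintro ⟨hk, hm⟩
      exact ⟨⟨hk, hm⟩, hM k hk hm⟩
    · rintro ⟨⟨hk, hm⟩, _⟩
      exact ⟨hk, hm⟩
  rw [h1, Finset.mul_sum]
  refine Finset.sum_le_sum fun m _ => ?_
  rw [Finset.sum_const, nsmul_eq_mul]
  refine mul_le_mul' ?_ le_rfl
  rw [← ENNReal.ofReal_natCast]
  refine ENNReal.ofReal_le_ofReal (le_trans ?_ (overlap hs hΛ (gradient h (cen ρ m)) K))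
  have : K.filter (fun k => m ∈ M k) ⊆ K.filter (fun k => ‖gradient h (cen ρ m) - cen s k‖ ≤ Λ * s) := by
    intro k hk
    obtain ⟨h2, h3⟩ := Finset.mem_filter.1 hk
    exact Finset.mem_filter.2 ⟨h2, hM' k h2 m h3⟩
  exact_mod_cast Finset.card_le_card this

end Crest.Agent.R138.Kcc882
end

-- ▼ part R138/Kcc4_882
section

/-!
# R138 / R139, wave side: KMC for coefficient energies, part 4 (helper882)

`kmca`: Kakeya maximal estimate for the coefficient densities `Ac` on direction caps.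
-/

set_option autoImplicit false

open MeasureTheory
open scoped ENNReal

namespace Crest.Agent.R138.Kcc882

open Crest.Agent.R138.Defs Crest.Agent.R138.Wpk685 Crest.Agent.R138.Ad480

/-- total energy from the penalised density. -/
theorem whole_le {q : ℝ} {h : E2 → ℝ} {R : ℝ} (hR : 1 ≤ R) {g : E2 → ℂ} {S : ℤ × ℤ → Set E2}
    (hSm : ∀ m, MeasurableSet (S m)) {Δ : ℝ} (hΔ : 0 ≤ Δ) (hD : Dens q h R g S Δ) {V A : ℝ}
    (hV : 0 ≤ V) (hA : 0 ≤ A)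
    (hv : ∀ m ∈ caps (R ^ (-(1/2) : ℝ)), ‖gradient h (cen (R ^ (-(1/2) : ℝ)) m)‖ ≤ V)
    (hS : ∀ m, ∀ y ∈ S m, ‖y‖ ≤ A * R) :
    en (R ^ (-(1/2) : ℝ)) g S ≤ ENNReal.ofReal ((2 * V + 3) ^ 2 * (2 * A + 3) ^ 2 * (Δ * R ^ 2)) := by
  obtain ⟨hρ, hρ1, hρ2⟩ := rp_facts hR
  set b : OrthonormalBasis (Fin 2) ℝ E2 := EuclideanSpace.basisFun (Fin 2) ℝ
  have hin : ∀ (x : E2) (i : Fin 2), |inner ℝ x (b i)| ≤ ‖x‖ := fun x i =>
    (abs_real_inner_le_norm _ _).trans (by rw [b.norm_eq_one, mul_one])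
  have h1 := box_cover (q := q) hR hSm hΔ hD b (σ := fun _ => 1) (fun _ => ⟨hρ1, le_rfl⟩)
    (a := fun _ => V) (p := fun _ => A) (fun _ => hV) (fun _ => hA) 0 0
    (F := caps (R ^ (-(1/2) : ℝ))) (Finset.Subset.refl _) S (fun _ _ => Set.Subset.refl _)
    (fun m hm i => by
      rw [sub_zero, mul_one]
      exact (hin _ i).trans (hv m hm))
    (fun m _ y hy i => by
      rw [sub_zero, one_mul]
      exact (hin _ i).trans (hS m y hy))
  refine h1.trans (ENNReal.ofReal_le_ofReal (le_of_eq ?_))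
  simp only [max_self, Real.one_rpow]
  ring

open Classical in
/-- box hypothesis of `kcc_sharp` inside one direction cap. -/
theorem cap_box {q : ℝ} (hq : 0 ≤ q) {h : E2 → ℝ} {R : ℝ} (hR : 1 ≤ R) {g : E2 → ℂ}
    {S : ℤ × ℤ → Set E2} (hSm : ∀ m, MeasurableSet (S m)) {Δ : ℝ} (hΔ : 0 ≤ Δ)
    (hD : Dens q h R g S Δ) {s Λ L1 : ℝ} (hs : R ^ (-(1/2) : ℝ) ≤ s) (_hs1 : s ≤ 1) (hΛ : 0 ≤ Λ)
    (hL1 : 1 ≤ L1) (ξ : E2) {M : Finset (ℤ × ℤ)} (hM : M ⊆ caps (R ^ (-(1/2) : ℝ)))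
    (hM' : ∀ m ∈ M, ‖gradient h (cen (R ^ (-(1/2) : ℝ)) m) - ξ‖ ≤ Λ * s)
    (b : OrthonormalBasis (Fin 2) ℝ E2) (u : Fin 2 → ℝ) (x0 c0 : E2)
    (hu : ∀ j, R ^ (-(1/2) : ℝ) ≤ u j ∧ u j ≤ 1) :
    ∑ m ∈ M.filter (fun m => ∀ j, |inner ℝ (gradient h (cen (R ^ (-(1/2) : ℝ)) m) - c0) (b j)| ≤
        2 * u j),
      ∫⁻ y in S m ∩ {y | ∀ j, |inner ℝ (y - x0) (b j)| ≤ 2 * (u j * (L1 * R))},
        ‖um (R ^ (-(1/2) : ℝ)) g m y‖ₑ ^ 2 ≤
      ENNReal.ofReal ((2 * Λ + 7) ^ 2 * (4 * L1 + 3) ^ 2 * (Δ * s ^ q) *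
        (u 0 * u 1 * (L1 * R) ^ 2)) := by
  obtain ⟨hρ, hρ1, hρ2⟩ := rp_facts hR
  set ρ : ℝ := R ^ (-(1/2) : ℝ) with hρdef
  have hR0 : 0 < R := by linarith
  have hs0 : 0 < s := hρ.trans_le hs
  set σ : Fin 2 → ℝ := fun j => min (u j) s with hσ
  have hσ1 : ∀ j, ρ ≤ σ j ∧ σ j ≤ 1 := fun j => ⟨le_min (hu j).1 hs, (min_le_left _ _).trans (hu j).2⟩
  have hσ0 : ∀ j, 0 < σ j := fun j => hρ.trans_le (hσ1 j).1
  have hu0 : ∀ j, 0 < u j := fun j => hρ.trans_le (hu j).1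
  have hσu : ∀ j, σ j ≤ u j := fun j => min_le_left _ _
  have hr1 : ∀ j, 1 ≤ u j / σ j := fun j => by
    rw [le_div_iff₀ (hσ0 j), one_mul]; exact hσu j
  set c : E2 := sh b ![if u 0 ≤ s then inner ℝ c0 (b 0) else inner ℝ ξ (b 0),
    if u 1 ≤ s then inner ℝ c0 (b 1) else inner ℝ ξ (b 1)] with hc
  have hcj : ∀ j, inner ℝ c (b j) = if u j ≤ s then inner ℝ c0 (b j) else inner ℝ ξ (b j) := by
    intro j
    rw [hc, inner_sh]
    fin_cases j <;> simp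
  have h1 := box_cover (q := q) hR hSm hΔ hD b (σ := σ) hσ1
    (a := fun _ => Λ + 2) (p := fun j => 2 * L1 * (u j / σ j)) (fun _ => by positivity)
    (fun j => by have := hr1 j; positivity) c x0
    (F := M.filter (fun m => ∀ j, |inner ℝ (gradient h (cen ρ m) - c0) (b j)| ≤ 2 * u j))
    ((Finset.filter_subset _ _).trans hM)
    (fun m => S m ∩ {y | ∀ j, |inner ℝ (y - x0) (b j)| ≤ 2 * (u j * (L1 * R))})
    (fun _ _ => Set.inter_subset_left)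
    (fun m hm j => by
      obtain ⟨hm1, hm2⟩ := Finset.mem_filter.1 hm
      rw [inner_sub_left, hcj]
      split_ifs with hj
      · have e : σ j = u j := min_eq_left hj
        rw [e, ← inner_sub_left]
        refine (hm2 j).trans ?_
        exact mul_le_mul_of_nonneg_right (by linarith) (hu0 j).le
      · have e : σ j = s := min_eq_right (not_le.1 hj).le
        rw [e, ← inner_sub_left]
        refine (abs_real_inner_le_norm _ _).trans ?_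
        rw [b.norm_eq_one, mul_one]
        refine (hM' m hm1).trans ?_
        exact mul_le_mul_of_nonneg_right (by linarith) hs0.le)
    (fun m _ y hy j => by
      refine (hy.2 j).trans (le_of_eq ?_)
      have := (hσ0 j).ne'
      field_simp)
  refine h1.trans (ENNReal.ofReal_le_ofReal ?_)
  have hmx : max (σ 0) (σ 1) ^ q ≤ s ^ q :=
    Real.rpow_le_rpow (le_max_of_le_left (hσ0 0).le) (max_le (min_le_right _ _) (min_le_right _ _)) hq
  have hmx0 : 0 ≤ max (σ 0) (σ 1) ^ q := Real.rpow_nonneg (le_max_of_le_left (hσ0 0).le) _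
  have hσ00 := hσ0 0
  have hσ01 := hσ0 1
  have hu00 := hu0 0
  have hu01 := hu0 1
  have h2 : ∀ j, 2 * (2 * L1 * (u j / σ j)) + 3 ≤ (4 * L1 + 3) * (u j / σ j) := by
    intro j
    nlinarith [hr1 j]
  have h20 : ∀ j, 0 ≤ 2 * (2 * L1 * (u j / σ j)) + 3 := fun j => by have := hr1 j; positivity
  calc (2 * (Λ + 2) + 3) * (2 * (Λ + 2) + 3) *
        ((2 * (2 * L1 * (u 0 / σ 0)) + 3) * (2 * (2 * L1 * (u 1 / σ 1)) + 3)) *
        (Δ * max (σ 0) (σ 1) ^ q * (σ 0 * σ 1 * R ^ 2))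
      ≤ (2 * (Λ + 2) + 3) * (2 * (Λ + 2) + 3) *
        (((4 * L1 + 3) * (u 0 / σ 0)) * ((4 * L1 + 3) * (u 1 / σ 1))) *
        (Δ * s ^ q * (σ 0 * σ 1 * R ^ 2)) := by
        refine mul_le_mul (mul_le_mul_of_nonneg_left (mul_le_mul (h2 0) (h2 1) (h20 1)
          (by positivity)) (by positivity)) ?_ (by positivity) (by positivity)
        exact mul_le_mul_of_nonneg_right (mul_le_mul_of_nonneg_left hmx hΔ) (by positivity)
    _ = (2 * Λ + 7) ^ 2 * (4 * L1 + 3) ^ 2 * (Δ * s ^ q) * (u 0 * u 1 * R ^ 2) := by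
        field_simp
        ring
    _ ≤ _ := by
        refine mul_le_mul_of_nonneg_left ?_ (by positivity)
        refine mul_le_mul_of_nonneg_left ?_ (by positivity)
        rw [mul_pow]
        nlinarith [pow_le_pow_left₀ (by norm_num : (0:ℝ) ≤ 1) hL1 2, sq_nonneg R]

set_option maxHeartbeats 1000000 in
/-- sharp part on one direction cap. -/
theorem sharp_part (hKM : ∀ V : ℝ, Tub70.KM32 V) {q A L Λ V : ℝ} (hq : 0 ≤ q) (hA : 0 ≤ A)
    (hL : 0 ≤ L) (hΛ : 0 ≤ Λ) (hV : 0 ≤ V) {ε e1 : ℝ} (hε : 0 < ε) (he1 : 0 < e1) (he2 : e1 ≤ 1/2) :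
    ∃ C : ℝ, 0 ≤ C ∧ ∀ h : E2 → ℝ, ∀ R : ℝ, 1 ≤ R →
      (∀ m ∈ caps (R ^ (-(1/2) : ℝ)), ‖gradient h (cen (R ^ (-(1/2) : ℝ)) m)‖ ≤ V) →
      ∀ (g : E2 → ℂ) (S : ℤ × ℤ → Set E2), (∀ m, MeasurableSet (S m)) →
      (∀ m, ∀ y ∈ S m, ‖y‖ ≤ A * R) → ∀ Δ : ℝ, 0 ≤ Δ → Dens q h R g S Δ →
      ∀ s : ℝ, R ^ (-(1/2) : ℝ) ≤ s → s ≤ 1 → ∀ (ξ : E2) (M : Finset (ℤ × ℤ)),
      M ⊆ caps (R ^ (-(1/2) : ℝ)) →
      (∀ m ∈ M, ‖gradient h (cen (R ^ (-(1/2) : ℝ)) m) - ξ‖ ≤ Λ * s) →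
      ∫⁻ t in Set.Icc (-(L * R)) (L * R), ∫⁻ x,
        (Sh h (R ^ (-(1/2) : ℝ)) (R ^ e1 / 2) g S M t x) ^ (3/2 : ℝ) ≤
      ENNReal.ofReal (C * R ^ (3 * e1 + ε / 2) * s ^ (q / 2) * Real.sqrt Δ * R) *
        ∑ m ∈ M, ∫⁻ y in S m, ‖um (R ^ (-(1/2) : ℝ)) g m y‖ₑ ^ 2 := by
  classical
  obtain ⟨C1, hC1, hk⟩ := kcc_sharp (κ := ℤ × ℤ) (hKM (V + 2)) ε hε
  set L1 : ℝ := A + L * V + L + 1 with hL1
  have hL11 : 1 ≤ L1 := by rw [hL1]; have : 0 ≤ L * V := by positivity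
                           linarith
  set c2 : ℝ := (2 * Λ + 7) ^ 2 * (4 * L1 + 3) ^ 2 with hc2
  have hc20 : 0 ≤ c2 := by positivity
  refine ⟨L1 ^ 3 * C1 * Real.sqrt c2 * L1, by positivity, ?_⟩
  intro h R hR hv g S hSm hSA Δ hΔ hD s hs hs1 ξ M hM hM'
  obtain ⟨hρ, hρ1, hρ2⟩ := rp_facts hR
  set ρ : ℝ := R ^ (-(1/2) : ℝ) with hρdef
  have hR0 : 0 < R := by linarith
  have hs0 : 0 < s := hρ.trans_le hs
  set w : ℝ := L1 * R ^ (e1 + 1/2) with hw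
  have hL10 : 0 < L1 := by linarith
  have hw0 : 0 < w := by positivity
  have hwR : w ≤ L1 * R := by
    rw [hw]
    refine mul_le_mul_of_nonneg_left ?_ hL10.le
    calc R ^ (e1 + 1/2) ≤ R ^ (1:ℝ) := Real.rpow_le_rpow_of_exponent_le hR (by linarith)
      _ = R := Real.rpow_one R
  have hwd : w / (L1 * R) = R ^ (e1 - 1/2) := by
    rw [hw, mul_div_mul_left _ _ hL10.ne', div_eq_iff hR0.ne', ← Real.rpow_add_one hR0.ne']
    congr 1; ring
  have hYw : R ^ e1 / 2 / ρ ≤ w / 2 := by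
    have : R ^ e1 / 2 / ρ = R ^ (e1 + 1/2) / 2 := by
      rw [hρdef, div_div, mul_comm, ← div_div]
      congr 1
      rw [div_eq_iff (Real.rpow_pos_of_pos hR0 _).ne', ← Real.rpow_add hR0]
      congr 1; ring
    rw [this, hw]
    have : 0 < R ^ (e1 + 1/2) := by positivity
    nlinarith
  have hfin : ∀ m ∈ M, ∫⁻ y in S m, ‖um ρ g m y‖ₑ ^ 2 ≠ ⊤ := by
    intro m hm
    have h1 := whole_le hR hSm hΔ hD hV hA hv hSA
    have h2 : ∫⁻ y in S m, ‖um ρ g m y‖ₑ ^ 2 ≤ en ρ g S :=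
      Finset.single_le_sum (f := fun m => ∫⁻ y in S m, ‖um ρ g m y‖ₑ ^ 2)
        (fun _ _ => zero_le) (hM hm)
    exact ne_top_of_le_ne_top ENNReal.ofReal_ne_top (h2.trans h1)
  have key := hk w (L1 * R) hw0 hwR M (fun m => gradient h (cen ρ m)) (fun m y => ‖um ρ g m y‖ₑ ^ 2)
    S hSm (fun m hm => (hv m (hM hm)).trans (by linarith))
    (fun m _ y hy => by
      have h1 := hSA m y hy
      have h2 : A * R ≤ L1 * R := mul_le_mul_of_nonneg_right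
        (by rw [hL1]; have : 0 ≤ L * V := by positivity
            linarith) hR0.le
      have h3 : 0 ≤ V * (L1 * R) := by positivity
      nlinarith) hfin (c2 * (Δ * s ^ q)) (by positivity)
    (fun b u x0 c0 hu => by
      refine cap_box hq hR hSm hΔ hD hs hs1 hΛ hL11 ξ hM hM' b u x0 c0 fun j => ⟨?_, (hu j).2⟩
      refine le_trans ?_ (hu j).1
      rw [hwd]
      exact Real.rpow_le_rpow_of_exponent_le hR (by linarith))
  set G : ℝ → E2 → ℝ≥0∞ := fun t x => ENNReal.ofReal ((w ^ 2)⁻¹) *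
          ∑ m ∈ M, ∫⁻ y in S m ∩ Metric.closedBall (x + t • gradient h (cen ρ m)) (w / 2),
            ‖um ρ g m y‖ₑ ^ 2 with hG
  have hShG : ∀ t x, Sh h ρ (R ^ e1 / 2) g S M t x ≤ ENNReal.ofReal (ρ ^ 2 * w ^ 2) * G t x := by
    intro t x
    rw [hG]
    simp only
    rw [← mul_assoc, ← ENNReal.ofReal_mul (by positivity)]
    have e : ρ ^ 2 * w ^ 2 * (w ^ 2)⁻¹ = ρ ^ 2 := by field_simp
    rw [e]
    unfold Sh
    refine mul_le_mul' le_rfl (Finset.sum_le_sum fun m _ => ?_)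
    exact lintegral_mono_set (Set.inter_subset_inter_right _ (Metric.closedBall_subset_closedBall hYw))
  have hSh0 : ∀ t, |t| ≤ L * R → ∀ x, x ∉ {x : E2 | ‖x‖ ≤ L1 * R} →
      Sh h ρ (R ^ e1 / 2) g S M t x = 0 := by
    intro t ht x hx
    unfold Sh
    rw [Finset.sum_eq_zero, mul_zero]
    intro m hm
    have : S m ∩ Metric.closedBall (x + t • gradient h (cen ρ m)) (R ^ e1 / 2 / ρ) = ∅ := by
      rw [Set.eq_empty_iff_forall_notMem]
      rintro y ⟨hy1, hy2⟩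
      apply hx
      rw [Metric.mem_closedBall, dist_eq_norm] at hy2
      have h1 := hSA m y hy1
      have h2 := hv m (hM hm)
      have h3 : ‖x‖ ≤ ‖y‖ + ‖t • gradient h (cen ρ m)‖ +
          ‖y - (x + t • gradient h (cen ρ m))‖ := by
        have e : x = y - t • gradient h (cen ρ m) - (y - (x + t • gradient h (cen ρ m))) := by abel
        calc ‖x‖ = ‖y - t • gradient h (cen ρ m) - (y - (x + t • gradient h (cen ρ m)))‖ := by
              rw [← e]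
          _ ≤ _ := (norm_sub_le _ _).trans (add_le_add (norm_sub_le _ _) le_rfl)
      rw [norm_smul, Real.norm_eq_abs] at h3
      have h4 : |t| * ‖gradient h (cen ρ m)‖ ≤ L * R * V :=
        mul_le_mul ht h2 (norm_nonneg _) (by positivity)
      have h5 : R ^ e1 / 2 / ρ ≤ R := by
        have : R ^ e1 / 2 / ρ = R ^ (e1 + 1/2) / 2 := by
          rw [hρdef, div_div, mul_comm, ← div_div]
          congr 1
          rw [div_eq_iff (Real.rpow_pos_of_pos hR0 _).ne', ← Real.rpow_add hR0]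
          congr 1; ring
        rw [this]
        have h6 : R ^ (e1 + 1/2) ≤ R := by
          calc R ^ (e1 + 1/2) ≤ R ^ (1:ℝ) := Real.rpow_le_rpow_of_exponent_le hR (by linarith)
            _ = R := Real.rpow_one R
        linarith
      rw [Set.mem_ofPred_eq, hL1]
      have h6 : 0 ≤ L * R := by positivity
      nlinarith
    rw [this, setLIntegral_empty]
  have hBm : MeasurableSet {x : E2 | ‖x‖ ≤ L1 * R} := by
    exact (isClosed_le continuous_norm continuous_const).measurableSet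
  have hLL : Set.Icc (-(L * R)) (L * R) ⊆ Set.Icc (-(L1 * R)) (L1 * R) := by
    have : L * R ≤ L1 * R := mul_le_mul_of_nonneg_right
      (by rw [hL1]; have : 0 ≤ L * V := by positivity
          linarith) hR0.le
    exact Set.Icc_subset_Icc (by linarith) this
  set cc : ℝ≥0∞ := ENNReal.ofReal (ρ ^ 2 * w ^ 2) ^ (3/2 : ℝ) with hcc
  have hccn : cc ≠ ⊤ := ENNReal.rpow_ne_top_of_nonneg (by norm_num) ENNReal.ofReal_ne_top
  calc ∫⁻ t in Set.Icc (-(L * R)) (L * R), ∫⁻ x, (Sh h ρ (R ^ e1 / 2) g S M t x) ^ (3/2 : ℝ)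
      ≤ ∫⁻ t in Set.Icc (-(L * R)) (L * R), cc * ∫⁻ x in {x : E2 | ‖x‖ ≤ L1 * R},
          (G t x) ^ (3/2 : ℝ) := by
        refine setLIntegral_mono' measurableSet_Icc fun t ht => ?_
        rw [← lintegral_const_mul' _ _ hccn, ← lintegral_indicator hBm]
        refine lintegral_mono fun x => ?_
        by_cases hx : x ∈ {x : E2 | ‖x‖ ≤ L1 * R}
        · rw [Set.indicator_of_mem hx, hcc, ← ENNReal.mul_rpow_of_nonneg _ _ (by norm_num)]
          exact ENNReal.rpow_le_rpow (hShG t x) (by norm_num)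
        · rw [Set.indicator_of_notMem hx, hSh0 t (abs_le.2 ht) x hx, ENNReal.zero_rpow_of_pos
            (by norm_num)]
    _ = cc * ∫⁻ t in Set.Icc (-(L * R)) (L * R), ∫⁻ x in {x : E2 | ‖x‖ ≤ L1 * R},
          (G t x) ^ (3/2 : ℝ) := lintegral_const_mul' _ _ hccn
    _ ≤ cc * ∫⁻ t in Set.Icc (-(L1 * R)) (L1 * R), ∫⁻ x in {x : E2 | ‖x‖ ≤ L1 * R},
          (G t x) ^ (3/2 : ℝ) := mul_le_mul' le_rfl (lintegral_mono_set hLL)
    _ ≤ cc * (ENNReal.ofReal (C1 * (w / (L1 * R)) ^ (-ε) * Real.sqrt (c2 * (Δ * s ^ q)) *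
          (L1 * R)) * ∑ m ∈ M, ∫⁻ y in S m, ‖um ρ g m y‖ₑ ^ 2) := mul_le_mul' le_rfl key
    _ ≤ _ := by
        rw [← mul_assoc]
        refine mul_le_mul' ?_ le_rfl
        have e1' : cc = ENNReal.ofReal (L1 ^ 3 * R ^ (3 * e1)) := by
          rw [hcc, ENNReal.ofReal_rpow_of_nonneg (by positivity) (by norm_num)]
          congr 1
          have e2 : ρ ^ 2 * w ^ 2 = (L1 * R ^ e1) ^ 2 := by
            rw [hρ2, hw, mul_pow, mul_pow, ← Real.rpow_natCast (R ^ (e1 + 1/2)),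
              ← Real.rpow_natCast (R ^ e1), ← Real.rpow_mul hR0.le, ← Real.rpow_mul hR0.le]
            have e3 : R ^ ((e1 + 1/2) * ((2 : ℕ) : ℝ)) = R ^ (e1 * ((2 : ℕ) : ℝ)) * R := by
              rw [← Real.rpow_add_one hR0.ne']
              congr 1; push_cast; ring
            rw [e3]
            field_simp
          rw [e2, ← Real.rpow_natCast (L1 * R ^ e1), ← Real.rpow_mul (by positivity)]
          have e4 : ((2 : ℕ) : ℝ) * (3/2) = ((3 : ℕ) : ℝ) := by norm_num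
          rw [e4, Real.rpow_natCast, mul_pow, ← Real.rpow_natCast (R ^ e1), ← Real.rpow_mul hR0.le]
          congr 2
          push_cast; ring
        rw [e1', ← ENNReal.ofReal_mul (by positivity)]
        refine ENNReal.ofReal_le_ofReal ?_
        rw [hwd, ← Real.rpow_mul hR0.le, Real.sqrt_mul hc20, Real.sqrt_mul hΔ]
        have e5 : Real.sqrt (s ^ q) = s ^ (q / 2) := by
          rw [Real.sqrt_eq_rpow, ← Real.rpow_mul hs0.le]
          congr 1; ring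
        rw [e5]
        have e6 : R ^ ((e1 - 1/2) * -ε) ≤ R ^ (ε / 2) :=
          Real.rpow_le_rpow_of_exponent_le hR (by nlinarith)
        have e7 : R ^ (3 * e1 + ε / 2) = R ^ (3 * e1) * R ^ (ε / 2) := Real.rpow_add hR0 _ _
        rw [e7]
        calc L1 ^ 3 * R ^ (3 * e1) * (C1 * R ^ ((e1 - 1/2) * -ε) *
              (Real.sqrt c2 * (Real.sqrt Δ * s ^ (q / 2))) * (L1 * R))
            ≤ L1 ^ 3 * R ^ (3 * e1) * (C1 * R ^ (ε / 2) *
              (Real.sqrt c2 * (Real.sqrt Δ * s ^ (q / 2))) * (L1 * R)) := by gcongr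
          _ = _ := by ring

end Crest.Agent.R138.Kcc882
end

-- ▼ part R138/Kcc5_882
section

/-!
# R138 / R139, wave side: KMC for coefficient energies, part 5 (helper882)

`kmca`: Kakeya maximal estimate for the coefficient densities `Ac` on direction caps.
-/

set_option autoImplicit false

open MeasureTheory
open scoped ENNReal

namespace Crest.Agent.R138.Kcc882

open Crest.Agent.R138.Defs Crest.Agent.R138.Wpk685 Crest.Agent.R138.Ad480

theorem Ac_le_all {n : ℕ} {h : E2 → ℝ} {ρ : ℝ} (hρ : 0 ≤ ρ) {g : E2 → ℂ} {S : ℤ × ℤ → Set E2}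
    {M : Finset (ℤ × ℤ)} (hM : M ⊆ caps ρ) {z : E2 × ℝ} {x : E2} {R E : ℝ}
    (hE : en ρ g S ≤ ENNReal.ofReal E) (hR : ρ ^ 2 * E ≤ R) :
    Ac n h ρ g S M z x ≤ ENNReal.ofReal R := by
  refine (Ac_le_en hρ hM z x).trans ?_
  refine (mul_le_mul' le_rfl hE).trans ?_
  rw [← ENNReal.ofReal_mul (by positivity)]
  exact ENNReal.ofReal_le_ofReal hR

/-- tail on one direction cap. -/
theorem tail_part {h : E2 → ℝ} {ρ : ℝ} (hρ : 0 < ρ) {g : E2 → ℂ} (hg : Integrable g)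
    (S : ℤ × ℤ → Set E2) {M : Finset (ℤ × ℤ)} (hM : M ⊆ caps ρ) {E : ℝ}
    (hE : en ρ g S ≤ ENNReal.ofReal E) (c : ℝ≥0∞) (hc : c ≠ ⊤) (t : ℝ) :
    ∫⁻ x, (c * Ac 3 h ρ g S M (0, t) x) ^ (3/2 : ℝ) ≤
      c ^ (3/2 : ℝ) * (ENNReal.ofReal (ρ ^ 2 * E) ^ (1/2 : ℝ) *
        (W0 * ∑ m ∈ M, ∫⁻ y in S m, ‖um ρ g m y‖ₑ ^ 2)) := by
  have h1 : ∀ x, (c * Ac 3 h ρ g S M (0, t) x) ^ (3/2 : ℝ) ≤
      c ^ (3/2 : ℝ) * (ENNReal.ofReal (ρ ^ 2 * E) ^ (1/2 : ℝ) * Ac 3 h ρ g S M (0, t) x) := by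
    intro x
    rw [ENNReal.mul_rpow_of_nonneg _ _ (by norm_num)]
    exact mul_le_mul' le_rfl (rpow32_le (Ac_le_all hρ.le hM hE le_rfl))
  refine (lintegral_mono h1).trans (le_of_eq ?_)
  rw [lintegral_const_mul' _ _ (ENNReal.rpow_ne_top_of_nonneg (by norm_num) hc),
    lintegral_const_mul' _ _ (ENNReal.rpow_ne_top_of_nonneg (by norm_num) ENNReal.ofReal_ne_top),
    lint_Ac hρ hg]

/-- the power of the cut-off. -/
theorem tail_real {q e1 R s Δ C2 : ℝ} (hq : 0 ≤ q) (hR : 1 ≤ R) (hs : R ^ (-(1/2) : ℝ) ≤ s)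
    (hΔ : 0 ≤ Δ) (hC2 : 0 ≤ C2) {k : ℕ} (hk : 1/2 + q/4 ≤ e1 * k) :
    ENNReal.ofReal (((R ^ e1 / 2) ^ k)⁻¹) ^ (3/2 : ℝ) *
      ENNReal.ofReal ((R ^ (-(1/2) : ℝ)) ^ 2 * (C2 * (Δ * R ^ 2))) ^ (1/2 : ℝ) ≤
      ENNReal.ofReal (((2:ℝ) ^ k) ^ (3/2 : ℝ) * Real.sqrt C2 * (s ^ (q / 2) * Real.sqrt Δ)) := by
  have hR0 : 0 < R := by linarith
  obtain ⟨hρ, hρ1, hρ2⟩ := rp_facts hR
  rw [ENNReal.ofReal_rpow_of_nonneg (by positivity) (by norm_num),
    ENNReal.ofReal_rpow_of_nonneg (by positivity) (by norm_num), ← ENNReal.ofReal_mul (by positivity)]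
  refine ENNReal.ofReal_le_ofReal ?_
  have e1' : ((R ^ e1 / 2) ^ k)⁻¹ = 2 ^ k * R ^ (-(e1 * k)) := by
    rw [div_pow, inv_div, ← Real.rpow_natCast (R ^ e1), ← Real.rpow_mul hR0.le, Real.rpow_neg hR0.le]
    rfl
  have e2 : (R ^ (-(1/2) : ℝ)) ^ 2 * (C2 * (Δ * R ^ 2)) = C2 * Δ * R := by
    rw [hρ2]; field_simp
  rw [e1', e2, Real.mul_rpow (by positivity) (by positivity), ← Real.sqrt_eq_rpow,
    Real.sqrt_mul (by positivity), Real.sqrt_mul hC2, ← Real.rpow_mul hR0.le]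
  have h1 : R ^ (-(e1 * k) * (3/2)) ≤ R ^ (-(1/2 + q/4) : ℝ) :=
    Real.rpow_le_rpow_of_exponent_le hR (by nlinarith)
  have h2 : R ^ (-(1/2 + q/4) : ℝ) * Real.sqrt R = R ^ (-(1/2) * (q/2) : ℝ) := by
    rw [Real.sqrt_eq_rpow, ← Real.rpow_add hR0]
    congr 1; ring
  have h3 : R ^ (-(1/2) * (q/2) : ℝ) ≤ s ^ (q / 2) := by
    rw [Real.rpow_mul hR0.le]
    exact Real.rpow_le_rpow hρ.le hs (by positivity)
  calc (2 ^ k) ^ (3/2 : ℝ) * R ^ (-(e1 * k) * (3/2)) * (Real.sqrt C2 * Real.sqrt Δ * Real.sqrt R)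
      ≤ (2 ^ k) ^ (3/2 : ℝ) * R ^ (-(1/2 + q/4) : ℝ) *
        (Real.sqrt C2 * Real.sqrt Δ * Real.sqrt R) := by gcongr
    _ = (2 ^ k) ^ (3/2 : ℝ) * Real.sqrt C2 * ((R ^ (-(1/2 + q/4) : ℝ) * Real.sqrt R) *
          Real.sqrt Δ) := by ring
    _ ≤ _ := by
        rw [h2]
        gcongr

set_option maxHeartbeats 1000000 in
/-- **KMC in coefficient form**, abstract velocity bound. -/
theorem kmca_core (hKM : ∀ V : ℝ, Tub70.KM32 V) {q A L Λ V : ℝ} (hq : 0 ≤ q) (hA : 0 ≤ A)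
    (hL : 0 ≤ L) (hΛ : 0 ≤ Λ) (hV : 0 ≤ V) (ε : ℝ) (hε : 0 < ε) : ∃ n0 : ℕ, ∀ n, n0 ≤ n →
    ∃ C : ℝ, 0 ≤ C ∧ ∀ h : E2 → ℝ, ∀ R : ℝ, 1 ≤ R →
      (∀ m ∈ caps (R ^ (-(1/2) : ℝ)), ‖gradient h (cen (R ^ (-(1/2) : ℝ)) m)‖ ≤ V) →
      ∀ g : E2 → ℂ, Integrable g → ∀ S : ℤ × ℤ → Set E2, (∀ m, MeasurableSet (S m)) →
      (∀ m, ∀ y ∈ S m, ‖y‖ ≤ A * R) → ∀ Δ : ℝ, 0 ≤ Δ → Dens q h R g S Δ →
      ∀ s : ℝ, R ^ (-(1/2) : ℝ) ≤ s → s ≤ 1 →
      ∀ (K : Finset (ℤ × ℤ)) (M : ℤ × ℤ → Finset (ℤ × ℤ)),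
      (∀ k ∈ K, M k ⊆ caps (R ^ (-(1/2) : ℝ)) ∧
        ∀ m ∈ M k, ‖gradient h (cen (R ^ (-(1/2) : ℝ)) m) - cen s k‖ ≤ Λ * s) →
      ∑ k ∈ K, ∫⁻ t in Set.Icc (-(L * R)) (L * R), ∫⁻ x,
        (Ac n h (R ^ (-(1/2) : ℝ)) g S (M k) (0, t) x) ^ (3/2 : ℝ) ≤
      ENNReal.ofReal (C * R ^ ε * s ^ (q / 2) * Real.sqrt Δ * R) *
        en (R ^ (-(1/2) : ℝ)) g S := by
  set e1 : ℝ := min (ε / 6) (1 / 2) with he1
  have he10 : 0 < e1 := lt_min (by positivity) (by norm_num)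
  have he12 : e1 ≤ 1 / 2 := min_le_right _ _
  have he16 : e1 ≤ ε / 6 := min_le_left _ _
  obtain ⟨C1, hC1, h1⟩ := sharp_part hKM (q := q) (A := A) (L := L) (Λ := Λ) (V := V) hq hA hL hΛ hV
    hε he10 he12
  refine ⟨3 + ⌈(1/2 + q/4) / e1⌉₊, fun n hn => ?_⟩
  set k0 : ℕ := n - 3 with hk0
  have hn3 : 3 ≤ n := by omega
  have hk : 1/2 + q/4 ≤ e1 * k0 := by
    have h2 : ⌈(1/2 + q/4) / e1⌉₊ ≤ k0 := by omega
    have h3 : (1/2 + q/4) / e1 ≤ k0 := (Nat.le_ceil _).trans (by exact_mod_cast h2)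
    rw [div_le_iff₀ he10] at h3
    linarith
  set C2 : ℝ := (2 * V + 3) ^ 2 * (2 * A + 3) ^ 2 with hC2
  have hC20 : 0 ≤ C2 := by positivity
  set w0 : ℝ := W0.toReal with hw0
  have hw00 : 0 ≤ w0 := ENNReal.toReal_nonneg
  have hW0 : W0 = ENNReal.ofReal w0 := (ENNReal.ofReal_toReal W0_lt.ne).symm
  set C3 : ℝ := ((2:ℝ) ^ k0) ^ (3/2 : ℝ) * Real.sqrt C2 * w0 * (2 * L) with hC3
  have hC30 : 0 ≤ C3 := by positivity
  refine ⟨(2 * Λ + 1) ^ 2 * ((2:ℝ) ^ (1/2 : ℝ) * (C1 + C3)), by positivity, ?_⟩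
  intro h R hR hv g hg S hSm hSA Δ hΔ hD s hs hs1 K M hKMk
  obtain ⟨hρ, hρ1, hρ2⟩ := rp_facts hR
  set ρ : ℝ := R ^ (-(1/2) : ℝ) with hρdef
  have hR0 : 0 < R := by linarith
  have hs0 : 0 < s := hρ.trans_le hs
  have hen := whole_le hR hSm hΔ hD hV hA hv hSA
  have hY : 0 < R ^ e1 / 2 := by positivity
  set c : ℝ≥0∞ := ENNReal.ofReal (((R ^ e1 / 2) ^ k0)⁻¹) with hc
  set X : ℝ := s ^ (q / 2) * Real.sqrt Δ with hX
  have hX0 : 0 ≤ X := by positivity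
  -- one cap
  have one : ∀ k ∈ K, ∫⁻ t in Set.Icc (-(L * R)) (L * R), ∫⁻ x,
        (Ac n h ρ g S (M k) (0, t) x) ^ (3/2 : ℝ) ≤
      ENNReal.ofReal ((2:ℝ) ^ (1/2 : ℝ) * (C1 + C3) * R ^ ε * X * R) *
        ∑ m ∈ M k, ∫⁻ y in S m, ‖um ρ g m y‖ₑ ^ 2 := by
    intro k hkK
    obtain ⟨hMk, hMk'⟩ := hKMk k hkK
    set Ek : ℝ≥0∞ := ∑ m ∈ M k, ∫⁻ y in S m, ‖um ρ g m y‖ₑ ^ 2 with hEk
    have hAm : Measurable fun p : ℝ × E2 => (0 : ℝ≥0∞) := measurable_const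
    have hpt : ∀ t, ∫⁻ x, (Ac n h ρ g S (M k) (0, t) x) ^ (3/2 : ℝ) ≤
        ENNReal.ofReal ((2:ℝ) ^ (1/2 : ℝ)) * (∫⁻ x, (Sh h ρ (R ^ e1 / 2) g S (M k) t x) ^ (3/2 : ℝ)) +
        ENNReal.ofReal ((2:ℝ) ^ (1/2 : ℝ)) * (ENNReal.ofReal (((2:ℝ) ^ k0) ^ (3/2 : ℝ) *
          Real.sqrt C2 * X) * (W0 * Ek)) := by
      intro t
      have h2 : ∀ x, (Ac n h ρ g S (M k) (0, t) x) ^ (3/2 : ℝ) ≤
          ENNReal.ofReal ((2:ℝ) ^ (1/2 : ℝ)) * (Sh h ρ (R ^ e1 / 2) g S (M k) t x) ^ (3/2 : ℝ) +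
          ENNReal.ofReal ((2:ℝ) ^ (1/2 : ℝ)) * (c * Ac 3 h ρ g S (M k) (0, t) x) ^ (3/2 : ℝ) := by
        intro x
        have h3 := Ac_split (n1 := 3) hn3 (h := h) hρ hY hg S (M k) t x
        refine (ENNReal.rpow_le_rpow h3 (by norm_num)).trans ?_
        refine (ENNReal.rpow_add_le_mul_rpow_add_rpow _ _ (by norm_num)).trans (le_of_eq ?_)
        rw [mul_add]
        have e : (2 : ℝ≥0∞) ^ ((3/2 : ℝ) - 1) = ENNReal.ofReal ((2:ℝ) ^ (1/2 : ℝ)) := by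
          rw [← ENNReal.ofReal_rpow_of_nonneg (by norm_num) (by norm_num)]
          norm_num
        rw [e]
      refine (lintegral_mono h2).trans ?_
      rw [lintegral_add_right _ ((((Ac_meas hρ.le hg S (M k) (0, t)).const_mul c).pow_const
        _).const_mul _), lintegral_const_mul' _ _ ENNReal.ofReal_ne_top,
        lintegral_const_mul' _ _ ENNReal.ofReal_ne_top]
      refine add_le_add le_rfl (mul_le_mul' le_rfl ?_)
      refine (tail_part hρ hg S hMk hen c ENNReal.ofReal_ne_top t).trans ?_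
      rw [← mul_assoc]
      exact mul_le_mul' (tail_real hq hR hs hΔ hC20 hk) le_rfl
    have hint : ∫⁻ _t in Set.Icc (-(L * R)) (L * R), (1 : ℝ≥0∞) = ENNReal.ofReal (2 * L * R) := by
      rw [lintegral_one, Measure.restrict_apply_univ, Real.volume_Icc]
      congr 1; ring
    calc _ ≤ ∫⁻ t in Set.Icc (-(L * R)) (L * R), (ENNReal.ofReal ((2:ℝ) ^ (1/2 : ℝ)) *
          (∫⁻ x, (Sh h ρ (R ^ e1 / 2) g S (M k) t x) ^ (3/2 : ℝ)) +
        ENNReal.ofReal ((2:ℝ) ^ (1/2 : ℝ)) * (ENNReal.ofReal (((2:ℝ) ^ k0) ^ (3/2 : ℝ) *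
          Real.sqrt C2 * X) * (W0 * Ek))) := lintegral_mono fun t => hpt t
      _ = ENNReal.ofReal ((2:ℝ) ^ (1/2 : ℝ)) * (∫⁻ t in Set.Icc (-(L * R)) (L * R),
          ∫⁻ x, (Sh h ρ (R ^ e1 / 2) g S (M k) t x) ^ (3/2 : ℝ)) +
        ENNReal.ofReal ((2:ℝ) ^ (1/2 : ℝ)) * (ENNReal.ofReal (((2:ℝ) ^ k0) ^ (3/2 : ℝ) *
          Real.sqrt C2 * X) * (W0 * Ek)) * ENNReal.ofReal (2 * L * R) := by
          rw [lintegral_add_right _ measurable_const, lintegral_const_mul' _ _ ENNReal.ofReal_ne_top,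
            lintegral_const, Measure.restrict_apply_univ, Real.volume_Icc]
          congr 3
          ring
      _ ≤ ENNReal.ofReal ((2:ℝ) ^ (1/2 : ℝ)) * (ENNReal.ofReal (C1 * R ^ (3 * e1 + ε / 2) *
            s ^ (q / 2) * Real.sqrt Δ * R) * Ek) +
        ENNReal.ofReal ((2:ℝ) ^ (1/2 : ℝ)) * (ENNReal.ofReal (((2:ℝ) ^ k0) ^ (3/2 : ℝ) *
          Real.sqrt C2 * X) * (W0 * Ek)) * ENNReal.ofReal (2 * L * R) := by
          refine add_le_add (mul_le_mul' le_rfl ?_) le_rfl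
          exact h1 h R hR hv g S hSm hSA Δ hΔ hD s hs hs1 (cen s k) (M k) hMk hMk'
      _ = (ENNReal.ofReal ((2:ℝ) ^ (1/2 : ℝ) * (C1 * R ^ (3 * e1 + ε / 2) *
            s ^ (q / 2) * Real.sqrt Δ * R)) +
          ENNReal.ofReal ((2:ℝ) ^ (1/2 : ℝ) * ((((2:ℝ) ^ k0) ^ (3/2 : ℝ) *
          Real.sqrt C2 * X) * w0 * (2 * L * R)))) * Ek := by
          rw [add_mul, ENNReal.ofReal_mul (p := (2:ℝ) ^ (1/2 : ℝ)) (by positivity),
            ENNReal.ofReal_mul (p := (2:ℝ) ^ (1/2 : ℝ)) (by positivity),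
            ENNReal.ofReal_mul (p := (((2:ℝ) ^ k0) ^ (3/2 : ℝ) * Real.sqrt C2 * X) * w0)
              (by positivity),
            ENNReal.ofReal_mul (p := (((2:ℝ) ^ k0) ^ (3/2 : ℝ) * Real.sqrt C2 * X))
              (by positivity), hW0]
          ring
      _ ≤ _ := by
          rw [← ENNReal.ofReal_add (by positivity) (by positivity)]
          refine mul_le_mul' (ENNReal.ofReal_le_ofReal ?_) le_rfl
          have h3 : R ^ (3 * e1 + ε / 2) ≤ R ^ ε :=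
            Real.rpow_le_rpow_of_exponent_le hR (by linarith)
          have h4 : 1 ≤ R ^ ε := Real.one_le_rpow hR hε.le
          calc (2:ℝ) ^ (1/2 : ℝ) * (C1 * R ^ (3 * e1 + ε / 2) * s ^ (q / 2) * Real.sqrt Δ * R) +
                (2:ℝ) ^ (1/2 : ℝ) * ((((2:ℝ) ^ k0) ^ (3/2 : ℝ) * Real.sqrt C2 * X) * w0 * (2 * L * R))
              = (2:ℝ) ^ (1/2 : ℝ) * (C1 * R ^ (3 * e1 + ε / 2) * X * R + C3 * 1 * X * R) := by
                rw [hX, hC3]; ring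
            _ ≤ (2:ℝ) ^ (1/2 : ℝ) * (C1 * R ^ ε * X * R + C3 * R ^ ε * X * R) := by
                gcongr
            _ = _ := by ring
  refine (Finset.sum_le_sum one).trans ?_
  rw [← Finset.mul_sum]
  have h5 := sum_fam (h := h) (ρ := ρ) hs0 hΛ K M (fun k hk => (hKMk k hk).1)
    (fun k hk => (hKMk k hk).2) (fun m => ∫⁻ y in S m, ‖um ρ g m y‖ₑ ^ 2)
  refine (mul_le_mul' le_rfl h5).trans ?_
  rw [← mul_assoc, ← ENNReal.ofReal_mul (by positivity)]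
  refine mul_le_mul' (ENNReal.ofReal_le_ofReal (le_of_eq ?_)) le_rfl
  rw [hX]; ring

theorem norm_cen_le {ρ : ℝ} (hρ : 0 < ρ) (hρ1 : ρ ≤ 1) {m : ℤ × ℤ} (hm : m ∈ caps ρ) :
    ‖cen ρ m‖ ≤ 6 := by
  unfold caps at hm
  rw [Finset.mem_product, Finset.mem_Icc, Finset.mem_Icc] at hm
  obtain ⟨⟨h1, h2⟩, h3, h4⟩ := hm
  have key : ∀ n : ℤ, -⌈2 / ρ⌉ - 1 ≤ n → n ≤ ⌈2 / ρ⌉ + 1 → |ρ * n| ≤ 4 := by
    intro n hn1 hn2
    have h5 := Int.ceil_lt_add_one (2 / ρ)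
    have h6 : |(n : ℝ)| ≤ 2 / ρ + 2 := by
      have h7 : ((-⌈2 / ρ⌉ - 1 : ℤ) : ℝ) ≤ n := by exact_mod_cast hn1
      have h8 : (n : ℝ) ≤ ((⌈2 / ρ⌉ + 1 : ℤ) : ℝ) := by exact_mod_cast hn2
      push_cast at h7 h8
      rw [abs_le]
      constructor <;> linarith
    rw [abs_mul, abs_of_pos hρ]
    calc ρ * |(n : ℝ)| ≤ ρ * (2 / ρ + 2) := mul_le_mul_of_nonneg_left h6 hρ.le
      _ = 2 + 2 * ρ := by field_simp
      _ ≤ 4 := by linarith
  have h5 := key _ h1 h2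
  have h6 := key _ h3 h4
  rw [EuclideanSpace.norm_eq, Real.sqrt_le_left (by norm_num)]
  simp only [Fin.sum_univ_two, Real.norm_eq_abs, cen_zero, cen_one, sq_abs]
  have h7 := sq_le_sq' (by linarith [abs_le.mp h5]) (abs_le.mp h5).2
  have h8 := sq_le_sq' (by linarith [abs_le.mp h6]) (abs_le.mp h6).2
  nlinarith

/-- **KMC in coefficient form.** -/
theorem kmca (hKM : ∀ V : ℝ, Tub70.KM32 V) {q A L Λ : ℝ} (hq : 0 ≤ q) (hA : 0 ≤ A)
    (hL : 0 ≤ L) (hΛ : 0 ≤ Λ) (ε : ℝ) (hε : 0 < ε) : ∃ n0 : ℕ, ∀ n, n0 ≤ n →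
    ∃ C : ℝ, 0 ≤ C ∧ ∀ h : E2 → ℝ, Bil882.NearId h (1 / 10) → fderiv ℝ h 0 = 0 →
      ∀ R : ℝ, 1 ≤ R →
      ∀ g : E2 → ℂ, Integrable g → ∀ S : ℤ × ℤ → Set E2, (∀ m, MeasurableSet (S m)) →
      (∀ m, ∀ y ∈ S m, ‖y‖ ≤ A * R) → ∀ Δ : ℝ, 0 ≤ Δ → Dens q h R g S Δ →
      ∀ s : ℝ, R ^ (-(1/2) : ℝ) ≤ s → s ≤ 1 →
      ∀ (K : Finset (ℤ × ℤ)) (M : ℤ × ℤ → Finset (ℤ × ℤ)),
      (∀ k ∈ K, M k ⊆ caps (R ^ (-(1/2) : ℝ)) ∧
        ∀ m ∈ M k, ‖gradient h (cen (R ^ (-(1/2) : ℝ)) m) - cen s k‖ ≤ Λ * s) →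
      ∑ k ∈ K, ∫⁻ t in Set.Icc (-(L * R)) (L * R), ∫⁻ x,
        (Ac n h (R ^ (-(1/2) : ℝ)) g S (M k) (0, t) x) ^ (3/2 : ℝ) ≤
      ENNReal.ofReal (C * R ^ ε * s ^ (q / 2) * Real.sqrt Δ * R) *
        en (R ^ (-(1/2) : ℝ)) g S := by
  obtain ⟨n0, h0⟩ := kmca_core hKM (q := q) (A := A) (L := L) (Λ := Λ) (V := 7) hq hA hL hΛ
    (by norm_num) ε hε
  refine ⟨n0, fun n hn => ?_⟩
  obtain ⟨C, hC, h1⟩ := h0 n hn
  refine ⟨C, hC, fun h hh h0' R hR => h1 h R hR ?_⟩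
  intro m hm
  obtain ⟨hρ, hρ1, _⟩ := rp_facts hR
  have h2 := norm_cen_le hρ hρ1 hm
  have h3 := Sup882.grad_norm_le hh h0' (cen (R ^ (-(1/2) : ℝ)) m)
  linarith

end Crest.Agent.R138.Kcc882
end

-- ▼ part R138/Al2_878
section

/-!
# R138 / R139, wave side, AL (helper878), part 2: assembly

`AL` of PDef_654 = SUPM (882, 858) ∘ (H) (Al1_878: UPPER 448, coherence, LOWER 759 / 480) ∘ KMC
(882).
-/

set_option autoImplicit false

open MeasureTheory FourierTransform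
open scoped ContDiff ENNReal

namespace Crest.Agent.R138.Al878

open Crest.Agent.R138.Defs Crest.Agent.R138.W188 Crest.Agent.R138.Wpk685
open Crest.Agent.R138.Loc878 Crest.Agent.R138.Ad480 Crest.Agent.R138.Rect779
open Crest.Agent.R138.P654
open Crest.Agent.R138.Bil882 (NearId)
open Crest.Agent.R138.Low448 (fr)
open Crest.Agent.R138.Sm858 (seP Mc labc mem_Mc_of KMCA SUPM_K sum_en_plates)
open Crest.Agent.R138.Sup882 (grad_lip norm_le_of_inner sides_pos)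
open Crest.Agent.R138.Bn759 (nearId)

theorem sal_eq (δ : ℝ) (b : OrthonormalBasis (Fin 2) ℝ E2) (I1 : Finset ℕ) (P1 : ℕ → Plate)
    (m : ℤ × ℤ) : Sal δ b I1 P1 m = ⋃ i ∈ {i | i ∈ I1 ∧ sn b (P1 i).b ≤ δ}, (P1 i).S m := by
  ext y
  simp only [Set.mem_iUnion, Set.mem_ofPred_eq, exists_prop]
  constructor
  · rintro ⟨i, h1, h2, h3⟩
    exact ⟨i, ⟨h1, h2⟩, h3⟩
  · rintro ⟨i, ⟨h1, h2⟩, h3⟩
    exact ⟨i, h1, h2, h3⟩

theorem sal_sub (δ : ℝ) (b : OrthonormalBasis (Fin 2) ℝ E2) (I1 : Finset ℕ) (P1 : ℕ → Plate)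
    (m : ℤ × ℤ) : Sal δ b I1 P1 m ⊆ uS I1 P1 m := by
  rintro y ⟨i, hi, -, hy⟩
  exact Set.mem_biUnion hi hy

theorem uS_meas {I1 : Finset ℕ} {P1 : ℕ → Plate}
    (h : ∀ i ∈ I1, ∀ m, MeasurableSet ((P1 i).S m)) (m : ℤ × ℤ) : MeasurableSet (uS I1 P1 m) :=
  Finset.measurableSet_biUnion _ fun i hi => h i hi m

theorem sal_meas {I1 : Finset ℕ} {P1 : ℕ → Plate} {δ : ℝ} {b : OrthonormalBasis (Fin 2) ℝ E2}
    (h : ∀ i ∈ I1, ∀ m, MeasurableSet ((P1 i).S m)) (m : ℤ × ℤ) :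
    MeasurableSet (Sal δ b I1 P1 m) := by
  rw [sal_eq]
  refine MeasurableSet.biUnion ?_ fun i hi => h i hi.1 m
  exact (I1.finite_toSet.subset fun i hi => hi.1).countable

theorem bs_of {q A c0 : ℝ} {h : E2 → ℝ} {g : E2 → ℂ} {r1 s1 s2 D : ℝ} {I1 : Finset ℕ}
    {P1 : ℕ → Plate} (H : Par q A c0 h g r1 s1 s2 D I1 P1) (θ : ℝ) : Bs θ (uS I1 P1) :=
  ⟨fun m _ => uS_meas H.meas m, fun m _ => Metric.isBounded_closedBall.subset (H.bd m)⟩

theorem bsal_of {q A c0 : ℝ} {h : E2 → ℝ} {g : E2 → ℂ} {r1 s1 s2 D : ℝ} {I1 : Finset ℕ}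
    {P1 : ℕ → Plate} (H : Par q A c0 h g r1 s1 s2 D I1 P1) (θ δ : ℝ)
    (b : OrthonormalBasis (Fin 2) ℝ E2) : Bs θ (Sal δ b I1 P1) :=
  ⟨fun m _ => sal_meas H.meas m, fun m _ =>
    Metric.isBounded_closedBall.subset ((sal_sub δ b I1 P1 m).trans (H.bd m))⟩

/-- the tail of SUPM_K is a tail of AL. -/
theorem tail_al (M : ℕ) {C1 C2 C3 C4 r1 r Y E s2 q : ℝ} (hC1 : 0 ≤ C1) (hC2 : 0 ≤ C2)
    (hC3 : 0 ≤ C3) (hC4 : 0 ≤ C4) (hr : 1 ≤ r) (hrr : r1 / r ≤ r1) (hr1 : r ≤ r1) (hY : 1 ≤ Y)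
    (hE : 0 ≤ E) (hs : r ^ (-(1/2) : ℝ) ≤ s2) (hq : 0 ≤ q) (hq4 : q ≤ 4) :
    s2 ^ (-q / 2) * C1 * (C2 * r1 * ((1 + Y) ^ (2 * M))⁻¹ * E) ^ (1/2 : ℝ) * r *
      (C3 * (r1 / r) ^ 3 * (C4 * E)) ≤
    C1 * C2 ^ (1/2 : ℝ) * C3 * C4 * r1 ^ (20 : ℕ) * (Y ^ M)⁻¹ * (E ^ (1/2 : ℝ) * E) := by
  have hr0 : 0 < r := by linarith
  have hr11 : 1 ≤ r1 := hr.trans hr1
  have hr10 : 0 < r1 := by linarith
  have h0 : 0 < r ^ (-(1/2) : ℝ) := Real.rpow_pos_of_pos hr0 _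
  have h1 : s2 ^ (-q / 2) ≤ r1 := by
    calc s2 ^ (-q / 2) ≤ (r ^ (-(1/2) : ℝ)) ^ (-q / 2) :=
          Real.rpow_le_rpow_of_nonpos h0 hs (by linarith)
      _ = r ^ (q / 4) := by
          rw [← Real.rpow_mul hr0.le]
          congr 1; ring
      _ ≤ r ^ (1 : ℝ) := Real.rpow_le_rpow_of_exponent_le hr (by linarith)
      _ = r := Real.rpow_one r
      _ ≤ r1 := hr1
  have hY1 : 0 < 1 + Y := by linarith
  have h2 : (C2 * r1 * ((1 + Y) ^ (2 * M))⁻¹ * E) ^ (1/2 : ℝ) =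
      C2 ^ (1/2 : ℝ) * r1 ^ (1/2 : ℝ) * ((1 + Y) ^ M)⁻¹ * E ^ (1/2 : ℝ) := by
    rw [Real.mul_rpow (by positivity) hE, Real.mul_rpow (by positivity) (by positivity),
      Real.mul_rpow hC2 hr10.le]
    congr 2
    rw [Real.inv_rpow (by positivity), pow_mul', ← Real.rpow_natCast ((1 + Y) ^ M) 2,
      ← Real.rpow_mul (by positivity)]
    norm_num
  have h3 : r1 ^ (1/2 : ℝ) ≤ r1 := by
    calc r1 ^ (1/2 : ℝ) ≤ r1 ^ (1 : ℝ) := Real.rpow_le_rpow_of_exponent_le hr11 (by norm_num)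
      _ = r1 := Real.rpow_one r1
  have h4 : ((1 + Y) ^ M)⁻¹ ≤ (Y ^ M)⁻¹ := by
    have : 0 < Y := by linarith
    gcongr
    linarith
  have h5 : 0 ≤ r1 / r := by positivity
  have hs2 : 0 ≤ s2 ^ (-q / 2) := Real.rpow_nonneg (h0.le.trans hs) _
  rw [h2]
  calc s2 ^ (-q / 2) * C1 * (C2 ^ (1/2 : ℝ) * r1 ^ (1/2 : ℝ) * ((1 + Y) ^ M)⁻¹ *
        E ^ (1/2 : ℝ)) * r * (C3 * (r1 / r) ^ 3 * (C4 * E))
      ≤ r1 * C1 * (C2 ^ (1/2 : ℝ) * r1 * (Y ^ M)⁻¹ *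
        E ^ (1/2 : ℝ)) * r1 * (C3 * r1 ^ 3 * (C4 * E)) := by
        gcongr
    _ = C1 * C2 ^ (1/2 : ℝ) * C3 * C4 * r1 ^ 6 * (Y ^ M)⁻¹ * (E ^ (1/2 : ℝ) * E) := by ring
    _ ≤ _ := by
        gcongr
        norm_num

/-- the multiplicity factor. -/
theorem mu_al (n : ℕ) {C A Gm K0 Y x : ℝ} (hC : 0 ≤ C) (hA : 1 ≤ A) (hGm : 1 ≤ Gm) (hK : 1 ≤ K0)
    (hY : 1 ≤ Y) (hx : 0 ≤ x) :
    (C * (A * Gm) ^ 2 * K0 * Y ^ (2 * n) * x) ^ (1/2 : ℝ) ≤
      (C * K0) ^ (1/2 : ℝ) * A * (Y ^ (n : ℝ) * Gm ^ (2 : ℝ) * x ^ (1/2 : ℝ)) := by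
  have e : C * (A * Gm) ^ 2 * K0 * Y ^ (2 * n) * x = (C * K0) * (A * Gm * Y ^ n) ^ 2 * x := by
    rw [pow_mul' Y 2 n]; ring
  rw [e, Real.mul_rpow (by positivity) hx, Real.mul_rpow (by positivity) (by positivity),
    ← Real.rpow_natCast (A * Gm * Y ^ n) 2, ← Real.rpow_mul (by positivity)]
  norm_num
  have h1 : Gm ≤ Gm ^ 2 := by nlinarith
  calc (C * K0) ^ (1/2 : ℝ) * (A * Gm * Y ^ n) * x ^ (1/2 : ℝ)
      ≤ (C * K0) ^ (1/2 : ℝ) * (A * Gm ^ 2 * Y ^ n) * x ^ (1/2 : ℝ) := by gcongr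
    _ = _ := by ring

set_option maxHeartbeats 1000000 in
/-- **AL.** -/
theorem al_of (B : ℕ → ℝ) (hB : B 2 ≤ 1 / 10) (hKM : ∀ V : ℝ, Tub70.KM32 V) (q : ℝ) (hq : 0 ≤ q)
    (hq4 : q ≤ 4) : AL B q := by
  intro A hA
  refine ⟨(3 * A + 8)⁻¹, 2, by positivity, ?_, by norm_num, ?_⟩
  · exact inv_le_one_of_one_le₀ (by linarith)
  intro ε hε
  have hK : KMCA B q A 2 (2 * A + 23) := by
    intro ε hε
    obtain ⟨n0, h0⟩ := Kcc882.kmca hKM (q := q) (A := A) (L := 2) (Λ := 2 * A + 23) hq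
      (by linarith) (by norm_num) (by linarith) ε hε
    refine ⟨n0, fun n hn => ?_⟩
    obtain ⟨C, hC, h1⟩ := h0 n hn
    exact ⟨C, hC, fun h hh hh1 R hR g S hg _ => h1 h (nearId hB hh) hh1 R hR g hg S⟩
  obtain ⟨n0, h0⟩ := SUPM_K B hB A hA q (2 * A + 23) (by linarith) hK ε hε
  refine ⟨n0, fun n hn K0 hK0 => ⟨n, by positivity, fun M => ?_⟩⟩
  obtain ⟨CS, hCS, hS⟩ := h0 n hn (n + 2 * M) (by omega)
  obtain ⟨CH, hCH, hH⟩ := H_al B n (2 * M)
  obtain ⟨C3, hC3, H3⟩ := sel_energy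
  obtain ⟨C4, hC4, H4⟩ := en_le
  obtain ⟨C5, hC5, H5⟩ := sum_en_plates
  refine ⟨CS * ((CH * K0) ^ (1/2 : ℝ) * A) + CS * CH ^ (1/2 : ℝ) * C5 * (C3 * C4),
    by positivity, ?_⟩
  intro c0 h g r1 dl Y Gm s1' s2' s1 s2 D a p pp I1 P1 I P hx hs2 hcoh hpp ha hp hchi hal
  have hdl := hx.dlpos
  have hdl1 : dl ≤ 1 := hx.dlle.trans (inv_le_one_of_one_le₀ (by linarith))
  have hr1dl : 1 ≤ dl ^ 2 * r1 := by
    have h1 := hx.r1ge
    rw [Real.rpow_neg hdl.le, Real.rpow_two] at h1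
    have h2 : dl ^ 2 * (dl ^ 2)⁻¹ ≤ dl ^ 2 * r1 := by gcongr
    rwa [mul_inv_cancel₀ (by positivity)] at h2
  have hr10 : 0 < r1 := by
    by_contra hc
    push Not at hc
    nlinarith [sq_nonneg dl, mul_nonneg (sq_nonneg dl) (neg_nonneg.2 hc)]
  have hr : 1 ≤ dl * r1 := by nlinarith [mul_pos hdl hr10]
  have hr0 : 0 < dl * r1 := by linarith
  have hrR : dl * r1 ≤ r1 := by nlinarith
  obtain ⟨hθ, hθθ', hθ'1, e1, e2, e3, e4, e5, hr1, e6⟩ := an_facts hdl hdl1 hr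
  have hθ' := hθ.trans_le hθθ'
  have hn2 := nearId hB hx.parB
  obtain ⟨hs1p, hs2p⟩ := sides_pos hr hx.sd
  have hΛ : (3 * A + 8) * (dl * r1) ≤ r1 := by
    have h1 : (3 * A + 8) * dl ≤ 1 := by
      calc (3 * A + 8) * dl ≤ (3 * A + 8) * (3 * A + 8)⁻¹ := by
            gcongr
            exact hx.dlle
        _ = 1 := mul_inv_cancel₀ (by positivity)
    nlinarith
  have hws : r1 ^ (1/2 : ℝ) ≤ s2 * (dl * r1) := by
    have h1 : r1 ^ (1/2 : ℝ) = an (dl * (dl * r1)) * (dl * r1) := by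
      rw [← e5, inv_eq_one_div, div_eq_iff hθ.ne', ← e3]; ring
    rw [h1]
    gcongr
  have hBsu := bs_of hx.par (an r1)
  have hEn : 0 ≤ En g := integral_nonneg fun _ => by positivity
  have hEnl : ∫⁻ ξ, ‖g ξ‖ₑ ^ 2 = ENNReal.ofReal (En g) := lintEn hx.par.g2
  have hen : en (an r1) g (uS I1 P1) ≤ ENNReal.ofReal (C4 * En g) := by
    rw [ENNReal.ofReal_mul hC4, ← hEnl]
    exact H4 (an r1) hθ (hθθ'.trans hθ'1) g hx.par.gi hx.par.g2 _
  have hpp0 : 0 ≤ pp / p := by positivity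
  set Mu : ℝ := CH * (A * Gm) ^ 2 * K0 * Y ^ (2 * n) * (pp / p) with hMu
  set τ : ℝ := CH * r1 * ((1 + Y) ^ (2 * M))⁻¹ * En g with hτ
  have hY := hx.Y1
  have hGm := hx.Gm1
  have hY0 : 0 < (1 + Y) ^ (2 * M) := by positivity
  have hMu0 : 0 ≤ Mu := by
    rw [hMu]
    have : 0 ≤ (A * Gm) ^ 2 := sq_nonneg _
    have : 0 ≤ Y ^ (2 * n) := by positivity
    positivity
  have hτ0 : 0 ≤ τ := by rw [hτ]; positivity
  have key := hS h hx.parB hx.h1 g hx.par.gi hx.par.g2 (dl * r1) s1 s2 r1 hr hΛ hx.sd hws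
    (uS I1 P1) (uS_meas hx.par.meas) (fun m y hy => by
      have := hx.par.bd m hy
      rwa [mem_closedBall_zero_iff] at this) D hx.par.D0 hx.par.dens I P hx.pl Mu τ hMu0 hτ0 (by
      intro i hi x t ht _
      refine hH h hx.parB hn2 A K0 r1 dl Y Gm (dl ^ (1/2 : ℝ)) a p pp hA hK0 hdl hdl1 hr hY hGm
        hpp ha hp g hx.par.gi hx.par.g2 I1 P1 hBsu (fun b => bsal_of hx.par (an r1) _ b) hcoh
        (P i).b (P i).S (P i).z (P i).c (hx.pl.meas i hi) (hx.pl.mem i hi).2 ?_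
        (hchi.lo i hi) (hchi.hi i hi) (hchi.pot i hi) (hal i hi) x t ht _ ?_
      · intro m y hy
        refine ((hx.pl.box i hi m hy).1 0).trans ?_
        show A * s1 ≤ _
        have := hx.thin
        gcongr
      · intro m hm ⟨m', hm', ⟨y, hy⟩, hd⟩
        refine mem_Mc_of hs2p hm ?_
        have h4 : ‖gradient h (cen (an (dl * r1)) m') - (P i).c‖ ≤ 2 * (A * s2) := by
          refine norm_le_of_inner (P i).b _ (by positivity) fun j => ?_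
          refine ((hx.pl.box i hi m' hy).1 j).trans ?_
          have : ![s1, s2] j ≤ s2 := by fin_cases j <;> simp [hx.sd.le]
          exact mul_le_mul_of_nonneg_left this (by linarith)
        have h5 : ‖gradient h (cen (an r1) m) - gradient h (cen (an (dl * r1)) m')‖ ≤
            11 / 10 * (19 * s2) := by
          refine hd.trans ?_
          have : an (dl * r1) ≤ s2 := e6.trans hs2
          linarith
        calc ‖gradient h (cen (an r1) m) - (P i).c‖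
            = ‖(gradient h (cen (an r1) m) - gradient h (cen (an (dl * r1)) m')) +
                (gradient h (cen (an (dl * r1)) m') - (P i).c)‖ := by rw [sub_add_sub_cancel]
          _ ≤ _ := norm_add_le _ _
          _ ≤ 11 / 10 * (19 * s2) + 2 * (A * s2) := add_le_add h5 h4
          _ ≤ (2 * A + 23 - 2) * s2 := by nlinarith)
  refine key.trans (add_le_add ?_ ?_)
  · -- main term
    unfold SCo
    refine mul_le_mul' (ENNReal.ofReal_le_ofReal ?_) le_rfl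
    have h1 := mu_al n (C := CH) (A := A) (Gm := Gm) (K0 := K0) (Y := Y) (x := pp / p) hCH hA hGm
      hK0 hY hpp0
    have h2 : 0 ≤ CS * CH ^ (1/2 : ℝ) * C5 * (C3 * C4) := by positivity
    calc CS * Mu ^ (1/2 : ℝ) * r1 ^ ε
        ≤ CS * ((CH * K0) ^ (1/2 : ℝ) * A * (Y ^ (n : ℝ) * Gm ^ (2 : ℝ) *
          (pp / p) ^ (1/2 : ℝ))) * r1 ^ ε := by
          gcongr
      _ = (CS * ((CH * K0) ^ (1/2 : ℝ) * A)) * (r1 ^ ε * Y ^ (n : ℝ) * Gm ^ (2 : ℝ) *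
          (pp / p) ^ (1/2 : ℝ)) := by ring
      _ ≤ (CS * ((CH * K0) ^ (1/2 : ℝ) * A) + CS * CH ^ (1/2 : ℝ) * C5 * (C3 * C4)) *
          (r1 ^ ε * Y ^ (n : ℝ) * Gm ^ (2 : ℝ) * (pp / p) ^ (1/2 : ℝ)) := by
          gcongr
          linarith
      _ = _ := by ring
  · -- tail
    obtain ⟨s1', s2'⟩ := sel_int hθ hx.par.gi hBsu
    have h1 := H5 A h hx.parB.1.continuous (sel (an r1) g (uS I1 P1)) s1' s2' (dl * r1) s1 s2 r1
      hr hrR I P hx.pl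
    have h2 : ∫⁻ ξ, ‖sel (an r1) g (uS I1 P1) ξ‖ₑ ^ 2 ≤ ENNReal.ofReal (C3 * C4 * En g) := by
      refine (H3 (an r1) hθ (hθθ'.trans hθ'1) g hx.par.gi _ hBsu).trans ?_
      rw [mul_assoc, ENNReal.ofReal_mul hC3]
      exact mul_le_mul' le_rfl hen
    have hrr : r1 / (dl * r1) ≤ r1 := by
      rw [div_le_iff₀ hr0]
      have : 1 ≤ dl * r1 := hr
      nlinarith
    have h3 := tail_al M (C1 := CS) (C2 := CH) (C3 := C5) (C4 := C3 * C4) (r1 := r1)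
      (r := dl * r1) (Y := Y) (E := En g) (s2 := s2) (q := q) hCS hCH hC5 (by positivity) hr hrr
      hrR hY hEn (hx.sd.lo.trans hx.sd.le) hq hq4
    have hsp : 0 ≤ s2 ^ (-q / 2) := (Real.rpow_pos_of_pos hs2p _).le
    unfold Tl
    calc _ ≤ ENNReal.ofReal (s2 ^ (-q / 2) * CS * τ ^ (1/2 : ℝ) * (dl * r1)) *
          (ENNReal.ofReal (C5 * (r1 / (dl * r1)) ^ 3) * ENNReal.ofReal (C3 * C4 * En g)) :=
          mul_le_mul' le_rfl (h1.trans (mul_le_mul' le_rfl h2))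
      _ = ENNReal.ofReal (s2 ^ (-q / 2) * CS * τ ^ (1/2 : ℝ) * (dl * r1) *
          (C5 * (r1 / (dl * r1)) ^ 3 * (C3 * C4 * En g))) := by
          rw [← ENNReal.ofReal_mul (by positivity), ← ENNReal.ofReal_mul (by positivity)]
      _ ≤ ENNReal.ofReal (CS * CH ^ (1/2 : ℝ) * C5 * (C3 * C4) * r1 ^ (20 : ℕ) * (Y ^ M)⁻¹ *
          (En g ^ (1/2 : ℝ) * En g)) := ENNReal.ofReal_le_ofReal h3
      _ ≤ ENNReal.ofReal ((CS * ((CH * K0) ^ (1/2 : ℝ) * A) +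
          CS * CH ^ (1/2 : ℝ) * C5 * (C3 * C4)) * r1 ^ (20 : ℕ) * (Y ^ M)⁻¹ *
          (En g ^ (3/2 : ℝ))) := by
          refine ENNReal.ofReal_le_ofReal ?_
          have e : En g ^ (1/2 : ℝ) * En g = En g ^ (3/2 : ℝ) := by
            rcases hEn.eq_or_lt with h0 | h0
            · rw [← h0, mul_zero, Real.zero_rpow (by norm_num)]
            · nth_rewrite 2 [← Real.rpow_one (En g)]
              rw [← Real.rpow_add h0]
              norm_num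
          rw [e]
          have : 0 ≤ CS * ((CH * K0) ^ (1/2 : ℝ) * A) := by positivity
          have hYM : 0 < Y ^ M := by positivity
          gcongr
          linarith
      _ = _ := by
          rw [ENNReal.ofReal_rpow_of_nonneg hEn (by norm_num), ← ENNReal.ofReal_mul (by positivity)]

end Crest.Agent.R138.Al878
end

-- ▼ part R138/Step1_654

/-!
# R138 / R139: WAVE side (helper654): `AL → MIS → STEP` (splitting of the selections of the child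
plates into aligned and misaligned points).
-/

set_option autoImplicit false

open MeasureTheory FourierTransform
open scoped ENNReal

namespace Crest.Agent.R138.P654

open Crest.Agent.R138.Defs Crest.Agent.R138.W188 Crest.Agent.R138.Wpk685 Crest.Agent.R138.Loc878
  Crest.Agent.R138.Ad480 Crest.Agent.R138.Rect779

/-- `sel` is additive in the selection. -/
theorem sel_add {ρ : ℝ} {g : E2 → ℂ} (hg : Integrable g) {S T U : ℤ × ℤ → Set E2} (hS : Bs ρ S)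
    (hT : Bs ρ T) (hd : ∀ m ∈ caps ρ, Disjoint (S m) (T m)) (hU : ∀ m ∈ caps ρ, U m = S m ∪ T m)
    (ξ : E2) : sel ρ g U ξ = sel ρ g S ξ + sel ρ g T ξ := by
  unfold sel
  rw [← Finset.sum_add_distrib]
  refine Finset.sum_congr rfl fun m hm => ?_
  unfold piece
  rw [← mul_add]
  congr 1
  obtain ⟨M, _, hM⟩ := um_bdd (ρ := ρ) (g := g) m
  have hi : ∀ i ∈ (Finset.univ : Finset Bool),
      Integrable ((if i = true then S m else T m).indicator (um ρ g m)) := by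
    intro i _
    cases i
    · simpa using (ind_int (um_cont hg m) hM (hT.meas m hm) (hT.bdd m hm)).1
    · simpa using (ind_int (um_cont hg m) hM (hS.meas m hm) (hS.bdd m hm)).1
  have h1 := fourier_sum (Finset.univ : Finset Bool)
    (fun i => (if i = true then S m else T m).indicator (um ρ g m)) hi ξ
  rw [Fintype.sum_bool] at h1
  simp only [if_true, Bool.false_eq_true, if_false] at h1
  rw [← h1, hU m hm]
  have hfun : (S m ∪ T m).indicator (um ρ g m) =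
      fun y => ∑ i : Bool, (if i = true then S m else T m).indicator (um ρ g m) y := by
    funext y
    rw [Fintype.sum_bool, Set.indicator_union_of_disjoint (hd m hm)]
    simp
  rw [hfun]

theorem um_tr_add {h : E2 → ℝ} (hh : Continuous h) {ρ : ℝ} {f f1 f2 : E2 → ℂ}
    (h1 : Integrable f1) (h2 : Integrable f2) (e : ∀ ξ, f ξ = f1 ξ + f2 ξ) (z : E2 × ℝ)
    (m : ℤ × ℤ) (y : E2) :
    um ρ (tr h z f) m y = um ρ (tr h z f1) m y + um ρ (tr h z f2) m y := by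
  have e1 : tr h z f = fun ξ => ∑ k ∈ (Finset.univ : Finset Unit), (fun _ => tr h z f1) k ξ +
      tr h z f2 ξ := by
    funext ξ
    simp only [Finset.univ_unique, Finset.sum_const, Finset.card_singleton, one_smul]
    unfold tr
    rw [e ξ, add_mul]
  rw [e1, W323.um_sum (Finset.univ : Finset Unit) (fun _ _ => tr_int hh h1 z) (tr_int hh h2 z) m y]
  simp

/-- sub-selections of a plate system. -/
theorem plates_sub {A : ℝ} {h : E2 → ℝ} {r s1 s2 R : ℝ} {I : Finset ℕ} {P : ℕ → Plate}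
    (hP : Plates A h r s1 s2 R I P) (S' : ℕ → ℤ × ℤ → Set E2)
    (hm : ∀ i ∈ I, ∀ m, MeasurableSet (S' i m)) (hs : ∀ i ∈ I, ∀ m, S' i m ⊆ (P i).S m) :
    Plates A h r s1 s2 R I (fun i => { P i with S := S' i }) where
  mem := hP.mem
  sep := hP.sep
  x := hP.x
  meas := hm
  box := fun i hi m => (hs i hi m).trans (hP.box i hi m)
  disj := fun i hi j hj hij hz m => (hP.disj i hi j hj hij hz m).mono (hs i hi m) (hs j hj m)

theorem val_split {h : E2 → ℝ} {F : E2 → ℂ} {r s1 s2 : ℝ} {I : Finset ℕ} {P : ℕ → Plate}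
    (Sa Sb : ℕ → ℤ × ℤ → Set E2) (hu : ∀ i ∈ I, ∀ m, (P i).S m ⊆ Sa i m ∪ Sb i m) :
    val h F r s1 s2 I P ≤ 2 * (val h F r s1 s2 I (fun i => { P i with S := Sa i }) +
      val h F r s1 s2 I (fun i => { P i with S := Sb i })) := by
  unfold val
  rw [← Finset.sum_add_distrib, Finset.mul_sum]
  refine Finset.sum_le_sum fun i hi => ?_
  have h1 : en (r ^ (-(1/2) : ℝ)) (tr h (P i).z F) (P i).S ≤
      en (r ^ (-(1/2) : ℝ)) (tr h (P i).z F) (Sa i) +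
        en (r ^ (-(1/2) : ℝ)) (tr h (P i).z F) (Sb i) := by
    unfold en
    rw [← Finset.sum_add_distrib]
    refine Finset.sum_le_sum fun m _ => ?_
    exact (lintegral_mono_set (hu i hi m)).trans (lintegral_union_le _ _ _)
  have h2 : (ENNReal.ofReal r * en (r ^ (-(1/2) : ℝ)) (tr h (P i).z F) (P i).S) ^ (3 / 2 : ℝ) ≤
      2 * ((ENNReal.ofReal r * en (r ^ (-(1/2) : ℝ)) (tr h (P i).z F) (Sa i)) ^ (3 / 2 : ℝ) +
        (ENNReal.ofReal r * en (r ^ (-(1/2) : ℝ)) (tr h (P i).z F) (Sb i)) ^ (3 / 2 : ℝ)) := by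
    refine (ENNReal.rpow_le_rpow (mul_le_mul' le_rfl h1) (by norm_num)).trans ?_
    rw [mul_add]
    refine (ENNReal.rpow_add_le_mul_rpow_add_rpow _ _ (by norm_num)).trans ?_
    refine mul_le_mul' ?_ le_rfl
    calc (2 : ℝ≥0∞) ^ ((3 / 2 : ℝ) - 1) ≤ 2 ^ (1 : ℝ) :=
          ENNReal.rpow_le_rpow_of_exponent_le (by norm_num) (by norm_num)
      _ = 2 := ENNReal.rpow_one _
  refine (mul_le_mul' le_rfl h2).trans (le_of_eq ?_)
  simp only
  ring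

theorem selQ_union {I1 : Finset ℕ} {P1 : ℕ → Plate} (Q : OrthonormalBasis (Fin 2) ℝ E2 → Prop)
    (m : ℤ × ℤ) : uS I1 P1 m = selQ Q I1 P1 m ∪ selQ (fun b => ¬ Q b) I1 P1 m := by
  ext y
  simp only [uS, selQ, Set.mem_iUnion, exists_prop, Set.mem_union, Set.mem_ofPred_eq]
  constructor
  · rintro ⟨i, hi, hy⟩
    by_cases hQ : Q (P1 i).b
    · exact Or.inl ⟨i, hi, hQ, hy⟩
    · exact Or.inr ⟨i, hi, hQ, hy⟩
  · rintro (⟨i, hi, _, hy⟩ | ⟨i, hi, _, hy⟩) <;> exact ⟨i, hi, hy⟩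

theorem selQ_sub {I1 : Finset ℕ} {P1 : ℕ → Plate} (Q : OrthonormalBasis (Fin 2) ℝ E2 → Prop)
    (m : ℤ × ℤ) : selQ Q I1 P1 m ⊆ uS I1 P1 m := by
  rintro y ⟨i, hi, _, hy⟩
  simp only [uS, Set.mem_iUnion, exists_prop]
  exact ⟨i, hi, hy⟩

theorem selQ_meas {I1 : Finset ℕ} {P1 : ℕ → Plate}
    (hm : ∀ i ∈ I1, ∀ m, MeasurableSet ((P1 i).S m))
    (Q : OrthonormalBasis (Fin 2) ℝ E2 → Prop) (m : ℤ × ℤ) : MeasurableSet (selQ Q I1 P1 m) := by
  classical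
  have : selQ Q I1 P1 m = ⋃ i ∈ I1.filter (fun i => Q (P1 i).b), (P1 i).S m := by
    ext y
    simp only [selQ, Set.mem_ofPred_eq, Set.mem_iUnion, Finset.mem_filter, exists_prop]
    constructor
    · rintro ⟨i, hi, hQ, hy⟩; exact ⟨i, ⟨hi, hQ⟩, hy⟩
    · rintro ⟨i, ⟨hi, hQ⟩, hy⟩; exact ⟨i, hi, hQ, hy⟩
  rw [this]
  exact Finset.measurableSet_biUnion _ fun i hi => hm i (Finset.mem_filter.1 hi).1 m

theorem selQ_disj {I1 : Finset ℕ} {P1 : ℕ → Plate}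
    (hd : ∀ i ∈ I1, ∀ j ∈ I1, i ≠ j → ∀ m, Disjoint ((P1 i).S m) ((P1 j).S m))
    (Q : OrthonormalBasis (Fin 2) ℝ E2 → Prop) (m : ℤ × ℤ) :
    Disjoint (selQ Q I1 P1 m) (selQ (fun b => ¬ Q b) I1 P1 m) := by
  rw [Set.disjoint_left]
  rintro y ⟨i, hi, hQ, hy⟩ ⟨j, hj, hQ', hy'⟩
  have hij : i ≠ j := by
    rintro rfl
    exact hQ' hQ
  exact Set.disjoint_left.1 (hd i hi j hj hij m) hy hy'

/-- the parent wave is the sum of the aligned and the misaligned part. -/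
theorem sel_split {q A c0 : ℝ} {h : E2 → ℝ} {g : E2 → ℂ} {r1 s1 s2 D : ℝ} {I1 : Finset ℕ}
    {P1 : ℕ → Plate} (hP : Par q A c0 h g r1 s1 s2 D I1 P1) (δ : ℝ)
    (b : OrthonormalBasis (Fin 2) ℝ E2) (ξ : E2) :
    sel (an r1) g (uS I1 P1) ξ =
      sel (an r1) g (Sal δ b I1 P1) ξ + sel (an r1) g (Smis δ b I1 P1) ξ := by
  have e : Smis δ b I1 P1 = selQ (fun b' => ¬ (sn b b' ≤ δ)) I1 P1 := by
    unfold Smis
    congr 1
    funext b'
    simp only [not_le]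
  have hb : ∀ Q : OrthonormalBasis (Fin 2) ℝ E2 → Prop, Bs (an r1) (selQ Q I1 P1) := fun Q =>
    ⟨fun m _ => selQ_meas hP.meas Q m, fun m _ =>
      Metric.isBounded_closedBall.subset ((selQ_sub Q m).trans (hP.bd m))⟩
  rw [e]
  exact sel_add hP.gi (hb _) (hb _) (fun m _ => selQ_disj hP.disj _ m)
    (fun m _ => selQ_union _ m) ξ

/-- real exponents: `x ^ a ≤ x ^ b`. -/
theorem rp_mono {x a b : ℝ} (hx : 1 ≤ x) (h : a ≤ b) : x ^ a ≤ x ^ b :=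
  Real.rpow_le_rpow_of_exponent_le hx h

theorem an_mul {a r : ℝ} (ha : 0 < a) (hr : 0 < r) :
    an (a * r) = a ^ (-(1/2) : ℝ) * an r := Real.mul_rpow ha.le hr.le

theorem an_pos {r : ℝ} (hr : 0 < r) : 0 < an r := Real.rpow_pos_of_pos hr _

/-- **STEP from AL and MIS**. -/
theorem step_of {B : ℕ → ℝ} {q : ℝ} (HA : AL B q) (HM : MIS B q) : STEP B q := by
  intro A hA
  obtain ⟨dA, GA, hdA, hdA1, hGA, HA⟩ := HA A hA
  obtain ⟨dM, GM, hdM, hdM1, hGM, HM⟩ := HM A hA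
  refine ⟨min dA dM, max GA GM, lt_min hdA hdM, (min_le_left _ _).trans hdA1,
    hGA.trans (le_max_left _ _), fun ε hε => ?_⟩
  obtain ⟨n0, HA⟩ := HA ε hε
  obtain ⟨GM', hGM', HM⟩ := HM ε hε
  refine ⟨n0, fun n hn K0 hK0 => ?_⟩
  obtain ⟨GA', hGA', HA⟩ := HA n hn K0 hK0
  refine ⟨max GA' GM', hGA'.trans (le_max_left _ _), fun M => ?_⟩
  obtain ⟨CA, hCA, HA⟩ := HA M
  obtain ⟨CM, hCM, HM⟩ := HM M
  refine ⟨2 * (CA + CM), by positivity, ?_⟩
  intro c0 h g r1 dl Y Gm s1' s2' s1 s2 D a p pp I1 P1 I P hc hw' hw hcoh hpp ha hp hchi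
  set G : ℝ := max GA GM with hG
  set G' : ℝ := max GA' GM' with hG'
  have hGA2 : GA ≤ G := le_max_left _ _
  have hGM2 : GM ≤ G := le_max_right _ _
  have hdl1 : dl ≤ 1 := hc.dlle.trans ((min_le_left _ _).trans hdA1)
  have hdl := hc.dlpos
  have hrp : ∀ x : ℝ, x ≤ G → dl ^ (-x) ≤ dl ^ (-G) := fun x hx =>
    Real.rpow_le_rpow_of_exponent_ge hdl hdl1 (by linarith)
  have hr1 : 1 ≤ r1 := by
    have : (1:ℝ) ≤ dl ^ (-G) := Real.one_le_rpow_of_pos_of_le_one_of_nonpos hdl hdl1 (by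
      have := hGA.trans hGA2; linarith)
    exact this.trans hc.r1ge
  have hr1' : 0 < r1 := by linarith
  have hrj : 0 < dl * r1 := by positivity
  -- splitting
  set F : E2 → ℂ := sel (an r1) g (uS I1 P1) with hF
  set δ : ℝ := dl ^ (1/2 : ℝ) with hδ
  have hhc : Continuous h := hc.parB.1.continuous
  have hBs : ∀ Q : OrthonormalBasis (Fin 2) ℝ E2 → Prop, Bs (an r1) (selQ Q I1 P1) := fun Q =>
    ⟨fun m _ => selQ_meas hc.par.meas Q m, fun m _ =>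
      Metric.isBounded_closedBall.subset ((selQ_sub Q m).trans (hc.par.bd m))⟩
  have hBu : Bs (an r1) (uS I1 P1) :=
    ⟨fun m _ => by
      rw [selQ_union (fun _ => True) m]
      exact (selQ_meas hc.par.meas _ m).union (selQ_meas hc.par.meas _ m), fun m _ =>
      Metric.isBounded_closedBall.subset (hc.par.bd m)⟩
  have hFi : Integrable F := (sel_int (an_pos hr1') hc.par.gi hBu).1
  have hai : ∀ b, Integrable (sel (an r1) g (Sal δ b I1 P1)) := fun b =>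
    (sel_int (an_pos hr1') hc.par.gi (hBs _)).1
  have hmi : ∀ b, Integrable (sel (an r1) g (Smis δ b I1 P1)) := fun b =>
    (sel_int (an_pos hr1') hc.par.gi (hBs _)).1
  set T : ℕ → ℤ × ℤ → Set E2 := fun i m => {y |
    ‖um (an (dl * r1)) (tr h (P i).z F) m y‖ ≤
      2 * ‖um (an (dl * r1)) (tr h (P i).z (sel (an r1) g (Sal δ (P i).b I1 P1))) m y‖} with hT
  have hTm : ∀ i m, MeasurableSet (T i m) := fun i m =>
    measurableSet_le (W323.continuous_um (tr_int hhc hFi _) m).norm.measurable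
      ((W323.continuous_um (tr_int hhc (hai _) _) m).norm.measurable.const_mul 2)
  set Sa : ℕ → ℤ × ℤ → Set E2 := fun i m => (P i).S m ∩ T i m with hSa
  set Sb : ℕ → ℤ × ℤ → Set E2 := fun i m => (P i).S m ∩ (T i m)ᶜ with hSb
  have hsplit := val_split (h := h) (F := F) (r := dl * r1) (s1 := s1) (s2 := s2) (I := I) (P := P)
    Sa Sb (fun i _ m y hy => by
      by_cases hyT : y ∈ T i m
      · exact Or.inl ⟨hy, hyT⟩
      · exact Or.inr ⟨hy, hyT⟩)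
  -- contexts
  have hctx : ∀ (d' G1 : ℝ), dl ≤ d' → G1 ≤ G → ∀ S' : ℕ → ℤ × ℤ → Set E2,
      (∀ i ∈ I, ∀ m, MeasurableSet (S' i m)) → (∀ i ∈ I, ∀ m, S' i m ⊆ (P i).S m) →
      Ctx B q A d' G1 c0 h g r1 dl Y Gm s1' s2' s1 s2 D I1 P1 I
        (fun i => { P i with S := S' i }) := by
    intro d' G1 hd' hG1 S' hm hs
    exact ⟨hc.parB, hc.h1, hc.par, hc.c0pos, hc.c0le, hc.dlpos, hd', (hrp _ hG1).trans hc.r1ge,
      hc.Gm1, hc.Y1, hc.Y2, hc.sd, plates_sub hc.pl S' hm hs,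
      fun i hi m hm' => Set.subset_empty_iff.1 ((hs i hi m).trans (hc.cp i hi m hm').subset),
      hc.thin', hc.thin⟩
  have hSam : ∀ i ∈ I, ∀ m, MeasurableSet (Sa i m) := fun i hi m =>
    (hc.pl.meas i hi m).inter (hTm i m)
  have hSbm : ∀ i ∈ I, ∀ m, MeasurableSet (Sb i m) := fun i hi m =>
    (hc.pl.meas i hi m).inter (hTm i m).compl
  have hSas : ∀ i ∈ I, ∀ m, Sa i m ⊆ (P i).S m := fun i _ m => Set.inter_subset_left
  have hSbs : ∀ i ∈ I, ∀ m, Sb i m ⊆ (P i).S m := fun i _ m => Set.inter_subset_left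
  have hcA := hctx dA GA (hc.dlle.trans (min_le_left _ _)) hGA2 Sa hSam hSas
  have hcM := hctx dM GM (hc.dlle.trans (min_le_right _ _)) hGM2 Sb hSbm hSbs
  -- aligned
  have hs2 : an (dl * (dl * r1)) ≤ s2 := by
    rw [an_mul hdl hrj]
    refine le_trans ?_ hw
    refine mul_le_mul_of_nonneg_right ?_ (an_pos hrj).le
    have := hrp (1/2) (by have := hGA.trans hGA2; linarith)
    simpa using this
  have hA1 := HA c0 h g r1 dl Y Gm s1' s2' s1 s2 D a p pp I1 P1 I _ hcA hs2 hcoh hpp ha hp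
    ⟨fun i hi m y hy => hchi.lo i hi m y (hSas i hi m hy),
      fun i hi m y hy => hchi.hi i hi m y (hSas i hi m hy),
      fun i hi m y hy => hchi.pot i hi m y (hSas i hi m hy)⟩
    (fun i hi m y hy => hy.2)
  -- misaligned
  have hM1 := HM c0 h g r1 dl Y Gm s1' s2' s1 s2 D I1 P1 I _ hcM
    ((mul_le_mul_of_nonneg_right (hrp _ hGM2) (an_pos hr1').le).trans hw')
    ((mul_le_mul_of_nonneg_right (hrp _ hGM2) (an_pos hrj).le).trans hw)
    (fun i hi m y hy => by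
      have h1 : ¬ ‖um (an (dl * r1)) (tr h (P i).z F) m y‖ ≤
        2 * ‖um (an (dl * r1)) (tr h (P i).z (sel (an r1) g (Sal δ (P i).b I1 P1))) m y‖ := hy.2
      have h2 := um_tr_add (ρ := an (dl * r1)) hhc (hai (P i).b) (hmi (P i).b)
        (sel_split hc.par δ (P i).b) (P i).z m y
      have h3 : ‖um (an (dl * r1)) (tr h (P i).z F) m y‖ ≤
          ‖um (an (dl * r1)) (tr h (P i).z (sel (an r1) g (Sal δ (P i).b I1 P1))) m y‖ +
          ‖um (an (dl * r1)) (tr h (P i).z (sel (an r1) g (Smis δ (P i).b I1 P1))) m y‖ := by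
        rw [hF, h2]
        exact norm_add_le _ _
      show ‖um (an (dl * r1)) (tr h (P i).z F) m y‖ ≤
        2 * ‖um (an (dl * r1)) (tr h (P i).z (sel (an r1) g (Smis δ (P i).b I1 P1))) m y‖
      push Not at h1
      linarith)
  -- sum
  have hY1 := hc.Y1
  have hGm1 := hc.Gm1
  have hc0 := hc.c0pos
  have hYc : Y ≤ Y / c0 := by
    rw [le_div_iff₀ hc0]
    have := hc.c0le
    nlinarith
  have hYc1 : 1 ≤ Y / c0 := hY1.trans hYc
  have e1 : Y ^ GA' ≤ (Y / c0) ^ G' :=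
    (Real.rpow_le_rpow (by linarith) hYc hGA').trans (rp_mono hYc1 (le_max_left _ _))
  have e2 : (Y / c0) ^ GM' ≤ (Y / c0) ^ G' := rp_mono hYc1 (le_max_right _ _)
  have e3 : Gm ^ GA ≤ Gm ^ G := rp_mono hGm1 hGA2
  have e4 : Gm ^ GM ≤ Gm ^ G := rp_mono hGm1 hGM2
  set X1 : ℝ := (pp / p) ^ (1/2 : ℝ) with hX1
  have hX10 : 0 ≤ X1 := Real.rpow_nonneg (by positivity) _
  have hre : 0 ≤ r1 ^ ε := Real.rpow_nonneg hr1'.le _
  have p1 : 0 ≤ (Y / c0) ^ G' := Real.rpow_nonneg (by positivity) _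
  have p2 : 0 ≤ Gm ^ G := Real.rpow_nonneg (by linarith) _
  have p3 : 0 ≤ Y ^ GA' := Real.rpow_nonneg (by linarith) _
  have p4 : 0 ≤ Gm ^ GA := Real.rpow_nonneg (by linarith) _
  have p5 : 0 ≤ (Y / c0) ^ GM' := Real.rpow_nonneg (by positivity) _
  have p6 : 0 ≤ Gm ^ GM := Real.rpow_nonneg (by linarith) _
  have p7 : 0 ≤ δ := Real.rpow_nonneg hdl.le _
  have i1 : CA * r1 ^ ε * Y ^ GA' * Gm ^ GA * X1 ≤
      CA * r1 ^ ε * (Y / c0) ^ G' * Gm ^ G * (X1 + δ) := by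
    have : X1 ≤ X1 + δ := by linarith
    gcongr
  have i2 : CM * r1 ^ ε * (Y / c0) ^ GM' * Gm ^ GM * δ ≤
      CM * r1 ^ ε * (Y / c0) ^ G' * Gm ^ G * (X1 + δ) := by
    have : δ ≤ X1 + δ := by linarith
    gcongr
  have j1 := (ENNReal.ofReal_le_ofReal i1)
  have j2 := (ENNReal.ofReal_le_ofReal i2)
  set Z : ℝ := r1 ^ ε * (Y / c0) ^ G' * Gm ^ G * (X1 + δ) with hZ
  have hZ0 : 0 ≤ Z := by positivity
  have k1 : CA * r1 ^ ε * (Y / c0) ^ G' * Gm ^ G * (X1 + δ) = CA * Z := by rw [hZ]; ring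
  have k2 : CM * r1 ^ ε * (Y / c0) ^ G' * Gm ^ G * (X1 + δ) = CM * Z := by rw [hZ]; ring
  rw [k1] at j1
  rw [k2] at j2
  have k3 : 2 * (CA + CM) * r1 ^ ε * (Y / c0) ^ G' * Gm ^ G * (X1 + δ) =
      2 * (CA * Z + CM * Z) := by rw [hZ]; ring
  rw [k3]
  have t1 : Tl (2 * (CA + CM)) Y M g r1 = 2 * (Tl CA Y M g r1 + Tl CM Y M g r1) := by
    unfold Tl
    have hw1 : 0 ≤ r1 ^ 20 * (Y ^ M)⁻¹ := by positivity
    rw [← add_mul, ← mul_assoc, ← ENNReal.ofReal_add (by positivity) (by positivity),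
      show (2 : ℝ≥0∞) = ENNReal.ofReal 2 by simp, ← ENNReal.ofReal_mul (by norm_num)]
    congr 2
    ring
  rw [t1, ENNReal.ofReal_mul (by norm_num : (0:ℝ) ≤ 2), ENNReal.ofReal_add (by positivity)
    (by positivity), ENNReal.ofReal_ofNat]
  calc ENNReal.ofReal (s2 ^ (-q / 2)) * val h F (dl * r1) s1 s2 I P
      ≤ ENNReal.ofReal (s2 ^ (-q / 2)) * (2 * (val h F (dl * r1) s1 s2 I
          (fun i => { P i with S := Sa i }) + val h F (dl * r1) s1 s2 I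
          (fun i => { P i with S := Sb i }))) := mul_le_mul' le_rfl hsplit
    _ = 2 * (ENNReal.ofReal (s2 ^ (-q / 2)) * val h F (dl * r1) s1 s2 I
          (fun i => { P i with S := Sa i }) + ENNReal.ofReal (s2 ^ (-q / 2)) *
          val h F (dl * r1) s1 s2 I (fun i => { P i with S := Sb i })) := by ring
    _ ≤ 2 * ((ENNReal.ofReal (CA * Z) * SCo g r1 D (uS I1 P1) + Tl CA Y M g r1) +
          (ENNReal.ofReal (CM * Z) * SCo g r1 D (uS I1 P1) + Tl CM Y M g r1)) := by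
        refine mul_le_mul' le_rfl (add_le_add ?_ ?_)
        · exact hA1.trans (add_le_add (mul_le_mul' j1 le_rfl) le_rfl)
        · exact hM1.trans (add_le_add (mul_le_mul' j2 le_rfl) le_rfl)
    _ = _ := by ring

end Crest.Agent.R138.P654
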