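import Crest.Agent.R138.Wf5_448
import Crest.Agent.R138.Ker4_858

-- ▼ part R138/Sup1_882
section

/-!
# R138 / R139, wave side (b): superadditivity, part 1 (helper882)

General measure theoretic lemmas: superadditivity of `z ^ (3/2)`, Hölder on a slice, and the
comparison "selected packets ≤ slice of `ext h g`".
-/

set_option autoImplicit false

open MeasureTheory FourierTransform
open scoped ContDiff ENNReal

namespace Crest.Agent.R138.Sup882

open Crest.Agent.R138.Defs Crest.Agent.R138.Wf448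

/-- superadditivity of `z ^ (3/2)` -/
theorem sum_rpow_le {ι : Type*} (s : Finset ι) (a : ι → ℝ≥0∞) :
    ∑ i ∈ s, a i ^ (3 / 2 : ℝ) ≤ (∑ i ∈ s, a i) ^ (3 / 2 : ℝ) := by
  classical
  induction s using Finset.induction_on with
  | empty => simp
  | insert i s hi ih =>
    rw [Finset.sum_insert hi, Finset.sum_insert hi]
    exact (add_le_add le_rfl ih).trans (ENNReal.add_rpow_le_rpow_add _ _ (by norm_num))

/-- Hölder: `(∫_R a)^{3/2} ≤ |R|^{1/2} ∫_R a^{3/2}`. -/
theorem holder_R {X : Type*} [MeasurableSpace X] (μ : Measure X) (a : X → ℝ≥0∞)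
    (ha : AEMeasurable a μ) :
    (∫⁻ x, a x ∂μ) ^ (3 / 2 : ℝ) ≤ μ Set.univ ^ (1 / 2 : ℝ) * ∫⁻ x, a x ^ (3 / 2 : ℝ) ∂μ := by
  have h := ENNReal.lintegral_mul_le_Lp_mul_Lq μ
    (p := 3 / 2) (q := 3) ⟨by norm_num, by norm_num, by norm_num⟩
    (f := a) (g := fun _ => 1) ha aemeasurable_const
  simp only [Pi.mul_apply, mul_one, ENNReal.one_rpow, lintegral_const, one_mul] at h
  calc (∫⁻ x, a x ∂μ) ^ (3 / 2 : ℝ)
      ≤ ((∫⁻ x, a x ^ (3 / 2 : ℝ) ∂μ) ^ (1 / (3 / 2) : ℝ) * μ Set.univ ^ (1 / 3 : ℝ)) ^ (3 / 2 : ℝ) := by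
        gcongr
    _ = _ := by
        rw [ENNReal.mul_rpow_of_nonneg _ _ (by norm_num), ← ENNReal.rpow_mul, ← ENNReal.rpow_mul]
        norm_num
        rw [mul_comm]

/-- the smooth caps used by the packets -/
structure Caps (n : ℕ) (Kc L A : ℝ) (h : E2 → ℝ) (r : ℝ) {M : Type} [Fintype M]
    (a : M → E2 → ℂ) (v : M → E2) : Prop where
  smooth : ∀ m, ContDiff ℝ ∞ (a m)
  cpt : ∀ m, HasCompactSupport (a m)
  der : ∀ m, ∀ j ≤ n, ∀ ξ, ‖iteratedFDeriv ℝ j (a m) ξ‖ ≤ Kc * ((r ^ (-(1/2) : ℝ))⁻¹) ^ j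
  ov : ∀ ξ, (Set.ncard {m | ξ ∈ tsupport (a m)} : ℝ) ≤ L
  near : ∀ m ξ, a m ξ ≠ 0 → ‖gradient h ξ - v m‖ ≤ A * r ^ (-(1/2) : ℝ)

/-- the isotropic weight map -/
noncomputable def iso (w : ℝ) : E2 →L[ℝ] E2 := w⁻¹ • ContinuousLinearMap.id ℝ E2

theorem norm_iso_apply {w : ℝ} (hw : 0 < w) (x : E2) : ‖iso w x‖ = ‖x‖ / w := by
  unfold iso
  rw [smul_apply, ContinuousLinearMap.id_apply, norm_smul, norm_inv,
    Real.norm_of_nonneg hw.le, inv_mul_eq_div]

theorem norm_iso_le {w : ℝ} (hw : 0 < w) : ‖iso w‖ ≤ w⁻¹ := by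
  refine ContinuousLinearMap.opNorm_le_bound _ (by positivity) fun x => ?_
  rw [norm_iso_apply hw, div_eq_inv_mul]

theorem packet_integrable {Mx : Type} {a : E2 → ℂ} (hs : ContDiff ℝ ∞ a)
    (hc : HasCompactSupport a) {g : E2 → ℂ} (hg : Integrable g) :
    Integrable (fun ξ => a ξ * g ξ) := by
  obtain ⟨C, hC⟩ := hc.exists_bound_of_continuous hs.continuous
  exact hg.bdd_mul (c := C) hs.continuous.aestronglyMeasurable (Filter.Eventually.of_forall hC)

theorem packet_memLp {a : E2 → ℂ} (hs : ContDiff ℝ ∞ a)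
    (hc : HasCompactSupport a) {g : E2 → ℂ} (hg : MemLp g 2) :
    MemLp (fun ξ => a ξ * g ξ) 2 := by
  obtain ⟨C, hC⟩ := hc.exists_bound_of_continuous hs.continuous
  refine MemLp.of_le (hg.const_mul (C : ℂ)) (hs.continuous.aestronglyMeasurable.mul hg.1)
    (Filter.Eventually.of_forall fun ξ => ?_)
  rw [norm_mul, norm_mul]
  have : (0:ℝ) ≤ C := (norm_nonneg _).trans (hC 0)
  rw [Complex.norm_real, Real.norm_of_nonneg this]
  gcongr
  exact hC ξ

/-- **packets at time `0` against the slice at time `t`** -/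
theorem slice_ge (n : ℕ) (M Kc L A : ℝ) (hKc : 0 < Kc) (hL : 0 < L) (hA : 0 ≤ A) :
    ∃ C : ℝ, 0 ≤ C ∧ ∀ h : E2 → ℝ, ContDiff ℝ ∞ h →
    (∀ i, 2 ≤ i → i ≤ max n 2 → ∀ ξ, ‖iteratedFDeriv ℝ i h ξ‖ ≤ M) →
    ∀ r : ℝ, 1 ≤ r → ∀ (ι : Type) [Fintype ι] (a : ι → E2 → ℂ) (v : ι → E2),
    Caps n Kc L A h r a v → ∀ g : E2 → ℂ, Integrable g → MemLp g 2 →
    ∀ w : ℝ, r ^ (1 / 2 : ℝ) ≤ w → ∀ (x : E2) (t : ℝ), |t| ≤ 2 * r →
    ∑ m, wE n (iso w) (x + t • v m) (fun ξ => a m ξ * g ξ) ≤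
      ENNReal.ofReal C * wE n (iso w) x (sl h g t) := by
  obtain ⟨C1, hC1, h1⟩ := transport_far (V := E2) (W := E2) n M
  obtain ⟨C2, hC2, h2⟩ := ortho_col (V := E2) (W := E2) n
  set l : ℝ := (A + 1)⁻¹ with hl
  have hl0 : 0 < l := by positivity
  have hl1 : l ≤ 1 := by
    rw [hl]; exact inv_le_one_of_one_le₀ (by linarith)
  refine ⟨(C1 * 3 ^ (2 * n)) * (l⁻¹) ^ (2 * n) * (C2 * Kc ^ 2 * L), by positivity, ?_⟩
  intro h hh hM r hr ι _ a v hcap g hg hg2 w hw x t ht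
  have hr0 : 0 < r := by linarith
  have hrh : 0 < r ^ (1 / 2 : ℝ) := Real.rpow_pos_of_pos hr0 _
  have hw0 : 0 < w := hrh.trans_le hw
  have hinv : (r ^ (1 / 2 : ℝ))⁻¹ = r ^ (-(1/2) : ℝ) := by
    rw [← Real.rpow_neg hr0.le]
  have hA1 : ‖iso w‖ ≤ r ^ (-(1/2) : ℝ) := by
    refine (norm_iso_le hw0).trans ?_
    rw [← hinv]
    exact inv_anti₀ hrh hw
  have hρρ : r ^ (-(1/2) : ℝ) * r ^ (-(1/2) : ℝ) = r⁻¹ := by
    rw [← Real.rpow_add hr0]
    norm_num
    exact Real.rpow_neg_one r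
  -- each packet
  have step : ∀ m, wE n (iso w) (x + t • v m) (fun ξ => a m ξ * g ξ) ≤
      ENNReal.ofReal ((C1 * 3 ^ (2 * n)) * (l⁻¹) ^ (2 * n)) *
        wE n (iso w) x (sl h (fun ξ => a m ξ * g ξ) t) := by
    intro m
    have hgi := packet_integrable (Mx := ι) (hcap.smooth m) (hcap.cpt m) hg
    have hg2' := packet_memLp (hcap.smooth m) (hcap.cpt m) hg2
    have hlA : ‖l • iso w‖ ≤ r ^ (-(1/2) : ℝ) := by
      rw [norm_smul, Real.norm_of_nonneg hl0.le]
      exact (mul_le_of_le_one_left (norm_nonneg _) hl1).trans hA1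
    have hb : Bornology.IsBounded {ξ | a m ξ ≠ 0} :=
      (hcap.cpt m).isBounded.subset (subset_tsupport _)
    have hS : ∀ ξ ∈ {ξ | a m ξ ≠ 0}, ‖(l • iso w) (gradient h ξ - v m)‖ ≤ 1 / r := by
      intro ξ hξ
      rw [smul_apply, norm_smul, Real.norm_of_nonneg hl0.le]
      have h3 : ‖iso w (gradient h ξ - v m)‖ ≤ r ^ (-(1/2) : ℝ) * (A * r ^ (-(1/2) : ℝ)) :=
        (ContinuousLinearMap.le_opNorm _ _).trans
          (mul_le_mul hA1 (hcap.near m ξ hξ) (norm_nonneg _) (by positivity))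
      calc l * ‖iso w (gradient h ξ - v m)‖ ≤ l * (r ^ (-(1/2) : ℝ) * (A * r ^ (-(1/2) : ℝ))) := by
            gcongr
        _ = (l * A) * (r ^ (-(1/2) : ℝ) * r ^ (-(1/2) : ℝ)) := by ring
        _ = (l * A) * r⁻¹ := by rw [hρρ]
        _ ≤ 1 * r⁻¹ := by
            gcongr
            rw [hl, inv_mul_le_iff₀ (by positivity)]; linarith
        _ = 1 / r := by rw [one_mul, one_div]
    have h4 := h1 (l • iso w) h hh hM r hr hlA (v m) {ξ | a m ξ ≠ 0} hb hS
      (fun ξ => a m ξ * g ξ) hgi hg2' (fun ξ hξ => left_ne_zero_of_mul hξ) x t (-t)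
    rw [abs_neg, add_neg_cancel, neg_smul, sub_neg_eq_add] at h4
    have e0 : sl h (fun ξ => a m ξ * g ξ) 0 = fun ξ => a m ξ * g ξ := by
      funext ξ
      simp [sl, ee]
    rw [e0] at h4
    have hle : ∀ y, ‖(l • iso w) y‖ ≤ ‖iso w y‖ := by
      intro y
      rw [smul_apply, norm_smul, Real.norm_of_nonneg hl0.le]
      exact mul_le_of_le_one_left (norm_nonneg _) hl1
    calc wE n (iso w) (x + t • v m) (fun ξ => a m ξ * g ξ)
        ≤ wE n (l • iso w) (x + t • v m) (fun ξ => a m ξ * g ξ) := wE_mono hle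
      _ ≤ ENNReal.ofReal (C1 * (1 + |t| / r) ^ (2 * n)) *
          wE n (l • iso w) x (sl h (fun ξ => a m ξ * g ξ) t) := h4
      _ ≤ ENNReal.ofReal (C1 * 3 ^ (2 * n)) *
          (ENNReal.ofReal ((l⁻¹) ^ (2 * n)) * wE n (iso w) x (sl h (fun ξ => a m ξ * g ξ) t)) := by
          refine mul_le_mul' (ENNReal.ofReal_le_ofReal ?_) (wE_smul_le hl0 hl1 _ _)
          gcongr
          have : |t| / r ≤ 2 := by rw [div_le_iff₀ hr0]; exact ht
          linarith
      _ = _ := by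
          rw [← mul_assoc, ← ENNReal.ofReal_mul (by positivity)]
  have e1 : ∀ m, sl h (fun ξ => a m ξ * g ξ) t = fun ξ => a m ξ * sl h g t ξ := by
    intro m; funext ξ; simp only [sl]; ring
  have h5 := h2 (iso w) x (r ^ (-(1/2) : ℝ)) (Real.rpow_pos_of_pos hr0 _) hA1 ι a (sl h g t) Kc L
    hKc hL (fun m => (hcap.cpt m).hasTemperateGrowth (hcap.smooth m)) hcap.der hcap.ov
    (integrable_sl hh.continuous hg t) (memLp_sl hh.continuous hg2 t)
  calc ∑ m, wE n (iso w) (x + t • v m) (fun ξ => a m ξ * g ξ)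
      ≤ ∑ m, ENNReal.ofReal ((C1 * 3 ^ (2 * n)) * (l⁻¹) ^ (2 * n)) *
        wE n (iso w) x (sl h (fun ξ => a m ξ * g ξ) t) := Finset.sum_le_sum fun m _ => step m
    _ = ENNReal.ofReal ((C1 * 3 ^ (2 * n)) * (l⁻¹) ^ (2 * n)) *
        ∑ m, wE n (iso w) x (fun ξ => a m ξ * sl h g t ξ) := by
        rw [Finset.mul_sum]
        exact Finset.sum_congr rfl fun m _ => by rw [e1]
    _ ≤ ENNReal.ofReal ((C1 * 3 ^ (2 * n)) * (l⁻¹) ^ (2 * n)) *
        (ENNReal.ofReal (C2 * Kc ^ 2 * L) * wE n (iso w) x (sl h g t)) := by gcongr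
    _ = _ := by rw [← mul_assoc, ← ENNReal.ofReal_mul (by positivity)]

end Crest.Agent.R138.Sup882
end

-- ▼ part R138/Sup2_882

/-!
# R138 / R139, wave side (b): superadditivity, part 2 (helper882)

Selections of packets, the slice inequality.
-/

set_option autoImplicit false

open MeasureTheory FourierTransform
open scoped ContDiff ENNReal

namespace Crest.Agent.R138.Sup882

open Crest.Agent.R138.Defs Crest.Agent.R138.Wf448
open Crest.Agent.R138.Ker858 (rect volume_rect)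

/-- plates `(c i, b i, s i, x0 i)` of length `r` and disjoint measurable selections `S i m` of the
packets with velocity `v m`. -/
structure Sel (A r w : ℝ) {M I : Type} (v : M → E2) (c : I → E2)
    (b : I → OrthonormalBasis (Fin 2) ℝ E2) (s : I → Fin 2 → ℝ) (x0 : I → E2)
    (S : I → M → Set E2) : Prop where
  meas : ∀ i m, MeasurableSet (S i m)
  disj : ∀ m, Pairwise (Function.onFun Disjoint fun i => S i m)
  dir : ∀ i m, (S i m).Nonempty → ∀ a, |inner ℝ (v m - c i) (b i a)| ≤ A * s i a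
  pos : ∀ i m, ∀ y ∈ S i m, ∀ a, |inner ℝ (y - x0 i) (b i a)| ≤ A * (s i a * r)
  wle : ∀ i a, w ≤ s i a * r
  spos : ∀ i a, 0 < s i a

/-- the packet `𝓕⁻ (a g)`, squared. -/
noncomputable def U (a g : E2 → ℂ) (y : E2) : ℝ≥0∞ :=
  ENNReal.ofReal (‖𝓕⁻ (fun ξ => a ξ * g ξ) y‖ ^ 2)

/-- the energy of a selection. -/
noncomputable def en {M I : Type} [Fintype M] (a : M → E2 → ℂ) (g : E2 → ℂ) (S : I → M → Set E2)
    (i : I) : ℝ≥0∞ := ∑ m, ∫⁻ y in S i m, U (a m) g y

/-- the local energy of a selection. -/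
noncomputable def se (n : ℕ) (w : ℝ) {M I : Type} [Fintype M] (a : M → E2 → ℂ) (v : M → E2)
    (g : E2 → ℂ) (S : I → M → Set E2) (i : I) (x : E2) (t : ℝ) : ℝ≥0∞ :=
  ∑ m, ∫⁻ y in S i m, ENNReal.ofReal (dw n (iso w) (y - (x + t • v m))) * U (a m) g y

theorem dw_iso {n : ℕ} {w : ℝ} (hw : 0 < w) (z : E2) :
    dw n (iso w) z = ((1 + (‖z‖ / w) ^ 2) ^ n)⁻¹ := by
  unfold dw gw
  rw [norm_iso_apply hw]

theorem measurable_U {a : E2 → ℂ} (hs : ContDiff ℝ ∞ a) (hc : HasCompactSupport a) {g : E2 → ℂ}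
    (hg : Integrable g) : Measurable (U a g) := by
  unfold U
  have h := fourierInv_continuous (packet_integrable (Mx := Unit) hs hc hg)
  exact ((h.norm.pow 2).measurable).ennreal_ofReal

/-- disjointness: the selections together are dominated by the weighted energies. -/
theorem sum_se_le (n : ℕ) {A r w : ℝ} {M I : Type} [Fintype M] [Fintype I] {a : M → E2 → ℂ}
    {v : M → E2} {c : I → E2} {b : I → OrthonormalBasis (Fin 2) ℝ E2} {s : I → Fin 2 → ℝ}
    {x0 : I → E2} {S : I → M → Set E2} (hS : Sel A r w v c b s x0 S) (g : E2 → ℂ) (x : E2) (t : ℝ) :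
    ∑ i, se n w a v g S i x t ≤
      ∑ m, wE n (iso w) (x + t • v m) (fun ξ => a m ξ * g ξ) := by
  classical
  unfold se
  rw [Finset.sum_comm]
  refine Finset.sum_le_sum fun m _ => ?_
  have h1 := lintegral_biUnion_finset (μ := (volume : Measure E2)) (s := (Finset.univ : Finset I))
    (t := fun i => S i m) (fun i _ j _ hij => hS.disj m hij) (fun i _ => hS.meas i m)
    (fun y => ENNReal.ofReal (dw n (iso w) (y - (x + t • v m))) * U (a m) g y)
  rw [← h1]
  refine (setLIntegral_le_lintegral _ _).trans (le_of_eq ?_)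
  unfold wE LI U
  refine lintegral_congr fun y => ?_
  rw [ENNReal.ofReal_mul (dw_pos _ _ _).le]

theorem measurable_dwf (n : ℕ) (w : ℝ) (u : E2) :
    Measurable fun p : E2 × E2 => ENNReal.ofReal (dw n (iso w) (p.2 - (p.1 + u))) := by
  have h := continuous_dw n (iso w)
  exact (h.comp (continuous_snd.sub (continuous_fst.add continuous_const))).measurable.ennreal_ofReal

theorem measurable_se (n : ℕ) (w : ℝ) {M I : Type} [Fintype M] {a : M → E2 → ℂ} (v : M → E2)
    {g : E2 → ℂ} (S : I → M → Set E2) (i : I) (t : ℝ) (hs : ∀ m, ContDiff ℝ ∞ (a m))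
    (hc : ∀ m, HasCompactSupport (a m)) (hg : Integrable g) :
    Measurable fun x => se n w a v g S i x t := by
  unfold se
  refine Finset.measurable_fun_sum _ fun m _ => ?_
  have h1 : Measurable fun p : E2 × E2 =>
      ENNReal.ofReal (dw n (iso w) (p.2 - (p.1 + t • v m))) * U (a m) g p.2 :=
    (measurable_dwf n w (t • v m)).mul ((measurable_U (hs m) (hc m) hg).comp measurable_snd)
  exact h1.lintegral_prod_right'

/-- the unit ball -/
noncomputable def kap : ℝ := (volume (Metric.ball (0 : E2) 1)).toReal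

theorem kap_pos : 0 < kap :=
  ENNReal.toReal_pos (Metric.measure_ball_pos volume (0 : E2) one_pos).ne' measure_ball_lt_top.ne

theorem volume_ball_E2 (x : E2) {w : ℝ} (hw : 0 ≤ w) :
    volume (Metric.closedBall x w) = ENNReal.ofReal (kap * w ^ 2) := by
  rw [Measure.addHaar_closedBall _ _ hw, mul_comm kap, ENNReal.ofReal_mul (by positivity)]
  congr 1
  · simp
  · unfold kap; rw [ENNReal.ofReal_toReal measure_ball_lt_top.ne]

/-- mass of the local energy on the plate. -/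
theorem int_se_ge (n : ℕ) {A r w : ℝ} (hA : 0 ≤ A) (hr : 0 < r) (hw : 0 < w) {M I : Type} [Fintype M]
    {a : M → E2 → ℂ} {v : M → E2} {c : I → E2} {b : I → OrthonormalBasis (Fin 2) ℝ E2}
    {s : I → Fin 2 → ℝ} {x0 : I → E2} {S : I → M → Set E2} (hS : Sel A r w v c b s x0 S)
    {g : E2 → ℂ} (hs : ∀ m, ContDiff ℝ ∞ (a m)) (hc : ∀ m, HasCompactSupport (a m))
    (hg : Integrable g) (i : I) (t : ℝ) (ht : |t| ≤ r) :
    ENNReal.ofReal ((2 ^ n)⁻¹ * (kap * w ^ 2)) * en a g S i ≤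
      ∫⁻ x in rect (x0 i - t • c i) (b i) (fun j => s i j * r) (2 + 2 * A), se n w a v g S i x t := by
  set R := rect (x0 i - t • c i) (b i) (fun j => s i j * r) (2 + 2 * A) with hR
  unfold se en
  rw [lintegral_finsetSum, Finset.mul_sum]
  · refine Finset.sum_le_sum fun m _ => ?_
    have h1 : Measurable fun p : E2 × E2 =>
        ENNReal.ofReal (dw n (iso w) (p.2 - (p.1 + t • v m))) * U (a m) g p.2 :=
      (measurable_dwf n w (t • v m)).mul ((measurable_U (hs m) (hc m) hg).comp measurable_snd)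
    rw [lintegral_lintegral_swap h1.aemeasurable, ← lintegral_const_mul' _ _ ENNReal.ofReal_ne_top]
    refine setLIntegral_mono' (hS.meas i m) fun y hy => ?_
    have hmx : Measurable fun x => ENNReal.ofReal (dw n (iso w) (y - (x + t • v m))) :=
      ((continuous_dw n (iso w)).comp
        (continuous_const.sub (continuous_id.add continuous_const))).measurable.ennreal_ofReal
    rw [lintegral_mul_const _ hmx]
    refine mul_le_mul_left ?_ _
    have hsub : Metric.closedBall (y - t • v m) w ⊆ R := by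
      intro x hx a'
      rw [mem_closedBall_iff_norm] at hx
      have e : x - (x0 i - t • c i) = (x - (y - t • v m)) + (y - x0 i) - t • (v m - c i) := by
        rw [smul_sub]; abel
      have hb1 : |inner ℝ (x - (y - t • v m)) (b i a')| ≤ w := by
        refine (abs_real_inner_le_norm _ _).trans ?_
        rw [(b i).norm_eq_one, mul_one]; exact hx
      have hb2 := hS.pos i m y hy a'
      have hb3 := hS.dir i m ⟨y, hy⟩ a'
      have hwl := hS.wle i a'
      have hsp := hS.spos i a'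
      have hsr : 0 < s i a' * r := by positivity
      have hb4 : |t| * |inner ℝ (v m - c i) (b i a')| ≤ A * (s i a' * r) := by
        calc |t| * |inner ℝ (v m - c i) (b i a')| ≤ r * (A * s i a') :=
              mul_le_mul ht hb3 (abs_nonneg _) hr.le
          _ = _ := by ring
      rw [e, inner_sub_left, inner_add_left, inner_smul_left]
      simp only [conj_trivial]
      have := abs_sub (inner ℝ (x - (y - t • v m)) (b i a') + inner ℝ (y - x0 i) (b i a'))
        (t * inner ℝ (v m - c i) (b i a'))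
      have h3 := abs_add_le (inner ℝ (x - (y - t • v m)) (b i a')) (inner ℝ (y - x0 i) (b i a'))
      rw [abs_mul] at this
      calc _ ≤ _ := this
        _ ≤ w + A * (s i a' * r) + A * (s i a' * r) := by linarith
        _ < (2 + 2 * A) * (s i a' * r) := by nlinarith
    calc ENNReal.ofReal ((2 ^ n)⁻¹ * (kap * w ^ 2))
        = ∫⁻ _x in Metric.closedBall (y - t • v m) w, ENNReal.ofReal ((2 ^ n)⁻¹) := by
          rw [setLIntegral_const, volume_ball_E2 _ hw.le, ← ENNReal.ofReal_mul (by positivity)]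
      _ ≤ ∫⁻ x in Metric.closedBall (y - t • v m) w,
            ENNReal.ofReal (dw n (iso w) (y - (x + t • v m))) := by
          refine setLIntegral_mono' Metric.isClosed_closedBall.measurableSet fun x hx => ?_
          refine ENNReal.ofReal_le_ofReal ?_
          rw [mem_closedBall_iff_norm] at hx
          rw [dw_iso hw]
          have h4 : ‖y - (x + t • v m)‖ ≤ w := by
            rw [show y - (x + t • v m) = -(x - (y - t • v m)) by abel, norm_neg]; exact hx
          have h5 : ‖y - (x + t • v m)‖ / w ≤ 1 := by rw [div_le_one hw]; exact h4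
          have h6 : (‖y - (x + t • v m)‖ / w) ^ 2 ≤ 1 := pow_le_one₀ (by positivity) h5
          gcongr
          linarith
      _ ≤ _ := lintegral_mono_set hsub
  · intro m _
    have h1 : Measurable fun p : E2 × E2 =>
        ENNReal.ofReal (dw n (iso w) (p.2 - (p.1 + t • v m))) * U (a m) g p.2 :=
      (measurable_dwf n w (t • v m)).mul ((measurable_U (hs m) (hc m) hg).comp measurable_snd)
    exact h1.lintegral_prod_right'

theorem measurableSet_rect (c : E2) (b : OrthonormalBasis (Fin 2) ℝ E2) (s : Fin 2 → ℝ) (l : ℝ) :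
    MeasurableSet (rect c b s l) := by
  have : rect c b s l = ⋂ a, {η : E2 | |inner ℝ (η - c) (b a)| < l * s a} := by
    ext η; simp [rect]
  rw [this]
  refine MeasurableSet.iInter fun a => ?_
  exact (isOpen_lt (by fun_prop) continuous_const).measurableSet

/-- **the slice inequality** -/
theorem slice_main (n : ℕ) {A r w : ℝ} (hA : 0 ≤ A) (hr : 0 < r) (hw : 0 < w) {M I : Type}
    [Fintype M] [Fintype I]
    {a : M → E2 → ℂ} {v : M → E2} {c : I → E2} {b : I → OrthonormalBasis (Fin 2) ℝ E2}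
    {s : I → Fin 2 → ℝ} {x0 : I → E2} {S : I → M → Set E2} (hS : Sel A r w v c b s x0 S)
    {g : E2 → ℂ} (hs : ∀ m, ContDiff ℝ ∞ (a m)) (hc : ∀ m, HasCompactSupport (a m))
    (hg : Integrable g) (t : ℝ) (ht : |t| ≤ r) (G : E2 → ℝ≥0∞)
    (hG : ∀ x, ∑ i, se n w a v g S i x t ≤ ENNReal.ofReal (w ^ 2) * G x)
    (T : Set E2) (hT : MeasurableSet T)
    (hR : ∀ i, rect (x0 i - t • c i) (b i) (fun j => s i j * r) (2 + 2 * A) ⊆ T) :
    ∑ i, ENNReal.ofReal ((s i 0 * s i 1 * r ^ 2) ^ (-(1/2) : ℝ)) * en a g S i ^ (3 / 2 : ℝ) ≤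
      ENNReal.ofReal (4 * (1 + A) * ((2 ^ n)⁻¹ * kap) ^ (-(3 / 2) : ℝ)) *
        ∫⁻ x in T, G x ^ (3 / 2 : ℝ) := by
  have hκ := kap_pos
  have hw2 : ENNReal.ofReal (w ^ 2) ≠ 0 := by
    rw [Ne, ENNReal.ofReal_eq_zero, not_le]; positivity
  -- one plate
  have one : ∀ i, ENNReal.ofReal ((s i 0 * s i 1 * r ^ 2) ^ (-(1/2) : ℝ)) *
      en a g S i ^ (3 / 2 : ℝ) ≤
      ENNReal.ofReal (4 * (1 + A) * ((2 ^ n)⁻¹ * kap) ^ (-(3 / 2) : ℝ)) *
        ∫⁻ x in T, ((ENNReal.ofReal (w ^ 2))⁻¹ * se n w a v g S i x t) ^ (3 / 2 : ℝ) := by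
    intro i
    have hs0 := hS.spos i 0
    have hs1 := hS.spos i 1
    have hq : 0 < s i 0 * s i 1 * r ^ 2 := by positivity
    have h1 := int_se_ge n hA hr hw hS hs hc hg i t ht
    set R := rect (x0 i - t • c i) (b i) (fun j => s i j * r) (2 + 2 * A) with hRdef
    have hm := measurable_se n w v S i t hs hc hg
    have h2 := holder_R (volume.restrict R) (fun x => se n w a v g S i x t) hm.aemeasurable
    have hvol : (volume.restrict R) Set.univ = ENNReal.ofReal (16 * (1 + A) ^ 2 * (s i 0 * s i 1 * r ^ 2)) := by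
      rw [Measure.restrict_apply_univ, hRdef, volume_rect, Fin.prod_univ_two,
        ← ENNReal.ofReal_mul (by positivity)]
      congr 1; ring
    rw [hvol] at h2
    -- (c w² e)^{3/2} ≤ vol^{1/2} ∫ se^{3/2}
    have h3 : ENNReal.ofReal (((2 ^ n)⁻¹ * kap) ^ (3 / 2 : ℝ)) *
        (ENNReal.ofReal (w ^ 2)) ^ (3 / 2 : ℝ) * en a g S i ^ (3 / 2 : ℝ) ≤
        ENNReal.ofReal (4 * (1 + A)) * ENNReal.ofReal ((s i 0 * s i 1 * r ^ 2) ^ (1 / 2 : ℝ)) *
          ∫⁻ x in R, se n w a v g S i x t ^ (3 / 2 : ℝ) := by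
      calc _ = (ENNReal.ofReal ((2 ^ n)⁻¹ * (kap * w ^ 2)) * en a g S i) ^ (3 / 2 : ℝ) := by
            rw [ENNReal.mul_rpow_of_nonneg _ _ (by norm_num), ← mul_assoc,
              ENNReal.ofReal_mul (p := (2 ^ n)⁻¹ * kap) (by positivity),
              ENNReal.mul_rpow_of_nonneg _ _ (by norm_num),
              ENNReal.ofReal_rpow_of_nonneg (p := (3 / 2 : ℝ)) (x := (2 ^ n)⁻¹ * kap)
                (by positivity) (by norm_num)]
        _ ≤ (∫⁻ x in R, se n w a v g S i x t) ^ (3 / 2 : ℝ) := by gcongr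
        _ ≤ _ := h2
        _ = _ := by
            congr 1
            rw [ENNReal.ofReal_rpow_of_nonneg (by positivity) (by norm_num),
              ← ENNReal.ofReal_mul (by positivity)]
            congr 1
            rw [Real.mul_rpow (by positivity) (by positivity)]
            congr 1
            rw [show 16 * (1 + A) ^ 2 = (4 * (1 + A)) ^ 2 by ring, ← Real.sqrt_eq_rpow,
              Real.sqrt_sq (by positivity)]
    have h4 : ∫⁻ x in R, ((ENNReal.ofReal (w ^ 2))⁻¹ * se n w a v g S i x t) ^ (3 / 2 : ℝ)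
        = ((ENNReal.ofReal (w ^ 2))⁻¹) ^ (3 / 2 : ℝ) *
          ∫⁻ x in R, se n w a v g S i x t ^ (3 / 2 : ℝ) := by
      rw [← lintegral_const_mul' _ _ (by
        apply ENNReal.rpow_ne_top_of_nonneg (by norm_num)
        exact ENNReal.inv_ne_top.2 hw2)]
      refine lintegral_congr fun x => ?_
      rw [ENNReal.mul_rpow_of_nonneg _ _ (by norm_num)]
    calc ENNReal.ofReal ((s i 0 * s i 1 * r ^ 2) ^ (-(1/2) : ℝ)) * en a g S i ^ (3 / 2 : ℝ)
        = (ENNReal.ofReal ((s i 0 * s i 1 * r ^ 2) ^ (-(1/2) : ℝ)) *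
            ENNReal.ofReal (((2 ^ n)⁻¹ * kap) ^ (-(3 / 2) : ℝ)) *
            ((ENNReal.ofReal (w ^ 2))⁻¹) ^ (3 / 2 : ℝ)) *
          (ENNReal.ofReal (((2 ^ n)⁻¹ * kap) ^ (3 / 2 : ℝ)) *
            (ENNReal.ofReal (w ^ 2)) ^ (3 / 2 : ℝ) * en a g S i ^ (3 / 2 : ℝ)) := by
          have e1 : ENNReal.ofReal (((2 ^ n)⁻¹ * kap) ^ (-(3 / 2) : ℝ)) *
              ENNReal.ofReal (((2 ^ n)⁻¹ * kap) ^ (3 / 2 : ℝ)) = 1 := by
            rw [← ENNReal.ofReal_mul (by positivity), ← Real.rpow_add (by positivity)]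
            norm_num
          have e2 : ((ENNReal.ofReal (w ^ 2))⁻¹) ^ (3 / 2 : ℝ) *
              (ENNReal.ofReal (w ^ 2)) ^ (3 / 2 : ℝ) = 1 := by
            rw [← ENNReal.mul_rpow_of_nonneg _ _ (by norm_num),
              ENNReal.inv_mul_cancel hw2 ENNReal.ofReal_ne_top, ENNReal.one_rpow]
          calc _ = ENNReal.ofReal ((s i 0 * s i 1 * r ^ 2) ^ (-(1/2) : ℝ)) *
                (ENNReal.ofReal (((2 ^ n)⁻¹ * kap) ^ (-(3 / 2) : ℝ)) *
              ENNReal.ofReal (((2 ^ n)⁻¹ * kap) ^ (3 / 2 : ℝ))) *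
                (((ENNReal.ofReal (w ^ 2))⁻¹) ^ (3 / 2 : ℝ) *
              (ENNReal.ofReal (w ^ 2)) ^ (3 / 2 : ℝ)) * en a g S i ^ (3 / 2 : ℝ) := by
                rw [e1, e2, mul_one, mul_one]
            _ = _ := by ring
      _ ≤ (ENNReal.ofReal ((s i 0 * s i 1 * r ^ 2) ^ (-(1/2) : ℝ)) *
            ENNReal.ofReal (((2 ^ n)⁻¹ * kap) ^ (-(3 / 2) : ℝ)) *
            ((ENNReal.ofReal (w ^ 2))⁻¹) ^ (3 / 2 : ℝ)) *
          (ENNReal.ofReal (4 * (1 + A)) * ENNReal.ofReal ((s i 0 * s i 1 * r ^ 2) ^ (1 / 2 : ℝ)) *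
          ∫⁻ x in R, se n w a v g S i x t ^ (3 / 2 : ℝ)) := by gcongr
      _ = ENNReal.ofReal (4 * (1 + A) * ((2 ^ n)⁻¹ * kap) ^ (-(3 / 2) : ℝ)) *
          (((ENNReal.ofReal (w ^ 2))⁻¹) ^ (3 / 2 : ℝ) *
          ∫⁻ x in R, se n w a v g S i x t ^ (3 / 2 : ℝ)) := by
          have e3 : ENNReal.ofReal ((s i 0 * s i 1 * r ^ 2) ^ (-(1/2) : ℝ)) *
              ENNReal.ofReal ((s i 0 * s i 1 * r ^ 2) ^ (1 / 2 : ℝ)) = 1 := by
            rw [← ENNReal.ofReal_mul (by positivity), ← Real.rpow_add (by positivity)]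
            norm_num
          calc _ = (ENNReal.ofReal ((s i 0 * s i 1 * r ^ 2) ^ (-(1/2) : ℝ)) *
              ENNReal.ofReal ((s i 0 * s i 1 * r ^ 2) ^ (1 / 2 : ℝ))) *
              (ENNReal.ofReal (4 * (1 + A)) * ENNReal.ofReal (((2 ^ n)⁻¹ * kap) ^ (-(3 / 2) : ℝ))) *
              (((ENNReal.ofReal (w ^ 2))⁻¹) ^ (3 / 2 : ℝ) *
              ∫⁻ x in R, se n w a v g S i x t ^ (3 / 2 : ℝ)) := by ring
            _ = _ := by rw [e3, one_mul, ← ENNReal.ofReal_mul (by positivity)]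
      _ ≤ _ := by
          rw [← h4]
          gcongr
          exact hR i
  calc ∑ i, ENNReal.ofReal ((s i 0 * s i 1 * r ^ 2) ^ (-(1/2) : ℝ)) * en a g S i ^ (3 / 2 : ℝ)
      ≤ ∑ i, ENNReal.ofReal (4 * (1 + A) * ((2 ^ n)⁻¹ * kap) ^ (-(3 / 2) : ℝ)) *
        ∫⁻ x in T, ((ENNReal.ofReal (w ^ 2))⁻¹ * se n w a v g S i x t) ^ (3 / 2 : ℝ) :=
        Finset.sum_le_sum fun i _ => one i
    _ = ENNReal.ofReal (4 * (1 + A) * ((2 ^ n)⁻¹ * kap) ^ (-(3 / 2) : ℝ)) *
        ∫⁻ x in T, ∑ i, ((ENNReal.ofReal (w ^ 2))⁻¹ * se n w a v g S i x t) ^ (3 / 2 : ℝ) := by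
        rw [← Finset.mul_sum, lintegral_finsetSum]
        intro i _
        exact ((measurable_se n w v S i t hs hc hg).const_mul _).pow_const _
    _ ≤ _ := by
        gcongr with x
        refine (sum_rpow_le _ _).trans ?_
        gcongr
        rw [← Finset.mul_sum]
        calc (ENNReal.ofReal (w ^ 2))⁻¹ * ∑ i, se n w a v g S i x t
            ≤ (ENNReal.ofReal (w ^ 2))⁻¹ * (ENNReal.ofReal (w ^ 2) * G x) := by
              gcongr; exact hG x
          _ = G x := by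
              rw [← mul_assoc, ENNReal.inv_mul_cancel hw2 ENNReal.ofReal_ne_top, one_mul]

end Crest.Agent.R138.Sup882
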