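import Crest.Agent.R138.ArgM2_163
import Crest.Agent.R138.MkZoom_779
import Crest.Agent.R138.MkPoint_627
import Crest.Agent.R138.NatTw_76
import Mathlib
import Crest.Agent.R138.TiltU2_51

-- ▼ part R138/ArgM3_163
section

/-!
# R138, TEXT I, L14 (helper163), part 3: the argmin lemma
-/

set_option autoImplicit false
set_option linter.unusedVariables false

open Finset Filter Topology

open Crest.Agent.R138.Ex926 (Base U ev_em exists_diag ev_ge)
open Crest.Agent.R138.Flag51 (Ln E2 cr dt InPlank)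
open Crest.Agent.R138.Tilt51 (DMax Near abs_cr_triangle abs_cr_swap)
open Crest.Agent.R138.Dp76 (Dense dpow_pos dpow_add dpow_le dpow_le_one)
open Crest.Agent.R138.Mk163

namespace Crest.Agent.R138.ArgM163

section core

variable {B : Base} {I : ℕ → Finset (ℕ × ℝ)} {L : ℕ → ℕ → Ln} {lev : ℕ → ℚ → ℕ}
    {r0 A : ℕ → ℝ} {q g : ℝ} {f : ℕ → ℚ → ℕ → ℤ → ℕ} {b : ℕ → ℚ → ℕ → Ln}
    {e : ℕ → ℚ → ℕ → E2} {w1 w2 : ℕ → ℚ → ℝ} {fl : ℕ → ℕ × ℝ → E2} {sc : ℕ → ℝ} {C0 : ℝ}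
    {R : ℝ → ℝ} {s θ C k0 : ℝ}

/-- exponent of the precision of level `v` relative to `sc` -/
noncomputable def bb (B : Base) (w1 w2 : ℕ → ℚ → ℝ) (sc : ℕ → ℝ) (n : ℕ) (v : ℚ) : ℝ :=
  Real.log (sc n / prec w1 w2 n v) / B.L n

theorem argmax_exists (u : ℚ) (N : ℕ) (w1 w2 : ℕ → ℚ → ℝ) :
    ∃ i ∈ range (N + 1), ∀ᶠ n in (U : Filter ℕ), ∀ l ∈ range (N + 1),
      prec w1 w2 n (mp u N l) ≤ prec w1 w2 n (mp u N i) := by
  refine ev_exists_finset _ (Eventually.of_forall fun n => ?_)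
  exact (range (N + 1)).exists_max_image (fun i => prec w1 w2 n (mp u N i)) ⟨0, by simp⟩

/-- a dense marked part without bad steps -/
theorem exists_good (hRef : HRef) (hT : HTilt q g C)
    (hM : Mk B I L lev r0 A q g (fun v => s * v) (fun v => θ * (1 - v)) f b e w1 w2) (hθ : 0 ≤ θ)
    {u : ℚ} (h0 : 0 ≤ u) (h1 : u < 1) {N : ℕ} (hN : 0 < N) {ε : ℝ} (hε : 0 < ε) :
    ∃ J : ℕ → Finset (ℕ × ℝ), Dense B J I ∧
      Mk B J L lev r0 A q g (fun v => s * v) (fun v => θ * (1 - v)) f b e w1 w2 ∧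
      ∀ᶠ n in (U : Filter ℕ), ∀ x ∈ J n, ¬ BadStep B lev f e w1 w2 C θ u N ε n x := by
  classical
  have h2 := negl_badStep hT hM hθ h0 h1 hN hε
  have h3 := Negl.compl h2
  obtain ⟨J, hJ, hMJ⟩ := hRef B I L lev r0 A q g _ _ f b e w1 w2 hM _ h3
  refine ⟨J, hJ.trans h3, hMJ, ?_⟩
  filter_upwards [hJ.1] with n hn x hx
  have := hn hx
  simp only [mem_filter] at this
  exact this.2

/-- Lemma A gives two incidences of one line in one cell whose frames are far apart -/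
theorem exists_far (hA : HRot q g s k0) {J : ℕ → Finset (ℕ × ℝ)} {τ : ℝ → ℝ}
    (hM : Mk B J L lev r0 A q g (fun v => s * v) τ f b e w1 w2)
    {a m : ℚ} (h0 : 0 ≤ a) (ham : a < m) (hm : m ≤ 1) :
    ∀ᶠ n in (U : Filter ℕ), ∃ x ∈ J n, ∃ y ∈ J n, y.1 = x.1 ∧
      zc (lev n a) y.2 = zc (lev n a) x.2 ∧
      prec w1 w2 n m * B.d n ^ (-(k0 * ((m : ℝ) - a))) <
        |cr (fr lev f e n m x) (fr lev f e n m y)| := by
  classical
  obtain ⟨γ, hγ, hneg⟩ := hA B J L lev r0 A τ f b e w1 w2 hM a m h0 ham hm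
  have hd := Negl.compl hneg
  filter_upwards [hd.nonempty hM.ne, ev_const_mul B (C := 2) (by norm_num) hγ] with n hn hc
  obtain ⟨x, hx⟩ := hn
  simp only [mem_filter, not_le] at hx
  obtain ⟨hxJ, hlt⟩ := hx
  by_contra hcon
  push Not at hcon
  have h1 : (own (J n) (lev n a) (lev n m) x).card ≤
      ((((J n).filter fun y => y.1 = x.1 ∧ zc (lev n a) y.2 = zc (lev n a) x.2 ∧
          |cr (fr lev f e n m x) (fr lev f e n m y)| ≤
            prec w1 w2 n m * B.d n ^ (-(k0 * ((m : ℝ) - a)))).image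
              fun y => zc (lev n m) y.2).card) := by
    refine card_le_card fun c hc => ?_
    unfold own at hc
    simp only [mem_image, mem_filter] at hc ⊢
    obtain ⟨y, ⟨hy, hy1, hy2⟩, hy3⟩ := hc
    exact ⟨y, ⟨hy, hy1, hy2, hcon x hxJ y hy hy1 hy2⟩, hy3⟩
  have h2 : ((own (J n) (lev n a) (lev n m) x).card : ℝ) ≤
      ((((J n).filter fun y => y.1 = x.1 ∧ zc (lev n a) y.2 = zc (lev n a) x.2 ∧
          |cr (fr lev f e n m x) (fr lev f e n m y)| ≤
            prec w1 w2 n m * B.d n ^ (-(k0 * ((m : ℝ) - a)))).image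
              fun y => zc (lev n m) y.2).card : ℝ) := by exact_mod_cast h1
  have h3 : (1 : ℝ) ≤ ((own (J n) (lev n a) (lev n m) x).card : ℝ) := by
    exact_mod_cast own_pos hxJ
  have h4 : ((own (J n) (lev n a) (lev n m) x).card : ℝ) <
      B.d n ^ γ * ((own (J n) (lev n a) (lev n m) x).card : ℝ) := by
    refine lt_of_le_of_lt h2 (lt_of_eq_of_lt ?_ hlt)
    convert rfl
  nlinarith

/-- **the argmin lemma.** -/
theorem argmin (hRef : HRef) (hT : HTilt q g C) (hA : HRot q g s k0)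
    (hM : Mk B I L lev r0 A q g (fun v => s * v) (fun v => θ * (1 - v)) f b e w1 w2)
    (hR : RotF B I lev fl sc C0 R)
    (hfl : ∀ᶠ n in (U : Filter ℕ), ∀ x ∈ I n, fl n x = fr lev f e n 1 x)
    (hsc : ∀ᶠ n in (U : Filter ℕ), prec w1 w2 n 1 = sc n * B.d n ^ C0)
    (hC : 0 ≤ C) (hθ : 0 ≤ θ) (hk0 : 0 < k0) {u : ℚ} (h0 : 0 ≤ u) (h1 : u < 1) {N : ℕ}
    (hN : 0 < N) :
    ∃ i ≤ N, k0 * (((mp u N i : ℚ) : ℝ) - u) ≤ c0 C θ u N ∧
      (∀ ε : ℝ, 0 < ε → ∀ᶠ n in (U : Filter ℕ),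
        bb B w1 w2 sc n (mp u N i) ≤ R u + c0 C θ u N + ε) ∧
      (∀ a : ℚ, 0 ≤ a → c0 C θ u N < k0 * (((mp u N i : ℚ) : ℝ) - a) → ∀ ε : ℝ, 0 < ε →
        ∀ᶠ n in (U : Filter ℕ),
          R a + k0 * (((mp u N i : ℚ) : ℝ) - a) - ε ≤ bb B w1 w2 sc n (mp u N i)) ∧
      (∀ ε : ℝ, 0 < ε → Negl B I fun n x =>
        prec w1 w2 n (mp u N i) * B.d n ^ (-(c0 C θ u N) - ε) <
          |cr (fl n x) (fr lev f e n (mp u N i) x)|) := by
  classical
  obtain ⟨i, hi, hmax⟩ := argmax_exists u N w1 w2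
  have hiN : i ≤ N := Nat.lt_succ_iff.1 (mem_range.1 hi)
  have hm0 : 0 ≤ mp u N i := h0.trans (mp_ge h1.le N i)
  have hm1 : mp u N i ≤ 1 := mp_le_one h1.le hN hiN
  set m : ℚ := mp u N i with hmdef
  set c : ℝ := c0 C θ u N with hcdef
  have hc : 0 ≤ c := c0_nonneg hC hθ h1.le N
  have hNR : (0 : ℝ) < N := by exact_mod_cast hN
  have hu1 : (u : ℝ) < 1 := by exact_mod_cast h1
  have hpm := prec_pos hM hm0 hm1
  have hpm0 : ∀ᶠ n in (U : Filter ℕ), 0 ≤ prec w1 w2 n m := hpm.mono fun n h => h.le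
  -- chains on a good family
  have chains : ∀ ε : ℝ, 0 < ε → ∃ J : ℕ → Finset (ℕ × ℝ), Dense B J I ∧
      Mk B J L lev r0 A q g (fun v => s * v) (fun v => θ * (1 - v)) f b e w1 w2 ∧
      (∀ᶠ n in (U : Filter ℕ), ∀ x ∈ J n, |cr (fr lev f e n u x) (fr lev f e n m x)| ≤
        N * (prec w1 w2 n m * B.d n ^ (-c - ε))) ∧
      (∀ᶠ n in (U : Filter ℕ), ∀ x ∈ J n, |cr (fr lev f e n m x) (fr lev f e n 1 x)| ≤
        N * (prec w1 w2 n m * B.d n ^ (-c - ε))) ∧
      (∀ᶠ n in (U : Filter ℕ), ∀ x ∈ J n, |cr (fr lev f e n u x) (fr lev f e n 1 x)| ≤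
        N * (prec w1 w2 n m * B.d n ^ (-c - ε))) := by
    intro ε hε
    obtain ⟨J, hJ, hMJ, hg⟩ := exists_good hRef hT hM hθ h0 h1 hN hε
    have hP : ∀ i' j', j' ≤ N → ∀ᶠ n in (U : Filter ℕ), ∀ l, i' ≤ l → l ≤ j' →
        prec w1 w2 n (mp u N l) ≤ prec w1 w2 n m := by
      intro i' j' hj'
      filter_upwards [hmax] with n hn l _ hl
      exact hn l (mem_range.2 (by omega))
    refine ⟨J, hJ, hMJ, ?_, ?_, ?_⟩
    · have := chain_mesh (C := C) (θ := θ) hMJ h0 h1 hN hg hpm0 (Nat.zero_le i) hiN (hP 0 i hiN)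
      rwa [mp_zero] at this
    · have := chain_mesh (C := C) (θ := θ) hMJ h0 h1 hN hg hpm0 hiN le_rfl (hP i N le_rfl)
      rwa [mp_last u hN] at this
    · have := chain_mesh (C := C) (θ := θ) hMJ h0 h1 hN hg hpm0 (Nat.zero_le N) le_rfl
        (hP 0 N le_rfl)
      rwa [mp_zero, mp_last u hN] at this
  refine ⟨i, hiN, ?_, ?_, ?_, ?_⟩
  · -- (b)
    by_contra hcon
    push Not at hcon
    have hum : u < m := by
      by_contra h
      have h' : (m : ℝ) ≤ u := by exact_mod_cast (not_lt.1 h)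
      have : k0 * ((m : ℝ) - u) ≤ 0 := mul_nonpos_of_nonneg_of_nonpos hk0.le (by linarith)
      linarith
    set δ : ℝ := k0 * ((m : ℝ) - u) - c with hδ
    have hδ0 : 0 < δ := by rw [hδ]; linarith
    obtain ⟨J, hJ, hMJ, h2, -, -⟩ := chains (δ / 2) (by positivity)
    have hfar := exists_far hA hMJ h0 hum hm1
    obtain ⟨n, hn1, hn2, hn3, hn4, hn5, hn6⟩ := (hfar.and (h2.and (hpm.and
      ((ev_const_mul B (C := 2 * N) (by positivity) (η := δ / 2) (by positivity)).and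
        ((unit_fr hMJ h0 h1.le).and (unit_fr hMJ hm0 hm1)))))).exists
    obtain ⟨x, hx, y, hy, hxy1, hxy2, hbig⟩ := hn1
    have e1 := hn2 x hx
    have e2 := hn2 y hy
    have e3 := abs_cr_triangle (hn6 x hx) (hn5 x hx) (hn6 y hy)
    rw [← fr_congr (lev := lev) (f := f) (e := e) (n := n) (v := u) hxy1 hxy2] at e3
    rw [abs_cr_swap] at e1
    have e4 : |cr (fr lev f e n m x) (fr lev f e n u y)| ≤
        N * (prec w1 w2 n m * B.d n ^ (-c - δ / 2)) := by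
      rw [fr_congr (lev := lev) (f := f) (e := e) (n := n) (v := u) hxy1 hxy2]
      exact e1
    have e5 : B.d n ^ (-c - δ / 2) = B.d n ^ (δ / 2) * B.d n ^ (-(k0 * ((m : ℝ) - u))) := by
      rw [← dpow_add]; congr 1; rw [hδ]; ring
    rw [e5] at e2 e4
    have hp := dpow_pos B n (-(k0 * ((m : ℝ) - u)))
    have e6 : (2 * N * B.d n ^ (δ / 2)) * (prec w1 w2 n m * B.d n ^ (-(k0 * ((m : ℝ) - u)))) ≤
        1 * (prec w1 w2 n m * B.d n ^ (-(k0 * ((m : ℝ) - u)))) :=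
      mul_le_mul_of_nonneg_right hn4 (mul_nonneg hn3.le hp.le)
    nlinarith
  · -- (c)
    intro ε hε
    rcases ev_em (fun n => bb B w1 w2 sc n m ≤ R u + c + ε) with h | h
    · exact h
    exfalso
    obtain ⟨J, hJ, hMJ, -, -, h2⟩ := chains (ε / 4) (by positivity)
    have hRJ := rotF_dense hR hM hMJ hJ
    -- the exponent is at most `C0`
    have hbC : ∀ᶠ n in (U : Filter ℕ), bb B w1 w2 sc n m ≤ C0 := by
      filter_upwards [hmax, hsc, hpm] with n a1 a2 a3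
      have a4 := a1 N (mem_range.2 (Nat.lt_succ_self N))
      rw [mp_last u hN, a2] at a4
      have hS := hR.scpos n
      have a5 := eq_exp (B := B) (n := n) hS a3
      have a6 : sc n * B.d n ^ C0 ≤ sc n * B.d n ^ (bb B w1 w2 sc n m) := by
        unfold bb; rw [← a5]; exact a4
      have a7 := le_of_mul_le_mul_left a6 hS
      have a8 := exp_le_of B n (C := 1) one_pos (x := C0) (y := bb B w1 w2 sc n m) (by linarith)
      simpa using a8
    have hRC : R u + c + ε < C0 := by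
      obtain ⟨n, a, b⟩ := (h.and hbC).exists
      push Not at a
      linarith
    obtain ⟨γ, hγ, htw⟩ := hRJ.tw u h0 h1 (R u + ε / 2) (by linarith) (by linarith)
    obtain ⟨n, hn1, hn2, hn3, hn4, hn5, hn6, hn7, hn8, hn9, hn10, hn11⟩ := (htw.and (h2.and
      (hpm.and ((ev_const_mul B (C := 2 * N) (by positivity) (η := ε / 4) (by positivity)).and
        ((unit_fr hMJ h0 h1.le).and ((unit_fr hMJ zero_le_one le_rfl).and
          (h.and (hMJ.ne.and (hJ.1.and (hfl.and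
            (ev_const_mul B (C := 2) (by norm_num) hγ))))))))))).exists
    push Not at hn7
    obtain ⟨x, hx⟩ := hn8
    have hS := hR.scpos n
    have hclose : ∀ y ∈ J n, y.1 = x.1 → zc (lev n u) y.2 = zc (lev n u) x.2 →
        |cr (fl n x) (fl n y)| ≤ sc n * B.d n ^ (R u + ε / 2) := by
      intro y hy hxy1 hxy2
      rw [hn10 x (hn9 hx), hn10 y (hn9 hy)]
      have e1 := hn2 x hx
      have e2 := hn2 y hy
      have e3 := abs_cr_triangle (hn6 x hx) (hn5 x hx) (hn6 y hy)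
      rw [abs_cr_swap] at e1
      rw [fr_congr (lev := lev) (f := f) (e := e) (n := n) (v := u) hxy1 hxy2] at e2
      have e4 : prec w1 w2 n m ≤ sc n * B.d n ^ (R u + c + ε) := by
        have a5 := eq_exp (B := B) (n := n) hS hn3
        rw [a5]
        refine mul_le_mul_of_nonneg_left (dpow_le B n ?_) hS.le
        exact hn7.le
      have hD := dpow_pos B n (-c - ε / 4)
      have e5 : prec w1 w2 n m * B.d n ^ (-c - ε / 4) ≤
          sc n * (B.d n ^ (ε / 4) * B.d n ^ (R u + ε / 2)) := by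
        calc _ ≤ sc n * B.d n ^ (R u + c + ε) * B.d n ^ (-c - ε / 4) :=
              mul_le_mul_of_nonneg_right e4 hD.le
          _ = _ := by rw [mul_assoc, ← dpow_add, ← dpow_add]; congr 2; ring
      have hp := dpow_pos B n (R u + ε / 2)
      have e6 : (2 * N * B.d n ^ (ε / 4)) * (sc n * B.d n ^ (R u + ε / 2)) ≤
          1 * (sc n * B.d n ^ (R u + ε / 2)) :=
        mul_le_mul_of_nonneg_right hn4 (mul_nonneg hS.le hp.le)
      have e7 := mul_le_mul_of_nonneg_left e5 (mul_nonneg (by norm_num : (0:ℝ) ≤ 2) hNR.le)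
      nlinarith
    have hcnt := hn1 x hx
    have h3 : ((own (J n) (lev n u) (lev n 1) x).card : ℝ) ≤
        ((((J n).filter fun y => y.1 = x.1 ∧ zc (lev n u) y.2 = zc (lev n u) x.2 ∧
          |cr (fl n x) (fl n y)| ≤ sc n * B.d n ^ (R u + ε / 2)).card : ℕ) : ℝ) := by
      have : (own (J n) (lev n u) (lev n 1) x).card ≤
          ((J n).filter fun y => y.1 = x.1 ∧ zc (lev n u) y.2 = zc (lev n u) x.2 ∧
          |cr (fl n x) (fl n y)| ≤ sc n * B.d n ^ (R u + ε / 2)).card := by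
        unfold own
        refine card_image_le.trans (card_le_card fun y hy => ?_)
        simp only [mem_filter] at hy ⊢
        exact ⟨hy.1, hy.2.1, hy.2.2, hclose y hy.1 hy.2.1 hy.2.2⟩
      exact_mod_cast this
    have h4 : (1 : ℝ) ≤ ((own (J n) (lev n u) (lev n 1) x).card : ℝ) := by
      exact_mod_cast own_pos hx
    have h5 : ((own (J n) (lev n u) (lev n 1) x).card : ℝ) ≤
        B.d n ^ γ * ((own (J n) (lev n u) (lev n 1) x).card : ℝ) := by
      refine h3.trans (le_trans (le_of_eq ?_) hcnt)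
      convert rfl
    nlinarith
  · -- (d)
    intro a ha hca ε hε
    set δ : ℝ := k0 * ((m : ℝ) - a) - c with hδ
    have hδ0 : 0 < δ := by rw [hδ]; linarith
    have ham : a < m := by
      by_contra h
      have h' : (m : ℝ) ≤ a := by exact_mod_cast (not_lt.1 h)
      have : k0 * ((m : ℝ) - a) ≤ 0 := mul_nonpos_of_nonneg_of_nonpos hk0.le (by linarith)
      linarith
    obtain ⟨J, hJ, hMJ, -, h2, -⟩ := chains (δ / 2) (by positivity)
    have hfar := exists_far hA hMJ ha ham hm1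
    filter_upwards [hfar, h2, hpm, ev_const_mul B (C := 4 * N) (by positivity) (η := δ / 2)
      (by positivity), unit_fr hMJ hm0 hm1, unit_fr hMJ zero_le_one le_rfl, hJ.1, hfl,
      hR.rot a ha (ham.le.trans hm1) (ε / 2) (by positivity),
      ev_log_div B (Real.log 2) (η := ε / 2) (by positivity)]
      with n hn1 hn2 hn3 hn4 hn5 hn6 hn7 hn8 hn9 hn10
    obtain ⟨x, hx, y, hy, hxy1, hxy2, hbig⟩ := hn1
    have hS := hR.scpos n
    have e1 := hn2 x hx
    have e2 := hn2 y hy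
    have e3 := hn9 x (hn7 hx) y (hn7 hy) hxy1 hxy2
    rw [hn8 x (hn7 hx), hn8 y (hn7 hy)] at e3
    have e4 := abs_cr_triangle (hn5 x hx) (hn6 x hx) (hn6 y hy)
    have e5 := abs_cr_triangle (hn5 x hx) (hn6 y hy) (hn5 y hy)
    rw [abs_cr_swap] at e2
    have e6 : B.d n ^ (-c - δ / 2) = B.d n ^ (δ / 2) * B.d n ^ (-(k0 * ((m : ℝ) - a))) := by
      rw [← dpow_add]; congr 1; rw [hδ]; ring
    rw [e6] at e1 e2
    have hp := dpow_pos B n (-(k0 * ((m : ℝ) - a)))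
    have e7 : (4 * N * B.d n ^ (δ / 2)) * (prec w1 w2 n m * B.d n ^ (-(k0 * ((m : ℝ) - a)))) ≤
        1 * (prec w1 w2 n m * B.d n ^ (-(k0 * ((m : ℝ) - a)))) :=
      mul_le_mul_of_nonneg_right hn4 (mul_nonneg hn3.le hp.le)
    have e8 : prec w1 w2 n m * B.d n ^ (-(k0 * ((m : ℝ) - a))) ≤
        2 * (sc n * B.d n ^ (R a - ε / 2)) := by nlinarith
    have e9 : sc n * B.d n ^ (bb B w1 w2 sc n m + -(k0 * ((m : ℝ) - a))) ≤
        sc n * (2 * B.d n ^ (R a - ε / 2)) := by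
      rw [dpow_add, ← mul_assoc]
      unfold bb
      rw [← eq_exp (B := B) (n := n) hS hn3]
      linarith
    have e10 := exp_le_of B n (C := 2) (by norm_num) (le_of_mul_le_mul_left e9 hS)
    linarith
  · -- (e)
    intro ε hε
    have h2 := negl_badStep (B := B) (I := I) (w1 := w1) (w2 := w2) hT hM hθ h0 h1 hN
      (ε := ε / 2) (by positivity)
    have hg : ∀ᶠ n in (U : Filter ℕ), ∀ x ∈ ((fun n => (I n).filter fun x =>
        ¬ BadStep B lev f e w1 w2 C θ u N (ε / 2) n x) : ℕ → Finset (ℕ × ℝ)) n,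
        ¬ BadStep B lev f e w1 w2 C θ u N (ε / 2) n x := by
      refine Eventually.of_forall fun n x hx => ?_
      simp only [mem_filter] at hx
      exact hx.2
    have hu : ∀ᶠ n in (U : Filter ℕ), ∀ l ∈ range (N + 1), ∀ x ∈ I n,
        dt (fr lev f e n (mp u N l) x) (fr lev f e n (mp u N l) x) = 1 := by
      rw [Filter.eventually_all_finset]
      intro l hl
      exact unit_fr hM (h0.trans (mp_ge h1.le N l))
        (mp_le_one h1.le hN (Nat.lt_succ_iff.1 (mem_range.1 hl)))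
    refine Negl.mono h2 ?_
    filter_upwards [hu, hmax, hpm, hfl, ev_const_mul B (C := N) (by positivity) (η := ε / 2)
      (by positivity)] with n a1 a2 a3 a4 a5 x hx hbig
    by_contra hcon
    have hD := dpow_pos B n (-c - ε / 2)
    have h3 := chain_le (e := fun l => fr lev f e n (mp u N l) x) hiN
      (fun l _ hl => a1 l (mem_range.2 (by omega)) x hx)
      (D := prec w1 w2 n m * B.d n ^ (-c - ε / 2)) (by
        intro l hl1 hl2
        by_contra hcon2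
        push Not at hcon2
        refine hcon ⟨l, mem_range.2 (by omega), le_trans ?_ hcon2.le⟩
        exact mul_le_mul_of_nonneg_right (max_le (a2 l (mem_range.2 (by omega)))
          (a2 (l + 1) (mem_range.2 (by omega)))) hD.le)
    rw [mp_last u hN, ← a4 x hx, abs_cr_swap] at h3
    have h4 : ((N - i : ℕ) : ℝ) ≤ N := by exact_mod_cast Nat.sub_le N i
    have h5 := h3.trans (mul_le_mul_of_nonneg_right h4 (mul_nonneg a3.le hD.le))
    have e6 : B.d n ^ (-c - ε / 2) = B.d n ^ (ε / 2) * B.d n ^ (-c - ε) := by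
      rw [← dpow_add]; congr 1; ring
    rw [e6] at h5
    have hp := dpow_pos B n (-c - ε)
    have e7 : (N * B.d n ^ (ε / 2)) * (prec w1 w2 n m * B.d n ^ (-c - ε)) ≤
        1 * (prec w1 w2 n m * B.d n ^ (-c - ε)) :=
      mul_le_mul_of_nonneg_right a5 (mul_nonneg a3.le hp.le)
    nlinarith

end core

end Crest.Agent.R138.ArgM163
end

-- ▼ part R138/ArgM4_163
section

/-!
# R138, TEXT I, L14 (helper163), part 4: stages of a zoom at a differentiability point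
-/

set_option autoImplicit false
set_option linter.unusedVariables false

open Finset Filter Topology MeasureTheory

open Crest.Agent.R138.Ex926 (Base U ev_em exists_diag ev_ge)
open Crest.Agent.R138.Flag51 (Ln E2 cr dt InPlank)
open Crest.Agent.R138.Tilt51 (DMax Near abs_cr_triangle abs_cr_swap)
open Crest.Agent.R138.Dp76 (Dense dpow_pos dpow_add dpow_le dpow_le_one)
open Crest.Agent.R138.Mk163

namespace Crest.Agent.R138.ArgM163

/-- window lengths -/
def hh (K j : ℕ) : ℚ := 1 / (j + K + 1)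

theorem hh_pos (K j : ℕ) : 0 < hh K j := by unfold hh; positivity

theorem hh_le_one (K j : ℕ) : hh K j ≤ 1 := by
  unfold hh
  rw [div_le_one (by positivity)]
  have : (0 : ℚ) ≤ j := Nat.cast_nonneg _
  have : (0 : ℚ) ≤ K := Nat.cast_nonneg _
  linarith

theorem hh_le (K j : ℕ) : (hh K j : ℝ) ≤ 1 / (K + 1) := by
  unfold hh
  push_cast
  apply one_div_le_one_div_of_le (by positivity)
  have : (0 : ℝ) ≤ j := Nat.cast_nonneg _
  linarith

theorem hh_tendsto (K : ℕ) : Tendsto (fun j => (hh K j : ℝ)) atTop (𝓝 0) := by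
  have h1 : Tendsto (fun j : ℕ => 1 / ((j : ℝ) + 1)) atTop (𝓝 0) :=
    tendsto_one_div_add_atTop_nhds_zero_nat
  refine squeeze_zero (fun j => ?_) (fun j => ?_) h1
  · exact_mod_cast (hh_pos K j).le
  · unfold hh
    push_cast
    apply one_div_le_one_div_of_le (by positivity)
    have : (0 : ℝ) ≤ K := Nat.cast_nonneg _
    linarith

/-- number of mesh steps -/
def NN (K j : ℕ) : ℕ := (j + 1) * (j + K + 1)

theorem NN_pos (K j : ℕ) : 0 < NN K j := by unfold NN; positivity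

theorem one_div_NN (K j : ℕ) : (1 : ℝ) / NN K j = (hh K j : ℝ) / (j + 1) := by
  unfold NN hh; push_cast; rw [div_div]; congr 1; ring

/-- left ends of the windows -/
theorem exists_uu (v1 : ℝ) (K : ℕ) : ∃ u : ℕ → ℚ, ∀ j, v1 ≤ u j ∧ (u j : ℝ) ≤ v1 + hh K j / (j + 1) := by
  have : ∀ j : ℕ, ∃ u : ℚ, v1 ≤ u ∧ (u : ℝ) ≤ v1 + hh K j / (j + 1) := by
    intro j
    have hp : (0 : ℝ) < (hh K j : ℝ) / (j + 1) := by
      have : (0 : ℝ) < (hh K j : ℝ) := by exact_mod_cast hh_pos K j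
      positivity
    obtain ⟨u, h1, h2⟩ := exists_rat_btwn (show v1 < v1 + (hh K j : ℝ) / (j + 1) by linarith)
    exact ⟨u, h1.le, h2.le⟩
  exact ⟨fun j => (this j).choose, fun j => (this j).choose_spec⟩

/-- differentiability in window form -/
theorem deriv_window {R : ℝ → ℝ} {k v1 : ℝ} (h : HasDerivAt R k v1) (K : ℕ) {D : ℝ} (hD : 0 < D) :
    ∀ ε : ℝ, 0 < ε → ∀ᶠ j in (atTop : Filter ℕ), ∀ t : ℝ, |t - v1| ≤ D * hh K j →
      |R t - R v1 - k * (t - v1)| ≤ ε * hh K j := by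
  intro ε hε
  rw [hasDerivAt_iff_isLittleO] at h
  have h1 := h.def (c := ε / D) (by positivity)
  obtain ⟨δ, hδ, h2⟩ := Metric.eventually_nhds_iff.1 h1
  have h3 : Tendsto (fun j => D * (hh K j : ℝ)) atTop (𝓝 0) := by
    have := (hh_tendsto K).const_mul D
    simpa using this
  filter_upwards [h3.eventually (gt_mem_nhds hδ)] with j hj t ht
  have h4 := h2 (y := t) (by rw [Real.dist_eq]; exact lt_of_le_of_lt ht hj)
  simp only [Real.norm_eq_abs, smul_eq_mul] at h4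
  have e : R t - R v1 - k * (t - v1) = R t - R v1 - (t - v1) * k := by ring
  rw [e]
  refine h4.trans ?_
  calc ε / D * |t - v1| ≤ ε / D * (D * hh K j) := mul_le_mul_of_nonneg_left ht (by positivity)
    _ = ε * hh K j := by field_simp

/-- a monotone function has a point of differentiability in the open interval -/
theorem exists_diff {R : ℝ → ℝ} (h : MonotoneOn R (Set.Icc 0 1)) :
    ∃ v k : ℝ, 0 < v ∧ v < 1 ∧ HasDerivAt R k v := by
  have h1 := h.ae_differentiableWithinAt_of_mem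
  have h2 : volume (Set.Ioo (0 : ℝ) 1) ≠ 0 := by simp
  have h3 : ∃ v ∈ Set.Ioo (0 : ℝ) 1, v ∈ Set.Icc (0 : ℝ) 1 → DifferentiableWithinAt ℝ R (Set.Icc 0 1) v := by
    by_contra hcon
    push Not at hcon
    apply h2
    refine measure_mono_null (fun v hv => ?_) (ae_iff.1 h1)
    simp only [Set.mem_setOf_eq]
    intro hcon2
    exact (hcon v hv).2 (hcon2 (hcon v hv).1)
  obtain ⟨v, hv, hd⟩ := h3
  have hd' := hd ⟨hv.1.le, hv.2.le⟩
  have h4 : DifferentiableAt ℝ R v := hd'.differentiableAt (Icc_mem_nhds hv.1 hv.2)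
  exact ⟨v, deriv R v, hv.1, hv.2, h4.hasDerivAt⟩

/-- the slope is bounded below -/
theorem le_slope {R : ℝ → ℝ} {k v1 k0 : ℝ} (h : HasDerivAt R k v1) (hv0 : 0 < v1) (hv1 : v1 < 1)
    (hs : ∀ a u : ℚ, 0 ≤ a → a < u → u < 1 → R a + k0 * ((u : ℝ) - a) ≤ R u) : k0 ≤ k := by
  refine le_of_forall_pos_le_add fun ε hε => ?_
  rw [hasDerivAt_iff_isLittleO] at h
  have h1 := h.def (c := ε) hε
  obtain ⟨δ, hδ, h2⟩ := Metric.eventually_nhds_iff.1 h1
  obtain ⟨a, ha1, ha2⟩ := exists_rat_btwn (show max 0 (v1 - δ / 2) < v1 by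
    rw [max_lt_iff]; constructor <;> linarith)
  obtain ⟨u, hu1, hu2⟩ := exists_rat_btwn (show v1 < min 1 (v1 + δ / 2) by
    rw [lt_min_iff]; constructor <;> linarith)
  rw [max_lt_iff] at ha1
  rw [lt_min_iff] at hu2
  have ea := h2 (y := a) (by rw [Real.dist_eq, abs_lt]; constructor <;> linarith)
  have eu := h2 (y := u) (by rw [Real.dist_eq, abs_lt]; constructor <;> linarith)
  simp only [Real.norm_eq_abs, smul_eq_mul] at ea eu
  rw [abs_of_neg (show (a : ℝ) - v1 < 0 by linarith)] at ea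
  rw [abs_of_pos (show (0 : ℝ) < (u : ℝ) - v1 by linarith)] at eu
  have hau : (a : ℝ) < u := by linarith
  have h3 := hs a u (by exact_mod_cast ha1.1.le) (by exact_mod_cast hau) (by exact_mod_cast hu2.1)
  have h4 := abs_le.1 ea
  have h5 := abs_le.1 eu
  have h6 : k0 * ((u : ℝ) - a) ≤ (k + ε) * ((u : ℝ) - a) := by
    have := h4.1
    have := h5.2
    nlinarith
  exact le_of_mul_le_mul_right h6 (by linarith)

end Crest.Agent.R138.ArgM163
end

-- ▼ part R138/ArgM5_163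
section

/-!
# R138, TEXT I, L14 (helper163), part 5: slope of the rotation function, stages of the second zoom
-/

set_option autoImplicit false
set_option linter.unusedVariables false

open Finset Filter Topology MeasureTheory

open Crest.Agent.R138.Ex926 (Base U ev_em exists_diag ev_ge)
open Crest.Agent.R138.Flag51 (Ln E2 cr dt InPlank)
open Crest.Agent.R138.Tilt51 (DMax Near abs_cr_triangle abs_cr_swap)
open Crest.Agent.R138.Dp76 (Dense dpow_pos dpow_add dpow_le dpow_le_one)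
open Crest.Agent.R138.Mk163

namespace Crest.Agent.R138.ArgM163

section stages

variable {B : Base} {I : ℕ → Finset (ℕ × ℝ)} {L : ℕ → ℕ → Ln} {lev : ℕ → ℚ → ℕ}
    {r0 A : ℕ → ℝ} {q g : ℝ} {f : ℕ → ℚ → ℕ → ℤ → ℕ} {b : ℕ → ℚ → ℕ → Ln}
    {e : ℕ → ℚ → ℕ → E2} {w1 w2 : ℕ → ℚ → ℝ} {fl : ℕ → ℕ × ℝ → E2} {sc : ℕ → ℝ} {C0 : ℝ}
    {R : ℝ → ℝ} {s θ C k0 : ℝ}

theorem c0_le (hC : 0 ≤ C) (hθ : 0 ≤ θ) {u : ℚ} (h0 : 0 ≤ u) {N : ℕ} (hN : 0 < N) :
    c0 C θ u N ≤ C * (1 + θ) * (1 / N) := by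
  unfold c0
  have h1 : (0 : ℝ) ≤ u := by exact_mod_cast h0
  have hN' : (0 : ℝ) < N := by exact_mod_cast hN
  have h2 : (1 - (u : ℝ)) / N ≤ 1 / N := div_le_div_of_nonneg_right (by linarith) hN'.le
  exact mul_le_mul_of_nonneg_left h2 (by positivity)

/-- the rotation function grows at least linearly -/
theorem slope (hRef : HRef) (hT : HTilt q g C) (hA : HRot q g s k0)
    (hM : Mk B I L lev r0 A q g (fun v => s * v) (fun v => θ * (1 - v)) f b e w1 w2)
    (hR : RotF B I lev fl sc C0 R)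
    (hfl : ∀ᶠ n in (U : Filter ℕ), ∀ x ∈ I n, fl n x = fr lev f e n 1 x)
    (hsc : ∀ᶠ n in (U : Filter ℕ), prec w1 w2 n 1 = sc n * B.d n ^ C0)
    (hC : 0 ≤ C) (hθ : 0 ≤ θ) (hk0 : 0 < k0) {a u : ℚ} (h0 : 0 ≤ a) (hau : a < u) (h1 : u < 1) :
    R a + k0 * ((u : ℝ) - a) ≤ R u := by
  refine le_of_forall_pos_le_add fun ε hε => ?_
  have hau' : (0 : ℝ) < (u : ℝ) - a := by
    have : (a : ℝ) < u := by exact_mod_cast hau
    linarith
  have hμ : 0 < min (ε / 4) (k0 * ((u : ℝ) - a) / 2) := lt_min (by positivity) (by positivity)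
  obtain ⟨N, hN⟩ := exists_nat_gt (C * (1 + θ) / min (ε / 4) (k0 * ((u : ℝ) - a) / 2))
  have hNpos : 0 < N := by
    rcases Nat.eq_zero_or_pos N with h | h
    · exfalso
      rw [h] at hN
      have : 0 ≤ C * (1 + θ) / min (ε / 4) (k0 * ((u : ℝ) - a) / 2) := by positivity
      simp only [Nat.cast_zero] at hN
      linarith
    · exact h
  have hN' : (0 : ℝ) < N := by exact_mod_cast hNpos
  have hcc : c0 C θ u N ≤ min (ε / 4) (k0 * ((u : ℝ) - a) / 2) := by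
    refine (c0_le hC hθ (h0.trans hau.le) hNpos).trans ?_
    rw [div_lt_iff₀ hμ] at hN
    rw [mul_one_div, div_le_iff₀ hN']
    linarith
  have hc1 : c0 C θ u N ≤ ε / 4 := hcc.trans (min_le_left _ _)
  have hc2 : c0 C θ u N ≤ k0 * ((u : ℝ) - a) / 2 := hcc.trans (min_le_right _ _)
  obtain ⟨i, hi, h2, h3, h4, -⟩ := argmin hRef hT hA hM hR hfl hsc hC hθ hk0 (h0.trans hau.le) h1
    hNpos
  have hmu : (u : ℝ) ≤ (mp u N i : ℚ) := by exact_mod_cast mp_ge h1.le N i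
  have h5 := h4 a h0 (by nlinarith) (ε / 4) (by positivity)
  obtain ⟨n, hn1, hn2⟩ := ((h3 (ε / 4) (by positivity)).and h5).exists
  nlinarith

/-- stage data of the second zoom -/
structure Stg (B : Base) (I : ℕ → Finset (ℕ × ℝ)) (lev : ℕ → ℚ → ℕ) (f : ℕ → ℚ → ℕ → ℤ → ℕ)
    (e : ℕ → ℚ → ℕ → E2) (w1 w2 : ℕ → ℚ → ℝ) (fl : ℕ → ℕ × ℝ → E2) (sc : ℕ → ℝ) (R : ℝ → ℝ)
    (D : ℝ) (Uu m : ℚ) (ee : ℝ) : Prop where
  U0 : 0 ≤ Uu
  U1 : Uu < 1
  mU : Uu ≤ m
  m1 : m ≤ 1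
  mD : (m : ℝ) ≤ Uu + D * ee
  up : ∀ ε : ℝ, 0 < ε → ∀ᶠ n in (U : Filter ℕ), bb B w1 w2 sc n m ≤ R Uu + D * ee + ε
  lo : ∃ a : ℚ, 0 ≤ a ∧ a ≤ Uu ∧ (Uu : ℝ) - D * ee ≤ a ∧ ∀ ε : ℝ, 0 < ε →
    ∀ᶠ n in (U : Filter ℕ), R a - ε ≤ bb B w1 w2 sc n m
  cl : ∀ ε : ℝ, 0 < ε → Negl B I fun n x =>
    prec w1 w2 n m * B.d n ^ (-(D * ee) - ε) < |cr (fl n x) (fr lev f e n m x)|

theorem exists_stg (hRef : HRef) (hT : HTilt q g C) (hA : HRot q g s k0)
    (hM : Mk B I L lev r0 A q g (fun v => s * v) (fun v => θ * (1 - v)) f b e w1 w2)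
    (hR : RotF B I lev fl sc C0 R)
    (hfl : ∀ᶠ n in (U : Filter ℕ), ∀ x ∈ I n, fl n x = fr lev f e n 1 x)
    (hsc : ∀ᶠ n in (U : Filter ℕ), prec w1 w2 n 1 = sc n * B.d n ^ C0)
    (hC : 0 ≤ C) (hθ : 0 ≤ θ) (hk0 : 0 < k0) {K1 : ℚ} (hK1 : C * (1 + θ) < k0 * K1)
    {D : ℝ} (hD1 : C * (1 + θ) ≤ D) (hD2 : (K1 : ℝ) ≤ D)
    {u : ℚ} (h1 : u < 1) {ee : ℚ} (hee : 0 < ee) (h0 : 0 ≤ u - K1 * ee)
    {N : ℕ} (hN : 0 < N) (hNe : (1 : ℝ) / N = ee) :
    ∃ m : ℚ, Stg B I lev f e w1 w2 fl sc R D u m ee := by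
  have heeR : (0 : ℝ) < (ee : ℝ) := by exact_mod_cast hee
  have hCC : 0 ≤ C * (1 + θ) := by positivity
  have hK1' : (0 : ℝ) < K1 := by
    by_contra h
    have := mul_nonpos_of_nonneg_of_nonpos hk0.le (not_lt.1 h)
    linarith
  have hK1q : (0 : ℚ) < K1 := by exact_mod_cast hK1'
  have hu0 : 0 ≤ u := by
    have : 0 < K1 * ee := mul_pos hK1q hee
    linarith
  have hc : c0 C θ u N ≤ C * (1 + θ) * ee := by
    have := c0_le hC hθ hu0 hN
    rwa [hNe] at this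
  have hcD : c0 C θ u N ≤ D * ee := hc.trans (mul_le_mul_of_nonneg_right hD1 heeR.le)
  obtain ⟨i, hi, h2, h3, h4, h5⟩ := argmin hRef hT hA hM hR hfl hsc hC hθ hk0 hu0 h1 hN
  have hmu : u ≤ mp u N i := mp_ge h1.le N i
  have hmuR : (u : ℝ) ≤ (mp u N i : ℚ) := by exact_mod_cast hmu
  have hm1 : mp u N i ≤ 1 := mp_le_one h1.le hN hi
  refine ⟨mp u N i, hu0, h1, hmu, hm1, ?_, ?_, ?_, ?_⟩
  · have h6 : k0 * (((mp u N i : ℚ) : ℝ) - u) ≤ k0 * (K1 * ee) := by
      refine h2.trans (hc.trans ?_)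
      have := mul_le_mul_of_nonneg_right hK1.le heeR.le
      linarith
    have h7 := le_of_mul_le_mul_left h6 hk0
    have h8 : (K1 : ℝ) * ee ≤ D * ee := mul_le_mul_of_nonneg_right hD2 heeR.le
    linarith
  · intro ε hε
    filter_upwards [h3 ε hε] with n hn
    linarith
  · refine ⟨u - K1 * ee, h0, ?_, ?_, ?_⟩
    · have : 0 < K1 * ee := mul_pos hK1q hee
      linarith
    · push_cast
      have h8 : (K1 : ℝ) * ee ≤ D * ee := mul_le_mul_of_nonneg_right hD2 heeR.le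
      linarith
    · intro ε hε
      have h9 : c0 C θ u N < k0 * (((mp u N i : ℚ) : ℝ) - (u - K1 * ee : ℚ)) := by
        push_cast
        refine lt_of_le_of_lt hc ?_
        have h10 : C * (1 + θ) * ee < k0 * K1 * ee := mul_lt_mul_of_pos_right hK1 heeR
        nlinarith
      filter_upwards [h4 (u - K1 * ee) h0 h9 ε hε] with n hn
      have h11 : 0 ≤ k0 * (((mp u N i : ℚ) : ℝ) - (u - K1 * ee : ℚ)) :=
        (c0_nonneg hC hθ h1.le N).trans h9.le
      linarith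
  · intro ε hε
    refine (h5 ε hε).mono ?_
    filter_upwards [prec_pos hM (hu0.trans hmu) hm1] with n hn x hx hlt
    refine lt_of_le_of_lt ?_ hlt
    exact mul_le_mul_of_nonneg_left (dpow_le B n (by linarith)) hn.le

end stages

end Crest.Agent.R138.ArgM163
end

-- ▼ part R138/ArgM6_163
section

/-!
# R138, TEXT I, L14 (helper163), part 6: the second zoom at a point of differentiability of the
rotation function: natural marks
-/

set_option autoImplicit false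
set_option linter.unusedVariables false

open Finset Filter Topology MeasureTheory

open Crest.Agent.R138.Ex926 (Base U ev_em exists_diag ev_ge)
open Crest.Agent.R138.Flag51 (Ln E2 cr dt InPlank)
open Crest.Agent.R138.Tilt51 (DMax Near abs_cr_triangle abs_cr_swap)
open Crest.Agent.R138.Dp76 (Dense dpow_pos dpow_add dpow_le dpow_le_one)
open Crest.Agent.R138.Mk163
open Crest.Agent.R138.MkZoom779 (Fq Fq_mem ev_mem_Fq)

namespace Crest.Agent.R138.ArgM163

/-- `ee / hh → 0` -/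
theorem ev_ee (K : ℕ) (D : ℝ) {ε : ℝ} (hε : 0 < ε) :
    ∀ᶠ j in (atTop : Filter ℕ), D * ((hh K j : ℝ) / (j + 1)) ≤ ε * hh K j := by
  have h1 : Tendsto (fun j : ℕ => D * (1 / ((j : ℝ) + 1))) atTop (𝓝 0) := by
    have := (tendsto_one_div_add_atTop_nhds_zero_nat (𝕜 := ℝ)).const_mul D
    simpa using this
  filter_upwards [h1.eventually_lt_const hε] with j hj
  have hp : (0 : ℝ) < (hh K j : ℝ) := by exact_mod_cast hh_pos K j
  calc D * ((hh K j : ℝ) / (j + 1)) = D * (1 / ((j : ℝ) + 1)) * hh K j := by ring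
    _ ≤ ε * hh K j := mul_le_mul_of_nonneg_right hj.le hp.le

theorem ee_le (K j : ℕ) : (hh K j : ℝ) / (j + 1) ≤ hh K j := by
  have hp : (0 : ℝ) < (hh K j : ℝ) := by exact_mod_cast hh_pos K j
  have : (0 : ℝ) ≤ j := Nat.cast_nonneg _
  exact div_le_self hp.le (by linarith)

theorem ee_pos (K j : ℕ) : 0 < (hh K j : ℝ) / (j + 1) := by
  have hp : (0 : ℝ) < (hh K j : ℝ) := by exact_mod_cast hh_pos K j
  positivity

/-- the rotation function in the window of stage `j` -/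
theorem window {R : ℝ → ℝ} {k v1 : ℝ} (h : HasDerivAt R k v1) (K : ℕ) {uu : ℕ → ℚ}
    (huu : ∀ j, v1 ≤ uu j ∧ (uu j : ℝ) ≤ v1 + hh K j / (j + 1)) {D : ℝ} (hD : 0 ≤ D) (hk : 0 ≤ k)
    {ε : ℝ} (hε : 0 < ε) :
    ∀ᶠ j in (atTop : Filter ℕ), ∀ x t : ℝ, 0 ≤ x → x ≤ 1 →
      (uu j : ℝ) + hh K j * x - D * (hh K j / (j + 1)) ≤ t → t ≤ uu j + hh K j * x →
      |R t - (R v1 + k * (uu j - v1) + k * (hh K j * x))| ≤ ε * hh K j := by
  filter_upwards [deriv_window h K (D := D + 2) (by linarith) (ε / 2) (by positivity),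
    ev_ee K (k * D) (ε := ε / 2) (by positivity)] with j h1 h2 x t hx0 hx1 ht1 ht2
  have hp : (0 : ℝ) < (hh K j : ℝ) := by exact_mod_cast hh_pos K j
  have he := ee_le K j
  have he0 := ee_pos K j
  have hu := huu j
  have h3 : (hh K j : ℝ) * x ≤ hh K j := by nlinarith
  have h3' : 0 ≤ (hh K j : ℝ) * x := by positivity
  have h4 : D * ((hh K j : ℝ) / (j + 1)) ≤ D * hh K j := mul_le_mul_of_nonneg_left he hD
  have h4' : 0 ≤ D * ((hh K j : ℝ) / (j + 1)) := by positivity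
  have h5 : |t - v1| ≤ (D + 2) * hh K j := by
    rw [abs_le]
    constructor <;> nlinarith
  have h6 := h1 t h5
  have e1 : R t - (R v1 + k * (uu j - v1) + k * (hh K j * x)) =
      (R t - R v1 - k * (t - v1)) + k * (t - (uu j + hh K j * x)) := by ring
  rw [e1]
  refine (abs_add_le _ _).trans ?_
  have h7 : |k * (t - (uu j + hh K j * x))| ≤ k * D * ((hh K j : ℝ) / (j + 1)) := by
    rw [abs_mul, abs_of_nonneg hk, mul_assoc]
    refine mul_le_mul_of_nonneg_left ?_ hk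
    rw [abs_le]
    constructor <;> linarith
  linarith

section core

variable {B : Base} {I : ℕ → Finset (ℕ × ℝ)} {L : ℕ → ℕ → Ln} {lev : ℕ → ℚ → ℕ}
    {r0 A : ℕ → ℝ} {q g : ℝ} {f : ℕ → ℚ → ℕ → ℤ → ℕ} {b : ℕ → ℚ → ℕ → Ln}
    {e : ℕ → ℚ → ℕ → E2} {w1 w2 : ℕ → ℚ → ℝ} {fl : ℕ → ℕ × ℝ → E2} {sc : ℕ → ℝ} {C0 : ℝ}
    {R : ℝ → ℝ} {s θ C k0 : ℝ}

/-- all stages -/
theorem exists_stages (hRef : HRef) (hT : HTilt q g C) (hA : HRot q g s k0)
    (hM : Mk B I L lev r0 A q g (fun v => s * v) (fun v => θ * (1 - v)) f b e w1 w2)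
    (hR : RotF B I lev fl sc C0 R)
    (hfl : ∀ᶠ n in (U : Filter ℕ), ∀ x ∈ I n, fl n x = fr lev f e n 1 x)
    (hsc : ∀ᶠ n in (U : Filter ℕ), prec w1 w2 n 1 = sc n * B.d n ^ C0)
    (hC : 0 ≤ C) (hθ : 0 ≤ θ) (hk0 : 0 < k0) :
    ∃ (v1 k D : ℝ) (K : ℕ) (uu : ℕ → ℚ) (m : ℕ → ℚ → ℚ), HasDerivAt R k v1 ∧ k0 ≤ k ∧ 0 ≤ D ∧
      (∀ j, v1 ≤ uu j ∧ (uu j : ℝ) ≤ v1 + hh K j / (j + 1)) ∧
      ∀ j (x : ℚ), 0 ≤ x → x ≤ 1 → Stg B I lev f e w1 w2 fl sc R D (uu j + hh K j * x) (m j x)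
        ((hh K j : ℝ) / (j + 1)) := by
  classical
  obtain ⟨v1, k, hv0, hv1, hder⟩ := exists_diff hR.mono
  have hkk : k0 ≤ k := le_slope hder hv0 hv1 fun a u h0 hau h1 =>
    slope hRef hT hA hM hR hfl hsc hC hθ hk0 h0 hau h1
  obtain ⟨K1, hK1⟩ := exists_rat_gt (C * (1 + θ) / k0)
  have hK1' : C * (1 + θ) < k0 * K1 := by
    rw [div_lt_iff₀ hk0] at hK1; linarith
  have hCC : 0 ≤ C * (1 + θ) := by positivity
  have hK1p : (0 : ℝ) < K1 := by
    by_contra h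
    have := mul_nonpos_of_nonneg_of_nonpos hk0.le (not_lt.1 h)
    linarith
  obtain ⟨K, hK⟩ := exists_nat_gt (max (K1 / v1) (2 / (1 - v1)))
  have hKa : (K1 : ℝ) / v1 < K := (le_max_left _ _).trans_lt hK
  have hKb : 2 / (1 - v1) < K := (le_max_right _ _).trans_lt hK
  rw [div_lt_iff₀ hv0] at hKa
  rw [div_lt_iff₀ (by linarith)] at hKb
  have hKp : (0 : ℝ) < (K : ℝ) + 1 := by positivity
  have hKa' : (K1 : ℝ) * (1 / ((K : ℝ) + 1)) ≤ v1 := by
    rw [mul_one_div, div_le_iff₀ hKp]; nlinarith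
  have hKb' : 2 * (1 / ((K : ℝ) + 1)) < 1 - v1 := by
    rw [mul_one_div, div_lt_iff₀ hKp]; nlinarith
  obtain ⟨uu, huu⟩ := exists_uu v1 K
  have key : ∀ j (x : ℚ), 0 ≤ x → x ≤ 1 → ∃ m : ℚ,
      Stg B I lev f e w1 w2 fl sc R (max (C * (1 + θ)) K1) (uu j + hh K j * x) m
        ((hh K j : ℝ) / (j + 1)) := by
    intro j x hx0 hx1
    have hp : (0 : ℝ) < (hh K j : ℝ) := by exact_mod_cast hh_pos K j
    have hl := hh_le K j
    have he := ee_le K j
    have he0 := ee_pos K j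
    have hu := huu j
    have hx0' : (0 : ℝ) ≤ x := by exact_mod_cast hx0
    have hx1' : (x : ℝ) ≤ 1 := by exact_mod_cast hx1
    have h3 : (hh K j : ℝ) * x ≤ hh K j := by nlinarith
    have h3' : 0 ≤ (hh K j : ℝ) * x := by positivity
    have hee : (((hh K j / (j + 1) : ℚ)) : ℝ) = (hh K j : ℝ) / (j + 1) := by push_cast; rfl
    have h4 : uu j + hh K j * x < 1 := by
      have : ((uu j + hh K j * x : ℚ) : ℝ) < 1 := by push_cast; nlinarith
      exact_mod_cast this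
    have h5 : 0 ≤ uu j + hh K j * x - K1 * (hh K j / (j + 1)) := by
      have : (0 : ℝ) ≤ ((uu j + hh K j * x - K1 * (hh K j / (j + 1)) : ℚ) : ℝ) := by
        push_cast
        have h6 : (K1 : ℝ) * ((hh K j : ℝ) / (j + 1)) ≤ K1 * (1 / ((K : ℝ) + 1)) :=
          mul_le_mul_of_nonneg_left (he.trans hl) hK1p.le
        linarith
      exact_mod_cast this
    have h6 : (0 : ℚ) < hh K j / (j + 1) := by
      have := hh_pos K j
      positivity
    have h7 : (1 : ℝ) / NN K j = ((hh K j / (j + 1) : ℚ) : ℝ) := by rw [one_div_NN, hee]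
    have h8 := exists_stg hRef hT hA hM hR hfl hsc hC hθ hk0 hK1' (le_max_left _ _)
      (le_max_right (C * (1 + θ)) (K1 : ℝ)) h4 h6 h5 (NN_pos K j) h7
    rwa [hee] at h8
  refine ⟨v1, k, max (C * (1 + θ)) K1, K, uu, fun j x => if h : 0 ≤ x ∧ x ≤ 1 then
    (key j x h.1 h.2).choose else 0, hder, hkk, hCC.trans (le_max_left _ _), huu,
    fun j x hx0 hx1 => ?_⟩
  have := (key j x hx0 hx1).choose_spec
  simp only [hx0, hx1, and_self, dite_true]
  exact this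

theorem log_sc {B : Base} {n : ℕ} {S P ρ : ℝ} (hS : 0 < S) (hP : 0 < P) :
    Real.log (S * B.d n ^ ρ / P) = Real.log (S / P) - ρ * B.L n := by
  rw [mul_div_right_comm, Real.log_mul (div_pos hS hP).ne' (dpow_pos B n _).ne', log_dpow]
  ring

/-- **the second zoom.** -/
theorem zoom2 (hRef : HRef) (hZ : HZoom) (hT : HTilt q g C) (hA : HRot q g s k0)
    (hM : Mk B I L lev r0 A q g (fun v => s * v) (fun v => θ * (1 - v)) f b e w1 w2)
    (hR : RotF B I lev fl sc C0 R)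
    (hfl : ∀ᶠ n in (U : Filter ℕ), ∀ x ∈ I n, fl n x = fr lev f e n 1 x)
    (hsc : ∀ᶠ n in (U : Filter ℕ), prec w1 w2 n 1 = sc n * B.d n ^ C0)
    (hC : 0 ≤ C) (hθ : 0 ≤ θ) (hk0 : 0 < k0) :
    ∃ (B' : Base) (I' : ℕ → Finset (ℕ × ℝ)) (lev' : ℕ → ℚ → ℕ) (A' : ℕ → ℝ)
      (f' : ℕ → ℚ → ℕ → ℤ → ℕ) (b' : ℕ → ℚ → ℕ → Ln) (e' : ℕ → ℚ → ℕ → E2)
      (w1' w2' : ℕ → ℚ → ℝ) (sc' : ℕ → ℝ) (k : ℝ),
      k0 ≤ k ∧ (∀ᶠ n in (U : Filter ℕ), I' n ⊆ I n) ∧
      Mk B' I' L lev' r0 A' q g (fun v => s * v) (fun v => θ * (1 - v)) f' b' e' w1' w2' ∧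
      (∀ n, 0 < sc' n) ∧
      (∀ v : ℚ, 0 ≤ v → v ≤ 1 →
        Tendsto (fun n => Real.log (sc' n / prec w1' w2' n v) / B'.L n) U (𝓝 (k * v))) ∧
      (∀ v : ℚ, 0 ≤ v → v ≤ 1 → ∀ ε : ℝ, 0 < ε → ∀ᶠ n in (U : Filter ℕ), ∀ x ∈ I' n,
        |cr (fl n x) (fr lev' f' e' n v x)| ≤ prec w1' w2' n v * B'.d n ^ (-ε)) ∧
      (∀ u : ℚ, 0 ≤ u → u ≤ 1 → ∀ ε : ℝ, 0 < ε → ∀ᶠ n in (U : Filter ℕ), ∀ x ∈ I' n, ∀ y ∈ I' n,
        y.1 = x.1 → zc (lev' n u) y.2 = zc (lev' n u) x.2 →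
          |cr (fl n x) (fl n y)| ≤ sc' n * B'.d n ^ (k * u - ε)) := by
  classical
  obtain ⟨v1, k, D, K, uu, m, hder, hkk, hD, huu, hst⟩ :=
    exists_stages hRef hT hA hM hR hfl hsc hC hθ hk0
  have hk : 0 < k := hk0.trans_le hkk
  have hhp : ∀ j, (0 : ℝ) < (hh K j : ℝ) := fun j => by exact_mod_cast hh_pos K j
  have hs01 : 0 ≤ s ∧ s ≤ 1 := by
    have := hM.lam 0 1 le_rfl zero_le_one le_rfl
    simpa using this
  -- diagonal properties
  set P : ℕ → ℕ → Prop := fun j n => ∀ x ∈ Fq j,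
    (bb B w1 w2 sc n (m j x) ≤ R ((uu j + hh K j * x : ℚ) : ℝ) + D * ((hh K j : ℝ) / (j + 1)) +
      (hh K j : ℝ) / (j + 1)) ∧
    (∃ a : ℚ, a ≤ uu j + hh K j * x ∧
      (((uu j + hh K j * x : ℚ)) : ℝ) - D * ((hh K j : ℝ) / (j + 1)) ≤ a ∧
      R a - (hh K j : ℝ) / (j + 1) ≤ bb B w1 w2 sc n (m j x)) ∧
    (∀ p ∈ I n, ∀ p' ∈ I n, p'.1 = p.1 → zc (lev n (m j x)) p'.2 = zc (lev n (m j x)) p.2 →
      |cr (fl n p) (fl n p')| ≤ sc n * B.d n ^ (R (m j x) - (hh K j : ℝ) / (j + 1))) ∧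
    0 < prec w1 w2 n (m j x) with hPdef
  have hP : ∀ j, ∀ᶠ n in (U : Filter ℕ), P j n := by
    intro j
    simp only [hPdef]
    refine (Filter.eventually_all_finset (Fq j)).2 fun x hx => ?_
    obtain ⟨hx0, hx1⟩ := Fq_mem hx
    have st := hst j x hx0 hx1
    obtain ⟨a, ha0, ha1, ha2, ha3⟩ := st.lo
    have hm0 : 0 ≤ m j x := st.U0.trans st.mU
    filter_upwards [st.up _ (ee_pos K j), ha3 _ (ee_pos K j),
      hR.rot (m j x) hm0 st.m1 _ (ee_pos K j), prec_pos hM hm0 st.m1] with n h1 h2 h3 h4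
    exact ⟨h1, ⟨a, ha1, ha2, h2⟩, h3, h4⟩
  obtain ⟨s1, hs1, hP1⟩ := exists_diag P hP
  set Bad : ℕ → ℕ → ℕ × ℝ → Prop := fun j n p => ∃ x ∈ Fq j,
    prec w1 w2 n (m j x) * B.d n ^ (-(D * ((hh K j : ℝ) / (j + 1))) - (hh K j : ℝ) / (j + 1)) <
      |cr (fl n p) (fr lev f e n (m j x) p)| with hBad
  have hBadN : ∀ j, Negl B I (Bad j) := fun j => Negl.finite (Fq j) fun x hx =>
    (hst j x (Fq_mem hx).1 (Fq_mem hx).2).cl _ (ee_pos K j)
  obtain ⟨t, ht, hDn⟩ := Negl.countable hBadN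
  obtain ⟨J, hJ, hMJ⟩ := hRef B I L lev r0 A q g _ _ f b e w1 w2 hM _ hDn
  -- the zoom
  have hmU : ∀ j (x : ℚ), 0 ≤ x → x ≤ 1 →
      |(m j x : ℝ) - (uu j + hh K j * x)| ≤ D * ((hh K j : ℝ) / (j + 1)) := by
    intro j x hx0 hx1
    have st := hst j x hx0 hx1
    have h1 : ((uu j + hh K j * x : ℚ) : ℝ) ≤ m j x := by exact_mod_cast st.mU
    have h2 := st.mD
    push_cast at h1 h2
    rw [abs_le]
    have : 0 ≤ D * ((hh K j : ℝ) / (j + 1)) := mul_nonneg hD (ee_pos K j).le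
    constructor <;> linarith
  have hdq : ∀ x y : ℚ, 0 ≤ x → x ≤ 1 → 0 ≤ y → y ≤ 1 →
      Tendsto (fun j => ((m j y : ℝ) - m j x) / hh K j) atTop (𝓝 ((y : ℝ) - x)) := by
    intro x y hx0 hx1 hy0 hy1
    rw [Metric.tendsto_nhds]
    intro ε hε
    filter_upwards [ev_ee K (2 * D) (ε := ε / 2) (by positivity)] with j hj
    have h1 := hmU j x hx0 hx1
    have h2 := hmU j y hy0 hy1
    have hp := hhp j
    rw [Real.dist_eq]
    have e1 : ((m j y : ℝ) - m j x) / hh K j - ((y : ℝ) - x) =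
        (((m j y : ℝ) - (uu j + hh K j * y)) - ((m j x : ℝ) - (uu j + hh K j * x))) / hh K j := by
      field_simp
      ring
    rw [e1, abs_div, abs_of_pos hp, div_lt_iff₀ hp]
    refine lt_of_le_of_lt (abs_sub _ _) ?_
    have : 0 < ε * hh K j := by positivity
    linarith
  obtain ⟨s0, hs0, hz⟩ := hZ B J L lev r0 A q g _ _ f b e w1 w2 hMJ (fun j => (hh K j : ℝ)) m
    (fun v => s * v) (fun v => θ * (1 - v)) hhp (fun j => by exact_mod_cast hh_le_one K j)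
    (fun j x hx0 hx1 => ⟨(hst j x hx0 hx1).U0.trans (hst j x hx0 hx1).mU, (hst j x hx0 hx1).m1⟩)
    (fun x y hx0 hxy hy1 => by
      rcases hxy.eq_or_lt with rfl | hlt
      · exact Eventually.of_forall fun j => le_rfl
      · have h1 := hdq x y hx0 (hxy.trans hy1) (hx0.trans hxy) hy1
        have h2 : (0 : ℝ) < (y : ℝ) - x := by
          have : (x : ℝ) < y := by exact_mod_cast hlt
          linarith
        filter_upwards [h1.eventually_const_lt h2] with j hj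
        have hp := hhp j
        have h3 : 0 < (m j y : ℝ) - m j x := by
          by_contra hcon
          have := div_nonpos_of_nonpos_of_nonneg (not_lt.1 hcon) hp.le
          linarith
        have h4 : (m j x : ℝ) ≤ m j y := by linarith
        exact_mod_cast h4)
    (fun x y hx0 hxy hy1 => hdq x y hx0 (hxy.trans hy1) (hx0.trans hxy) hy1)
    (fun x hx0 hx1 => by
      have h1 := (hdq 0 x le_rfl zero_le_one hx0 hx1).const_mul s
      have e1 : s * ((x : ℝ) - (0 : ℚ)) = s * x := by push_cast; ring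
      rw [e1] at h1
      refine h1.congr fun j => ?_
      ring)
    (fun x hx0 hx1 => by
      have h1 := (hdq x 1 hx0 hx1 zero_le_one le_rfl).const_mul θ
      have e1 : θ * (((1 : ℚ) : ℝ) - x) = θ * (1 - x) := by push_cast; ring
      rw [e1] at h1
      refine h1.congr fun j => ?_
      ring)
    (fun u v hu huv hv => by
      have e1 : s * v - s * u = s * (v - u) := by ring
      rw [e1]
      exact ⟨mul_nonneg hs01.1 (by linarith), by nlinarith⟩)
    (by simp) (by simp)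
  -- the speed
  set S : ℕ → ℕ := fun n => min (s0 n) (min (s1 n) (t n)) with hS
  have hSt : Tendsto S U atTop := by
    rw [tendsto_atTop]
    intro c
    filter_upwards [tendsto_atTop.1 hs0 c, tendsto_atTop.1 hs1 c, tendsto_atTop.1 ht c]
      with n h1 h2 h3
    exact le_min h1 (le_min h2 h3)
  obtain ⟨B', I', A', hBd, hI', hMk'⟩ := hz S hSt (Eventually.of_forall fun n => min_le_left _ _)
  have hPS : ∀ᶠ n in (U : Filter ℕ), P (S n) n := by
    filter_upwards [hP1] with n hn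
    exact hn (S n) ((min_le_right _ _).trans (min_le_left _ _))
  have hBadS : ∀ᶠ n in (U : Filter ℕ), ∀ p ∈ I' n, ¬ Bad (S n) n p := by
    filter_upwards [hJ.1] with n hn p hp
    have h1 := hn (hI' n hp)
    simp only [mem_filter] at h1
    exact h1.2 (S n) ((min_le_right _ _).trans (min_le_right _ _))
  have hII : ∀ᶠ n in (U : Filter ℕ), I' n ⊆ I n := by
    filter_upwards [hJ.1, hDn.1] with n h1 h2 p hp
    exact h2 (h1 (hI' n hp))
  have hBL : ∀ n, B'.L n = (hh K (S n) : ℝ) * B.L n := by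
    intro n
    have : Real.log (B'.d n) = Real.log (B.d n ^ (hh K (S n) : ℝ)) := by rw [hBd n]
    rw [log_dpow] at this
    have h2 : B'.L n = - Real.log (B'.d n) := by unfold Base.L; rfl
    rw [h2, this]; ring
  have hBp : ∀ n (y : ℝ), B'.d n ^ y = B.d n ^ ((hh K (S n) : ℝ) * y) := by
    intro n y
    rw [hBd n, ← Real.rpow_mul (B.pos n).le]
  refine ⟨B', I', fun n x => lev n (m (S n) x), A', fun n x => f n (m (S n) x),
    fun n x => b n (m (S n) x), fun n x => e n (m (S n) x), fun n x => w1 n (m (S n) x),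
    fun n x => w2 n (m (S n) x), fun n => sc n * B.d n ^ (R v1 + k * (uu (S n) - v1)), k, hkk, hII,
    hMk', fun n => mul_pos (hR.scpos n) (dpow_pos B n _), ?_, ?_, ?_⟩
  · -- precision
    intro x hx0 hx1
    rw [Metric.tendsto_nhds]
    intro ε hε
    filter_upwards [hPS, hSt.eventually (ev_mem_Fq hx0 hx1),
      hSt.eventually (window hder K huu hD hk.le (ε := ε / 4) (by positivity)),
      hSt.eventually (ev_ee K (D + 1) (ε := ε / 4) (by positivity))] with n h1 h2 h3 h4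
    obtain ⟨hup, ⟨a, ha1, ha2, hlo⟩, -, hpp⟩ := h1 x h2
    have hp := hhp (S n)
    have hL := B.L_pos n
    have hx0' : (0 : ℝ) ≤ x := by exact_mod_cast hx0
    have hx1' : (x : ℝ) ≤ 1 := by exact_mod_cast hx1
    have he0 := ee_pos K (S n)
    have ha1' : (a : ℝ) ≤ uu (S n) + hh K (S n) * x := by exact_mod_cast ha1
    push_cast at ha2
    have hw1 := abs_le.1 (h3 x a hx0' hx1' ha2 ha1')
    have hw2 := abs_le.1 (h3 x (uu (S n) + hh K (S n) * x) hx0' hx1'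
      (by have := mul_nonneg hD he0.le; linarith) le_rfl)
    push_cast at hup
    rw [Real.dist_eq]
    have e1 : Real.log (sc n * B.d n ^ (R v1 + k * (uu (S n) - v1)) /
        prec (fun n x => w1 n (m (S n) x)) (fun n x => w2 n (m (S n) x)) n x) / B'.L n - k * x =
        (bb B w1 w2 sc n (m (S n) x) -
          (R v1 + k * (uu (S n) - v1) + k * (hh K (S n) * x))) / hh K (S n) := by
      have e2 : prec (fun n x => w1 n (m (S n) x)) (fun n x => w2 n (m (S n) x)) n x =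
          prec w1 w2 n (m (S n) x) := rfl
      rw [e2, log_sc (hR.scpos n) hpp, hBL n]
      unfold bb
      field_simp
      ring
    rw [e1, abs_div, abs_of_pos hp, div_lt_iff₀ hp]
    have hε' : 0 < ε * hh K (S n) := by positivity
    rw [abs_lt]
    constructor
    · nlinarith [hw1.1]
    · nlinarith [hw2.2]
  · -- closeness
    intro x hx0 hx1 ε hε
    filter_upwards [hPS, hBadS, hSt.eventually (ev_mem_Fq hx0 hx1),
      hSt.eventually (ev_ee K (D + 1) (ε := ε) hε)] with n h1 h2 h3 h4 p hp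
    obtain ⟨-, -, -, hpp⟩ := h1 x h3
    have h5 := h2 p hp
    simp only [hBad] at h5
    push Not at h5
    have h6 := h5 x h3
    refine h6.trans ?_
    rw [hBp]
    refine mul_le_mul_of_nonneg_left (dpow_le B n ?_) hpp.le
    have := ee_pos K (S n)
    nlinarith
  · -- rotation
    intro x hx0 hx1 ε hε
    filter_upwards [hPS, hII, hSt.eventually (ev_mem_Fq hx0 hx1),
      hSt.eventually (window hder K huu hD hk.le (ε := ε / 2) (by positivity)),
      hSt.eventually (ev_ee K 1 (ε := ε / 2) (by positivity))] with n h1 h2 h3 h4 h5 p hp p' hp' hq hz'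
    obtain ⟨-, -, hrot, -⟩ := h1 x h3
    have h6 := hrot p (h2 hp) p' (h2 hp') hq hz'
    refine h6.trans ?_
    rw [hBp, mul_assoc, ← dpow_add]
    refine mul_le_mul_of_nonneg_left (dpow_le B n ?_) (hR.scpos n).le
    have hp := hhp (S n)
    have he0 := ee_pos K (S n)
    have hx0' : (0 : ℝ) ≤ x := by exact_mod_cast hx0
    have hx1' : (x : ℝ) ≤ 1 := by exact_mod_cast hx1
    have hw2 := abs_le.1 (h4 x (uu (S n) + hh K (S n) * x) hx0' hx1'
      (by have := mul_nonneg hD he0.le; linarith) le_rfl)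
    have st := hst (S n) x hx0 hx1
    have hmono : R ((uu (S n) : ℝ) + hh K (S n) * x) ≤ R (m (S n) x) := by
      have hU0 : (0 : ℝ) ≤ uu (S n) + hh K (S n) * x := by exact_mod_cast st.U0
      have hU1 : (uu (S n) : ℝ) + hh K (S n) * x < 1 := by exact_mod_cast st.U1
      have hmU' : (uu (S n) : ℝ) + hh K (S n) * x ≤ m (S n) x := by exact_mod_cast st.mU
      have hm1' : (m (S n) x : ℝ) ≤ 1 := by exact_mod_cast st.m1
      exact hR.mono ⟨hU0, hU1.le⟩ ⟨hU0.trans hmU', hm1'⟩ hmU'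
    nlinarith [hw2.1]

end core

end Crest.Agent.R138.ArgM163
end

-- ▼ part R138/ArgM7_163
section

/-!
# R138, TEXT I, L14 (helper163), part 7: natural marks exist (`Mk` + all leaves ⟹ `Nat5`)
-/

set_option autoImplicit false
set_option linter.unusedVariables false

open Finset Filter Topology MeasureTheory

open Crest.Agent.R138.Ex926 (Base U ev_em exists_diag ev_ge)
open Crest.Agent.R138.Flag51 (Ln E2 cr dt InPlank)
open Crest.Agent.R138.Tilt51 (DMax Near abs_cr_triangle abs_cr_swap)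
open Crest.Agent.R138.Dp76 (Dense dpow_pos dpow_add dpow_le dpow_le_one)
open Crest.Agent.R138.Mk163

namespace Crest.Agent.R138.ArgM163

section top

variable {B : Base} {I : ℕ → Finset (ℕ × ℝ)} {L : ℕ → ℕ → Ln} {lev : ℕ → ℚ → ℕ}
    {r0 A : ℕ → ℝ} {q g : ℝ} {f : ℕ → ℚ → ℕ → ℤ → ℕ} {b : ℕ → ℚ → ℕ → Ln}
    {e : ℕ → ℚ → ℕ → E2} {w1 w2 : ℕ → ℚ → ℝ} {s θ C C' k0 : ℝ}

open Classical in
/-- flags = frames of level `1` -/
noncomputable def flag (lev : ℕ → ℚ → ℕ) (f : ℕ → ℚ → ℕ → ℤ → ℕ) (e : ℕ → ℚ → ℕ → E2) (n : ℕ)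
    (x : ℕ × ℝ) : E2 :=
  if dt (fr lev f e n 1 x) (fr lev f e n 1 x) = 1 then fr lev f e n 1 x else !₂[1, 0]

theorem flag_unit (n : ℕ) (x : ℕ × ℝ) : dt (flag lev f e n x) (flag lev f e n x) = 1 := by
  unfold flag
  split_ifs with h
  · exact h
  · simp [dt]

open Classical in
/-- the scale of the flags -/
noncomputable def scal (B : Base) (w1 w2 : ℕ → ℚ → ℝ) (C : ℝ) (n : ℕ) : ℝ :=
  (if 0 < prec w1 w2 n 1 then prec w1 w2 n 1 else 1) * B.d n ^ (-C)

theorem scal_pos (n : ℕ) : 0 < scal B w1 w2 C n := by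
  unfold scal
  refine mul_pos ?_ (dpow_pos B n _)
  split_ifs with h
  · exact h
  · exact one_pos

/-- **L14, linear case** -/
theorem nat5_linear (hRef : HRef) (hZ : HZoom) (hEx : HExRot) (hT : HTilt q g C)
    (hTc : HCrude q g C') (hA : HRot q g s k0)
    (hM : Mk B I L lev r0 A q g (fun v => s * v) (fun v => θ * (1 - v)) f b e w1 w2)
    (hC : 0 ≤ C) (hC' : 0 ≤ C') (hθ : 0 < θ) (hk0 : 0 < k0) :
    ∃ (B' : Base) (I' : ℕ → Finset (ℕ × ℝ)) (lev' : ℕ → ℚ → ℕ) (A' : ℕ → ℝ)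
      (f' : ℕ → ℚ → ℕ → ℤ → ℕ) (b' : ℕ → ℚ → ℕ → Ln) (e' : ℕ → ℚ → ℕ → E2)
      (w1' w2' : ℕ → ℚ → ℝ) (fl : ℕ → ℕ × ℝ → E2) (sc : ℕ → ℝ) (k : ℝ),
      k0 ≤ k ∧ Nat5 B' I' L lev' r0 A' q g f' b' e' w1' w2' fl sc k s θ := by
  classical
  have hpp := prec_pos hM zero_le_one le_rfl
  have hfl0 : ∀ᶠ n in (U : Filter ℕ), ∀ x ∈ I n, flag lev f e n x = fr lev f e n 1 x := by
    filter_upwards [unit_fr hM zero_le_one le_rfl] with n hn x hx
    unfold flag
    rw [if_pos (hn x hx)]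
  have hsc0 : ∀ᶠ n in (U : Filter ℕ), prec w1 w2 n 1 = scal B w1 w2 (C' + 1) n * B.d n ^ (C' + 1) := by
    filter_upwards [hpp] with n hn
    unfold scal
    rw [if_pos hn, mul_assoc, ← dpow_add]
    simp
  -- the hypothesis of `ExRot`
  have hneg : Negl B I fun n x => ∃ y ∈ I n, y.1 = x.1 ∧
      scal B w1 w2 (C' + 1) n < |cr (flag lev f e n x) (flag lev f e n y)| := by
    have h1 := hTc B I L lev r0 A _ _ f b e w1 w2 hM 0 1 le_rfl zero_lt_one le_rfl (1 / 2)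
      (by norm_num)
    refine h1.mono ?_
    filter_upwards [hfl0, hpp, hM.cell0] with n h2 h3 h4 x hx hy
    obtain ⟨y, hy, hyx, hlt⟩ := hy
    refine ⟨y, hy, hyx, h4 y hy x hx, ?_⟩
    rw [← h2 x hx, ← h2 y hy]
    refine le_trans ?_ hlt.le
    unfold scal
    rw [if_pos h3]
    refine mul_le_mul_of_nonneg_left (dpow_le B n ?_) h3.le
    push_cast
    linarith
  obtain ⟨J, R, hJ, hMJ, hR⟩ := hEx B I L lev r0 A q g _ _ f b e w1 w2 (flag lev f e)
    (scal B w1 w2 (C' + 1)) (C' + 1) hM (fun n => scal_pos n) (by positivity)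
    (fun n x _ => flag_unit n x) hneg
  have hflJ : ∀ᶠ n in (U : Filter ℕ), ∀ x ∈ J n, flag lev f e n x = fr lev f e n 1 x := by
    filter_upwards [hfl0, hJ.1] with n h1 h2 x hx using h1 x (h2 hx)
  obtain ⟨B', I', lev', A', f', b', e', w1', w2', sc', k, hkk, hII, hM', hsc', hpr, hcl, hrot⟩ :=
    zoom2 hRef hZ hT hA hMJ hR hflJ hsc0 hC hθ.le hk0
  obtain ⟨J', hJ', hJI', hN⟩ := NatTw76.nat5_of hθ hM'
    (hRef B' I' L lev' r0 A' q g _ _ f' b' e' w1' w2')
    (hA B' I' L lev' r0 A' _ f' b' e' w1' w2' hM') hk0 (hk0.trans_le hkk)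
    (fl := flag lev f e) (Eventually.of_forall fun n x _ => flag_unit n x) hsc' hpr hcl hrot
  exact ⟨B', J', lev', A', f', b', e', w1', w2', flag lev f e, sc', k, hkk, hN⟩

/-- **L14**: from a marked extremal sequence with strictly decreasing `τ` to natural marks. -/
theorem exists_nat5 (hRef : HRef) (hZ : HZoom) (hEx : HExRot) (hT : HTilt q g C)
    (hTc : HCrude q g C') (hA : ∀ s : ℝ, 0 ≤ s → s ≤ 1 → ∃ k0 : ℝ, 0 < k0 ∧ HRot q g s k0)
    (hC : 0 ≤ C) (hC' : 0 ≤ C') {Λ τ : ℝ → ℝ}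
    (h : Mk B I L lev r0 A q g Λ τ f b e w1 w2) {κ : ℝ} (hκ : 0 < κ)
    (hτ : ∀ u v : ℚ, 0 ≤ u → u ≤ v → v ≤ 1 → κ * ((v : ℝ) - u) ≤ τ u - τ v) :
    ∃ (B' : Base) (I' : ℕ → Finset (ℕ × ℝ)) (lev' : ℕ → ℚ → ℕ) (A' : ℕ → ℝ)
      (f' : ℕ → ℚ → ℕ → ℤ → ℕ) (b' : ℕ → ℚ → ℕ → Ln) (e' : ℕ → ℚ → ℕ → E2)
      (w1' w2' : ℕ → ℚ → ℝ) (fl : ℕ → ℕ × ℝ → E2) (sc : ℕ → ℝ) (k s θ : ℝ),
      κ ≤ θ ∧ 0 ≤ s ∧ s ≤ 1 ∧ Nat5 B' I' L lev' r0 A' q g f' b' e' w1' w2' fl sc k s θ := by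
  obtain ⟨B1, I1, lev1, A1, f1, b1, e1, w11, w21, s, θ, hs0, hs1, hθ, -, hM⟩ :=
    MkPoint627.mk_linear hZ h hκ hτ
  obtain ⟨k0, hk0, hA'⟩ := hA s hs0 hs1
  obtain ⟨B', I', lev', A', f', b', e', w1', w2', fl, sc, k, -, hN⟩ :=
    nat5_linear hRef hZ hEx hT hTc hA' hM hC hC' (hκ.trans_le hθ) hk0
  exact ⟨B', I', lev', A', f', b', e', w1', w2', fl, sc, k, s, θ, hθ, hs0, hs1, hN⟩

end top

end Crest.Agent.R138.ArgM163
end

-- ▼ part R138/TiltU0_51
section

/-!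
# R138, leaf L10 (helper51): `Mk → TiltCrude C`
-/

set_option autoImplicit false
set_option linter.unusedVariables false

open Finset Filter Topology

namespace Crest.Agent.R138.TiltU51

open Crest.Agent.R138.Ex926 (Base U)
open Crest.Agent.R138.Flag51 (Ln E2 cr dt InPlank Close)
open Crest.Agent.R138.Tilt51 (DMax Near close_self)
open Crest.Agent.R138.TiltG51 (c0 c0_pos)
open Crest.Agent.R138.Mk163

noncomputable section

variable {B : Base} {I : ℕ → Finset (ℕ × ℝ)} {L : ℕ → ℕ → Ln} {lev : ℕ → ℚ → ℕ}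
    {r0 A : ℕ → ℝ} {q g : ℝ} {Λ τ : ℝ → ℝ} {f : ℕ → ℚ → ℕ → ℤ → ℕ} {b : ℕ → ℚ → ℕ → Ln}
    {e : ℕ → ℚ → ℕ → E2} {w1 w2 : ℕ → ℚ → ℝ}

/-- constant of one count -/
def cq0 (q : ℝ) : ℝ := c0 0 q / (1 - 2 ^ (0 - q))

theorem cq0_nonneg (hq : 0 < q) : 0 ≤ cq0 q := by
  have hr : (2 : ℝ) ^ (0 - q) < 1 := Real.rpow_lt_one_of_one_lt_of_neg (by norm_num) (by linarith)
  have : 0 < 1 - (2:ℝ) ^ (0 - q) := by linarith
  have := c0_pos 0 q
  unfold cq0
  positivity

open Classical in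
/-- two small cells `J1`, `J2` of the big cell `J` -/
theorem pair_crude {I : Finset (ℕ × ℝ)} {L : ℕ → Ln} {i j : ℕ} (hij : i ≤ j)
    {g : ℕ → ℤ → ℕ} {b' : ℕ → Ln} {e' : ℕ → E2} {a1 a2 M1 M2 E' r0 θ : ℝ}
    (hq : 0 < q)
    (n2 : ∀ J, Near (alive I j J) L (fun _ => 1) (fun t => g t J) b' e' a1 a2 (zl j J) (rho j)
      M2 E' 0 q)
    (dm : ∀ J, DMax (alive I i J) L (fun _ => 1) (zl i J) (rho i) M1 0 q r0 (100 * rho i))
    (ha1 : 0 < a1) (ha12 : a1 ≤ a2)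
    (ha2 : a2 ≤ rho j) (hr2 : r0 ≤ a1) (hM1 : 0 < M1) (hM2 : 0 < M2)
    (hE : 0 ≤ E') {R : ℝ} (hR : R = 2 ^ (j - i)) (hθ : a1 ≤ θ * a2)
    {x0 y0 : ℕ × ℝ} (hx0 : x0 ∈ I) (hy0 : y0 ∈ I) (hxy : zc i y0.2 = zc i x0.2) :
    (((alive I j (zc j x0.2)).filter fun t => t ∈ alive I j (zc j y0.2) ∧
        θ ≤ |cr (e' (g t (zc j x0.2))) (e' (g t (zc j y0.2)))|).card : ℝ) ≤
      (cq0 q * (E' * (M1 / M2) * (3 * R) ^ (2 + q)) * (E' * (M1 / M2) * (3 * R) ^ (2 + q)) *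
        (a1 / (θ * a2)) ^ q) * ((alive I j (zc j x0.2)).card : ℝ) := by
  have hRR : rho i / rho j = R := by rw [rho_div hij, hR]
  have hR1 : 1 ≤ R := by rw [hR]; exact one_le_pow₀ (by norm_num)
  have hrj := rho_pos j
  have hri := rho_pos i
  have hRa : R * a2 ≤ rho i := by
    rw [← hRR]
    calc rho i / rho j * a2 ≤ rho i / rho j * rho j := mul_le_mul_of_nonneg_left ha2 (by positivity)
      _ = rho i := by field_simp
  have ha2p : 0 < a2 := ha1.trans_le ha12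
  have e1 : (2 : ℝ) + 0 + q = 2 + q := by ring
  have m1 := (n2 (zc j x0.2)).extend (z0 := zl i (zc i x0.2)) (M1 := M1) hrj (rho_le hij)
    (abs_zl_sub hij x0.2) ha1 ha2p hM1.le hM2
  have m2 := (n2 (zc j y0.2)).extend (z0 := zl i (zc i x0.2)) (M1 := M1) hrj (rho_le hij)
    (by rw [← hxy]; exact abs_zl_sub hij y0.2) ha1 ha2p hM1.le hM2
  rw [hRR, e1] at m1 m2
  have d1 := (dm (zc i x0.2)).subset (alive_subset hij hx0) (fun _ _ => zero_le_one)
  have hsub : alive I j (zc j y0.2) ⊆ alive I i (zc i x0.2) := by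
    rw [← hxy]; exact alive_subset hij hy0
  have d2 := (dm (zc i x0.2)).subset hsub (fun _ _ => zero_le_one)
  have hlam : 0 < 3 * R := by positivity
  have key := TiltG51.flag2 (θ := θ) (w := 3 * R * a1) m1 m2 d1 (fun _ _ => zero_le_one) d2
    (fun _ _ => zero_le_one) le_rfl hq (by positivity) le_rfl (by positivity) (by positivity)
    (mul_le_mul_of_nonneg_left ha12 hlam.le) le_rfl
    (by
      refine le_min ?_ ?_ <;> nlinarith)
    (by linarith)
    hM1.le hM1 (by positivity) (by positivity)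
    (by
      rw [max_self]
      nlinarith)
  rw [sum_const, sum_const, nsmul_eq_mul, nsmul_eq_mul, mul_one, mul_one, sub_zero, max_self] at key
  have hrat : 3 * R * a1 / (θ * (3 * R * a2)) = a1 / (θ * a2) := by
    rw [show θ * (3 * R * a2) = (3 * R) * (θ * a2) by ring, mul_div_mul_left _ _ hlam.ne']
  rw [hrat] at key
  calc (((alive I j (zc j x0.2)).filter fun t => t ∈ alive I j (zc j y0.2) ∧
        θ ≤ |cr (e' (g t (zc j x0.2))) (e' (g t (zc j y0.2)))|).card : ℝ)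
      ≤ (((alive I j (zc j x0.2)).filter fun t => ∃ t' ∈ alive I j (zc j y0.2),
          Close (L t) (L t') (3 * R * a1) (zl i (zc i x0.2)) (rho i) ∧
          θ ≤ |cr (e' (g t (zc j x0.2))) (e' (g t' (zc j y0.2)))|).card : ℝ) := by
        norm_cast
        refine card_le_card ?_
        intro t ht
        rw [mem_filter] at ht ⊢
        exact ⟨ht.1, t, ht.2.1, close_self (by positivity) _, ht.2.2⟩
    _ ≤ _ := key
    _ = _ := by unfold cq0; ring

open Classical in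
/-- all lines of one small cell -/
theorem cell_crude {I : Finset (ℕ × ℝ)} {L : ℕ → Ln} {i j : ℕ} (hij : i ≤ j)
    {g : ℕ → ℤ → ℕ} {b' : ℕ → Ln} {e' : ℕ → E2} {a1 a2 M1 M2 E' r0 θ : ℝ}
    (hq : 0 < q)
    (n2 : ∀ J, Near (alive I j J) L (fun _ => 1) (fun t => g t J) b' e' a1 a2 (zl j J) (rho j)
      M2 E' 0 q)
    (dm : ∀ J, DMax (alive I i J) L (fun _ => 1) (zl i J) (rho i) M1 0 q r0 (100 * rho i))
    (ha1 : 0 < a1) (ha12 : a1 ≤ a2)
    (ha2 : a2 ≤ rho j) (hr2 : r0 ≤ a1) (hM1 : 0 < M1) (hM2 : 0 < M2)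
    (hE : 0 ≤ E') {R : ℝ} (hR : R = 2 ^ (j - i)) (hθ : a1 ≤ θ * a2)
    {x0 : ℕ × ℝ} (hx0 : x0 ∈ I) :
    (((I.filter fun x => zc j x.2 = zc j x0.2 ∧ ∃ y ∈ I, y.1 = x.1 ∧ zc i y.2 = zc i x.2 ∧
        θ ≤ |cr (e' (g x.1 (zc j x.2))) (e' (g y.1 (zc j y.2)))|).image Prod.fst).card : ℝ) ≤
      (R * (cq0 q * (E' * (M1 / M2) * (3 * R) ^ (2 + q)) * (E' * (M1 / M2) * (3 * R) ^ (2 + q)) *
        (a1 / (θ * a2)) ^ q)) *
      (((I.filter fun x => zc j x.2 = zc j x0.2).image Prod.fst).card : ℝ) := by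
  set K : ℝ := cq0 q * (E' * (M1 / M2) * (3 * R) ^ (2 + q)) *
    (E' * (M1 / M2) * (3 * R) ^ (2 + q)) * (a1 / (θ * a2)) ^ q with hK
  set cells : Finset ℤ := (I.filter fun y => zc i y.2 = zc i x0.2).image fun y => zc j y.2
  set N1 : Finset ℕ := alive I j (zc j x0.2) with hN1
  set bad : ℤ → Finset ℕ := fun J2 => N1.filter fun t => t ∈ alive I j J2 ∧
    θ ≤ |cr (e' (g t (zc j x0.2))) (e' (g t J2))| with hbad
  have h1 : ((I.filter fun x => zc j x.2 = zc j x0.2 ∧ ∃ y ∈ I, y.1 = x.1 ∧ zc i y.2 = zc i x.2 ∧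
        θ ≤ |cr (e' (g x.1 (zc j x.2))) (e' (g y.1 (zc j y.2)))|).image Prod.fst) ⊆
      cells.biUnion bad := by
    intro t ht
    rw [mem_image] at ht
    obtain ⟨x, hx, rfl⟩ := ht
    rw [mem_filter] at hx
    obtain ⟨hxI, hxc, y, hy, hy1, hy2, hy3⟩ := hx
    rw [mem_biUnion]
    have hyi : zc i y.2 = zc i x0.2 := hy2.trans (zc_nest hij hxc)
    refine ⟨zc j y.2, mem_image.2 ⟨y, mem_filter.2 ⟨hy, hyi⟩, rfl⟩, ?_⟩
    rw [hbad, mem_filter]
    refine ⟨mem_alive.2 ⟨x, hxI, hxc, rfl⟩, mem_alive.2 ⟨y, hy, rfl, hy1⟩, ?_⟩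
    rw [hxc, hy1] at hy3
    exact hy3
  have h2 : ∀ J2 ∈ cells, ((bad J2).card : ℝ) ≤ K * (N1.card : ℝ) := by
    intro J2 hJ2
    rw [mem_image] at hJ2
    obtain ⟨y, hy, rfl⟩ := hJ2
    rw [mem_filter] at hy
    exact pair_crude hij hq n2 dm ha1 ha12 ha2 hr2 hM1 hM2 hE hR hθ hx0 hy.1 hy.2
  have hR0 : 0 ≤ R := by rw [hR]; positivity
  have ha2p : 0 < a2 := ha1.trans_le ha12
  have hθ0 : 0 < θ := by
    by_contra hc
    have : θ * a2 ≤ 0 := mul_nonpos_of_nonpos_of_nonneg (not_lt.1 hc) ha2p.le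
    linarith
  have hcq := cq0_nonneg hq
  have hK0 : 0 ≤ K := by rw [hK]; positivity
  have h3 : (cells.card : ℝ) ≤ R := by
    rw [hR]
    exact_mod_cast card_cells hij I (zc i x0.2)
  calc ((((I.filter fun x => zc j x.2 = zc j x0.2 ∧ ∃ y ∈ I, y.1 = x.1 ∧ zc i y.2 = zc i x.2 ∧
        θ ≤ |cr (e' (g x.1 (zc j x.2))) (e' (g y.1 (zc j y.2)))|).image Prod.fst).card : ℕ) : ℝ)
      ≤ ((cells.biUnion bad).card : ℝ) := by exact_mod_cast card_le_card h1
    _ ≤ ∑ J2 ∈ cells, ((bad J2).card : ℝ) := by exact_mod_cast card_biUnion_le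
    _ ≤ ∑ J2 ∈ cells, K * (N1.card : ℝ) := sum_le_sum h2
    _ = (cells.card : ℝ) * (K * N1.card) := by rw [sum_const, nsmul_eq_mul]
    _ ≤ R * (K * N1.card) := mul_le_mul_of_nonneg_right h3 (by positivity)
    _ = (R * K) * (N1.card : ℝ) := by ring
    _ = _ := rfl

set_option maxHeartbeats 1000000 in
/-- **L10 (T0)** -/
theorem tiltCrude (h : Mk B I L lev r0 A q g Λ τ f b e w1 w2) {C : ℝ} (hC : 5 + 2 * q ≤ C * q) :
    TiltCrude B I lev f e w1 w2 C := by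
  classical
  intro u v hu huv hv ε hε
  have hq := h.q0
  have hq2 := h.q2
  set η : ℝ := q * ε / 32 with hη
  have hη0 : 0 < η := by positivity
  have hηε : 32 * η = q * ε := by rw [hη]; ring
  have huvR : (u : ℝ) < v := by exact_mod_cast huv
  set D : ℝ := (v : ℝ) - u with hD
  have hD0 : 0 ≤ D := by linarith
  have hC1 : 1 ≤ C := by
    by_contra hc
    push Not at hc
    nlinarith
  refine ⟨q * ε / 2, by positivity, ?_⟩
  filter_upwards [h.near v (hu.trans huv.le) hv η hη0,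
    h.dmax u hu (huv.le.trans hv) η hη0,
    ev_dims h (hu.trans huv.le) hv, ev_R h hu huv.le hv hη0,
    ev_nu h (hu.trans huv.le) hv hη0,
    ev_amp_le h hu huv.le hv, ev_const B (cq0 q * 6561) hη0] with
    n nv dm dv hR cv hamp k1
  have P := dpos B n
  obtain ⟨dv1, dv2, dv3, dv4⟩ := dv
  obtain ⟨hij, hR2⟩ := hR
  set R : ℝ := 2 ^ (lev n v - lev n u) with hRdef
  have hR1 : 1 ≤ R := one_le_pow₀ (by norm_num)
  have wv : 0 < w2 n v := dv1.trans_le dv3
  have hpv : 0 < prec w1 w2 n v := div_pos dv1 wv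
  set θ : ℝ := prec w1 w2 n v * B.d n ^ (-(C * D) - ε) with hθ
  have hθ0 : 0 < θ := mul_pos hpv (P _)
  have hCD : 0 ≤ C * D := by positivity
  have hθw : w1 n v ≤ θ * w2 n v := by
    have h1 : 1 ≤ B.d n ^ (-(C * D) - ε) :=
      Real.one_le_rpow_of_pos_of_le_one_of_nonpos (B.pos n) (B.lt n).le (by linarith)
    have h2 : prec w1 w2 n v * w2 n v = w1 n v := by unfold prec; field_simp
    calc w1 n v = prec w1 w2 n v * w2 n v * 1 := by rw [h2, mul_one]
      _ ≤ prec w1 w2 n v * w2 n v * B.d n ^ (-(C * D) - ε) :=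
          mul_le_mul_of_nonneg_left h1 (by positivity)
      _ = θ * w2 n v := by rw [hθ]; ring
  set X : ℝ := w1 n v / (θ * w2 n v) with hX
  have hXe : X = B.d n ^ (C * D + ε) := by
    rw [hX, div_eq_iff (by positivity)]
    have h2 : prec w1 w2 n v * w2 n v = w1 n v := by unfold prec; field_simp
    calc w1 n v = prec w1 w2 n v * w2 n v := h2.symm
      _ = (B.d n ^ ((C * D + ε) + (-(C * D) - ε))) * (prec w1 w2 n v * w2 n v) := by
          rw [show (C * D + ε) + (-(C * D) - ε) = 0 by ring, Real.rpow_zero, one_mul]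
      _ = _ := by rw [dadd, hθ]; ring
  have hau := amp_pos h n u
  have hav := amp_pos h n v
  set M1 : ℝ := B.d n ^ (-η) * amp B lev A q g Λ n u with hM1
  set M2 : ℝ := amp B lev A q g Λ n v with hM2
  have hM10 : 0 < M1 := mul_pos (P _) hau
  have hMr : M1 / M2 ≤ B.d n ^ (-η) := by
    rw [div_le_iff₀ hav, hM1]
    exact mul_le_mul_of_nonneg_left hamp (P _).le
  set K : ℝ := cq0 q * (B.d n ^ (-η) * (M1 / M2) * (3 * R) ^ (2 + q)) *
    (B.d n ^ (-η) * (M1 / M2) * (3 * R) ^ (2 + q)) * X ^ q with hK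
  have hcq := cq0_nonneg hq
  have hK0 : 0 ≤ R * K := by
    have := P (-η)
    positivity
  have hcell : ∀ x0 ∈ I n, ((((I n).filter fun x => zc (lev n v) x.2 = zc (lev n v) x0.2 ∧
        ∃ y ∈ I n, y.1 = x.1 ∧ zc (lev n u) y.2 = zc (lev n u) x.2 ∧
        θ ≤ |cr (fr lev f e n v x) (fr lev f e n v y)|).image Prod.fst).card : ℝ) ≤
      (R * K) *
        ((((I n).filter fun x => zc (lev n v) x.2 = zc (lev n v) x0.2).image Prod.fst).card : ℝ) :=
    fun x0 hx0 => cell_crude (g := fun t J => f n v t J) hij hq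
      nv dm dv1 dv3 dv4 dv2 hM10 hav (P (-η)).le hRdef hθw hx0
  have hν1 := P (-(1 - (v : ℝ)) + (Λ 1 - Λ v) + η)
  have hν2 := P (-(1 - (v : ℝ)) + (Λ 1 - Λ v) - η)
  have hsum := sum_bad (I := I n) (obj := Prod.fst) (c := fun x => zc (lev n v) x.2)
    (c' := fun x => zc (lev n v) x.2)
    (bad := fun x => ∃ y ∈ I n, y.1 = x.1 ∧ zc (lev n u) y.2 = zc (lev n u) x.2 ∧
        θ ≤ |cr (fr lev f e n v x) (fr lev f e n v y)|)
    (K := R * K) (N := 1) hK0 (fun x _ y _ hxy => hxy)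
    (fun x0 hx0 => by convert hcell x0 hx0) hν2.le hν1.le
    (fun x hx => by
      have h1 : (((I n).filter fun y => zc (lev n v) y.2 = zc (lev n v) x.2).image
          fun x => zc (lev n v) x.2) ⊆ {zc (lev n v) x.2} := by
        intro J hJ
        rw [mem_image] at hJ
        obtain ⟨y, hy, rfl⟩ := hJ
        rw [mem_singleton]
        exact (mem_filter.1 hy).2
      have h2 := card_le_card h1
      rw [card_singleton] at h2
      exact_mod_cast h2)
    (fun x hx => (cv x hx).2) (fun x hx => (cv x hx).1)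
  have hfin := fin_crude (B := B) (n := n) (C := C) (D := D) (ε := ε) (η := η) (R := R) (K := K)
    (X := X) (cq := cq0 q) (Mr := M1 / M2) hq hq2 hC hD0 hη0 hR1 hR2 hXe hcq k1
    (by positivity) hMr hK
  have hνν : B.d n ^ (-(1 - (v : ℝ)) + (Λ 1 - Λ v) - η) =
      B.d n ^ (-(2 * η)) * B.d n ^ (-(1 - (v : ℝ)) + (Λ 1 - Λ v) + η) := by
    rw [← dadd]; congr 1; ring
  have hI0 : (0 : ℝ) ≤ (I n).card := Nat.cast_nonneg _
  refine le_of_mul_le_mul_right (hsum.trans ?_) hν1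
  calc B.d n ^ (-(1 - (v : ℝ)) + (Λ 1 - Λ v) - η) * 1 * (R * K) * ((I n).card : ℝ)
      = (B.d n ^ (-(2 * η)) * (R * K)) * ((I n).card : ℝ) *
          B.d n ^ (-(1 - (v : ℝ)) + (Λ 1 - Λ v) + η) := by rw [hνν]; ring
    _ ≤ B.d n ^ (q * ε / 2) * ((I n).card : ℝ) *
          B.d n ^ (-(1 - (v : ℝ)) + (Λ 1 - Λ v) + η) := by
        refine mul_le_mul_of_nonneg_right (mul_le_mul_of_nonneg_right ?_ hI0) hν1.le
        refine hfin.trans ?_
        apply danti
        linarith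

end

end Crest.Agent.R138.TiltU51
end

-- ▼ part R138/TiltU_51

/-!
# R138, leaf L10 (helper51): `Mk → TiltTwo C`, `Mk → TiltCrude C`
-/

set_option autoImplicit false
set_option linter.unusedVariables false

open Finset Filter Topology

namespace Crest.Agent.R138.TiltU51

open Crest.Agent.R138.Ex926 (Base U)
open Crest.Agent.R138.Flag51 (Ln E2 cr dt InPlank Close)
open Crest.Agent.R138.Tilt51 (DMax Near close_self)
open Crest.Agent.R138.TiltG51 (c0 c0_pos)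
open Crest.Agent.R138.Mk163

noncomputable section

variable {B : Base} {I : ℕ → Finset (ℕ × ℝ)} {L : ℕ → ℕ → Ln} {lev : ℕ → ℚ → ℕ}
    {r0 A : ℕ → ℝ} {q g : ℝ} {Λ τ : ℝ → ℝ} {f : ℕ → ℚ → ℕ → ℤ → ℕ} {b : ℕ → ℚ → ℕ → Ln}
    {e : ℕ → ℚ → ℕ → E2} {w1 w2 : ℕ → ℚ → ℝ}

/-- constant of one count -/
def cq (q : ℝ) : ℝ := c0 0 q / (1 - 2 ^ (0 - q))

theorem cq_nonneg (hq : 0 < q) : 0 ≤ cq q := by
  have hr : (2 : ℝ) ^ (0 - q) < 1 := Real.rpow_lt_one_of_one_lt_of_neg (by norm_num) (by linarith)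
  have : 0 < 1 - (2:ℝ) ^ (0 - q) := by linarith
  have := c0_pos 0 q
  unfold cq
  positivity

open Classical in
/-- one stage of (T): bad lines of one small cell -/
theorem cell_two {I : Finset (ℕ × ℝ)} {L : ℕ → Ln} {i j : ℕ} (hij : i ≤ j)
    {f g : ℕ → ℤ → ℕ} {b b' : ℕ → Ln} {e e' : ℕ → E2} {w1 w2 a1 a2 M1 M2 E1 E2' r0 θ : ℝ}
    (hq : 0 < q)
    (n1 : ∀ J, Near (alive I i J) L (fun _ => 1) (fun t => f t J) b e w1 w2 (zl i J) (rho i)
      M1 E1 0 q)
    (n2 : ∀ J, Near (alive I j J) L (fun _ => 1) (fun t => g t J) b' e' a1 a2 (zl j J) (rho j)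
      M2 E2' 0 q)
    (dm : ∀ J, DMax (alive I i J) L (fun _ => 1) (zl i J) (rho i) M1 0 q r0 (100 * rho i))
    (hw1 : 0 < w1) (hw12 : w1 ≤ w2) (hw2 : w2 ≤ rho i) (ha1 : 0 < a1) (ha12 : a1 ≤ a2)
    (ha2 : a2 ≤ rho j) (hr1 : r0 ≤ w1) (hr2 : r0 ≤ a1) (hM1 : 0 < M1) (hM2 : 0 < M2)
    (hE1 : 0 ≤ E1) (hE2 : 0 ≤ E2') {R : ℝ} (hR : R = 2 ^ (j - i))
    (hθ : max w1 (3 * R * a1) ≤ θ * min w2 (3 * R * a2)) {x0 : ℕ × ℝ} (hx0 : x0 ∈ I) :
    (((I.filter fun x => zc j x.2 = zc j x0.2 ∧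
        θ ≤ |cr (e (f x.1 (zc i x.2))) (e' (g x.1 (zc j x.2)))|).image Prod.fst).card : ℝ) ≤
      (cq q * E1 * (E2' * (M1 / M2) * (3 * R) ^ (2 + q)) *
        (max w1 (3 * R * a1) / (θ * min w2 (3 * R * a2))) ^ q) *
      (((I.filter fun x => zc i x.2 = zc i x0.2).image Prod.fst).card : ℝ) := by
  have hRR : rho i / rho j = R := by rw [rho_div hij, hR]
  have hR1 : 1 ≤ R := by rw [hR]; exact one_le_pow₀ (by norm_num)
  have hrj := rho_pos j
  have hri := rho_pos i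
  have hRa : R * a2 ≤ rho i := by
    rw [← hRR]
    calc rho i / rho j * a2 ≤ rho i / rho j * rho j := mul_le_mul_of_nonneg_left ha2 (by positivity)
      _ = rho i := by field_simp
  have ha2p : 0 < a2 := ha1.trans_le ha12
  have key := TiltG51.tilt (θ := θ) (n1 (zc i x0.2)) (n2 (zc j x0.2)) (dm (zc i x0.2))
    (fun _ _ => zero_le_one) (alive_subset hij hx0) hrj (rho_le hij) (abs_zl_sub hij x0.2)
    le_rfl hq hw1 hw12 ha1 ha12
    (by
      rw [hRR]
      refine le_min hr1 (hr2.trans ?_)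
      nlinarith)
    (by
      rw [hRR]
      have : max w2 (3 * R * a2) ≤ 3 * rho i := max_le (by linarith) (by linarith)
      linarith)
    hM1 hM2 hE1 hE2 (by rw [hRR]; exact hθ)
  rw [hRR, sum_const, sum_const, nsmul_eq_mul, nsmul_eq_mul, mul_one, mul_one, sub_zero] at key
  have e1 : (2 : ℝ) + 0 + q = 2 + q := by ring
  rw [e1] at key
  have hal : (((I.filter fun x => zc i x.2 = zc i x0.2).image Prod.fst).card : ℝ) =
      ((alive I i (zc i x0.2)).card : ℝ) := rfl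
  rw [hal]
  calc (((I.filter fun x => zc j x.2 = zc j x0.2 ∧
        θ ≤ |cr (e (f x.1 (zc i x.2))) (e' (g x.1 (zc j x.2)))|).image Prod.fst).card : ℝ)
      ≤ (((alive I j (zc j x0.2)).filter fun t =>
          θ ≤ |cr (e (f t (zc i x0.2))) (e' (g t (zc j x0.2)))|).card : ℝ) := by
        norm_cast
        refine card_le_card ?_
        intro t ht
        rw [mem_image] at ht
        obtain ⟨x, hx, rfl⟩ := ht
        rw [mem_filter] at hx
        obtain ⟨hxI, hxc, hxb⟩ := hx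
        rw [mem_filter]
        refine ⟨mem_alive.2 ⟨x, hxI, hxc, rfl⟩, ?_⟩
        rw [hxc, zc_nest hij hxc] at hxb
        exact hxb
    _ ≤ _ := key
    _ = _ := by unfold cq; ring

set_option maxHeartbeats 1000000 in
/-- **L10 (T)** -/
theorem tiltTwo (h : Mk B I L lev r0 A q g Λ τ f b e w1 w2) {C : ℝ} (hC : 3 + q ≤ C * q) :
    TiltTwo B I lev τ f e w1 w2 C := by
  classical
  intro u v hu huv hv ε hε
  have hq := h.q0
  have hq2 := h.q2
  set η : ℝ := q * ε / 28 with hη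
  have hη0 : 0 < η := by positivity
  have hηε : 28 * η = q * ε := by rw [hη]; ring
  have hηε2 : 14 * η ≤ ε := by nlinarith
  have huvR : (u : ℝ) < v := by exact_mod_cast huv
  set D : ℝ := (v : ℝ) - u with hD
  have hD0 : 0 ≤ D := by linarith
  have hC1 : 1 ≤ C := by
    by_contra hc
    push Not at hc
    nlinarith
  refine ⟨q * ε / 2, by positivity, ?_⟩
  filter_upwards [h.near u hu (huv.le.trans hv) η hη0, h.near v (hu.trans huv.le) hv η hη0,
    h.dmax u hu (huv.le.trans hv) η hη0, ev_dims h hu (huv.le.trans hv),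
    ev_dims h (hu.trans huv.le) hv, ev_R h hu huv.le hv hη0, ev_tau h hu huv.le hv hη0,
    ev_nu h hu (huv.le.trans hv) hη0, ev_nu h (hu.trans huv.le) hv hη0,
    ev_amp_le h hu huv.le hv, ev_const B (cq q * 729) hη0, ev_const B 3 hη0] with
    n nu nv dm du dv hR ht cu cv hamp k1 k2
  have P := dpos B n
  obtain ⟨du1, du2, du3, du4⟩ := du
  obtain ⟨dv1, dv2, dv3, dv4⟩ := dv
  obtain ⟨hij, hR2⟩ := hR
  obtain ⟨ht1, ht2⟩ := ht
  set R : ℝ := 2 ^ (lev n v - lev n u) with hRdef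
  have hR1 : 1 ≤ R := one_le_pow₀ (by norm_num)
  have hRR : rho (lev n u) / rho (lev n v) = R := rho_div hij
  rw [hRR] at ht1 ht2
  have wu : 0 < w2 n u := du1.trans_le du3
  have wv : 0 < w2 n v := dv1.trans_le dv3
  set Pm : ℝ := max (prec w1 w2 n u) (prec w1 w2 n v) with hPm
  have hpu : 0 < prec w1 w2 n u := div_pos du1 wu
  have hPm0 : 0 < Pm := lt_max_of_lt_left hpu
  set T : ℝ := |τ u - τ v| with hT
  have hT0 : 0 ≤ T := abs_nonneg _
  set θ : ℝ := Pm * B.d n ^ (-(C * (D + T)) - ε) with hθ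
  have hθ0 : 0 < θ := mul_pos hPm0 (P _)
  set W : ℝ := min (w2 n u) (3 * R * w2 n v) with hW
  have hW0 : 0 < W := lt_min wu (by positivity)
  set V : ℝ := max (w1 n u) (3 * R * w1 n v) with hV
  have hV0 : 0 < V := lt_max_of_lt_left du1
  -- claim A
  have hA : V ≤ Pm * max (w2 n u) (3 * R * w2 n v) := by
    refine max_le ?_ ?_
    · calc w1 n u = prec w1 w2 n u * w2 n u := by unfold prec; field_simp
        _ ≤ Pm * max (w2 n u) (3 * R * w2 n v) :=
            mul_le_mul (le_max_left _ _) (le_max_left _ _) wu.le hPm0.le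
    · calc 3 * R * w1 n v = prec w1 w2 n v * (3 * R * w2 n v) := by unfold prec; field_simp
        _ ≤ Pm * max (w2 n u) (3 * R * w2 n v) :=
            mul_le_mul (le_max_right _ _) (le_max_right _ _) (by positivity) hPm0.le
  -- claim B
  set G : ℝ := B.d n ^ (-(T + η)) with hG
  have hG1 : 1 ≤ G := by
    rw [hG]
    exact Real.one_le_rpow_of_pos_of_le_one_of_nonpos (B.pos n) (B.lt n).le (by linarith)
  have hB : max (w2 n u) (3 * R * w2 n v) ≤ 3 * G * W := by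
    have hRw : 0 < R * w2 n v := by positivity
    have q1 : w2 n u ≤ 3 * G * w2 n u := by nlinarith
    have q2 : w2 n u ≤ 3 * G * (3 * R * w2 n v) := by nlinarith
    have q3 : 3 * R * w2 n v ≤ 3 * G * w2 n u := by nlinarith
    have q4 : 3 * R * w2 n v ≤ 3 * G * (3 * R * w2 n v) := by nlinarith
    rw [hW]
    rcases min_choice (w2 n u) (3 * R * w2 n v) with hm | hm
    · rw [hm]; exact max_le q1 q3
    · rw [hm]; exact max_le q2 q4
  set X : ℝ := V / (θ * W) with hX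
  have hX0 : 0 ≤ X := by positivity
  have hXle : X ≤ 3 * B.d n ^ (C * D + ε - η) := by
    rw [hX, div_le_iff₀ (by positivity)]
    have e1 : 3 * B.d n ^ (C * D + ε - η) * (θ * W) =
        Pm * (3 * B.d n ^ ((C * D + ε - η) + (-(C * (D + T)) - ε)) * W) := by
      rw [hθ, dadd]; ring
    rw [e1]
    refine hA.trans (mul_le_mul_of_nonneg_left (hB.trans ?_) hPm0.le)
    refine mul_le_mul_of_nonneg_right (mul_le_mul_of_nonneg_left ?_ (by norm_num)) hW0.le
    rw [hG]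
    apply danti
    nlinarith
  have hX1 : X ≤ 1 := by
    calc X ≤ 3 * B.d n ^ (C * D + ε - η) := hXle
      _ ≤ B.d n ^ (-η) * B.d n ^ (C * D + ε - η) := mul_le_mul_of_nonneg_right k2 (P _).le
      _ = B.d n ^ (-η + (C * D + ε - η)) := (dadd B n _ _).symm
      _ ≤ B.d n ^ (0 : ℝ) := by apply danti; nlinarith
      _ = 1 := Real.rpow_zero _
  have hθX : V ≤ θ * W := by
    rw [hX, div_le_one (by positivity)] at hX1; exact hX1
  -- the count
  have hau := amp_pos h n u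
  have hav := amp_pos h n v
  set M1 : ℝ := B.d n ^ (-η) * amp B lev A q g Λ n u with hM1
  set M2 : ℝ := amp B lev A q g Λ n v with hM2
  have hM10 : 0 < M1 := mul_pos (P _) hau
  have hMr : M1 / M2 ≤ B.d n ^ (-η) := by
    rw [div_le_iff₀ hav, hM1]
    exact mul_le_mul_of_nonneg_left hamp (P _).le
  set K : ℝ := cq q * (B.d n ^ (-η) * B.d n ^ (-η)) *
    (B.d n ^ (-η) * (M1 / M2) * (3 * R) ^ (2 + q)) * X ^ q with hK
  have hcq := cq_nonneg hq
  have hK0 : 0 ≤ K := by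
    have := P (-η)
    positivity
  have hcell : ∀ x0 ∈ I n, ((((I n).filter fun x => zc (lev n v) x.2 = zc (lev n v) x0.2 ∧
        θ ≤ |cr (fr lev f e n u x) (fr lev f e n v x)|).image Prod.fst).card : ℝ) ≤
      K * ((((I n).filter fun x => zc (lev n u) x.2 = zc (lev n u) x0.2).image Prod.fst).card : ℝ) :=
    fun x0 hx0 => cell_two (f := fun t J => f n u t J) (g := fun t J => f n v t J) hij hq
      (fun J => Near.scale (P (-η)).le (nu J)) nv dm du1 du3 du4 dv1 dv3 dv4 du2 dv2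
      hM10 hav (by have := P (-η); positivity) (P (-η)).le hRdef hθX hx0
  have hν1 := P (-(1 - (u : ℝ)) + (Λ 1 - Λ u) + η)
  have hν2 := P (-(1 - (v : ℝ)) + (Λ 1 - Λ v) - η)
  have hsum := sum_bad (I := I n) (obj := Prod.fst) (c := fun x => zc (lev n u) x.2)
    (c' := fun x => zc (lev n v) x.2) (bad := fun x => θ ≤ |cr (fr lev f e n u x) (fr lev f e n v x)|)
    (K := K) (N := R) hK0 (fun x _ y _ hxy => zc_nest hij hxy) hcell hν2.le hν1.le
    (fun x hx => by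
      have := card_cells hij (I n) (zc (lev n u) x.2)
      rw [hRdef]
      exact_mod_cast this)
    (fun x hx => (cv x hx).2) (fun x hx => (cu x hx).1)
  -- exponents
  have hfin := fin_two (B := B) (n := n) (C := C) (D := D) (ε := ε) (η := η) (R := R) (K := K)
    (X := X) (cq := cq q) (Mr := M1 / M2) hq hq2 hC hD0 hη0 hR1 hR2 hX0 hXle hcq k1
    (by positivity) hMr hK
  have hνν : B.d n ^ (-(1 - (v : ℝ)) + (Λ 1 - Λ v) - η) ≤
      B.d n ^ (-(2 * η)) * B.d n ^ (-(1 - (u : ℝ)) + (Λ 1 - Λ u) + η) := by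
    rw [← dadd]
    apply danti
    have := (h.lam u v (by exact_mod_cast hu) huvR.le (by exact_mod_cast hv)).2
    linarith
  have hI0 : (0 : ℝ) ≤ (I n).card := Nat.cast_nonneg _
  refine le_of_mul_le_mul_right (hsum.trans ?_) hν1
  calc B.d n ^ (-(1 - (v : ℝ)) + (Λ 1 - Λ v) - η) * R * K * ((I n).card : ℝ)
      = B.d n ^ (-(1 - (v : ℝ)) + (Λ 1 - Λ v) - η) * (R * K * ((I n).card : ℝ)) := by ring
    _ ≤ (B.d n ^ (-(2 * η)) * B.d n ^ (-(1 - (u : ℝ)) + (Λ 1 - Λ u) + η)) *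
          (R * K * ((I n).card : ℝ)) := mul_le_mul_of_nonneg_right hνν (by positivity)
    _ = (B.d n ^ (-(2 * η)) * R * K) * ((I n).card : ℝ) *
          B.d n ^ (-(1 - (u : ℝ)) + (Λ 1 - Λ u) + η) := by ring
    _ ≤ B.d n ^ (q * ε / 2) * ((I n).card : ℝ) *
          B.d n ^ (-(1 - (u : ℝ)) + (Λ 1 - Λ u) + η) := by
        refine mul_le_mul_of_nonneg_right (mul_le_mul_of_nonneg_right ?_ hI0) hν1.le
        refine hfin.trans ?_
        apply danti
        linarith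

/-- the constant `C(q)` of both tilt lemmas -/
def Cq (q : ℝ) : ℝ := (5 + 2 * q) / q

theorem Cq_mul (hq : 0 < q) : Cq q * q = 5 + 2 * q := by unfold Cq; field_simp

/-- **L10** -/
theorem tilts (h : Mk B I L lev r0 A q g Λ τ f b e w1 w2) :
    TiltCrude B I lev f e w1 w2 (Cq q) ∧ TiltTwo B I lev τ f e w1 w2 (Cq q) :=
  ⟨tiltCrude h (Cq_mul h.q0).ge, tiltTwo h (by rw [Cq_mul h.q0]; linarith [h.q0])⟩

end

end Crest.Agent.R138.TiltU51
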