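import Crest.Agent.R138.Defs_665
import Crest.Agent.R138.Wf5_448
import Crest.Agent.R138.T12_774
import Crest.Agent.R138.F4_858
import Crest.Agent.R138.ZmDef_858
import Crest.Agent.R138.Wpk5_685
import Crest.Agent.R138.Wpk6_685
import Crest.Agent.R138.Low4_448

-- ▼ part R138/Resc1_574
section

/-! # W6 (parabolic rescaling), part 1: phases, classes `Par`, `ParB`, gradients, rotations
(helper574) -/

set_option autoImplicit false

open MeasureTheory
open scoped ContDiff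

namespace Crest.Agent.R138.Resc574

open Crest.Agent.R138.Defs

/-- Parabolic rescaling of the phase about `ξ0` with ratio `l`. -/
noncomputable def hR (h : E2 → ℝ) (ξ0 : E2) (l : ℝ) (η : E2) : ℝ :=
  (l ^ 2)⁻¹ * (h (ξ0 + l • η) - h ξ0 - l * inner ℝ (gradient h ξ0) η)

/-- The defining identity, solved for `h`. -/
theorem h_eq (h : E2 → ℝ) (ξ0 : E2) {l : ℝ} (hl : l ≠ 0) (η : E2) :
    h (ξ0 + l • η) = h ξ0 + l * inner ℝ (gradient h ξ0) η + l ^ 2 * hR h ξ0 l η := by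
  unfold hR; field_simp; ring

theorem hR_zero (h : E2 → ℝ) (ξ0 : E2) (l : ℝ) : hR h ξ0 l 0 = 0 := by
  simp [hR]

/-- the perturbation `h - ‖·‖²/2`. -/
noncomputable def pt (h : E2 → ℝ) (ξ : E2) : ℝ := h ξ - ‖ξ‖ ^ 2 / 2

theorem contDiff_pt {h : E2 → ℝ} (hh : ContDiff ℝ ∞ h) : ContDiff ℝ ∞ (pt h) :=
  hh.sub ((contDiff_norm_sq ℝ).div_const 2)

theorem contDiff_hR {h : E2 → ℝ} (hh : ContDiff ℝ ∞ h) (ξ0 : E2) (l : ℝ) :
    ContDiff ℝ ∞ (hR h ξ0 l) := by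
  unfold hR
  refine contDiff_const.mul (((hh.comp (contDiff_const.add (contDiff_id.const_smul l))).sub
    contDiff_const).sub (contDiff_const.mul (contDiff_const.inner ℝ contDiff_id)))

/-- iterated derivatives of an affine function vanish from order two on. -/
theorem iter_affine (c : ℝ) (L : E2 →L[ℝ] ℝ) {k : ℕ} (hk : 2 ≤ k) (η : E2) :
    iteratedFDeriv ℝ k (fun η => c + L η) η = 0 := by
  obtain ⟨j, rfl⟩ := Nat.exists_eq_add_of_le hk
  have e : fderiv ℝ (fun η : E2 => c + L η) = fun _ => L := by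
    ext1 x
    exact ((L.hasFDerivAt (x := x)).const_add c).fderiv
  have h1 : ‖iteratedFDeriv ℝ (j + 1) (fderiv ℝ (fun η : E2 => c + L η)) η‖ = 0 := by
    rw [e, iteratedFDeriv_const_of_ne (by omega)]; simp
  rw [norm_iteratedFDeriv_fderiv] at h1
  have : 2 + j = j + 1 + 1 := by omega
  rw [this]
  exact norm_eq_zero.1 h1

/-- the perturbation of the rescaled phase: rescaled perturbation plus an affine function. -/
theorem pt_hR (h : E2 → ℝ) (ξ0 : E2) {l : ℝ} (hl : l ≠ 0) (η : E2) :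
    pt (hR h ξ0 l) η = (l ^ 2)⁻¹ • pt h (ξ0 + l • η) +
      (((l ^ 2)⁻¹ * (‖ξ0‖ ^ 2 / 2 - h ξ0)) +
        ((l ^ 2)⁻¹ * l) • (innerSL ℝ ξ0 - innerSL ℝ (gradient h ξ0)) η) := by
  have h1 : ‖ξ0 + l • η‖ ^ 2 = ‖ξ0‖ ^ 2 + 2 * (l * inner ℝ ξ0 η) + l ^ 2 * ‖η‖ ^ 2 := by
    rw [norm_add_sq_real, real_inner_smul_right, norm_smul, mul_pow, Real.norm_eq_abs, sq_abs]
  simp only [pt, hR, h1, smul_eq_mul, sub_apply, innerSL_apply_apply]
  field_simp
  ring

/-- derivatives of the perturbation of the rescaled phase. -/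
theorem norm_iter_pt_hR {h : E2 → ℝ} (hh : ContDiff ℝ ∞ h) (ξ0 : E2) {l : ℝ} (hl : 0 < l)
    {k : ℕ} (hk : 2 ≤ k) (η : E2) :
    ‖iteratedFDeriv ℝ k (pt (hR h ξ0 l)) η‖ ≤
      l ^ (k - 2) * ‖iteratedFDeriv ℝ k (pt h) (ξ0 + l • η)‖ := by
  have hk' : (k : WithTop ℕ∞) ≤ ∞ := by exact_mod_cast le_top
  set L : E2 →L[ℝ] ℝ := ((l ^ 2)⁻¹ * l) • (innerSL ℝ ξ0 - innerSL ℝ (gradient h ξ0)) with hL
  set A : E2 →L[ℝ] E2 := l • ContinuousLinearMap.id ℝ E2 with hA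
  have hq : ContDiff ℝ ∞ (fun ζ => pt h (ξ0 + ζ)) :=
    (contDiff_pt hh).comp (contDiff_const.add contDiff_id)
  have e : pt (hR h ξ0 l) = fun η => (l ^ 2)⁻¹ • ((fun ζ => pt h (ξ0 + ζ)) ∘ A) η +
      (((l ^ 2)⁻¹ * (‖ξ0‖ ^ 2 / 2 - h ξ0)) + L η) := by
    funext η
    rw [pt_hR h ξ0 hl.ne']
    simp [A, L]
  have c1 : ContDiff ℝ ∞ (fun η => (l ^ 2)⁻¹ • ((fun ζ => pt h (ξ0 + ζ)) ∘ A) η) :=
    (hq.comp A.contDiff).const_smul _
  have c2 : ContDiff ℝ ∞ (fun η => ((l ^ 2)⁻¹ * (‖ξ0‖ ^ 2 / 2 - h ξ0)) + L η) :=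
    contDiff_const.add L.contDiff
  rw [e, fun_iteratedFDeriv_add_apply (c1.of_le hk').contDiffAt (c2.of_le hk').contDiffAt,
    iter_affine _ L hk, add_zero,
    iteratedFDeriv_const_smul_apply' ((hq.comp A.contDiff).of_le hk').contDiffAt,
    A.iteratedFDeriv_comp_right hq η hk', norm_smul]
  have h2 : iteratedFDeriv ℝ k (fun ζ => pt h (ξ0 + ζ)) (A η) =
      iteratedFDeriv ℝ k (pt h) (ξ0 + l • η) := by
    rw [iteratedFDeriv_comp_add_left]
    simp [A]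
  have h3 : ‖(iteratedFDeriv ℝ k (fun ζ => pt h (ξ0 + ζ)) (A η)).compContinuousLinearMap
      fun _ => A‖ ≤ ‖iteratedFDeriv ℝ k (pt h) (ξ0 + l • η)‖ * l ^ k := by
    refine (ContinuousMultilinearMap.norm_compContinuousLinearMap_le _ _).trans ?_
    rw [h2, Finset.prod_const, Finset.card_univ, Fintype.card_fin]
    gcongr
    rw [hA, norm_smul, Real.norm_of_nonneg hl.le]
    calc l * ‖ContinuousLinearMap.id ℝ E2‖ ≤ l * 1 := by
          gcongr
          exact ContinuousLinearMap.norm_id_le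
      _ = l := mul_one l
  have h4 : ‖(l ^ 2)⁻¹‖ = (l ^ 2)⁻¹ := Real.norm_of_nonneg (by positivity)
  rw [h4]
  calc (l ^ 2)⁻¹ * ‖(iteratedFDeriv ℝ k (fun ζ => pt h (ξ0 + ζ)) (A η)).compContinuousLinearMap
        fun _ => A‖ ≤ (l ^ 2)⁻¹ * (‖iteratedFDeriv ℝ k (pt h) (ξ0 + l • η)‖ * l ^ k) := by gcongr
    _ = l ^ (k - 2) * ‖iteratedFDeriv ℝ k (pt h) (ξ0 + l • η)‖ := by
      obtain ⟨j, rfl⟩ := Nat.exists_eq_add_of_le hk
      rw [Nat.add_sub_cancel_left, pow_add]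
      field_simp


/-- `ParB` is closed under parabolic rescaling. -/
theorem parB_hR {B : ℕ → ℝ} {h : E2 → ℝ} (H : ParB B h) (ξ0 : E2) {l : ℝ} (hl : 0 < l)
    (hl1 : l ≤ 1) : ParB B (hR h ξ0 l) := by
  refine ⟨contDiff_hR H.1 ξ0 l, fun k hk η => ?_⟩
  refine (norm_iter_pt_hR H.1 ξ0 hl hk η).trans ?_
  have h1 : l ^ (k - 2) ≤ 1 := pow_le_one₀ hl.le hl1
  calc l ^ (k - 2) * ‖iteratedFDeriv ℝ k (pt h) (ξ0 + l • η)‖
      ≤ 1 * ‖iteratedFDeriv ℝ k (pt h) (ξ0 + l • η)‖ := by gcongr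
    _ = ‖iteratedFDeriv ℝ k (pt h) (ξ0 + l • η)‖ := one_mul _
    _ ≤ B k := H.2 k hk _

/-! ### gradients -/

theorem gradient_hR {h : E2 → ℝ} (hh : Differentiable ℝ h) (ξ0 : E2) {l : ℝ} (hl : l ≠ 0)
    (η : E2) : gradient (hR h ξ0 l) η = l⁻¹ • (gradient h (ξ0 + l • η) - gradient h ξ0) := by
  refine HasGradientAt.gradient ?_
  rw [hasGradientAt_iff_hasFDerivAt]
  have h1 : HasFDerivAt (fun η : E2 => h (ξ0 + l • η))
      ((fderiv ℝ h (ξ0 + l • η)).comp (l • ContinuousLinearMap.id ℝ E2)) η := by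
    refine (hh (ξ0 + l • η)).hasFDerivAt.comp η ?_
    exact ((hasFDerivAt_id η).const_smul l).const_add ξ0
  have h2 : HasFDerivAt (fun η : E2 => inner ℝ (gradient h ξ0) η) (innerSL ℝ (gradient h ξ0)) η :=
    (innerSL ℝ (gradient h ξ0)).hasFDerivAt
  have h3 := (((h1.sub_const (h ξ0)).sub (h2.const_mul l)).const_mul ((l ^ 2)⁻¹))
  refine h3.congr_fderiv ?_
  ext v
  simp only [smul_apply, sub_apply,
    ContinuousLinearMap.comp_apply, ContinuousLinearMap.id_apply, smul_eq_mul, map_smul,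
    innerSL_apply_apply, InnerProductSpace.toDual_apply_apply, inner_sub_left,
    inner_gradient_left]
  field_simp

theorem gradient_hR_zero {h : E2 → ℝ} (hh : Differentiable ℝ h) (ξ0 : E2) {l : ℝ} (hl : l ≠ 0) :
    gradient (hR h ξ0 l) 0 = 0 := by
  rw [gradient_hR hh ξ0 hl]; simp


/-! ### rotations -/





theorem gradient_rot {h : E2 → ℝ} (hh : Differentiable ℝ h) (U : E2 ≃ₗᵢ[ℝ] E2) (ξ : E2) :
    gradient (h ∘ U) ξ = U.symm (gradient h (U ξ)) := by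
  refine HasGradientAt.gradient ?_
  rw [hasGradientAt_iff_hasFDerivAt]
  have h1 : HasFDerivAt (h ∘ U) ((fderiv ℝ h (U ξ)).comp (U.toContinuousLinearEquiv : E2 →L[ℝ] E2)) ξ :=
    (hh (U ξ)).hasFDerivAt.comp ξ U.toContinuousLinearEquiv.hasFDerivAt
  refine h1.congr_fderiv ?_
  ext v
  simp only [ContinuousLinearMap.comp_apply, InnerProductSpace.toDual_apply_apply]
  rw [U.symm.inner_map_eq_flip, LinearIsometryEquiv.symm_symm, inner_gradient_left]
  rfl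






end Crest.Agent.R138.Resc574
end

-- ▼ part R138/Resc2_574
section

/-! # W6 (parabolic rescaling), part 2: identities for `ext`, change of variables, planks, cylinders
(helper574) -/

set_option autoImplicit false

open MeasureTheory
open scoped ContDiff ENNReal

namespace Crest.Agent.R138.Resc574

open Crest.Agent.R138.Defs

/-! ### the character -/

theorem ee_add (s t : ℝ) : ee (s + t) = ee s * ee t := by
  simp only [ee, ← Complex.exp_add]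
  congr 1
  push_cast
  ring

theorem ee_zero : ee 0 = 1 := by simp [ee]

theorem norm_ee (t : ℝ) : ‖ee t‖ = 1 := by
  rw [ee, Complex.norm_exp_ofReal_mul_I]


theorem continuous_ee : Continuous ee := by unfold ee; fun_prop

/-! ### identities for `ext` -/

/-- translation in physical space = modulation of the amplitude. -/
theorem ext_mod (h : E2 → ℝ) (g : E2 → ℂ) (x x0 : E2) (t t0 : ℝ) :
    ext h (fun ξ => g ξ * ee (inner ℝ x0 ξ + t0 * h ξ)) x t = ext h g (x0 + x) (t0 + t) := by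
  unfold ext
  congr 1
  funext ξ
  rw [mul_assoc, ← ee_add]
  congr 2
  rw [inner_add_left]
  ring



/-- the change of variables in physical space attached to the rescaling. -/
noncomputable def Ph (v : E2) (l : ℝ) (p : E2 × ℝ) : E2 × ℝ := (l • (p.1 + p.2 • v), l ^ 2 * p.2)

/-- **the rescaling identity**. -/
theorem ext_resc (h : E2 → ℝ) (g : E2 → ℂ) (ξ0 : E2) {l : ℝ} (hl : 0 < l) (x : E2) (t : ℝ) :
    ext h g x t = ((l ^ 2 : ℝ) : ℂ) * ee (inner ℝ x ξ0 + t * h ξ0) *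
      ext (hR h ξ0 l) (fun η => g (ξ0 + l • η)) (l • (x + t • gradient h ξ0)) (l ^ 2 * t) := by
  have h1 : ext h g x t = ((l ^ 2 : ℝ) : ℂ) *
      ∫ η : E2, g (ξ0 + l • η) * ee (inner ℝ x (ξ0 + l • η) + t * h (ξ0 + l • η)) := by
    have e := Measure.integral_comp_smul_of_nonneg (volume : Measure E2)
      (fun η => g (ξ0 + η) * ee (inner ℝ x (ξ0 + η) + t * h (ξ0 + η))) l (hR := hl.le)
    rw [integral_add_left_eq_self (fun ξ => g ξ * ee (inner ℝ x ξ + t * h ξ)) ξ0] at e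
    rw [e]
    simp only [finrank_euclideanSpace, Fintype.card_fin]
    unfold ext
    rw [Complex.real_smul, ← mul_assoc, ← Complex.ofReal_mul, mul_inv_cancel₀ (by positivity)]
    simp
  rw [h1, mul_assoc]
  congr 1
  unfold ext
  rw [← integral_const_mul]
  congr 1
  funext η
  have e : inner ℝ x (ξ0 + l • η) + t * h (ξ0 + l • η) = (inner ℝ x ξ0 + t * h ξ0) +
      (inner ℝ (l • (x + t • gradient h ξ0)) η + l ^ 2 * t * hR h ξ0 l η) := by
    rw [h_eq h ξ0 hl.ne' η]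
    simp only [inner_add_right, inner_smul_right, inner_smul_left, inner_add_left, conj_trivial]
    ring
  rw [e, ee_add]
  ring

/-- norm form of the rescaling identity. -/
theorem norm_ext_resc (h : E2 → ℝ) (g : E2 → ℂ) (ξ0 : E2) {l : ℝ} (hl : 0 < l) (p : E2 × ℝ) :
    ‖ext h g p.1 p.2‖ = l ^ 2 * ‖ext (hR h ξ0 l) (fun η => g (ξ0 + l • η))
      (Ph (gradient h ξ0) l p).1 (Ph (gradient h ξ0) l p).2‖ := by
  rw [ext_resc h g ξ0 hl, norm_mul, norm_mul, norm_ee, mul_one, Complex.norm_real,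
    Real.norm_of_nonneg (by positivity)]
  rfl

theorem enorm_ext_resc (h : E2 → ℝ) (g : E2 → ℂ) (ξ0 : E2) {l : ℝ} (hl : 0 < l) (p : E2 × ℝ) :
    ‖ext h g p.1 p.2‖ₑ = ENNReal.ofReal (l ^ 2) * ‖ext (hR h ξ0 l) (fun η => g (ξ0 + l • η))
      (Ph (gradient h ξ0) l p).1 (Ph (gradient h ξ0) l p).2‖ₑ := by
  rw [← ofReal_norm, ← ofReal_norm, norm_ext_resc h g ξ0 hl,
    ENNReal.ofReal_mul (by positivity)]

/-! ### the map `Ph` as a measurable equivalence, measure factor `l^4` -/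

theorem Ph_inj_aux (v : E2) {l : ℝ} (hl : l ≠ 0) (p : E2 × ℝ) :
    ((l⁻¹ • (Ph v l p).1 - ((l ^ 2)⁻¹ * (Ph v l p).2) • v, (l ^ 2)⁻¹ * (Ph v l p).2) : E2 × ℝ)
      = p := by
  have h1 : (l ^ 2)⁻¹ * (l ^ 2 * p.2) = p.2 := by field_simp
  refine Prod.ext ?_ ?_
  · simp only [Ph, h1, smul_smul, inv_mul_cancel₀ hl, one_smul, add_sub_cancel_right]
  · simp only [Ph, h1]

theorem Ph_surj_aux (v : E2) {l : ℝ} (hl : l ≠ 0) (q : E2 × ℝ) :
    Ph v l (l⁻¹ • q.1 - ((l ^ 2)⁻¹ * q.2) • v, (l ^ 2)⁻¹ * q.2) = q := by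
  refine Prod.ext ?_ ?_
  · simp only [Ph, sub_add_cancel, smul_smul, mul_inv_cancel₀ hl, one_smul]
  · simp only [Ph]; field_simp

/-- `Ph` as a homeomorphism. -/
noncomputable def PhH (v : E2) (l : ℝ) (hl : l ≠ 0) : (E2 × ℝ) ≃ₜ (E2 × ℝ) where
  toFun := Ph v l
  invFun q := (l⁻¹ • q.1 - ((l ^ 2)⁻¹ * q.2) • v, (l ^ 2)⁻¹ * q.2)
  left_inv p := Ph_inj_aux v hl p
  right_inv q := Ph_surj_aux v hl q
  continuous_toFun := by unfold Ph; fun_prop
  continuous_invFun := by fun_prop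

@[simp] theorem PhH_apply (v : E2) (l : ℝ) (hl : l ≠ 0) (p : E2 × ℝ) : PhH v l hl p = Ph v l p :=
  rfl

/-- the shear is measure preserving. -/
theorem mp_shear (v : E2) : MeasurePreserving (fun p : E2 × ℝ => (p.1 + p.2 • v, p.2))
    (volume : Measure (E2 × ℝ)) volume := by
  have h1 : MeasurePreserving (fun p : ℝ × E2 => (p.1, p.2 + p.1 • v))
      ((volume : Measure ℝ).prod (volume : Measure E2)) (volume.prod volume) := by
    refine (MeasurePreserving.id _).skew_product (g := fun (a : ℝ) (c : E2) => c + a • v) ?_ ?_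
    · exact (continuous_snd.add (continuous_fst.smul continuous_const)).measurable
    · exact Filter.Eventually.of_forall fun a => (measurePreserving_add_right _ _).map_eq
  have h2 := (Measure.measurePreserving_swap (μ := (volume : Measure ℝ))
    (ν := (volume : Measure E2))).comp (h1.comp
      (Measure.measurePreserving_swap (μ := (volume : Measure E2)) (ν := (volume : Measure ℝ))))
  exact h2

theorem map_scale {l : ℝ} (hl : 0 < l) :
    Measure.map (fun p : E2 × ℝ => (l • p.1, l ^ 2 * p.2)) (volume : Measure (E2 × ℝ)) =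
      ENNReal.ofReal ((l ^ 4)⁻¹) • volume := by
  have h1 : Measure.map (fun x : E2 => l • x) volume = ENNReal.ofReal ((l ^ 2)⁻¹) • volume := by
    rw [Measure.map_addHaar_smul _ hl.ne', abs_of_nonneg (by positivity)]
    simp
  have h2 : Measure.map (fun t : ℝ => l ^ 2 * t) volume =
      ENNReal.ofReal ((l ^ 2)⁻¹) • volume := by
    have := Measure.map_addHaar_smul (volume : Measure ℝ) (r := l ^ 2) (by positivity)
    simp only [smul_eq_mul, Module.finrank_self, pow_one] at this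
    rw [this, abs_of_nonneg (by positivity)]
  have h3 : (fun p : E2 × ℝ => (l • p.1, l ^ 2 * p.2)) =
      Prod.map (fun x : E2 => l • x) (fun t : ℝ => l ^ 2 * t) := rfl
  rw [h3, Measure.volume_eq_prod, ← Measure.map_prod_map _ _ (by fun_prop) (by fun_prop), h1, h2,
    Measure.prod_smul_left, Measure.prod_smul_right, smul_smul,
    ← ENNReal.ofReal_mul (by positivity)]
  congr 2
  field_simp

theorem map_Ph (v : E2) {l : ℝ} (hl : 0 < l) :
    Measure.map (Ph v l) (volume : Measure (E2 × ℝ)) = ENNReal.ofReal ((l ^ 4)⁻¹) • volume := by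
  have e : Ph v l = (fun p : E2 × ℝ => (l • p.1, l ^ 2 * p.2)) ∘
      (fun p : E2 × ℝ => (p.1 + p.2 • v, p.2)) := rfl
  rw [e, ← Measure.map_map (by fun_prop) (mp_shear v).measurable, (mp_shear v).map_eq,
    map_scale hl]

/-- change of variables for arbitrary functions. -/
theorem lintegral_Ph (v : E2) {l : ℝ} (hl : 0 < l) (F : E2 × ℝ → ℝ≥0∞) :
    ∫⁻ p, F (Ph v l p) = ENNReal.ofReal ((l ^ 4)⁻¹) * ∫⁻ q, F q := by
  have h1 := lintegral_map_equiv F (PhH v l hl.ne').toMeasurableEquiv (μ := volume)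
  have h2 : Measure.map ((PhH v l hl.ne').toMeasurableEquiv) (volume : Measure (E2 × ℝ)) =
      ENNReal.ofReal ((l ^ 4)⁻¹) • volume := map_Ph v hl
  rw [h2, lintegral_smul_measure] at h1
  exact h1.symm

/-- change of variables on a set (preimage form). -/
theorem setLIntegral_Ph (v : E2) {l : ℝ} (hl : 0 < l) {A : Set (E2 × ℝ)} (hA : MeasurableSet A)
    (F : E2 × ℝ → ℝ≥0∞) :
    ∫⁻ p in Ph v l ⁻¹' A, F (Ph v l p) = ENNReal.ofReal ((l ^ 4)⁻¹) * ∫⁻ q in A, F q := by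
  have hm : Measurable (Ph v l) := (PhH v l hl.ne').continuous.measurable
  rw [← lintegral_indicator (hm hA), ← lintegral_indicator hA,
    ← lintegral_Ph v hl (A.indicator F)]
  rfl

/-- energy / power integrals of `ext` over preimages. -/
theorem lintegral_ext_resc (h : E2 → ℝ) (g : E2 → ℂ) (ξ0 : E2) {l : ℝ} (hl : 0 < l)
    {A : Set (E2 × ℝ)} (hA : MeasurableSet A) (k : ℕ) :
    ∫⁻ p in Ph (gradient h ξ0) l ⁻¹' A, ‖ext h g p.1 p.2‖ₑ ^ k =
      ENNReal.ofReal (l ^ (2 * k) * (l ^ 4)⁻¹) *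
        ∫⁻ q in A, ‖ext (hR h ξ0 l) (fun η => g (ξ0 + l • η)) q.1 q.2‖ₑ ^ k := by
  have h1 : ∀ p : E2 × ℝ, ‖ext h g p.1 p.2‖ₑ ^ k = ENNReal.ofReal (l ^ (2 * k)) *
      (fun q : E2 × ℝ => ‖ext (hR h ξ0 l) (fun η => g (ξ0 + l • η)) q.1 q.2‖ₑ ^ k)
        (Ph (gradient h ξ0) l p) := by
    intro p
    rw [enorm_ext_resc h g ξ0 hl p, mul_pow, ← ENNReal.ofReal_pow (by positivity), ← pow_mul]
  simp_rw [h1]
  rw [lintegral_const_mul' _ _ ENNReal.ofReal_ne_top]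
  have h2 := setLIntegral_Ph (gradient h ξ0) hl hA
    (fun q : E2 × ℝ => ‖ext (hR h ξ0 l) (fun η => g (ξ0 + l • η)) q.1 q.2‖ₑ ^ k)
  rw [h2, ← mul_assoc, ← ENNReal.ofReal_mul (by positivity)]

/-! ### planks, cylinders, cut-offs -/

/-- **planks**: `Ph` maps planks to planks exactly. -/
theorem mem_plank_Ph (v c : E2) (b : OrthonormalBasis (Fin 2) ℝ E2) (s : Fin 2 → ℝ) (R : ℝ)
    (x0 : E2) (t0 : ℝ) {l : ℝ} (hl : 0 < l) (p : E2 × ℝ) :
    Ph v l p ∈ plank (l⁻¹ • (c - v)) b (fun i => s i / l) (l ^ 2 * R) (Ph v l (x0, t0)).1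
      (Ph v l (x0, t0)).2 ↔ p ∈ plank c b s R x0 t0 := by
  have e1 : (Ph v l p).2 - (Ph v l (x0, t0)).2 = l ^ 2 * (p.2 - t0) := by
    simp only [Ph]; ring
  have e2 : (Ph v l p).1 - (Ph v l (x0, t0)).1 + (l ^ 2 * (p.2 - t0)) •
      (l⁻¹ • (c - v)) = l • (p.1 - x0 + (p.2 - t0) • c) := by
    have : l ^ 2 * (p.2 - t0) * l⁻¹ = l * (p.2 - t0) := by field_simp
    simp only [Ph, smul_smul, this]
    simp only [smul_sub, smul_add, sub_smul, mul_smul]
    module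
  simp only [plank, Set.mem_ofPred_eq, e1, e2, abs_mul, abs_of_pos (pow_pos hl 2),
    inner_smul_left, conj_trivial, abs_of_pos hl]
  refine and_congr ?_ (forall_congr' fun i => ?_)
  · exact mul_le_mul_iff_right₀ (by positivity)
  · have : s i / l * (l ^ 2 * R) = l * (s i * R) := by field_simp
    rw [this]
    exact mul_le_mul_iff_right₀ hl

theorem preimage_plank (v c : E2) (b : OrthonormalBasis (Fin 2) ℝ E2) (s : Fin 2 → ℝ) (R : ℝ)
    (x0 : E2) (t0 : ℝ) {l : ℝ} (hl : 0 < l) :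
    Ph v l ⁻¹' plank (l⁻¹ • (c - v)) b (fun i => s i / l) (l ^ 2 * R) (Ph v l (x0, t0)).1
      (Ph v l (x0, t0)).2 = plank c b s R x0 t0 :=
  Set.ext fun p => mem_plank_Ph v c b s R x0 t0 hl p

/-- the same, starting from a plank in the rescaled space. -/
theorem preimage_plank' (v c' : E2) (b : OrthonormalBasis (Fin 2) ℝ E2) (s' : Fin 2 → ℝ) (R : ℝ)
    (q : E2 × ℝ) {l : ℝ} (hl : 0 < l) :
    Ph v l ⁻¹' plank c' b s' (l ^ 2 * R) q.1 q.2 =
      plank (v + l • c') b (fun i => l * s' i) R ((PhH v l hl.ne').symm q).1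
        ((PhH v l hl.ne').symm q).2 := by
  have h1 := preimage_plank v (v + l • c') b (fun i => l * s' i) R
    ((PhH v l hl.ne').symm q).1 ((PhH v l hl.ne').symm q).2 hl
  have e1 : l⁻¹ • (v + l • c' - v) = c' := by
    rw [add_sub_cancel_left, smul_smul, inv_mul_cancel₀ hl.ne', one_smul]
  have e2 : (fun i => l * s' i / l) = s' := by
    funext i; field_simp
  have e3 : Ph v l (((PhH v l hl.ne').symm q).1, ((PhH v l hl.ne').symm q).2) = q := by
    change PhH v l hl.ne' ((PhH v l hl.ne').symm q) = q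
    exact (PhH v l hl.ne').apply_symm_apply q
  rw [e1, e2, e3] at h1
  exact h1

theorem isClosed_plank (c : E2) (b : OrthonormalBasis (Fin 2) ℝ E2) (s : Fin 2 → ℝ) (R : ℝ)
    (x0 : E2) (t0 : ℝ) : IsClosed (plank c b s R x0 t0) := by
  have : plank c b s R x0 t0 = {p : E2 × ℝ | |p.2 - t0| ≤ R} ∩
      ⋂ i, {p | |inner ℝ (p.1 - x0 + (p.2 - t0) • c) (b i)| ≤ s i * R} := by
    ext p; simp [plank]
  rw [this]
  refine (isClosed_le (by fun_prop) continuous_const).inter (isClosed_iInter fun i => ?_)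
  exact isClosed_le (by fun_prop) continuous_const

theorem measurableSet_plank (c : E2) (b : OrthonormalBasis (Fin 2) ℝ E2) (s : Fin 2 → ℝ) (R : ℝ)
    (x0 : E2) (t0 : ℝ) : MeasurableSet (plank c b s R x0 t0) :=
  (isClosed_plank c b s R x0 t0).measurableSet

/-- the cylinder goes into a long cylinder. -/
theorem Ph_mem_of_cyl (v : E2) {l R : ℝ} (hl : 0 < l) {p : E2 × ℝ} (hp : p ∈ cyl R) :
    ‖(Ph v l p).1‖ ≤ l * ((1 + ‖v‖) * R) ∧ |(Ph v l p).2| ≤ l ^ 2 * R := by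
  obtain ⟨h1, h2⟩ := hp
  constructor
  · simp only [Ph, norm_smul, Real.norm_of_nonneg hl.le]
    gcongr
    calc ‖p.1 + p.2 • v‖ ≤ ‖p.1‖ + ‖p.2 • v‖ := norm_add_le _ _
      _ ≤ R + R * ‖v‖ := by
        rw [norm_smul, Real.norm_eq_abs]
        gcongr
      _ = (1 + ‖v‖) * R := by ring
  · simp only [Ph, abs_mul, abs_of_pos (pow_pos hl 2)]
    gcongr


/-- **cut-offs**. -/
theorem chi_resc {h : E2 → ℝ} (hh : Differentiable ℝ h) (ξ0 c : E2)
    (b : OrthonormalBasis (Fin 2) ℝ E2) (s : Fin 2 → ℝ) (ψ : E2 → ℂ) {l : ℝ} (hl : l ≠ 0)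
    (η : E2) :
    chi (hR h ξ0 l) (l⁻¹ • (c - gradient h ξ0)) b (fun i => s i / l) ψ η =
      chi h c b s ψ (ξ0 + l • η) := by
  unfold chi
  congr 1
  congr 1
  funext i
  rw [gradient_hR hh ξ0 hl, ← smul_sub, sub_sub_sub_cancel_right, inner_smul_left]
  simp only [conj_trivial]
  field_simp

/-- the same, starting from a cut-off in the rescaled space. -/
theorem chi_resc' {h : E2 → ℝ} (hh : Differentiable ℝ h) (ξ0 c' : E2)
    (b : OrthonormalBasis (Fin 2) ℝ E2) (s' : Fin 2 → ℝ) (ψ : E2 → ℂ) {l : ℝ} (hl : l ≠ 0)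
    (η : E2) :
    chi (hR h ξ0 l) c' b s' ψ η =
      chi h (gradient h ξ0 + l • c') b (fun i => l * s' i) ψ (ξ0 + l • η) := by
  rw [← chi_resc hh ξ0 _ b _ ψ hl η]
  congr 1
  · rw [add_sub_cancel_left, smul_smul, inv_mul_cancel₀ hl, one_smul]
  · funext i; field_simp

end Crest.Agent.R138.Resc574
end

-- ▼ part R138/Resc3_574
section

/-! # W6 (parabolic rescaling), part 3: box bounds under rescaling, modulation, rotation, affine
changes of the phase (helper574) -/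

set_option autoImplicit false

open MeasureTheory
open scoped ContDiff ENNReal

namespace Crest.Agent.R138.Resc574

open Crest.Agent.R138.Defs

/-- the box bound for planks with base points in `S`. -/
def BoxOn (N : ℕ) (h : E2 → ℝ) (g : E2 → ℂ) (R D : ℝ) (S : Set (E2 × ℝ)) : Prop :=
  ∀ (c : E2) (b : OrthonormalBasis (Fin 2) ℝ E2) (s : Fin 2 → ℝ),
    (∀ i, R ^ (-(1/2) : ℝ) ≤ s i ∧ s i ≤ 1) → ∀ ψ, Adm N ψ → ∀ p0 : E2 × ℝ, p0 ∈ S →
      ∫⁻ p in plank c b s R p0.1 p0.2, ‖ext h (fun ξ => g ξ * chi h c b s ψ ξ) p.1 p.2‖ₑ ^ 2 ≤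
        ENNReal.ofReal (D * (s 0 * s 1 * R ^ 3))


theorem BoxOn.mono {N : ℕ} {h : E2 → ℝ} {g : E2 → ℂ} {R D : ℝ} {S S' : Set (E2 × ℝ)}
    (H : BoxOn N h g R D S) (hS : S' ⊆ S) : BoxOn N h g R D S' :=
  fun c b s hs ψ hψ p0 hp => H c b s hs ψ hψ p0 (hS hp)


/-! ### rescaling -/


/-- L² norm of the rescaled amplitude. -/
theorem integral_sq_resc (g : E2 → ℂ) (ξ0 : E2) {l : ℝ} (hl : 0 < l) :
    ∫ η, ‖g (ξ0 + l • η)‖ ^ 2 = (l ^ 2)⁻¹ * ∫ ξ, ‖g ξ‖ ^ 2 := by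
  have e := Measure.integral_comp_smul_of_nonneg (volume : Measure E2)
    (fun η => ‖g (ξ0 + η)‖ ^ 2) l (hR := hl.le)
  rw [integral_add_left_eq_self (fun ξ => ‖g ξ‖ ^ 2) ξ0] at e
  rw [e]
  simp only [finrank_euclideanSpace, Fintype.card_fin, smul_eq_mul]


/-- support of the rescaled amplitude. -/
theorem supp_resc {g : E2 → ℂ} {ξ0 : E2} {l r : ℝ} (hl : 0 < l)
    (hg : ∀ ξ, l * r < ‖ξ - ξ0‖ → g ξ = 0) : ∀ η, r < ‖η‖ → g (ξ0 + l • η) = 0 := by
  intro η hη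
  apply hg
  rw [add_sub_cancel_left, norm_smul, Real.norm_of_nonneg hl.le]
  gcongr

/-- the `L³` integral under rescaling: `∫_{Ph⁻¹ A} |ext h g|³ = l² ∫_A |ext hR g~|³`. -/
theorem lintegral_cube_resc (h : E2 → ℝ) (g : E2 → ℂ) (ξ0 : E2) {l : ℝ} (hl : 0 < l)
    {A : Set (E2 × ℝ)} (hA : MeasurableSet A) :
    ∫⁻ p in Ph (gradient h ξ0) l ⁻¹' A, ‖ext h g p.1 p.2‖ₑ ^ 3 = ENNReal.ofReal (l ^ 2) *
        ∫⁻ q in A, ‖ext (hR h ξ0 l) (fun η => g (ξ0 + l • η)) q.1 q.2‖ₑ ^ 3 := by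
  rw [lintegral_ext_resc h g ξ0 hl hA 3]
  congr 2
  field_simp

/-- the `L²` integral under rescaling: `∫_{Ph⁻¹ A} |ext h g|² = ∫_A |ext hR g~|²`. -/
theorem lintegral_sq_ext_resc (h : E2 → ℝ) (g : E2 → ℂ) (ξ0 : E2) {l : ℝ} (hl : 0 < l)
    {A : Set (E2 × ℝ)} (hA : MeasurableSet A) :
    ∫⁻ p in Ph (gradient h ξ0) l ⁻¹' A, ‖ext h g p.1 p.2‖ₑ ^ 2 =
        ∫⁻ q in A, ‖ext (hR h ξ0 l) (fun η => g (ξ0 + l • η)) q.1 q.2‖ₑ ^ 2 := by
  rw [lintegral_ext_resc h g ξ0 hl hA 2]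
  have h3 : l ^ (2 * 2) * (l ^ 4)⁻¹ = 1 := mul_inv_cancel₀ (by positivity)
  rw [h3, ENNReal.ofReal_one, one_mul]

/-! ### modulation = translation in physical space -/

/-- the modulated amplitude. -/
noncomputable def md (h : E2 → ℝ) (p0 : E2 × ℝ) (g : E2 → ℂ) (ξ : E2) : ℂ :=
  g ξ * ee (inner ℝ p0.1 ξ + p0.2 * h ξ)

theorem ext_md (h : E2 → ℝ) (g : E2 → ℂ) (p0 : E2 × ℝ) (x : E2) (t : ℝ) :
    ext h (md h p0 g) x t = ext h g (p0.1 + x) (p0.2 + t) := ext_mod h g x p0.1 t p0.2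





theorem md_mul (h : E2 → ℝ) (g χ : E2 → ℂ) (p0 : E2 × ℝ) (ξ : E2) :
    md h p0 g ξ * χ ξ = md h p0 (fun ξ => g ξ * χ ξ) ξ := by
  simp only [md]; ring

/-- integrals of the modulated wave = integrals over translates. -/
theorem lintegral_md (h : E2 → ℝ) (g : E2 → ℂ) (p0 : E2 × ℝ) {A : Set (E2 × ℝ)}
    (hA : MeasurableSet A) (k : ℕ) :
    ∫⁻ p in A, ‖ext h (md h p0 g) p.1 p.2‖ₑ ^ k =
      ∫⁻ p in (fun q => -p0 + q) ⁻¹' A, ‖ext h g p.1 p.2‖ₑ ^ k := by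
  have hm : Measurable fun q : E2 × ℝ => -p0 + q := by fun_prop
  haveI : (volume : Measure (E2 × ℝ)).IsAddLeftInvariant :=
    inferInstanceAs ((volume : Measure E2).prod (volume : Measure ℝ)).IsAddLeftInvariant
  rw [← lintegral_indicator hA, ← lintegral_indicator (hm hA)]
  rw [← lintegral_add_left_eq_self _ (-p0)]
  refine lintegral_congr fun q => ?_
  by_cases hq : -p0 + q ∈ A
  · rw [Set.indicator_of_mem hq, Set.indicator_of_mem (by exact hq), ext_md]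
    simp
  · rw [Set.indicator_of_notMem hq, Set.indicator_of_notMem (by exact hq)]

theorem plank_translate (c : E2) (b : OrthonormalBasis (Fin 2) ℝ E2) (s : Fin 2 → ℝ) (R : ℝ)
    (p1 p0 : E2 × ℝ) :
    (fun q => -p0 + q) ⁻¹' plank c b s R p1.1 p1.2 = plank c b s R (p0 + p1).1 (p0 + p1).2 := by
  ext q
  simp only [plank, Set.mem_preimage, Set.mem_ofPred_eq, Prod.fst_add, Prod.snd_add, Prod.fst_neg,
    Prod.snd_neg]
  have e1 : -p0.2 + q.2 - p1.2 = q.2 - (p0.2 + p1.2) := by ring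
  have e2 : -p0.1 + q.1 - p1.1 = q.1 - (p0.1 + p1.1) := by abel
  rw [e1, e2]

/-- box bounds under modulation. -/
theorem BoxOn.md {N : ℕ} {h : E2 → ℝ} {g : E2 → ℂ} {R D : ℝ} {S : Set (E2 × ℝ)}
    (H : BoxOn N h g R D S) (p0 : E2 × ℝ) :
    BoxOn N h (md h p0 g) R D ((fun q => p0 + q) ⁻¹' S) := by
  intro c b s hs ψ hψ p1 hp1
  have e : (fun ξ => Resc574.md h p0 g ξ * chi h c b s ψ ξ) =
      Resc574.md h p0 (fun ξ => g ξ * chi h c b s ψ ξ) := by
    funext ξ; exact md_mul h g _ p0 ξ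
  rw [e, lintegral_md h _ p0 (measurableSet_plank _ _ _ _ _ _) 2, plank_translate]
  exact H c b s hs ψ hψ (p0 + p1) hp1

/-! ### rotations -/

theorem ext_rot (h : E2 → ℝ) (g : E2 → ℂ) (U : E2 ≃ₗᵢ[ℝ] E2) (x : E2) (t : ℝ) :
    ext (h ∘ U) (g ∘ U) x t = ext h g (U x) t := by
  unfold ext
  rw [← U.measurePreserving.integral_comp U.toMeasurableEquiv.measurableEmbedding
    (fun ξ => g ξ * ee (inner ℝ (U x) ξ + t * h ξ))]
  congr 1
  funext ξ
  simp [U.inner_map_map]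

/-- the rotation of physical space. -/
noncomputable def rt (U : E2 ≃ₗᵢ[ℝ] E2) (p : E2 × ℝ) : E2 × ℝ := (U p.1, p.2)

theorem mp_rt (U : E2 ≃ₗᵢ[ℝ] E2) : MeasurePreserving (rt U) (volume : Measure (E2 × ℝ)) volume :=
  U.measurePreserving.prod (MeasurePreserving.id _)

theorem chi_rot {h : E2 → ℝ} (hh : Differentiable ℝ h) (U : E2 ≃ₗᵢ[ℝ] E2) (c : E2)
    (b : OrthonormalBasis (Fin 2) ℝ E2) (s : Fin 2 → ℝ) (ψ : E2 → ℂ) (ξ : E2) :
    chi (h ∘ U) (U.symm c) (b.map U.symm) s ψ ξ = chi h c b s ψ (U ξ) := by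
  unfold chi
  congr 2
  funext i
  rw [gradient_rot hh U, ← map_sub, OrthonormalBasis.map_apply, U.symm.inner_map_map]

theorem preimage_plank_rot (U : E2 ≃ₗᵢ[ℝ] E2) (c : E2) (b : OrthonormalBasis (Fin 2) ℝ E2)
    (s : Fin 2 → ℝ) (R : ℝ) (x0 : E2) (t0 : ℝ) :
    rt U ⁻¹' plank c b s R x0 t0 = plank (U.symm c) (b.map U.symm) s R (U.symm x0) t0 := by
  ext p
  simp only [plank, rt, Set.mem_preimage, Set.mem_ofPred_eq]
  have : ∀ i, inner ℝ (p.1 - U.symm x0 + (p.2 - t0) • U.symm c) ((b.map U.symm) i) =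
      inner ℝ (U p.1 - x0 + (p.2 - t0) • c) (b i) := by
    intro i
    rw [OrthonormalBasis.map_apply, ← U.inner_map_map]
    simp
  simp only [this]

theorem lintegral_rot (h : E2 → ℝ) (g : E2 → ℂ) (U : E2 ≃ₗᵢ[ℝ] E2) (A : Set (E2 × ℝ))
    (k : ℕ) :
    ∫⁻ p in rt U ⁻¹' A, ‖ext (h ∘ U) (g ∘ U) p.1 p.2‖ₑ ^ k =
      ∫⁻ p in A, ‖ext h g p.1 p.2‖ₑ ^ k := by
  have hemb : MeasurableEmbedding (rt U) :=
    (MeasurableEquiv.prodCongr U.toMeasurableEquiv (MeasurableEquiv.refl ℝ)).measurableEmbedding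
  rw [← (mp_rt U).setLIntegral_comp_preimage_emb hemb (fun p => ‖ext h g p.1 p.2‖ₑ ^ k) A]
  refine lintegral_congr fun p => ?_
  rw [ext_rot]
  rfl

/-- box bounds under rotations. -/
theorem BoxOn.rot {N : ℕ} {h : E2 → ℝ} (hh : Differentiable ℝ h) {g : E2 → ℂ} {R D : ℝ}
    {S : Set (E2 × ℝ)} (H : BoxOn N h g R D S) (U : E2 ≃ₗᵢ[ℝ] E2) :
    BoxOn N (h ∘ U) (g ∘ U) R D (rt U ⁻¹' S) := by
  intro c b s hs ψ hψ p0 hp0
  have hc : c = U.symm (U c) := by simp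
  have hb : b = (b.map U).map U.symm := by
    refine DFunLike.ext _ _ fun i => ?_
    simp
  have e : (fun ξ => (g ∘ U) ξ * chi (h ∘ U) c b s ψ ξ) =
      (fun ξ => g ξ * chi h (U c) (b.map U) s ψ ξ) ∘ U := by
    funext ξ
    simp only [Function.comp_apply]
    rw [← chi_rot hh U (U c) (b.map U) s ψ ξ, ← hc, ← hb]
  have hpl : plank c b s R p0.1 p0.2 = rt U ⁻¹' plank (U c) (b.map U) s R (U p0.1) p0.2 := by
    rw [preimage_plank_rot, ← hc, ← hb]; simp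
  rw [e, hpl, lintegral_rot h _ U _ 2]
  exact H (U c) (b.map U) s hs ψ hψ (rt U p0) hp0

/-! ### affine changes of the phase -/







end Crest.Agent.R138.Resc574
end

-- ▼ part R138/Zm1_858
section

/-!
# R138 / R139: ZOOM (helper858), part 1: local averages under the parabolic rescaling

`AA_resc`: the local average at scale `w` of `ext h g` around `z` is bounded by
`C l^4 *` the local average at scale `l w` of the rescaled wave around `Ph z`
(near-conservation of the local energy over times `l w`).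
-/

set_option autoImplicit false

open MeasureTheory FourierTransform
open scoped ContDiff ENNReal

namespace Crest.Agent.R138.Zm858

open Crest.Agent.R138.Defs Crest.Agent.R138.Bil882 Crest.Agent.R138.W188
open Crest.Agent.R138.Resc574 (hR Ph PhH lintegral_Ph enorm_ext_resc)
open Crest.Agent.R138.Wf448 (dw gw wE LI sl wE_sl transport_far gradient_lip dw_pos)
open Crest.Agent.R138.T774 (AA)

/-- scaling by `r⁻¹`. -/
noncomputable def sc (r : ℝ) : E2 →L[ℝ] E2 := r⁻¹ • ContinuousLinearMap.id ℝ E2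

theorem norm_sc {r : ℝ} (hr : 0 < r) (x : E2) : ‖sc r x‖ = ‖x‖ / r := by
  unfold sc
  rw [smul_apply, ContinuousLinearMap.id_apply, norm_smul, Real.norm_eq_abs,
    abs_of_pos (inv_pos.2 hr), inv_mul_eq_div]

theorem opNorm_sc {r : ℝ} (hr : 1 ≤ r) : ‖sc r‖ ≤ r ^ (-(1/2) : ℝ) := by
  have h1 : ‖sc r‖ ≤ r⁻¹ := by
    refine ContinuousLinearMap.opNorm_le_bound _ (by positivity) fun x => ?_
    rw [norm_sc (by linarith), div_eq_inv_mul]
  refine h1.trans ?_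
  rw [← Real.rpow_neg_one]
  exact Real.rpow_le_rpow_of_exponent_le hr (by norm_num)

/-- splitting of the weight. -/
theorem wt_split (n k : ℕ) {l w : ℝ} (hl : 0 < l) (hw : 0 < w) {v : E2} (hv : ‖v‖ ≤ 2)
    (z p : E2 × ℝ) :
    wt (2 * n + k) w z.1 z.2 p ≤ 4 ^ n * (dw n (sc (l * w)) ((Ph v l p).1 - (Ph v l z).1) *
      ((1 + |(Ph v l p).2 - (Ph v l z).2| / (l ^ 2 * w)) ^ k)⁻¹) := by
  set a : ℝ := (‖p.1 - z.1‖ + |p.2 - z.2|) / w with ha
  have ha0 : 0 ≤ a := by positivity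
  have hlw : 0 < l * w := mul_pos hl hw
  have hb : ‖sc (l * w) ((Ph v l p).1 - (Ph v l z).1)‖ ≤ 2 * a := by
    rw [norm_sc hlw]
    have e : (Ph v l p).1 - (Ph v l z).1 = l • ((p.1 - z.1) + (p.2 - z.2) • v) := by
      simp only [Ph]; module
    rw [e, norm_smul, Real.norm_of_nonneg hl.le, ha, div_le_iff₀ hlw]
    have h1 : ‖(p.1 - z.1) + (p.2 - z.2) • v‖ ≤ 2 * (‖p.1 - z.1‖ + |p.2 - z.2|) := by
      refine (norm_add_le _ _).trans ?_
      rw [norm_smul, Real.norm_eq_abs]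
      nlinarith [norm_nonneg (p.1 - z.1), abs_nonneg (p.2 - z.2), norm_nonneg v]
    calc l * ‖(p.1 - z.1) + (p.2 - z.2) • v‖ ≤ l * (2 * (‖p.1 - z.1‖ + |p.2 - z.2|)) := by gcongr
      _ = _ := by field_simp
  have hc : |(Ph v l p).2 - (Ph v l z).2| / (l ^ 2 * w) ≤ a := by
    have e : (Ph v l p).2 - (Ph v l z).2 = l ^ 2 * (p.2 - z.2) := by simp only [Ph]; ring
    rw [e, abs_mul, abs_of_pos (pow_pos hl 2), mul_div_mul_left _ _ (pow_pos hl 2).ne', ha]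
    gcongr
    linarith [norm_nonneg (p.1 - z.1)]
  have e1 : wt (2 * n + k) w z.1 z.2 p = (((1 + a) ^ 2) ^ n)⁻¹ * ((1 + a) ^ k)⁻¹ := by
    unfold wt
    rw [← ha, pow_add, mul_inv, pow_mul]
  have f1 : (((1 + a) ^ 2) ^ n)⁻¹ ≤ 4 ^ n * dw n (sc (l * w)) ((Ph v l p).1 - (Ph v l z).1) := by
    unfold dw gw
    set b : ℝ := ‖sc (l * w) ((Ph v l p).1 - (Ph v l z).1)‖ with hbb
    have hb0 : 0 ≤ b := norm_nonneg _
    have h3 : (1 + b ^ 2) ^ n ≤ 4 ^ n * ((1 + a) ^ 2) ^ n := by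
      rw [← mul_pow]
      refine pow_le_pow_left₀ (by positivity) ?_ n
      nlinarith
    calc (((1 + a) ^ 2) ^ n)⁻¹ = 4 ^ n * (4 ^ n * ((1 + a) ^ 2) ^ n)⁻¹ := by
          field_simp
      _ ≤ _ := by gcongr
  have f2 : ((1 + a) ^ k)⁻¹ ≤ ((1 + |(Ph v l p).2 - (Ph v l z).2| / (l ^ 2 * w)) ^ k)⁻¹ := by
    refine inv_anti₀ (by positivity) ?_
    gcongr
  rw [e1, ← mul_assoc]
  exact mul_le_mul f1 f2 (by positivity) (mul_nonneg (by positivity) (dw_pos _ _ _).le)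

theorem dw_le_wt (n : ℕ) {W : ℝ} (hW : 0 < W) (c x : E2) {t T : ℝ} (ht : |t - T| ≤ W) :
    dw n (sc W) (x - c) ≤ 8 ^ n * wt (2 * n) W c T (x, t) := by
  unfold dw gw wt
  rw [norm_sc hW]
  simp only []
  set b : ℝ := ‖x - c‖ / W with hb
  have hb0 : 0 ≤ b := by positivity
  have h1 : (‖x - c‖ + |t - T|) / W ≤ b + 1 := by
    rw [add_div, hb]
    have : |t - T| / W ≤ 1 := by rw [div_le_one hW]; exact ht
    linarith
  have h2 : 0 ≤ (‖x - c‖ + |t - T|) / W := by positivity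
  have h3 : (1 + (‖x - c‖ + |t - T|) / W) ^ 2 ≤ (b + 2) ^ 2 := by
    apply pow_le_pow_left₀ (by positivity); linarith
  have h4 : ((1 + (‖x - c‖ + |t - T|) / W) ^ 2) ^ n ≤ 8 ^ n * (1 + b ^ 2) ^ n := by
    rw [← mul_pow]
    refine pow_le_pow_left₀ (by positivity) ?_ n
    nlinarith [sq_nonneg (b - 1)]
  rw [pow_mul]
  calc ((1 + b ^ 2) ^ n)⁻¹ = 8 ^ n * (8 ^ n * (1 + b ^ 2) ^ n)⁻¹ := by field_simp
    _ ≤ _ := by gcongr

/-- integral of the time weight. -/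
theorem lint_time : ∃ C : ℝ, 0 ≤ C ∧ ∀ K : ℝ, 0 < K → ∀ T : ℝ,
    ∫⁻ t : ℝ, ENNReal.ofReal (((1 + |t - T| / K) ^ 2)⁻¹) ≤ ENNReal.ofReal (C * K) := by
  have h1 : ∫⁻ s : ℝ, ENNReal.ofReal ((1 + ‖s‖) ^ (-(2:ℝ))) < ⊤ := by
    apply finite_integral_one_add_norm
    norm_num
  refine ⟨(∫⁻ s : ℝ, ENNReal.ofReal ((1 + ‖s‖) ^ (-(2:ℝ)))).toReal, ENNReal.toReal_nonneg,
    fun K hK T => ?_⟩
  have e1 : ∫⁻ t : ℝ, ENNReal.ofReal (((1 + |t - T| / K) ^ 2)⁻¹) =
      ∫⁻ t : ℝ, ENNReal.ofReal (((1 + |t| / K) ^ 2)⁻¹) :=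
    lintegral_sub_right_eq_self (fun t : ℝ => ENNReal.ofReal (((1 + |t| / K) ^ 2)⁻¹)) T
  have e2 : ∀ t : ℝ, ENNReal.ofReal (((1 + |t| / K) ^ 2)⁻¹) =
      (fun s : ℝ => ENNReal.ofReal ((1 + ‖s‖) ^ (-(2:ℝ)))) (K⁻¹ • t) := by
    intro t
    simp only []
    rw [Real.rpow_neg (by positivity), Real.rpow_two, smul_eq_mul, norm_mul, Real.norm_eq_abs,
      Real.norm_eq_abs, abs_of_pos (inv_pos.2 hK), inv_mul_eq_div]
  have hm : Measurable fun s : ℝ => ENNReal.ofReal ((1 + ‖s‖) ^ (-(2:ℝ))) := by fun_prop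
  have h2 := Measure.map_addHaar_smul (volume : Measure ℝ) (inv_ne_zero hK.ne')
  rw [e1, lintegral_congr e2, ← lintegral_map hm (measurable_const_smul _), h2,
    lintegral_smul_measure, Module.finrank_self, pow_one, inv_inv, abs_of_pos hK, smul_eq_mul,
    mul_comm, ENNReal.ofReal_mul ENNReal.toReal_nonneg, ENNReal.ofReal_toReal h1.ne]

/-- the slice energies at all times are controlled by the space time average. -/
theorem slice_avg (n : ℕ) (B : ℕ → ℝ) (hB : B 2 ≤ 1) : ∃ C : ℝ, 0 ≤ C ∧ ∀ h, ParB B h →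
    gradient h 0 = 0 → ∀ g : E2 → ℂ, Integrable g → MemLp g 2 → (∀ ξ, 1 / 2 < ‖ξ‖ → g ξ = 0) →
    ∀ (W : ℝ), 1 ≤ W → ∀ (c : E2) (T t : ℝ),
    ENNReal.ofReal (2 * W) * wE n (sc W) c (sl h g t) ≤
      ENNReal.ofReal (C * (1 + |t - T| / W) ^ (2 * n)) * (ENNReal.ofReal (W ^ 3) *
        AA (2 * n) W (fun p => ext h g p.1 p.2) (c, T)) := by
  obtain ⟨C, hC, H⟩ := transport_far (V := E2) (W := E2) n
    (1 + ∑ k ∈ Finset.range (max n 2 + 1), |B k|)
  refine ⟨C * 4 ^ n * 8 ^ n, by positivity, ?_⟩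
  intro h hh hg0 g hg hg2 hgs W hW c T t
  have hW0 : 0 < W := by linarith
  have hcont := F4x858.continuous_ext hh.1.continuous hg
  have hgrad : ∀ ξ ∈ Metric.closedBall (0:E2) (1/2), ‖sc W (gradient h ξ - 0)‖ ≤ 1 / W := by
    intro ξ hξ
    rw [sub_zero, norm_sc hW0]
    have h1 := gradient_lip hh.1 (M := 2)
      (fun ξ => (Wf448.ParB.bound hh 2 le_rfl ξ).trans (by linarith)) ξ 0
    rw [hg0, sub_zero, sub_zero] at h1
    rw [mem_closedBall_zero_iff] at hξ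
    gcongr
    linarith
  have key : ∀ s ∈ Set.Icc (T - W) (T + W), wE n (sc W) c (sl h g t) ≤
      ENNReal.ofReal (C * 4 ^ n * (1 + |t - T| / W) ^ (2 * n)) * wE n (sc W) c (sl h g s) := by
    intro s hs
    have h1 := H (sc W) h hh.1 (Wf448.ParB.bound_max hh n) W hW (opNorm_sc hW) 0
      (Metric.closedBall (0:E2) (1/2)) Metric.isBounded_closedBall hgrad g hg hg2
      (fun ξ hξ => by
        rw [mem_closedBall_zero_iff]
        by_contra h2
        exact hξ (hgs ξ (not_le.1 h2))) c s (t - s)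
    rw [smul_zero, sub_zero, add_sub_cancel] at h1
    refine h1.trans ?_
    gcongr ENNReal.ofReal ?_ * _
    rw [mul_assoc C]
    gcongr
    have h2 : |t - s| ≤ |t - T| + W := by
      have h3 : |T - s| ≤ W := by rw [abs_le]; constructor <;> linarith [hs.1, hs.2]
      calc |t - s| = |(t - T) + (T - s)| := by ring_nf
        _ ≤ |t - T| + |T - s| := abs_add_le _ _
        _ ≤ _ := by linarith
    have h4 : 1 + |t - s| / W ≤ 2 * (1 + |t - T| / W) := by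
      have h5 : |t - s| / W ≤ (|t - T| + W) / W := by gcongr
      rw [add_div, div_self hW0.ne'] at h5
      have : 0 ≤ |t - T| / W := by positivity
      linarith
    calc (1 + |t - s| / W) ^ (2 * n) ≤ (2 * (1 + |t - T| / W)) ^ (2 * n) := by gcongr
      _ = 4 ^ n * (1 + |t - T| / W) ^ (2 * n) := by
        rw [mul_pow, pow_mul 2 2 n]; norm_num
  have hslab : ∫⁻ s in Set.Icc (T - W) (T + W), wE n (sc W) c (sl h g s) ≤
      ENNReal.ofReal (8 ^ n) * (ENNReal.ofReal (W ^ 3) *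
        AA (2 * n) W (fun p => ext h g p.1 p.2) (c, T)) := by
    have e0 : ENNReal.ofReal (W ^ 3) * AA (2 * n) W (fun p => ext h g p.1 p.2) (c, T) =
        ∫⁻ p : E2 × ℝ, ‖ext h g p.1 p.2‖ₑ ^ 2 * ENNReal.ofReal (wt (2 * n) W c T p) := by
      unfold AA
      rw [← mul_assoc, ← ENNReal.ofReal_mul (by positivity), mul_inv_cancel₀ (by positivity),
        ENNReal.ofReal_one, one_mul]
    have hm : Measurable fun p : E2 × ℝ =>
        ‖ext h g p.1 p.2‖ₑ ^ 2 * ENNReal.ofReal (wt (2 * n) W c T p) :=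
      (hcont.measurable.enorm.pow_const 2).mul (measurable_wt _ _ _ _).ennreal_ofReal
    rw [e0, Measure.volume_eq_prod, lintegral_prod_symm _ hm.aemeasurable,
      ← lintegral_const_mul' _ _ ENNReal.ofReal_ne_top]
    refine (setLIntegral_mono_ae' measurableSet_Icc (Filter.Eventually.of_forall fun s hs => ?_)).trans
      (setLIntegral_le_lintegral _ _)
    have hs' : |s - T| ≤ W := by rw [abs_le]; constructor <;> linarith [hs.1, hs.2]
    rw [wE_sl, ← lintegral_const_mul' _ _ ENNReal.ofReal_ne_top]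
    refine lintegral_mono fun x => ?_
    rw [ENNReal.ofReal_mul (dw_pos _ _ _).le, ← ofReal_norm, ENNReal.ofReal_pow (norm_nonneg _)]
    calc ENNReal.ofReal (dw n (sc W) (x - c)) * ENNReal.ofReal ‖ext h g x s‖ ^ 2
        ≤ ENNReal.ofReal (8 ^ n * wt (2 * n) W c T (x, s)) * ENNReal.ofReal ‖ext h g x s‖ ^ 2 := by
          gcongr
          exact dw_le_wt n hW0 c x hs'
      _ = _ := by
          rw [ENNReal.ofReal_mul (by positivity)]
          ring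
  calc ENNReal.ofReal (2 * W) * wE n (sc W) c (sl h g t)
      = ∫⁻ _s in Set.Icc (T - W) (T + W), wE n (sc W) c (sl h g t) := by
        rw [setLIntegral_const, Real.volume_Icc, mul_comm]
        congr 2; ring
    _ ≤ ∫⁻ s in Set.Icc (T - W) (T + W),
        ENNReal.ofReal (C * 4 ^ n * (1 + |t - T| / W) ^ (2 * n)) * wE n (sc W) c (sl h g s) :=
        setLIntegral_mono_ae' measurableSet_Icc (Filter.Eventually.of_forall key)
    _ = ENNReal.ofReal (C * 4 ^ n * (1 + |t - T| / W) ^ (2 * n)) *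
        ∫⁻ s in Set.Icc (T - W) (T + W), wE n (sc W) c (sl h g s) :=
        lintegral_const_mul' _ _ ENNReal.ofReal_ne_top
    _ ≤ ENNReal.ofReal (C * 4 ^ n * (1 + |t - T| / W) ^ (2 * n)) * (ENNReal.ofReal (8 ^ n) *
        (ENNReal.ofReal (W ^ 3) * AA (2 * n) W (fun p => ext h g p.1 p.2) (c, T))) := by gcongr
    _ = _ := by
        rw [← mul_assoc, ← ENNReal.ofReal_mul (by positivity)]
        congr 2
        ring

end Crest.Agent.R138.Zm858
end

-- ▼ part R138/Zm2_858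
section

/-!
# R138 / R139: ZOOM (helper858), part 2: `AA_resc`, change of scale of the averages
-/

set_option autoImplicit false

open MeasureTheory FourierTransform
open scoped ContDiff ENNReal

namespace Crest.Agent.R138.Zm858

open Crest.Agent.R138.Defs Crest.Agent.R138.Bil882 Crest.Agent.R138.W188
open Crest.Agent.R138.Resc574 (hR Ph PhH lintegral_Ph enorm_ext_resc parB_hR gradient_hR_zero)
open Crest.Agent.R138.Wf448 (dw gw wE LI sl wE_sl transport_far gradient_lip dw_pos)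
open Crest.Agent.R138.T774 (AA)
open Crest.Agent.R138.F4x858 (memLp_of_bdd)

/-- bounded measurable functions supported in a ball are integrable. -/
theorem memLp_ball {g : E2 → ℂ} (hm : Measurable g) (hb : ∃ M : ℝ, ∀ ξ, ‖g ξ‖ ≤ M) {ξ0 : E2}
    {r : ℝ} (hs : ∀ ξ, r < ‖ξ - ξ0‖ → g ξ = 0) (p : ℝ≥0∞) : MemLp g p := by
  obtain ⟨M, hM⟩ := hb
  refine memLp_of_bdd hm hM (S := Metric.closedBall ξ0 r) measure_closedBall_lt_top
    Metric.isClosed_closedBall.measurableSet (fun ξ hξ => hs ξ ?_) p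
  rw [Metric.mem_closedBall, dist_eq_norm, not_le] at hξ
  exact hξ

theorem int_ball {g : E2 → ℂ} (hm : Measurable g) (hb : ∃ M : ℝ, ∀ ξ, ‖g ξ‖ ≤ M) {ξ0 : E2}
    {r : ℝ} (hs : ∀ ξ, r < ‖ξ - ξ0‖ → g ξ = 0) : Integrable g :=
  memLp_one_iff_integrable.1 (memLp_ball hm hb hs 1)

/-- **Lemma A**: local averages under the parabolic rescaling. -/
theorem AA_resc (n : ℕ) (B : ℕ → ℝ) (hB : B 2 ≤ 1) : ∃ C : ℝ, 0 ≤ C ∧ ∀ h, ParB B h →
    ∀ (g : E2 → ℂ) (ξ0 : E2) (l w : ℝ), 0 < l → l ≤ 1 → 0 < w → 1 ≤ l * w →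
    ‖gradient h ξ0‖ ≤ 2 → Measurable g → (∃ M : ℝ, ∀ ξ, ‖g ξ‖ ≤ M) →
    (∀ ξ, l / 2 < ‖ξ - ξ0‖ → g ξ = 0) → ∀ z : E2 × ℝ,
    AA (2 * n + (2 * n + 2)) w (fun p => ext h g p.1 p.2) z ≤
      ENNReal.ofReal (C * l ^ 4) * AA (2 * n) (l * w)
        (fun p => ext (hR h ξ0 l) (fun η => g (ξ0 + l • η)) p.1 p.2)
        (Ph (gradient h ξ0) l z) := by
  obtain ⟨C1, hC1, H1⟩ := slice_avg n B hB
  obtain ⟨C2, hC2, H2⟩ := lint_time
  refine ⟨4 ^ n * C1 * C2 / 2, by positivity, ?_⟩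
  intro h hh g ξ0 l w hl hl1 hw hW hv hm hb hs z
  have hd : Differentiable ℝ h := hh.1.differentiable (by simp)
  set v := gradient h ξ0 with hvd
  set h' := hR h ξ0 l with hh'
  set g' : E2 → ℂ := fun η => g (ξ0 + l • η) with hg'
  set W := l * w with hWd
  set K := l ^ 2 * w with hK
  have hK0 : 0 < K := by positivity
  have hW0 : 0 < W := by positivity
  have hKW : K ≤ W := by rw [hK, hWd, pow_two, mul_assoc]; exact mul_le_of_le_one_left hW0.le hl1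
  have hm' : Measurable g' := hm.comp (by fun_prop)
  have hb' : ∃ M : ℝ, ∀ ξ, ‖g' ξ‖ ≤ M := by obtain ⟨M, hM⟩ := hb; exact ⟨M, fun ξ => hM _⟩
  have hs' : ∀ ξ, 1 / 2 < ‖ξ‖ → g' ξ = 0 := by
    intro ξ hξ
    refine hs _ ?_
    rw [add_sub_cancel_left, norm_smul, Real.norm_of_nonneg hl.le]
    calc l / 2 = l * (1 / 2) := by ring
      _ < l * ‖ξ‖ := by gcongr
  have hs'' : ∀ ξ, 1 / 2 < ‖ξ - 0‖ → g' ξ = 0 := by simpa using hs'
  have hi' : Integrable g' := int_ball hm' hb' hs''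
  have hi2' : MemLp g' 2 := memLp_ball hm' hb' hs'' 2
  have hh2 : ParB B h' := parB_hR hh ξ0 hl hl1
  have hgz : gradient h' 0 = 0 := gradient_hR_zero hd ξ0 hl.ne'
  have hcont := F4x858.continuous_ext hh2.1.continuous hi'
  set z' := Ph v l z with hz'
  set F' : E2 × ℝ → ℂ := fun p => ext h' g' p.1 p.2 with hF'
  set J : ℝ≥0∞ := ENNReal.ofReal (W ^ 3) * AA (2 * n) W F' z' with hJ
  set Θ : E2 × ℝ → ℝ≥0∞ := fun q => ‖F' q‖ₑ ^ 2 * ENNReal.ofReal
    (dw n (sc W) (q.1 - z'.1) * ((1 + |q.2 - z'.2| / K) ^ (2 * n + 2))⁻¹) with hΘ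
  have hdwc : Continuous (dw n (sc W) : E2 → ℝ) := Wf448.continuous_dw n _
  have hΘm : Measurable Θ := by
    refine (hcont.measurable.enorm.pow_const 2).mul (Measurable.ennreal_ofReal ?_)
    refine ((hdwc.comp (continuous_fst.sub continuous_const)).measurable).mul ?_
    refine Measurable.inv (Measurable.pow_const ?_ _)
    fun_prop
  -- (i) change of variables
  have s1 : ∫⁻ p : E2 × ℝ, ‖ext h g p.1 p.2‖ₑ ^ 2 *
      ENNReal.ofReal (wt (2 * n + (2 * n + 2)) w z.1 z.2 p) ≤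
      ENNReal.ofReal (4 ^ n) * ∫⁻ q, Θ q := by
    calc _ ≤ ∫⁻ p : E2 × ℝ, (fun q => ENNReal.ofReal (l ^ 4 * 4 ^ n) * Θ q) (Ph v l p) := by
          refine lintegral_mono fun p => ?_
          rw [enorm_ext_resc h g ξ0 hl p, mul_pow, ← ENNReal.ofReal_pow (by positivity), ← pow_mul]
          simp only [hΘ]
          calc ENNReal.ofReal (l ^ (2 * 2)) * ‖ext (hR h ξ0 l) (fun η => g (ξ0 + l • η))
                (Ph (gradient h ξ0) l p).1 (Ph (gradient h ξ0) l p).2‖ₑ ^ 2 *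
                ENNReal.ofReal (wt (2 * n + (2 * n + 2)) w z.1 z.2 p)
              ≤ ENNReal.ofReal (l ^ (2 * 2)) * ‖ext (hR h ξ0 l) (fun η => g (ξ0 + l • η))
                (Ph (gradient h ξ0) l p).1 (Ph (gradient h ξ0) l p).2‖ₑ ^ 2 *
                ENNReal.ofReal (4 ^ n * (dw n (sc W) ((Ph v l p).1 - z'.1) *
                  ((1 + |(Ph v l p).2 - z'.2| / K) ^ (2 * n + 2))⁻¹)) := by
                gcongr
                exact wt_split n (2 * n + 2) hl hw hv z p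
            _ = _ := by
                rw [ENNReal.ofReal_mul (show (0:ℝ) ≤ 4 ^ n by positivity),
                  ENNReal.ofReal_mul (show (0:ℝ) ≤ l ^ 4 by positivity)]
                simp only [hF', hh', hg', hvd]
                ring
      _ = ENNReal.ofReal ((l ^ 4)⁻¹) * ∫⁻ q, ENNReal.ofReal (l ^ 4 * 4 ^ n) * Θ q :=
          lintegral_Ph v hl (fun q => ENNReal.ofReal (l ^ 4 * 4 ^ n) * Θ q)
      _ = _ := by
          rw [lintegral_const_mul' _ _ ENNReal.ofReal_ne_top, ← mul_assoc,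
            ← ENNReal.ofReal_mul (by positivity)]
          congr 2
          field_simp
  -- (ii) slices
  have s2 : ∫⁻ q, Θ q = ∫⁻ t : ℝ, ENNReal.ofReal (((1 + |t - z'.2| / K) ^ (2 * n + 2))⁻¹) *
      wE n (sc W) z'.1 (sl h' g' t) := by
    rw [Measure.volume_eq_prod, lintegral_prod_symm _ hΘm.aemeasurable]
    refine lintegral_congr fun t => ?_
    rw [wE_sl]
    unfold LI
    rw [← lintegral_const_mul' _ _ ENNReal.ofReal_ne_top]
    refine lintegral_congr fun x => ?_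
    simp only [hΘ, hF']
    rw [ENNReal.ofReal_mul (dw_pos _ _ _).le, ENNReal.ofReal_mul (dw_pos _ _ _).le, ← ofReal_norm,
      ENNReal.ofReal_pow (norm_nonneg _)]
    ring
  -- (iii) one slice
  have s3 : ∀ t : ℝ, ENNReal.ofReal (((1 + |t - z'.2| / K) ^ (2 * n + 2))⁻¹) *
      wE n (sc W) z'.1 (sl h' g' t) ≤
      ENNReal.ofReal ((2 * W)⁻¹ * C1) * J * ENNReal.ofReal (((1 + |t - z'.2| / K) ^ 2)⁻¹) := by
    intro t
    have h1 := H1 h' hh2 hgz g' hi' hi2' hs' W hW z'.1 z'.2 t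
    have h2 : wE n (sc W) z'.1 (sl h' g' t) =
        ENNReal.ofReal ((2 * W)⁻¹) * (ENNReal.ofReal (2 * W) * wE n (sc W) z'.1 (sl h' g' t)) := by
      rw [← mul_assoc, ← ENNReal.ofReal_mul (by positivity), inv_mul_cancel₀ (by positivity),
        ENNReal.ofReal_one, one_mul]
    set a := |t - z'.2| / K with ha
    set b := |t - z'.2| / W with hbd
    have ha0 : 0 ≤ a := by positivity
    have hb0 : 0 ≤ b := by positivity
    have hba : b ≤ a := by rw [ha, hbd]; gcongr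
    have h3 : ((1 + a) ^ (2 * n + 2))⁻¹ * (1 + b) ^ (2 * n) ≤ ((1 + a) ^ 2)⁻¹ := by
      rw [pow_add, mul_inv]
      have h4 : (1 + b) ^ (2 * n) ≤ (1 + a) ^ (2 * n) := by gcongr
      have h5 : ((1 + a) ^ (2 * n))⁻¹ * (1 + b) ^ (2 * n) ≤ 1 := by
        rw [inv_mul_le_iff₀ (by positivity), mul_one]; exact h4
      calc ((1 + a) ^ (2 * n))⁻¹ * ((1 + a) ^ 2)⁻¹ * (1 + b) ^ (2 * n)
          = (((1 + a) ^ (2 * n))⁻¹ * (1 + b) ^ (2 * n)) * ((1 + a) ^ 2)⁻¹ := by ring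
        _ ≤ 1 * ((1 + a) ^ 2)⁻¹ := by gcongr
        _ = _ := one_mul _
    calc ENNReal.ofReal (((1 + a) ^ (2 * n + 2))⁻¹) * wE n (sc W) z'.1 (sl h' g' t)
        ≤ ENNReal.ofReal (((1 + a) ^ (2 * n + 2))⁻¹) * (ENNReal.ofReal ((2 * W)⁻¹) *
          (ENNReal.ofReal (C1 * (1 + b) ^ (2 * n)) * J)) := by
          gcongr ENNReal.ofReal (((1 + a) ^ (2 * n + 2))⁻¹) * ?_
          rw [h2]
          gcongr
      _ = ENNReal.ofReal ((2 * W)⁻¹ * C1) * J *
          ENNReal.ofReal (((1 + a) ^ (2 * n + 2))⁻¹ * (1 + b) ^ (2 * n)) := by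
          rw [ENNReal.ofReal_mul hC1, ENNReal.ofReal_mul (show 0 ≤ (2 * W)⁻¹ by positivity),
            ENNReal.ofReal_mul (show 0 ≤ ((1 + a) ^ (2 * n + 2))⁻¹ by positivity)]
          ring
      _ ≤ _ := by gcongr
  -- conclusion
  have eR : AA (2 * n) W F' z' = ENNReal.ofReal ((W ^ 3)⁻¹) * J := by
    rw [hJ, ← mul_assoc, ← ENNReal.ofReal_mul (by positivity), inv_mul_cancel₀ (by positivity),
      ENNReal.ofReal_one, one_mul]
  rw [eR]
  unfold AA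
  calc ENNReal.ofReal ((w ^ 3)⁻¹) * ∫⁻ p : E2 × ℝ, ‖ext h g p.1 p.2‖ₑ ^ 2 *
        ENNReal.ofReal (wt (2 * n + (2 * n + 2)) w z.1 z.2 p)
      ≤ ENNReal.ofReal ((w ^ 3)⁻¹) * (ENNReal.ofReal (4 ^ n) * ∫⁻ q, Θ q) := by gcongr
    _ ≤ ENNReal.ofReal ((w ^ 3)⁻¹) * (ENNReal.ofReal (4 ^ n) *
        (ENNReal.ofReal ((2 * W)⁻¹ * C1) * J * ENNReal.ofReal (C2 * K))) := by
        gcongr
        rw [s2]
        calc _ ≤ ∫⁻ t : ℝ, ENNReal.ofReal ((2 * W)⁻¹ * C1) * J *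
              ENNReal.ofReal (((1 + |t - z'.2| / K) ^ 2)⁻¹) := lintegral_mono s3
          _ = ENNReal.ofReal ((2 * W)⁻¹ * C1) * J *
              ∫⁻ t : ℝ, ENNReal.ofReal (((1 + |t - z'.2| / K) ^ 2)⁻¹) := by
              rw [lintegral_const_mul]
              fun_prop
          _ ≤ _ := by gcongr; exact H2 K hK0 z'.2
    _ = ENNReal.ofReal (4 ^ n * C1 * C2 / 2 * l ^ 4) * (ENNReal.ofReal ((W ^ 3)⁻¹) * J) := by
        have e : ∀ a b c d e : ℝ, 0 ≤ a → 0 ≤ b → 0 ≤ c → 0 ≤ d → 0 ≤ e →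
            ENNReal.ofReal a * (ENNReal.ofReal b * (ENNReal.ofReal c * J * ENNReal.ofReal d)) =
            ENNReal.ofReal (a * b * c * d) * J := by
          intro a b c d e ha hb hc hd _
          rw [ENNReal.ofReal_mul (by positivity), ENNReal.ofReal_mul (by positivity),
            ENNReal.ofReal_mul (by positivity)]
          ring
        rw [e _ _ _ _ 0 (by positivity) (by positivity) (by positivity) (by positivity) le_rfl,
          ← mul_assoc, ← ENNReal.ofReal_mul (by positivity)]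
        congr 2
        rw [hWd, hK]
        field_simp

/-- averages are decreasing in the order of the weight. -/
theorem wt_anti {N N' : ℕ} (hN : N ≤ N') {w : ℝ} (hw : 0 < w) (x : E2) (t : ℝ) (p : E2 × ℝ) :
    wt N' w x t p ≤ wt N w x t p := by
  unfold wt
  have h1 : 1 ≤ 1 + (‖p.1 - x‖ + |p.2 - t|) / w := by
    have : 0 ≤ (‖p.1 - x‖ + |p.2 - t|) / w := by positivity
    linarith
  gcongr

theorem AA_anti {N N' : ℕ} (hN : N ≤ N') {w : ℝ} (hw : 0 < w) (F : E2 × ℝ → ℂ) (z : E2 × ℝ) :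
    AA N' w F z ≤ AA N w F z := by
  unfold AA
  gcongr ENNReal.ofReal ((w ^ 3)⁻¹) * ?_
  refine lintegral_mono fun p => ?_
  gcongr
  exact wt_anti hN hw _ _ _



end Crest.Agent.R138.Zm858
end

-- ▼ part R138/Zm3_858
section

/-!
# R138 / R139: ZOOM (helper858), part 3: covers by lattice cylinders, sum of the energies
-/

set_option autoImplicit false

open MeasureTheory FourierTransform
open scoped ContDiff ENNReal

namespace Crest.Agent.R138.Zm858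

open Crest.Agent.R138.Defs Crest.Agent.R138.Bil882 Crest.Agent.R138.W188
open Crest.Agent.R138.Resc574 (hR Ph PhH)
open Crest.Agent.R138.T774 (AA)
open Crest.Agent.R138.Wpk685 (cen caps um en sel cap win)

attribute [local instance] T774.haar3

/-- lattice points of step `r`. -/
noncomputable def zz (r : ℝ) (a : (ℤ × ℤ) × ℤ) : E2 × ℝ := (cen r a.1, r * a.2)

theorem exists_round {r : ℝ} (hr : 0 < r) (u : ℝ) : ∃ k : ℤ, |u - r * k| ≤ r / 2 ∧
    |(k : ℝ)| ≤ |u| / r + 1 := by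
  refine ⟨round (u / r), ?_, ?_⟩
  · have h1 := abs_sub_round (u / r)
    have h2 : u - r * round (u / r) = r * (u / r - round (u / r)) := by field_simp
    rw [h2, abs_mul, abs_of_pos hr]
    calc r * |u / r - round (u / r)| ≤ r * (1 / 2) := by gcongr
      _ = r / 2 := by ring
  · have h1 := abs_sub_round (u / r)
    have h2 : |(round (u / r) : ℝ)| ≤ |u / r| + |u / r - round (u / r)| := by
      have : (round (u / r) : ℝ) = u / r - (u / r - round (u / r)) := by ring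
      calc |(round (u / r) : ℝ)| = |u / r - (u / r - round (u / r))| := by rw [← this]
        _ ≤ _ := abs_sub _ _
    rw [abs_div, abs_of_pos hr] at h2
    linarith

theorem exists_zz {r : ℝ} (hr : 0 < r) (q : E2 × ℝ) : ∃ a : (ℤ × ℤ) × ℤ, q - zz r a ∈ cyl r ∧
    |(a.1.1 : ℝ)| ≤ ‖q.1‖ / r + 1 ∧ |(a.1.2 : ℝ)| ≤ ‖q.1‖ / r + 1 ∧
    |(a.2 : ℝ)| ≤ |q.2| / r + 1 := by
  obtain ⟨k0, h0, h0'⟩ := exists_round hr (q.1 0)
  obtain ⟨k1, h1, h1'⟩ := exists_round hr (q.1 1)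
  obtain ⟨j, h2, h2'⟩ := exists_round hr q.2
  have hn0 : |q.1 0| ≤ ‖q.1‖ := by simpa using PiLp.norm_apply_le q.1 0
  have hn1 : |q.1 1| ≤ ‖q.1‖ := by simpa using PiLp.norm_apply_le q.1 1
  refine ⟨((k0, k1), j), ⟨?_, ?_⟩, ?_, ?_, h2'⟩
  · have e : ‖(q - zz r ((k0, k1), j)).1‖ ^ 2 = (q.1 0 - r * k0) ^ 2 + (q.1 1 - r * k1) ^ 2 := by
      rw [EuclideanSpace.norm_sq_eq]
      simp only [Fin.sum_univ_two, Real.norm_eq_abs, sq_abs]
      rfl
    have h3 : (q.1 0 - r * k0) ^ 2 ≤ (r / 2) ^ 2 := by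
      rw [← sq_abs (q.1 0 - r * k0)]; gcongr
    have h4 : (q.1 1 - r * k1) ^ 2 ≤ (r / 2) ^ 2 := by
      rw [← sq_abs (q.1 1 - r * k1)]; gcongr
    refine abs_le_of_sq_le_sq' (a := ‖(q - zz r ((k0, k1), j)).1‖) ?_ hr.le |>.2
    rw [e]; nlinarith
  · have : (q - zz r ((k0, k1), j)).2 = q.2 - r * j := rfl
    rw [this]; linarith
  · exact h0'.trans (by gcongr)
  · exact h1'.trans (by gcongr)

/-- localisation to translates of a cylinder. -/
theorem lint_cover2 {Ω : Set (E2 × ℝ)} {r : ℝ} {ι : Type*} (s : Finset ι) (Z : ι → E2 × ℝ)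
    (hZ : ∀ p ∈ Ω, ∃ a ∈ s, p - Z a ∈ cyl r) (f : E2 × ℝ → ℝ≥0∞) :
    ∫⁻ z in Ω, f z ≤ ∑ a ∈ s, ∫⁻ z in cyl r, f (z + Z a) := by
  have h1 : Ω ⊆ ⋃ a ∈ s, (fun p : E2 × ℝ => p + (-(Z a))) ⁻¹' cyl r := by
    intro p hp
    obtain ⟨a, ha, h⟩ := hZ p hp
    exact Set.mem_biUnion ha (by simpa [sub_eq_add_neg] using h)
  have h3 : ∀ a : ι, ∫⁻ z in (fun p : E2 × ℝ => p + (-(Z a))) ⁻¹' cyl r, f z =
      ∫⁻ z in cyl r, f (z + Z a) := by
    intro a
    have h2 := (measurePreserving_add_right (volume : Measure (E2 × ℝ))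
      (-(Z a))).setLIntegral_comp_preimage_emb
      (MeasurableEquiv.addRight (-(Z a))).measurableEmbedding
      (fun p => f (p + Z a)) (cyl r)
    rw [← h2]
    simp
  calc ∫⁻ z in Ω, f z
      ≤ ∫⁻ z in ⋃ a ∈ s, (fun p : E2 × ℝ => p + (-(Z a))) ⁻¹' cyl r, f z :=
        lintegral_mono_set h1
    _ ≤ ∑ a ∈ s, ∫⁻ z in (fun p : E2 × ℝ => p + (-(Z a))) ⁻¹' cyl r, f z := by
        classical
        induction s using Finset.induction_on with
        | empty => simp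
        | insert a s ha ih =>
          rw [Finset.set_biUnion_insert, Finset.sum_insert ha]
          refine (lintegral_union_le _ _ _).trans ?_
          gcongr
          clear ih h1 hZ
          induction s using Finset.induction_on with
          | empty => simp
          | insert b s hb ih =>
            rw [Finset.set_biUnion_insert, Finset.sum_insert hb]
            refine (lintegral_union_le _ _ _).trans ?_
            gcongr
            exact ih (fun h => ha (Finset.mem_insert_of_mem h))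
    _ = _ := Finset.sum_congr rfl fun a _ => h3 a

theorem card_int (x : ℝ) (K : ℕ) :
    ((Finset.Icc ⌈x - K⌉ ⌊x + K⌋).card : ℕ) ≤ 2 * K + 1 := by
  rw [Int.card_Icc, Int.floor_add_natCast, Int.ceil_sub_natCast]
  have := Int.floor_le_ceil x
  omega

/-- bounded overlap of the lattice balls. -/
theorem overlap (K : ℕ) {r : ℝ} (hr : 0 < r) (T : Finset (ℤ × ℤ)) {f : E2 → ℝ≥0∞}
    (hf : Measurable f) :
    ∑ k ∈ T, ∫⁻ y in Metric.closedBall (cen r k) (K * r), f y ≤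
      ((2 * K + 1 : ℕ) : ℝ≥0∞) ^ 2 * ∫⁻ y, f y := by
  classical
  have hb : ∀ k, MeasurableSet (Metric.closedBall (cen r k) (K * r)) := fun k =>
    Metric.isClosed_closedBall.measurableSet
  have e0 : ∀ k, ∫⁻ y in Metric.closedBall (cen r k) (K * r), f y =
      ∫⁻ y, (Metric.closedBall (cen r k) (K * r)).indicator f y := fun k =>
    (lintegral_indicator (hb k) f).symm
  simp_rw [e0]
  rw [← lintegral_finsetSum _ fun k _ => hf.indicator (hb k), ← lintegral_const_mul _ hf]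
  refine lintegral_mono fun y => ?_
  have e1 : ∑ k ∈ T, (Metric.closedBall (cen r k) (K * r)).indicator f y =
      ((T.filter fun k => y ∈ Metric.closedBall (cen r k) (K * r)).card : ℝ≥0∞) * f y := by
    have e2 : ((T.filter fun k => y ∈ Metric.closedBall (cen r k) (K * r)).card : ℝ≥0∞) * f y =
        ∑ _k ∈ T.filter fun k => y ∈ Metric.closedBall (cen r k) (K * r), f y := by
      rw [Finset.sum_const, nsmul_eq_mul]
    rw [e2, Finset.sum_filter]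
    refine Finset.sum_congr rfl fun k _ => ?_
    by_cases h : y ∈ Metric.closedBall (cen r k) (K * r)
    · rw [Set.indicator_of_mem h, if_pos h]
    · rw [Set.indicator_of_notMem h, if_neg h]
  rw [e1]
  gcongr
  have h1 : (T.filter fun k => y ∈ Metric.closedBall (cen r k) (K * r)) ⊆
      Finset.Icc ⌈y 0 / r - K⌉ ⌊y 0 / r + K⌋ ×ˢ Finset.Icc ⌈y 1 / r - K⌉ ⌊y 1 / r + K⌋ := by
    intro k hk
    have hk2 := (Finset.mem_filter.1 hk).2
    rw [Metric.mem_closedBall, dist_eq_norm] at hk2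
    have c0 : |y 0 - r * k.1| ≤ K * r := by
      have := PiLp.norm_apply_le (y - cen r k) 0
      exact this.trans hk2
    have c1 : |y 1 - r * k.2| ≤ K * r := by
      have := PiLp.norm_apply_le (y - cen r k) 1
      exact this.trans hk2
    have key : ∀ (u : ℝ) (j : ℤ), |u - r * j| ≤ K * r → ⌈u / r - K⌉ ≤ j ∧ j ≤ ⌊u / r + K⌋ := by
      intro u j hj
      rw [abs_le] at hj
      constructor
      · rw [Int.ceil_le, sub_le_iff_le_add, div_le_iff₀ hr]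
        nlinarith [hj.2]
      · rw [Int.le_floor, ← sub_le_iff_le_add, le_div_iff₀ hr]
        nlinarith [hj.1]
    rw [Finset.mem_product, Finset.mem_Icc, Finset.mem_Icc]
    exact ⟨key _ _ c0, key _ _ c1⟩
  have h2 := Finset.card_le_card h1
  rw [Finset.card_product] at h2
  have h3 := Nat.mul_le_mul (card_int (y 0 / r) K) (card_int (y 1 / r) K)
  calc ((T.filter fun k => y ∈ Metric.closedBall (cen r k) (K * r)).card : ℝ≥0∞)
      ≤ (((2 * K + 1) * (2 * K + 1) : ℕ) : ℝ≥0∞) := by exact_mod_cast h2.trans h3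
    _ = _ := by push_cast; ring

/-- **(Q4)** translations of the packets. -/
theorem um_tr (ρ : ℝ) (h : E2 → ℝ) (x0 : E2) (t0 : ℝ) (g : E2 → ℂ) (m : ℤ × ℤ) (y : E2) :
    um ρ (tr h (x0, t0) g) m y = um ρ (tr h (0, t0) g) m (y + x0) := by
  unfold um tr
  rw [Wpk685.fourierInv_eq_int, Wpk685.fourierInv_eq_int]
  congr 1
  funext ζ
  simp only [inner_zero_left, zero_add]
  rw [inner_add_left, Wpk685.ee_add, Wpk685.ee_add]
  ring

theorem tr_int {h : E2 → ℝ} (hh : Continuous h) (z : E2 × ℝ) {g : E2 → ℂ} (hg : Integrable g) :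
    Integrable (tr h z g) := by
  unfold tr
  refine hg.mul_bdd (c := 1) ?_ (Filter.Eventually.of_forall fun ξ => (Wpk685.norm_ee _).le)
  refine (Wpk685.continuous_ee.comp ?_).aestronglyMeasurable
  exact (continuous_const.inner continuous_id).add (continuous_const.mul hh)

theorem norm_tr (h : E2 → ℝ) (z : E2 × ℝ) (g : E2 → ℂ) (ξ : E2) : ‖tr h z g ξ‖ = ‖g ξ‖ := by
  unfold tr
  rw [norm_mul, Wpk685.norm_ee, mul_one]

theorem enorm_tr (h : E2 → ℝ) (z : E2 × ℝ) (g : E2 → ℂ) (ξ : E2) : ‖tr h z g ξ‖ₑ = ‖g ξ‖ₑ := by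
  rw [← ofReal_norm, ← ofReal_norm, norm_tr]

theorem tr_meas {h : E2 → ℝ} (hh : Continuous h) (z : E2 × ℝ) {g : E2 → ℂ} (hg : Measurable g) :
    Measurable (tr h z g) := by
  unfold tr
  refine hg.mul (Wpk685.continuous_ee.comp ?_).measurable
  exact (continuous_const.inner continuous_id).add (continuous_const.mul hh)

theorem tr_memLp {h : E2 → ℝ} (hh : Continuous h) (z : E2 × ℝ) {g : E2 → ℂ} (hg : MemLp g 2) :
    MemLp (tr h z g) 2 := by
  refine MemLp.of_le hg ?_ (Filter.Eventually.of_forall fun ξ => (norm_tr h z g ξ).le)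
  unfold tr
  refine hg.1.mul ((Wpk685.continuous_ee.comp ?_).aestronglyMeasurable)
  exact (continuous_const.inner continuous_id).add (continuous_const.mul hh)

theorem ext_tr (h : E2 → ℝ) (z : E2 × ℝ) (g : E2 → ℂ) (x : E2) (t : ℝ) :
    ext h (tr h z g) x t = ext h g (x + z.1) (t + z.2) := by
  unfold ext tr
  congr 1
  funext ξ
  rw [mul_assoc, ← Wpk685.ee_add]
  congr 2
  rw [inner_add_left]
  ring

/-- energy in a fixed ball of the translated wave. -/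
theorem en_tr_ball (ρ : ℝ) (h : E2 → ℝ) (x0 : E2) (t0 : ℝ) (g : E2 → ℂ) (a : ℝ) :
    en ρ (tr h (x0, t0) g) (fun _ => Metric.closedBall 0 a) =
      ∑ m ∈ caps ρ, ∫⁻ y in Metric.closedBall x0 a, ‖um ρ (tr h (0, t0) g) m y‖ₑ ^ 2 := by
  unfold en
  refine Finset.sum_congr rfl fun m _ => ?_
  simp_rw [um_tr ρ h x0 t0 g m]
  have h2 := (measurePreserving_add_right (volume : Measure E2) x0).setLIntegral_comp_preimage_emb
      (MeasurableEquiv.addRight x0).measurableEmbedding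
      (fun y => ‖um ρ (tr h (0, t0) g) m y‖ₑ ^ 2) (Metric.closedBall x0 a)
  rw [← h2]
  congr 2
  ext y
  simp [dist_eq_norm]

/-- **sum of the energies of the localised pieces**. -/
theorem sum_en (K : ℕ) : ∃ C : ℝ, 0 ≤ C ∧ ∀ ρ : ℝ, 0 < ρ → ρ ≤ 1 → ∀ h : E2 → ℝ, Continuous h →
    ∀ g : E2 → ℂ, Integrable g → MemLp g 2 → ∀ r : ℝ, 0 < r → ∀ (T : Finset (ℤ × ℤ))
    (J : Finset ℤ), ∑ a ∈ T ×ˢ J, en ρ (tr h (zz r a) g) (fun _ => Metric.closedBall 0 (K * r)) ≤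
      ENNReal.ofReal (C * J.card) * ∫⁻ ξ, ‖g ξ‖ₑ ^ 2 := by
  obtain ⟨C, hC, H⟩ := Wpk685.en_le
  refine ⟨((2 * K + 1 : ℕ) : ℝ) ^ 2 * C, by positivity, ?_⟩
  intro ρ hρ hρ1 h hh g hg hg2 r hr T J
  rw [Finset.sum_product_right]
  have key : ∀ j ∈ J, ∑ k ∈ T, en ρ (tr h (zz r (k, j)) g)
      (fun _ => Metric.closedBall 0 (K * r)) ≤
      ENNReal.ofReal (((2 * K + 1 : ℕ) : ℝ) ^ 2 * C) * ∫⁻ ξ, ‖g ξ‖ₑ ^ 2 := by
    intro j _
    have hgi := tr_int hh ((0 : E2), r * (j:ℝ)) hg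
    have hg2i := tr_memLp hh ((0 : E2), r * (j:ℝ)) hg2
    calc ∑ k ∈ T, en ρ (tr h (zz r (k, j)) g) (fun _ => Metric.closedBall 0 (K * r))
        = ∑ m ∈ caps ρ, ∑ k ∈ T, ∫⁻ y in Metric.closedBall (cen r k) (K * r),
          ‖um ρ (tr h (0, r * j) g) m y‖ₑ ^ 2 := by
          rw [Finset.sum_comm]
          refine Finset.sum_congr rfl fun k _ => ?_
          exact en_tr_ball ρ h _ _ g _
      _ ≤ ∑ m ∈ caps ρ, ((2 * K + 1 : ℕ) : ℝ≥0∞) ^ 2 *
          ∫⁻ y, ‖um ρ (tr h (0, r * j) g) m y‖ₑ ^ 2 := by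
          refine Finset.sum_le_sum fun m _ => overlap K hr T ?_
          exact (Wpk685.um_cont hgi m).measurable.enorm.pow_const 2
      _ = ((2 * K + 1 : ℕ) : ℝ≥0∞) ^ 2 * en ρ (tr h (0, r * j) g) (fun _ => Set.univ) := by
          unfold en
          rw [Finset.mul_sum]
          simp
      _ ≤ ((2 * K + 1 : ℕ) : ℝ≥0∞) ^ 2 * (ENNReal.ofReal C *
          ∫⁻ ξ, ‖tr h (0, r * j) g ξ‖ₑ ^ 2) := by
          gcongr
          exact H ρ hρ hρ1 _ hgi hg2i _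
      _ = _ := by
          simp_rw [enorm_tr]
          rw [← mul_assoc, ENNReal.ofReal_mul (by positivity), ENNReal.ofReal_pow (by positivity),
            ENNReal.ofReal_natCast]
  refine (Finset.sum_le_sum key).trans (le_of_eq ?_)
  rw [Finset.sum_const, nsmul_eq_mul, ← mul_assoc, ← ENNReal.ofReal_natCast,
    ← ENNReal.ofReal_mul (by positivity)]
  congr 2
  ring

end Crest.Agent.R138.Zm858
end

-- ▼ part R138/Zm4_858
section

/-!
# R138 / R139: ZOOM (helper858), part 4: the penalised box bound of the rescaled translated wave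
-/

set_option autoImplicit false

open MeasureTheory FourierTransform
open scoped ContDiff ENNReal

namespace Crest.Agent.R138.Zm858

open Crest.Agent.R138.Defs Crest.Agent.R138.Bil882 Crest.Agent.R138.W188
open Crest.Agent.R138.Resc574 (hR Ph PhH md lintegral_md plank_translate measurableSet_plank
  preimage_plank' chi_resc' lintegral_sq_ext_resc)

theorem tr_eq_md (h : E2 → ℝ) (z : E2 × ℝ) (g : E2 → ℂ) : tr h z g = md h z g := rfl

theorem plank_mono_len {c : E2} {b : OrthonormalBasis (Fin 2) ℝ E2} {s : Fin 2 → ℝ}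
    (hs : ∀ i, 0 ≤ s i) {R R' : ℝ} (hR : R ≤ R') (x0 : E2) (t0 : ℝ) :
    plank c b s R x0 t0 ⊆ plank c b s R' x0 t0 := fun _ hp =>
  ⟨hp.1.trans hR, fun i => (hp.2 i).trans (mul_le_mul_of_nonneg_left hR (hs i))⟩

/-- **penalised box bound of the zoomed translated wave** at scale `c l² R`, density
`D l^(q-4) c⁻³`, if all base points come from the cylinder `4R`. -/
theorem pbox_tr_resc {q : ℝ} {Na : ℕ} {h : E2 → ℝ} (hh : Differentiable ℝ h) {g : E2 → ℂ}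
    {R D l : ℝ} {ξ0 : E2} (hl : 0 < l) (hR0 : 0 < R)
    (H : PBoxLe l q Na h g R D) {c : ℝ} (hc : 0 < c) (hc1 : c ≤ 1) (z : E2 × ℝ)
    (hz : ∀ (x0 : E2) (t0 : ℝ), ‖x0‖ ≤ 4 * (c * (l ^ 2 * R)) → |t0| ≤ 4 * (c * (l ^ 2 * R)) →
      ‖((PhH (gradient h ξ0) l hl.ne').symm (z + (x0, t0))).1‖ ≤ 4 * R ∧
      |((PhH (gradient h ξ0) l hl.ne').symm (z + (x0, t0))).2| ≤ 4 * R) :
    PBox q Na (hR h ξ0 l) (tr (hR h ξ0 l) z (fun η => g (ξ0 + l • η))) (c * (l ^ 2 * R))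
      (D * l ^ (q - 4) * (c ^ 3)⁻¹) := by
  intro c' b s hs ψ hψ x0 t0 hx ht
  set v := gradient h ξ0 with hv
  set g' : E2 → ℂ := fun η => g (ξ0 + l • η) with hg'
  set R1 := c * (l ^ 2 * R) with hR1
  have hR2 : 0 < l ^ 2 * R := by positivity
  have hR10 : 0 < R1 := by positivity
  have hR12 : R1 ≤ l ^ 2 * R := mul_le_of_le_one_left hR2.le hc1
  have hs0 : ∀ i, 0 < s i := fun i => (Real.rpow_pos_of_pos hR10 _).trans_le (hs i).1
  set p := (PhH v l hl.ne').symm (z + (x0, t0)) with hp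
  obtain ⟨hp1, hp2⟩ := hz x0 t0 hx ht
  -- the plank at scale `R`
  have hbox := H (v + l • c') b (fun i => l * s i) (fun i => by
    constructor
    · have h1 : R1 ^ (-(1/2) : ℝ) ≤ s i := (hs i).1
      have h2 : (l ^ 2 * R) ^ (-(1/2) : ℝ) ≤ R1 ^ (-(1/2) : ℝ) :=
        Real.rpow_le_rpow_of_nonpos hR10 hR12 (by norm_num)
      have h3 : l * (l ^ 2 * R) ^ (-(1/2) : ℝ) = R ^ (-(1/2) : ℝ) := by
        rw [Real.mul_rpow (by positivity) hR0.le, ← Real.rpow_natCast, ← Real.rpow_mul hl.le,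
          ← mul_assoc]
        norm_num
        rw [Real.rpow_neg_one, mul_inv_cancel₀ hl.ne', one_mul]
      calc R ^ (-(1/2) : ℝ) = l * (l ^ 2 * R) ^ (-(1/2) : ℝ) := h3.symm
        _ ≤ l * s i := by gcongr; exact h2.trans h1
    · calc l * s i ≤ l * 1 := by gcongr; exact (hs i).2
        _ = l := mul_one l) ψ hψ p.1 p.2 hp1 hp2
  have e1 : (fun ξ => tr (hR h ξ0 l) z g' ξ * chi (hR h ξ0 l) c' b s ψ ξ) =
      md (hR h ξ0 l) z (fun ξ => g' ξ * chi (hR h ξ0 l) c' b s ψ ξ) := by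
    rw [tr_eq_md]
    funext ξ
    exact Resc574.md_mul _ g' _ z ξ
  have e2 : (fun ξ => g' ξ * chi (hR h ξ0 l) c' b s ψ ξ) =
      fun η => (fun ξ => g ξ * chi h (v + l • c') b (fun i => l * s i) ψ ξ) (ξ0 + l • η) := by
    funext η
    rw [chi_resc' hh ξ0 c' b s ψ hl.ne' η]
  have e3 := lintegral_sq_ext_resc h (fun ξ => g ξ * chi h (v + l • c') b (fun i => l * s i) ψ ξ)
    ξ0 hl (A := plank c' b s (l ^ 2 * R) (z + (x0, t0)).1 (z + (x0, t0)).2)
    (measurableSet_plank _ _ _ _ _ _)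
  have e4 := preimage_plank' v c' b s R (z + (x0, t0)) hl
  rw [← hv, e4] at e3
  calc ∫⁻ p in plank c' b s R1 x0 t0,
        ‖ext (hR h ξ0 l) (fun ξ => tr (hR h ξ0 l) z g' ξ * chi (hR h ξ0 l) c' b s ψ ξ) p.1 p.2‖ₑ ^ 2
      = ∫⁻ p in plank c' b s R1 (z + (x0, t0)).1 (z + (x0, t0)).2,
        ‖ext (hR h ξ0 l) (fun ξ => g' ξ * chi (hR h ξ0 l) c' b s ψ ξ) p.1 p.2‖ₑ ^ 2 := by
        rw [e1, lintegral_md _ _ z (measurableSet_plank _ _ _ _ _ _) 2]
        rw [plank_translate c' b s R1 (x0, t0) z]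
    _ ≤ ∫⁻ p in plank c' b s (l ^ 2 * R) (z + (x0, t0)).1 (z + (x0, t0)).2,
        ‖ext (hR h ξ0 l) (fun ξ => g' ξ * chi (hR h ξ0 l) c' b s ψ ξ) p.1 p.2‖ₑ ^ 2 :=
        lintegral_mono_set (plank_mono_len (fun i => (hs0 i).le) hR12 _ _)
    _ = ∫⁻ p in plank (v + l • c') b (fun i => l * s i) R p.1 p.2,
        ‖ext h (fun ξ => g ξ * chi h (v + l • c') b (fun i => l * s i) ψ ξ) p.1 p.2‖ₑ ^ 2 := by
        rw [e2, e3]
    _ ≤ ENNReal.ofReal (D * (max (l * s 0) (l * s 1)) ^ q * (l * s 0 * (l * s 1) * R ^ 3)) := hbox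
    _ = _ := by
        congr 1
        have h5 : max (l * s 0) (l * s 1) = l * max (s 0) (s 1) :=
          (mul_max_of_nonneg _ _ hl.le).symm
        have h6 : 0 ≤ max (s 0) (s 1) := (hs0 0).le.trans (le_max_left _ _)
        have h7 : l ^ (q - 4) = l ^ q / l ^ 4 := by
          rw [Real.rpow_sub hl]; norm_cast
        rw [h5, Real.mul_rpow hl.le h6, h7, hR1]
        field_simp

/-- the inverse of `Ph` moves little. -/
theorem symm_bound (v : E2) {l : ℝ} (hl : 0 < l) (hl1 : l ≤ 1) (hv : ‖v‖ ≤ 2) {R a : ℝ}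
    (ha : 0 ≤ a) {p : E2 × ℝ} (hp : p ∈ cyl (2 * R)) {δ : E2 × ℝ} (h1 : ‖δ.1‖ ≤ a * (l ^ 2 * R))
    (h2 : |δ.2| ≤ a * (l ^ 2 * R)) (hR : 0 ≤ R) (ha2 : 3 * a ≤ 2) :
    ‖((PhH v l hl.ne').symm (Ph v l p + δ)).1‖ ≤ 4 * R ∧
      |((PhH v l hl.ne').symm (Ph v l p + δ)).2| ≤ 4 * R := by
  have e : (PhH v l hl.ne').symm (Ph v l p + δ) =
      (p.1 + (l⁻¹ • δ.1 - ((l ^ 2)⁻¹ * δ.2) • v), p.2 + (l ^ 2)⁻¹ * δ.2) := by
    have h3 : (PhH v l hl.ne').symm (Ph v l p + δ) =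
        (l⁻¹ • (Ph v l p + δ).1 - ((l ^ 2)⁻¹ * (Ph v l p + δ).2) • v,
          (l ^ 2)⁻¹ * (Ph v l p + δ).2) := rfl
    rw [h3]
    have h4 : (l ^ 2)⁻¹ * (Ph v l p + δ).2 = p.2 + (l ^ 2)⁻¹ * δ.2 := by
      simp only [Ph, Prod.snd_add]; field_simp
    rw [h4]
    refine Prod.ext ?_ rfl
    change l⁻¹ • (l • (p.1 + p.2 • v) + δ.1) - (p.2 + (l ^ 2)⁻¹ * δ.2) • v = _
    rw [smul_add, smul_smul, inv_mul_cancel₀ hl.ne', one_smul, add_smul]
    abel
  rw [e]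
  obtain ⟨hp1, hp2⟩ := hp
  have h5 : (l ^ 2)⁻¹ * |δ.2| ≤ a * R := by
    calc (l ^ 2)⁻¹ * |δ.2| ≤ (l ^ 2)⁻¹ * (a * (l ^ 2 * R)) := by gcongr
      _ = a * R := by field_simp
  have h6 : l⁻¹ * ‖δ.1‖ ≤ a * R := by
    calc l⁻¹ * ‖δ.1‖ ≤ l⁻¹ * (a * (l ^ 2 * R)) := by gcongr
      _ = l * (a * R) := by field_simp
      _ ≤ 1 * (a * R) := by gcongr
      _ = a * R := one_mul _
  constructor
  · have h7 : ‖l⁻¹ • δ.1 - ((l ^ 2)⁻¹ * δ.2) • v‖ ≤ 3 * (a * R) := by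
      refine (norm_sub_le _ _).trans ?_
      rw [norm_smul, norm_smul, norm_mul, Real.norm_of_nonneg (inv_pos.2 hl).le,
        Real.norm_of_nonneg (inv_pos.2 (pow_pos hl 2)).le, Real.norm_eq_abs]
      have h8 : (l ^ 2)⁻¹ * |δ.2| * ‖v‖ ≤ (a * R) * 2 := by gcongr
      linarith
    refine (norm_add_le _ _).trans ?_
    nlinarith
  · refine (abs_add_le _ _).trans ?_
    rw [abs_mul, abs_of_pos (inv_pos.2 (pow_pos hl 2))]
    nlinarith

end Crest.Agent.R138.Zm858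
end

-- ▼ part R138/Zm5_858

/-!
# R138 / R139: ZOOM (helper858), part 5: localisation of one wave to a cylinder
-/

set_option autoImplicit false

open MeasureTheory FourierTransform
open scoped ContDiff ENNReal

namespace Crest.Agent.R138.Zm858

open Crest.Agent.R138.Defs Crest.Agent.R138.Bil882 Crest.Agent.R138.W188
open Crest.Agent.R138.Wpk685 (cen caps um en sel cap win Bs Dens pbox)

theorem tr_zero (h : E2 → ℝ) (g : E2 → ℂ) : tr h ((0 : E2), (0 : ℝ)) g = g := by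
  funext ξ
  unfold tr
  simp [Wpk685.ee_zero]

theorem lint_nsq {g : E2 → ℂ} (hg : MemLp g 2) : ∫⁻ ξ, ‖g ξ‖ₑ ^ 2 = ENNReal.ofReal (En g) := by
  rw [← Low448.LI_eq_En hg]
  unfold Wf448.LI
  refine lintegral_congr fun ξ => ?_
  rw [← ofReal_norm, ENNReal.ofReal_pow (norm_nonneg _)]

theorem En_le_of_lint {g : E2 → ℂ} (hg : MemLp g 2) {a : ℝ} (ha : 0 ≤ a)
    (h : ∫⁻ ξ, ‖g ξ‖ₑ ^ 2 ≤ ENNReal.ofReal a) : En g ≤ a := by
  rw [lint_nsq hg] at h
  exact (ENNReal.ofReal_le_ofReal_iff ha).1 h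

theorem PBox_mono {q : ℝ} {Na : ℕ} {h : E2 → ℝ} {g : E2 → ℂ} {R D D' : ℝ} (hR : 0 < R)
    (hD : D ≤ D') (H : PBox q Na h g R D) : PBox q Na h g R D' := by
  intro c b s hs ψ hψ x0 t0 hx ht
  refine (H c b s hs ψ hψ x0 t0 hx ht).trans (ENNReal.ofReal_le_ofReal ?_)
  have h1 : ∀ i, 0 < s i := fun i => (Real.rpow_pos_of_pos hR _).trans_le (hs i).1
  have h2 := h1 0
  have h3 := h1 1
  have h4 : 0 ≤ (max (s 0) (s 1)) ^ q := Real.rpow_nonneg (h2.le.trans (le_max_left _ _)) _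
  gcongr

theorem norm_cen_le {ρ : ℝ} (hρ : 0 < ρ) (hρ1 : ρ ≤ 1) {m : ℤ × ℤ} (hm : m ∈ caps ρ) :
    ‖cen ρ m‖ ≤ 6 := by
  unfold caps at hm
  rw [Finset.mem_product, Finset.mem_Icc, Finset.mem_Icc] at hm
  have h1 : ρ * ((⌈2 / ρ⌉ : ℤ) + 1 : ℝ) ≤ 4 := by
    have h2 : ((⌈2 / ρ⌉ : ℤ) : ℝ) < 2 / ρ + 1 := Int.ceil_lt_add_one _
    have h3 : ρ * (2 / ρ) = 2 := by field_simp
    nlinarith
  have key : ∀ k : ℤ, -⌈2 / ρ⌉ - 1 ≤ k → k ≤ ⌈2 / ρ⌉ + 1 → |ρ * (k:ℝ)| ≤ 4 := by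
    intro k hk1 hk2
    have h4 : (k:ℝ) ≤ (⌈2 / ρ⌉ : ℤ) + 1 := by exact_mod_cast hk2
    have h5 : -((⌈2 / ρ⌉ : ℤ) : ℝ) - 1 ≤ k := by exact_mod_cast hk1
    rw [abs_mul, abs_of_pos hρ]
    have h6 : |(k:ℝ)| ≤ (⌈2 / ρ⌉ : ℤ) + 1 := by
      rw [abs_le]; constructor <;> linarith
    calc ρ * |(k:ℝ)| ≤ ρ * ((⌈2 / ρ⌉ : ℤ) + 1 : ℝ) := by gcongr
      _ ≤ 4 := h1
  have h0 := key m.1 hm.1.1 hm.1.2
  have h1' := key m.2 hm.2.1 hm.2.2
  have e : ‖cen ρ m‖ ^ 2 = (ρ * m.1) ^ 2 + (ρ * m.2) ^ 2 := by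
    rw [EuclideanSpace.norm_sq_eq]
    simp only [Fin.sum_univ_two, Real.norm_eq_abs, sq_abs]
    rfl
  have h2 : (ρ * (m.1:ℝ)) ^ 2 ≤ 4 ^ 2 := by rw [← sq_abs]; gcongr
  have h3 : (ρ * (m.2:ℝ)) ^ 2 ≤ 4 ^ 2 := by rw [← sq_abs]; gcongr
  refine abs_le_of_sq_le_sq' (a := ‖cen ρ m‖) ?_ (by norm_num) |>.2
  rw [e]; nlinarith

/-- **localisation of one wave**: `sel` with the ball of radius `Kn r` at scale `r = R1 / Kn`. -/
theorem loc_piece (B : ℕ → ℝ) {q : ℝ} (hq : 0 ≤ q) : ∃ Kn : ℕ, 1 ≤ Kn ∧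
    ∀ ε : ℝ, 0 < ε → ∀ (Na : ℕ) (M1 : ℝ) (M' : ℕ), ∃ C : ℝ, 0 ≤ C ∧
    ∀ (h : E2 → ℝ) (f : E2 → ℂ) (R1 D1 r : ℝ), ParB B h → h 0 = 0 → fderiv ℝ h 0 = 0 →
    Measurable f → (∃ M, ∀ ξ, ‖f ξ‖ ≤ M) → (∀ ξ, 1 / 4 < ‖ξ‖ → f ξ = 0) → 0 ≤ D1 →
    PBox q Na h f R1 D1 → En f ≤ R1 ^ M1 * D1 → R1 = Kn * r → 144 ≤ r →
    St B q 6 2 (1/2) h (sel (r ^ (-(1/2) : ℝ)) f (fun _ => Metric.closedBall 0 (Kn * r))) r
      (C * R1 ^ ε * D1) ∧
    (∫⁻ ξ, ‖sel (r ^ (-(1/2) : ℝ)) f (fun _ => Metric.closedBall 0 (Kn * r)) ξ‖ₑ ^ 2 ≤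
      ENNReal.ofReal C * en (r ^ (-(1/2) : ℝ)) f (fun _ => Metric.closedBall 0 (Kn * r))) ∧
    (∀ p : E2 × ℝ, ‖p.1‖ ≤ 8 * r → |p.2| ≤ 8 * r →
      ‖ext h f p.1 p.2 -
        ext h (sel (r ^ (-(1/2) : ℝ)) f (fun _ => Metric.closedBall 0 (Kn * r))) p.1 p.2‖ₑ ^ 2 ≤
      ENNReal.ofReal (C * (r ^ (2 * M'))⁻¹) * ∫⁻ ξ, ‖f ξ‖ₑ ^ 2) := by
  set Kn : ℕ := ⌈(1 + 8 + 4 * 8 * (1 + |B 2|) : ℝ)⌉₊ with hKn
  have hB0 : 0 ≤ |B 2| := abs_nonneg _
  have hKn1 : (1 + 8 + 4 * 8 * (1 + |B 2|) : ℝ) ≤ Kn := Nat.le_ceil _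
  have hKn2 : (1:ℝ) ≤ Kn := by linarith
  refine ⟨Kn, by exact_mod_cast hKn2, ?_⟩
  intro ε hε Na M1 M'
  obtain ⟨C1, hC1, H1⟩ := Low448.low B hq (A := Kn) (by positivity) hε Na M1
  obtain ⟨C2, hC2, H2⟩ := Wpk685.pbox_sel B q
  obtain ⟨C3, hC3, H3⟩ := Wpk685.sel_energy
  obtain ⟨C4, hC4, H4⟩ := Wpk685.rest_small B 8 (by norm_num) M'
  refine ⟨C2 * (C1 * Kn ^ 3) + C3 * (C1 * Kn ^ 3) + C3 + C4, by positivity, ?_⟩
  intro h f R1 D1 r hh h0 h1 hf hfb hfs hD1 hbox hnd hR1 hr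
  set Ct : ℝ := C2 * (C1 * Kn ^ 3) + C3 * (C1 * Kn ^ 3) + C3 + C4 with hCt
  have hr1 : 1 ≤ r := by linarith
  have hr0 : 0 < r := by linarith
  set ρ : ℝ := r ^ (-(1/2) : ℝ) with hρd
  obtain ⟨hρ, hρ1, hρ2⟩ := Wpk685.rp_facts hr1
  have hρ12 : ρ ≤ 1 / 12 := by
    have h2 : ρ ^ 2 ≤ (1 / 12) ^ 2 := by
      rw [hρ2]
      calc r⁻¹ ≤ (144:ℝ)⁻¹ := inv_anti₀ (by norm_num) hr
        _ = (1 / 12) ^ 2 := by norm_num
    exact abs_le_of_sq_le_sq' h2 (by norm_num) |>.2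
  set S : ℤ × ℤ → Set E2 := fun _ => Metric.closedBall 0 (Kn * r) with hS
  have hrR1 : r ≤ R1 := by rw [hR1]; nlinarith
  have hR10 : 0 < R1 := by linarith
  have hfs' : ∀ ξ, (1 / 4 : ℝ) < ‖ξ - 0‖ → f ξ = 0 := by simpa using hfs
  have hfi : Integrable f := int_ball hf hfb hfs'
  have hf2 : MemLp f 2 := memLp_ball hf hfb hfs' 2
  have hfs2 : ∀ ξ, 2 < ‖ξ‖ → f ξ = 0 := fun ξ hξ => hfs ξ (by linarith)
  have hBs : Bs ρ S := ⟨fun m _ => Metric.isClosed_closedBall.measurableSet,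
    fun m _ => Metric.isBounded_closedBall⟩
  have hSR : ∀ y ∈ (Metric.closedBall 0 (Kn * r) : Set E2), ‖y + (0 : E2)‖ ≤ 3 * R1 := by
    intro y hy
    rw [mem_closedBall_zero_iff] at hy
    rw [add_zero, hR1]
    nlinarith
  have hsel := Wpk685.sel_int hρ hfi hBs
  -- LOW
  have hlow : ∀ (c : E2) (b : OrthonormalBasis (Fin 2) ℝ E2) (s : Fin 2 → ℝ),
      (∀ i, ρ ≤ s i ∧ s i ≤ 1) → ∀ (x : E2) (S' : ℤ × ℤ → Set E2), (∀ m, MeasurableSet (S' m)) →
      (∀ m, S' m ⊆ pbox h r c b (fun k => Kn * s k) x m) → (∀ m, S' m ⊆ S m) →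
      en ρ f S' ≤ ENNReal.ofReal ((C1 * Kn ^ 3) * (R1 ^ ε * D1) *
        (max (s 0) (s 1)) ^ q * (s 0 * s 1 * r ^ 2)) := by
    intro c b s hs x S' hS'm hS'b hS'S
    have h2 := H1 h f R1 D1 hh hf hfb ⟨1 / 4, hfs⟩ hD1 hbox hnd r hr1 hrR1 ((0 : E2), (0 : ℝ))
      (by simp; positivity) c b s hs x S' hS'm hS'b (fun m y hy => hSR y (hS'S m hy))
    rw [tr_zero] at h2
    have h3 : en ρ f S' = ENNReal.ofReal r⁻¹ * (ENNReal.ofReal r * en ρ f S') := by
      rw [← mul_assoc, ← ENNReal.ofReal_mul (by positivity), inv_mul_cancel₀ hr0.ne',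
        ENNReal.ofReal_one, one_mul]
    have h4 : 0 ≤ (max (s 0) (s 1)) ^ q :=
      Real.rpow_nonneg ((hρ.le.trans (hs 0).1).trans (le_max_left _ _)) _
    rw [h3]
    calc ENNReal.ofReal r⁻¹ * (ENNReal.ofReal r * en ρ f S')
        ≤ ENNReal.ofReal r⁻¹ * ENNReal.ofReal (C1 * R1 ^ ε *
          (D1 * (max (s 0) (s 1)) ^ q * (s 0 * s 1 * R1 ^ 3))) := by gcongr
      _ = _ := by
          rw [← ENNReal.ofReal_mul (by positivity), hR1]
          congr 1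
          field_simp
  set Dn : ℝ := (C1 * Kn ^ 3) * (R1 ^ ε * D1) with hDn
  have hRe : 0 ≤ R1 ^ ε := Real.rpow_nonneg hR10.le _
  have hDn0 : 0 ≤ Dn := by positivity
  -- density in the phase boxes
  have hdens : Dens q h r f S Dn := by
    intro c b s y0 hs
    refine hlow c b s hs y0 _ (fun m => Metric.isClosed_closedBall.measurableSet.inter
      (Wpk685.pbox_meas h r c b s y0 m)) (fun m y hy => ?_) (fun m y hy => hy.1)
    have hs0 : ∀ i, 0 ≤ s i := fun i => hρ.le.trans (hs i).1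
    refine ⟨fun i => (hy.2.1 i).trans ?_, fun i => (hy.2.2 i).trans ?_⟩
    · exact le_mul_of_one_le_left (hs0 i) hKn2
    · have h5 : s i ≤ Kn * s i := le_mul_of_one_le_left (hs0 i) hKn2
      exact mul_le_mul_of_nonneg_right h5 hr0.le
  have hP := H2 h hh r hr1 f hfi hfs2 S hBs Dn hDn0 hdens
  -- total energy
  have htot : en ρ f S ≤ ENNReal.ofReal (Dn * r ^ 2) := by
    set b0 : OrthonormalBasis (Fin 2) ℝ E2 := EuclideanSpace.basisFun (Fin 2) ℝ with hb0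
    set S' : ℤ × ℤ → Set E2 := fun m => S m ∩ pbox h r 0 b0 (fun _ => Kn * 1) 0 m with hS'
    have h2 := hlow 0 b0 (fun _ => 1) (fun _ => ⟨hρ1, le_rfl⟩) 0 S'
      (fun m => Metric.isClosed_closedBall.measurableSet.inter
        (Wpk685.pbox_meas h r 0 b0 _ 0 m)) (fun m y hy => hy.2) (fun m y hy => hy.1)
    have h3 : en ρ f S = en ρ f S' := by
      unfold en
      refine Finset.sum_congr rfl fun m hm => ?_
      have h4 : S m = S' m := by
        refine Set.Subset.antisymm (fun y hy => ⟨hy, ⟨fun i => ?_, fun i => ?_⟩⟩) fun y hy => hy.1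
        · have h5 := Wpk685.grad_le hh h1 (cen ρ m)
          have h6 := norm_cen_le hρ hρ1 hm
          have h7 : |inner ℝ (gradient h (cen ρ m) - 0) (b0 i)| ≤ ‖gradient h (cen ρ m)‖ := by
            rw [sub_zero]
            refine (abs_real_inner_le_norm _ _).trans ?_
            rw [b0.norm_eq_one, mul_one]
          refine h7.trans ?_
          nlinarith
        · have h8 : |inner ℝ (y - 0) (b0 i)| ≤ ‖y‖ := by
            rw [sub_zero]
            refine (abs_real_inner_le_norm _ _).trans ?_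
            rw [b0.norm_eq_one, mul_one]
          refine h8.trans ?_
          have h9 : ‖y‖ ≤ Kn * r := by
            have := hy
            rw [hS] at this
            exact mem_closedBall_zero_iff.1 this
          simpa using h9
      rw [h4]
    rw [h3]
    refine h2.trans (le_of_eq ?_)
    congr 1
    simp
  have hE : ∫⁻ ξ, ‖sel ρ f S ξ‖ₑ ^ 2 ≤ ENNReal.ofReal C3 * en ρ f S :=
    H3 ρ hρ hρ1 f hfi S hBs
  have hCt1 : C2 * (C1 * Kn ^ 3) ≤ Ct := by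
    have h2 : 0 ≤ C3 * (C1 * (Kn:ℝ) ^ 3) := by positivity
    rw [hCt]; linarith
  have hCt2 : C3 * (C1 * Kn ^ 3) ≤ Ct := by
    have h2 : 0 ≤ C2 * (C1 * (Kn:ℝ) ^ 3) := by positivity
    rw [hCt]; linarith
  have hCt3 : C3 ≤ Ct := by
    have h2 : 0 ≤ C2 * (C1 * (Kn:ℝ) ^ 3) := by positivity
    have h3 : 0 ≤ C3 * (C1 * (Kn:ℝ) ^ 3) := by positivity
    rw [hCt]; linarith
  have hCt4 : C4 ≤ Ct := by
    have h2 : 0 ≤ C2 * (C1 * (Kn:ℝ) ^ 3) := by positivity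
    have h3 : 0 ≤ C3 * (C1 * (Kn:ℝ) ^ 3) := by positivity
    rw [hCt]; linarith
  refine ⟨⟨hh, h0, h1, ?_, ?_, ?_, hr1, ?_, ?_, ?_⟩, ?_, ?_⟩
  · exact (Wpk685.sel_cont hfi hBs).measurable
  · exact Wpk685.sel_bdd hρ hfi hBs
  · intro ξ hξ
    exact Wpk685.sel_supp hρ hfs ξ (by linarith)
  · positivity
  · refine PBox_mono hr0 ?_ hP
    rw [hDn]
    calc C2 * (C1 * Kn ^ 3 * (R1 ^ ε * D1)) = (C2 * (C1 * Kn ^ 3)) * (R1 ^ ε * D1) := by ring
      _ ≤ Ct * (R1 ^ ε * D1) := by gcongr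
      _ = Ct * R1 ^ ε * D1 := by ring
  · refine En_le_of_lint hsel.2 (by positivity) (hE.trans ?_)
    calc ENNReal.ofReal C3 * en ρ f S ≤ ENNReal.ofReal C3 * ENNReal.ofReal (Dn * r ^ 2) := by gcongr
      _ = ENNReal.ofReal (C3 * (Dn * r ^ 2)) := (ENNReal.ofReal_mul hC3).symm
      _ ≤ _ := by
        apply ENNReal.ofReal_le_ofReal
        rw [hDn, Real.rpow_two]
        calc C3 * (C1 * Kn ^ 3 * (R1 ^ ε * D1) * r ^ 2) =
              (C3 * (C1 * Kn ^ 3)) * (R1 ^ ε * D1) * r ^ 2 := by ring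
          _ ≤ Ct * (R1 ^ ε * D1) * r ^ 2 := by gcongr
          _ = _ := by ring
  · exact hE.trans (by gcongr)
  · intro p hp1 hp2
    refine (H4 h hh h1 r hr1 f hfi hf2 hfs2 S hBs (fun m _ => ?_) p.1 p.2 hp1 hp2).trans ?_
    · exact Metric.closedBall_subset_closedBall (by gcongr)
    · gcongr

end Crest.Agent.R138.Zm858
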